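import Vale.Agent.Lib.P154.PChain.BB.L

set_option linter.all false

namespace Vale.Agent.Lib.P154.PChain.BB.S0

open Vale.Agent.Lib.P154.Chain

noncomputable def pc0 : PT := (PT.nd (nat_lit 7875504) (PT.nd (nat_lit 7663266) (PT.nd (nat_lit 7557108) (PT.nd (nat_lit 7504068) (PT.nd (nat_lit 7503990) (PT.nd (nat_lit 7450950) PT.nil (PT.lf (nat_lit 76) (nat_lit 3) (nat_lit 1) (nat_lit 1) (nat_lit 185) (nat_lit 140) (nat_lit 185))) (PT.lf (nat_lit 152) (nat_lit 6) (nat_lit 2) (nat_lit 3) (nat_lit 184) (nat_lit 141) (nat_lit 185))) (PT.nd (nat_lit 52962) (PT.lf (nat_lit 152) (nat_lit 6) (nat_lit 2) (nat_lit 1) (nat_lit 185) (nat_lit 141) (nat_lit 184)) (PT.lf (nat_lit 228) (nat_lit 6) (nat_lit 3) (nat_lit 3) (nat_lit 183) (nat_lit 142) (nat_lit 185)))) (PT.nd (nat_lit 53040) (PT.nd (nat_lit 78) (PT.lf (nat_lit 304) (nat_lit 3) (nat_lit 4) (nat_lit 1) (nat_lit 184) (nat_lit 142) (nat_lit 184))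 (PT.lf (nat_lit 228) (nat_lit 6) (nat_lit 3) (nat_lit 1) (nat_lit 185) (nat_lit 142) (nat_lit 183))) (PT.nd (nat_lit 78) (PT.lf (nat_lit 380) (nat_lit 6) (nat_lit 5) (nat_lit 3) (nat_lit 183) (nat_lit 143) (nat_lit 184)) (PT.lf (nat_lit 380) (nat_lit 6) (nat_lit 5) (nat_lit 1) (nat_lit 184) (nat_lit 143) (nat_lit 183))))) (PT.nd (nat_lit 106158) (PT.nd (nat_lit 53118) (PT.nd (nat_lit 53040) (PT.lf (nat_lit 456) (nat_lit 3) (nat_lit 6) (nat_lit 1) (nat_lit 183) (nat_lit 144) (nat_lit 183)) (PT.lf (nat_lit 532) (nat_lit 6) (nat_lit 7) (nat_lit 3) (nat_lit 182) (nat_lit 145) (nat_lit 183))) (PT.nd (nat_lit 52962) (PT.lf (nat_lit 532) (nat_lit 6) (nat_lit 7) (nat_lit 1) (nat_lit 183) (nat_lit 145) (nat_lit 182)) (PT.lf (nat_lit 608) (nat_lit 6) (nat_lit 8) (nat_lit 3) (nat_lit 181) (nat_lit 146) (nat_lit 183)))) (PT.nd (nat_lit 53040) (PT.nd (nat_lit 78) (PT.lf (nat_lit 684) (nat_lit 3) (nat_lit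 9) (nat_lit 1) (nat_lit 182) (nat_lit 146) (nat_lit 182)) (PT.lf (nat_lit 608) (nat_lit 6) (nat_lit 8) (nat_lit 1) (nat_lit 183) (nat_lit 146) (nat_lit 181))) (PT.nd (nat_lit 78) (PT.lf (nat_lit 760) (nat_lit 6) (nat_lit 10) (nat_lit 3) (nat_lit 181) (nat_lit 147) (nat_lit 182)) (PT.lf (nat_lit 760) (nat_lit 6) (nat_lit 10) (nat_lit 1) (nat_lit 182) (nat_lit 147) (nat_lit 181)))))) (PT.nd (nat_lit 159276) (PT.nd (nat_lit 53196) (PT.nd (nat_lit 156) (PT.nd (nat_lit 78) (PT.lf (nat_lit 836) (nat_lit 6) (nat_lit 11) (nat_lit 3) (nat_lit 180) (nat_lit 148) (nat_lit 182)) (PT.lf (nat_lit 912) (nat_lit 3) (nat_lit 12) (nat_lit 1) (nat_lit 181) (nat_lit 148) (nat_lit 181))) (PT.nd (nat_lit 52962) (PT.lf (nat_lit 836) (nat_lit 6) (nat_lit 11) (nat_lit 1) (nat_lit 182) (nat_lit 148) (nat_lit 180)) (PT.lf (nat_lit 988) (nat_lit 6) (nat_lit 13) (nat_lit 3) (nat_lit 180) (nat_lit 149) (nat_lit 181))))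 (PT.nd (nat_lit 53040) (PT.nd (nat_lit 52962) (PT.lf (nat_lit 988) (nat_lit 6) (nat_lit 13) (nat_lit 1) (nat_lit 181) (nat_lit 149) (nat_lit 180)) (PT.lf (nat_lit 1064) (nat_lit 6) (nat_lit 14) (nat_lit 3) (nat_lit 179) (nat_lit 150) (nat_lit 181))) (PT.nd (nat_lit 78) (PT.lf (nat_lit 1140) (nat_lit 3) (nat_lit 15) (nat_lit 1) (nat_lit 180) (nat_lit 150) (nat_lit 180)) (PT.lf (nat_lit 1064) (nat_lit 6) (nat_lit 14) (nat_lit 1) (nat_lit 181) (nat_lit 150) (nat_lit 179))))) (PT.nd (nat_lit 53196) (PT.nd (nat_lit 53040) (PT.nd (nat_lit 78) (PT.lf (nat_lit 1216) (nat_lit 6) (nat_lit 16) (nat_lit 3) (nat_lit 179) (nat_lit 151) (nat_lit 180)) (PT.lf (nat_lit 1216) (nat_lit 6) (nat_lit 16) (nat_lit 1) (nat_lit 180) (nat_lit 151) (nat_lit 179))) (PT.nd (nat_lit 78) (PT.lf (nat_lit 1292) (nat_lit 6) (nat_lit 17) (nat_lit 3) (nat_lit 178) (nat_lit 152) (nat_lit 180)) (PT.lf (nat_lit 1368) (nat_lit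 3) (nat_lit 18) (nat_lit 1) (nat_lit 179) (nat_lit 152) (nat_lit 179)))) (PT.nd (nat_lit 53040) (PT.nd (nat_lit 52962) (PT.lf (nat_lit 1292) (nat_lit 6) (nat_lit 17) (nat_lit 1) (nat_lit 180) (nat_lit 152) (nat_lit 178)) (PT.lf (nat_lit 1444) (nat_lit 6) (nat_lit 19) (nat_lit 3) (nat_lit 178) (nat_lit 153) (nat_lit 179))) (PT.nd (nat_lit 52962) (PT.lf (nat_lit 1444) (nat_lit 6) (nat_lit 19) (nat_lit 1) (nat_lit 179) (nat_lit 153) (nat_lit 178)) (PT.nd (nat_lit 78) (PT.lf (nat_lit 1520) (nat_lit 6) (nat_lit 20) (nat_lit 3) (nat_lit 177) (nat_lit 154) (nat_lit 179)) (PT.lf (nat_lit 1596) (nat_lit 3) (nat_lit 21) (nat_lit 1) (nat_lit 178) (nat_lit 154) (nat_lit 178))))))))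
noncomputable def pc1 : PT := (PT.nd (nat_lit 371436) (PT.nd (nat_lit 212160) (PT.nd (nat_lit 106080) (PT.nd (nat_lit 53040) (PT.nd (nat_lit 52962) (PT.lf (nat_lit 1520) (nat_lit 6) (nat_lit 20) (nat_lit 1) (nat_lit 179) (nat_lit 154) (nat_lit 177)) (PT.lf (nat_lit 1672) (nat_lit 6) (nat_lit 22) (nat_lit 3) (nat_lit 177) (nat_lit 155) (nat_lit 178))) (PT.nd (nat_lit 52962) (PT.lf (nat_lit 1672) (nat_lit 6) (nat_lit 22) (nat_lit 1) (nat_lit 178) (nat_lit 155) (nat_lit 177)) (PT.lf (nat_lit 1748) (nat_lit 6) (nat_lit 23) (nat_lit 3) (nat_lit 176) (nat_lit 156) (nat_lit 178)))) (PT.nd (nat_lit 53040) (PT.nd (nat_lit 78) (PT.lf (nat_lit 1824) (nat_lit 3) (nat_lit 24) (nat_lit 1) (nat_lit 177) (nat_lit 156) (nat_lit 177)) (PT.lf (nat_lit 1748) (nat_lit 6) (nat_lit 23) (nat_lit 1) (nat_lit 178) (nat_lit 156) (nat_lit 176))) (PT.nd (nat_lit 78) (PT.lf (nat_lit 1900) (nat_lit 6) (nat_lit 25) (nat_lit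 3) (nat_lit 176) (nat_lit 157) (nat_lit 177)) (PT.lf (nat_lit 1900) (nat_lit 6) (nat_lit 25) (nat_lit 1) (nat_lit 177) (nat_lit 157) (nat_lit 176))))) (PT.nd (nat_lit 53196) (PT.nd (nat_lit 156) (PT.nd (nat_lit 78) (PT.lf (nat_lit 1976) (nat_lit 6) (nat_lit 26) (nat_lit 3) (nat_lit 175) (nat_lit 158) (nat_lit 177)) (PT.lf (nat_lit 2052) (nat_lit 3) (nat_lit 27) (nat_lit 1) (nat_lit 176) (nat_lit 158) (nat_lit 176))) (PT.nd (nat_lit 52962) (PT.lf (nat_lit 1976) (nat_lit 6) (nat_lit 26) (nat_lit 1) (nat_lit 177) (nat_lit 158) (nat_lit 175)) (PT.lf (nat_lit 2128) (nat_lit 6) (nat_lit 28) (nat_lit 3) (nat_lit 175) (nat_lit 159) (nat_lit 176)))) (PT.nd (nat_lit 53040) (PT.nd (nat_lit 52962) (PT.lf (nat_lit 2128) (nat_lit 6) (nat_lit 28) (nat_lit 1) (nat_lit 176) (nat_lit 159) (nat_lit 175)) (PT.lf (nat_lit 2204) (nat_lit 6) (nat_lit 29) (nat_lit 3) (nat_lit 174) (nat_lit 160) (nat_lit 176)))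 (PT.nd (nat_lit 78) (PT.lf (nat_lit 2280) (nat_lit 3) (nat_lit 30) (nat_lit 1) (nat_lit 175) (nat_lit 160) (nat_lit 175)) (PT.nd (nat_lit 52884) (PT.lf (nat_lit 2204) (nat_lit 6) (nat_lit 29) (nat_lit 1) (nat_lit 176) (nat_lit 160) (nat_lit 174)) (PT.lf (nat_lit 2356) (nat_lit 6) (nat_lit 31) (nat_lit 3) (nat_lit 173) (nat_lit 161) (nat_lit 176))))))) (PT.nd (nat_lit 106236) (PT.nd (nat_lit 53118) (PT.nd (nat_lit 156) (PT.nd (nat_lit 78) (PT.lf (nat_lit 2432) (nat_lit 6) (nat_lit 32) (nat_lit 3) (nat_lit 174) (nat_lit 161) (nat_lit 175)) (PT.lf (nat_lit 2432) (nat_lit 6) (nat_lit 32) (nat_lit 1) (nat_lit 175) (nat_lit 161) (nat_lit 174))) (PT.nd (nat_lit 52884) (PT.lf (nat_lit 2356) (nat_lit 6) (nat_lit 31) (nat_lit 1) (nat_lit 176) (nat_lit 161) (nat_lit 173)) (PT.lf (nat_lit 2508) (nat_lit 6) (nat_lit 33) (nat_lit 3) (nat_lit 173) (nat_lit 162) (nat_lit 175)))) (PT.nd (nat_lit 52962) (PT.nd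 (nat_lit 78) (PT.lf (nat_lit 2584) (nat_lit 3) (nat_lit 34) (nat_lit 1) (nat_lit 174) (nat_lit 162) (nat_lit 174)) (PT.lf (nat_lit 2508) (nat_lit 6) (nat_lit 33) (nat_lit 1) (nat_lit 175) (nat_lit 162) (nat_lit 173))) (PT.nd (nat_lit 78) (PT.lf (nat_lit 2660) (nat_lit 6) (nat_lit 35) (nat_lit 3) (nat_lit 172) (nat_lit 163) (nat_lit 175)) (PT.lf (nat_lit 2736) (nat_lit 6) (nat_lit 36) (nat_lit 3) (nat_lit 173) (nat_lit 163) (nat_lit 174))))) (PT.nd (nat_lit 53040) (PT.nd (nat_lit 52884) (PT.nd (nat_lit 78) (PT.lf (nat_lit 2736) (nat_lit 6) (nat_lit 36) (nat_lit 1) (nat_lit 174) (nat_lit 163) (nat_lit 173)) (PT.lf (nat_lit 2660) (nat_lit 6) (nat_lit 35) (nat_lit 1) (nat_lit 175) (nat_lit 163) (nat_lit 172))) (PT.nd (nat_lit 78) (PT.lf (nat_lit 2812) (nat_lit 6) (nat_lit 37) (nat_lit 3) (nat_lit 171) (nat_lit 164) (nat_lit 175)) (PT.lf (nat_lit 2888) (nat_lit 6) (nat_lit 38) (nat_lit 3) (nat_lit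 172) (nat_lit 164) (nat_lit 174)))) (PT.nd (nat_lit 156) (PT.nd (nat_lit 78) (PT.lf (nat_lit 2964) (nat_lit 3) (nat_lit 39) (nat_lit 1) (nat_lit 173) (nat_lit 164) (nat_lit 173)) (PT.lf (nat_lit 2888) (nat_lit 6) (nat_lit 38) (nat_lit 1) (nat_lit 174) (nat_lit 164) (nat_lit 172))) (PT.nd (nat_lit 52806) (PT.lf (nat_lit 2812) (nat_lit 6) (nat_lit 37) (nat_lit 1) (nat_lit 175) (nat_lit 164) (nat_lit 171)) (PT.nd (nat_lit 78) (PT.lf (nat_lit 3040) (nat_lit 6) (nat_lit 40) (nat_lit 3) (nat_lit 171) (nat_lit 165) (nat_lit 174)) (PT.lf (nat_lit 3116) (nat_lit 6) (nat_lit 41) (nat_lit 3) (nat_lit 172) (nat_lit 165) (nat_lit 173))))))))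
noncomputable def pc2 : PT := (PT.nd (nat_lit 159198) (PT.nd (nat_lit 106002) (PT.nd (nat_lit 53040) (PT.nd (nat_lit 52884) (PT.nd (nat_lit 78) (PT.lf (nat_lit 3116) (nat_lit 6) (nat_lit 41) (nat_lit 1) (nat_lit 173) (nat_lit 165) (nat_lit 172)) (PT.lf (nat_lit 3040) (nat_lit 6) (nat_lit 40) (nat_lit 1) (nat_lit 174) (nat_lit 165) (nat_lit 171))) (PT.nd (nat_lit 78) (PT.lf (nat_lit 3344) (nat_lit 6) (nat_lit 44) (nat_lit 3) (nat_lit 170) (nat_lit 166) (nat_lit 174)) (PT.lf (nat_lit 3420) (nat_lit 6) (nat_lit 45) (nat_lit 3) (nat_lit 171) (nat_lit 166) (nat_lit 173)))) (PT.nd (nat_lit 156) (PT.nd (nat_lit 78) (PT.lf (nat_lit 3496) (nat_lit 3) (nat_lit 46) (nat_lit 1) (nat_lit 172) (nat_lit 166) (nat_lit 172)) (PT.lf (nat_lit 3420) (nat_lit 6) (nat_lit 45) (nat_lit 1) (nat_lit 173) (nat_lit 166) (nat_lit 171))) (PT.nd (nat_lit 52728) (PT.lf (nat_lit 3344) (nat_lit 6) (nat_lit 44) (nat_lit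 1) (nat_lit 174) (nat_lit 166) (nat_lit 170)) (PT.lf (nat_lit 3268) (nat_lit 6) (nat_lit 43) (nat_lit 3) (nat_lit 169) (nat_lit 167) (nat_lit 174))))) (PT.nd (nat_lit 312) (PT.nd (nat_lit 156) (PT.nd (nat_lit 78) (PT.lf (nat_lit 3648) (nat_lit 6) (nat_lit 48) (nat_lit 3) (nat_lit 170) (nat_lit 167) (nat_lit 173)) (PT.lf (nat_lit 3724) (nat_lit 6) (nat_lit 49) (nat_lit 3) (nat_lit 171) (nat_lit 167) (nat_lit 172))) (PT.nd (nat_lit 78) (PT.lf (nat_lit 3724) (nat_lit 6) (nat_lit 49) (nat_lit 1) (nat_lit 172) (nat_lit 167) (nat_lit 171)) (PT.lf (nat_lit 3648) (nat_lit 6) (nat_lit 48) (nat_lit 1) (nat_lit 173) (nat_lit 167) (nat_lit 170)))) (PT.nd (nat_lit 52728) (PT.nd (nat_lit 52650) (PT.lf (nat_lit 3268) (nat_lit 6) (nat_lit 43) (nat_lit 1) (nat_lit 174) (nat_lit 167) (nat_lit 169)) (PT.lf (nat_lit 3192) (nat_lit 3) (nat_lit 42) (nat_lit 3) (nat_lit 168) (nat_lit 168) (nat_lit 174))) (PT.nd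 (nat_lit 78) (PT.lf (nat_lit 3572) (nat_lit 6) (nat_lit 47) (nat_lit 3) (nat_lit 169) (nat_lit 168) (nat_lit 173)) (PT.lf (nat_lit 3876) (nat_lit 6) (nat_lit 51) (nat_lit 3) (nat_lit 170) (nat_lit 168) (nat_lit 172)))))) (PT.nd (nat_lit 53118) (PT.nd (nat_lit 52806) (PT.nd (nat_lit 156) (PT.nd (nat_lit 78) (PT.lf (nat_lit 3952) (nat_lit 3) (nat_lit 52) (nat_lit 1) (nat_lit 171) (nat_lit 168) (nat_lit 171)) (PT.lf (nat_lit 3876) (nat_lit 6) (nat_lit 51) (nat_lit 1) (nat_lit 172) (nat_lit 168) (nat_lit 170))) (PT.nd (nat_lit 78) (PT.lf (nat_lit 3572) (nat_lit 6) (nat_lit 47) (nat_lit 1) (nat_lit 173) (nat_lit 168) (nat_lit 169)) (PT.lf (nat_lit 3192) (nat_lit 3) (nat_lit 42) (nat_lit 0) (nat_lit 174) (nat_lit 168) (nat_lit 168)))) (PT.nd (nat_lit 156) (PT.nd (nat_lit 78) (PT.lf (nat_lit 3268) (nat_lit 6) (nat_lit 43) (nat_lit 5) (nat_lit 167) (nat_lit 169) (nat_lit 174)) (PT.lf (nat_lit 3572)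 (nat_lit 6) (nat_lit 47) (nat_lit 5) (nat_lit 168) (nat_lit 169) (nat_lit 173))) (PT.nd (nat_lit 78) (PT.lf (nat_lit 3800) (nat_lit 3) (nat_lit 50) (nat_lit 3) (nat_lit 169) (nat_lit 169) (nat_lit 172)) (PT.lf (nat_lit 4028) (nat_lit 6) (nat_lit 53) (nat_lit 3) (nat_lit 170) (nat_lit 169) (nat_lit 171))))) (PT.nd (nat_lit 52728) (PT.nd (nat_lit 156) (PT.nd (nat_lit 78) (PT.lf (nat_lit 4028) (nat_lit 6) (nat_lit 53) (nat_lit 1) (nat_lit 171) (nat_lit 169) (nat_lit 170)) (PT.lf (nat_lit 3800) (nat_lit 3) (nat_lit 50) (nat_lit 0) (nat_lit 172) (nat_lit 169) (nat_lit 169))) (PT.nd (nat_lit 78) (PT.lf (nat_lit 3572) (nat_lit 6) (nat_lit 47) (nat_lit 0) (nat_lit 173) (nat_lit 169) (nat_lit 168)) (PT.lf (nat_lit 3268) (nat_lit 6) (nat_lit 43) (nat_lit 0) (nat_lit 174) (nat_lit 169) (nat_lit 167)))) (PT.nd (nat_lit 156) (PT.nd (nat_lit 78) (PT.lf (nat_lit 3344) (nat_lit 6) (nat_lit 44) (nat_lit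 5) (nat_lit 166) (nat_lit 170) (nat_lit 174)) (PT.lf (nat_lit 3648) (nat_lit 6) (nat_lit 48) (nat_lit 5) (nat_lit 167) (nat_lit 170) (nat_lit 173))) (PT.nd (nat_lit 78) (PT.lf (nat_lit 3876) (nat_lit 6) (nat_lit 51) (nat_lit 5) (nat_lit 168) (nat_lit 170) (nat_lit 172)) (PT.nd (nat_lit 78) (PT.lf (nat_lit 4028) (nat_lit 6) (nat_lit 53) (nat_lit 5) (nat_lit 169) (nat_lit 170) (nat_lit 171)) (PT.lf (nat_lit 4104) (nat_lit 1) (nat_lit 54) (nat_lit 0) (nat_lit 170) (nat_lit 170) (nat_lit 170))))))))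
noncomputable def pc3 : PT := (PT.nd (nat_lit 105690) (PT.nd (nat_lit 52884) (PT.nd (nat_lit 52572) (PT.nd (nat_lit 156) (PT.nd (nat_lit 78) (PT.lf (nat_lit 4028) (nat_lit 6) (nat_lit 53) (nat_lit 0) (nat_lit 171) (nat_lit 170) (nat_lit 169)) (PT.lf (nat_lit 3876) (nat_lit 6) (nat_lit 51) (nat_lit 0) (nat_lit 172) (nat_lit 170) (nat_lit 168))) (PT.nd (nat_lit 78) (PT.lf (nat_lit 3648) (nat_lit 6) (nat_lit 48) (nat_lit 0) (nat_lit 173) (nat_lit 170) (nat_lit 167)) (PT.lf (nat_lit 3344) (nat_lit 6) (nat_lit 44) (nat_lit 0) (nat_lit 174) (nat_lit 170) (nat_lit 166)))) (PT.nd (nat_lit 156) (PT.nd (nat_lit 78) (PT.lf (nat_lit 2812) (nat_lit 6) (nat_lit 37) (nat_lit 5) (nat_lit 164) (nat_lit 171) (nat_lit 175)) (PT.lf (nat_lit 3040) (nat_lit 6) (nat_lit 40) (nat_lit 5) (nat_lit 165) (nat_lit 171) (nat_lit 174))) (PT.nd (nat_lit 78) (PT.lf (nat_lit 3420) (nat_lit 6) (nat_lit 45) (nat_lit 5) (nat_lit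 166) (nat_lit 171) (nat_lit 173)) (PT.lf (nat_lit 3724) (nat_lit 6) (nat_lit 49) (nat_lit 5) (nat_lit 167) (nat_lit 171) (nat_lit 172))))) (PT.nd (nat_lit 312) (PT.nd (nat_lit 156) (PT.nd (nat_lit 78) (PT.lf (nat_lit 3952) (nat_lit 3) (nat_lit 52) (nat_lit 4) (nat_lit 168) (nat_lit 171) (nat_lit 171)) (PT.lf (nat_lit 4028) (nat_lit 6) (nat_lit 53) (nat_lit 4) (nat_lit 169) (nat_lit 171) (nat_lit 170))) (PT.nd (nat_lit 78) (PT.lf (nat_lit 4028) (nat_lit 6) (nat_lit 53) (nat_lit 2) (nat_lit 170) (nat_lit 171) (nat_lit 169)) (PT.lf (nat_lit 3952) (nat_lit 3) (nat_lit 52) (nat_lit 0) (nat_lit 171) (nat_lit 171) (nat_lit 168)))) (PT.nd (nat_lit 156) (PT.nd (nat_lit 78) (PT.lf (nat_lit 3724) (nat_lit 6) (nat_lit 49) (nat_lit 0) (nat_lit 172) (nat_lit 171) (nat_lit 167)) (PT.lf (nat_lit 3420) (nat_lit 6) (nat_lit 45) (nat_lit 0) (nat_lit 173) (nat_lit 171) (nat_lit 166))) (PT.nd (nat_lit 78) (PT.lf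 (nat_lit 3040) (nat_lit 6) (nat_lit 40) (nat_lit 0) (nat_lit 174) (nat_lit 171) (nat_lit 165)) (PT.nd (nat_lit 52182) (PT.lf (nat_lit 2812) (nat_lit 6) (nat_lit 37) (nat_lit 0) (nat_lit 175) (nat_lit 171) (nat_lit 164)) (PT.lf (nat_lit 2660) (nat_lit 6) (nat_lit 35) (nat_lit 5) (nat_lit 163) (nat_lit 172) (nat_lit 175))))))) (PT.nd (nat_lit 624) (PT.nd (nat_lit 312) (PT.nd (nat_lit 156) (PT.nd (nat_lit 78) (PT.lf (nat_lit 2888) (nat_lit 6) (nat_lit 38) (nat_lit 5) (nat_lit 164) (nat_lit 172) (nat_lit 174)) (PT.lf (nat_lit 3116) (nat_lit 6) (nat_lit 41) (nat_lit 5) (nat_lit 165) (nat_lit 172) (nat_lit 173))) (PT.nd (nat_lit 78) (PT.lf (nat_lit 3496) (nat_lit 3) (nat_lit 46) (nat_lit 4) (nat_lit 166) (nat_lit 172) (nat_lit 172)) (PT.lf (nat_lit 3724) (nat_lit 6) (nat_lit 49) (nat_lit 4) (nat_lit 167) (nat_lit 172) (nat_lit 171)))) (PT.nd (nat_lit 156) (PT.nd (nat_lit 78) (PT.lf (nat_lit 3876)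 (nat_lit 6) (nat_lit 51) (nat_lit 4) (nat_lit 168) (nat_lit 172) (nat_lit 170)) (PT.lf (nat_lit 3800) (nat_lit 3) (nat_lit 50) (nat_lit 2) (nat_lit 169) (nat_lit 172) (nat_lit 169))) (PT.nd (nat_lit 78) (PT.lf (nat_lit 3876) (nat_lit 6) (nat_lit 51) (nat_lit 2) (nat_lit 170) (nat_lit 172) (nat_lit 168)) (PT.lf (nat_lit 3724) (nat_lit 6) (nat_lit 49) (nat_lit 2) (nat_lit 171) (nat_lit 172) (nat_lit 167))))) (PT.nd (nat_lit 52260) (PT.nd (nat_lit 156) (PT.nd (nat_lit 78) (PT.lf (nat_lit 3496) (nat_lit 3) (nat_lit 46) (nat_lit 0) (nat_lit 172) (nat_lit 172) (nat_lit 166)) (PT.lf (nat_lit 3116) (nat_lit 6) (nat_lit 41) (nat_lit 0) (nat_lit 173) (nat_lit 172) (nat_lit 165))) (PT.nd (nat_lit 78) (PT.lf (nat_lit 2888) (nat_lit 6) (nat_lit 38) (nat_lit 0) (nat_lit 174) (nat_lit 172) (nat_lit 164)) (PT.lf (nat_lit 2660) (nat_lit 6) (nat_lit 35) (nat_lit 0) (nat_lit 175) (nat_lit 172) (nat_lit 163))))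 (PT.nd (nat_lit 156) (PT.nd (nat_lit 78) (PT.lf (nat_lit 2356) (nat_lit 6) (nat_lit 31) (nat_lit 5) (nat_lit 161) (nat_lit 173) (nat_lit 176)) (PT.lf (nat_lit 2508) (nat_lit 6) (nat_lit 33) (nat_lit 5) (nat_lit 162) (nat_lit 173) (nat_lit 175))) (PT.nd (nat_lit 78) (PT.lf (nat_lit 2736) (nat_lit 6) (nat_lit 36) (nat_lit 5) (nat_lit 163) (nat_lit 173) (nat_lit 174)) (PT.nd (nat_lit 78) (PT.lf (nat_lit 2964) (nat_lit 3) (nat_lit 39) (nat_lit 4) (nat_lit 164) (nat_lit 173) (nat_lit 173)) (PT.lf (nat_lit 3116) (nat_lit 6) (nat_lit 41) (nat_lit 4) (nat_lit 165) (nat_lit 173) (nat_lit 172))))))))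
noncomputable def pc4 : PT := (PT.nd (nat_lit 53040) (PT.nd (nat_lit 624) (PT.nd (nat_lit 312) (PT.nd (nat_lit 156) (PT.nd (nat_lit 78) (PT.lf (nat_lit 3420) (nat_lit 6) (nat_lit 45) (nat_lit 4) (nat_lit 166) (nat_lit 173) (nat_lit 171)) (PT.lf (nat_lit 3648) (nat_lit 6) (nat_lit 48) (nat_lit 4) (nat_lit 167) (nat_lit 173) (nat_lit 170))) (PT.nd (nat_lit 78) (PT.lf (nat_lit 3572) (nat_lit 6) (nat_lit 47) (nat_lit 4) (nat_lit 168) (nat_lit 173) (nat_lit 169)) (PT.lf (nat_lit 3572) (nat_lit 6) (nat_lit 47) (nat_lit 2) (nat_lit 169) (nat_lit 173) (nat_lit 168)))) (PT.nd (nat_lit 156) (PT.nd (nat_lit 78) (PT.lf (nat_lit 3648) (nat_lit 6) (nat_lit 48) (nat_lit 2) (nat_lit 170) (nat_lit 173) (nat_lit 167)) (PT.lf (nat_lit 3420) (nat_lit 6) (nat_lit 45) (nat_lit 2) (nat_lit 171) (nat_lit 173) (nat_lit 166))) (PT.nd (nat_lit 78) (PT.lf (nat_lit 3116) (nat_lit 6) (nat_lit 41) (nat_lit 2) (nat_lit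 172) (nat_lit 173) (nat_lit 165)) (PT.lf (nat_lit 2964) (nat_lit 3) (nat_lit 39) (nat_lit 0) (nat_lit 173) (nat_lit 173) (nat_lit 164))))) (PT.nd (nat_lit 52104) (PT.nd (nat_lit 156) (PT.nd (nat_lit 78) (PT.lf (nat_lit 2736) (nat_lit 6) (nat_lit 36) (nat_lit 0) (nat_lit 174) (nat_lit 173) (nat_lit 163)) (PT.lf (nat_lit 2508) (nat_lit 6) (nat_lit 33) (nat_lit 0) (nat_lit 175) (nat_lit 173) (nat_lit 162))) (PT.nd (nat_lit 51870) (PT.lf (nat_lit 2356) (nat_lit 6) (nat_lit 31) (nat_lit 0) (nat_lit 176) (nat_lit 173) (nat_lit 161)) (PT.lf (nat_lit 2204) (nat_lit 6) (nat_lit 29) (nat_lit 5) (nat_lit 160) (nat_lit 174) (nat_lit 176)))) (PT.nd (nat_lit 156) (PT.nd (nat_lit 78) (PT.lf (nat_lit 2432) (nat_lit 6) (nat_lit 32) (nat_lit 5) (nat_lit 161) (nat_lit 174) (nat_lit 175)) (PT.lf (nat_lit 2584) (nat_lit 3) (nat_lit 34) (nat_lit 4) (nat_lit 162) (nat_lit 174) (nat_lit 174))) (PT.nd (nat_lit 78)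 (PT.lf (nat_lit 2736) (nat_lit 6) (nat_lit 36) (nat_lit 4) (nat_lit 163) (nat_lit 174) (nat_lit 173)) (PT.lf (nat_lit 2888) (nat_lit 6) (nat_lit 38) (nat_lit 4) (nat_lit 164) (nat_lit 174) (nat_lit 172)))))) (PT.nd (nat_lit 624) (PT.nd (nat_lit 312) (PT.nd (nat_lit 156) (PT.nd (nat_lit 78) (PT.lf (nat_lit 3040) (nat_lit 6) (nat_lit 40) (nat_lit 4) (nat_lit 165) (nat_lit 174) (nat_lit 171)) (PT.lf (nat_lit 3344) (nat_lit 6) (nat_lit 44) (nat_lit 4) (nat_lit 166) (nat_lit 174) (nat_lit 170))) (PT.nd (nat_lit 78) (PT.lf (nat_lit 3268) (nat_lit 6) (nat_lit 43) (nat_lit 4) (nat_lit 167) (nat_lit 174) (nat_lit 169)) (PT.lf (nat_lit 3192) (nat_lit 3) (nat_lit 42) (nat_lit 2) (nat_lit 168) (nat_lit 174) (nat_lit 168)))) (PT.nd (nat_lit 156) (PT.nd (nat_lit 78) (PT.lf (nat_lit 3268) (nat_lit 6) (nat_lit 43) (nat_lit 2) (nat_lit 169) (nat_lit 174) (nat_lit 167)) (PT.lf (nat_lit 3344) (nat_lit 6) (nat_lit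 44) (nat_lit 2) (nat_lit 170) (nat_lit 174) (nat_lit 166))) (PT.nd (nat_lit 78) (PT.lf (nat_lit 3040) (nat_lit 6) (nat_lit 40) (nat_lit 2) (nat_lit 171) (nat_lit 174) (nat_lit 165)) (PT.lf (nat_lit 2888) (nat_lit 6) (nat_lit 38) (nat_lit 2) (nat_lit 172) (nat_lit 174) (nat_lit 164))))) (PT.nd (nat_lit 51948) (PT.nd (nat_lit 156) (PT.nd (nat_lit 78) (PT.lf (nat_lit 2736) (nat_lit 6) (nat_lit 36) (nat_lit 2) (nat_lit 173) (nat_lit 174) (nat_lit 163)) (PT.lf (nat_lit 2584) (nat_lit 3) (nat_lit 34) (nat_lit 0) (nat_lit 174) (nat_lit 174) (nat_lit 162))) (PT.nd (nat_lit 78) (PT.lf (nat_lit 2432) (nat_lit 6) (nat_lit 32) (nat_lit 0) (nat_lit 175) (nat_lit 174) (nat_lit 161)) (PT.lf (nat_lit 2204) (nat_lit 6) (nat_lit 29) (nat_lit 0) (nat_lit 176) (nat_lit 174) (nat_lit 160)))) (PT.nd (nat_lit 156) (PT.nd (nat_lit 78) (PT.lf (nat_lit 1976) (nat_lit 6) (nat_lit 26) (nat_lit 5) (nat_lit 158) (nat_lit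 175) (nat_lit 177)) (PT.lf (nat_lit 2128) (nat_lit 6) (nat_lit 28) (nat_lit 5) (nat_lit 159) (nat_lit 175) (nat_lit 176))) (PT.nd (nat_lit 78) (PT.lf (nat_lit 2280) (nat_lit 3) (nat_lit 30) (nat_lit 4) (nat_lit 160) (nat_lit 175) (nat_lit 175)) (PT.nd (nat_lit 78) (PT.lf (nat_lit 2432) (nat_lit 6) (nat_lit 32) (nat_lit 4) (nat_lit 161) (nat_lit 175) (nat_lit 174)) (PT.lf (nat_lit 2508) (nat_lit 6) (nat_lit 33) (nat_lit 4) (nat_lit 162) (nat_lit 175) (nat_lit 173))))))))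
noncomputable def pc5 : PT := (PT.nd (nat_lit 54054) (PT.nd (nat_lit 1092) (PT.nd (nat_lit 780) (PT.nd (nat_lit 624) (PT.nd (nat_lit 78) (PT.lf (nat_lit 2660) (nat_lit 6) (nat_lit 35) (nat_lit 4) (nat_lit 163) (nat_lit 175) (nat_lit 172)) (PT.lf (nat_lit 2812) (nat_lit 6) (nat_lit 37) (nat_lit 4) (nat_lit 164) (nat_lit 175) (nat_lit 171))) (PT.nd (nat_lit 78) (PT.lf (nat_lit 2812) (nat_lit 6) (nat_lit 37) (nat_lit 2) (nat_lit 171) (nat_lit 175) (nat_lit 164)) (PT.lf (nat_lit 2660) (nat_lit 6) (nat_lit 35) (nat_lit 2) (nat_lit 172) (nat_lit 175) (nat_lit 163)))) (PT.nd (nat_lit 156) (PT.nd (nat_lit 78) (PT.lf (nat_lit 2508) (nat_lit 6) (nat_lit 33) (nat_lit 2) (nat_lit 173) (nat_lit 175) (nat_lit 162)) (PT.lf (nat_lit 2432) (nat_lit 6) (nat_lit 32) (nat_lit 2) (nat_lit 174) (nat_lit 175) (nat_lit 161))) (PT.nd (nat_lit 78) (PT.lf (nat_lit 2280) (nat_lit 3) (nat_lit 30) (nat_lit 0) (nat_lit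 175) (nat_lit 175) (nat_lit 160)) (PT.lf (nat_lit 2128) (nat_lit 6) (nat_lit 28) (nat_lit 0) (nat_lit 176) (nat_lit 175) (nat_lit 159))))) (PT.nd (nat_lit 51714) (PT.nd (nat_lit 51558) (PT.nd (nat_lit 51480) (PT.lf (nat_lit 1976) (nat_lit 6) (nat_lit 26) (nat_lit 0) (nat_lit 177) (nat_lit 175) (nat_lit 158)) (PT.lf (nat_lit 1748) (nat_lit 6) (nat_lit 23) (nat_lit 5) (nat_lit 156) (nat_lit 176) (nat_lit 178))) (PT.nd (nat_lit 78) (PT.lf (nat_lit 1900) (nat_lit 6) (nat_lit 25) (nat_lit 5) (nat_lit 157) (nat_lit 176) (nat_lit 177)) (PT.lf (nat_lit 2052) (nat_lit 3) (nat_lit 27) (nat_lit 4) (nat_lit 158) (nat_lit 176) (nat_lit 176)))) (PT.nd (nat_lit 156) (PT.nd (nat_lit 78) (PT.lf (nat_lit 2128) (nat_lit 6) (nat_lit 28) (nat_lit 4) (nat_lit 159) (nat_lit 176) (nat_lit 175)) (PT.lf (nat_lit 2204) (nat_lit 6) (nat_lit 29) (nat_lit 4) (nat_lit 160) (nat_lit 176) (nat_lit 174))) (PT.nd (nat_lit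 936) (PT.lf (nat_lit 2356) (nat_lit 6) (nat_lit 31) (nat_lit 4) (nat_lit 161) (nat_lit 176) (nat_lit 173)) (PT.nd (nat_lit 78) (PT.lf (nat_lit 2356) (nat_lit 6) (nat_lit 31) (nat_lit 2) (nat_lit 173) (nat_lit 176) (nat_lit 161)) (PT.lf (nat_lit 2204) (nat_lit 6) (nat_lit 29) (nat_lit 2) (nat_lit 174) (nat_lit 176) (nat_lit 160))))))) (PT.nd (nat_lit 51792) (PT.nd (nat_lit 51480) (PT.nd (nat_lit 156) (PT.nd (nat_lit 78) (PT.lf (nat_lit 2128) (nat_lit 6) (nat_lit 28) (nat_lit 2) (nat_lit 175) (nat_lit 176) (nat_lit 159)) (PT.lf (nat_lit 2052) (nat_lit 3) (nat_lit 27) (nat_lit 0) (nat_lit 176) (nat_lit 176) (nat_lit 158))) (PT.nd (nat_lit 78) (PT.lf (nat_lit 1900) (nat_lit 6) (nat_lit 25) (nat_lit 0) (nat_lit 177) (nat_lit 176) (nat_lit 157)) (PT.lf (nat_lit 1748) (nat_lit 6) (nat_lit 23) (nat_lit 0) (nat_lit 178) (nat_lit 176) (nat_lit 156)))) (PT.nd (nat_lit 156) (PT.nd (nat_lit 78) (PT.lf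 (nat_lit 1520) (nat_lit 6) (nat_lit 20) (nat_lit 5) (nat_lit 154) (nat_lit 177) (nat_lit 179)) (PT.lf (nat_lit 1672) (nat_lit 6) (nat_lit 22) (nat_lit 5) (nat_lit 155) (nat_lit 177) (nat_lit 178))) (PT.nd (nat_lit 78) (PT.lf (nat_lit 1824) (nat_lit 3) (nat_lit 24) (nat_lit 4) (nat_lit 156) (nat_lit 177) (nat_lit 177)) (PT.lf (nat_lit 1900) (nat_lit 6) (nat_lit 25) (nat_lit 4) (nat_lit 157) (nat_lit 177) (nat_lit 176))))) (PT.nd (nat_lit 1560) (PT.nd (nat_lit 1404) (PT.nd (nat_lit 1326) (PT.lf (nat_lit 1976) (nat_lit 6) (nat_lit 26) (nat_lit 4) (nat_lit 158) (nat_lit 177) (nat_lit 175)) (PT.lf (nat_lit 1976) (nat_lit 6) (nat_lit 26) (nat_lit 2) (nat_lit 175) (nat_lit 177) (nat_lit 158))) (PT.nd (nat_lit 78) (PT.lf (nat_lit 1900) (nat_lit 6) (nat_lit 25) (nat_lit 2) (nat_lit 176) (nat_lit 177) (nat_lit 157)) (PT.lf (nat_lit 1824) (nat_lit 3) (nat_lit 24) (nat_lit 0) (nat_lit 177) (nat_lit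 177) (nat_lit 156)))) (PT.nd (nat_lit 51090) (PT.nd (nat_lit 78) (PT.lf (nat_lit 1672) (nat_lit 6) (nat_lit 22) (nat_lit 0) (nat_lit 178) (nat_lit 177) (nat_lit 155)) (PT.lf (nat_lit 1520) (nat_lit 6) (nat_lit 20) (nat_lit 0) (nat_lit 179) (nat_lit 177) (nat_lit 154))) (PT.nd (nat_lit 78) (PT.lf (nat_lit 1292) (nat_lit 6) (nat_lit 17) (nat_lit 5) (nat_lit 152) (nat_lit 178) (nat_lit 180)) (PT.nd (nat_lit 78) (PT.lf (nat_lit 1444) (nat_lit 6) (nat_lit 19) (nat_lit 5) (nat_lit 153) (nat_lit 178) (nat_lit 179)) (PT.lf (nat_lit 1596) (nat_lit 3) (nat_lit 21) (nat_lit 4) (nat_lit 154) (nat_lit 178) (nat_lit 178))))))))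
noncomputable def pc6 : PT := (PT.nd (nat_lit 55146) (PT.nd (nat_lit 52806) (PT.nd (nat_lit 1794) (PT.nd (nat_lit 1638) (PT.nd (nat_lit 78) (PT.lf (nat_lit 1672) (nat_lit 6) (nat_lit 22) (nat_lit 4) (nat_lit 155) (nat_lit 178) (nat_lit 177)) (PT.lf (nat_lit 1748) (nat_lit 6) (nat_lit 23) (nat_lit 4) (nat_lit 156) (nat_lit 178) (nat_lit 176))) (PT.nd (nat_lit 78) (PT.lf (nat_lit 1748) (nat_lit 6) (nat_lit 23) (nat_lit 2) (nat_lit 176) (nat_lit 178) (nat_lit 156)) (PT.lf (nat_lit 1672) (nat_lit 6) (nat_lit 22) (nat_lit 2) (nat_lit 177) (nat_lit 178) (nat_lit 155)))) (PT.nd (nat_lit 156) (PT.nd (nat_lit 78) (PT.lf (nat_lit 1596) (nat_lit 3) (nat_lit 21) (nat_lit 0) (nat_lit 178) (nat_lit 178) (nat_lit 154)) (PT.lf (nat_lit 1444) (nat_lit 6) (nat_lit 19) (nat_lit 0) (nat_lit 179) (nat_lit 178) (nat_lit 153))) (PT.nd (nat_lit 50778) (PT.lf (nat_lit 1292) (nat_lit 6) (nat_lit 17) (nat_lit 0) (nat_lit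 180) (nat_lit 178) (nat_lit 152)) (PT.lf (nat_lit 1064) (nat_lit 6) (nat_lit 14) (nat_lit 5) (nat_lit 150) (nat_lit 179) (nat_lit 181))))) (PT.nd (nat_lit 2028) (PT.nd (nat_lit 156) (PT.nd (nat_lit 78) (PT.lf (nat_lit 1216) (nat_lit 6) (nat_lit 16) (nat_lit 5) (nat_lit 151) (nat_lit 179) (nat_lit 180)) (PT.lf (nat_lit 1368) (nat_lit 3) (nat_lit 18) (nat_lit 4) (nat_lit 152) (nat_lit 179) (nat_lit 179))) (PT.nd (nat_lit 78) (PT.lf (nat_lit 1444) (nat_lit 6) (nat_lit 19) (nat_lit 4) (nat_lit 153) (nat_lit 179) (nat_lit 178)) (PT.lf (nat_lit 1520) (nat_lit 6) (nat_lit 20) (nat_lit 4) (nat_lit 154) (nat_lit 179) (nat_lit 177)))) (PT.nd (nat_lit 156) (PT.nd (nat_lit 78) (PT.lf (nat_lit 1520) (nat_lit 6) (nat_lit 20) (nat_lit 2) (nat_lit 177) (nat_lit 179) (nat_lit 154)) (PT.lf (nat_lit 1444) (nat_lit 6) (nat_lit 19) (nat_lit 2) (nat_lit 178) (nat_lit 179) (nat_lit 153))) (PT.nd (nat_lit 78) (PT.lf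 (nat_lit 1368) (nat_lit 3) (nat_lit 18) (nat_lit 0) (nat_lit 179) (nat_lit 179) (nat_lit 152)) (PT.lf (nat_lit 1216) (nat_lit 6) (nat_lit 16) (nat_lit 0) (nat_lit 180) (nat_lit 179) (nat_lit 151)))))) (PT.nd (nat_lit 53040) (PT.nd (nat_lit 50778) (PT.nd (nat_lit 50622) (PT.nd (nat_lit 50544) (PT.lf (nat_lit 1064) (nat_lit 6) (nat_lit 14) (nat_lit 0) (nat_lit 181) (nat_lit 179) (nat_lit 150)) (PT.lf (nat_lit 836) (nat_lit 6) (nat_lit 11) (nat_lit 5) (nat_lit 148) (nat_lit 180) (nat_lit 182))) (PT.nd (nat_lit 78) (PT.lf (nat_lit 988) (nat_lit 6) (nat_lit 13) (nat_lit 5) (nat_lit 149) (nat_lit 180) (nat_lit 181)) (PT.lf (nat_lit 1140) (nat_lit 3) (nat_lit 15) (nat_lit 4) (nat_lit 150) (nat_lit 180) (nat_lit 180)))) (PT.nd (nat_lit 2106) (PT.nd (nat_lit 78) (PT.lf (nat_lit 1216) (nat_lit 6) (nat_lit 16) (nat_lit 4) (nat_lit 151) (nat_lit 180) (nat_lit 179)) (PT.lf (nat_lit 1292) (nat_lit 6)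 (nat_lit 17) (nat_lit 4) (nat_lit 152) (nat_lit 180) (nat_lit 178))) (PT.nd (nat_lit 78) (PT.lf (nat_lit 1292) (nat_lit 6) (nat_lit 17) (nat_lit 2) (nat_lit 178) (nat_lit 180) (nat_lit 152)) (PT.lf (nat_lit 1216) (nat_lit 6) (nat_lit 16) (nat_lit 2) (nat_lit 179) (nat_lit 180) (nat_lit 151))))) (PT.nd (nat_lit 50544) (PT.nd (nat_lit 156) (PT.nd (nat_lit 78) (PT.lf (nat_lit 1140) (nat_lit 3) (nat_lit 15) (nat_lit 0) (nat_lit 180) (nat_lit 180) (nat_lit 150)) (PT.lf (nat_lit 988) (nat_lit 6) (nat_lit 13) (nat_lit 0) (nat_lit 181) (nat_lit 180) (nat_lit 149))) (PT.nd (nat_lit 50310) (PT.lf (nat_lit 836) (nat_lit 6) (nat_lit 11) (nat_lit 0) (nat_lit 182) (nat_lit 180) (nat_lit 148)) (PT.lf (nat_lit 608) (nat_lit 6) (nat_lit 8) (nat_lit 5) (nat_lit 146) (nat_lit 181) (nat_lit 183)))) (PT.nd (nat_lit 156) (PT.nd (nat_lit 78) (PT.lf (nat_lit 760) (nat_lit 6) (nat_lit 10) (nat_lit 5) (nat_lit 147)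 (nat_lit 181) (nat_lit 182)) (PT.lf (nat_lit 912) (nat_lit 3) (nat_lit 12) (nat_lit 4) (nat_lit 148) (nat_lit 181) (nat_lit 181))) (PT.nd (nat_lit 78) (PT.lf (nat_lit 988) (nat_lit 6) (nat_lit 13) (nat_lit 4) (nat_lit 149) (nat_lit 181) (nat_lit 180)) (PT.nd (nat_lit 2262) (PT.lf (nat_lit 1064) (nat_lit 6) (nat_lit 14) (nat_lit 4) (nat_lit 150) (nat_lit 181) (nat_lit 179)) (PT.lf (nat_lit 1064) (nat_lit 6) (nat_lit 14) (nat_lit 2) (nat_lit 179) (nat_lit 181) (nat_lit 150))))))))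
noncomputable def pc7 : PT := (PT.nd (nat_lit 106314) (PT.nd (nat_lit 53118) (PT.nd (nat_lit 50388) (PT.nd (nat_lit 156) (PT.nd (nat_lit 78) (PT.lf (nat_lit 988) (nat_lit 6) (nat_lit 13) (nat_lit 2) (nat_lit 180) (nat_lit 181) (nat_lit 149)) (PT.lf (nat_lit 912) (nat_lit 3) (nat_lit 12) (nat_lit 0) (nat_lit 181) (nat_lit 181) (nat_lit 148))) (PT.nd (nat_lit 78) (PT.lf (nat_lit 760) (nat_lit 6) (nat_lit 10) (nat_lit 0) (nat_lit 182) (nat_lit 181) (nat_lit 147)) (PT.lf (nat_lit 608) (nat_lit 6) (nat_lit 8) (nat_lit 0) (nat_lit 183) (nat_lit 181) (nat_lit 146)))) (PT.nd (nat_lit 156) (PT.nd (nat_lit 78) (PT.lf (nat_lit 532) (nat_lit 6) (nat_lit 7) (nat_lit 5) (nat_lit 145) (nat_lit 182) (nat_lit 183)) (PT.lf (nat_lit 684) (nat_lit 3) (nat_lit 9) (nat_lit 4) (nat_lit 146) (nat_lit 182) (nat_lit 182))) (PT.nd (nat_lit 78) (PT.lf (nat_lit 760) (nat_lit 6) (nat_lit 10) (nat_lit 4) (nat_lit 147)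 (nat_lit 182) (nat_lit 181)) (PT.lf (nat_lit 836) (nat_lit 6) (nat_lit 11) (nat_lit 4) (nat_lit 148) (nat_lit 182) (nat_lit 180))))) (PT.nd (nat_lit 50154) (PT.nd (nat_lit 156) (PT.nd (nat_lit 78) (PT.lf (nat_lit 836) (nat_lit 6) (nat_lit 11) (nat_lit 2) (nat_lit 180) (nat_lit 182) (nat_lit 148)) (PT.lf (nat_lit 760) (nat_lit 6) (nat_lit 10) (nat_lit 2) (nat_lit 181) (nat_lit 182) (nat_lit 147))) (PT.nd (nat_lit 78) (PT.lf (nat_lit 684) (nat_lit 3) (nat_lit 9) (nat_lit 0) (nat_lit 182) (nat_lit 182) (nat_lit 146)) (PT.lf (nat_lit 532) (nat_lit 6) (nat_lit 7) (nat_lit 0) (nat_lit 183) (nat_lit 182) (nat_lit 145)))) (PT.nd (nat_lit 156) (PT.nd (nat_lit 78) (PT.lf (nat_lit 228) (nat_lit 6) (nat_lit 3) (nat_lit 5) (nat_lit 142) (nat_lit 183) (nat_lit 185)) (PT.lf (nat_lit 380) (nat_lit 6) (nat_lit 5) (nat_lit 5) (nat_lit 143) (nat_lit 183) (nat_lit 184))) (PT.nd (nat_lit 78) (PT.lf (nat_lit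 456) (nat_lit 3) (nat_lit 6) (nat_lit 4) (nat_lit 144) (nat_lit 183) (nat_lit 183)) (PT.nd (nat_lit 78) (PT.lf (nat_lit 532) (nat_lit 6) (nat_lit 7) (nat_lit 4) (nat_lit 145) (nat_lit 183) (nat_lit 182)) (PT.lf (nat_lit 608) (nat_lit 6) (nat_lit 8) (nat_lit 4) (nat_lit 146) (nat_lit 183) (nat_lit 181))))))) (PT.nd (nat_lit 53274) (PT.nd (nat_lit 312) (PT.nd (nat_lit 156) (PT.nd (nat_lit 78) (PT.lf (nat_lit 608) (nat_lit 6) (nat_lit 8) (nat_lit 2) (nat_lit 181) (nat_lit 183) (nat_lit 146)) (PT.lf (nat_lit 532) (nat_lit 6) (nat_lit 7) (nat_lit 2) (nat_lit 182) (nat_lit 183) (nat_lit 145))) (PT.nd (nat_lit 78) (PT.lf (nat_lit 456) (nat_lit 3) (nat_lit 6) (nat_lit 0) (nat_lit 183) (nat_lit 183) (nat_lit 144)) (PT.lf (nat_lit 380) (nat_lit 6) (nat_lit 5) (nat_lit 0) (nat_lit 184) (nat_lit 183) (nat_lit 143)))) (PT.nd (nat_lit 49764) (PT.nd (nat_lit 49686) (PT.lf (nat_lit 228) (nat_lit 6) (nat_lit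 3) (nat_lit 0) (nat_lit 185) (nat_lit 183) (nat_lit 142)) (PT.lf (nat_lit 152) (nat_lit 6) (nat_lit 2) (nat_lit 5) (nat_lit 141) (nat_lit 184) (nat_lit 185))) (PT.nd (nat_lit 78) (PT.lf (nat_lit 304) (nat_lit 3) (nat_lit 4) (nat_lit 4) (nat_lit 142) (nat_lit 184) (nat_lit 184)) (PT.lf (nat_lit 380) (nat_lit 6) (nat_lit 5) (nat_lit 4) (nat_lit 143) (nat_lit 184) (nat_lit 183))))) (PT.nd (nat_lit 49842) (PT.nd (nat_lit 156) (PT.nd (nat_lit 78) (PT.lf (nat_lit 380) (nat_lit 6) (nat_lit 5) (nat_lit 2) (nat_lit 183) (nat_lit 184) (nat_lit 143)) (PT.lf (nat_lit 304) (nat_lit 3) (nat_lit 4) (nat_lit 0) (nat_lit 184) (nat_lit 184) (nat_lit 142))) (PT.nd (nat_lit 49608) (PT.lf (nat_lit 152) (nat_lit 6) (nat_lit 2) (nat_lit 0) (nat_lit 185) (nat_lit 184) (nat_lit 141)) (PT.lf (nat_lit 76) (nat_lit 3) (nat_lit 1) (nat_lit 4) (nat_lit 140) (nat_lit 185) (nat_lit 185)))) (PT.nd (nat_lit 3276) (PT.nd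 (nat_lit 78) (PT.lf (nat_lit 152) (nat_lit 6) (nat_lit 2) (nat_lit 4) (nat_lit 141) (nat_lit 185) (nat_lit 184)) (PT.lf (nat_lit 228) (nat_lit 6) (nat_lit 3) (nat_lit 4) (nat_lit 142) (nat_lit 185) (nat_lit 183))) (PT.nd (nat_lit 78) (PT.lf (nat_lit 228) (nat_lit 6) (nat_lit 3) (nat_lit 2) (nat_lit 183) (nat_lit 185) (nat_lit 142)) (PT.nd (nat_lit 78) (PT.lf (nat_lit 152) (nat_lit 6) (nat_lit 2) (nat_lit 2) (nat_lit 184) (nat_lit 185) (nat_lit 141)) (PT.lf (nat_lit 76) (nat_lit 3) (nat_lit 1) (nat_lit 0) (nat_lit 185) (nat_lit 185) (nat_lit 140))))))))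
noncomputable def xc0 : XT := (XT.nd (nat_lit 847470) (nat_lit 0) (nat_lit 0) (XT.nd (nat_lit 688506) (nat_lit 0) (nat_lit 0) (XT.nd (nat_lit 106080) (nat_lit 0) (nat_lit 0) (XT.nd (nat_lit 53118) (nat_lit 0) (nat_lit 0) (XT.nd (nat_lit 52962) (nat_lit 0) (nat_lit 0) (XT.lf (nat_lit 0) (nat_lit 2502686225848729) (nat_lit 76) (nat_lit 694128522752055) (nat_lit 76) (nat_lit 694128522752055) (nat_lit 1) (nat_lit 4) (nat_lit 2) (nat_lit 5) (nat_lit 2) (nat_lit 4) (nat_lit 460) (nat_lit 280) (nat_lit 280)) (XT.nd (nat_lit 78) (nat_lit 0) (nat_lit 0) (XT.lf (nat_lit 0) (nat_lit 1892390257859147) (nat_lit 76) (nat_lit 524860931199194) (nat_lit 76) (nat_lit 524860931199194) (nat_lit 1) (nat_lit 4) (nat_lit 2) (nat_lit 5) (nat_lit 2) (nat_lit 4) (nat_lit 458) (nat_lit 281) (nat_lit 281)) (XT.lf (nat_lit 0) (nat_lit 4352497697450131) (nat_lit 76) (nat_lit 1207180085969945) (nat_lit 76) (nat_lit 1207180085866415)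 (nat_lit 1) (nat_lit 4) (nat_lit 2) (nat_lit 5) (nat_lit 2) (nat_lit 4) (nat_lit 459) (nat_lit 281) (nat_lit 280)))) (XT.nd (nat_lit 52806) (nat_lit 0) (nat_lit 0) (XT.lf (nat_lit 0) (nat_lit 5005372447572002) (nat_lit 76) (nat_lit 1388257047808001) (nat_lit 76) (nat_lit 1388257047614444) (nat_lit 1) (nat_lit 4) (nat_lit 2) (nat_lit 5) (nat_lit 2) (nat_lit 4) (nat_lit 460) (nat_lit 281) (nat_lit 279)) (XT.nd (nat_lit 78) (nat_lit 0) (nat_lit 0) (XT.lf (nat_lit 0) (nat_lit 1430918814029955) (nat_lit 76) (nat_lit 396870320432446) (nat_lit 76) (nat_lit 396870320432446) (nat_lit 1) (nat_lit 4) (nat_lit 2) (nat_lit 5) (nat_lit 2) (nat_lit 4) (nat_lit 456) (nat_lit 282) (nat_lit 282)) (XT.lf (nat_lit 0) (nat_lit 3291113392299123) (nat_lit 76) (nat_lit 912801672838186) (nat_lit 76) (nat_lit 912801672719122) (nat_lit 1) (nat_lit 4) (nat_lit 2) (nat_lit 5) (nat_lit 2) (nat_lit 4) (nat_lit 457) (nat_lit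 282) (nat_lit 281))))) (XT.nd (nat_lit 52962) (nat_lit 0) (nat_lit 0) (XT.nd (nat_lit 78) (nat_lit 0) (nat_lit 0) (XT.lf (nat_lit 0) (nat_lit 3784780510974010) (nat_lit 76) (nat_lit 1049721865047872) (nat_lit 76) (nat_lit 1049721864825274) (nat_lit 1) (nat_lit 4) (nat_lit 2) (nat_lit 5) (nat_lit 2) (nat_lit 4) (nat_lit 458) (nat_lit 282) (nat_lit 280)) (XT.nd (nat_lit 78) (nat_lit 0) (nat_lit 0) (XT.lf (nat_lit 0) (nat_lit 4352497688580396) (nat_lit 76) (nat_lit 1207180090819783) (nat_lit 76) (nat_lit 1207180090507166) (nat_lit 1) (nat_lit 4) (nat_lit 2) (nat_lit 5) (nat_lit 2) (nat_lit 4) (nat_lit 459) (nat_lit 282) (nat_lit 279)) (XT.lf (nat_lit 0) (nat_lit 5005372435114915) (nat_lit 76) (nat_lit 1388257054571200) (nat_lit 76) (nat_lit 1388257054180289) (nat_lit 1) (nat_lit 4) (nat_lit 2) (nat_lit 5) (nat_lit 2) (nat_lit 4) (nat_lit 460) (nat_lit 282) (nat_lit 278)))) (XT.nd (nat_lit 156)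 (nat_lit 0) (nat_lit 0) (XT.nd (nat_lit 78) (nat_lit 0) (nat_lit 0) (XT.lf (nat_lit 0) (nat_lit 2861837622603995) (nat_lit 76) (nat_lit 793740643911792) (nat_lit 76) (nat_lit 793740643655806) (nat_lit 1) (nat_lit 4) (nat_lit 2) (nat_lit 5) (nat_lit 2) (nat_lit 4) (nat_lit 456) (nat_lit 283) (nat_lit 281)) (XT.lf (nat_lit 0) (nat_lit 3291113382098920) (nat_lit 76) (nat_lit 912801678415506) (nat_lit 76) (nat_lit 912801678055985) (nat_lit 1) (nat_lit 4) (nat_lit 2) (nat_lit 5) (nat_lit 2) (nat_lit 4) (nat_lit 457) (nat_lit 283) (nat_lit 280))) (XT.nd (nat_lit 78) (nat_lit 0) (nat_lit 0) (XT.lf (nat_lit 0) (nat_lit 3784780496648355) (nat_lit 76) (nat_lit 1049721872825552) (nat_lit 76) (nat_lit 1049721872375998) (nat_lit 1) (nat_lit 4) (nat_lit 2) (nat_lit 5) (nat_lit 2) (nat_lit 4) (nat_lit 458) (nat_lit 283) (nat_lit 279)) (XT.lf (nat_lit 0) (nat_lit 4352497670667384) (nat_lit 76) (nat_lit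 1207180100510828) (nat_lit 76) (nat_lit 1207180099982983) (nat_lit 1) (nat_lit 4) (nat_lit 2) (nat_lit 5) (nat_lit 2) (nat_lit 4) (nat_lit 459) (nat_lit 283) (nat_lit 278)))))) (XT.nd (nat_lit 105924) (nat_lit 0) (nat_lit 0) (XT.nd (nat_lit 53040) (nat_lit 0) (nat_lit 0) (XT.nd (nat_lit 78) (nat_lit 0) (nat_lit 0) (XT.lf (nat_lit 0) (nat_lit 66108007532922) (nat_lit 76) (nat_lit 18336329748246) (nat_lit 76) (nat_lit 18336329748246) (nat_lit 1) (nat_lit 4) (nat_lit 2) (nat_lit 5) (nat_lit 2) (nat_lit 4) (nat_lit 434) (nat_lit 293) (nat_lit 293)) (XT.nd (nat_lit 52884) (nat_lit 0) (nat_lit 0) (XT.lf (nat_lit 0) (nat_lit 152048975753267) (nat_lit 76) (nat_lit 42173259940103) (nat_lit 76) (nat_lit 42173259386180) (nat_lit 1) (nat_lit 4) (nat_lit 2) (nat_lit 5) (nat_lit 2) (nat_lit 4) (nat_lit 435) (nat_lit 293) (nat_lit 292)) (XT.lf (nat_lit 0) (nat_lit 49986640281387) (nat_lit 76) (nat_lit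 13865172989916) (nat_lit 76) (nat_lit 13865172989916) (nat_lit 1) (nat_lit 4) (nat_lit 2) (nat_lit 5) (nat_lit 2) (nat_lit 4) (nat_lit 432) (nat_lit 294) (nat_lit 294)))) (XT.nd (nat_lit 78) (nat_lit 0) (nat_lit 0) (XT.lf (nat_lit 0) (nat_lit 114969914838868) (nat_lit 76) (nat_lit 31889554623815) (nat_lit 76) (nat_lit 31889553986802) (nat_lit 1) (nat_lit 4) (nat_lit 2) (nat_lit 5) (nat_lit 2) (nat_lit 4) (nat_lit 433) (nat_lit 294) (nat_lit 293)) (XT.nd (nat_lit 78) (nat_lit 0) (nat_lit 0) (XT.lf (nat_lit 0) (nat_lit 132215989682775) (nat_lit 76) (nat_lit 36672673671862) (nat_lit 76) (nat_lit 36672672480925) (nat_lit 1) (nat_lit 4) (nat_lit 2) (nat_lit 5) (nat_lit 2) (nat_lit 4) (nat_lit 434) (nat_lit 294) (nat_lit 292)) (XT.lf (nat_lit 0) (nat_lit 152048928297962) (nat_lit 76) (nat_lit 42173285887957) (nat_lit 76) (nat_lit 42173284215347) (nat_lit 1) (nat_lit 4) (nat_lit 2) (nat_lit 5)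 (nat_lit 2) (nat_lit 4) (nat_lit 435) (nat_lit 294) (nat_lit 291))))) (XT.nd (nat_lit 234) (nat_lit 0) (nat_lit 0) (XT.nd (nat_lit 78) (nat_lit 0) (nat_lit 0) (XT.lf (nat_lit 0) (nat_lit 37796493880137) (nat_lit 76) (nat_lit 10484377127010) (nat_lit 76) (nat_lit 10484377127010) (nat_lit 1) (nat_lit 4) (nat_lit 2) (nat_lit 5) (nat_lit 2) (nat_lit 4) (nat_lit 430) (nat_lit 295) (nat_lit 295)) (XT.nd (nat_lit 78) (nat_lit 0) (nat_lit 0) (XT.lf (nat_lit 0) (nat_lit 86932674444744) (nat_lit 76) (nat_lit 24113672651183) (nat_lit 76) (nat_lit 24113671918619) (nat_lit 1) (nat_lit 4) (nat_lit 2) (nat_lit 5) (nat_lit 2) (nat_lit 4) (nat_lit 431) (nat_lit 295) (nat_lit 294)) (XT.lf (nat_lit 0) (nat_lit 99973251372243) (nat_lit 76) (nat_lit 27730362281507) (nat_lit 76) (nat_lit 27730360911930) (nat_lit 1) (nat_lit 4) (nat_lit 2) (nat_lit 5) (nat_lit 2) (nat_lit 4) (nat_lit 432) (nat_lit 295) (nat_lit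 293)))) (XT.nd (nat_lit 156) (nat_lit 0) (nat_lit 0) (XT.nd (nat_lit 78) (nat_lit 0) (nat_lit 0) (XT.lf (nat_lit 0) (nat_lit 114969860265267) (nat_lit 76) (nat_lit 31889584463846) (nat_lit 76) (nat_lit 31889582540345) (nat_lit 1) (nat_lit 4) (nat_lit 2) (nat_lit 5) (nat_lit 2) (nat_lit 4) (nat_lit 433) (nat_lit 295) (nat_lit 292)) (XT.lf (nat_lit 0) (nat_lit 132215913036939) (nat_lit 76) (nat_lit 36672715284378) (nat_lit 76) (nat_lit 36672712879203) (nat_lit 1) (nat_lit 4) (nat_lit 2) (nat_lit 5) (nat_lit 2) (nat_lit 4) (nat_lit 434) (nat_lit 295) (nat_lit 291))) (XT.nd (nat_lit 52572) (nat_lit 0) (nat_lit 0) (XT.lf (nat_lit 0) (nat_lit 152048832458878) (nat_lit 76) (nat_lit 42173337737416) (nat_lit 76) (nat_lit 42173334913395) (nat_lit 1) (nat_lit 4) (nat_lit 2) (nat_lit 5) (nat_lit 2) (nat_lit 4) (nat_lit 435) (nat_lit 295) (nat_lit 290)) (XT.lf (nat_lit 0) (nat_lit 28578903732699) (nat_lit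 76) (nat_lit 7928056901058) (nat_lit 76) (nat_lit 7928056901058) (nat_lit 1) (nat_lit 4) (nat_lit 2) (nat_lit 5) (nat_lit 2) (nat_lit 4) (nat_lit 428) (nat_lit 296) (nat_lit 296))))))) (XT.nd (nat_lit 53430) (nat_lit 0) (nat_lit 0) (XT.nd (nat_lit 52884) (nat_lit 0) (nat_lit 0) (XT.nd (nat_lit 234) (nat_lit 0) (nat_lit 0) (XT.nd (nat_lit 78) (nat_lit 0) (nat_lit 0) (XT.lf (nat_lit 0) (nat_lit 65732327883702) (nat_lit 76) (nat_lit 18234076920352) (nat_lit 76) (nat_lit 18234076077902) (nat_lit 1) (nat_lit 4) (nat_lit 2) (nat_lit 5) (nat_lit 2) (nat_lit 4) (nat_lit 429) (nat_lit 296) (nat_lit 295)) (XT.nd (nat_lit 78) (nat_lit 0) (nat_lit 0) (XT.lf (nat_lit 0) (nat_lit 75592954191164) (nat_lit 76) (nat_lit 20968773000947) (nat_lit 76) (nat_lit 20968771425934) (nat_lit 1) (nat_lit 4) (nat_lit 2) (nat_lit 5) (nat_lit 2) (nat_lit 4) (nat_lit 430) (nat_lit 296) (nat_lit 294)) (XT.lf (nat_lit 0)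 (nat_lit 86932611685103) (nat_lit 76) (nat_lit 24113706967220) (nat_lit 76) (nat_lit 24113704755193) (nat_lit 1) (nat_lit 4) (nat_lit 2) (nat_lit 5) (nat_lit 2) (nat_lit 4) (nat_lit 431) (nat_lit 296) (nat_lit 293)))) (XT.nd (nat_lit 78) (nat_lit 0) (nat_lit 0) (XT.lf (nat_lit 0) (nat_lit 99973163229532) (nat_lit 76) (nat_lit 27730410135900) (nat_lit 76) (nat_lit 27730407369950) (nat_lit 1) (nat_lit 4) (nat_lit 2) (nat_lit 5) (nat_lit 2) (nat_lit 4) (nat_lit 432) (nat_lit 296) (nat_lit 292)) (XT.nd (nat_lit 78) (nat_lit 0) (nat_lit 0) (XT.lf (nat_lit 0) (nat_lit 114969750050321) (nat_lit 76) (nat_lit 31889644090724) (nat_lit 76) (nat_lit 31889640843101) (nat_lit 1) (nat_lit 4) (nat_lit 2) (nat_lit 5) (nat_lit 2) (nat_lit 4) (nat_lit 433) (nat_lit 296) (nat_lit 291)) (XT.lf (nat_lit 0) (nat_lit 132215783628744) (nat_lit 76) (nat_lit 36672785148198) (nat_lit 76) (nat_lit 36672781481728) (nat_lit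 1) (nat_lit 4) (nat_lit 2) (nat_lit 5) (nat_lit 2) (nat_lit 4) (nat_lit 434) (nat_lit 296) (nat_lit 290))))) (XT.nd (nat_lit 234) (nat_lit 0) (nat_lit 0) (XT.nd (nat_lit 78) (nat_lit 0) (nat_lit 0) (XT.lf (nat_lit 0) (nat_lit 21608979950859) (nat_lit 76) (nat_lit 5995165780259) (nat_lit 76) (nat_lit 5995165780259) (nat_lit 1) (nat_lit 4) (nat_lit 2) (nat_lit 5) (nat_lit 2) (nat_lit 4) (nat_lit 426) (nat_lit 297) (nat_lit 297)) (XT.nd (nat_lit 78) (nat_lit 0) (nat_lit 0) (XT.lf (nat_lit 0) (nat_lit 49701630580244) (nat_lit 76) (nat_lit 13788359249702) (nat_lit 76) (nat_lit 13788358280885) (nat_lit 1) (nat_lit 4) (nat_lit 2) (nat_lit 5) (nat_lit 2) (nat_lit 4) (nat_lit 427) (nat_lit 297) (nat_lit 296)) (XT.lf (nat_lit 0) (nat_lit 57157768860922) (nat_lit 76) (nat_lit 15856135361081) (nat_lit 76) (nat_lit 15856133549816) (nat_lit 1) (nat_lit 4) (nat_lit 2) (nat_lit 5) (nat_lit 2) (nat_lit 4)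 (nat_lit 428) (nat_lit 297) (nat_lit 295)))) (XT.nd (nat_lit 156) (nat_lit 0) (nat_lit 0) (XT.nd (nat_lit 78) (nat_lit 0) (nat_lit 0) (XT.lf (nat_lit 0) (nat_lit 65732255710115) (nat_lit 76) (nat_lit 18234116383793) (nat_lit 76) (nat_lit 18234113839963) (nat_lit 1) (nat_lit 4) (nat_lit 2) (nat_lit 5) (nat_lit 2) (nat_lit 4) (nat_lit 429) (nat_lit 297) (nat_lit 294)) (XT.lf (nat_lit 0) (nat_lit 75592852827045) (nat_lit 76) (nat_lit 20968828033500) (nat_lit 76) (nat_lit 20968824852657) (nat_lit 1) (nat_lit 4) (nat_lit 2) (nat_lit 5) (nat_lit 2) (nat_lit 4) (nat_lit 430) (nat_lit 297) (nat_lit 293))) (XT.nd (nat_lit 78) (nat_lit 0) (nat_lit 0) (XT.lf (nat_lit 0) (nat_lit 86932484937915) (nat_lit 76) (nat_lit 24113775538129) (nat_lit 76) (nat_lit 24113771803362) (nat_lit 1) (nat_lit 4) (nat_lit 2) (nat_lit 5) (nat_lit 2) (nat_lit 4) (nat_lit 431) (nat_lit 297) (nat_lit 292)) (XT.lf (nat_lit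 0) (nat_lit 99973014410109) (nat_lit 76) (nat_lit 27730490479294) (nat_lit 76) (nat_lit 27730486262854) (nat_lit 1) (nat_lit 4) (nat_lit 2) (nat_lit 5) (nat_lit 2) (nat_lit 4) (nat_lit 432) (nat_lit 297) (nat_lit 291)))))) (XT.nd (nat_lit 52806) (nat_lit 0) (nat_lit 0) (XT.nd (nat_lit 52494) (nat_lit 0) (nat_lit 0) (XT.nd (nat_lit 78) (nat_lit 0) (nat_lit 0) (XT.lf (nat_lit 0) (nat_lit 114969582037649) (nat_lit 76) (nat_lit 31889734671060) (nat_lit 76) (nat_lit 31889730035774) (nat_lit 1) (nat_lit 4) (nat_lit 2) (nat_lit 5) (nat_lit 2) (nat_lit 4) (nat_lit 433) (nat_lit 297) (nat_lit 290)) (XT.nd (nat_lit 52338) (nat_lit 0) (nat_lit 0) (XT.lf (nat_lit 0) (nat_lit 132215598926292) (nat_lit 76) (nat_lit 36672884630223) (nat_lit 76) (nat_lit 36672879630723) (nat_lit 1) (nat_lit 4) (nat_lit 2) (nat_lit 5) (nat_lit 2) (nat_lit 4) (nat_lit 434) (nat_lit 297) (nat_lit 289)) (XT.lf (nat_lit 0) (nat_lit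 16338599652943) (nat_lit 76) (nat_lit 4533684763776) (nat_lit 76) (nat_lit 4533684763776) (nat_lit 1) (nat_lit 4) (nat_lit 2) (nat_lit 5) (nat_lit 2) (nat_lit 4) (nat_lit 424) (nat_lit 298) (nat_lit 298)))) (XT.nd (nat_lit 156) (nat_lit 0) (nat_lit 0) (XT.nd (nat_lit 78) (nat_lit 0) (nat_lit 0) (XT.lf (nat_lit 0) (nat_lit 37579902399027) (nat_lit 76) (nat_lit 10426874605057) (nat_lit 76) (nat_lit 10426873490918) (nat_lit 1) (nat_lit 4) (nat_lit 2) (nat_lit 5) (nat_lit 2) (nat_lit 4) (nat_lit 425) (nat_lit 298) (nat_lit 297)) (XT.lf (nat_lit 0) (nat_lit 43217915506570) (nat_lit 76) (nat_lit 11990356353328) (nat_lit 76) (nat_lit 11990354270373) (nat_lit 1) (nat_lit 4) (nat_lit 2) (nat_lit 5) (nat_lit 2) (nat_lit 4) (nat_lit 426) (nat_lit 298) (nat_lit 296))) (XT.nd (nat_lit 78) (nat_lit 0) (nat_lit 0) (XT.lf (nat_lit 0) (nat_lit 49701547580618) (nat_lit 76) (nat_lit 13788404632660) (nat_lit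 76) (nat_lit 13788401707255) (nat_lit 1) (nat_lit 4) (nat_lit 2) (nat_lit 5) (nat_lit 2) (nat_lit 4) (nat_lit 427) (nat_lit 298) (nat_lit 295)) (XT.lf (nat_lit 0) (nat_lit 57157652292186) (nat_lit 76) (nat_lit 15856198648517) (nat_lit 76) (nat_lit 15856194990547) (nat_lit 1) (nat_lit 4) (nat_lit 2) (nat_lit 5) (nat_lit 2) (nat_lit 4) (nat_lit 428) (nat_lit 298) (nat_lit 294))))) (XT.nd (nat_lit 234) (nat_lit 0) (nat_lit 0) (XT.nd (nat_lit 78) (nat_lit 0) (nat_lit 0) (XT.lf (nat_lit 0) (nat_lit 65732109950848) (nat_lit 76) (nat_lit 18234195240339) (nat_lit 76) (nat_lit 18234190945357) (nat_lit 1) (nat_lit 4) (nat_lit 2) (nat_lit 5) (nat_lit 2) (nat_lit 4) (nat_lit 429) (nat_lit 298) (nat_lit 293)) (XT.nd (nat_lit 78) (nat_lit 0) (nat_lit 0) (XT.lf (nat_lit 0) (nat_lit 75592681684709) (nat_lit 76) (nat_lit 20968920428402) (nat_lit 76) (nat_lit 20968915579496) (nat_lit 1) (nat_lit 4) (nat_lit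 2) (nat_lit 5) (nat_lit 2) (nat_lit 4) (nat_lit 430) (nat_lit 298) (nat_lit 292)) (XT.lf (nat_lit 0) (nat_lit 86932291723343) (nat_lit 76) (nat_lit 24113879705515) (nat_lit 76) (nat_lit 24113874374936) (nat_lit 1) (nat_lit 4) (nat_lit 2) (nat_lit 5) (nat_lit 2) (nat_lit 4) (nat_lit 431) (nat_lit 298) (nat_lit 291)))) (XT.nd (nat_lit 156) (nat_lit 0) (nat_lit 0) (XT.nd (nat_lit 78) (nat_lit 0) (nat_lit 0) (XT.lf (nat_lit 0) (nat_lit 99972802002289) (nat_lit 76) (nat_lit 27730604883623) (nat_lit 76) (nat_lit 27730599134198) (nat_lit 1) (nat_lit 4) (nat_lit 2) (nat_lit 5) (nat_lit 2) (nat_lit 4) (nat_lit 432) (nat_lit 298) (nat_lit 290)) (XT.lf (nat_lit 0) (nat_lit 114969352940049) (nat_lit 76) (nat_lit 31889857977078) (nat_lit 76) (nat_lit 31889851863440) (nat_lit 1) (nat_lit 4) (nat_lit 2) (nat_lit 5) (nat_lit 2) (nat_lit 4) (nat_lit 433) (nat_lit 298) (nat_lit 289))) (XT.nd (nat_lit 52182)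 (nat_lit 0) (nat_lit 0) (XT.lf (nat_lit 0) (nat_lit 132215355315839) (nat_lit 76) (nat_lit 36673015676841) (nat_lit 76) (nat_lit 36673009246495) (nat_lit 1) (nat_lit 4) (nat_lit 2) (nat_lit 5) (nat_lit 2) (nat_lit 4) (nat_lit 434) (nat_lit 298) (nat_lit 288)) (XT.lf (nat_lit 0) (nat_lit 12353300912382) (nat_lit 76) (nat_lit 3428666866984) (nat_lit 76) (nat_lit 3428666866984) (nat_lit 1) (nat_lit 4) (nat_lit 2) (nat_lit 5) (nat_lit 2) (nat_lit 4) (nat_lit 422) (nat_lit 299) (nat_lit 299))))))))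
noncomputable def xc1 : XT := (XT.nd (nat_lit 53976) (nat_lit 0) (nat_lit 0) (XT.nd (nat_lit 52962) (nat_lit 0) (nat_lit 0) (XT.nd (nat_lit 468) (nat_lit 0) (nat_lit 0) (XT.nd (nat_lit 234) (nat_lit 0) (nat_lit 0) (XT.nd (nat_lit 78) (nat_lit 0) (nat_lit 0) (XT.lf (nat_lit 0) (nat_lit 28413883775326) (nat_lit 76) (nat_lit 7885243389690) (nat_lit 76) (nat_lit 7885242108430) (nat_lit 1) (nat_lit 4) (nat_lit 2) (nat_lit 5) (nat_lit 2) (nat_lit 4) (nat_lit 423) (nat_lit 299) (nat_lit 298)) (XT.nd (nat_lit 78) (nat_lit 0) (nat_lit 0) (XT.lf (nat_lit 0) (nat_lit 32677148251466) (nat_lit 76) (nat_lit 9067398039284) (nat_lit 76) (nat_lit 9067395643885) (nat_lit 1) (nat_lit 4) (nat_lit 2) (nat_lit 5) (nat_lit 2) (nat_lit 4) (nat_lit 424) (nat_lit 299) (nat_lit 297)) (XT.lf (nat_lit 0) (nat_lit 37579806949458) (nat_lit 76) (nat_lit 10426926795459) (nat_lit 76) (nat_lit 10426923431243) (nat_lit 1)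 (nat_lit 4) (nat_lit 2) (nat_lit 5) (nat_lit 2) (nat_lit 4) (nat_lit 425) (nat_lit 299) (nat_lit 296)))) (XT.nd (nat_lit 78) (nat_lit 0) (nat_lit 0) (XT.lf (nat_lit 0) (nat_lit 43217781452524) (nat_lit 76) (nat_lit 11990429133879) (nat_lit 76) (nat_lit 11990424927214) (nat_lit 1) (nat_lit 4) (nat_lit 2) (nat_lit 5) (nat_lit 2) (nat_lit 4) (nat_lit 426) (nat_lit 299) (nat_lit 295)) (XT.nd (nat_lit 78) (nat_lit 0) (nat_lit 0) (XT.lf (nat_lit 0) (nat_lit 49701379957461) (nat_lit 76) (nat_lit 13788495317687) (nat_lit 76) (nat_lit 13788490378458) (nat_lit 1) (nat_lit 4) (nat_lit 2) (nat_lit 5) (nat_lit 2) (nat_lit 4) (nat_lit 427) (nat_lit 299) (nat_lit 294)) (XT.lf (nat_lit 0) (nat_lit 57157455478499) (nat_lit 76) (nat_lit 15856304902654) (nat_lit 76) (nat_lit 15856299326413) (nat_lit 1) (nat_lit 4) (nat_lit 2) (nat_lit 5) (nat_lit 2) (nat_lit 4) (nat_lit 428) (nat_lit 299) (nat_lit 293)))))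 (XT.nd (nat_lit 234) (nat_lit 0) (nat_lit 0) (XT.nd (nat_lit 78) (nat_lit 0) (nat_lit 0) (XT.lf (nat_lit 0) (nat_lit 65731887754090) (nat_lit 76) (nat_lit 18234315032833) (nat_lit 76) (nat_lit 18234308902668) (nat_lit 1) (nat_lit 4) (nat_lit 2) (nat_lit 5) (nat_lit 2) (nat_lit 4) (nat_lit 429) (nat_lit 299) (nat_lit 292)) (XT.nd (nat_lit 78) (nat_lit 0) (nat_lit 0) (XT.lf (nat_lit 0) (nat_lit 75592437415716) (nat_lit 76) (nat_lit 20969051993381) (nat_lit 76) (nat_lit 20969045381542) (nat_lit 1) (nat_lit 4) (nat_lit 2) (nat_lit 5) (nat_lit 2) (nat_lit 4) (nat_lit 430) (nat_lit 299) (nat_lit 291)) (XT.lf (nat_lit 0) (nat_lit 86932028261102) (nat_lit 76) (nat_lit 24114021507437) (nat_lit 76) (nat_lit 24114014476752) (nat_lit 1) (nat_lit 4) (nat_lit 2) (nat_lit 5) (nat_lit 2) (nat_lit 4) (nat_lit 431) (nat_lit 299) (nat_lit 290)))) (XT.nd (nat_lit 156) (nat_lit 0) (nat_lit 0) (XT.nd (nat_lit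 78) (nat_lit 0) (nat_lit 0) (XT.lf (nat_lit 0) (nat_lit 99972521850268) (nat_lit 76) (nat_lit 27730755587234) (nat_lit 76) (nat_lit 27730748192335) (nat_lit 1) (nat_lit 4) (nat_lit 2) (nat_lit 5) (nat_lit 2) (nat_lit 4) (nat_lit 432) (nat_lit 299) (nat_lit 289)) (XT.lf (nat_lit 0) (nat_lit 114969058275175) (nat_lit 76) (nat_lit 31890016421289) (nat_lit 76) (nat_lit 31890008709682) (nat_lit 1) (nat_lit 4) (nat_lit 2) (nat_lit 5) (nat_lit 2) (nat_lit 4) (nat_lit 433) (nat_lit 299) (nat_lit 288))) (XT.nd (nat_lit 52026) (nat_lit 0) (nat_lit 0) (XT.lf (nat_lit 0) (nat_lit 132215048031093) (nat_lit 76) (nat_lit 36673180852008) (nat_lit 76) (nat_lit 36673172865003) (nat_lit 1) (nat_lit 4) (nat_lit 2) (nat_lit 5) (nat_lit 2) (nat_lit 4) (nat_lit 434) (nat_lit 299) (nat_lit 287)) (XT.lf (nat_lit 0) (nat_lit 9339688345268) (nat_lit 76) (nat_lit 2593197058575) (nat_lit 76) (nat_lit 2593197058575)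 (nat_lit 1) (nat_lit 4) (nat_lit 2) (nat_lit 5) (nat_lit 2) (nat_lit 4) (nat_lit 420) (nat_lit 300) (nat_lit 300)))))) (XT.nd (nat_lit 468) (nat_lit 0) (nat_lit 0) (XT.nd (nat_lit 234) (nat_lit 0) (nat_lit 0) (XT.nd (nat_lit 78) (nat_lit 0) (nat_lit 0) (XT.lf (nat_lit 0) (nat_lit 21482768622490) (nat_lit 76) (nat_lit 5963559269694) (nat_lit 76) (nat_lit 5963557796245) (nat_lit 1) (nat_lit 4) (nat_lit 2) (nat_lit 5) (nat_lit 2) (nat_lit 4) (nat_lit 421) (nat_lit 300) (nat_lit 299)) (XT.nd (nat_lit 78) (nat_lit 0) (nat_lit 0) (XT.lf (nat_lit 0) (nat_lit 24706543112181) (nat_lit 76) (nat_lit 6857366522459) (nat_lit 76) (nat_lit 6857363767751) (nat_lit 1) (nat_lit 4) (nat_lit 2) (nat_lit 5) (nat_lit 2) (nat_lit 4) (nat_lit 422) (nat_lit 300) (nat_lit 298)) (XT.lf (nat_lit 0) (nat_lit 28413774008321) (nat_lit 76) (nat_lit 7885303408653) (nat_lit 76) (nat_lit 7885299539805) (nat_lit 1) (nat_lit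 4) (nat_lit 2) (nat_lit 5) (nat_lit 2) (nat_lit 4) (nat_lit 423) (nat_lit 300) (nat_lit 297)))) (XT.nd (nat_lit 78) (nat_lit 0) (nat_lit 0) (XT.lf (nat_lit 0) (nat_lit 32676994089313) (nat_lit 76) (nat_lit 9067481736917) (nat_lit 76) (nat_lit 9067476899253) (nat_lit 1) (nat_lit 4) (nat_lit 2) (nat_lit 5) (nat_lit 2) (nat_lit 4) (nat_lit 424) (nat_lit 300) (nat_lit 296)) (XT.nd (nat_lit 78) (nat_lit 0) (nat_lit 0) (XT.lf (nat_lit 0) (nat_lit 37579614182828) (nat_lit 76) (nat_lit 10427031083240) (nat_lit 76) (nat_lit 10427025403127) (nat_lit 1) (nat_lit 4) (nat_lit 2) (nat_lit 5) (nat_lit 2) (nat_lit 4) (nat_lit 425) (nat_lit 300) (nat_lit 295)) (XT.lf (nat_lit 0) (nat_lit 43217555116783) (nat_lit 76) (nat_lit 11990551326137) (nat_lit 76) (nat_lit 11990544913459) (nat_lit 1) (nat_lit 4) (nat_lit 2) (nat_lit 5) (nat_lit 2) (nat_lit 4) (nat_lit 426) (nat_lit 300) (nat_lit 294))))) (XT.nd (nat_lit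 234) (nat_lit 0) (nat_lit 0) (XT.nd (nat_lit 78) (nat_lit 0) (nat_lit 0) (XT.lf (nat_lit 0) (nat_lit 49701124431190) (nat_lit 76) (nat_lit 13788633079056) (nat_lit 76) (nat_lit 13788626029365) (nat_lit 1) (nat_lit 4) (nat_lit 2) (nat_lit 5) (nat_lit 2) (nat_lit 4) (nat_lit 427) (nat_lit 300) (nat_lit 293)) (XT.nd (nat_lit 78) (nat_lit 0) (nat_lit 0) (XT.lf (nat_lit 0) (nat_lit 57157174569157) (nat_lit 76) (nat_lit 15856456202380) (nat_lit 76) (nat_lit 15856448598765) (nat_lit 1) (nat_lit 4) (nat_lit 2) (nat_lit 5) (nat_lit 2) (nat_lit 4) (nat_lit 428) (nat_lit 300) (nat_lit 292)) (XT.lf (nat_lit 0) (nat_lit 65731584772514) (nat_lit 76) (nat_lit 18234478105043) (nat_lit 76) (nat_lit 18234470019756) (nat_lit 1) (nat_lit 4) (nat_lit 2) (nat_lit 5) (nat_lit 2) (nat_lit 4) (nat_lit 429) (nat_lit 300) (nat_lit 291)))) (XT.nd (nat_lit 156) (nat_lit 0) (nat_lit 0) (XT.nd (nat_lit 78) (nat_lit 0)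 (nat_lit 0) (XT.lf (nat_lit 0) (nat_lit 75592115240891) (nat_lit 76) (nat_lit 20969225302533) (nat_lit 76) (nat_lit 20969216798399) (nat_lit 1) (nat_lit 4) (nat_lit 2) (nat_lit 5) (nat_lit 2) (nat_lit 4) (nat_lit 430) (nat_lit 300) (nat_lit 290)) (XT.lf (nat_lit 0) (nat_lit 86931689396497) (nat_lit 76) (nat_lit 24114203718279) (nat_lit 76) (nat_lit 24114194849931) (nat_lit 1) (nat_lit 4) (nat_lit 2) (nat_lit 5) (nat_lit 2) (nat_lit 4) (nat_lit 431) (nat_lit 300) (nat_lit 289))) (XT.nd (nat_lit 78) (nat_lit 0) (nat_lit 0) (XT.lf (nat_lit 0) (nat_lit 99972168472810) (nat_lit 76) (nat_lit 27730945538675) (nat_lit 76) (nat_lit 27730936353619) (nat_lit 1) (nat_lit 4) (nat_lit 2) (nat_lit 5) (nat_lit 2) (nat_lit 4) (nat_lit 432) (nat_lit 300) (nat_lit 288)) (XT.lf (nat_lit 0) (nat_lit 114968692277845) (nat_lit 76) (nat_lit 31890213103686) (nat_lit 76) (nat_lit 31890203643233) (nat_lit 1) (nat_lit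 4) (nat_lit 2) (nat_lit 5) (nat_lit 2) (nat_lit 4) (nat_lit 433) (nat_lit 300) (nat_lit 287))))))) (XT.nd (nat_lit 52728) (nat_lit 0) (nat_lit 0) (XT.nd (nat_lit 52182) (nat_lit 0) (nat_lit 0) (XT.nd (nat_lit 51948) (nat_lit 0) (nat_lit 0) (XT.nd (nat_lit 78) (nat_lit 0) (nat_lit 0) (XT.lf (nat_lit 0) (nat_lit 132214671059961) (nat_lit 76) (nat_lit 36673383387410) (nat_lit 76) (nat_lit 36673373687480) (nat_lit 1) (nat_lit 4) (nat_lit 2) (nat_lit 5) (nat_lit 2) (nat_lit 4) (nat_lit 434) (nat_lit 300) (nat_lit 286)) (XT.nd (nat_lit 51792) (nat_lit 0) (nat_lit 0) (XT.lf (nat_lit 0) (nat_lit 152047526143158) (nat_lit 76) (nat_lit 42174040156268) (nat_lit 76) (nat_lit 42174030248097) (nat_lit 1) (nat_lit 4) (nat_lit 2) (nat_lit 5) (nat_lit 2) (nat_lit 4) (nat_lit 435) (nat_lit 300) (nat_lit 285)) (XT.lf (nat_lit 0) (nat_lit 7060787000482) (nat_lit 76) (nat_lit 1961556701704) (nat_lit 76) (nat_lit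 1961556701704) (nat_lit 1) (nat_lit 4) (nat_lit 2) (nat_lit 5) (nat_lit 2) (nat_lit 4) (nat_lit 418) (nat_lit 301) (nat_lit 301)))) (XT.nd (nat_lit 78) (nat_lit 0) (nat_lit 0) (XT.lf (nat_lit 0) (nat_lit 16241518343739) (nat_lit 76) (nat_lit 4510667354137) (nat_lit 76) (nat_lit 4510665659671) (nat_lit 1) (nat_lit 4) (nat_lit 2) (nat_lit 5) (nat_lit 2) (nat_lit 4) (nat_lit 419) (nat_lit 301) (nat_lit 300)) (XT.nd (nat_lit 78) (nat_lit 0) (nat_lit 0) (XT.lf (nat_lit 0) (nat_lit 18679309171065) (nat_lit 76) (nat_lit 5186431823915) (nat_lit 76) (nat_lit 5186428656000) (nat_lit 1) (nat_lit 4) (nat_lit 2) (nat_lit 5) (nat_lit 2) (nat_lit 4) (nat_lit 420) (nat_lit 301) (nat_lit 299)) (XT.lf (nat_lit 0) (nat_lit 21482642390434) (nat_lit 76) (nat_lit 5963628291501) (nat_lit 76) (nat_lit 5963623842326) (nat_lit 1) (nat_lit 4) (nat_lit 2) (nat_lit 5) (nat_lit 2) (nat_lit 4) (nat_lit 421) (nat_lit 301)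 (nat_lit 298))))) (XT.nd (nat_lit 234) (nat_lit 0) (nat_lit 0) (XT.nd (nat_lit 78) (nat_lit 0) (nat_lit 0) (XT.lf (nat_lit 0) (nat_lit 24706365825705) (nat_lit 76) (nat_lit 6857462774737) (nat_lit 76) (nat_lit 6857457211423) (nat_lit 1) (nat_lit 4) (nat_lit 2) (nat_lit 5) (nat_lit 2) (nat_lit 4) (nat_lit 422) (nat_lit 301) (nat_lit 297)) (XT.nd (nat_lit 78) (nat_lit 0) (nat_lit 0) (XT.lf (nat_lit 0) (nat_lit 28413552326696) (nat_lit 76) (nat_lit 7885423339601) (nat_lit 76) (nat_lit 7885416807471) (nat_lit 1) (nat_lit 4) (nat_lit 2) (nat_lit 5) (nat_lit 2) (nat_lit 4) (nat_lit 423) (nat_lit 301) (nat_lit 296)) (XT.lf (nat_lit 0) (nat_lit 32676733803211) (nat_lit 76) (nat_lit 9067622258014) (nat_lit 76) (nat_lit 9067614883434) (nat_lit 1) (nat_lit 4) (nat_lit 2) (nat_lit 5) (nat_lit 2) (nat_lit 4) (nat_lit 424) (nat_lit 301) (nat_lit 295)))) (XT.nd (nat_lit 156) (nat_lit 0) (nat_lit 0) (XT.nd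 (nat_lit 78) (nat_lit 0) (nat_lit 0) (XT.lf (nat_lit 0) (nat_lit 37579320327616) (nat_lit 76) (nat_lit 10427189508814) (nat_lit 76) (nat_lit 10427181401670) (nat_lit 1) (nat_lit 4) (nat_lit 2) (nat_lit 5) (nat_lit 2) (nat_lit 4) (nat_lit 425) (nat_lit 301) (nat_lit 294)) (XT.lf (nat_lit 0) (nat_lit 43217232071040) (nat_lit 76) (nat_lit 11990725320821) (nat_lit 76) (nat_lit 11990716576665) (nat_lit 1) (nat_lit 4) (nat_lit 2) (nat_lit 5) (nat_lit 2) (nat_lit 4) (nat_lit 426) (nat_lit 301) (nat_lit 293))) (XT.nd (nat_lit 78) (nat_lit 0) (nat_lit 0) (XT.lf (nat_lit 0) (nat_lit 49700776002377) (nat_lit 76) (nat_lit 13788820612097) (nat_lit 76) (nat_lit 13788811314016) (nat_lit 1) (nat_lit 4) (nat_lit 2) (nat_lit 5) (nat_lit 2) (nat_lit 4) (nat_lit 427) (nat_lit 301) (nat_lit 292)) (XT.lf (nat_lit 0) (nat_lit 57156804068109) (nat_lit 76) (nat_lit 15856655507905) (nat_lit 76) (nat_lit 15856645728151)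 (nat_lit 1) (nat_lit 4) (nat_lit 2) (nat_lit 5) (nat_lit 2) (nat_lit 4) (nat_lit 428) (nat_lit 301) (nat_lit 291)))))) (XT.nd (nat_lit 546) (nat_lit 0) (nat_lit 0) (XT.nd (nat_lit 234) (nat_lit 0) (nat_lit 0) (XT.nd (nat_lit 78) (nat_lit 0) (nat_lit 0) (XT.lf (nat_lit 0) (nat_lit 65731195078218) (nat_lit 76) (nat_lit 18234687647511) (nat_lit 76) (nat_lit 18234677448911) (nat_lit 1) (nat_lit 4) (nat_lit 2) (nat_lit 5) (nat_lit 2) (nat_lit 4) (nat_lit 429) (nat_lit 301) (nat_lit 290)) (XT.nd (nat_lit 78) (nat_lit 0) (nat_lit 0) (XT.lf (nat_lit 0) (nat_lit 75591708856815) (nat_lit 76) (nat_lit 20969443746691) (nat_lit 76) (nat_lit 20969433183877) (nat_lit 1) (nat_lit 4) (nat_lit 2) (nat_lit 5) (nat_lit 2) (nat_lit 4) (nat_lit 430) (nat_lit 301) (nat_lit 289)) (XT.lf (nat_lit 0) (nat_lit 86931268499567) (nat_lit 76) (nat_lit 24114429903035) (nat_lit 76) (nat_lit 24114419023514) (nat_lit 1) (nat_lit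 4) (nat_lit 2) (nat_lit 5) (nat_lit 2) (nat_lit 4) (nat_lit 431) (nat_lit 301) (nat_lit 288)))) (XT.nd (nat_lit 156) (nat_lit 0) (nat_lit 0) (XT.nd (nat_lit 78) (nat_lit 0) (nat_lit 0) (XT.lf (nat_lit 0) (nat_lit 99971734956008) (nat_lit 76) (nat_lit 27731178454388) (nat_lit 76) (nat_lit 27731167299468) (nat_lit 1) (nat_lit 4) (nat_lit 2) (nat_lit 5) (nat_lit 2) (nat_lit 4) (nat_lit 432) (nat_lit 301) (nat_lit 287)) (XT.lf (nat_lit 0) (nat_lit 114968247787242) (nat_lit 76) (nat_lit 31890451872405) (nat_lit 76) (nat_lit 31890440478008) (nat_lit 1) (nat_lit 4) (nat_lit 2) (nat_lit 5) (nat_lit 2) (nat_lit 4) (nat_lit 433) (nat_lit 301) (nat_lit 286))) (XT.nd (nat_lit 78) (nat_lit 0) (nat_lit 0) (XT.lf (nat_lit 0) (nat_lit 132214217026922) (nat_lit 76) (nat_lit 36673627245698) (nat_lit 76) (nat_lit 36673615643061) (nat_lit 1) (nat_lit 4) (nat_lit 2) (nat_lit 5) (nat_lit 2) (nat_lit 4) (nat_lit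 434) (nat_lit 301) (nat_lit 285)) (XT.lf (nat_lit 0) (nat_lit 152047063812347) (nat_lit 76) (nat_lit 42174288440269) (nat_lit 76) (nat_lit 42174276656553) (nat_lit 1) (nat_lit 4) (nat_lit 2) (nat_lit 5) (nat_lit 2) (nat_lit 4) (nat_lit 435) (nat_lit 301) (nat_lit 284))))) (XT.nd (nat_lit 51714) (nat_lit 0) (nat_lit 0) (XT.nd (nat_lit 51558) (nat_lit 0) (nat_lit 0) (XT.lf (nat_lit 0) (nat_lit 174854822102363) (nat_lit 76) (nat_lit 48500057088184) (nat_lit 76) (nat_lit 48500045147009) (nat_lit 1) (nat_lit 4) (nat_lit 2) (nat_lit 5) (nat_lit 2) (nat_lit 4) (nat_lit 436) (nat_lit 301) (nat_lit 283)) (XT.nd (nat_lit 78) (nat_lit 0) (nat_lit 0) (XT.lf (nat_lit 0) (nat_lit 5337406300781) (nat_lit 76) (nat_lit 1484054921019) (nat_lit 76) (nat_lit 1484054921019) (nat_lit 1) (nat_lit 4) (nat_lit 2) (nat_lit 5) (nat_lit 2) (nat_lit 4) (nat_lit 416) (nat_lit 302) (nat_lit 302)) (XT.lf (nat_lit 0) (nat_lit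 12277998970820) (nat_lit 76) (nat_lit 3412276299593) (nat_lit 76) (nat_lit 3412274350957) (nat_lit 1) (nat_lit 4) (nat_lit 2) (nat_lit 5) (nat_lit 2) (nat_lit 4) (nat_lit 417) (nat_lit 302) (nat_lit 301)))) (XT.nd (nat_lit 156) (nat_lit 0) (nat_lit 0) (XT.nd (nat_lit 78) (nat_lit 0) (nat_lit 0) (XT.lf (nat_lit 0) (nat_lit 14121496353573) (nat_lit 76) (nat_lit 3923156766188) (nat_lit 76) (nat_lit 3923153123086) (nat_lit 1) (nat_lit 4) (nat_lit 2) (nat_lit 5) (nat_lit 2) (nat_lit 4) (nat_lit 418) (nat_lit 302) (nat_lit 300)) (XT.lf (nat_lit 0) (nat_lit 16241373176875) (nat_lit 76) (nat_lit 4510746729214) (nat_lit 76) (nat_lit 4510741612663) (nat_lit 1) (nat_lit 4) (nat_lit 2) (nat_lit 5) (nat_lit 2) (nat_lit 4) (nat_lit 419) (nat_lit 302) (nat_lit 299))) (XT.nd (nat_lit 78) (nat_lit 0) (nat_lit 0) (XT.lf (nat_lit 0) (nat_lit 18679105291617) (nat_lit 76) (nat_lit 5186542514035) (nat_lit 76)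 (nat_lit 5186536116224) (nat_lit 1) (nat_lit 4) (nat_lit 2) (nat_lit 5) (nat_lit 2) (nat_lit 4) (nat_lit 420) (nat_lit 302) (nat_lit 298)) (XT.lf (nat_lit 0) (nat_lit 21482387456566) (nat_lit 76) (nat_lit 5963766212091) (nat_lit 76) (nat_lit 5963758700141) (nat_lit 1) (nat_lit 4) (nat_lit 2) (nat_lit 5) (nat_lit 2) (nat_lit 4) (nat_lit 421) (nat_lit 302) (nat_lit 297))))))))
noncomputable def xc2 : XT := (XT.nd (nat_lit 53274) (nat_lit 0) (nat_lit 0) (XT.nd (nat_lit 1014) (nat_lit 0) (nat_lit 0) (XT.nd (nat_lit 468) (nat_lit 0) (nat_lit 0) (XT.nd (nat_lit 234) (nat_lit 0) (nat_lit 0) (XT.nd (nat_lit 78) (nat_lit 0) (nat_lit 0) (XT.lf (nat_lit 0) (nat_lit 24706066496688) (nat_lit 76) (nat_lit 6857624373999) (nat_lit 76) (nat_lit 6857615893232) (nat_lit 1) (nat_lit 4) (nat_lit 2) (nat_lit 5) (nat_lit 2) (nat_lit 4) (nat_lit 422) (nat_lit 302) (nat_lit 296)) (XT.nd (nat_lit 78) (nat_lit 0)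 (nat_lit 0) (XT.lf (nat_lit 0) (nat_lit 28413214393202) (nat_lit 76) (nat_lit 7885605529011) (nat_lit 76) (nat_lit 7885596205795) (nat_lit 1) (nat_lit 4) (nat_lit 2) (nat_lit 5) (nat_lit 2) (nat_lit 4) (nat_lit 423) (nat_lit 302) (nat_lit 295)) (XT.lf (nat_lit 0) (nat_lit 32676362300607) (nat_lit 76) (nat_lit 9067822351901) (nat_lit 76) (nat_lit 9067812296121) (nat_lit 1) (nat_lit 4) (nat_lit 2) (nat_lit 5) (nat_lit 2) (nat_lit 4) (nat_lit 424) (nat_lit 302) (nat_lit 294)))) (XT.nd (nat_lit 78) (nat_lit 0) (nat_lit 0) (XT.lf (nat_lit 0) (nat_lit 37578919634481) (nat_lit 76) (nat_lit 10427405171811) (nat_lit 76) (nat_lit 10427394479019) (nat_lit 1) (nat_lit 4) (nat_lit 2) (nat_lit 5) (nat_lit 2) (nat_lit 4) (nat_lit 425) (nat_lit 302) (nat_lit 293)) (XT.nd (nat_lit 78) (nat_lit 0) (nat_lit 0) (XT.lf (nat_lit 0) (nat_lit 43216805994835) (nat_lit 76) (nat_lit 11990954522175) (nat_lit 76) (nat_lit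 11990943275459) (nat_lit 1) (nat_lit 4) (nat_lit 2) (nat_lit 5) (nat_lit 2) (nat_lit 4) (nat_lit 426) (nat_lit 302) (nat_lit 292)) (XT.lf (nat_lit 0) (nat_lit 49700327853936) (nat_lit 76) (nat_lit 13789061585935) (nat_lit 76) (nat_lit 13789049857545) (nat_lit 1) (nat_lit 4) (nat_lit 2) (nat_lit 5) (nat_lit 2) (nat_lit 4) (nat_lit 427) (nat_lit 302) (nat_lit 291))))) (XT.nd (nat_lit 234) (nat_lit 0) (nat_lit 0) (XT.nd (nat_lit 78) (nat_lit 0) (nat_lit 0) (XT.lf (nat_lit 0) (nat_lit 57156336726421) (nat_lit 76) (nat_lit 15856906718686) (nat_lit 76) (nat_lit 15856894571450) (nat_lit 1) (nat_lit 4) (nat_lit 2) (nat_lit 5) (nat_lit 2) (nat_lit 4) (nat_lit 428) (nat_lit 302) (nat_lit 290)) (XT.nd (nat_lit 78) (nat_lit 0) (nat_lit 0) (XT.lf (nat_lit 0) (nat_lit 65730711046749) (nat_lit 76) (nat_lit 18234947759982) (nat_lit 76) (nat_lit 18234935248532) (nat_lit 1) (nat_lit 4) (nat_lit 2) (nat_lit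 5) (nat_lit 2) (nat_lit 4) (nat_lit 429) (nat_lit 302) (nat_lit 289)) (XT.lf (nat_lit 0) (nat_lit 75591210312493) (nat_lit 76) (nat_lit 20969711599760) (nat_lit 76) (nat_lit 20969698771603) (nat_lit 1) (nat_lit 4) (nat_lit 2) (nat_lit 5) (nat_lit 2) (nat_lit 4) (nat_lit 430) (nat_lit 302) (nat_lit 288)))) (XT.nd (nat_lit 156) (nat_lit 0) (nat_lit 0) (XT.nd (nat_lit 78) (nat_lit 0) (nat_lit 0) (XT.lf (nat_lit 0) (nat_lit 86930757335374) (nat_lit 76) (nat_lit 24114704487062) (nat_lit 76) (nat_lit 24114691383506) (nat_lit 1) (nat_lit 4) (nat_lit 2) (nat_lit 5) (nat_lit 2) (nat_lit 4) (nat_lit 431) (nat_lit 302) (nat_lit 287)) (XT.lf (nat_lit 0) (nat_lit 99971212818013) (nat_lit 76) (nat_lit 27731458891419) (nat_lit 76) (nat_lit 27731445548387) (nat_lit 1) (nat_lit 4) (nat_lit 2) (nat_lit 5) (nat_lit 2) (nat_lit 4) (nat_lit 432) (nat_lit 302) (nat_lit 286))) (XT.nd (nat_lit 78) (nat_lit 0) (nat_lit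 0) (XT.lf (nat_lit 0) (nat_lit 114967716106810) (nat_lit 76) (nat_lit 31890737399005) (nat_lit 76) (nat_lit 31890723847732) (nat_lit 1) (nat_lit 4) (nat_lit 2) (nat_lit 5) (nat_lit 2) (nat_lit 4) (nat_lit 433) (nat_lit 302) (nat_lit 285)) (XT.lf (nat_lit 0) (nat_lit 132213677048719) (nat_lit 76) (nat_lit 36673917198012) (nat_lit 76) (nat_lit 36673903465660) (nat_lit 1) (nat_lit 4) (nat_lit 2) (nat_lit 5) (nat_lit 2) (nat_lit 4) (nat_lit 434) (nat_lit 302) (nat_lit 284)))))) (XT.nd (nat_lit 51714) (nat_lit 0) (nat_lit 0) (XT.nd (nat_lit 51480) (nat_lit 0) (nat_lit 0) (XT.nd (nat_lit 78) (nat_lit 0) (nat_lit 0) (XT.lf (nat_lit 0) (nat_lit 152046516618692) (nat_lit 76) (nat_lit 42174582241029) (nat_lit 76) (nat_lit 42174568351217) (nat_lit 1) (nat_lit 4) (nat_lit 2) (nat_lit 5) (nat_lit 2) (nat_lit 4) (nat_lit 435) (nat_lit 302) (nat_lit 283)) (XT.nd (nat_lit 78) (nat_lit 0) (nat_lit 0) (XT.lf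 (nat_lit 0) (nat_lit 174854268634401) (nat_lit 76) (nat_lit 48500354235419) (nat_lit 76) (nat_lit 48500340208686) (nat_lit 1) (nat_lit 4) (nat_lit 2) (nat_lit 5) (nat_lit 2) (nat_lit 4) (nat_lit 436) (nat_lit 302) (nat_lit 282)) (XT.lf (nat_lit 0) (nat_lit 201083171722240) (nat_lit 76) (nat_lit 55774998285420) (nat_lit 76) (nat_lit 55774984139625) (nat_lit 1) (nat_lit 4) (nat_lit 2) (nat_lit 5) (nat_lit 2) (nat_lit 4) (nat_lit 437) (nat_lit 302) (nat_lit 281)))) (XT.nd (nat_lit 78) (nat_lit 0) (nat_lit 0) (XT.lf (nat_lit 0) (nat_lit 4034048436995) (nat_lit 76) (nat_lit 1123120409878) (nat_lit 76) (nat_lit 1123120409878) (nat_lit 1) (nat_lit 4) (nat_lit 2) (nat_lit 5) (nat_lit 2) (nat_lit 4) (nat_lit 414) (nat_lit 303) (nat_lit 303)) (XT.nd (nat_lit 78) (nat_lit 0) (nat_lit 0) (XT.lf (nat_lit 0) (nat_lit 9280570555966) (nat_lit 76) (nat_lit 2581969421156) (nat_lit 76) (nat_lit 2581967180225)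 (nat_lit 1) (nat_lit 4) (nat_lit 2) (nat_lit 5) (nat_lit 2) (nat_lit 4) (nat_lit 415) (nat_lit 303) (nat_lit 302)) (XT.lf (nat_lit 0) (nat_lit 10674723307061) (nat_lit 76) (nat_lit 2968159709235) (nat_lit 76) (nat_lit 2968155519667) (nat_lit 1) (nat_lit 4) (nat_lit 2) (nat_lit 5) (nat_lit 2) (nat_lit 4) (nat_lit 416) (nat_lit 303) (nat_lit 301))))) (XT.nd (nat_lit 234) (nat_lit 0) (nat_lit 0) (XT.nd (nat_lit 78) (nat_lit 0) (nat_lit 0) (XT.lf (nat_lit 0) (nat_lit 12277832028926) (nat_lit 76) (nat_lit 3412367580932) (nat_lit 76) (nat_lit 3412361696898) (nat_lit 1) (nat_lit 4) (nat_lit 2) (nat_lit 5) (nat_lit 2) (nat_lit 4) (nat_lit 417) (nat_lit 303) (nat_lit 300)) (XT.nd (nat_lit 78) (nat_lit 0) (nat_lit 0) (XT.lf (nat_lit 0) (nat_lit 14121261892208) (nat_lit 76) (nat_lit 3923284059826) (nat_lit 76) (nat_lit 3923276702343) (nat_lit 1) (nat_lit 4) (nat_lit 2) (nat_lit 5) (nat_lit 2) (nat_lit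 4) (nat_lit 418) (nat_lit 303) (nat_lit 299)) (XT.lf (nat_lit 0) (nat_lit 16241080002926) (nat_lit 76) (nat_lit 4510905337894) (nat_lit 76) (nat_lit 4510896699151) (nat_lit 1) (nat_lit 4) (nat_lit 2) (nat_lit 5) (nat_lit 2) (nat_lit 4) (nat_lit 419) (nat_lit 303) (nat_lit 298)))) (XT.nd (nat_lit 156) (nat_lit 0) (nat_lit 0) (XT.nd (nat_lit 78) (nat_lit 0) (nat_lit 0) (XT.lf (nat_lit 0) (nat_lit 18678761063248) (nat_lit 76) (nat_lit 5186728353186) (nat_lit 76) (nat_lit 5186718600304) (nat_lit 1) (nat_lit 4) (nat_lit 2) (nat_lit 5) (nat_lit 2) (nat_lit 4) (nat_lit 420) (nat_lit 303) (nat_lit 297)) (XT.lf (nat_lit 0) (nat_lit 21481998833048) (nat_lit 76) (nat_lit 5963975729913) (nat_lit 76) (nat_lit 5963965008215) (nat_lit 1) (nat_lit 4) (nat_lit 2) (nat_lit 5) (nat_lit 2) (nat_lit 4) (nat_lit 421) (nat_lit 303) (nat_lit 296))) (XT.nd (nat_lit 78) (nat_lit 0) (nat_lit 0) (XT.lf (nat_lit 0)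 (nat_lit 24705639268693) (nat_lit 76) (nat_lit 6857854481969) (nat_lit 76) (nat_lit 6857842917821) (nat_lit 1) (nat_lit 4) (nat_lit 2) (nat_lit 5) (nat_lit 2) (nat_lit 4) (nat_lit 422) (nat_lit 303) (nat_lit 295)) (XT.lf (nat_lit 0) (nat_lit 28412753596097) (nat_lit 76) (nat_lit 7885853541458) (nat_lit 76) (nat_lit 7885841244746) (nat_lit 1) (nat_lit 4) (nat_lit 2) (nat_lit 5) (nat_lit 2) (nat_lit 4) (nat_lit 423) (nat_lit 303) (nat_lit 294))))))) (XT.nd (nat_lit 1014) (nat_lit 0) (nat_lit 0) (XT.nd (nat_lit 468) (nat_lit 0) (nat_lit 0) (XT.nd (nat_lit 234) (nat_lit 0) (nat_lit 0) (XT.nd (nat_lit 78) (nat_lit 0) (nat_lit 0) (XT.lf (nat_lit 0) (nat_lit 32675872312971) (nat_lit 76) (nat_lit 9068085933458) (nat_lit 76) (nat_lit 9068072999734) (nat_lit 1) (nat_lit 4) (nat_lit 2) (nat_lit 5) (nat_lit 2) (nat_lit 4) (nat_lit 424) (nat_lit 303) (nat_lit 293)) (XT.nd (nat_lit 78) (nat_lit 0) (nat_lit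 0) (XT.lf (nat_lit 0) (nat_lit 37578404263774) (nat_lit 76) (nat_lit 10427682291725) (nat_lit 76) (nat_lit 10427668804077) (nat_lit 1) (nat_lit 4) (nat_lit 2) (nat_lit 5) (nat_lit 2) (nat_lit 4) (nat_lit 425) (nat_lit 303) (nat_lit 292)) (XT.lf (nat_lit 0) (nat_lit 43216268551893) (nat_lit 76) (nat_lit 11991243414574) (nat_lit 76) (nat_lit 11991229445252) (nat_lit 1) (nat_lit 4) (nat_lit 2) (nat_lit 5) (nat_lit 2) (nat_lit 4) (nat_lit 426) (nat_lit 303) (nat_lit 291)))) (XT.nd (nat_lit 78) (nat_lit 0) (nat_lit 0) (XT.lf (nat_lit 0) (nat_lit 49699771217747) (nat_lit 76) (nat_lit 13789360715276) (nat_lit 76) (nat_lit 13789346327109) (nat_lit 1) (nat_lit 4) (nat_lit 2) (nat_lit 5) (nat_lit 2) (nat_lit 4) (nat_lit 427) (nat_lit 303) (nat_lit 290)) (XT.nd (nat_lit 78) (nat_lit 0) (nat_lit 0) (XT.lf (nat_lit 0) (nat_lit 57155763400451) (nat_lit 76) (nat_lit 15857214749717) (nat_lit 76) (nat_lit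 15857199997335) (nat_lit 1) (nat_lit 4) (nat_lit 2) (nat_lit 5) (nat_lit 2) (nat_lit 4) (nat_lit 428) (nat_lit 303) (nat_lit 289)) (XT.lf (nat_lit 0) (nat_lit 65730123207926) (nat_lit 76) (nat_lit 18235263531612) (nat_lit 76) (nat_lit 18235248462522) (nat_lit 1) (nat_lit 4) (nat_lit 2) (nat_lit 5) (nat_lit 2) (nat_lit 4) (nat_lit 429) (nat_lit 303) (nat_lit 288))))) (XT.nd (nat_lit 234) (nat_lit 0) (nat_lit 0) (XT.nd (nat_lit 78) (nat_lit 0) (nat_lit 0) (XT.lf (nat_lit 0) (nat_lit 75590609853798) (nat_lit 76) (nat_lit 20970034102346) (nat_lit 76) (nat_lit 20970018757859) (nat_lit 1) (nat_lit 4) (nat_lit 2) (nat_lit 5) (nat_lit 2) (nat_lit 4) (nat_lit 430) (nat_lit 303) (nat_lit 287)) (XT.nd (nat_lit 78) (nat_lit 0) (nat_lit 0) (XT.lf (nat_lit 0) (nat_lit 86930145902877) (nat_lit 76) (nat_lit 24115032842653) (nat_lit 76) (nat_lit 24115017258689) (nat_lit 1) (nat_lit 4) (nat_lit 2) (nat_lit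 5) (nat_lit 2) (nat_lit 4) (nat_lit 431) (nat_lit 303) (nat_lit 286)) (XT.lf (nat_lit 0) (nat_lit 99970591843080) (nat_lit 76) (nat_lit 27731792336580) (nat_lit 76) (nat_lit 27731776544376) (nat_lit 1) (nat_lit 4) (nat_lit 2) (nat_lit 5) (nat_lit 2) (nat_lit 4) (nat_lit 432) (nat_lit 303) (nat_lit 285)))) (XT.nd (nat_lit 156) (nat_lit 0) (nat_lit 0) (XT.nd (nat_lit 78) (nat_lit 0) (nat_lit 0) (XT.lf (nat_lit 0) (nat_lit 114967086834106) (nat_lit 76) (nat_lit 31891075269879) (nat_lit 76) (nat_lit 31891059296596) (nat_lit 1) (nat_lit 4) (nat_lit 2) (nat_lit 5) (nat_lit 2) (nat_lit 4) (nat_lit 433) (nat_lit 303) (nat_lit 284)) (XT.lf (nat_lit 0) (nat_lit 132213040560563) (nat_lit 76) (nat_lit 36674258917332) (nat_lit 76) (nat_lit 36674242786589) (nat_lit 1) (nat_lit 4) (nat_lit 2) (nat_lit 5) (nat_lit 2) (nat_lit 4) (nat_lit 434) (nat_lit 303) (nat_lit 283))) (XT.nd (nat_lit 78) (nat_lit 0)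 (nat_lit 0) (XT.lf (nat_lit 0) (nat_lit 152045873856229) (nat_lit 76) (nat_lit 42174927306824) (nat_lit 76) (nat_lit 42174911039159) (nat_lit 1) (nat_lit 4) (nat_lit 2) (nat_lit 5) (nat_lit 2) (nat_lit 4) (nat_lit 435) (nat_lit 303) (nat_lit 282)) (XT.lf (nat_lit 0) (nat_lit 174853620416019) (nat_lit 76) (nat_lit 48500702211192) (nat_lit 76) (nat_lit 48500685824465) (nat_lit 1) (nat_lit 4) (nat_lit 2) (nat_lit 5) (nat_lit 2) (nat_lit 4) (nat_lit 436) (nat_lit 303) (nat_lit 281)))))) (XT.nd (nat_lit 51402) (nat_lit 0) (nat_lit 0) (XT.nd (nat_lit 234) (nat_lit 0) (nat_lit 0) (XT.nd (nat_lit 78) (nat_lit 0) (nat_lit 0) (XT.lf (nat_lit 0) (nat_lit 201082518759581) (nat_lit 76) (nat_lit 55775348791609) (nat_lit 76) (nat_lit 55775332301349) (nat_lit 1) (nat_lit 4) (nat_lit 2) (nat_lit 5) (nat_lit 2) (nat_lit 4) (nat_lit 437) (nat_lit 303) (nat_lit 280)) (XT.nd (nat_lit 78) (nat_lit 0) (nat_lit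 0) (XT.lf (nat_lit 0) (nat_lit 231245742984942) (nat_lit 76) (nat_lit 64141197089865) (nat_lit 76) (nat_lit 64141180509578) (nat_lit 1) (nat_lit 4) (nat_lit 2) (nat_lit 5) (nat_lit 2) (nat_lit 4) (nat_lit 438) (nat_lit 303) (nat_lit 279)) (XT.lf (nat_lit 0) (nat_lit 265933443131292) (nat_lit 76) (nat_lit 73761926746580) (nat_lit 76) (nat_lit 73761910088007) (nat_lit 1) (nat_lit 4) (nat_lit 2) (nat_lit 5) (nat_lit 2) (nat_lit 4) (nat_lit 439) (nat_lit 303) (nat_lit 278)))) (XT.nd (nat_lit 51012) (nat_lit 0) (nat_lit 0) (XT.nd (nat_lit 50934) (nat_lit 0) (nat_lit 0) (XT.lf (nat_lit 0) (nat_lit 305824291592801) (nat_lit 76) (nat_lit 84825769428948) (nat_lit 76) (nat_lit 84825752702302) (nat_lit 1) (nat_lit 4) (nat_lit 2) (nat_lit 5) (nat_lit 2) (nat_lit 4) (nat_lit 440) (nat_lit 303) (nat_lit 277)) (XT.lf (nat_lit 0) (nat_lit 3048253011503) (nat_lit 76) (nat_lit 850346316884) (nat_lit 76) (nat_lit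 850346316884) (nat_lit 1) (nat_lit 4) (nat_lit 2) (nat_lit 5) (nat_lit 2) (nat_lit 4) (nat_lit 412) (nat_lit 304) (nat_lit 304))) (XT.nd (nat_lit 78) (nat_lit 0) (nat_lit 0) (XT.lf (nat_lit 0) (nat_lit 7013579949965) (nat_lit 76) (nat_lit 1954407879036) (nat_lit 76) (nat_lit 1954405301965) (nat_lit 1) (nat_lit 4) (nat_lit 2) (nat_lit 5) (nat_lit 2) (nat_lit 4) (nat_lit 413) (nat_lit 304) (nat_lit 303)) (XT.lf (nat_lit 0) (nat_lit 8067994185315) (nat_lit 76) (nat_lit 2246298167032) (nat_lit 76) (nat_lit 2246293349029) (nat_lit 1) (nat_lit 4) (nat_lit 2) (nat_lit 5) (nat_lit 2) (nat_lit 4) (nat_lit 414) (nat_lit 304) (nat_lit 302))))) (XT.nd (nat_lit 234) (nat_lit 0) (nat_lit 0) (XT.nd (nat_lit 78) (nat_lit 0) (nat_lit 0) (XT.lf (nat_lit 0) (nat_lit 9280378572789) (nat_lit 76) (nat_lit 2582074394696) (nat_lit 76) (nat_lit 2582067628058) (nat_lit 1) (nat_lit 4) (nat_lit 2) (nat_lit 5) (nat_lit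 2) (nat_lit 4) (nat_lit 415) (nat_lit 304) (nat_lit 301)) (XT.nd (nat_lit 78) (nat_lit 0) (nat_lit 0) (XT.lf (nat_lit 0) (nat_lit 10674453676492) (nat_lit 76) (nat_lit 2968306096918) (nat_lit 76) (nat_lit 2968297635813) (nat_lit 1) (nat_lit 4) (nat_lit 2) (nat_lit 5) (nat_lit 2) (nat_lit 4) (nat_lit 416) (nat_lit 304) (nat_lit 300)) (XT.lf (nat_lit 0) (nat_lit 12277494878885) (nat_lit 76) (nat_lit 3412549980914) (nat_lit 76) (nat_lit 3412540046360) (nat_lit 1) (nat_lit 4) (nat_lit 2) (nat_lit 5) (nat_lit 2) (nat_lit 4) (nat_lit 417) (nat_lit 304) (nat_lit 299)))) (XT.nd (nat_lit 156) (nat_lit 0) (nat_lit 0) (XT.nd (nat_lit 78) (nat_lit 0) (nat_lit 0) (XT.lf (nat_lit 0) (nat_lit 14120866029583) (nat_lit 76) (nat_lit 3923497774849) (nat_lit 76) (nat_lit 3923486559036) (nat_lit 1) (nat_lit 4) (nat_lit 2) (nat_lit 5) (nat_lit 2) (nat_lit 4) (nat_lit 418) (nat_lit 304) (nat_lit 298)) (XT.lf (nat_lit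 0) (nat_lit 16240633085881) (nat_lit 76) (nat_lit 4511146283389) (nat_lit 76) (nat_lit 4511133953436) (nat_lit 1) (nat_lit 4) (nat_lit 2) (nat_lit 5) (nat_lit 2) (nat_lit 4) (nat_lit 419) (nat_lit 304) (nat_lit 297))) (XT.nd (nat_lit 78) (nat_lit 0) (nat_lit 0) (XT.lf (nat_lit 0) (nat_lit 18678269751054) (nat_lit 76) (nat_lit 5186992977351) (nat_lit 76) (nat_lit 5186979678582) (nat_lit 1) (nat_lit 4) (nat_lit 2) (nat_lit 5) (nat_lit 2) (nat_lit 4) (nat_lit 420) (nat_lit 304) (nat_lit 296)) (XT.lf (nat_lit 0) (nat_lit 21481468916377) (nat_lit 76) (nat_lit 5964260944227) (nat_lit 76) (nat_lit 5964246803008) (nat_lit 1) (nat_lit 4) (nat_lit 2) (nat_lit 5) (nat_lit 2) (nat_lit 4) (nat_lit 421) (nat_lit 304) (nat_lit 295))))))))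
noncomputable def xc3 : XT := (XT.nd (nat_lit 52728) (nat_lit 0) (nat_lit 0) (XT.nd (nat_lit 1014) (nat_lit 0) (nat_lit 0) (XT.nd (nat_lit 468) (nat_lit 0) (nat_lit 0) (XT.nd (nat_lit 234) (nat_lit 0) (nat_lit 0) (XT.nd (nat_lit 78) (nat_lit 0) (nat_lit 0) (XT.lf (nat_lit 0) (nat_lit 24705075782911) (nat_lit 76) (nat_lit 6858157600759) (nat_lit 76) (nat_lit 6858142726977) (nat_lit 1) (nat_lit 4) (nat_lit 2) (nat_lit 5) (nat_lit 2) (nat_lit 4) (nat_lit 422) (nat_lit 304) (nat_lit 294)) (XT.nd (nat_lit 78) (nat_lit 0) (nat_lit 0) (XT.lf (nat_lit 0) (nat_lit 28412160919785) (nat_lit 76) (nat_lit 7886172229359) (nat_lit 76) (nat_lit 7886156718564) (nat_lit 1) (nat_lit 4) (nat_lit 2) (nat_lit 5) (nat_lit 2) (nat_lit 4) (nat_lit 423) (nat_lit 304) (nat_lit 293)) (XT.lf (nat_lit 0) (nat_lit 32675254253588) (nat_lit 76) (nat_lit 9068418159716) (nat_lit 76) (nat_lit 9068402094997) (nat_lit 1) (nat_lit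 4) (nat_lit 2) (nat_lit 5) (nat_lit 2) (nat_lit 4) (nat_lit 424) (nat_lit 304) (nat_lit 292)))) (XT.nd (nat_lit 78) (nat_lit 0) (nat_lit 0) (XT.lf (nat_lit 0) (nat_lit 37577764132157) (nat_lit 76) (nat_lit 10428026290468) (nat_lit 76) (nat_lit 10428009744075) (nat_lit 1) (nat_lit 4) (nat_lit 2) (nat_lit 5) (nat_lit 2) (nat_lit 4) (nat_lit 425) (nat_lit 304) (nat_lit 291)) (XT.nd (nat_lit 78) (nat_lit 0) (nat_lit 0) (XT.lf (nat_lit 0) (nat_lit 43215609227028) (nat_lit 76) (nat_lit 11991597650259) (nat_lit 76) (nat_lit 11991580685020) (nat_lit 1) (nat_lit 4) (nat_lit 2) (nat_lit 5) (nat_lit 2) (nat_lit 4) (nat_lit 426) (nat_lit 304) (nat_lit 290)) (XT.lf (nat_lit 0) (nat_lit 49699095203101) (nat_lit 76) (nat_lit 13789723852651) (nat_lit 76) (nat_lit 13789706523198) (nat_lit 1) (nat_lit 4) (nat_lit 2) (nat_lit 5) (nat_lit 2) (nat_lit 4) (nat_lit 427) (nat_lit 304) (nat_lit 289))))) (XT.nd (nat_lit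 234) (nat_lit 0) (nat_lit 0) (XT.nd (nat_lit 78) (nat_lit 0) (nat_lit 0) (XT.lf (nat_lit 0) (nat_lit 57155072872952) (nat_lit 76) (nat_lit 15857585627690) (nat_lit 76) (nat_lit 15857567981530) (nat_lit 1) (nat_lit 4) (nat_lit 2) (nat_lit 5) (nat_lit 2) (nat_lit 4) (nat_lit 428) (nat_lit 304) (nat_lit 288)) (XT.nd (nat_lit 78) (nat_lit 0) (nat_lit 0) (XT.lf (nat_lit 0) (nat_lit 65729420060555) (nat_lit 76) (nat_lit 18235641140541) (nat_lit 76) (nat_lit 18235623218983) (nat_lit 1) (nat_lit 4) (nat_lit 2) (nat_lit 5) (nat_lit 2) (nat_lit 4) (nat_lit 429) (nat_lit 304) (nat_lit 287)) (XT.lf (nat_lit 0) (nat_lit 75589895732625) (nat_lit 76) (nat_lit 20970417564282) (nat_lit 76) (nat_lit 20970399403246) (nat_lit 1) (nat_lit 4) (nat_lit 2) (nat_lit 5) (nat_lit 2) (nat_lit 4) (nat_lit 430) (nat_lit 304) (nat_lit 286)))) (XT.nd (nat_lit 156) (nat_lit 0) (nat_lit 0) (XT.nd (nat_lit 78) (nat_lit 0)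 (nat_lit 0) (XT.lf (nat_lit 0) (nat_lit 86929422239268) (nat_lit 76) (nat_lit 24115421394158) (nat_lit 76) (nat_lit 24115403024882) (nat_lit 1) (nat_lit 4) (nat_lit 2) (nat_lit 5) (nat_lit 2) (nat_lit 4) (nat_lit 431) (nat_lit 304) (nat_lit 285)) (XT.lf (nat_lit 0) (nat_lit 99969859881700) (nat_lit 76) (nat_lit 27732185313798) (nat_lit 76) (nat_lit 27732166763444) (nat_lit 1) (nat_lit 4) (nat_lit 2) (nat_lit 5) (nat_lit 2) (nat_lit 4) (nat_lit 432) (nat_lit 304) (nat_lit 284))) (XT.nd (nat_lit 78) (nat_lit 0) (nat_lit 0) (XT.lf (nat_lit 0) (nat_lit 114966347657274) (nat_lit 76) (nat_lit 31891472095543) (nat_lit 76) (nat_lit 31891453387729) (nat_lit 1) (nat_lit 4) (nat_lit 2) (nat_lit 5) (nat_lit 2) (nat_lit 4) (nat_lit 433) (nat_lit 304) (nat_lit 283)) (XT.lf (nat_lit 0) (nat_lit 132212295109424) (nat_lit 76) (nat_lit 36674659089471) (nat_lit 76) (nat_lit 36674640244735) (nat_lit 1) (nat_lit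 4) (nat_lit 2) (nat_lit 5) (nat_lit 2) (nat_lit 4) (nat_lit 434) (nat_lit 304) (nat_lit 282)))))) (XT.nd (nat_lit 51168) (nat_lit 0) (nat_lit 0) (XT.nd (nat_lit 234) (nat_lit 0) (nat_lit 0) (XT.nd (nat_lit 78) (nat_lit 0) (nat_lit 0) (XT.lf (nat_lit 0) (nat_lit 152045122949171) (nat_lit 76) (nat_lit 42175330388940) (nat_lit 76) (nat_lit 42175311425142) (nat_lit 1) (nat_lit 4) (nat_lit 2) (nat_lit 5) (nat_lit 2) (nat_lit 4) (nat_lit 435) (nat_lit 304) (nat_lit 281)) (XT.nd (nat_lit 78) (nat_lit 0) (nat_lit 0) (XT.lf (nat_lit 0) (nat_lit 174852864764684) (nat_lit 76) (nat_lit 48501107823724) (nat_lit 76) (nat_lit 48501088756393) (nat_lit 1) (nat_lit 4) (nat_lit 2) (nat_lit 5) (nat_lit 2) (nat_lit 4) (nat_lit 436) (nat_lit 304) (nat_lit 280)) (XT.lf (nat_lit 0) (nat_lit 201081758982787) (nat_lit 76) (nat_lit 55775756604502) (nat_lit 76) (nat_lit 55775737447144) (nat_lit 1) (nat_lit 4) (nat_lit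 2) (nat_lit 5) (nat_lit 2) (nat_lit 4) (nat_lit 437) (nat_lit 304) (nat_lit 279)))) (XT.nd (nat_lit 156) (nat_lit 0) (nat_lit 0) (XT.nd (nat_lit 78) (nat_lit 0) (nat_lit 0) (XT.lf (nat_lit 0) (nat_lit 231244979620792) (nat_lit 76) (nat_lit 64141606816117) (nat_lit 76) (nat_lit 64141587580473) (nat_lit 1) (nat_lit 4) (nat_lit 2) (nat_lit 5) (nat_lit 2) (nat_lit 4) (nat_lit 438) (nat_lit 304) (nat_lit 278)) (XT.lf (nat_lit 0) (nat_lit 265932676647704) (nat_lit 76) (nat_lit 73762338136621) (nat_lit 76) (nat_lit 73762318832902) (nat_lit 1) (nat_lit 4) (nat_lit 2) (nat_lit 5) (nat_lit 2) (nat_lit 4) (nat_lit 439) (nat_lit 304) (nat_lit 277))) (XT.nd (nat_lit 78) (nat_lit 0) (nat_lit 0) (XT.lf (nat_lit 0) (nat_lit 305823522396657) (nat_lit 76) (nat_lit 84826182265763) (nat_lit 76) (nat_lit 84826162902850) (nat_lit 1) (nat_lit 4) (nat_lit 2) (nat_lit 5) (nat_lit 2) (nat_lit 4) (nat_lit 440) (nat_lit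 304) (nat_lit 276)) (XT.lf (nat_lit 0) (nat_lit 351697989936653) (nat_lit 76) (nat_lit 97549605719113) (nat_lit 76) (nat_lit 97549586304727) (nat_lit 1) (nat_lit 4) (nat_lit 2) (nat_lit 5) (nat_lit 2) (nat_lit 4) (nat_lit 441) (nat_lit 304) (nat_lit 275))))) (XT.nd (nat_lit 234) (nat_lit 0) (nat_lit 0) (XT.nd (nat_lit 78) (nat_lit 0) (nat_lit 0) (XT.lf (nat_lit 0) (nat_lit 2302539968112) (nat_lit 76) (nat_lit 644255803566) (nat_lit 76) (nat_lit 644255803566) (nat_lit 1) (nat_lit 4) (nat_lit 2) (nat_lit 5) (nat_lit 2) (nat_lit 4) (nat_lit 410) (nat_lit 305) (nat_lit 305)) (XT.nd (nat_lit 78) (nat_lit 0) (nat_lit 0) (XT.lf (nat_lit 0) (nat_lit 5298829653692) (nat_lit 76) (nat_lit 1480191400934) (nat_lit 76) (nat_lit 1480188437303) (nat_lit 1) (nat_lit 4) (nat_lit 2) (nat_lit 5) (nat_lit 2) (nat_lit 4) (nat_lit 411) (nat_lit 305) (nat_lit 304)) (XT.lf (nat_lit 0) (nat_lit 6096387931029) (nat_lit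 76) (nat_lit 1700758583136) (nat_lit 76) (nat_lit 1700753042433) (nat_lit 1) (nat_lit 4) (nat_lit 2) (nat_lit 5) (nat_lit 2) (nat_lit 4) (nat_lit 412) (nat_lit 305) (nat_lit 303)))) (XT.nd (nat_lit 156) (nat_lit 0) (nat_lit 0) (XT.nd (nat_lit 78) (nat_lit 0) (nat_lit 0) (XT.lf (nat_lit 0) (nat_lit 7013359169312) (nat_lit 76) (nat_lit 1954528598607) (nat_lit 76) (nat_lit 1954520816973) (nat_lit 1) (nat_lit 4) (nat_lit 2) (nat_lit 5) (nat_lit 2) (nat_lit 4) (nat_lit 413) (nat_lit 305) (nat_lit 302)) (XT.lf (nat_lit 0) (nat_lit 8067684110160) (nat_lit 76) (nat_lit 2246466512868) (nat_lit 76) (nat_lit 2246456782597) (nat_lit 1) (nat_lit 4) (nat_lit 2) (nat_lit 5) (nat_lit 2) (nat_lit 4) (nat_lit 414) (nat_lit 305) (nat_lit 301))) (XT.nd (nat_lit 78) (nat_lit 0) (nat_lit 0) (XT.lf (nat_lit 0) (nat_lit 9279990850242) (nat_lit 76) (nat_lit 2582284154675) (nat_lit 76) (nat_lit 2582272729938) (nat_lit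 1) (nat_lit 4) (nat_lit 2) (nat_lit 5) (nat_lit 2) (nat_lit 4) (nat_lit 415) (nat_lit 305) (nat_lit 300)) (XT.lf (nat_lit 0) (nat_lit 10673998434473) (nat_lit 76) (nat_lit 2968551869195) (nat_lit 76) (nat_lit 2968538971009) (nat_lit 1) (nat_lit 4) (nat_lit 2) (nat_lit 5) (nat_lit 2) (nat_lit 4) (nat_lit 416) (nat_lit 305) (nat_lit 299))))))) (XT.nd (nat_lit 1014) (nat_lit 0) (nat_lit 0) (XT.nd (nat_lit 468) (nat_lit 0) (nat_lit 0) (XT.nd (nat_lit 234) (nat_lit 0) (nat_lit 0) (XT.nd (nat_lit 78) (nat_lit 0) (nat_lit 0) (XT.lf (nat_lit 0) (nat_lit 12276980924283) (nat_lit 76) (nat_lit 3412827068233) (nat_lit 76) (nat_lit 3412812888787) (nat_lit 1) (nat_lit 4) (nat_lit 2) (nat_lit 5) (nat_lit 2) (nat_lit 4) (nat_lit 417) (nat_lit 305) (nat_lit 298)) (XT.nd (nat_lit 78) (nat_lit 0) (nat_lit 0) (XT.lf (nat_lit 0) (nat_lit 14120301020560) (nat_lit 76) (nat_lit 3923802092640) (nat_lit 76) (nat_lit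 3923786799055) (nat_lit 1) (nat_lit 4) (nat_lit 2) (nat_lit 5) (nat_lit 2) (nat_lit 4) (nat_lit 418) (nat_lit 305) (nat_lit 297)) (XT.lf (nat_lit 0) (nat_lit 16240023681709) (nat_lit 76) (nat_lit 4511474279850) (nat_lit 76) (nat_lit 4511458017448) (nat_lit 1) (nat_lit 4) (nat_lit 2) (nat_lit 5) (nat_lit 2) (nat_lit 4) (nat_lit 419) (nat_lit 305) (nat_lit 296)))) (XT.nd (nat_lit 78) (nat_lit 0) (nat_lit 0) (XT.lf (nat_lit 0) (nat_lit 18677621742405) (nat_lit 76) (nat_lit 5187341563960) (nat_lit 76) (nat_lit 5187324459110) (nat_lit 1) (nat_lit 4) (nat_lit 2) (nat_lit 5) (nat_lit 2) (nat_lit 4) (nat_lit 420) (nat_lit 305) (nat_lit 295)) (XT.nd (nat_lit 78) (nat_lit 0) (nat_lit 0) (XT.lf (nat_lit 0) (nat_lit 21480787338618) (nat_lit 76) (nat_lit 5964627435313) (nat_lit 76) (nat_lit 5964609597898) (nat_lit 1) (nat_lit 4) (nat_lit 2) (nat_lit 5) (nat_lit 2) (nat_lit 4) (nat_lit 421) (nat_lit 305)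 (nat_lit 294)) (XT.lf (nat_lit 0) (nat_lit 24704365014621) (nat_lit 76) (nat_lit 6858539660956) (nat_lit 76) (nat_lit 6858521186529) (nat_lit 1) (nat_lit 4) (nat_lit 2) (nat_lit 5) (nat_lit 2) (nat_lit 4) (nat_lit 422) (nat_lit 305) (nat_lit 293))))) (XT.nd (nat_lit 234) (nat_lit 0) (nat_lit 0) (XT.nd (nat_lit 78) (nat_lit 0) (nat_lit 0) (XT.lf (nat_lit 0) (nat_lit 28411424768424) (nat_lit 76) (nat_lit 7886567827913) (nat_lit 76) (nat_lit 7886548799561) (nat_lit 1) (nat_lit 4) (nat_lit 2) (nat_lit 5) (nat_lit 2) (nat_lit 4) (nat_lit 423) (nat_lit 305) (nat_lit 292)) (XT.nd (nat_lit 78) (nat_lit 0) (nat_lit 0) (XT.lf (nat_lit 0) (nat_lit 32674496029993) (nat_lit 76) (nat_lit 9068825530754) (nat_lit 76) (nat_lit 9068806020729) (nat_lit 1) (nat_lit 4) (nat_lit 2) (nat_lit 5) (nat_lit 2) (nat_lit 4) (nat_lit 424) (nat_lit 305) (nat_lit 291)) (XT.lf (nat_lit 0) (nat_lit 37576986715314) (nat_lit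 76) (nat_lit 10428443898448) (nat_lit 76) (nat_lit 10428423969578) (nat_lit 1) (nat_lit 4) (nat_lit 2) (nat_lit 5) (nat_lit 2) (nat_lit 4) (nat_lit 425) (nat_lit 305) (nat_lit 290)))) (XT.nd (nat_lit 156) (nat_lit 0) (nat_lit 0) (XT.nd (nat_lit 78) (nat_lit 0) (nat_lit 0) (XT.lf (nat_lit 0) (nat_lit 43214815120404) (nat_lit 76) (nat_lit 11992024159929) (nat_lit 76) (nat_lit 11992003866844) (nat_lit 1) (nat_lit 4) (nat_lit 2) (nat_lit 5) (nat_lit 2) (nat_lit 4) (nat_lit 426) (nat_lit 305) (nat_lit 289)) (XT.lf (nat_lit 0) (nat_lit 49698286583624) (nat_lit 76) (nat_lit 13790158102920) (nat_lit 76) (nat_lit 13790137493128) (nat_lit 1) (nat_lit 4) (nat_lit 2) (nat_lit 5) (nat_lit 2) (nat_lit 4) (nat_lit 427) (nat_lit 305) (nat_lit 288))) (XT.nd (nat_lit 78) (nat_lit 0) (nat_lit 0) (XT.lf (nat_lit 0) (nat_lit 57154251633603) (nat_lit 76) (nat_lit 15858026608916) (nat_lit 76) (nat_lit 15858005723725)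 (nat_lit 1) (nat_lit 4) (nat_lit 2) (nat_lit 5) (nat_lit 2) (nat_lit 4) (nat_lit 428) (nat_lit 305) (nat_lit 287)) (XT.lf (nat_lit 0) (nat_lit 65728587847405) (nat_lit 76) (nat_lit 18236087974772) (nat_lit 76) (nat_lit 18236066850105) (nat_lit 1) (nat_lit 4) (nat_lit 2) (nat_lit 5) (nat_lit 2) (nat_lit 4) (nat_lit 429) (nat_lit 305) (nat_lit 286)))))) (XT.nd (nat_lit 546) (nat_lit 0) (nat_lit 0) (XT.nd (nat_lit 234) (nat_lit 0) (nat_lit 0) (XT.nd (nat_lit 78) (nat_lit 0) (nat_lit 0) (XT.lf (nat_lit 0) (nat_lit 75589053977039) (nat_lit 76) (nat_lit 20970869488082) (nat_lit 76) (nat_lit 20970848155174) (nat_lit 1) (nat_lit 4) (nat_lit 2) (nat_lit 5) (nat_lit 2) (nat_lit 4) (nat_lit 430) (nat_lit 305) (nat_lit 285)) (XT.nd (nat_lit 78) (nat_lit 0) (nat_lit 0) (XT.lf (nat_lit 0) (nat_lit 86928572185911) (nat_lit 76) (nat_lit 24115877743671) (nat_lit 76) (nat_lit 24115856229684) (nat_lit 1) (nat_lit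 4) (nat_lit 2) (nat_lit 5) (nat_lit 2) (nat_lit 4) (nat_lit 431) (nat_lit 305) (nat_lit 284)) (XT.lf (nat_lit 0) (nat_lit 99969002612890) (nat_lit 76) (nat_lit 27732645511757) (nat_lit 76) (nat_lit 27732623840311) (nat_lit 1) (nat_lit 4) (nat_lit 2) (nat_lit 5) (nat_lit 2) (nat_lit 4) (nat_lit 432) (nat_lit 305) (nat_lit 283)))) (XT.nd (nat_lit 156) (nat_lit 0) (nat_lit 0) (XT.nd (nat_lit 78) (nat_lit 0) (nat_lit 0) (XT.lf (nat_lit 0) (nat_lit 114965484114157) (nat_lit 76) (nat_lit 31891935639977) (nat_lit 76) (nat_lit 31891913831609) (nat_lit 1) (nat_lit 4) (nat_lit 2) (nat_lit 5) (nat_lit 2) (nat_lit 4) (nat_lit 433) (nat_lit 305) (nat_lit 282)) (XT.lf (nat_lit 0) (nat_lit 132211426110388) (nat_lit 76) (nat_lit 36675125543883) (nat_lit 76) (nat_lit 36675103616453) (nat_lit 1) (nat_lit 4) (nat_lit 2) (nat_lit 5) (nat_lit 2) (nat_lit 4) (nat_lit 434) (nat_lit 305) (nat_lit 281))) (XT.nd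 (nat_lit 78) (nat_lit 0) (nat_lit 0) (XT.lf (nat_lit 0) (nat_lit 152044249205857) (nat_lit 76) (nat_lit 42175799373768) (nat_lit 76) (nat_lit 42175777342806) (nat_lit 1) (nat_lit 4) (nat_lit 2) (nat_lit 5) (nat_lit 2) (nat_lit 4) (nat_lit 435) (nat_lit 305) (nat_lit 280)) (XT.lf (nat_lit 0) (nat_lit 174851986895912) (nat_lit 76) (nat_lit 48501579008913) (nat_lit 76) (nat_lit 48501556887923) (nat_lit 1) (nat_lit 4) (nat_lit 2) (nat_lit 5) (nat_lit 2) (nat_lit 4) (nat_lit 436) (nat_lit 305) (nat_lit 279))))) (XT.nd (nat_lit 234) (nat_lit 0) (nat_lit 0) (XT.nd (nat_lit 78) (nat_lit 0) (nat_lit 0) (XT.lf (nat_lit 0) (nat_lit 201080877526660) (nat_lit 76) (nat_lit 55776229703049) (nat_lit 76) (nat_lit 55776207503773) (nat_lit 1) (nat_lit 4) (nat_lit 2) (nat_lit 5) (nat_lit 2) (nat_lit 4) (nat_lit 437) (nat_lit 305) (nat_lit 278)) (XT.nd (nat_lit 78) (nat_lit 0) (nat_lit 0) (XT.lf (nat_lit 0)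 (nat_lit 231244095045226) (nat_lit 76) (nat_lit 64142081578454) (nat_lit 76) (nat_lit 64142059311103) (nat_lit 1) (nat_lit 4) (nat_lit 2) (nat_lit 5) (nat_lit 2) (nat_lit 4) (nat_lit 438) (nat_lit 305) (nat_lit 277)) (XT.lf (nat_lit 0) (nat_lit 265931789359581) (nat_lit 76) (nat_lit 73762814345730) (nat_lit 76) (nat_lit 73762792019186) (nat_lit 1) (nat_lit 4) (nat_lit 2) (nat_lit 5) (nat_lit 2) (nat_lit 4) (nat_lit 439) (nat_lit 305) (nat_lit 276)))) (XT.nd (nat_lit 156) (nat_lit 0) (nat_lit 0) (XT.nd (nat_lit 78) (nat_lit 0) (nat_lit 0) (XT.lf (nat_lit 0) (nat_lit 305822632749790) (nat_lit 76) (nat_lit 84826659732936) (nat_lit 76) (nat_lit 84826637354918) (nat_lit 1) (nat_lit 4) (nat_lit 2) (nat_lit 5) (nat_lit 2) (nat_lit 4) (nat_lit 440) (nat_lit 305) (nat_lit 275)) (XT.lf (nat_lit 0) (nat_lit 351697098238704) (nat_lit 76) (nat_lit 97550084280255) (nat_lit 76) (nat_lit 97550061857478)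 (nat_lit 1) (nat_lit 4) (nat_lit 2) (nat_lit 5) (nat_lit 2) (nat_lit 4) (nat_lit 441) (nat_lit 305) (nat_lit 274))) (XT.nd (nat_lit 50466) (nat_lit 0) (nat_lit 0) (XT.lf (nat_lit 0) (nat_lit 404452729716323) (nat_lit 76) (nat_lit 112182024554918) (nat_lit 76) (nat_lit 112182002093218) (nat_lit 1) (nat_lit 4) (nat_lit 2) (nat_lit 5) (nat_lit 2) (nat_lit 4) (nat_lit 442) (nat_lit 305) (nat_lit 273)) (XT.lf (nat_lit 0) (nat_lit 1738317186303) (nat_lit 76) (nat_lit 488612540187) (nat_lit 76) (nat_lit 488612540187) (nat_lit 1) (nat_lit 4) (nat_lit 2) (nat_lit 5) (nat_lit 2) (nat_lit 4) (nat_lit 408) (nat_lit 306) (nat_lit 306))))))))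
noncomputable def xc4 : XT := (XT.nd (nat_lit 2028) (nat_lit 0) (nat_lit 0) (XT.nd (nat_lit 1014) (nat_lit 0) (nat_lit 0) (XT.nd (nat_lit 468) (nat_lit 0) (nat_lit 0) (XT.nd (nat_lit 234) (nat_lit 0) (nat_lit 0) (XT.nd (nat_lit 78) (nat_lit 0) (nat_lit 0) (XT.lf (nat_lit 0) (nat_lit 4001565414587) (nat_lit 76) (nat_lit 1121972353073) (nat_lit 76) (nat_lit 1121968944896) (nat_lit 1) (nat_lit 4) (nat_lit 2) (nat_lit 5) (nat_lit 2) (nat_lit 4) (nat_lit 409) (nat_lit 306) (nat_lit 305)) (XT.nd (nat_lit 78) (nat_lit 0) (nat_lit 0) (XT.lf (nat_lit 0) (nat_lit 4604944130450) (nat_lit 76) (nat_lit 1288587448905) (nat_lit 76) (nat_lit 1288581077096) (nat_lit 1) (nat_lit 4) (nat_lit 2) (nat_lit 5) (nat_lit 2) (nat_lit 4) (nat_lit 410) (nat_lit 306) (nat_lit 304)) (XT.lf (nat_lit 0) (nat_lit 5298575755940) (nat_lit 76) (nat_lit 1480330228441) (nat_lit 76) (nat_lit 1480321279561) (nat_lit 1) (nat_lit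 4) (nat_lit 2) (nat_lit 5) (nat_lit 2) (nat_lit 4) (nat_lit 411) (nat_lit 306) (nat_lit 303)))) (XT.nd (nat_lit 78) (nat_lit 0) (nat_lit 0) (XT.lf (nat_lit 0) (nat_lit 6096031344600) (nat_lit 76) (nat_lit 1700952180847) (nat_lit 76) (nat_lit 1700940991036) (nat_lit 1) (nat_lit 4) (nat_lit 2) (nat_lit 5) (nat_lit 2) (nat_lit 4) (nat_lit 412) (nat_lit 306) (nat_lit 302)) (XT.nd (nat_lit 78) (nat_lit 0) (nat_lit 0) (XT.lf (nat_lit 0) (nat_lit 7012913288382) (nat_lit 76) (nat_lit 1954769822583) (nat_lit 76) (nat_lit 1954756684135) (nat_lit 1) (nat_lit 4) (nat_lit 2) (nat_lit 5) (nat_lit 2) (nat_lit 4) (nat_lit 413) (nat_lit 306) (nat_lit 301)) (XT.lf (nat_lit 0) (nat_lit 8067160581838) (nat_lit 76) (nat_lit 2246749150986) (nat_lit 76) (nat_lit 2246734318073) (nat_lit 1) (nat_lit 4) (nat_lit 2) (nat_lit 5) (nat_lit 2) (nat_lit 4) (nat_lit 414) (nat_lit 306) (nat_lit 300))))) (XT.nd (nat_lit 234)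 (nat_lit 0) (nat_lit 0) (XT.nd (nat_lit 78) (nat_lit 0) (nat_lit 0) (XT.lf (nat_lit 0) (nat_lit 9279399802449) (nat_lit 76) (nat_lit 2582602805092) (nat_lit 76) (nat_lit 2582586498729) (nat_lit 1) (nat_lit 4) (nat_lit 2) (nat_lit 5) (nat_lit 2) (nat_lit 4) (nat_lit 415) (nat_lit 306) (nat_lit 299)) (XT.nd (nat_lit 78) (nat_lit 0) (nat_lit 0) (XT.lf (nat_lit 0) (nat_lit 10673348674096) (nat_lit 76) (nat_lit 2968901834653) (nat_lit 76) (nat_lit 2968884247031) (nat_lit 1) (nat_lit 4) (nat_lit 2) (nat_lit 5) (nat_lit 2) (nat_lit 4) (nat_lit 416) (nat_lit 306) (nat_lit 298)) (XT.lf (nat_lit 0) (nat_lit 12276280109485) (nat_lit 76) (nat_lit 3413204264163) (nat_lit 76) (nat_lit 3413185562401) (nat_lit 1) (nat_lit 4) (nat_lit 2) (nat_lit 5) (nat_lit 2) (nat_lit 4) (nat_lit 417) (nat_lit 306) (nat_lit 297)))) (XT.nd (nat_lit 156) (nat_lit 0) (nat_lit 0) (XT.nd (nat_lit 78) (nat_lit 0) (nat_lit 0)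 (XT.lf (nat_lit 0) (nat_lit 14119555810614) (nat_lit 76) (nat_lit 3924202967240) (nat_lit 76) (nat_lit 3924183296663) (nat_lit 1) (nat_lit 4) (nat_lit 2) (nat_lit 5) (nat_lit 2) (nat_lit 4) (nat_lit 418) (nat_lit 306) (nat_lit 296)) (XT.lf (nat_lit 0) (nat_lit 16239239867286) (nat_lit 76) (nat_lit 4511895744599) (nat_lit 76) (nat_lit 4511875231572) (nat_lit 1) (nat_lit 4) (nat_lit 2) (nat_lit 5) (nat_lit 2) (nat_lit 4) (nat_lit 419) (nat_lit 306) (nat_lit 295))) (XT.nd (nat_lit 78) (nat_lit 0) (nat_lit 0) (XT.lf (nat_lit 0) (nat_lit 18676804358871) (nat_lit 76) (nat_lit 5187780933187) (nat_lit 76) (nat_lit 5187759687595) (nat_lit 1) (nat_lit 4) (nat_lit 2) (nat_lit 5) (nat_lit 2) (nat_lit 4) (nat_lit 420) (nat_lit 306) (nat_lit 294)) (XT.lf (nat_lit 0) (nat_lit 21479940764553) (nat_lit 76) (nat_lit 5965082373650) (nat_lit 76) (nat_lit 5965060491046) (nat_lit 1) (nat_lit 4) (nat_lit 2) (nat_lit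 5) (nat_lit 2) (nat_lit 4) (nat_lit 421) (nat_lit 306) (nat_lit 293)))))) (XT.nd (nat_lit 468) (nat_lit 0) (nat_lit 0) (XT.nd (nat_lit 234) (nat_lit 0) (nat_lit 0) (XT.nd (nat_lit 78) (nat_lit 0) (nat_lit 0) (XT.lf (nat_lit 0) (nat_lit 24703493057487) (nat_lit 76) (nat_lit 6859008137650) (nat_lit 76) (nat_lit 6858985701121) (nat_lit 1) (nat_lit 4) (nat_lit 2) (nat_lit 5) (nat_lit 2) (nat_lit 4) (nat_lit 422) (nat_lit 306) (nat_lit 292)) (XT.nd (nat_lit 78) (nat_lit 0) (nat_lit 0) (XT.lf (nat_lit 0) (nat_lit 28410530739055) (nat_lit 76) (nat_lit 7887048077090) (nat_lit 76) (nat_lit 7887025158889) (nat_lit 1) (nat_lit 4) (nat_lit 2) (nat_lit 5) (nat_lit 2) (nat_lit 4) (nat_lit 423) (nat_lit 306) (nat_lit 291)) (XT.lf (nat_lit 0) (nat_lit 32673582807375) (nat_lit 76) (nat_lit 9069316016874) (nat_lit 76) (nat_lit 9069292679827) (nat_lit 1) (nat_lit 4) (nat_lit 2) (nat_lit 5) (nat_lit 2) (nat_lit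 4) (nat_lit 424) (nat_lit 306) (nat_lit 290)))) (XT.nd (nat_lit 78) (nat_lit 0) (nat_lit 0) (XT.lf (nat_lit 0) (nat_lit 37576056802915) (nat_lit 76) (nat_lit 10428943286258) (nat_lit 76) (nat_lit 10428919584996) (nat_lit 1) (nat_lit 4) (nat_lit 2) (nat_lit 5) (nat_lit 2) (nat_lit 4) (nat_lit 425) (nat_lit 306) (nat_lit 289)) (XT.nd (nat_lit 78) (nat_lit 0) (nat_lit 0) (XT.lf (nat_lit 0) (nat_lit 43213870695153) (nat_lit 76) (nat_lit 11992531288338) (nat_lit 76) (nat_lit 11992507270369) (nat_lit 1) (nat_lit 4) (nat_lit 2) (nat_lit 5) (nat_lit 2) (nat_lit 4) (nat_lit 426) (nat_lit 306) (nat_lit 288)) (XT.lf (nat_lit 0) (nat_lit 49697329538501) (nat_lit 76) (nat_lit 13790671962285) (nat_lit 76) (nat_lit 13790647668918) (nat_lit 1) (nat_lit 4) (nat_lit 2) (nat_lit 5) (nat_lit 2) (nat_lit 4) (nat_lit 427) (nat_lit 306) (nat_lit 287))))) (XT.nd (nat_lit 234) (nat_lit 0) (nat_lit 0) (XT.nd (nat_lit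 78) (nat_lit 0) (nat_lit 0) (XT.lf (nat_lit 0) (nat_lit 57153283614678) (nat_lit 76) (nat_lit 15858546321286) (nat_lit 76) (nat_lit 15858521788442) (nat_lit 1) (nat_lit 4) (nat_lit 2) (nat_lit 5) (nat_lit 2) (nat_lit 4) (nat_lit 428) (nat_lit 306) (nat_lit 286)) (XT.nd (nat_lit 78) (nat_lit 0) (nat_lit 0) (XT.lf (nat_lit 0) (nat_lit 65727610286044) (nat_lit 76) (nat_lit 18236612776713) (nat_lit 76) (nat_lit 18236588035628) (nat_lit 1) (nat_lit 4) (nat_lit 2) (nat_lit 5) (nat_lit 2) (nat_lit 4) (nat_lit 429) (nat_lit 306) (nat_lit 285)) (XT.lf (nat_lit 0) (nat_lit 75588068117907) (nat_lit 76) (nat_lit 20971398715735) (nat_lit 76) (nat_lit 20971373793572) (nat_lit 1) (nat_lit 4) (nat_lit 2) (nat_lit 5) (nat_lit 2) (nat_lit 4) (nat_lit 430) (nat_lit 306) (nat_lit 284)))) (XT.nd (nat_lit 156) (nat_lit 0) (nat_lit 0) (XT.nd (nat_lit 78) (nat_lit 0) (nat_lit 0) (XT.lf (nat_lit 0) (nat_lit 86927579111326)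 (nat_lit 76) (nat_lit 24116410819770) (nat_lit 76) (nat_lit 24116385740147) (nat_lit 1) (nat_lit 4) (nat_lit 2) (nat_lit 5) (nat_lit 2) (nat_lit 4) (nat_lit 431) (nat_lit 306) (nat_lit 283)) (XT.lf (nat_lit 0) (nat_lit 99968003263999) (nat_lit 76) (nat_lit 27733181934331) (nat_lit 76) (nat_lit 27733156717787) (nat_lit 1) (nat_lit 4) (nat_lit 2) (nat_lit 5) (nat_lit 2) (nat_lit 4) (nat_lit 432) (nat_lit 306) (nat_lit 282))) (XT.nd (nat_lit 78) (nat_lit 0) (nat_lit 0) (XT.lf (nat_lit 0) (nat_lit 114964479309347) (nat_lit 76) (nat_lit 31892474972529) (nat_lit 76) (nat_lit 31892449636922) (nat_lit 1) (nat_lit 4) (nat_lit 2) (nat_lit 5) (nat_lit 2) (nat_lit 4) (nat_lit 433) (nat_lit 306) (nat_lit 281)) (XT.lf (nat_lit 0) (nat_lit 132210416561301) (nat_lit 76) (nat_lit 36675667406850) (nat_lit 76) (nat_lit 36675641967711) (nat_lit 1) (nat_lit 4) (nat_lit 2) (nat_lit 5) (nat_lit 2) (nat_lit 4)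 (nat_lit 434) (nat_lit 306) (nat_lit 280))))))) (XT.nd (nat_lit 51168) (nat_lit 0) (nat_lit 0) (XT.nd (nat_lit 468) (nat_lit 0) (nat_lit 0) (XT.nd (nat_lit 234) (nat_lit 0) (nat_lit 0) (XT.nd (nat_lit 78) (nat_lit 0) (nat_lit 0) (XT.lf (nat_lit 0) (nat_lit 152043235531312) (nat_lit 76) (nat_lit 42176343437097) (nat_lit 76) (nat_lit 42176317907930) (nat_lit 1) (nat_lit 4) (nat_lit 2) (nat_lit 5) (nat_lit 2) (nat_lit 4) (nat_lit 435) (nat_lit 306) (nat_lit 279)) (XT.nd (nat_lit 78) (nat_lit 0) (nat_lit 0) (XT.lf (nat_lit 0) (nat_lit 174850969634010) (nat_lit 76) (nat_lit 48502124985601) (nat_lit 76) (nat_lit 48502099378147) (nat_lit 1) (nat_lit 4) (nat_lit 2) (nat_lit 5) (nat_lit 2) (nat_lit 4) (nat_lit 436) (nat_lit 306) (nat_lit 278)) (XT.lf (nat_lit 0) (nat_lit 201079857145319) (nat_lit 76) (nat_lit 55776777343526) (nat_lit 76) (nat_lit 55776751667999) (nat_lit 1) (nat_lit 4) (nat_lit 2)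 (nat_lit 5) (nat_lit 2) (nat_lit 4) (nat_lit 437) (nat_lit 306) (nat_lit 277)))) (XT.nd (nat_lit 78) (nat_lit 0) (nat_lit 0) (XT.lf (nat_lit 0) (nat_lit 231243071951330) (nat_lit 76) (nat_lit 64142630665703) (nat_lit 76) (nat_lit 64142604930981) (nat_lit 1) (nat_lit 4) (nat_lit 2) (nat_lit 5) (nat_lit 2) (nat_lit 4) (nat_lit 438) (nat_lit 306) (nat_lit 276)) (XT.nd (nat_lit 78) (nat_lit 0) (nat_lit 0) (XT.lf (nat_lit 0) (nat_lit 265930763906941) (nat_lit 76) (nat_lit 73763364691044) (nat_lit 76) (nat_lit 73763338904849) (nat_lit 1) (nat_lit 4) (nat_lit 2) (nat_lit 5) (nat_lit 2) (nat_lit 4) (nat_lit 439) (nat_lit 306) (nat_lit 275)) (XT.lf (nat_lit 0) (nat_lit 305821605246068) (nat_lit 76) (nat_lit 84827211172218) (nat_lit 76) (nat_lit 84827185341263) (nat_lit 1) (nat_lit 4) (nat_lit 2) (nat_lit 5) (nat_lit 2) (nat_lit 4) (nat_lit 440) (nat_lit 306) (nat_lit 274))))) (XT.nd (nat_lit 50388)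 (nat_lit 0) (nat_lit 0) (XT.nd (nat_lit 78) (nat_lit 0) (nat_lit 0) (XT.lf (nat_lit 0) (nat_lit 351696068951432) (nat_lit 76) (nat_lit 97550636670815) (nat_lit 76) (nat_lit 97550610800937) (nat_lit 1) (nat_lit 4) (nat_lit 2) (nat_lit 5) (nat_lit 2) (nat_lit 4) (nat_lit 441) (nat_lit 306) (nat_lit 273)) (XT.nd (nat_lit 78) (nat_lit 0) (nat_lit 0) (XT.lf (nat_lit 0) (nat_lit 404451698878138) (nat_lit 76) (nat_lit 112182577772675) (nat_lit 76) (nat_lit 112182551868953) (nat_lit 1) (nat_lit 4) (nat_lit 2) (nat_lit 5) (nat_lit 2) (nat_lit 4) (nat_lit 442) (nat_lit 306) (nat_lit 272)) (XT.lf (nat_lit 0) (nat_lit 465120670394318) (nat_lit 76) (nat_lit 129009311586313) (nat_lit 76) (nat_lit 129009285653161) (nat_lit 1) (nat_lit 4) (nat_lit 2) (nat_lit 5) (nat_lit 2) (nat_lit 4) (nat_lit 443) (nat_lit 306) (nat_lit 271)))) (XT.nd (nat_lit 156) (nat_lit 0) (nat_lit 0) (XT.nd (nat_lit 78) (nat_lit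 0) (nat_lit 0) (XT.lf (nat_lit 0) (nat_lit 1311273628501) (nat_lit 76) (nat_lit 371143261356) (nat_lit 76) (nat_lit 371143261356) (nat_lit 1) (nat_lit 4) (nat_lit 2) (nat_lit 5) (nat_lit 2) (nat_lit 4) (nat_lit 406) (nat_lit 307) (nat_lit 307)) (XT.lf (nat_lit 0) (nat_lit 3019880614556) (nat_lit 76) (nat_lit 851517538358) (nat_lit 76) (nat_lit 851513618955) (nat_lit 1) (nat_lit 4) (nat_lit 2) (nat_lit 5) (nat_lit 2) (nat_lit 4) (nat_lit 407) (nat_lit 307) (nat_lit 306))) (XT.nd (nat_lit 78) (nat_lit 0) (nat_lit 0) (XT.lf (nat_lit 0) (nat_lit 3476478195965) (nat_lit 76) (nat_lit 977312298413) (nat_lit 76) (nat_lit 977304970833) (nat_lit 1) (nat_lit 4) (nat_lit 2) (nat_lit 5) (nat_lit 2) (nat_lit 4) (nat_lit 408) (nat_lit 307) (nat_lit 305)) (XT.lf (nat_lit 0) (nat_lit 4001273432172) (nat_lit 76) (nat_lit 1122132004706) (nat_lit 76) (nat_lit 1122121713494) (nat_lit 1) (nat_lit 4) (nat_lit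 2) (nat_lit 5) (nat_lit 2) (nat_lit 4) (nat_lit 409) (nat_lit 307) (nat_lit 304)))))) (XT.nd (nat_lit 546) (nat_lit 0) (nat_lit 0) (XT.nd (nat_lit 234) (nat_lit 0) (nat_lit 0) (XT.nd (nat_lit 78) (nat_lit 0) (nat_lit 0) (XT.lf (nat_lit 0) (nat_lit 4604534056057) (nat_lit 76) (nat_lit 1288810086272) (nat_lit 76) (nat_lit 1288797217989) (nat_lit 1) (nat_lit 4) (nat_lit 2) (nat_lit 5) (nat_lit 2) (nat_lit 4) (nat_lit 410) (nat_lit 307) (nat_lit 303)) (XT.nd (nat_lit 78) (nat_lit 0) (nat_lit 0) (XT.lf (nat_lit 0) (nat_lit 5298062992872) (nat_lit 76) (nat_lit 1480607636013) (nat_lit 76) (nat_lit 1480592526798) (nat_lit 1) (nat_lit 4) (nat_lit 2) (nat_lit 5) (nat_lit 2) (nat_lit 4) (nat_lit 411) (nat_lit 307) (nat_lit 302)) (XT.lf (nat_lit 0) (nat_lit 6095429287031) (nat_lit 76) (nat_lit 1701277214683) (nat_lit 76) (nat_lit 1701260156833) (nat_lit 1) (nat_lit 4) (nat_lit 2) (nat_lit 5) (nat_lit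 2) (nat_lit 4) (nat_lit 412) (nat_lit 307) (nat_lit 301)))) (XT.nd (nat_lit 156) (nat_lit 0) (nat_lit 0) (XT.nd (nat_lit 78) (nat_lit 0) (nat_lit 0) (XT.lf (nat_lit 0) (nat_lit 7012233583421) (nat_lit 76) (nat_lit 1955136270562) (nat_lit 76) (nat_lit 1955117518245) (nat_lit 1) (nat_lit 4) (nat_lit 2) (nat_lit 5) (nat_lit 2) (nat_lit 4) (nat_lit 413) (nat_lit 307) (nat_lit 300)) (XT.lf (nat_lit 0) (nat_lit 8066413357405) (nat_lit 76) (nat_lit 2247151611264) (nat_lit 76) (nat_lit 2247131385498) (nat_lit 1) (nat_lit 4) (nat_lit 2) (nat_lit 5) (nat_lit 2) (nat_lit 4) (nat_lit 414) (nat_lit 307) (nat_lit 299))) (XT.nd (nat_lit 78) (nat_lit 0) (nat_lit 0) (XT.lf (nat_lit 0) (nat_lit 9278593865432) (nat_lit 76) (nat_lit 2583036580411) (nat_lit 76) (nat_lit 2583015073386) (nat_lit 1) (nat_lit 4) (nat_lit 2) (nat_lit 5) (nat_lit 2) (nat_lit 4) (nat_lit 415) (nat_lit 307) (nat_lit 298)) (XT.lf (nat_lit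 0) (nat_lit 10672491682658) (nat_lit 76) (nat_lit 2969362840444) (nat_lit 76) (nat_lit 2969340219280) (nat_lit 1) (nat_lit 4) (nat_lit 2) (nat_lit 5) (nat_lit 2) (nat_lit 4) (nat_lit 416) (nat_lit 307) (nat_lit 297))))) (XT.nd (nat_lit 234) (nat_lit 0) (nat_lit 0) (XT.nd (nat_lit 78) (nat_lit 0) (nat_lit 0) (XT.lf (nat_lit 0) (nat_lit 12275378722899) (nat_lit 76) (nat_lit 3413688948624) (nat_lit 76) (nat_lit 3413665358643) (nat_lit 1) (nat_lit 4) (nat_lit 2) (nat_lit 5) (nat_lit 2) (nat_lit 4) (nat_lit 417) (nat_lit 307) (nat_lit 296)) (XT.nd (nat_lit 78) (nat_lit 0) (nat_lit 0) (XT.lf (nat_lit 0) (nat_lit 14118615819550) (nat_lit 76) (nat_lit 3924708241851) (nat_lit 76) (nat_lit 3924683809420) (nat_lit 1) (nat_lit 4) (nat_lit 2) (nat_lit 5) (nat_lit 2) (nat_lit 4) (nat_lit 418) (nat_lit 307) (nat_lit 295)) (XT.lf (nat_lit 0) (nat_lit 16238266307112) (nat_lit 76) (nat_lit 4512418923686)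 (nat_lit 76) (nat_lit 4512393758691) (nat_lit 1) (nat_lit 4) (nat_lit 2) (nat_lit 5) (nat_lit 2) (nat_lit 4) (nat_lit 419) (nat_lit 307) (nat_lit 294)))) (XT.nd (nat_lit 156) (nat_lit 0) (nat_lit 0) (XT.nd (nat_lit 78) (nat_lit 0) (nat_lit 0) (XT.lf (nat_lit 0) (nat_lit 18675801608166) (nat_lit 76) (nat_lit 5188319681384) (nat_lit 76) (nat_lit 5188293879377) (nat_lit 1) (nat_lit 4) (nat_lit 2) (nat_lit 5) (nat_lit 2) (nat_lit 4) (nat_lit 420) (nat_lit 307) (nat_lit 293)) (XT.lf (nat_lit 0) (nat_lit 21478912630778) (nat_lit 76) (nat_lit 5965634660204) (nat_lit 76) (nat_lit 5965608304273) (nat_lit 1) (nat_lit 4) (nat_lit 2) (nat_lit 5) (nat_lit 2) (nat_lit 4) (nat_lit 421) (nat_lit 307) (nat_lit 292))) (XT.nd (nat_lit 78) (nat_lit 0) (nat_lit 0) (XT.lf (nat_lit 0) (nat_lit 24702442851477) (nat_lit 76) (nat_lit 6859572196688) (nat_lit 76) (nat_lit 6859545359084) (nat_lit 1) (nat_lit 4) (nat_lit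 2) (nat_lit 5) (nat_lit 2) (nat_lit 4) (nat_lit 422) (nat_lit 307) (nat_lit 291)) (XT.lf (nat_lit 0) (nat_lit 28409461339797) (nat_lit 76) (nat_lit 7887622373072) (nat_lit 76) (nat_lit 7887595116621) (nat_lit 1) (nat_lit 4) (nat_lit 2) (nat_lit 5) (nat_lit 2) (nat_lit 4) (nat_lit 423) (nat_lit 307) (nat_lit 290))))))))
noncomputable def xc5 : XT := (XT.nd (nat_lit 51870) (nat_lit 0) (nat_lit 0) (XT.nd (nat_lit 1014) (nat_lit 0) (nat_lit 0) (XT.nd (nat_lit 468) (nat_lit 0) (nat_lit 0) (XT.nd (nat_lit 234) (nat_lit 0) (nat_lit 0) (XT.nd (nat_lit 78) (nat_lit 0) (nat_lit 0) (XT.lf (nat_lit 0) (nat_lit 32672496718337) (nat_lit 76) (nat_lit 9069899214545) (nat_lit 76) (nat_lit 9069871593880) (nat_lit 1) (nat_lit 4) (nat_lit 2) (nat_lit 5) (nat_lit 2) (nat_lit 4) (nat_lit 424) (nat_lit 307) (nat_lit 289)) (XT.nd (nat_lit 78) (nat_lit 0) (nat_lit 0) (XT.lf (nat_lit 0) (nat_lit 37574956201024) (nat_lit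 76) (nat_lit 10429534224528) (nat_lit 76) (nat_lit 10429506287156) (nat_lit 1) (nat_lit 4) (nat_lit 2) (nat_lit 5) (nat_lit 2) (nat_lit 4) (nat_lit 425) (nat_lit 307) (nat_lit 288)) (XT.lf (nat_lit 0) (nat_lit 43212757473390) (nat_lit 76) (nat_lit 11993128957564) (nat_lit 76) (nat_lit 11993100744793) (nat_lit 1) (nat_lit 4) (nat_lit 2) (nat_lit 5) (nat_lit 2) (nat_lit 4) (nat_lit 426) (nat_lit 307) (nat_lit 287)))) (XT.nd (nat_lit 78) (nat_lit 0) (nat_lit 0) (XT.lf (nat_lit 0) (nat_lit 49696205342936) (nat_lit 76) (nat_lit 13791275484517) (nat_lit 76) (nat_lit 13791247032270) (nat_lit 1) (nat_lit 4) (nat_lit 2) (nat_lit 5) (nat_lit 2) (nat_lit 4) (nat_lit 427) (nat_lit 307) (nat_lit 286)) (XT.nd (nat_lit 78) (nat_lit 0) (nat_lit 0) (XT.lf (nat_lit 0) (nat_lit 57152149876677) (nat_lit 76) (nat_lit 15859154933088) (nat_lit 76) (nat_lit 15859126272600) (nat_lit 1) (nat_lit 4) (nat_lit 2) (nat_lit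 5) (nat_lit 2) (nat_lit 4) (nat_lit 428) (nat_lit 307) (nat_lit 285)) (XT.lf (nat_lit 0) (nat_lit 65726468250272) (nat_lit 76) (nat_lit 18237225814227) (nat_lit 76) (nat_lit 18237196972660) (nat_lit 1) (nat_lit 4) (nat_lit 2) (nat_lit 5) (nat_lit 2) (nat_lit 4) (nat_lit 429) (nat_lit 307) (nat_lit 284))))) (XT.nd (nat_lit 234) (nat_lit 0) (nat_lit 0) (XT.nd (nat_lit 78) (nat_lit 0) (nat_lit 0) (XT.lf (nat_lit 0) (nat_lit 75586918866682) (nat_lit 76) (nat_lit 20972015601695) (nat_lit 76) (nat_lit 20971986602669) (nat_lit 1) (nat_lit 4) (nat_lit 2) (nat_lit 5) (nat_lit 2) (nat_lit 4) (nat_lit 430) (nat_lit 307) (nat_lit 283)) (XT.nd (nat_lit 78) (nat_lit 0) (nat_lit 0) (XT.lf (nat_lit 0) (nat_lit 86926423585795) (nat_lit 76) (nat_lit 24117031052205) (nat_lit 76) (nat_lit 24117001916257) (nat_lit 1) (nat_lit 4) (nat_lit 2) (nat_lit 5) (nat_lit 2) (nat_lit 4) (nat_lit 431) (nat_lit 307) (nat_lit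 282)) (XT.lf (nat_lit 0) (nat_lit 99966842282548) (nat_lit 76) (nat_lit 27733805076744) (nat_lit 76) (nat_lit 27733775821734) (nat_lit 1) (nat_lit 4) (nat_lit 2) (nat_lit 5) (nat_lit 2) (nat_lit 4) (nat_lit 432) (nat_lit 307) (nat_lit 281)))) (XT.nd (nat_lit 156) (nat_lit 0) (nat_lit 0) (XT.nd (nat_lit 78) (nat_lit 0) (nat_lit 0) (XT.lf (nat_lit 0) (nat_lit 114963313583619) (nat_lit 76) (nat_lit 31893100645358) (nat_lit 76) (nat_lit 31893071286815) (nat_lit 1) (nat_lit 4) (nat_lit 2) (nat_lit 5) (nat_lit 2) (nat_lit 4) (nat_lit 433) (nat_lit 307) (nat_lit 280)) (XT.lf (nat_lit 0) (nat_lit 132209246710114) (nat_lit 76) (nat_lit 36676295280041) (nat_lit 76) (nat_lit 36676265831470) (nat_lit 1) (nat_lit 4) (nat_lit 2) (nat_lit 5) (nat_lit 2) (nat_lit 4) (nat_lit 434) (nat_lit 307) (nat_lit 279))) (XT.nd (nat_lit 78) (nat_lit 0) (nat_lit 0) (XT.lf (nat_lit 0) (nat_lit 152042062092770) (nat_lit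 76) (nat_lit 42176973223645) (nat_lit 76) (nat_lit 42176943696789) (nat_lit 1) (nat_lit 4) (nat_lit 2) (nat_lit 5) (nat_lit 2) (nat_lit 4) (nat_lit 435) (nat_lit 307) (nat_lit 278)) (XT.lf (nat_lit 0) (nat_lit 174849793076029) (nat_lit 76) (nat_lit 48502756435938) (nat_lit 76) (nat_lit 48502726841008) (nat_lit 1) (nat_lit 4) (nat_lit 2) (nat_lit 5) (nat_lit 2) (nat_lit 4) (nat_lit 436) (nat_lit 307) (nat_lit 277)))))) (XT.nd (nat_lit 468) (nat_lit 0) (nat_lit 0) (XT.nd (nat_lit 234) (nat_lit 0) (nat_lit 0) (XT.nd (nat_lit 78) (nat_lit 0) (nat_lit 0) (XT.lf (nat_lit 0) (nat_lit 201078677874782) (nat_lit 76) (nat_lit 55777410240636) (nat_lit 76) (nat_lit 55777380586511) (nat_lit 1) (nat_lit 4) (nat_lit 2) (nat_lit 5) (nat_lit 2) (nat_lit 4) (nat_lit 437) (nat_lit 307) (nat_lit 276)) (XT.nd (nat_lit 78) (nat_lit 0) (nat_lit 0) (XT.lf (nat_lit 0) (nat_lit 231241890322048) (nat_lit 76) (nat_lit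 64143264820877) (nat_lit 76) (nat_lit 64143235115279) (nat_lit 1) (nat_lit 4) (nat_lit 2) (nat_lit 5) (nat_lit 2) (nat_lit 4) (nat_lit 438) (nat_lit 307) (nat_lit 275)) (XT.lf (nat_lit 0) (nat_lit 265929580226577) (nat_lit 76) (nat_lit 73763999940187) (nat_lit 76) (nat_lit 73763970189828) (nat_lit 1) (nat_lit 4) (nat_lit 2) (nat_lit 5) (nat_lit 2) (nat_lit 4) (nat_lit 439) (nat_lit 307) (nat_lit 274)))) (XT.nd (nat_lit 78) (nat_lit 0) (nat_lit 0) (XT.lf (nat_lit 0) (nat_lit 305820419782155) (nat_lit 76) (nat_lit 84827847372639) (nat_lit 76) (nat_lit 84827817583358) (nat_lit 1) (nat_lit 4) (nat_lit 2) (nat_lit 5) (nat_lit 2) (nat_lit 4) (nat_lit 440) (nat_lit 307) (nat_lit 273)) (XT.nd (nat_lit 78) (nat_lit 0) (nat_lit 0) (XT.lf (nat_lit 0) (nat_lit 351694881936607) (nat_lit 76) (nat_lit 97551273698432) (nat_lit 76) (nat_lit 97551243875306) (nat_lit 1) (nat_lit 4) (nat_lit 2) (nat_lit 5)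 (nat_lit 2) (nat_lit 4) (nat_lit 441) (nat_lit 307) (nat_lit 272)) (XT.lf (nat_lit 0) (nat_lit 404450510514693) (nat_lit 76) (nat_lit 112183215519595) (nat_lit 76) (nat_lit 112183185667038) (nat_lit 1) (nat_lit 4) (nat_lit 2) (nat_lit 5) (nat_lit 2) (nat_lit 4) (nat_lit 442) (nat_lit 307) (nat_lit 271))))) (XT.nd (nat_lit 50076) (nat_lit 0) (nat_lit 0) (XT.nd (nat_lit 78) (nat_lit 0) (nat_lit 0) (XT.lf (nat_lit 0) (nat_lit 465119480858159) (nat_lit 76) (nat_lit 129009949958713) (nat_lit 76) (nat_lit 129009920080566) (nat_lit 1) (nat_lit 4) (nat_lit 2) (nat_lit 5) (nat_lit 2) (nat_lit 4) (nat_lit 443) (nat_lit 307) (nat_lit 270)) (XT.nd (nat_lit 78) (nat_lit 0) (nat_lit 0) (XT.lf (nat_lit 0) (nat_lit 534888794560685) (nat_lit 76) (nat_lit 148360695733076) (nat_lit 76) (nat_lit 148360665832673) (nat_lit 1) (nat_lit 4) (nat_lit 2) (nat_lit 5) (nat_lit 2) (nat_lit 4) (nat_lit 444) (nat_lit 307)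 (nat_lit 269)) (XT.lf (nat_lit 0) (nat_lit 615123503412097) (nat_lit 76) (nat_lit 170614054390440) (nat_lit 76) (nat_lit 170614024470688) (nat_lit 1) (nat_lit 4) (nat_lit 2) (nat_lit 5) (nat_lit 2) (nat_lit 4) (nat_lit 445) (nat_lit 307) (nat_lit 268)))) (XT.nd (nat_lit 156) (nat_lit 0) (nat_lit 0) (XT.nd (nat_lit 78) (nat_lit 0) (nat_lit 0) (XT.lf (nat_lit 0) (nat_lit 987895761058) (nat_lit 76) (nat_lit 282571907566) (nat_lit 76) (nat_lit 282571907566) (nat_lit 1) (nat_lit 4) (nat_lit 2) (nat_lit 5) (nat_lit 2) (nat_lit 4) (nat_lit 404) (nat_lit 308) (nat_lit 308)) (XT.lf (nat_lit 0) (nat_lit 2276704209787) (nat_lit 76) (nat_lit 647486630226) (nat_lit 76) (nat_lit 647482122912) (nat_lit 1) (nat_lit 4) (nat_lit 2) (nat_lit 5) (nat_lit 2) (nat_lit 4) (nat_lit 405) (nat_lit 308) (nat_lit 307))) (XT.nd (nat_lit 78) (nat_lit 0) (nat_lit 0) (XT.lf (nat_lit 0) (nat_lit 2622367653866) (nat_lit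 76) (nat_lit 742386823456) (nat_lit 76) (nat_lit 742378396739) (nat_lit 1) (nat_lit 4) (nat_lit 2) (nat_lit 5) (nat_lit 2) (nat_lit 4) (nat_lit 406) (nat_lit 308) (nat_lit 306)) (XT.lf (nat_lit 0) (nat_lit 3019544834779) (nat_lit 76) (nat_lit 851701137735) (nat_lit 76) (nat_lit 851689302842) (nat_lit 1) (nat_lit 4) (nat_lit 2) (nat_lit 5) (nat_lit 2) (nat_lit 4) (nat_lit 407) (nat_lit 308) (nat_lit 305))))))) (XT.nd (nat_lit 1014) (nat_lit 0) (nat_lit 0) (XT.nd (nat_lit 468) (nat_lit 0) (nat_lit 0) (XT.nd (nat_lit 234) (nat_lit 0) (nat_lit 0) (XT.nd (nat_lit 78) (nat_lit 0) (nat_lit 0) (XT.lf (nat_lit 0) (nat_lit 3476006610414) (nat_lit 76) (nat_lit 977568331385) (nat_lit 76) (nat_lit 977553532860) (nat_lit 1) (nat_lit 4) (nat_lit 2) (nat_lit 5) (nat_lit 2) (nat_lit 4) (nat_lit 408) (nat_lit 308) (nat_lit 304)) (XT.nd (nat_lit 78) (nat_lit 0) (nat_lit 0) (XT.lf (nat_lit 0) (nat_lit 4000683754643)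 (nat_lit 76) (nat_lit 1122451023413) (nat_lit 76) (nat_lit 1122433647816) (nat_lit 1) (nat_lit 4) (nat_lit 2) (nat_lit 5) (nat_lit 2) (nat_lit 4) (nat_lit 409) (nat_lit 308) (nat_lit 303)) (XT.lf (nat_lit 0) (nat_lit 4603841689852) (nat_lit 76) (nat_lit 1289183875184) (nat_lit 76) (nat_lit 1289164258656) (nat_lit 1) (nat_lit 4) (nat_lit 2) (nat_lit 5) (nat_lit 2) (nat_lit 4) (nat_lit 410) (nat_lit 308) (nat_lit 302)))) (XT.nd (nat_lit 78) (nat_lit 0) (nat_lit 0) (XT.lf (nat_lit 0) (nat_lit 5297281332165) (nat_lit 76) (nat_lit 1481029051189) (nat_lit 76) (nat_lit 1481007486025) (nat_lit 1) (nat_lit 4) (nat_lit 2) (nat_lit 5) (nat_lit 2) (nat_lit 4) (nat_lit 411) (nat_lit 308) (nat_lit 301)) (XT.nd (nat_lit 78) (nat_lit 0) (nat_lit 0) (XT.lf (nat_lit 0) (nat_lit 6094569978932) (nat_lit 76) (nat_lit 1701740044003) (nat_lit 76) (nat_lit 1701716784372) (nat_lit 1) (nat_lit 4) (nat_lit 2) (nat_lit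 5) (nat_lit 2) (nat_lit 4) (nat_lit 412) (nat_lit 308) (nat_lit 300)) (XT.lf (nat_lit 0) (nat_lit 7011306755851) (nat_lit 76) (nat_lit 1955635112180) (nat_lit 76) (nat_lit 1955610379100) (nat_lit 1) (nat_lit 4) (nat_lit 2) (nat_lit 5) (nat_lit 2) (nat_lit 4) (nat_lit 413) (nat_lit 308) (nat_lit 299))))) (XT.nd (nat_lit 234) (nat_lit 0) (nat_lit 0) (XT.nd (nat_lit 78) (nat_lit 0) (nat_lit 0) (XT.lf (nat_lit 0) (nat_lit 8065427817251) (nat_lit 76) (nat_lit 2247681767924) (nat_lit 76) (nat_lit 2247655753584) (nat_lit 1) (nat_lit 4) (nat_lit 2) (nat_lit 5) (nat_lit 2) (nat_lit 4) (nat_lit 414) (nat_lit 308) (nat_lit 298)) (XT.nd (nat_lit 78) (nat_lit 0) (nat_lit 0) (XT.lf (nat_lit 0) (nat_lit 9277557270857) (nat_lit 76) (nat_lit 2583593967542) (nat_lit 76) (nat_lit 2583566839064) (nat_lit 1) (nat_lit 4) (nat_lit 2) (nat_lit 5) (nat_lit 2) (nat_lit 4) (nat_lit 415) (nat_lit 308) (nat_lit 297))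 (XT.lf (nat_lit 0) (nat_lit 10671410692935) (nat_lit 76) (nat_lit 2969943906246) (nat_lit 76) (nat_lit 2969915808951) (nat_lit 1) (nat_lit 4) (nat_lit 2) (nat_lit 5) (nat_lit 2) (nat_lit 4) (nat_lit 416) (nat_lit 308) (nat_lit 296)))) (XT.nd (nat_lit 156) (nat_lit 0) (nat_lit 0) (XT.nd (nat_lit 78) (nat_lit 0) (nat_lit 0) (XT.lf (nat_lit 0) (nat_lit 12274259128699) (nat_lit 76) (nat_lit 3414290604575) (nat_lit 76) (nat_lit 3414261664831) (nat_lit 1) (nat_lit 4) (nat_lit 2) (nat_lit 5) (nat_lit 2) (nat_lit 4) (nat_lit 417) (nat_lit 308) (nat_lit 295)) (XT.lf (nat_lit 0) (nat_lit 14117462656240) (nat_lit 76) (nat_lit 3925327802278) (nat_lit 76) (nat_lit 3925298129969) (nat_lit 1) (nat_lit 4) (nat_lit 2) (nat_lit 5) (nat_lit 2) (nat_lit 4) (nat_lit 418) (nat_lit 308) (nat_lit 294))) (XT.nd (nat_lit 78) (nat_lit 0) (nat_lit 0) (XT.lf (nat_lit 0) (nat_lit 16237083953270) (nat_lit 76) (nat_lit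 4513054053224) (nat_lit 76) (nat_lit 4513023743902) (nat_lit 1) (nat_lit 4) (nat_lit 2) (nat_lit 5) (nat_lit 2) (nat_lit 4) (nat_lit 419) (nat_lit 308) (nat_lit 293)) (XT.lf (nat_lit 0) (nat_lit 18674593871255) (nat_lit 76) (nat_lit 5188968349278) (nat_lit 76) (nat_lit 5188937486033) (nat_lit 1) (nat_lit 4) (nat_lit 2) (nat_lit 5) (nat_lit 2) (nat_lit 4) (nat_lit 420) (nat_lit 308) (nat_lit 292)))))) (XT.nd (nat_lit 546) (nat_lit 0) (nat_lit 0) (XT.nd (nat_lit 234) (nat_lit 0) (nat_lit 0) (XT.nd (nat_lit 78) (nat_lit 0) (nat_lit 0) (XT.lf (nat_lit 0) (nat_lit 21477682821632) (nat_lit 76) (nat_lit 5966295100583) (nat_lit 76) (nat_lit 5966263755664) (nat_lit 1) (nat_lit 4) (nat_lit 2) (nat_lit 5) (nat_lit 2) (nat_lit 4) (nat_lit 421) (nat_lit 308) (nat_lit 291)) (XT.nd (nat_lit 78) (nat_lit 0) (nat_lit 0) (XT.lf (nat_lit 0) (nat_lit 24701193849082) (nat_lit 76) (nat_lit 6860242874009) (nat_lit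 76) (nat_lit 6860211110245) (nat_lit 1) (nat_lit 4) (nat_lit 2) (nat_lit 5) (nat_lit 2) (nat_lit 4) (nat_lit 422) (nat_lit 308) (nat_lit 290)) (XT.lf (nat_lit 0) (nat_lit 28408195647622) (nat_lit 76) (nat_lit 7888301952082) (nat_lit 76) (nat_lit 7888269824104) (nat_lit 1) (nat_lit 4) (nat_lit 2) (nat_lit 5) (nat_lit 2) (nat_lit 4) (nat_lit 423) (nat_lit 308) (nat_lit 289)))) (XT.nd (nat_lit 156) (nat_lit 0) (nat_lit 0) (XT.nd (nat_lit 78) (nat_lit 0) (nat_lit 0) (XT.lf (nat_lit 0) (nat_lit 32671216513309) (nat_lit 76) (nat_lit 9070586534155) (nat_lit 76) (nat_lit 9070554089469) (nat_lit 1) (nat_lit 4) (nat_lit 2) (nat_lit 5) (nat_lit 2) (nat_lit 4) (nat_lit 424) (nat_lit 308) (nat_lit 288)) (XT.lf (nat_lit 0) (nat_lit 37573663376124) (nat_lit 76) (nat_lit 10430228275094) (nat_lit 76) (nat_lit 10430195555010) (nat_lit 1) (nat_lit 4) (nat_lit 2) (nat_lit 5) (nat_lit 2) (nat_lit 4) (nat_lit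 425) (nat_lit 308) (nat_lit 287))) (XT.nd (nat_lit 78) (nat_lit 0) (nat_lit 0) (XT.lf (nat_lit 0) (nat_lit 43211453674688) (nat_lit 76) (nat_lit 11993828861135) (nat_lit 76) (nat_lit 11993795901575) (nat_lit 1) (nat_lit 4) (nat_lit 2) (nat_lit 5) (nat_lit 2) (nat_lit 4) (nat_lit 426) (nat_lit 308) (nat_lit 286)) (XT.lf (nat_lit 0) (nat_lit 49694892001798) (nat_lit 76) (nat_lit 13791980477658) (nat_lit 76) (nat_lit 13791947309857) (nat_lit 1) (nat_lit 4) (nat_lit 2) (nat_lit 5) (nat_lit 2) (nat_lit 4) (nat_lit 427) (nat_lit 308) (nat_lit 285))))) (XT.nd (nat_lit 234) (nat_lit 0) (nat_lit 0) (XT.nd (nat_lit 78) (nat_lit 0) (nat_lit 0) (XT.lf (nat_lit 0) (nat_lit 57150828237768) (nat_lit 76) (nat_lit 15859864351942) (nat_lit 76) (nat_lit 15859831003061) (nat_lit 1) (nat_lit 4) (nat_lit 2) (nat_lit 5) (nat_lit 2) (nat_lit 4) (nat_lit 428) (nat_lit 308) (nat_lit 284)) (XT.nd (nat_lit 78) (nat_lit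 0) (nat_lit 0) (XT.lf (nat_lit 0) (nat_lit 65725139395910) (nat_lit 76) (nat_lit 18237939081527) (nat_lit 76) (nat_lit 18237905575187) (nat_lit 1) (nat_lit 4) (nat_lit 2) (nat_lit 5) (nat_lit 2) (nat_lit 4) (nat_lit 429) (nat_lit 308) (nat_lit 283)) (XT.lf (nat_lit 0) (nat_lit 75585583738014) (nat_lit 76) (nat_lit 20972732215470) (nat_lit 76) (nat_lit 20972698572209) (nat_lit 1) (nat_lit 4) (nat_lit 2) (nat_lit 5) (nat_lit 2) (nat_lit 4) (nat_lit 430) (nat_lit 308) (nat_lit 282)))) (XT.nd (nat_lit 156) (nat_lit 0) (nat_lit 0) (XT.nd (nat_lit 78) (nat_lit 0) (nat_lit 0) (XT.lf (nat_lit 0) (nat_lit 86925083001208) (nat_lit 76) (nat_lit 24117750575958) (nat_lit 76) (nat_lit 24117716813634) (nat_lit 1) (nat_lit 4) (nat_lit 2) (nat_lit 5) (nat_lit 2) (nat_lit 4) (nat_lit 431) (nat_lit 308) (nat_lit 281)) (XT.lf (nat_lit 0) (nat_lit 99965496953684) (nat_lit 76) (nat_lit 27734527130913) (nat_lit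 76) (nat_lit 27734493265057) (nat_lit 1) (nat_lit 4) (nat_lit 2) (nat_lit 5) (nat_lit 2) (nat_lit 4) (nat_lit 432) (nat_lit 308) (nat_lit 280))) (XT.nd (nat_lit 78) (nat_lit 0) (nat_lit 0) (XT.lf (nat_lit 0) (nat_lit 114961964129296) (nat_lit 76) (nat_lit 31893824899888) (nat_lit 76) (nat_lit 31893790944003) (nat_lit 1) (nat_lit 4) (nat_lit 2) (nat_lit 5) (nat_lit 2) (nat_lit 4) (nat_lit 433) (nat_lit 308) (nat_lit 279)) (XT.lf (nat_lit 0) (nat_lit 132207893668436) (nat_lit 76) (nat_lit 36677021447928) (nat_lit 76) (nat_lit 36676987413759) (nat_lit 1) (nat_lit 4) (nat_lit 2) (nat_lit 5) (nat_lit 2) (nat_lit 4) (nat_lit 434) (nat_lit 308) (nat_lit 278))))))))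
noncomputable def xc6 : XT := (XT.nd (nat_lit 51714) (nat_lit 0) (nat_lit 0) (XT.nd (nat_lit 50700) (nat_lit 0) (nat_lit 0) (XT.nd (nat_lit 468) (nat_lit 0) (nat_lit 0) (XT.nd (nat_lit 234) (nat_lit 0) (nat_lit 0) (XT.nd (nat_lit 78) (nat_lit 0) (nat_lit 0) (XT.lf (nat_lit 0) (nat_lit 152040705931652) (nat_lit 76) (nat_lit 42177701055322) (nat_lit 76) (nat_lit 42177666953078) (nat_lit 1) (nat_lit 4) (nat_lit 2) (nat_lit 5) (nat_lit 2) (nat_lit 4) (nat_lit 435) (nat_lit 308) (nat_lit 277)) (XT.nd (nat_lit 78) (nat_lit 0) (nat_lit 0) (XT.lf (nat_lit 0) (nat_lit 174848434202356) (nat_lit 76) (nat_lit 48503485714388) (nat_lit 76) (nat_lit 48503451552949) (nat_lit 1) (nat_lit 4) (nat_lit 2) (nat_lit 5) (nat_lit 2) (nat_lit 4) (nat_lit 436) (nat_lit 308) (nat_lit 276)) (XT.lf (nat_lit 0) (nat_lit 201077316642364) (nat_lit 76) (nat_lit 55778140777151) (nat_lit 76) (nat_lit 55778106564238) (nat_lit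 1) (nat_lit 4) (nat_lit 2) (nat_lit 5) (nat_lit 2) (nat_lit 4) (nat_lit 437) (nat_lit 308) (nat_lit 275)))) (XT.nd (nat_lit 78) (nat_lit 0) (nat_lit 0) (XT.lf (nat_lit 0) (nat_lit 231240527038548) (nat_lit 76) (nat_lit 64143996451361) (nat_lit 76) (nat_lit 64143962193688) (nat_lit 1) (nat_lit 4) (nat_lit 2) (nat_lit 5) (nat_lit 2) (nat_lit 4) (nat_lit 438) (nat_lit 308) (nat_lit 274)) (XT.nd (nat_lit 78) (nat_lit 0) (nat_lit 0) (XT.lf (nat_lit 0) (nat_lit 265928215159528) (nat_lit 76) (nat_lit 73764732521947) (nat_lit 76) (nat_lit 73764698225353) (nat_lit 1) (nat_lit 4) (nat_lit 2) (nat_lit 5) (nat_lit 2) (nat_lit 4) (nat_lit 439) (nat_lit 308) (nat_lit 273)) (XT.lf (nat_lit 0) (nat_lit 305819053164193) (nat_lit 76) (nat_lit 84828580781596) (nat_lit 76) (nat_lit 84828546451156) (nat_lit 1) (nat_lit 4) (nat_lit 2) (nat_lit 5) (nat_lit 2) (nat_lit 4) (nat_lit 440) (nat_lit 308) (nat_lit 272)))))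 (XT.nd (nat_lit 234) (nat_lit 0) (nat_lit 0) (XT.nd (nat_lit 78) (nat_lit 0) (nat_lit 0) (XT.lf (nat_lit 0) (nat_lit 351693513970025) (nat_lit 76) (nat_lit 97552007826691) (nat_lit 76) (nat_lit 97551973466822) (nat_lit 1) (nat_lit 4) (nat_lit 2) (nat_lit 5) (nat_lit 2) (nat_lit 4) (nat_lit 441) (nat_lit 308) (nat_lit 271)) (XT.nd (nat_lit 78) (nat_lit 0) (nat_lit 0) (XT.lf (nat_lit 0) (nat_lit 404449141375398) (nat_lit 76) (nat_lit 112183950273333) (nat_lit 76) (nat_lit 112183915887873) (nat_lit 1) (nat_lit 4) (nat_lit 2) (nat_lit 5) (nat_lit 2) (nat_lit 4) (nat_lit 442) (nat_lit 308) (nat_lit 270)) (XT.lf (nat_lit 0) (nat_lit 465118110699115) (nat_lit 76) (nat_lit 129010685256348) (nat_lit 76) (nat_lit 129010650848633) (nat_lit 1) (nat_lit 4) (nat_lit 2) (nat_lit 5) (nat_lit 2) (nat_lit 4) (nat_lit 443) (nat_lit 308) (nat_lit 269)))) (XT.nd (nat_lit 49842) (nat_lit 0) (nat_lit 0) (XT.nd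 (nat_lit 78) (nat_lit 0) (nat_lit 0) (XT.lf (nat_lit 0) (nat_lit 534887423514900) (nat_lit 76) (nat_lit 148361431503663) (nat_lit 76) (nat_lit 148361397076598) (nat_lit 1) (nat_lit 4) (nat_lit 2) (nat_lit 5) (nat_lit 2) (nat_lit 4) (nat_lit 444) (nat_lit 308) (nat_lit 268)) (XT.lf (nat_lit 0) (nat_lit 615122131595235) (nat_lit 76) (nat_lit 170614790572291) (nat_lit 76) (nat_lit 170614756128399) (nat_lit 1) (nat_lit 4) (nat_lit 2) (nat_lit 5) (nat_lit 2) (nat_lit 4) (nat_lit 445) (nat_lit 308) (nat_lit 267))) (XT.nd (nat_lit 78) (nat_lit 0) (nat_lit 0) (XT.lf (nat_lit 0) (nat_lit 742833311063) (nat_lit 76) (nat_lit 215889381419) (nat_lit 76) (nat_lit 215889381419) (nat_lit 1) (nat_lit 4) (nat_lit 2) (nat_lit 5) (nat_lit 2) (nat_lit 4) (nat_lit 402) (nat_lit 309) (nat_lit 309)) (XT.lf (nat_lit 0) (nat_lit 1713742168702) (nat_lit 76) (nat_lit 493752506510) (nat_lit 76) (nat_lit 493747323099)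 (nat_lit 1) (nat_lit 4) (nat_lit 2) (nat_lit 5) (nat_lit 2) (nat_lit 4) (nat_lit 403) (nat_lit 309) (nat_lit 308)))))) (XT.nd (nat_lit 468) (nat_lit 0) (nat_lit 0) (XT.nd (nat_lit 234) (nat_lit 0) (nat_lit 0) (XT.nd (nat_lit 78) (nat_lit 0) (nat_lit 0) (XT.lf (nat_lit 0) (nat_lit 1975584978509) (nat_lit 76) (nat_lit 565259160987) (nat_lit 76) (nat_lit 565249470263) (nat_lit 1) (nat_lit 4) (nat_lit 2) (nat_lit 5) (nat_lit 2) (nat_lit 4) (nat_lit 404) (nat_lit 309) (nat_lit 307)) (XT.nd (nat_lit 78) (nat_lit 0) (nat_lit 0) (XT.lf (nat_lit 0) (nat_lit 2276318063044) (nat_lit 76) (nat_lit 647697769510) (nat_lit 76) (nat_lit 647684159382) (nat_lit 1) (nat_lit 4) (nat_lit 2) (nat_lit 5) (nat_lit 2) (nat_lit 4) (nat_lit 405) (nat_lit 309) (nat_lit 306)) (XT.lf (nat_lit 0) (nat_lit 2621825330482) (nat_lit 76) (nat_lit 742681261375) (nat_lit 76) (nat_lit 742664243070) (nat_lit 1) (nat_lit 4) (nat_lit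 2) (nat_lit 5) (nat_lit 2) (nat_lit 4) (nat_lit 406) (nat_lit 309) (nat_lit 305)))) (XT.nd (nat_lit 78) (nat_lit 0) (nat_lit 0) (XT.lf (nat_lit 0) (nat_lit 3018866705621) (nat_lit 76) (nat_lit 852068009249) (nat_lit 76) (nat_lit 852048027313) (nat_lit 1) (nat_lit 4) (nat_lit 2) (nat_lit 5) (nat_lit 2) (nat_lit 4) (nat_lit 407) (nat_lit 309) (nat_lit 304)) (XT.nd (nat_lit 78) (nat_lit 0) (nat_lit 0) (XT.lf (nat_lit 0) (nat_lit 3475210389278) (nat_lit 76) (nat_lit 977998188634) (nat_lit 76) (nat_lit 977975629626) (nat_lit 1) (nat_lit 4) (nat_lit 2) (nat_lit 5) (nat_lit 2) (nat_lit 4) (nat_lit 408) (nat_lit 309) (nat_lit 303)) (XT.lf (nat_lit 0) (nat_lit 3999784844831) (nat_lit 76) (nat_lit 1122935650866) (nat_lit 76) (nat_lit 1122910850927) (nat_lit 1) (nat_lit 4) (nat_lit 2) (nat_lit 5) (nat_lit 2) (nat_lit 4) (nat_lit 409) (nat_lit 309) (nat_lit 302))))) (XT.nd (nat_lit 234) (nat_lit 0)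 (nat_lit 0) (XT.nd (nat_lit 78) (nat_lit 0) (nat_lit 0) (XT.lf (nat_lit 0) (nat_lit 4602853485539) (nat_lit 76) (nat_lit 1289716128901) (nat_lit 76) (nat_lit 1289689380326) (nat_lit 1) (nat_lit 4) (nat_lit 2) (nat_lit 5) (nat_lit 2) (nat_lit 4) (nat_lit 410) (nat_lit 309) (nat_lit 301)) (XT.nd (nat_lit 78) (nat_lit 0) (nat_lit 0) (XT.lf (nat_lit 0) (nat_lit 5296215480460) (nat_lit 76) (nat_lit 1481602719049) (nat_lit 76) (nat_lit 1481574276008) (nat_lit 1) (nat_lit 4) (nat_lit 2) (nat_lit 5) (nat_lit 2) (nat_lit 4) (nat_lit 411) (nat_lit 309) (nat_lit 300)) (XT.lf (nat_lit 0) (nat_lit 6093436607755) (nat_lit 76) (nat_lit 1702349724161) (nat_lit 76) (nat_lit 1702319807671) (nat_lit 1) (nat_lit 4) (nat_lit 2) (nat_lit 5) (nat_lit 2) (nat_lit 4) (nat_lit 412) (nat_lit 309) (nat_lit 299)))) (XT.nd (nat_lit 156) (nat_lit 0) (nat_lit 0) (XT.nd (nat_lit 78) (nat_lit 0) (nat_lit 0) (XT.lf (nat_lit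 0) (nat_lit 7010114672090) (nat_lit 76) (nat_lit 1956276107380) (nat_lit 76) (nat_lit 1956244909630) (nat_lit 1) (nat_lit 4) (nat_lit 2) (nat_lit 5) (nat_lit 2) (nat_lit 4) (nat_lit 413) (nat_lit 309) (nat_lit 298)) (XT.lf (nat_lit 0) (nat_lit 8064184679070) (nat_lit 76) (nat_lit 2248349993596) (nat_lit 76) (nat_lit 2248317681706) (nat_lit 1) (nat_lit 4) (nat_lit 2) (nat_lit 5) (nat_lit 2) (nat_lit 4) (nat_lit 414) (nat_lit 309) (nat_lit 297))) (XT.nd (nat_lit 78) (nat_lit 0) (nat_lit 0) (XT.lf (nat_lit 0) (nat_lit 9276269737527) (nat_lit 76) (nat_lit 2584285871885) (nat_lit 76) (nat_lit 2584252591179) (nat_lit 1) (nat_lit 4) (nat_lit 2) (nat_lit 5) (nat_lit 2) (nat_lit 4) (nat_lit 415) (nat_lit 309) (nat_lit 296)) (XT.lf (nat_lit 0) (nat_lit 10670084555128) (nat_lit 76) (nat_lit 2970656400737) (nat_lit 76) (nat_lit 2970622277582) (nat_lit 1) (nat_lit 4) (nat_lit 2) (nat_lit 5) (nat_lit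 2) (nat_lit 4) (nat_lit 416) (nat_lit 309) (nat_lit 295))))))) (XT.nd (nat_lit 1014) (nat_lit 0) (nat_lit 0) (XT.nd (nat_lit 468) (nat_lit 0) (nat_lit 0) (XT.nd (nat_lit 234) (nat_lit 0) (nat_lit 0) (XT.nd (nat_lit 78) (nat_lit 0) (nat_lit 0) (XT.lf (nat_lit 0) (nat_lit 12272899421781) (nat_lit 76) (nat_lit 3415021003543) (nat_lit 76) (nat_lit 3414986147823) (nat_lit 1) (nat_lit 4) (nat_lit 2) (nat_lit 5) (nat_lit 2) (nat_lit 4) (nat_lit 417) (nat_lit 309) (nat_lit 294)) (XT.nd (nat_lit 78) (nat_lit 0) (nat_lit 0) (XT.lf (nat_lit 0) (nat_lit 14116073758791) (nat_lit 76) (nat_lit 3926073770356) (nat_lit 76) (nat_lit 3926038277624) (nat_lit 1) (nat_lit 4) (nat_lit 2) (nat_lit 5) (nat_lit 2) (nat_lit 4) (nat_lit 418) (nat_lit 309) (nat_lit 293)) (XT.lf (nat_lit 0) (nat_lit 16235669672752) (nat_lit 76) (nat_lit 4513813559659) (nat_lit 76) (nat_lit 4513777513003) (nat_lit 1) (nat_lit 4) (nat_lit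 2) (nat_lit 5) (nat_lit 2) (nat_lit 4) (nat_lit 419) (nat_lit 309) (nat_lit 292)))) (XT.nd (nat_lit 78) (nat_lit 0) (nat_lit 0) (XT.lf (nat_lit 0) (nat_lit 18673157518501) (nat_lit 76) (nat_lit 5189739628198) (nat_lit 76) (nat_lit 5189703099869) (nat_lit 1) (nat_lit 4) (nat_lit 2) (nat_lit 5) (nat_lit 2) (nat_lit 4) (nat_lit 420) (nat_lit 309) (nat_lit 291)) (XT.nd (nat_lit 78) (nat_lit 0) (nat_lit 0) (XT.lf (nat_lit 0) (nat_lit 21476227275630) (nat_lit 76) (nat_lit 5967076616445) (nat_lit 76) (nat_lit 5967039669270) (nat_lit 1) (nat_lit 4) (nat_lit 2) (nat_lit 5) (nat_lit 2) (nat_lit 4) (nat_lit 421) (nat_lit 309) (nat_lit 290)) (XT.lf (nat_lit 0) (nat_lit 24699721613300) (nat_lit 76) (nat_lit 6861033291561) (nat_lit 76) (nat_lit 6860995980172) (nat_lit 1) (nat_lit 4) (nat_lit 2) (nat_lit 5) (nat_lit 2) (nat_lit 4) (nat_lit 422) (nat_lit 309) (nat_lit 289))))) (XT.nd (nat_lit 234) (nat_lit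 0) (nat_lit 0) (XT.nd (nat_lit 78) (nat_lit 0) (nat_lit 0) (XT.lf (nat_lit 0) (nat_lit 28406708898987) (nat_lit 76) (nat_lit 7889100110233) (nat_lit 76) (nat_lit 7889062482136) (nat_lit 1) (nat_lit 4) (nat_lit 2) (nat_lit 5) (nat_lit 2) (nat_lit 4) (nat_lit 423) (nat_lit 309) (nat_lit 288)) (XT.nd (nat_lit 78) (nat_lit 0) (nat_lit 0) (XT.lf (nat_lit 0) (nat_lit 32669717144802) (nat_lit 76) (nat_lit 9071391423262) (nat_lit 76) (nat_lit 9071353519767) (nat_lit 1) (nat_lit 4) (nat_lit 2) (nat_lit 5) (nat_lit 2) (nat_lit 4) (nat_lit 424) (nat_lit 309) (nat_lit 287)) (XT.lf (nat_lit 0) (nat_lit 37572153033815) (nat_lit 76) (nat_lit 10431039017206) (nat_lit 76) (nat_lit 10431000874235) (nat_lit 1) (nat_lit 4) (nat_lit 2) (nat_lit 5) (nat_lit 2) (nat_lit 4) (nat_lit 425) (nat_lit 309) (nat_lit 286)))) (XT.nd (nat_lit 156) (nat_lit 0) (nat_lit 0) (XT.nd (nat_lit 78) (nat_lit 0) (nat_lit 0) (XT.lf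 (nat_lit 0) (nat_lit 43209933789943) (nat_lit 76) (nat_lit 11994644692818) (nat_lit 76) (nat_lit 11994606341605) (nat_lit 1) (nat_lit 4) (nat_lit 2) (nat_lit 5) (nat_lit 2) (nat_lit 4) (nat_lit 426) (nat_lit 309) (nat_lit 285)) (XT.lf (nat_lit 0) (nat_lit 49693363819283) (nat_lit 76) (nat_lit 13792800735053) (nat_lit 76) (nat_lit 13792762202762) (nat_lit 1) (nat_lit 4) (nat_lit 2) (nat_lit 5) (nat_lit 2) (nat_lit 4) (nat_lit 427) (nat_lit 309) (nat_lit 284))) (XT.nd (nat_lit 78) (nat_lit 0) (nat_lit 0) (XT.lf (nat_lit 0) (nat_lit 57149292839800) (nat_lit 76) (nat_lit 15860688457783) (nat_lit 76) (nat_lit 15860649768032) (nat_lit 1) (nat_lit 4) (nat_lit 2) (nat_lit 5) (nat_lit 2) (nat_lit 4) (nat_lit 428) (nat_lit 309) (nat_lit 283)) (XT.lf (nat_lit 0) (nat_lit 65723597723635) (nat_lit 76) (nat_lit 18238766533842) (nat_lit 76) (nat_lit 18238727707170) (nat_lit 1) (nat_lit 4) (nat_lit 2) (nat_lit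 5) (nat_lit 2) (nat_lit 4) (nat_lit 429) (nat_lit 309) (nat_lit 282)))))) (XT.nd (nat_lit 546) (nat_lit 0) (nat_lit 0) (XT.nd (nat_lit 234) (nat_lit 0) (nat_lit 0) (XT.nd (nat_lit 78) (nat_lit 0) (nat_lit 0) (XT.lf (nat_lit 0) (nat_lit 75584036609820) (nat_lit 76) (nat_lit 20973562577764) (nat_lit 76) (nat_lit 20973523632030) (nat_lit 1) (nat_lit 4) (nat_lit 2) (nat_lit 5) (nat_lit 2) (nat_lit 4) (nat_lit 430) (nat_lit 309) (nat_lit 281)) (XT.nd (nat_lit 78) (nat_lit 0) (nat_lit 0) (XT.lf (nat_lit 0) (nat_lit 86923531128736) (nat_lit 76) (nat_lit 24118583468667) (nat_lit 76) (nat_lit 24118544419401) (nat_lit 1) (nat_lit 4) (nat_lit 2) (nat_lit 5) (nat_lit 2) (nat_lit 4) (nat_lit 431) (nat_lit 309) (nat_lit 280)) (XT.lf (nat_lit 0) (nat_lit 99963940955754) (nat_lit 76) (nat_lit 27735362223983) (nat_lit 76) (nat_lit 27735323084689) (nat_lit 1) (nat_lit 4) (nat_lit 2) (nat_lit 5) (nat_lit 2)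 (nat_lit 4) (nat_lit 432) (nat_lit 309) (nat_lit 279)))) (XT.nd (nat_lit 156) (nat_lit 0) (nat_lit 0) (XT.nd (nat_lit 78) (nat_lit 0) (nat_lit 0) (XT.lf (nat_lit 0) (nat_lit 114960404544011) (nat_lit 76) (nat_lit 31894661906316) (nat_lit 76) (nat_lit 31894622688736) (nat_lit 1) (nat_lit 4) (nat_lit 2) (nat_lit 5) (nat_lit 2) (nat_lit 4) (nat_lit 433) (nat_lit 309) (nat_lit 278)) (XT.lf (nat_lit 0) (nat_lit 132206330963711) (nat_lit 76) (nat_lit 36677860118146) (nat_lit 76) (nat_lit 36677820832492) (nat_lit 1) (nat_lit 4) (nat_lit 2) (nat_lit 5) (nat_lit 2) (nat_lit 4) (nat_lit 434) (nat_lit 309) (nat_lit 277))) (XT.nd (nat_lit 78) (nat_lit 0) (nat_lit 0) (XT.lf (nat_lit 0) (nat_lit 152039140514372) (nat_lit 76) (nat_lit 42178541172314) (nat_lit 76) (nat_lit 42178501827464) (nat_lit 1) (nat_lit 4) (nat_lit 2) (nat_lit 5) (nat_lit 2) (nat_lit 4) (nat_lit 435) (nat_lit 309) (nat_lit 276)) (XT.lf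 (nat_lit 0) (nat_lit 174846866426331) (nat_lit 76) (nat_lit 48504327089443) (nat_lit 76) (nat_lit 48504287693120) (nat_lit 1) (nat_lit 4) (nat_lit 2) (nat_lit 5) (nat_lit 2) (nat_lit 4) (nat_lit 436) (nat_lit 309) (nat_lit 275))))) (XT.nd (nat_lit 234) (nat_lit 0) (nat_lit 0) (XT.nd (nat_lit 78) (nat_lit 0) (nat_lit 0) (XT.lf (nat_lit 0) (nat_lit 201075746815258) (nat_lit 76) (nat_lit 55778983246174) (nat_lit 76) (nat_lit 55778943805092) (nat_lit 1) (nat_lit 4) (nat_lit 2) (nat_lit 5) (nat_lit 2) (nat_lit 4) (nat_lit 437) (nat_lit 309) (nat_lit 274)) (XT.nd (nat_lit 78) (nat_lit 0) (nat_lit 0) (XT.lf (nat_lit 0) (nat_lit 231238955427892) (nat_lit 76) (nat_lit 64144839871661) (nat_lit 76) (nat_lit 64144800391656) (nat_lit 1) (nat_lit 4) (nat_lit 2) (nat_lit 5) (nat_lit 2) (nat_lit 4) (nat_lit 438) (nat_lit 309) (nat_lit 273)) (XT.lf (nat_lit 0) (nat_lit 265926641997959) (nat_lit 76) (nat_lit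 73765576769445) (nat_lit 76) (nat_lit 73765537255595) (nat_lit 1) (nat_lit 4) (nat_lit 2) (nat_lit 5) (nat_lit 2) (nat_lit 4) (nat_lit 439) (nat_lit 309) (nat_lit 272)))) (XT.nd (nat_lit 156) (nat_lit 0) (nat_lit 0) (XT.nd (nat_lit 78) (nat_lit 0) (nat_lit 0) (XT.lf (nat_lit 0) (nat_lit 305817478654004) (nat_lit 76) (nat_lit 84829425748396) (nat_lit 76) (nat_lit 84829386205116) (nat_lit 1) (nat_lit 4) (nat_lit 2) (nat_lit 5) (nat_lit 2) (nat_lit 4) (nat_lit 440) (nat_lit 309) (nat_lit 271)) (XT.lf (nat_lit 0) (nat_lit 351691938287123) (nat_lit 76) (nat_lit 97552853418972) (nat_lit 76) (nat_lit 97552813850100) (nat_lit 1) (nat_lit 4) (nat_lit 2) (nat_lit 5) (nat_lit 2) (nat_lit 4) (nat_lit 441) (nat_lit 309) (nat_lit 270))) (XT.nd (nat_lit 78) (nat_lit 0) (nat_lit 0) (XT.lf (nat_lit 0) (nat_lit 404447564672746) (nat_lit 76) (nat_lit 112184796409510) (nat_lit 76) (nat_lit 112184756818384)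 (nat_lit 1) (nat_lit 4) (nat_lit 2) (nat_lit 5) (nat_lit 2) (nat_lit 4) (nat_lit 442) (nat_lit 309) (nat_lit 269)) (XT.lf (nat_lit 0) (nat_lit 465116533109724) (nat_lit 76) (nat_lit 129011531865477) (nat_lit 76) (nat_lit 129011492255000) (nat_lit 1) (nat_lit 4) (nat_lit 2) (nat_lit 5) (nat_lit 2) (nat_lit 4) (nat_lit 443) (nat_lit 309) (nat_lit 268))))))))
noncomputable def xc7 : XT := (XT.nd (nat_lit 51636) (nat_lit 0) (nat_lit 0) (XT.nd (nat_lit 50544) (nat_lit 0) (nat_lit 0) (XT.nd (nat_lit 49998) (nat_lit 0) (nat_lit 0) (XT.nd (nat_lit 49764) (nat_lit 0) (nat_lit 0) (XT.nd (nat_lit 78) (nat_lit 0) (nat_lit 0) (XT.lf (nat_lit 0) (nat_lit 534885845154432) (nat_lit 76) (nat_lit 148362278524055) (nat_lit 76) (nat_lit 148362238896752) (nat_lit 1) (nat_lit 4) (nat_lit 2) (nat_lit 5) (nat_lit 2) (nat_lit 4) (nat_lit 444) (nat_lit 309) (nat_lit 267)) (XT.nd (nat_lit 49608) (nat_lit 0) (nat_lit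 0) (XT.lf (nat_lit 0) (nat_lit 615120552564263) (nat_lit 76) (nat_lit 170615637950304) (nat_lit 76) (nat_lit 170615598308369) (nat_lit 1) (nat_lit 4) (nat_lit 2) (nat_lit 5) (nat_lit 2) (nat_lit 4) (nat_lit 445) (nat_lit 309) (nat_lit 266)) (XT.lf (nat_lit 0) (nat_lit 556907219516) (nat_lit 76) (nat_lit 165801474996) (nat_lit 76) (nat_lit 165801474996) (nat_lit 1) (nat_lit 4) (nat_lit 2) (nat_lit 5) (nat_lit 2) (nat_lit 4) (nat_lit 400) (nat_lit 310) (nat_lit 310)))) (XT.nd (nat_lit 78) (nat_lit 0) (nat_lit 0) (XT.lf (nat_lit 0) (nat_lit 1286895991132) (nat_lit 76) (nat_lit 378131361125) (nat_lit 76) (nat_lit 378125400203) (nat_lit 1) (nat_lit 4) (nat_lit 2) (nat_lit 5) (nat_lit 2) (nat_lit 4) (nat_lit 401) (nat_lit 310) (nat_lit 309)) (XT.nd (nat_lit 78) (nat_lit 0) (nat_lit 0) (XT.lf (nat_lit 0) (nat_lit 1485429096978) (nat_lit 76) (nat_lit 431911410570) (nat_lit 76) (nat_lit 431900266237)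 (nat_lit 1) (nat_lit 4) (nat_lit 2) (nat_lit 5) (nat_lit 2) (nat_lit 4) (nat_lit 402) (nat_lit 310) (nat_lit 308)) (XT.lf (nat_lit 0) (nat_lit 1713298099947) (nat_lit 76) (nat_lit 493995316687) (nat_lit 76) (nat_lit 493979665040) (nat_lit 1) (nat_lit 4) (nat_lit 2) (nat_lit 5) (nat_lit 2) (nat_lit 4) (nat_lit 403) (nat_lit 310) (nat_lit 307))))) (XT.nd (nat_lit 234) (nat_lit 0) (nat_lit 0) (XT.nd (nat_lit 78) (nat_lit 0) (nat_lit 0) (XT.lf (nat_lit 0) (nat_lit 1974961306618) (nat_lit 76) (nat_lit 565597764594) (nat_lit 76) (nat_lit 565578193544) (nat_lit 1) (nat_lit 4) (nat_lit 2) (nat_lit 5) (nat_lit 2) (nat_lit 4) (nat_lit 404) (nat_lit 310) (nat_lit 306)) (XT.nd (nat_lit 78) (nat_lit 0) (nat_lit 0) (XT.lf (nat_lit 0) (nat_lit 2275538214512) (nat_lit 76) (nat_lit 648119671751) (nat_lit 76) (nat_lit 648096692524) (nat_lit 1) (nat_lit 4) (nat_lit 2) (nat_lit 5) (nat_lit 2) (nat_lit 4) (nat_lit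 405) (nat_lit 310) (nat_lit 305)) (XT.lf (nat_lit 0) (nat_lit 2620909676176) (nat_lit 76) (nat_lit 743175597211) (nat_lit 76) (nat_lit 743149654352) (nat_lit 1) (nat_lit 4) (nat_lit 2) (nat_lit 5) (nat_lit 2) (nat_lit 4) (nat_lit 406) (nat_lit 310) (nat_lit 304)))) (XT.nd (nat_lit 156) (nat_lit 0) (nat_lit 0) (XT.nd (nat_lit 78) (nat_lit 0) (nat_lit 0) (XT.lf (nat_lit 0) (nat_lit 3017832959337) (nat_lit 76) (nat_lit 852625330819) (nat_lit 76) (nat_lit 852596810889) (nat_lit 1) (nat_lit 4) (nat_lit 2) (nat_lit 5) (nat_lit 2) (nat_lit 4) (nat_lit 407) (nat_lit 310) (nat_lit 303)) (XT.lf (nat_lit 0) (nat_lit 3474073954318) (nat_lit 76) (nat_lit 978610280409) (nat_lit 76) (nat_lit 978579519547) (nat_lit 1) (nat_lit 4) (nat_lit 2) (nat_lit 5) (nat_lit 2) (nat_lit 4) (nat_lit 408) (nat_lit 310) (nat_lit 302))) (XT.nd (nat_lit 78) (nat_lit 0) (nat_lit 0) (XT.lf (nat_lit 0) (nat_lit 3998559115370)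 (nat_lit 76) (nat_lit 1123595368905) (nat_lit 76) (nat_lit 1123562659407) (nat_lit 1) (nat_lit 4) (nat_lit 2) (nat_lit 5) (nat_lit 2) (nat_lit 4) (nat_lit 409) (nat_lit 310) (nat_lit 301)) (XT.lf (nat_lit 0) (nat_lit 4601550108686) (nat_lit 76) (nat_lit 1290417261083) (nat_lit 76) (nat_lit 1290382857120) (nat_lit 1) (nat_lit 4) (nat_lit 2) (nat_lit 5) (nat_lit 2) (nat_lit 4) (nat_lit 410) (nat_lit 310) (nat_lit 300)))))) (XT.nd (nat_lit 546) (nat_lit 0) (nat_lit 0) (XT.nd (nat_lit 234) (nat_lit 0) (nat_lit 0) (XT.nd (nat_lit 78) (nat_lit 0) (nat_lit 0) (XT.lf (nat_lit 0) (nat_lit 5294844584135) (nat_lit 76) (nat_lit 1482339863530) (nat_lit 76) (nat_lit 1482303986117) (nat_lit 1) (nat_lit 4) (nat_lit 2) (nat_lit 5) (nat_lit 2) (nat_lit 4) (nat_lit 411) (nat_lit 310) (nat_lit 299)) (XT.nd (nat_lit 78) (nat_lit 0) (nat_lit 0) (XT.lf (nat_lit 0) (nat_lit 6092006998847) (nat_lit 76) (nat_lit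 1703118183684) (nat_lit 76) (nat_lit 1703081025011) (nat_lit 1) (nat_lit 4) (nat_lit 2) (nat_lit 5) (nat_lit 2) (nat_lit 4) (nat_lit 412) (nat_lit 310) (nat_lit 298)) (XT.lf (nat_lit 0) (nat_lit 7008634008760) (nat_lit 76) (nat_lit 1957071797374) (nat_lit 76) (nat_lit 1957033524563) (nat_lit 1) (nat_lit 4) (nat_lit 2) (nat_lit 5) (nat_lit 2) (nat_lit 4) (nat_lit 413) (nat_lit 310) (nat_lit 297)))) (XT.nd (nat_lit 156) (nat_lit 0) (nat_lit 0) (XT.nd (nat_lit 78) (nat_lit 0) (nat_lit 0) (XT.lf (nat_lit 0) (nat_lit 8062659620592) (nat_lit 76) (nat_lit 2249169362260) (nat_lit 76) (nat_lit 2249130120632) (nat_lit 1) (nat_lit 4) (nat_lit 2) (nat_lit 5) (nat_lit 2) (nat_lit 4) (nat_lit 414) (nat_lit 310) (nat_lit 296)) (XT.lf (nat_lit 0) (nat_lit 9274706074572) (nat_lit 76) (nat_lit 2585125830698) (nat_lit 76) (nat_lit 2585085746621) (nat_lit 1) (nat_lit 4) (nat_lit 2) (nat_lit 5) (nat_lit 2) (nat_lit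 4) (nat_lit 415) (nat_lit 310) (nat_lit 295))) (XT.nd (nat_lit 78) (nat_lit 0) (nat_lit 0) (XT.lf (nat_lit 0) (nat_lit 10668487323062) (nat_lit 76) (nat_lit 2971514264027) (nat_lit 76) (nat_lit 2971473447386) (nat_lit 1) (nat_lit 4) (nat_lit 2) (nat_lit 5) (nat_lit 2) (nat_lit 4) (nat_lit 416) (nat_lit 310) (nat_lit 294)) (XT.lf (nat_lit 0) (nat_lit 12271272999185) (nat_lit 76) (nat_lit 3415894435943) (nat_lit 76) (nat_lit 3415852982289) (nat_lit 1) (nat_lit 4) (nat_lit 2) (nat_lit 5) (nat_lit 2) (nat_lit 4) (nat_lit 417) (nat_lit 310) (nat_lit 293))))) (XT.nd (nat_lit 234) (nat_lit 0) (nat_lit 0) (XT.nd (nat_lit 78) (nat_lit 0) (nat_lit 0) (XT.lf (nat_lit 0) (nat_lit 14114421953125) (nat_lit 76) (nat_lit 3926960741113) (nat_lit 76) (nat_lit 3926918733535) (nat_lit 1) (nat_lit 4) (nat_lit 2) (nat_lit 5) (nat_lit 2) (nat_lit 4) (nat_lit 418) (nat_lit 310) (nat_lit 292)) (XT.nd (nat_lit 78)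 (nat_lit 0) (nat_lit 0) (XT.lf (nat_lit 0) (nat_lit 16233995794850) (nat_lit 76) (nat_lit 4514712302900) (nat_lit 76) (nat_lit 4514669813649) (nat_lit 1) (nat_lit 4) (nat_lit 2) (nat_lit 5) (nat_lit 2) (nat_lit 4) (nat_lit 419) (nat_lit 310) (nat_lit 291)) (XT.lf (nat_lit 0) (nat_lit 18671464447352) (nat_lit 76) (nat_lit 5190648608382) (nat_lit 76) (nat_lit 5190605700285) (nat_lit 1) (nat_lit 4) (nat_lit 2) (nat_lit 5) (nat_lit 2) (nat_lit 4) (nat_lit 420) (nat_lit 310) (nat_lit 290)))) (XT.nd (nat_lit 156) (nat_lit 0) (nat_lit 0) (XT.nd (nat_lit 78) (nat_lit 0) (nat_lit 0) (XT.lf (nat_lit 0) (nat_lit 21474517514700) (nat_lit 76) (nat_lit 5967994498318) (nat_lit 76) (nat_lit 5967951226007) (nat_lit 1) (nat_lit 4) (nat_lit 2) (nat_lit 5) (nat_lit 2) (nat_lit 4) (nat_lit 421) (nat_lit 310) (nat_lit 289)) (XT.lf (nat_lit 0) (nat_lit 24697997339517) (nat_lit 76) (nat_lit 6861958914034) (nat_lit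 76) (nat_lit 6861915325015) (nat_lit 1) (nat_lit 4) (nat_lit 2) (nat_lit 5) (nat_lit 2) (nat_lit 4) (nat_lit 422) (nat_lit 310) (nat_lit 288))) (XT.nd (nat_lit 78) (nat_lit 0) (nat_lit 0) (XT.lf (nat_lit 0) (nat_lit 28404972005332) (nat_lit 76) (nat_lit 7890032463662) (nat_lit 76) (nat_lit 7889988599245) (nat_lit 1) (nat_lit 4) (nat_lit 2) (nat_lit 5) (nat_lit 2) (nat_lit 4) (nat_lit 423) (nat_lit 310) (nat_lit 287)) (XT.lf (nat_lit 0) (nat_lit 32667969277345) (nat_lit 76) (nat_lit 9072329629697) (nat_lit 76) (nat_lit 9072285525802) (nat_lit 1) (nat_lit 4) (nat_lit 2) (nat_lit 5) (nat_lit 2) (nat_lit 4) (nat_lit 424) (nat_lit 310) (nat_lit 286))))))) (XT.nd (nat_lit 1014) (nat_lit 0) (nat_lit 0) (XT.nd (nat_lit 468) (nat_lit 0) (nat_lit 0) (XT.nd (nat_lit 234) (nat_lit 0) (nat_lit 0) (XT.nd (nat_lit 78) (nat_lit 0) (nat_lit 0) (XT.lf (nat_lit 0) (nat_lit 37570395623923) (nat_lit 76) (nat_lit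 10431982313211) (nat_lit 76) (nat_lit 10431938001076) (nat_lit 1) (nat_lit 4) (nat_lit 2) (nat_lit 5) (nat_lit 2) (nat_lit 4) (nat_lit 425) (nat_lit 310) (nat_lit 285)) (XT.nd (nat_lit 78) (nat_lit 0) (nat_lit 0) (XT.lf (nat_lit 0) (nat_lit 43208168082279) (nat_lit 76) (nat_lit 11995592414535) (nat_lit 76) (nat_lit 11995547921321) (nat_lit 1) (nat_lit 4) (nat_lit 2) (nat_lit 5) (nat_lit 2) (nat_lit 4) (nat_lit 426) (nat_lit 310) (nat_lit 284)) (XT.lf (nat_lit 0) (nat_lit 49691590896166) (nat_lit 76) (nat_lit 13793752305216) (nat_lit 76) (nat_lit 13793707654543) (nat_lit 1) (nat_lit 4) (nat_lit 2) (nat_lit 5) (nat_lit 2) (nat_lit 4) (nat_lit 427) (nat_lit 310) (nat_lit 283)))) (XT.nd (nat_lit 78) (nat_lit 0) (nat_lit 0) (XT.lf (nat_lit 0) (nat_lit 57147513642377) (nat_lit 76) (nat_lit 15861643374420) (nat_lit 76) (nat_lit 15861598586826) (nat_lit 1) (nat_lit 4) (nat_lit 2) (nat_lit 5) (nat_lit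 2) (nat_lit 4) (nat_lit 428) (nat_lit 310) (nat_lit 282)) (XT.nd (nat_lit 78) (nat_lit 0) (nat_lit 0) (XT.lf (nat_lit 0) (nat_lit 65721813070293) (nat_lit 76) (nat_lit 18239724360458) (nat_lit 76) (nat_lit 18239679453801) (nat_lit 1) (nat_lit 4) (nat_lit 2) (nat_lit 5) (nat_lit 2) (nat_lit 4) (nat_lit 429) (nat_lit 310) (nat_lit 281)) (XT.lf (nat_lit 0) (nat_lit 75582247212201) (nat_lit 76) (nat_lit 20974522934796) (nat_lit 76) (nat_lit 20974477924606) (nat_lit 1) (nat_lit 4) (nat_lit 2) (nat_lit 5) (nat_lit 2) (nat_lit 4) (nat_lit 430) (nat_lit 310) (nat_lit 280))))) (XT.nd (nat_lit 234) (nat_lit 0) (nat_lit 0) (XT.nd (nat_lit 78) (nat_lit 0) (nat_lit 0) (XT.lf (nat_lit 0) (nat_lit 86921737605658) (nat_lit 76) (nat_lit 24119546026060) (nat_lit 76) (nat_lit 24119500925843) (nat_lit 1) (nat_lit 4) (nat_lit 2) (nat_lit 5) (nat_lit 2) (nat_lit 4) (nat_lit 431) (nat_lit 310) (nat_lit 279)) (XT.nd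 (nat_lit 78) (nat_lit 0) (nat_lit 0) (XT.lf (nat_lit 0) (nat_lit 99962143845321) (nat_lit 76) (nat_lit 27736326694734) (nat_lit 76) (nat_lit 27736281516232) (nat_lit 1) (nat_lit 4) (nat_lit 2) (nat_lit 5) (nat_lit 2) (nat_lit 4) (nat_lit 432) (nat_lit 310) (nat_lit 278)) (XT.lf (nat_lit 0) (nat_lit 114958604314138) (nat_lit 76) (nat_lit 31895628040857) (nat_lit 76) (nat_lit 31895582794280) (nat_lit 1) (nat_lit 4) (nat_lit 2) (nat_lit 5) (nat_lit 2) (nat_lit 4) (nat_lit 433) (nat_lit 310) (nat_lit 277)))) (XT.nd (nat_lit 156) (nat_lit 0) (nat_lit 0) (XT.nd (nat_lit 78) (nat_lit 0) (nat_lit 0) (XT.lf (nat_lit 0) (nat_lit 132204528021283) (nat_lit 76) (nat_lit 36678827699460) (nat_lit 76) (nat_lit 36678782393688) (nat_lit 1) (nat_lit 4) (nat_lit 2) (nat_lit 5) (nat_lit 2) (nat_lit 4) (nat_lit 434) (nat_lit 310) (nat_lit 276)) (XT.lf (nat_lit 0) (nat_lit 152037335213199) (nat_lit 76) (nat_lit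 42179510011691) (nat_lit 76) (nat_lit 42179464654446) (nat_lit 1) (nat_lit 4) (nat_lit 2) (nat_lit 5) (nat_lit 2) (nat_lit 4) (nat_lit 435) (nat_lit 310) (nat_lit 275))) (XT.nd (nat_lit 78) (nat_lit 0) (nat_lit 0) (XT.lf (nat_lit 0) (nat_lit 174845059074076) (nat_lit 76) (nat_lit 48505297022789) (nat_lit 76) (nat_lit 48505251620784) (nat_lit 1) (nat_lit 4) (nat_lit 2) (nat_lit 5) (nat_lit 2) (nat_lit 4) (nat_lit 436) (nat_lit 310) (nat_lit 274)) (XT.lf (nat_lit 0) (nat_lit 201073937679453) (nat_lit 76) (nat_lit 55779954130797) (nat_lit 76) (nat_lit 55779908689870) (nat_lit 1) (nat_lit 4) (nat_lit 2) (nat_lit 5) (nat_lit 2) (nat_lit 4) (nat_lit 437) (nat_lit 310) (nat_lit 273)))))) (XT.nd (nat_lit 546) (nat_lit 0) (nat_lit 0) (XT.nd (nat_lit 234) (nat_lit 0) (nat_lit 0) (XT.nd (nat_lit 78) (nat_lit 0) (nat_lit 0) (XT.lf (nat_lit 0) (nat_lit 231237144741175) (nat_lit 76) (nat_lit 64145811583481)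 (nat_lit 76) (nat_lit 64145766108710) (nat_lit 1) (nat_lit 4) (nat_lit 2) (nat_lit 5) (nat_lit 2) (nat_lit 4) (nat_lit 438) (nat_lit 310) (nat_lit 272)) (XT.nd (nat_lit 78) (nat_lit 0) (nat_lit 0) (XT.lf (nat_lit 0) (nat_lit 265924829962622) (nat_lit 76) (nat_lit 73766549200567) (nat_lit 76) (nat_lit 73766503696365) (nat_lit 1) (nat_lit 4) (nat_lit 2) (nat_lit 5) (nat_lit 2) (nat_lit 4) (nat_lit 439) (nat_lit 310) (nat_lit 271)) (XT.lf (nat_lit 0) (nat_lit 305815665445954) (nat_lit 76) (nat_lit 84830398804999) (nat_lit 76) (nat_lit 84830353275205) (nat_lit 1) (nat_lit 4) (nat_lit 2) (nat_lit 5) (nat_lit 2) (nat_lit 4) (nat_lit 440) (nat_lit 310) (nat_lit 270)))) (XT.nd (nat_lit 156) (nat_lit 0) (nat_lit 0) (XT.nd (nat_lit 78) (nat_lit 0) (nat_lit 0) (XT.lf (nat_lit 0) (nat_lit 351690124059323) (nat_lit 76) (nat_lit 97553827019470) (nat_lit 76) (nat_lit 97553781467422) (nat_lit 1) (nat_lit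 4) (nat_lit 2) (nat_lit 5) (nat_lit 2) (nat_lit 4) (nat_lit 441) (nat_lit 310) (nat_lit 269)) (XT.lf (nat_lit 0) (nat_lit 404445749558207) (nat_lit 76) (nat_lit 112185770482961) (nat_lit 76) (nat_lit 112185724911562) (nat_lit 1) (nat_lit 4) (nat_lit 2) (nat_lit 5) (nat_lit 2) (nat_lit 4) (nat_lit 442) (nat_lit 310) (nat_lit 268))) (XT.nd (nat_lit 78) (nat_lit 0) (nat_lit 0) (XT.lf (nat_lit 0) (nat_lit 465114717224107) (nat_lit 76) (nat_lit 129012506350191) (nat_lit 76) (nat_lit 129012460761966) (nat_lit 1) (nat_lit 4) (nat_lit 2) (nat_lit 5) (nat_lit 2) (nat_lit 4) (nat_lit 443) (nat_lit 310) (nat_lit 267)) (XT.lf (nat_lit 0) (nat_lit 534884028598312) (nat_lit 76) (nat_lit 148363253366390) (nat_lit 76) (nat_lit 148363207763532) (nat_lit 1) (nat_lit 4) (nat_lit 2) (nat_lit 5) (nat_lit 2) (nat_lit 4) (nat_lit 444) (nat_lit 310) (nat_lit 266))))) (XT.nd (nat_lit 49608) (nat_lit 0) (nat_lit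 0) (XT.nd (nat_lit 49452) (nat_lit 0) (nat_lit 0) (XT.lf (nat_lit 0) (nat_lit 615118735425099) (nat_lit 76) (nat_lit 170616613103613) (nat_lit 76) (nat_lit 170616567488030) (nat_lit 1) (nat_lit 4) (nat_lit 2) (nat_lit 5) (nat_lit 2) (nat_lit 4) (nat_lit 445) (nat_lit 310) (nat_lit 265)) (XT.nd (nat_lit 78) (nat_lit 0) (nat_lit 0) (XT.lf (nat_lit 0) (nat_lit 415603160132) (nat_lit 76) (nat_lit 128311534707) (nat_lit 76) (nat_lit 128311534707) (nat_lit 1) (nat_lit 4) (nat_lit 2) (nat_lit 5) (nat_lit 2) (nat_lit 4) (nat_lit 398) (nat_lit 311) (nat_lit 311)) (XT.lf (nat_lit 0) (nat_lit 962798062485) (nat_lit 76) (nat_lit 291422693755) (nat_lit 76) (nat_lit 291415838694) (nat_lit 1) (nat_lit 4) (nat_lit 2) (nat_lit 5) (nat_lit 2) (nat_lit 4) (nat_lit 399) (nat_lit 311) (nat_lit 310)))) (XT.nd (nat_lit 156) (nat_lit 0) (nat_lit 0) (XT.nd (nat_lit 78) (nat_lit 0) (nat_lit 0) (XT.lf (nat_lit 0)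 (nat_lit 1113541285111) (nat_lit 76) (nat_lit 331755494886) (nat_lit 76) (nat_lit 331742678902) (nat_lit 1) (nat_lit 4) (nat_lit 2) (nat_lit 5) (nat_lit 2) (nat_lit 4) (nat_lit 400) (nat_lit 311) (nat_lit 309)) (XT.lf (nat_lit 0) (nat_lit 1286385312063) (nat_lit 76) (nat_lit 378410592829) (nat_lit 76) (nat_lit 378392593435) (nat_lit 1) (nat_lit 4) (nat_lit 2) (nat_lit 5) (nat_lit 2) (nat_lit 4) (nat_lit 401) (nat_lit 311) (nat_lit 308))) (XT.nd (nat_lit 78) (nat_lit 0) (nat_lit 0) (XT.lf (nat_lit 0) (nat_lit 1484711874303) (nat_lit 76) (nat_lit 432300804718) (nat_lit 76) (nat_lit 432278298010) (nat_lit 1) (nat_lit 4) (nat_lit 2) (nat_lit 5) (nat_lit 2) (nat_lit 4) (nat_lit 402) (nat_lit 311) (nat_lit 307)) (XT.lf (nat_lit 0) (nat_lit 1712401274135) (nat_lit 76) (nat_lit 494480504263) (nat_lit 76) (nat_lit 494454078153) (nat_lit 1) (nat_lit 4) (nat_lit 2) (nat_lit 5) (nat_lit 2) (nat_lit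 4) (nat_lit 403) (nat_lit 311) (nat_lit 306))))))))
noncomputable def xc8 : XT := (XT.nd (nat_lit 2028) (nat_lit 0) (nat_lit 0) (XT.nd (nat_lit 1014) (nat_lit 0) (nat_lit 0) (XT.nd (nat_lit 468) (nat_lit 0) (nat_lit 0) (XT.nd (nat_lit 234) (nat_lit 0) (nat_lit 0) (XT.nd (nat_lit 78) (nat_lit 0) (nat_lit 0) (XT.lf (nat_lit 0) (nat_lit 1973908304166) (nat_lit 76) (nat_lit 566166250805) (nat_lit 76) (nat_lit 566136416517) (nat_lit 1) (nat_lit 4) (nat_lit 2) (nat_lit 5) (nat_lit 2) (nat_lit 4) (nat_lit 404) (nat_lit 311) (nat_lit 305)) (XT.nd (nat_lit 78) (nat_lit 0) (nat_lit 0) (XT.lf (nat_lit 0) (nat_lit 2274349406285) (nat_lit 76) (nat_lit 648760591557) (nat_lit 76) (nat_lit 648727793637) (nat_lit 1) (nat_lit 4) (nat_lit 2) (nat_lit 5) (nat_lit 2) (nat_lit 4) (nat_lit 405) (nat_lit 311) (nat_lit 304)) (XT.lf (nat_lit 0) (nat_lit 2619602775971) (nat_lit 76) (nat_lit 743879502752) (nat_lit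 76) (nat_lit 743844127761) (nat_lit 1) (nat_lit 4) (nat_lit 2) (nat_lit 5) (nat_lit 2) (nat_lit 4) (nat_lit 406) (nat_lit 311) (nat_lit 303)))) (XT.nd (nat_lit 78) (nat_lit 0) (nat_lit 0) (XT.lf (nat_lit 0) (nat_lit 3016423370456) (nat_lit 76) (nat_lit 853384006565) (nat_lit 76) (nat_lit 853346390642) (nat_lit 1) (nat_lit 4) (nat_lit 2) (nat_lit 5) (nat_lit 2) (nat_lit 4) (nat_lit 407) (nat_lit 311) (nat_lit 302)) (XT.nd (nat_lit 78) (nat_lit 0) (nat_lit 0) (XT.lf (nat_lit 0) (nat_lit 3472575070937) (nat_lit 76) (nat_lit 979416582418) (nat_lit 76) (nat_lit 979377017860) (nat_lit 1) (nat_lit 4) (nat_lit 2) (nat_lit 5) (nat_lit 2) (nat_lit 4) (nat_lit 408) (nat_lit 311) (nat_lit 301)) (XT.lf (nat_lit 0) (nat_lit 3996982584596) (nat_lit 76) (nat_lit 1124443085058) (nat_lit 76) (nat_lit 1124401826033) (nat_lit 1) (nat_lit 4) (nat_lit 2) (nat_lit 5) (nat_lit 2) (nat_lit 4) (nat_lit 409) (nat_lit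 311) (nat_lit 300))))) (XT.nd (nat_lit 234) (nat_lit 0) (nat_lit 0) (XT.nd (nat_lit 78) (nat_lit 0) (nat_lit 0) (XT.lf (nat_lit 0) (nat_lit 4599906058440) (nat_lit 76) (nat_lit 1291300989535) (nat_lit 76) (nat_lit 1291258257061) (nat_lit 1) (nat_lit 4) (nat_lit 2) (nat_lit 5) (nat_lit 2) (nat_lit 4) (nat_lit 410) (nat_lit 311) (nat_lit 299)) (XT.nd (nat_lit 78) (nat_lit 0) (nat_lit 0) (XT.lf (nat_lit 0) (nat_lit 5293141821306) (nat_lit 76) (nat_lit 1483254907023) (nat_lit 76) (nat_lit 1483210893290) (nat_lit 1) (nat_lit 4) (nat_lit 2) (nat_lit 5) (nat_lit 2) (nat_lit 4) (nat_lit 411) (nat_lit 311) (nat_lit 298)) (XT.lf (nat_lit 0) (nat_lit 6090253181597) (nat_lit 76) (nat_lit 1704060457648) (nat_lit 76) (nat_lit 1704015329776) (nat_lit 1) (nat_lit 4) (nat_lit 2) (nat_lit 5) (nat_lit 2) (nat_lit 4) (nat_lit 412) (nat_lit 311) (nat_lit 297)))) (XT.nd (nat_lit 156) (nat_lit 0) (nat_lit 0) (XT.nd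 (nat_lit 78) (nat_lit 0) (nat_lit 0) (XT.lf (nat_lit 0) (nat_lit 7006835796362) (nat_lit 76) (nat_lit 1958037750010) (nat_lit 76) (nat_lit 1957991653321) (nat_lit 1) (nat_lit 4) (nat_lit 2) (nat_lit 5) (nat_lit 2) (nat_lit 4) (nat_lit 413) (nat_lit 311) (nat_lit 296)) (XT.lf (nat_lit 0) (nat_lit 8060822803716) (nat_lit 76) (nat_lit 2250155905044) (nat_lit 76) (nat_lit 2250108965906) (nat_lit 1) (nat_lit 4) (nat_lit 2) (nat_lit 5) (nat_lit 2) (nat_lit 4) (nat_lit 414) (nat_lit 311) (nat_lit 295))) (XT.nd (nat_lit 78) (nat_lit 0) (nat_lit 0) (XT.lf (nat_lit 0) (nat_lit 9272835688586) (nat_lit 76) (nat_lit 2586130277959) (nat_lit 76) (nat_lit 2586082606256) (nat_lit 1) (nat_lit 4) (nat_lit 2) (nat_lit 5) (nat_lit 2) (nat_lit 4) (nat_lit 415) (nat_lit 311) (nat_lit 294)) (XT.lf (nat_lit 0) (nat_lit 10666587746546) (nat_lit 76) (nat_lit 2972534280398) (nat_lit 76) (nat_lit 2972485971683) (nat_lit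 1) (nat_lit 4) (nat_lit 2) (nat_lit 5) (nat_lit 2) (nat_lit 4) (nat_lit 416) (nat_lit 311) (nat_lit 293)))))) (XT.nd (nat_lit 468) (nat_lit 0) (nat_lit 0) (XT.nd (nat_lit 234) (nat_lit 0) (nat_lit 0) (XT.nd (nat_lit 78) (nat_lit 0) (nat_lit 0) (XT.lf (nat_lit 0) (nat_lit 12269348039598) (nat_lit 76) (nat_lit 3416927990671) (nat_lit 76) (nat_lit 3416879128032) (nat_lit 1) (nat_lit 4) (nat_lit 2) (nat_lit 5) (nat_lit 2) (nat_lit 4) (nat_lit 417) (nat_lit 311) (nat_lit 292)) (XT.nd (nat_lit 78) (nat_lit 0) (nat_lit 0) (XT.lf (nat_lit 0) (nat_lit 14112474921303) (nat_lit 76) (nat_lit 3928006068325) (nat_lit 76) (nat_lit 3927956724013) (nat_lit 1) (nat_lit 4) (nat_lit 2) (nat_lit 5) (nat_lit 2) (nat_lit 4) (nat_lit 418) (nat_lit 311) (nat_lit 291)) (XT.lf (nat_lit 0) (nat_lit 16232029569781) (nat_lit 76) (nat_lit 4515767867055) (nat_lit 76) (nat_lit 4515718103897) (nat_lit 1) (nat_lit 4) (nat_lit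 2) (nat_lit 5) (nat_lit 2) (nat_lit 4) (nat_lit 419) (nat_lit 311) (nat_lit 290)))) (XT.nd (nat_lit 78) (nat_lit 0) (nat_lit 0) (XT.lf (nat_lit 0) (nat_lit 18669481532502) (nat_lit 76) (nat_lit 5191713074226) (nat_lit 76) (nat_lit 5191662946854) (nat_lit 1) (nat_lit 4) (nat_lit 2) (nat_lit 5) (nat_lit 2) (nat_lit 4) (nat_lit 420) (nat_lit 311) (nat_lit 289)) (XT.nd (nat_lit 78) (nat_lit 0) (nat_lit 0) (XT.lf (nat_lit 0) (nat_lit 21472520086997) (nat_lit 76) (nat_lit 5969066704762) (nat_lit 76) (nat_lit 5969016260682) (nat_lit 1) (nat_lit 4) (nat_lit 2) (nat_lit 5) (nat_lit 2) (nat_lit 4) (nat_lit 421) (nat_lit 311) (nat_lit 288)) (XT.lf (nat_lit 0) (nat_lit 24695987291942) (nat_lit 76) (nat_lit 6863037851434) (nat_lit 76) (nat_lit 6862987131955) (nat_lit 1) (nat_lit 4) (nat_lit 2) (nat_lit 5) (nat_lit 2) (nat_lit 4) (nat_lit 422) (nat_lit 311) (nat_lit 287))))) (XT.nd (nat_lit 234) (nat_lit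 0) (nat_lit 0) (XT.nd (nat_lit 78) (nat_lit 0) (nat_lit 0) (XT.lf (nat_lit 0) (nat_lit 28402950983955) (nat_lit 76) (nat_lit 7891117254067) (nat_lit 76) (nat_lit 7891066295113) (nat_lit 1) (nat_lit 4) (nat_lit 2) (nat_lit 5) (nat_lit 2) (nat_lit 4) (nat_lit 423) (nat_lit 311) (nat_lit 286)) (XT.nd (nat_lit 78) (nat_lit 0) (nat_lit 0) (XT.lf (nat_lit 0) (nat_lit 32665938713532) (nat_lit 76) (nat_lit 9073419509671) (nat_lit 76) (nat_lit 9073368342476) (nat_lit 1) (nat_lit 4) (nat_lit 2) (nat_lit 5) (nat_lit 2) (nat_lit 4) (nat_lit 424) (nat_lit 311) (nat_lit 285)) (XT.lf (nat_lit 0) (nat_lit 37568356762339) (nat_lit 76) (nat_lit 10433076618898) (nat_lit 76) (nat_lit 10433025270624) (nat_lit 1) (nat_lit 4) (nat_lit 2) (nat_lit 5) (nat_lit 2) (nat_lit 4) (nat_lit 425) (nat_lit 311) (nat_lit 284)))) (XT.nd (nat_lit 156) (nat_lit 0) (nat_lit 0) (XT.nd (nat_lit 78) (nat_lit 0) (nat_lit 0) (XT.lf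 (nat_lit 0) (nat_lit 43206122005243) (nat_lit 76) (nat_lit 11996690568668) (nat_lit 76) (nat_lit 11996639062934) (nat_lit 1) (nat_lit 4) (nat_lit 2) (nat_lit 5) (nat_lit 2) (nat_lit 4) (nat_lit 426) (nat_lit 311) (nat_lit 283)) (XT.lf (nat_lit 0) (nat_lit 49689538544823) (nat_lit 76) (nat_lit 13794853805824) (nat_lit 76) (nat_lit 13794802163169) (nat_lit 1) (nat_lit 4) (nat_lit 2) (nat_lit 5) (nat_lit 2) (nat_lit 4) (nat_lit 427) (nat_lit 311) (nat_lit 282))) (XT.nd (nat_lit 78) (nat_lit 0) (nat_lit 0) (XT.lf (nat_lit 0) (nat_lit 57145455835114) (nat_lit 76) (nat_lit 15862747785007) (nat_lit 76) (nat_lit 15862696023289) (nat_lit 1) (nat_lit 4) (nat_lit 2) (nat_lit 5) (nat_lit 2) (nat_lit 4) (nat_lit 428) (nat_lit 311) (nat_lit 281)) (XT.lf (nat_lit 0) (nat_lit 65719750518753) (nat_lit 76) (nat_lit 18240831301460) (nat_lit 76) (nat_lit 18240779436210) (nat_lit 1) (nat_lit 4) (nat_lit 2) (nat_lit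 5) (nat_lit 2) (nat_lit 4) (nat_lit 429) (nat_lit 311) (nat_lit 280))))))) (XT.nd (nat_lit 1014) (nat_lit 0) (nat_lit 0) (XT.nd (nat_lit 468) (nat_lit 0) (nat_lit 0) (XT.nd (nat_lit 234) (nat_lit 0) (nat_lit 0) (XT.nd (nat_lit 78) (nat_lit 0) (nat_lit 0) (XT.lf (nat_lit 0) (nat_lit 75580180535202) (nat_lit 76) (nat_lit 20975632076159) (nat_lit 76) (nat_lit 20975580120881) (nat_lit 1) (nat_lit 4) (nat_lit 2) (nat_lit 5) (nat_lit 2) (nat_lit 4) (nat_lit 430) (nat_lit 311) (nat_lit 279)) (XT.nd (nat_lit 78) (nat_lit 0) (nat_lit 0) (XT.lf (nat_lit 0) (nat_lit 86919667341305) (nat_lit 76) (nat_lit 24120657080782) (nat_lit 76) (nat_lit 24120605047218) (nat_lit 1) (nat_lit 4) (nat_lit 2) (nat_lit 5) (nat_lit 2) (nat_lit 4) (nat_lit 431) (nat_lit 311) (nat_lit 278)) (XT.lf (nat_lit 0) (nat_lit 99960070461528) (nat_lit 76) (nat_lit 27737439413245) (nat_lit 76) (nat_lit 27737387311608) (nat_lit 1)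 (nat_lit 4) (nat_lit 2) (nat_lit 5) (nat_lit 2) (nat_lit 4) (nat_lit 432) (nat_lit 311) (nat_lit 277)))) (XT.nd (nat_lit 78) (nat_lit 0) (nat_lit 0) (XT.lf (nat_lit 0) (nat_lit 114956528217790) (nat_lit 76) (nat_lit 31896742206141) (nat_lit 76) (nat_lit 31896690045308) (nat_lit 1) (nat_lit 4) (nat_lit 2) (nat_lit 5) (nat_lit 2) (nat_lit 4) (nat_lit 433) (nat_lit 311) (nat_lit 276)) (XT.nd (nat_lit 78) (nat_lit 0) (nat_lit 0) (XT.lf (nat_lit 0) (nat_lit 132202449566190) (nat_lit 76) (nat_lit 36679943122808) (nat_lit 76) (nat_lit 36679890910501) (nat_lit 1) (nat_lit 4) (nat_lit 2) (nat_lit 5) (nat_lit 2) (nat_lit 4) (nat_lit 434) (nat_lit 311) (nat_lit 275)) (XT.lf (nat_lit 0) (nat_lit 152035254707024) (nat_lit 76) (nat_lit 42180626529007) (nat_lit 76) (nat_lit 42180574271941) (nat_lit 1) (nat_lit 4) (nat_lit 2) (nat_lit 5) (nat_lit 2) (nat_lit 4) (nat_lit 435) (nat_lit 311) (nat_lit 274)))))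 (XT.nd (nat_lit 234) (nat_lit 0) (nat_lit 0) (XT.nd (nat_lit 78) (nat_lit 0) (nat_lit 0) (XT.lf (nat_lit 0) (nat_lit 174842976784352) (nat_lit 76) (nat_lit 48506414491383) (nat_lit 76) (nat_lit 48506362195395) (nat_lit 1) (nat_lit 4) (nat_lit 2) (nat_lit 5) (nat_lit 2) (nat_lit 4) (nat_lit 436) (nat_lit 311) (nat_lit 273)) (XT.nd (nat_lit 78) (nat_lit 0) (nat_lit 0) (XT.lf (nat_lit 0) (nat_lit 201071853838816) (nat_lit 76) (nat_lit 55781072426588) (nat_lit 76) (nat_lit 55781020096756) (nat_lit 1) (nat_lit 4) (nat_lit 2) (nat_lit 5) (nat_lit 2) (nat_lit 4) (nat_lit 437) (nat_lit 311) (nat_lit 272)) (XT.lf (nat_lit 0) (nat_lit 231235059551918) (nat_lit 76) (nat_lit 64146930598574) (nat_lit 76) (nat_lit 64146878239311) (nat_lit 1) (nat_lit 4) (nat_lit 2) (nat_lit 5) (nat_lit 2) (nat_lit 4) (nat_lit 438) (nat_lit 311) (nat_lit 271)))) (XT.nd (nat_lit 156) (nat_lit 0) (nat_lit 0) (XT.nd (nat_lit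 78) (nat_lit 0) (nat_lit 0) (XT.lf (nat_lit 0) (nat_lit 265922743600652) (nat_lit 76) (nat_lit 73767668841140) (nat_lit 76) (nat_lit 73767616456286) (nat_lit 1) (nat_lit 4) (nat_lit 2) (nat_lit 5) (nat_lit 2) (nat_lit 4) (nat_lit 439) (nat_lit 311) (nat_lit 270)) (XT.lf (nat_lit 0) (nat_lit 305813578064234) (nat_lit 76) (nat_lit 84831518989467) (nat_lit 76) (nat_lit 84831466582359) (nat_lit 1) (nat_lit 4) (nat_lit 2) (nat_lit 5) (nat_lit 2) (nat_lit 4) (nat_lit 440) (nat_lit 311) (nat_lit 269))) (XT.nd (nat_lit 78) (nat_lit 0) (nat_lit 0) (XT.lf (nat_lit 0) (nat_lit 351688035790864) (nat_lit 76) (nat_lit 97554947676892) (nat_lit 76) (nat_lit 97554895250432) (nat_lit 1) (nat_lit 4) (nat_lit 2) (nat_lit 5) (nat_lit 2) (nat_lit 4) (nat_lit 441) (nat_lit 311) (nat_lit 268)) (XT.lf (nat_lit 0) (nat_lit 404443660518670) (nat_lit 76) (nat_lit 112186891551645) (nat_lit 76) (nat_lit 112186839108359)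 (nat_lit 1) (nat_lit 4) (nat_lit 2) (nat_lit 5) (nat_lit 2) (nat_lit 4) (nat_lit 442) (nat_lit 311) (nat_lit 267)))))) (XT.nd (nat_lit 49764) (nat_lit 0) (nat_lit 0) (XT.nd (nat_lit 49452) (nat_lit 0) (nat_lit 0) (XT.nd (nat_lit 78) (nat_lit 0) (nat_lit 0) (XT.lf (nat_lit 0) (nat_lit 465112627514067) (nat_lit 76) (nat_lit 129013627776496) (nat_lit 76) (nat_lit 129013575318578) (nat_lit 1) (nat_lit 4) (nat_lit 2) (nat_lit 5) (nat_lit 2) (nat_lit 4) (nat_lit 443) (nat_lit 311) (nat_lit 266)) (XT.nd (nat_lit 78) (nat_lit 0) (nat_lit 0) (XT.lf (nat_lit 0) (nat_lit 534881938305227) (nat_lit 76) (nat_lit 148364375103670) (nat_lit 76) (nat_lit 148364322633026) (nat_lit 1) (nat_lit 4) (nat_lit 2) (nat_lit 5) (nat_lit 2) (nat_lit 4) (nat_lit 444) (nat_lit 311) (nat_lit 265)) (XT.lf (nat_lit 0) (nat_lit 615116644625018) (nat_lit 76) (nat_lit 170617735111305) (nat_lit 76) (nat_lit 170617682629597)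 (nat_lit 1) (nat_lit 4) (nat_lit 2) (nat_lit 5) (nat_lit 2) (nat_lit 4) (nat_lit 445) (nat_lit 311) (nat_lit 264)))) (XT.nd (nat_lit 156) (nat_lit 0) (nat_lit 0) (XT.nd (nat_lit 78) (nat_lit 0) (nat_lit 0) (XT.lf (nat_lit 0) (nat_lit 307932184388) (nat_lit 76) (nat_lit 100405023674) (nat_lit 76) (nat_lit 100405023674) (nat_lit 1) (nat_lit 4) (nat_lit 2) (nat_lit 5) (nat_lit 2) (nat_lit 4) (nat_lit 396) (nat_lit 312) (nat_lit 312)) (XT.lf (nat_lit 0) (nat_lit 716191437403) (nat_lit 76) (nat_lit 226683642968) (nat_lit 76) (nat_lit 226675759648) (nat_lit 1) (nat_lit 4) (nat_lit 2) (nat_lit 5) (nat_lit 2) (nat_lit 4) (nat_lit 397) (nat_lit 312) (nat_lit 311))) (XT.nd (nat_lit 78) (nat_lit 0) (nat_lit 0) (XT.lf (nat_lit 0) (nat_lit 830892193255) (nat_lit 76) (nat_lit 256798496041) (nat_lit 76) (nat_lit 256783757660) (nat_lit 1) (nat_lit 4) (nat_lit 2) (nat_lit 5) (nat_lit 2) (nat_lit 4) (nat_lit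 398) (nat_lit 312) (nat_lit 310)) (XT.lf (nat_lit 0) (nat_lit 962210781557) (nat_lit 76) (nat_lit 291743810213) (nat_lit 76) (nat_lit 291723110911) (nat_lit 1) (nat_lit 4) (nat_lit 2) (nat_lit 5) (nat_lit 2) (nat_lit 4) (nat_lit 399) (nat_lit 312) (nat_lit 309))))) (XT.nd (nat_lit 234) (nat_lit 0) (nat_lit 0) (XT.nd (nat_lit 78) (nat_lit 0) (nat_lit 0) (XT.lf (nat_lit 0) (nat_lit 1112716479035) (nat_lit 76) (nat_lit 332203298155) (nat_lit 76) (nat_lit 332177415441) (nat_lit 1) (nat_lit 4) (nat_lit 2) (nat_lit 5) (nat_lit 2) (nat_lit 4) (nat_lit 400) (nat_lit 312) (nat_lit 308)) (XT.nd (nat_lit 78) (nat_lit 0) (nat_lit 0) (XT.lf (nat_lit 0) (nat_lit 1285353962380) (nat_lit 76) (nat_lit 378968558542) (nat_lit 76) (nat_lit 378938168514) (nat_lit 1) (nat_lit 4) (nat_lit 2) (nat_lit 5) (nat_lit 2) (nat_lit 4) (nat_lit 401) (nat_lit 312) (nat_lit 307)) (XT.lf (nat_lit 0) (nat_lit 1483500921483)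 (nat_lit 76) (nat_lit 432954563860) (nat_lit 76) (nat_lit 432920254430) (nat_lit 1) (nat_lit 4) (nat_lit 2) (nat_lit 5) (nat_lit 2) (nat_lit 4) (nat_lit 402) (nat_lit 312) (nat_lit 306)))) (XT.nd (nat_lit 156) (nat_lit 0) (nat_lit 0) (XT.nd (nat_lit 78) (nat_lit 0) (nat_lit 0) (XT.lf (nat_lit 0) (nat_lit 1711034144675) (nat_lit 76) (nat_lit 495217562040) (nat_lit 76) (nat_lit 495179844433) (nat_lit 1) (nat_lit 4) (nat_lit 2) (nat_lit 5) (nat_lit 2) (nat_lit 4) (nat_lit 403) (nat_lit 312) (nat_lit 305)) (XT.lf (nat_lit 0) (nat_lit 1972405368931) (nat_lit 76) (nat_lit 566975742177) (nat_lit 76) (nat_lit 566935060938) (nat_lit 1) (nat_lit 4) (nat_lit 2) (nat_lit 5) (nat_lit 2) (nat_lit 4) (nat_lit 404) (nat_lit 312) (nat_lit 304))) (XT.nd (nat_lit 78) (nat_lit 0) (nat_lit 0) (XT.lf (nat_lit 0) (nat_lit 2272728379073) (nat_lit 76) (nat_lit 649633068664) (nat_lit 76) (nat_lit 649589810353) (nat_lit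 1) (nat_lit 4) (nat_lit 2) (nat_lit 5) (nat_lit 2) (nat_lit 4) (nat_lit 405) (nat_lit 312) (nat_lit 303)) (XT.lf (nat_lit 0) (nat_lit 2617879060083) (nat_lit 76) (nat_lit 744806750063) (nat_lit 76) (nat_lit 744761250821) (nat_lit 1) (nat_lit 4) (nat_lit 2) (nat_lit 5) (nat_lit 2) (nat_lit 4) (nat_lit 406) (nat_lit 312) (nat_lit 302))))))))
noncomputable def xc9 : XT := (XT.nd (nat_lit 2028) (nat_lit 0) (nat_lit 0) (XT.nd (nat_lit 1014) (nat_lit 0) (nat_lit 0) (XT.nd (nat_lit 468) (nat_lit 0) (nat_lit 0) (XT.nd (nat_lit 234) (nat_lit 0) (nat_lit 0) (XT.nd (nat_lit 78) (nat_lit 0) (nat_lit 0) (XT.lf (nat_lit 0) (nat_lit 3014610360067) (nat_lit 76) (nat_lit 854358880140) (nat_lit 76) (nat_lit 854311432262) (nat_lit 1) (nat_lit 4) (nat_lit 2) (nat_lit 5) (nat_lit 2) (nat_lit 4) (nat_lit 407) (nat_lit 312) (nat_lit 301)) (XT.nd (nat_lit 78) (nat_lit 0) (nat_lit 0) (XT.lf (nat_lit 0) (nat_lit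 3470684413155) (nat_lit 76) (nat_lit 980432870137) (nat_lit 76) (nat_lit 980383727793) (nat_lit 1) (nat_lit 4) (nat_lit 2) (nat_lit 5) (nat_lit 2) (nat_lit 4) (nat_lit 408) (nat_lit 312) (nat_lit 300)) (XT.lf (nat_lit 0) (nat_lit 3995024407343) (nat_lit 76) (nat_lit 1125495385075) (nat_lit 76) (nat_lit 1125444769282) (nat_lit 1) (nat_lit 4) (nat_lit 2) (nat_lit 5) (nat_lit 2) (nat_lit 4) (nat_lit 409) (nat_lit 312) (nat_lit 299)))) (XT.nd (nat_lit 78) (nat_lit 0) (nat_lit 0) (XT.lf (nat_lit 0) (nat_lit 4597889168603) (nat_lit 76) (nat_lit 1292384604594) (nat_lit 76) (nat_lit 1292332707541) (nat_lit 1) (nat_lit 4) (nat_lit 2) (nat_lit 5) (nat_lit 2) (nat_lit 4) (nat_lit 410) (nat_lit 312) (nat_lit 298)) (XT.nd (nat_lit 78) (nat_lit 0) (nat_lit 0) (XT.lf (nat_lit 0) (nat_lit 5291073877048) (nat_lit 76) (nat_lit 1484365752554) (nat_lit 76) (nat_lit 1484312741362) (nat_lit 1) (nat_lit 4) (nat_lit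 2) (nat_lit 5) (nat_lit 2) (nat_lit 4) (nat_lit 411) (nat_lit 312) (nat_lit 297)) (XT.lf (nat_lit 0) (nat_lit 6088140842190) (nat_lit 76) (nat_lit 1705194981850) (nat_lit 76) (nat_lit 1705141001841) (nat_lit 1) (nat_lit 4) (nat_lit 2) (nat_lit 5) (nat_lit 2) (nat_lit 4) (nat_lit 412) (nat_lit 312) (nat_lit 296))))) (XT.nd (nat_lit 234) (nat_lit 0) (nat_lit 0) (XT.nd (nat_lit 78) (nat_lit 0) (nat_lit 0) (XT.lf (nat_lit 0) (nat_lit 7004684852478) (nat_lit 76) (nat_lit 1959192864359) (nat_lit 76) (nat_lit 1959138041901) (nat_lit 1) (nat_lit 4) (nat_lit 2) (nat_lit 5) (nat_lit 2) (nat_lit 4) (nat_lit 413) (nat_lit 312) (nat_lit 295)) (XT.nd (nat_lit 78) (nat_lit 0) (nat_lit 0) (XT.lf (nat_lit 0) (nat_lit 8058638290722) (nat_lit 76) (nat_lit 2251328923870) (nat_lit 76) (nat_lit 2251273368848) (nat_lit 1) (nat_lit 4) (nat_lit 2) (nat_lit 5) (nat_lit 2) (nat_lit 4) (nat_lit 414) (nat_lit 312) (nat_lit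 294)) (XT.lf (nat_lit 0) (nat_lit 9270621985061) (nat_lit 76) (nat_lit 2587318865896) (nat_lit 76) (nat_lit 2587262673861) (nat_lit 1) (nat_lit 4) (nat_lit 2) (nat_lit 5) (nat_lit 2) (nat_lit 4) (nat_lit 415) (nat_lit 312) (nat_lit 293)))) (XT.nd (nat_lit 156) (nat_lit 0) (nat_lit 0) (XT.nd (nat_lit 78) (nat_lit 0) (nat_lit 0) (XT.lf (nat_lit 0) (nat_lit 10664348659951) (nat_lit 76) (nat_lit 2973736406692) (nat_lit 76) (nat_lit 2973679660733) (nat_lit 1) (nat_lit 4) (nat_lit 2) (nat_lit 5) (nat_lit 2) (nat_lit 4) (nat_lit 416) (nat_lit 312) (nat_lit 292)) (XT.lf (nat_lit 0) (nat_lit 12267086880768) (nat_lit 76) (nat_lit 3418141889449) (nat_lit 76) (nat_lit 3418084661817) (nat_lit 1) (nat_lit 4) (nat_lit 2) (nat_lit 5) (nat_lit 2) (nat_lit 4) (nat_lit 417) (nat_lit 312) (nat_lit 291))) (XT.nd (nat_lit 78) (nat_lit 0) (nat_lit 0) (XT.lf (nat_lit 0) (nat_lit 14110194569225) (nat_lit 76) (nat_lit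 3929230204046) (nat_lit 76) (nat_lit 3929172557568) (nat_lit 1) (nat_lit 4) (nat_lit 2) (nat_lit 5) (nat_lit 2) (nat_lit 4) (nat_lit 418) (nat_lit 312) (nat_lit 290)) (XT.lf (nat_lit 0) (nat_lit 16229732527922) (nat_lit 76) (nat_lit 4517000904465) (nat_lit 76) (nat_lit 4516942893773) (nat_lit 1) (nat_lit 4) (nat_lit 2) (nat_lit 5) (nat_lit 2) (nat_lit 4) (nat_lit 419) (nat_lit 312) (nat_lit 289)))))) (XT.nd (nat_lit 468) (nat_lit 0) (nat_lit 0) (XT.nd (nat_lit 234) (nat_lit 0) (nat_lit 0) (XT.nd (nat_lit 78) (nat_lit 0) (nat_lit 0) (XT.lf (nat_lit 0) (nat_lit 18667169977790) (nat_lit 76) (nat_lit 5192953852236) (nat_lit 76) (nat_lit 5192895524836) (nat_lit 1) (nat_lit 4) (nat_lit 2) (nat_lit 5) (nat_lit 2) (nat_lit 4) (nat_lit 420) (nat_lit 312) (nat_lit 288)) (XT.nd (nat_lit 78) (nat_lit 0) (nat_lit 0) (XT.lf (nat_lit 0) (nat_lit 21470195912414) (nat_lit 76) (nat_lit 5970314213728) (nat_lit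 76) (nat_lit 5970255610930) (nat_lit 1) (nat_lit 4) (nat_lit 2) (nat_lit 5) (nat_lit 2) (nat_lit 4) (nat_lit 421) (nat_lit 312) (nat_lit 287)) (XT.lf (nat_lit 0) (nat_lit 24693652143557) (nat_lit 76) (nat_lit 6864291213405) (nat_lit 76) (nat_lit 6864232371130) (nat_lit 1) (nat_lit 4) (nat_lit 2) (nat_lit 5) (nat_lit 2) (nat_lit 4) (nat_lit 422) (nat_lit 312) (nat_lit 286)))) (XT.nd (nat_lit 78) (nat_lit 0) (nat_lit 0) (XT.lf (nat_lit 0) (nat_lit 28400606293134) (nat_lit 76) (nat_lit 7892375705608) (nat_lit 76) (nat_lit 7892316655093) (nat_lit 1) (nat_lit 4) (nat_lit 2) (nat_lit 5) (nat_lit 2) (nat_lit 4) (nat_lit 423) (nat_lit 312) (nat_lit 285)) (XT.nd (nat_lit 78) (nat_lit 0) (nat_lit 0) (XT.lf (nat_lit 0) (nat_lit 32663585724940) (nat_lit 76) (nat_lit 9074682386925) (nat_lit 76) (nat_lit 9074623155331) (nat_lit 1) (nat_lit 4) (nat_lit 2) (nat_lit 5) (nat_lit 2) (nat_lit 4) (nat_lit 424)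 (nat_lit 312) (nat_lit 284)) (XT.lf (nat_lit 0) (nat_lit 37565996558294) (nat_lit 76) (nat_lit 10434343344598) (nat_lit 76) (nat_lit 10434283955544) (nat_lit 1) (nat_lit 4) (nat_lit 2) (nat_lit 5) (nat_lit 2) (nat_lit 4) (nat_lit 425) (nat_lit 312) (nat_lit 283))))) (XT.nd (nat_lit 234) (nat_lit 0) (nat_lit 0) (XT.nd (nat_lit 78) (nat_lit 0) (nat_lit 0) (XT.lf (nat_lit 0) (nat_lit 43203755526891) (nat_lit 76) (nat_lit 11997960640843) (nat_lit 76) (nat_lit 11997901114867) (nat_lit 1) (nat_lit 4) (nat_lit 2) (nat_lit 5) (nat_lit 2) (nat_lit 4) (nat_lit 426) (nat_lit 312) (nat_lit 282)) (XT.nd (nat_lit 78) (nat_lit 0) (nat_lit 0) (XT.lf (nat_lit 0) (nat_lit 49687166610552) (nat_lit 76) (nat_lit 13796126787977) (nat_lit 76) (nat_lit 13796067142939) (nat_lit 1) (nat_lit 4) (nat_lit 2) (nat_lit 5) (nat_lit 2) (nat_lit 4) (nat_lit 427) (nat_lit 312) (nat_lit 281)) (XT.lf (nat_lit 0) (nat_lit 57143079156566)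 (nat_lit 76) (nat_lit 15864023297575) (nat_lit 76) (nat_lit 15863963549005) (nat_lit 1) (nat_lit 4) (nat_lit 2) (nat_lit 5) (nat_lit 2) (nat_lit 4) (nat_lit 428) (nat_lit 312) (nat_lit 280)))) (XT.nd (nat_lit 156) (nat_lit 0) (nat_lit 0) (XT.nd (nat_lit 78) (nat_lit 0) (nat_lit 0) (XT.lf (nat_lit 0) (nat_lit 65717369714747) (nat_lit 76) (nat_lit 18242109014390) (nat_lit 76) (nat_lit 18242049175792) (nat_lit 1) (nat_lit 4) (nat_lit 2) (nat_lit 5) (nat_lit 2) (nat_lit 4) (nat_lit 429) (nat_lit 312) (nat_lit 279)) (XT.lf (nat_lit 0) (nat_lit 75577796143841) (nat_lit 76) (nat_lit 20976911702446) (nat_lit 76) (nat_lit 20976851785563) (nat_lit 1) (nat_lit 4) (nat_lit 2) (nat_lit 5) (nat_lit 2) (nat_lit 4) (nat_lit 430) (nat_lit 312) (nat_lit 278))) (XT.nd (nat_lit 78) (nat_lit 0) (nat_lit 0) (XT.lf (nat_lit 0) (nat_lit 86917279830504) (nat_lit 76) (nat_lit 24121938370858) (nat_lit 76) (nat_lit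 24121878385901) (nat_lit 1) (nat_lit 4) (nat_lit 2) (nat_lit 5) (nat_lit 2) (nat_lit 4) (nat_lit 431) (nat_lit 312) (nat_lit 277)) (XT.lf (nat_lit 0) (nat_lit 99957680238171) (nat_lit 76) (nat_lit 27738722150095) (nat_lit 76) (nat_lit 27738662105943) (nat_lit 1) (nat_lit 4) (nat_lit 2) (nat_lit 5) (nat_lit 2) (nat_lit 4) (nat_lit 432) (nat_lit 312) (nat_lit 276))))))) (XT.nd (nat_lit 50076) (nat_lit 0) (nat_lit 0) (XT.nd (nat_lit 468) (nat_lit 0) (nat_lit 0) (XT.nd (nat_lit 234) (nat_lit 0) (nat_lit 0) (XT.nd (nat_lit 78) (nat_lit 0) (nat_lit 0) (XT.lf (nat_lit 0) (nat_lit 114954135635688) (nat_lit 76) (nat_lit 31898026201055) (nat_lit 76) (nat_lit 31897966105428) (nat_lit 1) (nat_lit 4) (nat_lit 2) (nat_lit 5) (nat_lit 2) (nat_lit 4) (nat_lit 433) (nat_lit 312) (nat_lit 275)) (XT.nd (nat_lit 78) (nat_lit 0) (nat_lit 0) (XT.lf (nat_lit 0) (nat_lit 132200054933006) (nat_lit 76) (nat_lit 36681228211690)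 (nat_lit 76) (nat_lit 36681168071304) (nat_lit 1) (nat_lit 4) (nat_lit 2) (nat_lit 5) (nat_lit 2) (nat_lit 4) (nat_lit 434) (nat_lit 312) (nat_lit 274)) (XT.lf (nat_lit 0) (nat_lit 152032858290291) (nat_lit 76) (nat_lit 42181912569167) (nat_lit 76) (nat_lit 42181852389859) (nat_lit 1) (nat_lit 4) (nat_lit 2) (nat_lit 5) (nat_lit 2) (nat_lit 4) (nat_lit 435) (nat_lit 312) (nat_lit 273)))) (XT.nd (nat_lit 78) (nat_lit 0) (nat_lit 0) (XT.lf (nat_lit 0) (nat_lit 174840578816706) (nat_lit 76) (nat_lit 48507701358740) (nat_lit 76) (nat_lit 48507641145587) (nat_lit 1) (nat_lit 4) (nat_lit 2) (nat_lit 5) (nat_lit 2) (nat_lit 4) (nat_lit 436) (nat_lit 312) (nat_lit 272)) (XT.nd (nat_lit 78) (nat_lit 0) (nat_lit 0) (XT.lf (nat_lit 0) (nat_lit 201069454522551) (nat_lit 76) (nat_lit 55782360013247) (nat_lit 76) (nat_lit 55782299770664) (nat_lit 1) (nat_lit 4) (nat_lit 2) (nat_lit 5) (nat_lit 2) (nat_lit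 4) (nat_lit 437) (nat_lit 312) (nat_lit 271)) (XT.lf (nat_lit 0) (nat_lit 231232659062940) (nat_lit 76) (nat_lit 64148218810713) (nat_lit 76) (nat_lit 64148158542539) (nat_lit 1) (nat_lit 4) (nat_lit 2) (nat_lit 5) (nat_lit 2) (nat_lit 4) (nat_lit 438) (nat_lit 312) (nat_lit 270))))) (XT.nd (nat_lit 234) (nat_lit 0) (nat_lit 0) (XT.nd (nat_lit 78) (nat_lit 0) (nat_lit 0) (XT.lf (nat_lit 0) (nat_lit 265920342091924) (nat_lit 76) (nat_lit 73768957597175) (nat_lit 76) (nat_lit 73768897306747) (nat_lit 1) (nat_lit 4) (nat_lit 2) (nat_lit 5) (nat_lit 2) (nat_lit 4) (nat_lit 439) (nat_lit 312) (nat_lit 269)) (XT.nd (nat_lit 78) (nat_lit 0) (nat_lit 0) (XT.lf (nat_lit 0) (nat_lit 305811175668766) (nat_lit 76) (nat_lit 84832808218455) (nat_lit 76) (nat_lit 84832747908675) (nat_lit 1) (nat_lit 4) (nat_lit 2) (nat_lit 5) (nat_lit 2) (nat_lit 4) (nat_lit 440) (nat_lit 312) (nat_lit 268)) (XT.lf (nat_lit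 0) (nat_lit 351685632624318) (nat_lit 76) (nat_lit 97556237317142) (nat_lit 76) (nat_lit 97556176990536) (nat_lit 1) (nat_lit 4) (nat_lit 2) (nat_lit 5) (nat_lit 2) (nat_lit 4) (nat_lit 441) (nat_lit 312) (nat_lit 267)))) (XT.nd (nat_lit 156) (nat_lit 0) (nat_lit 0) (XT.nd (nat_lit 78) (nat_lit 0) (nat_lit 0) (XT.lf (nat_lit 0) (nat_lit 404441256681622) (nat_lit 76) (nat_lit 112188181549516) (nat_lit 76) (nat_lit 112188121208279) (nat_lit 1) (nat_lit 4) (nat_lit 2) (nat_lit 5) (nat_lit 2) (nat_lit 4) (nat_lit 442) (nat_lit 312) (nat_lit 266)) (XT.lf (nat_lit 0) (nat_lit 465110223093975) (nat_lit 76) (nat_lit 129014918085341) (nat_lit 76) (nat_lit 129014857731379) (nat_lit 1) (nat_lit 4) (nat_lit 2) (nat_lit 5) (nat_lit 2) (nat_lit 4) (nat_lit 443) (nat_lit 312) (nat_lit 265))) (XT.nd (nat_lit 78) (nat_lit 0) (nat_lit 0) (XT.lf (nat_lit 0) (nat_lit 534879533378138) (nat_lit 76) (nat_lit 148365665682925)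 (nat_lit 76) (nat_lit 148365605317901) (nat_lit 1) (nat_lit 4) (nat_lit 2) (nat_lit 5) (nat_lit 2) (nat_lit 4) (nat_lit 444) (nat_lit 312) (nat_lit 264)) (XT.lf (nat_lit 0) (nat_lit 615114239257062) (nat_lit 76) (nat_lit 170619025925702) (nat_lit 76) (nat_lit 170618965551056) (nat_lit 1) (nat_lit 4) (nat_lit 2) (nat_lit 5) (nat_lit 2) (nat_lit 4) (nat_lit 445) (nat_lit 312) (nat_lit 263)))))) (XT.nd (nat_lit 546) (nat_lit 0) (nat_lit 0) (XT.nd (nat_lit 234) (nat_lit 0) (nat_lit 0) (XT.nd (nat_lit 78) (nat_lit 0) (nat_lit 0) (XT.lf (nat_lit 0) (nat_lit 225568930941) (nat_lit 76) (nat_lit 79811152469) (nat_lit 76) (nat_lit 79811152469) (nat_lit 1) (nat_lit 4) (nat_lit 2) (nat_lit 5) (nat_lit 2) (nat_lit 4) (nat_lit 394) (nat_lit 313) (nat_lit 313)) (XT.nd (nat_lit 78) (nat_lit 0) (nat_lit 0) (XT.lf (nat_lit 0) (nat_lit 527948066470) (nat_lit 76) (nat_lit 178680552475) (nat_lit 76) (nat_lit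 178671486657) (nat_lit 1) (nat_lit 4) (nat_lit 2) (nat_lit 5) (nat_lit 2) (nat_lit 4) (nat_lit 395) (nat_lit 313) (nat_lit 312)) (XT.lf (nat_lit 0) (nat_lit 615503122718) (nat_lit 76) (nat_lit 201011787968) (nat_lit 76) (nat_lit 200994838831) (nat_lit 1) (nat_lit 4) (nat_lit 2) (nat_lit 5) (nat_lit 2) (nat_lit 4) (nat_lit 396) (nat_lit 313) (nat_lit 311)))) (XT.nd (nat_lit 156) (nat_lit 0) (nat_lit 0) (XT.nd (nat_lit 78) (nat_lit 0) (nat_lit 0) (XT.lf (nat_lit 0) (nat_lit 715516064336) (nat_lit 76) (nat_lit 227052926895) (nat_lit 76) (nat_lit 227029122697) (nat_lit 1) (nat_lit 4) (nat_lit 2) (nat_lit 5) (nat_lit 2) (nat_lit 4) (nat_lit 397) (nat_lit 313) (nat_lit 310)) (XT.lf (nat_lit 0) (nat_lit 829943666267) (nat_lit 76) (nat_lit 257313469800) (nat_lit 76) (nat_lit 257283704680) (nat_lit 1) (nat_lit 4) (nat_lit 2) (nat_lit 5) (nat_lit 2) (nat_lit 4) (nat_lit 398) (nat_lit 313) (nat_lit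 309))) (XT.nd (nat_lit 78) (nat_lit 0) (nat_lit 0) (XT.lf (nat_lit 0) (nat_lit 961024729421) (nat_lit 76) (nat_lit 292385470784) (nat_lit 76) (nat_lit 292350522252) (nat_lit 1) (nat_lit 4) (nat_lit 2) (nat_lit 5) (nat_lit 2) (nat_lit 4) (nat_lit 399) (nat_lit 313) (nat_lit 308)) (XT.lf (nat_lit 0) (nat_lit 1111323883292) (nat_lit 76) (nat_lit 332955121169) (nat_lit 76) (nat_lit 332915665324) (nat_lit 1) (nat_lit 4) (nat_lit 2) (nat_lit 5) (nat_lit 2) (nat_lit 4) (nat_lit 400) (nat_lit 313) (nat_lit 307))))) (XT.nd (nat_lit 234) (nat_lit 0) (nat_lit 0) (XT.nd (nat_lit 78) (nat_lit 0) (nat_lit 0) (XT.lf (nat_lit 0) (nat_lit 1283781763500) (nat_lit 76) (nat_lit 379816174986) (nat_lit 76) (nat_lit 379772799737) (nat_lit 1) (nat_lit 4) (nat_lit 2) (nat_lit 5) (nat_lit 2) (nat_lit 4) (nat_lit 401) (nat_lit 313) (nat_lit 306)) (XT.nd (nat_lit 78) (nat_lit 0) (nat_lit 0) (XT.lf (nat_lit 0) (nat_lit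 1481772545963) (nat_lit 76) (nat_lit 433885478938) (nat_lit 76) (nat_lit 433838695513) (nat_lit 1) (nat_lit 4) (nat_lit 2) (nat_lit 5) (nat_lit 2) (nat_lit 4) (nat_lit 402) (nat_lit 313) (nat_lit 305)) (XT.lf (nat_lit 0) (nat_lit 1709169963381) (nat_lit 76) (nat_lit 496220910713) (nat_lit 76) (nat_lit 496171163656) (nat_lit 1) (nat_lit 4) (nat_lit 2) (nat_lit 5) (nat_lit 2) (nat_lit 4) (nat_lit 403) (nat_lit 313) (nat_lit 304)))) (XT.nd (nat_lit 156) (nat_lit 0) (nat_lit 0) (XT.nd (nat_lit 78) (nat_lit 0) (nat_lit 0) (XT.lf (nat_lit 0) (nat_lit 1970423095659) (nat_lit 76) (nat_lit 568042076585) (nat_lit 76) (nat_lit 567989752456) (nat_lit 1) (nat_lit 4) (nat_lit 2) (nat_lit 5) (nat_lit 2) (nat_lit 4) (nat_lit 404) (nat_lit 313) (nat_lit 303)) (XT.lf (nat_lit 0) (nat_lit 2270643417125) (nat_lit 76) (nat_lit 650754173276) (nat_lit 76) (nat_lit 650699608216) (nat_lit 1) (nat_lit 4) (nat_lit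 2) (nat_lit 5) (nat_lit 2) (nat_lit 4) (nat_lit 405) (nat_lit 313) (nat_lit 302))) (XT.nd (nat_lit 78) (nat_lit 0) (nat_lit 0) (XT.lf (nat_lit 0) (nat_lit 2615704803634) (nat_lit 76) (nat_lit 745975480939) (nat_lit 76) (nat_lit 745918967243) (nat_lit 1) (nat_lit 4) (nat_lit 2) (nat_lit 5) (nat_lit 2) (nat_lit 4) (nat_lit 406) (nat_lit 313) (nat_lit 301)) (XT.lf (nat_lit 0) (nat_lit 3012358456225) (nat_lit 76) (nat_lit 855569025160) (nat_lit 76) (nat_lit 855510816998) (nat_lit 1) (nat_lit 4) (nat_lit 2) (nat_lit 5) (nat_lit 2) (nat_lit 4) (nat_lit 407) (nat_lit 313) (nat_lit 300))))))))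
noncomputable def xc10 : XT := (XT.nd (nat_lit 2028) (nat_lit 0) (nat_lit 0) (XT.nd (nat_lit 1014) (nat_lit 0) (nat_lit 0) (XT.nd (nat_lit 468) (nat_lit 0) (nat_lit 0) (XT.nd (nat_lit 234) (nat_lit 0) (nat_lit 0) (XT.nd (nat_lit 78) (nat_lit 0) (nat_lit 0) (XT.lf (nat_lit 0) (nat_lit 3468364989842) (nat_lit 76) (nat_lit 981679027455) (nat_lit 76) (nat_lit 981619345844) (nat_lit 1) (nat_lit 4) (nat_lit 2) (nat_lit 5) (nat_lit 2) (nat_lit 4) (nat_lit 408) (nat_lit 313) (nat_lit 299)) (XT.nd (nat_lit 78) (nat_lit 0) (nat_lit 0) (XT.lf (nat_lit 0) (nat_lit 3992646271446) (nat_lit 76) (nat_lit 1126772857435) (nat_lit 76) (nat_lit 1126711894564) (nat_lit 1) (nat_lit 4) (nat_lit 2) (nat_lit 5) (nat_lit 2) (nat_lit 4) (nat_lit 409) (nat_lit 313) (nat_lit 298)) (XT.lf (nat_lit 0) (nat_lit 4595459978285) (nat_lit 76) (nat_lit 1293689307425) (nat_lit 76) (nat_lit 1293627230415) (nat_lit 1) (nat_lit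 4) (nat_lit 2) (nat_lit 5) (nat_lit 2) (nat_lit 4) (nat_lit 410) (nat_lit 313) (nat_lit 297)))) (XT.nd (nat_lit 78) (nat_lit 0) (nat_lit 0) (XT.lf (nat_lit 0) (nat_lit 5288600291582) (nat_lit 76) (nat_lit 1485694134056) (nat_lit 76) (nat_lit 1485631088229) (nat_lit 1) (nat_lit 4) (nat_lit 2) (nat_lit 5) (nat_lit 2) (nat_lit 4) (nat_lit 411) (nat_lit 313) (nat_lit 296)) (XT.nd (nat_lit 78) (nat_lit 0) (nat_lit 0) (XT.lf (nat_lit 0) (nat_lit 6085628652247) (nat_lit 76) (nat_lit 1706543953500) (nat_lit 76) (nat_lit 1706480065225) (nat_lit 1) (nat_lit 4) (nat_lit 2) (nat_lit 5) (nat_lit 2) (nat_lit 4) (nat_lit 412) (nat_lit 313) (nat_lit 295)) (XT.lf (nat_lit 0) (nat_lit 7002139093425) (nat_lit 76) (nat_lit 1960559740487) (nat_lit 76) (nat_lit 1960495119647) (nat_lit 1) (nat_lit 4) (nat_lit 2) (nat_lit 5) (nat_lit 2) (nat_lit 4) (nat_lit 413) (nat_lit 313) (nat_lit 294))))) (XT.nd (nat_lit 234)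 (nat_lit 0) (nat_lit 0) (XT.nd (nat_lit 78) (nat_lit 0) (nat_lit 0) (XT.lf (nat_lit 0) (nat_lit 8056063341138) (nat_lit 76) (nat_lit 2252711369108) (nat_lit 76) (nat_lit 2252646111256) (nat_lit 1) (nat_lit 4) (nat_lit 2) (nat_lit 5) (nat_lit 2) (nat_lit 4) (nat_lit 414) (nat_lit 313) (nat_lit 293)) (XT.nd (nat_lit 78) (nat_lit 0) (nat_lit 0) (XT.lf (nat_lit 0) (nat_lit 9268021652407) (nat_lit 76) (nat_lit 2588714849490) (nat_lit 76) (nat_lit 2588649037714) (nat_lit 1) (nat_lit 4) (nat_lit 2) (nat_lit 5) (nat_lit 2) (nat_lit 4) (nat_lit 415) (nat_lit 313) (nat_lit 292)) (XT.lf (nat_lit 0) (nat_lit 10661726255061) (nat_lit 76) (nat_lit 2975144162771) (nat_lit 76) (nat_lit 2975077869321) (nat_lit 1) (nat_lit 4) (nat_lit 2) (nat_lit 5) (nat_lit 2) (nat_lit 4) (nat_lit 416) (nat_lit 313) (nat_lit 291)))) (XT.nd (nat_lit 156) (nat_lit 0) (nat_lit 0) (XT.nd (nat_lit 78) (nat_lit 0) (nat_lit 0)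 (XT.lf (nat_lit 0) (nat_lit 12264445282631) (nat_lit 76) (nat_lit 3419559882470) (nat_lit 76) (nat_lit 3419493170175) (nat_lit 1) (nat_lit 4) (nat_lit 2) (nat_lit 5) (nat_lit 2) (nat_lit 4) (nat_lit 417) (nat_lit 313) (nat_lit 290)) (XT.lf (nat_lit 0) (nat_lit 14107536281307) (nat_lit 76) (nat_lit 3930657098757) (nat_lit 76) (nat_lit 3930590022247) (nat_lit 1) (nat_lit 4) (nat_lit 2) (nat_lit 5) (nat_lit 2) (nat_lit 4) (nat_lit 418) (nat_lit 313) (nat_lit 289))) (XT.nd (nat_lit 78) (nat_lit 0) (nat_lit 0) (XT.lf (nat_lit 0) (nat_lit 16227059727151) (nat_lit 76) (nat_lit 4518435539776) (nat_lit 76) (nat_lit 4518368146558) (nat_lit 1) (nat_lit 4) (nat_lit 2) (nat_lit 5) (nat_lit 2) (nat_lit 4) (nat_lit 419) (nat_lit 313) (nat_lit 288)) (XT.lf (nat_lit 0) (nat_lit 18664484557147) (nat_lit 76) (nat_lit 5194395218502) (nat_lit 76) (nat_lit 5194327549886) (nat_lit 1) (nat_lit 4) (nat_lit 2) (nat_lit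 5) (nat_lit 2) (nat_lit 4) (nat_lit 420) (nat_lit 313) (nat_lit 287)))))) (XT.nd (nat_lit 468) (nat_lit 0) (nat_lit 0) (XT.nd (nat_lit 234) (nat_lit 0) (nat_lit 0) (XT.nd (nat_lit 78) (nat_lit 0) (nat_lit 0) (XT.lf (nat_lit 0) (nat_lit 21467499517969) (nat_lit 76) (nat_lit 5971761432999) (nat_lit 76) (nat_lit 5971693524907) (nat_lit 1) (nat_lit 4) (nat_lit 2) (nat_lit 5) (nat_lit 2) (nat_lit 4) (nat_lit 421) (nat_lit 313) (nat_lit 286)) (XT.nd (nat_lit 78) (nat_lit 0) (nat_lit 0) (XT.lf (nat_lit 0) (nat_lit 24690946206676) (nat_lit 76) (nat_lit 6865743522246) (nat_lit 76) (nat_lit 6865675405913) (nat_lit 1) (nat_lit 4) (nat_lit 2) (nat_lit 5) (nat_lit 2) (nat_lit 4) (nat_lit 422) (nat_lit 313) (nat_lit 285)) (XT.lf (nat_lit 0) (nat_lit 28397892058482) (nat_lit 76) (nat_lit 7893832440163) (nat_lit 76) (nat_lit 7893764142751) (nat_lit 1) (nat_lit 4) (nat_lit 2) (nat_lit 5) (nat_lit 2) (nat_lit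 4) (nat_lit 423) (nat_lit 313) (nat_lit 284)))) (XT.nd (nat_lit 78) (nat_lit 0) (nat_lit 0) (XT.lf (nat_lit 0) (nat_lit 32660864274836) (nat_lit 76) (nat_lit 9076142969925) (nat_lit 76) (nat_lit 9076074515054) (nat_lit 1) (nat_lit 4) (nat_lit 2) (nat_lit 5) (nat_lit 2) (nat_lit 4) (nat_lit 424) (nat_lit 313) (nat_lit 283)) (XT.nd (nat_lit 78) (nat_lit 0) (nat_lit 0) (XT.lf (nat_lit 0) (nat_lit 37563268833883) (nat_lit 76) (nat_lit 10435807274073) (nat_lit 76) (nat_lit 10435738682280) (nat_lit 1) (nat_lit 4) (nat_lit 2) (nat_lit 5) (nat_lit 2) (nat_lit 4) (nat_lit 425) (nat_lit 313) (nat_lit 282)) (XT.lf (nat_lit 0) (nat_lit 43201022346561) (nat_lit 76) (nat_lit 11999427480296) (nat_lit 76) (nat_lit 11999358769440) (nat_lit 1) (nat_lit 4) (nat_lit 2) (nat_lit 5) (nat_lit 2) (nat_lit 4) (nat_lit 426) (nat_lit 313) (nat_lit 281))))) (XT.nd (nat_lit 234) (nat_lit 0) (nat_lit 0) (XT.nd (nat_lit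 78) (nat_lit 0) (nat_lit 0) (XT.lf (nat_lit 0) (nat_lit 49684428685945) (nat_lit 76) (nat_lit 13797596157846) (nat_lit 76) (nat_lit 13797527343458) (nat_lit 1) (nat_lit 4) (nat_lit 2) (nat_lit 5) (nat_lit 2) (nat_lit 4) (nat_lit 427) (nat_lit 313) (nat_lit 280)) (XT.nd (nat_lit 78) (nat_lit 0) (nat_lit 0) (XT.lf (nat_lit 0) (nat_lit 57140337106501) (nat_lit 76) (nat_lit 15865494867805) (nat_lit 76) (nat_lit 15865425963389) (nat_lit 1) (nat_lit 4) (nat_lit 2) (nat_lit 5) (nat_lit 2) (nat_lit 4) (nat_lit 428) (nat_lit 313) (nat_lit 279)) (XT.lf (nat_lit 0) (nat_lit 65714624077326) (nat_lit 76) (nat_lit 18243582497978) (nat_lit 76) (nat_lit 18243513515277) (nat_lit 1) (nat_lit 4) (nat_lit 2) (nat_lit 5) (nat_lit 2) (nat_lit 4) (nat_lit 429) (nat_lit 313) (nat_lit 278)))) (XT.nd (nat_lit 156) (nat_lit 0) (nat_lit 0) (XT.nd (nat_lit 78) (nat_lit 0) (nat_lit 0) (XT.lf (nat_lit 0) (nat_lit 75575047386980)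 (nat_lit 76) (nat_lit 20978386849824) (nat_lit 76) (nat_lit 20978317799049) (nat_lit 1) (nat_lit 4) (nat_lit 2) (nat_lit 5) (nat_lit 2) (nat_lit 4) (nat_lit 430) (nat_lit 313) (nat_lit 277)) (XT.lf (nat_lit 0) (nat_lit 86914528361087) (nat_lit 76) (nat_lit 24123414965009) (nat_lit 76) (nat_lit 24123345855039) (nat_lit 1) (nat_lit 4) (nat_lit 2) (nat_lit 5) (nat_lit 2) (nat_lit 4) (nat_lit 431) (nat_lit 313) (nat_lit 276))) (XT.nd (nat_lit 78) (nat_lit 0) (nat_lit 0) (XT.lf (nat_lit 0) (nat_lit 99954926410010) (nat_lit 76) (nat_lit 27740200002310) (nat_lit 76) (nat_lit 27740130840866) (nat_lit 1) (nat_lit 4) (nat_lit 2) (nat_lit 5) (nat_lit 2) (nat_lit 4) (nat_lit 432) (nat_lit 313) (nat_lit 275)) (XT.lf (nat_lit 0) (nat_lit 114951379756445) (nat_lit 76) (nat_lit 31899505147238) (nat_lit 76) (nat_lit 31899435941034) (nat_lit 1) (nat_lit 4) (nat_lit 2) (nat_lit 5) (nat_lit 2) (nat_lit 4) (nat_lit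 433) (nat_lit 313) (nat_lit 274))))))) (XT.nd (nat_lit 49920) (nat_lit 0) (nat_lit 0) (XT.nd (nat_lit 468) (nat_lit 0) (nat_lit 0) (XT.nd (nat_lit 234) (nat_lit 0) (nat_lit 0) (XT.nd (nat_lit 78) (nat_lit 0) (nat_lit 0) (XT.lf (nat_lit 0) (nat_lit 132197297270214) (nat_lit 76) (nat_lit 36682708109151) (nat_lit 76) (nat_lit 36682638864025) (nat_lit 1) (nat_lit 4) (nat_lit 2) (nat_lit 5) (nat_lit 2) (nat_lit 4) (nat_lit 434) (nat_lit 313) (nat_lit 273)) (XT.nd (nat_lit 78) (nat_lit 0) (nat_lit 0) (XT.lf (nat_lit 0) (nat_lit 152030099076586) (nat_lit 76) (nat_lit 42183393293825) (nat_lit 76) (nat_lit 42183324014854) (nat_lit 1) (nat_lit 4) (nat_lit 2) (nat_lit 5) (nat_lit 2) (nat_lit 4) (nat_lit 435) (nat_lit 313) (nat_lit 272)) (XT.lf (nat_lit 0) (nat_lit 174837818254381) (nat_lit 76) (nat_lit 48509182802699) (nat_lit 76) (nat_lit 48509113494298) (nat_lit 1) (nat_lit 4) (nat_lit 2) (nat_lit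 5) (nat_lit 2) (nat_lit 4) (nat_lit 436) (nat_lit 313) (nat_lit 271)))) (XT.nd (nat_lit 78) (nat_lit 0) (nat_lit 0) (XT.lf (nat_lit 0) (nat_lit 201066692787513) (nat_lit 76) (nat_lit 55783842082687) (nat_lit 76) (nat_lit 55783772748694) (nat_lit 1) (nat_lit 4) (nat_lit 2) (nat_lit 5) (nat_lit 2) (nat_lit 4) (nat_lit 437) (nat_lit 313) (nat_lit 270)) (XT.nd (nat_lit 78) (nat_lit 0) (nat_lit 0) (XT.lf (nat_lit 0) (nat_lit 231229896308152) (nat_lit 76) (nat_lit 64149701424049) (nat_lit 76) (nat_lit 64149632067803) (nat_lit 1) (nat_lit 4) (nat_lit 2) (nat_lit 5) (nat_lit 2) (nat_lit 4) (nat_lit 438) (nat_lit 313) (nat_lit 269)) (XT.lf (nat_lit 0) (nat_lit 265917578450397) (nat_lit 76) (nat_lit 73770440683463) (nat_lit 76) (nat_lit 73770371307866) (nat_lit 1) (nat_lit 4) (nat_lit 2) (nat_lit 5) (nat_lit 2) (nat_lit 4) (nat_lit 439) (nat_lit 313) (nat_lit 268))))) (XT.nd (nat_lit 234) (nat_lit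 0) (nat_lit 0) (XT.nd (nat_lit 78) (nat_lit 0) (nat_lit 0) (XT.lf (nat_lit 0) (nat_lit 305808411256161) (nat_lit 76) (nat_lit 84834291716006) (nat_lit 76) (nat_lit 84834222323582) (nat_lit 1) (nat_lit 4) (nat_lit 2) (nat_lit 5) (nat_lit 2) (nat_lit 4) (nat_lit 440) (nat_lit 313) (nat_lit 267)) (XT.nd (nat_lit 78) (nat_lit 0) (nat_lit 0) (XT.lf (nat_lit 0) (nat_lit 351682867541211) (nat_lit 76) (nat_lit 97557721172314) (nat_lit 76) (nat_lit 97557651765258) (nat_lit 1) (nat_lit 4) (nat_lit 2) (nat_lit 5) (nat_lit 2) (nat_lit 4) (nat_lit 441) (nat_lit 313) (nat_lit 266)) (XT.lf (nat_lit 0) (nat_lit 404438491015469) (nat_lit 76) (nat_lit 112189665715662) (nat_lit 76) (nat_lit 112189596295883) (nat_lit 1) (nat_lit 4) (nat_lit 2) (nat_lit 5) (nat_lit 2) (nat_lit 4) (nat_lit 442) (nat_lit 313) (nat_lit 265)))) (XT.nd (nat_lit 156) (nat_lit 0) (nat_lit 0) (XT.nd (nat_lit 78) (nat_lit 0) (nat_lit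 0) (XT.lf (nat_lit 0) (nat_lit 465107456920825) (nat_lit 76) (nat_lit 129016402521899) (nat_lit 76) (nat_lit 129016333091057) (nat_lit 1) (nat_lit 4) (nat_lit 2) (nat_lit 5) (nat_lit 2) (nat_lit 4) (nat_lit 443) (nat_lit 313) (nat_lit 264)) (XT.lf (nat_lit 0) (nat_lit 534876766764123) (nat_lit 76) (nat_lit 148367150354625) (nat_lit 76) (nat_lit 148367080914161) (nat_lit 1) (nat_lit 4) (nat_lit 2) (nat_lit 5) (nat_lit 2) (nat_lit 4) (nat_lit 444) (nat_lit 313) (nat_lit 263))) (XT.nd (nat_lit 48984) (nat_lit 0) (nat_lit 0) (XT.lf (nat_lit 0) (nat_lit 615111472259686) (nat_lit 76) (nat_lit 170620510801871) (nat_lit 76) (nat_lit 170620441353042) (nat_lit 1) (nat_lit 4) (nat_lit 2) (nat_lit 5) (nat_lit 2) (nat_lit 4) (nat_lit 445) (nat_lit 313) (nat_lit 262)) (XT.lf (nat_lit 0) (nat_lit 162199672392) (nat_lit 76) (nat_lit 64822806621) (nat_lit 76) (nat_lit 64822806621) (nat_lit 1) (nat_lit 4)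 (nat_lit 2) (nat_lit 5) (nat_lit 2) (nat_lit 4) (nat_lit 392) (nat_lit 314) (nat_lit 314)))))) (XT.nd (nat_lit 546) (nat_lit 0) (nat_lit 0) (XT.nd (nat_lit 234) (nat_lit 0) (nat_lit 0) (XT.nd (nat_lit 78) (nat_lit 0) (nat_lit 0) (XT.lf (nat_lit 0) (nat_lit 383569700603) (nat_lit 76) (nat_lit 143474592293) (nat_lit 76) (nat_lit 143464166603) (nat_lit 1) (nat_lit 4) (nat_lit 2) (nat_lit 5) (nat_lit 2) (nat_lit 4) (nat_lit 393) (nat_lit 314) (nat_lit 313)) (XT.nd (nat_lit 78) (nat_lit 0) (nat_lit 0) (XT.lf (nat_lit 0) (nat_lit 450722428913) (nat_lit 76) (nat_lit 159854306652) (nat_lit 76) (nat_lit 159834815144) (nat_lit 1) (nat_lit 4) (nat_lit 2) (nat_lit 5) (nat_lit 2) (nat_lit 4) (nat_lit 394) (nat_lit 314) (nat_lit 312)) (XT.lf (nat_lit 0) (nat_lit 527171387442) (nat_lit 76) (nat_lit 179105228992) (nat_lit 76) (nat_lit 179077854164) (nat_lit 1) (nat_lit 4) (nat_lit 2) (nat_lit 5) (nat_lit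 2) (nat_lit 4) (nat_lit 395) (nat_lit 314) (nat_lit 311)))) (XT.nd (nat_lit 156) (nat_lit 0) (nat_lit 0) (XT.nd (nat_lit 78) (nat_lit 0) (nat_lit 0) (XT.lf (nat_lit 0) (nat_lit 614412316682) (nat_lit 76) (nat_lit 201604007792) (nat_lit 76) (nat_lit 201569777903) (nat_lit 1) (nat_lit 4) (nat_lit 2) (nat_lit 5) (nat_lit 2) (nat_lit 4) (nat_lit 396) (nat_lit 314) (nat_lit 310)) (XT.lf (nat_lit 0) (nat_lit 714152104379) (nat_lit 76) (nat_lit 227790836551) (nat_lit 76) (nat_lit 227750645740) (nat_lit 1) (nat_lit 4) (nat_lit 2) (nat_lit 5) (nat_lit 2) (nat_lit 4) (nat_lit 397) (nat_lit 314) (nat_lit 309))) (XT.nd (nat_lit 78) (nat_lit 0) (nat_lit 0) (XT.lf (nat_lit 0) (nat_lit 828342181163) (nat_lit 76) (nat_lit 258178066267) (nat_lit 76) (nat_lit 258132692044) (nat_lit 1) (nat_lit 4) (nat_lit 2) (nat_lit 5) (nat_lit 2) (nat_lit 4) (nat_lit 398) (nat_lit 314) (nat_lit 308)) (XT.lf (nat_lit 0)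 (nat_lit 959216700709) (nat_lit 76) (nat_lit 293360229694) (nat_lit 76) (nat_lit 293310348158) (nat_lit 1) (nat_lit 4) (nat_lit 2) (nat_lit 5) (nat_lit 2) (nat_lit 4) (nat_lit 399) (nat_lit 314) (nat_lit 307))))) (XT.nd (nat_lit 234) (nat_lit 0) (nat_lit 0) (XT.nd (nat_lit 78) (nat_lit 0) (nat_lit 0) (XT.lf (nat_lit 0) (nat_lit 1109336251444) (nat_lit 76) (nat_lit 334025673509) (nat_lit 76) (nat_lit 333971872570) (nat_lit 1) (nat_lit 4) (nat_lit 2) (nat_lit 5) (nat_lit 2) (nat_lit 4) (nat_lit 400) (nat_lit 314) (nat_lit 306)) (XT.nd (nat_lit 78) (nat_lit 0) (nat_lit 0) (XT.lf (nat_lit 0) (nat_lit 1281637955012) (nat_lit 76) (nat_lit 380970025959) (nat_lit 76) (nat_lit 380912816844) (nat_lit 1) (nat_lit 4) (nat_lit 2) (nat_lit 5) (nat_lit 2) (nat_lit 4) (nat_lit 401) (nat_lit 314) (nat_lit 305)) (XT.lf (nat_lit 0) (nat_lit 1479492931701) (nat_lit 76) (nat_lit 435111763507) (nat_lit 76) (nat_lit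 435051590760) (nat_lit 1) (nat_lit 4) (nat_lit 2) (nat_lit 5) (nat_lit 2) (nat_lit 4) (nat_lit 402) (nat_lit 314) (nat_lit 304)))) (XT.nd (nat_lit 156) (nat_lit 0) (nat_lit 0) (XT.nd (nat_lit 78) (nat_lit 0) (nat_lit 0) (XT.lf (nat_lit 0) (nat_lit 1706772257140) (nat_lit 76) (nat_lit 497510181017) (nat_lit 76) (nat_lit 497447431198) (nat_lit 1) (nat_lit 4) (nat_lit 2) (nat_lit 5) (nat_lit 2) (nat_lit 4) (nat_lit 403) (nat_lit 314) (nat_lit 303)) (XT.lf (nat_lit 0) (nat_lit 1967922700742) (nat_lit 76) (nat_lit 569386117093) (nat_lit 76) (nat_lit 569321126342) (nat_lit 1) (nat_lit 4) (nat_lit 2) (nat_lit 5) (nat_lit 2) (nat_lit 4) (nat_lit 404) (nat_lit 314) (nat_lit 302))) (XT.nd (nat_lit 78) (nat_lit 0) (nat_lit 0) (XT.lf (nat_lit 0) (nat_lit 2268053727707) (nat_lit 76) (nat_lit 652145840049) (nat_lit 76) (nat_lit 652078900662) (nat_lit 1) (nat_lit 4) (nat_lit 2) (nat_lit 5) (nat_lit 2)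 (nat_lit 4) (nat_lit 405) (nat_lit 314) (nat_lit 301)) (XT.lf (nat_lit 0) (nat_lit 2613037466824) (nat_lit 76) (nat_lit 747408561855) (nat_lit 76) (nat_lit 747339928002) (nat_lit 1) (nat_lit 4) (nat_lit 2) (nat_lit 5) (nat_lit 2) (nat_lit 4) (nat_lit 406) (nat_lit 314) (nat_lit 300))))))))
noncomputable def xc11 : XT := (XT.nd (nat_lit 2106) (nat_lit 0) (nat_lit 0) (XT.nd (nat_lit 1014) (nat_lit 0) (nat_lit 0) (XT.nd (nat_lit 468) (nat_lit 0) (nat_lit 0) (XT.nd (nat_lit 234) (nat_lit 0) (nat_lit 0) (XT.nd (nat_lit 78) (nat_lit 0) (nat_lit 0) (XT.lf (nat_lit 0) (nat_lit 3009623599944) (nat_lit 76) (nat_lit 857038118374) (nat_lit 76) (nat_lit 856968011073) (nat_lit 1) (nat_lit 4) (nat_lit 2) (nat_lit 5) (nat_lit 2) (nat_lit 4) (nat_lit 407) (nat_lit 314) (nat_lit 299)) (XT.nd (nat_lit 78) (nat_lit 0) (nat_lit 0) (XT.lf (nat_lit 0) (nat_lit 3465571420977) (nat_lit 76) (nat_lit 983179435711)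 (nat_lit 76) (nat_lit 983108047150) (nat_lit 1) (nat_lit 4) (nat_lit 2) (nat_lit 5) (nat_lit 2) (nat_lit 4) (nat_lit 408) (nat_lit 314) (nat_lit 298)) (XT.lf (nat_lit 0) (nat_lit 3989801648160) (nat_lit 76) (nat_lit 1128300496162) (nat_lit 76) (nat_lit 1128227993462) (nat_lit 1) (nat_lit 4) (nat_lit 2) (nat_lit 5) (nat_lit 2) (nat_lit 4) (nat_lit 409) (nat_lit 314) (nat_lit 297)))) (XT.nd (nat_lit 78) (nat_lit 0) (nat_lit 0) (XT.lf (nat_lit 0) (nat_lit 4592570959851) (nat_lit 76) (nat_lit 1295240624823) (nat_lit 76) (nat_lit 1295167153306) (nat_lit 1) (nat_lit 4) (nat_lit 2) (nat_lit 5) (nat_lit 2) (nat_lit 4) (nat_lit 410) (nat_lit 314) (nat_lit 296)) (XT.nd (nat_lit 78) (nat_lit 0) (nat_lit 0) (XT.lf (nat_lit 0) (nat_lit 5285672668670) (nat_lit 76) (nat_lit 1487266041602) (nat_lit 76) (nat_lit 1487191727636) (nat_lit 1) (nat_lit 4) (nat_lit 2) (nat_lit 5) (nat_lit 2) (nat_lit 4) (nat_lit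 411) (nat_lit 314) (nat_lit 295)) (XT.lf (nat_lit 0) (nat_lit 6082667460225) (nat_lit 76) (nat_lit 1708133765524) (nat_lit 76) (nat_lit 1708058718993) (nat_lit 1) (nat_lit 4) (nat_lit 2) (nat_lit 5) (nat_lit 2) (nat_lit 4) (nat_lit 412) (nat_lit 314) (nat_lit 294))))) (XT.nd (nat_lit 234) (nat_lit 0) (nat_lit 0) (XT.nd (nat_lit 78) (nat_lit 0) (nat_lit 0) (XT.lf (nat_lit 0) (nat_lit 6999148710872) (nat_lit 76) (nat_lit 1962165121620) (nat_lit 76) (nat_lit 1962089438077) (nat_lit 1) (nat_lit 4) (nat_lit 2) (nat_lit 5) (nat_lit 2) (nat_lit 4) (nat_lit 413) (nat_lit 314) (nat_lit 293)) (XT.nd (nat_lit 78) (nat_lit 0) (nat_lit 0) (XT.lf (nat_lit 0) (nat_lit 8053047575515) (nat_lit 76) (nat_lit 2254330288599) (nat_lit 76) (nat_lit 2254254051132) (nat_lit 1) (nat_lit 4) (nat_lit 2) (nat_lit 5) (nat_lit 2) (nat_lit 4) (nat_lit 414) (nat_lit 314) (nat_lit 292)) (XT.lf (nat_lit 0) (nat_lit 9264983814549)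 (nat_lit 76) (nat_lit 2590345541465) (nat_lit 76) (nat_lit 2590268822325) (nat_lit 1) (nat_lit 4) (nat_lit 2) (nat_lit 5) (nat_lit 2) (nat_lit 4) (nat_lit 415) (nat_lit 314) (nat_lit 291)))) (XT.nd (nat_lit 156) (nat_lit 0) (nat_lit 0) (XT.nd (nat_lit 78) (nat_lit 0) (nat_lit 0) (XT.lf (nat_lit 0) (nat_lit 10658669223955) (nat_lit 76) (nat_lit 2976785091689) (nat_lit 76) (nat_lit 2976707953702) (nat_lit 1) (nat_lit 4) (nat_lit 2) (nat_lit 5) (nat_lit 2) (nat_lit 4) (nat_lit 416) (nat_lit 314) (nat_lit 290)) (XT.lf (nat_lit 0) (nat_lit 12261371561744) (nat_lit 76) (nat_lit 3421209713078) (nat_lit 76) (nat_lit 3421132210877) (nat_lit 1) (nat_lit 4) (nat_lit 2) (nat_lit 5) (nat_lit 2) (nat_lit 4) (nat_lit 417) (nat_lit 314) (nat_lit 289))) (XT.nd (nat_lit 78) (nat_lit 0) (nat_lit 0) (XT.lf (nat_lit 0) (nat_lit 14104448047568) (nat_lit 76) (nat_lit 3932314669964) (nat_lit 76) (nat_lit 3932236851055)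 (nat_lit 1) (nat_lit 4) (nat_lit 2) (nat_lit 5) (nat_lit 2) (nat_lit 4) (nat_lit 418) (nat_lit 314) (nat_lit 288)) (XT.lf (nat_lit 0) (nat_lit 16223958873540) (nat_lit 76) (nat_lit 4520099841938) (nat_lit 76) (nat_lit 4520021747632) (nat_lit 1) (nat_lit 4) (nat_lit 2) (nat_lit 5) (nat_lit 2) (nat_lit 4) (nat_lit 419) (nat_lit 314) (nat_lit 287)))))) (XT.nd (nat_lit 546) (nat_lit 0) (nat_lit 0) (XT.nd (nat_lit 234) (nat_lit 0) (nat_lit 0) (XT.nd (nat_lit 78) (nat_lit 0) (nat_lit 0) (XT.lf (nat_lit 0) (nat_lit 18661372729734) (nat_lit 76) (nat_lit 5196065373670) (nat_lit 76) (nat_lit 5195987039887) (nat_lit 1) (nat_lit 4) (nat_lit 2) (nat_lit 5) (nat_lit 2) (nat_lit 4) (nat_lit 420) (nat_lit 314) (nat_lit 286)) (XT.nd (nat_lit 78) (nat_lit 0) (nat_lit 0) (XT.lf (nat_lit 0) (nat_lit 21464378148120) (nat_lit 76) (nat_lit 5973436677737) (nat_lit 76) (nat_lit 5973358135714) (nat_lit 1) (nat_lit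 4) (nat_lit 2) (nat_lit 5) (nat_lit 2) (nat_lit 4) (nat_lit 421) (nat_lit 314) (nat_lit 285)) (XT.lf (nat_lit 0) (nat_lit 24687816539056) (nat_lit 76) (nat_lit 6867423192697) (nat_lit 76) (nat_lit 6867344469594) (nat_lit 1) (nat_lit 4) (nat_lit 2) (nat_lit 5) (nat_lit 2) (nat_lit 4) (nat_lit 422) (nat_lit 314) (nat_lit 284)))) (XT.nd (nat_lit 156) (nat_lit 0) (nat_lit 0) (XT.nd (nat_lit 78) (nat_lit 0) (nat_lit 0) (XT.lf (nat_lit 0) (nat_lit 28394755175409) (nat_lit 76) (nat_lit 7895515959059) (nat_lit 76) (nat_lit 7895437078497) (nat_lit 1) (nat_lit 4) (nat_lit 2) (nat_lit 5) (nat_lit 2) (nat_lit 4) (nat_lit 423) (nat_lit 314) (nat_lit 283)) (XT.lf (nat_lit 0) (nat_lit 32657721117456) (nat_lit 76) (nat_lit 9077829835296) (nat_lit 76) (nat_lit 9077750817813) (nat_lit 1) (nat_lit 4) (nat_lit 2) (nat_lit 5) (nat_lit 2) (nat_lit 4) (nat_lit 424) (nat_lit 314) (nat_lit 282))) (XT.nd (nat_lit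 78) (nat_lit 0) (nat_lit 0) (XT.lf (nat_lit 0) (nat_lit 37560120220584) (nat_lit 76) (nat_lit 10437497049422) (nat_lit 76) (nat_lit 10437417912876) (nat_lit 1) (nat_lit 4) (nat_lit 2) (nat_lit 5) (nat_lit 2) (nat_lit 4) (nat_lit 425) (nat_lit 314) (nat_lit 281)) (XT.lf (nat_lit 0) (nat_lit 43197868988985) (nat_lit 76) (nat_lit 12001119786061) (nat_lit 76) (nat_lit 12001040545983) (nat_lit 1) (nat_lit 4) (nat_lit 2) (nat_lit 5) (nat_lit 2) (nat_lit 4) (nat_lit 426) (nat_lit 314) (nat_lit 280))))) (XT.nd (nat_lit 234) (nat_lit 0) (nat_lit 0) (XT.nd (nat_lit 78) (nat_lit 0) (nat_lit 0) (XT.lf (nat_lit 0) (nat_lit 49681271202911) (nat_lit 76) (nat_lit 13799290663972) (nat_lit 76) (nat_lit 13799211333866) (nat_lit 1) (nat_lit 4) (nat_lit 2) (nat_lit 5) (nat_lit 2) (nat_lit 4) (nat_lit 427) (nat_lit 314) (nat_lit 279)) (XT.nd (nat_lit 78) (nat_lit 0) (nat_lit 0) (XT.lf (nat_lit 0) (nat_lit 57137176036111)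 (nat_lit 76) (nat_lit 15867191287289) (nat_lit 76) (nat_lit 15867111878898) (nat_lit 1) (nat_lit 4) (nat_lit 2) (nat_lit 5) (nat_lit 2) (nat_lit 4) (nat_lit 428) (nat_lit 314) (nat_lit 278)) (XT.lf (nat_lit 0) (nat_lit 65711459887497) (nat_lit 76) (nat_lit 18245280581252) (nat_lit 76) (nat_lit 18245201104786) (nat_lit 1) (nat_lit 4) (nat_lit 2) (nat_lit 5) (nat_lit 2) (nat_lit 4) (nat_lit 429) (nat_lit 314) (nat_lit 277)))) (XT.nd (nat_lit 156) (nat_lit 0) (nat_lit 0) (XT.nd (nat_lit 78) (nat_lit 0) (nat_lit 0) (XT.lf (nat_lit 0) (nat_lit 75571880484595) (nat_lit 76) (nat_lit 20980086379871) (nat_lit 76) (nat_lit 20980006844210) (nat_lit 1) (nat_lit 4) (nat_lit 2) (nat_lit 5) (nat_lit 2) (nat_lit 4) (nat_lit 430) (nat_lit 314) (nat_lit 276)) (XT.lf (nat_lit 0) (nat_lit 86911359099958) (nat_lit 76) (nat_lit 24125115753120) (nat_lit 76) (nat_lit 24125036165985) (nat_lit 1) (nat_lit 4) (nat_lit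 2) (nat_lit 5) (nat_lit 2) (nat_lit 4) (nat_lit 431) (nat_lit 314) (nat_lit 275))) (XT.nd (nat_lit 78) (nat_lit 0) (nat_lit 0) (XT.lf (nat_lit 0) (nat_lit 99951755097799) (nat_lit 76) (nat_lit 27741901884389) (nat_lit 76) (nat_lit 27741822252495) (nat_lit 1) (nat_lit 4) (nat_lit 2) (nat_lit 5) (nat_lit 2) (nat_lit 4) (nat_lit 432) (nat_lit 314) (nat_lit 274)) (XT.lf (nat_lit 0) (nat_lit 114948206660685) (nat_lit 76) (nat_lit 31901207980594) (nat_lit 76) (nat_lit 31901128309778) (nat_lit 1) (nat_lit 4) (nat_lit 2) (nat_lit 5) (nat_lit 2) (nat_lit 4) (nat_lit 433) (nat_lit 314) (nat_lit 273))))))) (XT.nd (nat_lit 49920) (nat_lit 0) (nat_lit 0) (XT.nd (nat_lit 468) (nat_lit 0) (nat_lit 0) (XT.nd (nat_lit 234) (nat_lit 0) (nat_lit 0) (XT.nd (nat_lit 78) (nat_lit 0) (nat_lit 0) (XT.lf (nat_lit 0) (nat_lit 132194122623540) (nat_lit 76) (nat_lit 36684411769704) (nat_lit 76) (nat_lit 36684332065043)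 (nat_lit 1) (nat_lit 4) (nat_lit 2) (nat_lit 5) (nat_lit 2) (nat_lit 4) (nat_lit 434) (nat_lit 314) (nat_lit 272)) (XT.nd (nat_lit 78) (nat_lit 0) (nat_lit 0) (XT.lf (nat_lit 0) (nat_lit 152026923081293) (nat_lit 76) (nat_lit 42185097673681) (nat_lit 76) (nat_lit 42185017939589) (nat_lit 1) (nat_lit 4) (nat_lit 2) (nat_lit 5) (nat_lit 2) (nat_lit 4) (nat_lit 435) (nat_lit 314) (nat_lit 271)) (XT.lf (nat_lit 0) (nat_lit 174834641086375) (nat_lit 76) (nat_lit 48510887808035) (nat_lit 76) (nat_lit 48510808048352) (nat_lit 1) (nat_lit 4) (nat_lit 2) (nat_lit 5) (nat_lit 2) (nat_lit 4) (nat_lit 436) (nat_lit 314) (nat_lit 270)))) (XT.nd (nat_lit 78) (nat_lit 0) (nat_lit 0) (XT.lf (nat_lit 0) (nat_lit 201063514599757) (nat_lit 76) (nat_lit 55785547631919) (nat_lit 76) (nat_lit 55785467849982) (nat_lit 1) (nat_lit 4) (nat_lit 2) (nat_lit 5) (nat_lit 2) (nat_lit 4) (nat_lit 437) (nat_lit 314) (nat_lit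 269)) (XT.nd (nat_lit 78) (nat_lit 0) (nat_lit 0) (XT.lf (nat_lit 0) (nat_lit 231226717233656) (nat_lit 76) (nat_lit 64151407446233) (nat_lit 76) (nat_lit 64151327644946) (nat_lit 1) (nat_lit 4) (nat_lit 2) (nat_lit 5) (nat_lit 2) (nat_lit 4) (nat_lit 438) (nat_lit 314) (nat_lit 268)) (XT.lf (nat_lit 0) (nat_lit 265914398604823) (nat_lit 76) (nat_lit 73772147116911) (nat_lit 76) (nat_lit 73772067298796) (nat_lit 1) (nat_lit 4) (nat_lit 2) (nat_lit 5) (nat_lit 2) (nat_lit 4) (nat_lit 439) (nat_lit 314) (nat_lit 267))))) (XT.nd (nat_lit 234) (nat_lit 0) (nat_lit 0) (XT.nd (nat_lit 78) (nat_lit 0) (nat_lit 0) (XT.lf (nat_lit 0) (nat_lit 305805230740086) (nat_lit 76) (nat_lit 84835998507074) (nat_lit 76) (nat_lit 84835918674328) (nat_lit 1) (nat_lit 4) (nat_lit 2) (nat_lit 5) (nat_lit 2) (nat_lit 4) (nat_lit 440) (nat_lit 314) (nat_lit 266)) (XT.nd (nat_lit 78) (nat_lit 0) (nat_lit 0) (XT.lf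 (nat_lit 0) (nat_lit 351679686442090) (nat_lit 76) (nat_lit 97559428274356) (nat_lit 76) (nat_lit 97559348428886) (nat_lit 1) (nat_lit 4) (nat_lit 2) (nat_lit 5) (nat_lit 2) (nat_lit 4) (nat_lit 441) (nat_lit 314) (nat_lit 265)) (XT.lf (nat_lit 0) (nat_lit 404435309409352) (nat_lit 76) (nat_lit 112191373088117) (nat_lit 76) (nat_lit 112191293231583) (nat_lit 1) (nat_lit 4) (nat_lit 2) (nat_lit 5) (nat_lit 2) (nat_lit 4) (nat_lit 442) (nat_lit 314) (nat_lit 264)))) (XT.nd (nat_lit 49062) (nat_lit 0) (nat_lit 0) (XT.nd (nat_lit 48984) (nat_lit 0) (nat_lit 0) (XT.lf (nat_lit 0) (nat_lit 465104274873842) (nat_lit 76) (nat_lit 129018110129495) (nat_lit 76) (nat_lit 129018030263340) (nat_lit 1) (nat_lit 4) (nat_lit 2) (nat_lit 5) (nat_lit 2) (nat_lit 4) (nat_lit 443) (nat_lit 314) (nat_lit 263)) (XT.lf (nat_lit 0) (nat_lit 113028981897) (nat_lit 76) (nat_lit 54160580189) (nat_lit 76) (nat_lit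 54160580189) (nat_lit 1) (nat_lit 4) (nat_lit 2) (nat_lit 5) (nat_lit 2) (nat_lit 4) (nat_lit 390) (nat_lit 315) (nat_lit 315))) (XT.nd (nat_lit 78) (nat_lit 0) (nat_lit 0) (XT.lf (nat_lit 0) (nat_lit 272053680581) (nat_lit 76) (nat_lit 118108792061) (nat_lit 76) (nat_lit 118096802517) (nat_lit 1) (nat_lit 4) (nat_lit 2) (nat_lit 5) (nat_lit 2) (nat_lit 4) (nat_lit 391) (nat_lit 315) (nat_lit 314)) (XT.lf (nat_lit 0) (nat_lit 323921596870) (nat_lit 76) (nat_lit 129912415213) (nat_lit 76) (nat_lit 129889999978) (nat_lit 1) (nat_lit 4) (nat_lit 2) (nat_lit 5) (nat_lit 2) (nat_lit 4) (nat_lit 392) (nat_lit 315) (nat_lit 313)))))) (XT.nd (nat_lit 546) (nat_lit 0) (nat_lit 0) (XT.nd (nat_lit 234) (nat_lit 0) (nat_lit 0) (XT.nd (nat_lit 78) (nat_lit 0) (nat_lit 0) (XT.lf (nat_lit 0) (nat_lit 382676519721) (nat_lit 76) (nat_lit 143962970287) (nat_lit 76) (nat_lit 143931489235) (nat_lit 1) (nat_lit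 4) (nat_lit 2) (nat_lit 5) (nat_lit 2) (nat_lit 4) (nat_lit 393) (nat_lit 315) (nat_lit 312)) (XT.nd (nat_lit 78) (nat_lit 0) (nat_lit 0) (XT.lf (nat_lit 0) (nat_lit 449468001972) (nat_lit 76) (nat_lit 160535359450) (nat_lit 76) (nat_lit 160495995077) (nat_lit 1) (nat_lit 4) (nat_lit 2) (nat_lit 5) (nat_lit 2) (nat_lit 4) (nat_lit 394) (nat_lit 315) (nat_lit 311)) (XT.lf (nat_lit 0) (nat_lit 525602833492) (nat_lit 76) (nat_lit 179953825096) (nat_lit 76) (nat_lit 179907605663) (nat_lit 1) (nat_lit 4) (nat_lit 2) (nat_lit 5) (nat_lit 2) (nat_lit 4) (nat_lit 395) (nat_lit 315) (nat_lit 310)))) (XT.nd (nat_lit 156) (nat_lit 0) (nat_lit 0) (XT.nd (nat_lit 78) (nat_lit 0) (nat_lit 0) (XT.lf (nat_lit 0) (nat_lit 612570608812) (nat_lit 76) (nat_lit 202598293728) (nat_lit 76) (nat_lit 202546113373) (nat_lit 1) (nat_lit 4) (nat_lit 2) (nat_lit 5) (nat_lit 2) (nat_lit 4) (nat_lit 396) (nat_lit 315)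 (nat_lit 309)) (XT.lf (nat_lit 0) (nat_lit 712072871361) (nat_lit 76) (nat_lit 228911809298) (nat_lit 76) (nat_lit 228854445532) (nat_lit 1) (nat_lit 4) (nat_lit 2) (nat_lit 5) (nat_lit 2) (nat_lit 4) (nat_lit 397) (nat_lit 315) (nat_lit 308))) (XT.nd (nat_lit 78) (nat_lit 0) (nat_lit 0) (XT.lf (nat_lit 0) (nat_lit 826056404538) (nat_lit 76) (nat_lit 259409201457) (nat_lit 76) (nat_lit 259347330377) (nat_lit 1) (nat_lit 4) (nat_lit 2) (nat_lit 5) (nat_lit 2) (nat_lit 4) (nat_lit 398) (nat_lit 315) (nat_lit 307)) (XT.lf (nat_lit 0) (nat_lit 956751320947) (nat_lit 76) (nat_lit 294687158314) (nat_lit 76) (nat_lit 294621367831) (nat_lit 1) (nat_lit 4) (nat_lit 2) (nat_lit 5) (nat_lit 2) (nat_lit 4) (nat_lit 399) (nat_lit 315) (nat_lit 306))))) (XT.nd (nat_lit 234) (nat_lit 0) (nat_lit 0) (XT.nd (nat_lit 78) (nat_lit 0) (nat_lit 0) (XT.lf (nat_lit 0) (nat_lit 1106714695042) (nat_lit 76) (nat_lit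 335435900763) (nat_lit 76) (nat_lit 335366702103) (nat_lit 1) (nat_lit 4) (nat_lit 2) (nat_lit 5) (nat_lit 2) (nat_lit 4) (nat_lit 400) (nat_lit 315) (nat_lit 305)) (XT.nd (nat_lit 78) (nat_lit 0) (nat_lit 0) (XT.lf (nat_lit 0) (nat_lit 1278880592836) (nat_lit 76) (nat_lit 382452686809) (nat_lit 76) (nat_lit 382380524517) (nat_lit 1) (nat_lit 4) (nat_lit 2) (nat_lit 5) (nat_lit 2) (nat_lit 4) (nat_lit 401) (nat_lit 315) (nat_lit 304)) (XT.lf (nat_lit 0) (nat_lit 1476617477546) (nat_lit 76) (nat_lit 436657410092) (nat_lit 76) (nat_lit 436582670729) (nat_lit 1) (nat_lit 4) (nat_lit 2) (nat_lit 5) (nat_lit 2) (nat_lit 4) (nat_lit 402) (nat_lit 315) (nat_lit 303)))) (XT.nd (nat_lit 156) (nat_lit 0) (nat_lit 0) (XT.nd (nat_lit 78) (nat_lit 0) (nat_lit 0) (XT.lf (nat_lit 0) (nat_lit 1703794114310) (nat_lit 76) (nat_lit 499110597806) (nat_lit 76) (nat_lit 499033617511) (nat_lit 1) (nat_lit 4) (nat_lit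 2) (nat_lit 5) (nat_lit 2) (nat_lit 4) (nat_lit 403) (nat_lit 315) (nat_lit 302)) (XT.lf (nat_lit 0) (nat_lit 1964855263411) (nat_lit 76) (nat_lit 571034160146) (nat_lit 76) (nat_lit 570955231215) (nat_lit 1) (nat_lit 4) (nat_lit 2) (nat_lit 5) (nat_lit 2) (nat_lit 4) (nat_lit 404) (nat_lit 315) (nat_lit 301))) (XT.nd (nat_lit 78) (nat_lit 0) (nat_lit 0) (XT.lf (nat_lit 0) (nat_lit 2264908642984) (nat_lit 76) (nat_lit 653835297245) (nat_lit 76) (nat_lit 653754673848) (nat_lit 1) (nat_lit 4) (nat_lit 2) (nat_lit 5) (nat_lit 2) (nat_lit 4) (nat_lit 405) (nat_lit 315) (nat_lit 300)) (XT.lf (nat_lit 0) (nat_lit 2609824862629) (nat_lit 76) (nat_lit 749134031350) (nat_lit 76) (nat_lit 749051934504) (nat_lit 1) (nat_lit 4) (nat_lit 2) (nat_lit 5) (nat_lit 2) (nat_lit 4) (nat_lit 406) (nat_lit 315) (nat_lit 299))))))))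
noncomputable def xc12 : XT := (XT.nd (nat_lit 2028) (nat_lit 0) (nat_lit 0) (XT.nd (nat_lit 1014) (nat_lit 0) (nat_lit 0) (XT.nd (nat_lit 468) (nat_lit 0) (nat_lit 0) (XT.nd (nat_lit 234) (nat_lit 0) (nat_lit 0) (XT.nd (nat_lit 78) (nat_lit 0) (nat_lit 0) (XT.lf (nat_lit 0) (nat_lit 3006352283165) (nat_lit 76) (nat_lit 858794902911) (nat_lit 76) (nat_lit 858711524805) (nat_lit 1) (nat_lit 4) (nat_lit 2) (nat_lit 5) (nat_lit 2) (nat_lit 4) (nat_lit 407) (nat_lit 315) (nat_lit 298)) (XT.nd (nat_lit 78) (nat_lit 0) (nat_lit 0) (XT.lf (nat_lit 0) (nat_lit 3462249049777) (nat_lit 76) (nat_lit 984963450719) (nat_lit 76) (nat_lit 984878958475) (nat_lit 1) (nat_lit 4) (nat_lit 2) (nat_lit 5) (nat_lit 2) (nat_lit 4) (nat_lit 408) (nat_lit 315) (nat_lit 297)) (XT.lf (nat_lit 0) (nat_lit 3986434881811) (nat_lit 76) (nat_lit 1130108189841) (nat_lit 76) (nat_lit 1130022728780) (nat_lit 1) (nat_lit 4)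 (nat_lit 2) (nat_lit 5) (nat_lit 2) (nat_lit 4) (nat_lit 409) (nat_lit 315) (nat_lit 296)))) (XT.nd (nat_lit 78) (nat_lit 0) (nat_lit 0) (XT.lf (nat_lit 0) (nat_lit 4589165589026) (nat_lit 76) (nat_lit 1297068908650) (nat_lit 76) (nat_lit 1296982605140) (nat_lit 1) (nat_lit 4) (nat_lit 2) (nat_lit 5) (nat_lit 2) (nat_lit 4) (nat_lit 410) (nat_lit 315) (nat_lit 295)) (XT.nd (nat_lit 78) (nat_lit 0) (nat_lit 0) (XT.lf (nat_lit 0) (nat_lit 5282233728735) (nat_lit 76) (nat_lit 1489112229906) (nat_lit 76) (nat_lit 1489025193832) (nat_lit 1) (nat_lit 4) (nat_lit 2) (nat_lit 5) (nat_lit 2) (nat_lit 4) (nat_lit 411) (nat_lit 315) (nat_lit 294)) (XT.lf (nat_lit 0) (nat_lit 6079199329759) (nat_lit 76) (nat_lit 1709995522938) (nat_lit 76) (nat_lit 1709907849851) (nat_lit 1) (nat_lit 4) (nat_lit 2) (nat_lit 5) (nat_lit 2) (nat_lit 4) (nat_lit 412) (nat_lit 315) (nat_lit 293))))) (XT.nd (nat_lit 234)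 (nat_lit 0) (nat_lit 0) (XT.nd (nat_lit 78) (nat_lit 0) (nat_lit 0) (XT.lf (nat_lit 0) (nat_lit 6995655197335) (nat_lit 76) (nat_lit 1964040417392) (nat_lit 76) (nat_lit 1963952190380) (nat_lit 1) (nat_lit 4) (nat_lit 2) (nat_lit 5) (nat_lit 2) (nat_lit 4) (nat_lit 413) (nat_lit 315) (nat_lit 292)) (XT.nd (nat_lit 78) (nat_lit 0) (nat_lit 0) (XT.lf (nat_lit 0) (nat_lit 8049531989743) (nat_lit 76) (nat_lit 2256217356854) (nat_lit 76) (nat_lit 2256128648170) (nat_lit 1) (nat_lit 4) (nat_lit 2) (nat_lit 5) (nat_lit 2) (nat_lit 4) (nat_lit 414) (nat_lit 315) (nat_lit 291)) (XT.lf (nat_lit 0) (nat_lit 9261449035529) (nat_lit 76) (nat_lit 2592242846663) (nat_lit 76) (nat_lit 2592153719133) (nat_lit 1) (nat_lit 4) (nat_lit 2) (nat_lit 5) (nat_lit 2) (nat_lit 4) (nat_lit 415) (nat_lit 315) (nat_lit 290)))) (XT.nd (nat_lit 156) (nat_lit 0) (nat_lit 0) (XT.nd (nat_lit 78) (nat_lit 0) (nat_lit 0) (XT.lf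 (nat_lit 0) (nat_lit 10655117755155) (nat_lit 76) (nat_lit 2978691298576) (nat_lit 76) (nat_lit 2978601806832) (nat_lit 1) (nat_lit 4) (nat_lit 2) (nat_lit 5) (nat_lit 2) (nat_lit 4) (nat_lit 416) (nat_lit 315) (nat_lit 289)) (XT.lf (nat_lit 0) (nat_lit 12257805580091) (nat_lit 76) (nat_lit 3423123660565) (nat_lit 76) (nat_lit 3423033852112) (nat_lit 1) (nat_lit 4) (nat_lit 2) (nat_lit 5) (nat_lit 2) (nat_lit 4) (nat_lit 417) (nat_lit 315) (nat_lit 288))) (XT.nd (nat_lit 78) (nat_lit 0) (nat_lit 0) (XT.lf (nat_lit 0) (nat_lit 14100869446042) (nat_lit 76) (nat_lit 3934235348407) (nat_lit 76) (nat_lit 3934145264556) (nat_lit 1) (nat_lit 4) (nat_lit 2) (nat_lit 5) (nat_lit 2) (nat_lit 4) (nat_lit 418) (nat_lit 315) (nat_lit 287)) (XT.lf (nat_lit 0) (nat_lit 16220369298213) (nat_lit 76) (nat_lit 4522026373386) (nat_lit 76) (nat_lit 4521936050059) (nat_lit 1) (nat_lit 4) (nat_lit 2) (nat_lit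 5) (nat_lit 2) (nat_lit 4) (nat_lit 419) (nat_lit 315) (nat_lit 286)))))) (XT.nd (nat_lit 468) (nat_lit 0) (nat_lit 0) (XT.nd (nat_lit 234) (nat_lit 0) (nat_lit 0) (XT.nd (nat_lit 78) (nat_lit 0) (nat_lit 0) (XT.lf (nat_lit 0) (nat_lit 18657773611971) (nat_lit 76) (nat_lit 5197996994688) (nat_lit 76) (nat_lit 5197906463121) (nat_lit 1) (nat_lit 4) (nat_lit 2) (nat_lit 5) (nat_lit 2) (nat_lit 4) (nat_lit 420) (nat_lit 315) (nat_lit 285)) (XT.nd (nat_lit 78) (nat_lit 0) (nat_lit 0) (XT.lf (nat_lit 0) (nat_lit 21460770732586) (nat_lit 76) (nat_lit 5975372724468) (nat_lit 76) (nat_lit 5975282011822) (nat_lit 1) (nat_lit 4) (nat_lit 2) (nat_lit 5) (nat_lit 2) (nat_lit 4) (nat_lit 421) (nat_lit 315) (nat_lit 284)) (XT.lf (nat_lit 0) (nat_lit 24684201908069) (nat_lit 76) (nat_lit 6869363087874) (nat_lit 76) (nat_lit 6869272217767) (nat_lit 1) (nat_lit 4) (nat_lit 2) (nat_lit 5) (nat_lit 2) (nat_lit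 4) (nat_lit 422) (nat_lit 315) (nat_lit 283)))) (XT.nd (nat_lit 78) (nat_lit 0) (nat_lit 0) (XT.lf (nat_lit 0) (nat_lit 28391134270116) (nat_lit 76) (nat_lit 7897459200711) (nat_lit 76) (nat_lit 7897368193683) (nat_lit 1) (nat_lit 4) (nat_lit 2) (nat_lit 5) (nat_lit 2) (nat_lit 4) (nat_lit 423) (nat_lit 315) (nat_lit 282)) (XT.nd (nat_lit 78) (nat_lit 0) (nat_lit 0) (XT.lf (nat_lit 0) (nat_lit 32654094756244) (nat_lit 76) (nat_lit 9079775986926) (nat_lit 76) (nat_lit 9079684860836) (nat_lit 1) (nat_lit 4) (nat_lit 2) (nat_lit 5) (nat_lit 2) (nat_lit 4) (nat_lit 424) (nat_lit 315) (nat_lit 281)) (XT.lf (nat_lit 0) (nat_lit 37556489115095) (nat_lit 76) (nat_lit 10439445731468) (nat_lit 76) (nat_lit 10439354501845) (nat_lit 1) (nat_lit 4) (nat_lit 2) (nat_lit 5) (nat_lit 2) (nat_lit 4) (nat_lit 425) (nat_lit 315) (nat_lit 280))))) (XT.nd (nat_lit 234) (nat_lit 0) (nat_lit 0) (XT.nd (nat_lit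 78) (nat_lit 0) (nat_lit 0) (XT.lf (nat_lit 0) (nat_lit 43194233758037) (nat_lit 76) (nat_lit 12003070668468) (nat_lit 76) (nat_lit 12002979348817) (nat_lit 1) (nat_lit 4) (nat_lit 2) (nat_lit 5) (nat_lit 2) (nat_lit 4) (nat_lit 426) (nat_lit 315) (nat_lit 279)) (XT.nd (nat_lit 78) (nat_lit 0) (nat_lit 0) (XT.lf (nat_lit 0) (nat_lit 49677632384607) (nat_lit 76) (nat_lit 13801243459737) (nat_lit 76) (nat_lit 13801152061801) (nat_lit 1) (nat_lit 4) (nat_lit 2) (nat_lit 5) (nat_lit 2) (nat_lit 4) (nat_lit 427) (nat_lit 315) (nat_lit 278)) (XT.lf (nat_lit 0) (nat_lit 57133534098368) (nat_lit 76) (nat_lit 15869145746843) (nat_lit 76) (nat_lit 15869054280834) (nat_lit 1) (nat_lit 4) (nat_lit 2) (nat_lit 5) (nat_lit 2) (nat_lit 4) (nat_lit 428) (nat_lit 315) (nat_lit 277)))) (XT.nd (nat_lit 156) (nat_lit 0) (nat_lit 0) (XT.nd (nat_lit 78) (nat_lit 0) (nat_lit 0) (XT.lf (nat_lit 0) (nat_lit 65707815237198)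 (nat_lit 76) (nat_lit 18247236487579) (nat_lit 76) (nat_lit 18247144962374) (nat_lit 1) (nat_lit 4) (nat_lit 2) (nat_lit 5) (nat_lit 2) (nat_lit 4) (nat_lit 429) (nat_lit 315) (nat_lit 276)) (XT.lf (nat_lit 0) (nat_lit 75568233475552) (nat_lit 76) (nat_lit 20982043544262) (nat_lit 76) (nat_lit 20981951967583) (nat_lit 1) (nat_lit 4) (nat_lit 2) (nat_lit 5) (nat_lit 2) (nat_lit 4) (nat_lit 430) (nat_lit 315) (nat_lit 275))) (XT.nd (nat_lit 78) (nat_lit 0) (nat_lit 0) (XT.lf (nat_lit 0) (nat_lit 86907710039833) (nat_lit 76) (nat_lit 24127074011480) (nat_lit 76) (nat_lit 24126982390041) (nat_lit 1) (nat_lit 4) (nat_lit 2) (nat_lit 5) (nat_lit 2) (nat_lit 4) (nat_lit 431) (nat_lit 315) (nat_lit 274)) (XT.lf (nat_lit 0) (nat_lit 99948104254124) (nat_lit 76) (nat_lit 27743861094026) (nat_lit 76) (nat_lit 27743769433666) (nat_lit 1) (nat_lit 4) (nat_lit 2) (nat_lit 5) (nat_lit 2) (nat_lit 4) (nat_lit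 432) (nat_lit 315) (nat_lit 273))))))) (XT.nd (nat_lit 49842) (nat_lit 0) (nat_lit 0) (XT.nd (nat_lit 468) (nat_lit 0) (nat_lit 0) (XT.nd (nat_lit 234) (nat_lit 0) (nat_lit 0) (XT.nd (nat_lit 78) (nat_lit 0) (nat_lit 0) (XT.lf (nat_lit 0) (nat_lit 114944554266097) (nat_lit 76) (nat_lit 31903168017428) (nat_lit 76) (nat_lit 31903076323223) (nat_lit 1) (nat_lit 4) (nat_lit 2) (nat_lit 5) (nat_lit 2) (nat_lit 4) (nat_lit 433) (nat_lit 315) (nat_lit 272)) (XT.nd (nat_lit 78) (nat_lit 0) (nat_lit 0) (XT.lf (nat_lit 0) (nat_lit 132190468880334) (nat_lit 76) (nat_lit 36686372525841) (nat_lit 76) (nat_lit 36686280802205) (nat_lit 1) (nat_lit 4) (nat_lit 2) (nat_lit 5) (nat_lit 2) (nat_lit 4) (nat_lit 434) (nat_lit 315) (nat_lit 271)) (XT.lf (nat_lit 0) (nat_lit 152023268165373) (nat_lit 76) (nat_lit 42187059055297) (nat_lit 76) (nat_lit 42186967306070) (nat_lit 1) (nat_lit 4) (nat_lit 2) (nat_lit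 5) (nat_lit 2) (nat_lit 4) (nat_lit 435) (nat_lit 315) (nat_lit 270)))) (XT.nd (nat_lit 78) (nat_lit 0) (nat_lit 0) (XT.lf (nat_lit 0) (nat_lit 174830985150705) (nat_lit 76) (nat_lit 48512849733547) (nat_lit 76) (nat_lit 48512757962066) (nat_lit 1) (nat_lit 4) (nat_lit 2) (nat_lit 5) (nat_lit 2) (nat_lit 4) (nat_lit 436) (nat_lit 315) (nat_lit 269)) (XT.nd (nat_lit 78) (nat_lit 0) (nat_lit 0) (XT.lf (nat_lit 0) (nat_lit 201059857777348) (nat_lit 76) (nat_lit 55787510030383) (nat_lit 76) (nat_lit 55787418239552) (nat_lit 1) (nat_lit 4) (nat_lit 2) (nat_lit 5) (nat_lit 2) (nat_lit 4) (nat_lit 437) (nat_lit 315) (nat_lit 268)) (XT.lf (nat_lit 0) (nat_lit 231223059640169) (nat_lit 76) (nat_lit 64153370255961) (nat_lit 76) (nat_lit 64153278448303) (nat_lit 1) (nat_lit 4) (nat_lit 2) (nat_lit 5) (nat_lit 2) (nat_lit 4) (nat_lit 438) (nat_lit 315) (nat_lit 267))))) (XT.nd (nat_lit 234) (nat_lit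 0) (nat_lit 0) (XT.nd (nat_lit 78) (nat_lit 0) (nat_lit 0) (XT.lf (nat_lit 0) (nat_lit 265910740340834) (nat_lit 76) (nat_lit 73774110284259) (nat_lit 76) (nat_lit 73774018461968) (nat_lit 1) (nat_lit 4) (nat_lit 2) (nat_lit 5) (nat_lit 2) (nat_lit 4) (nat_lit 439) (nat_lit 315) (nat_lit 266)) (XT.nd (nat_lit 78) (nat_lit 0) (nat_lit 0) (XT.lf (nat_lit 0) (nat_lit 305801571893051) (nat_lit 76) (nat_lit 84837961985396) (nat_lit 76) (nat_lit 84837870150382) (nat_lit 1) (nat_lit 4) (nat_lit 2) (nat_lit 5) (nat_lit 2) (nat_lit 4) (nat_lit 440) (nat_lit 315) (nat_lit 265)) (XT.lf (nat_lit 0) (nat_lit 351676027088059) (nat_lit 76) (nat_lit 97561392023090) (nat_lit 76) (nat_lit 97561300177013) (nat_lit 1) (nat_lit 4) (nat_lit 2) (nat_lit 5) (nat_lit 2) (nat_lit 4) (nat_lit 441) (nat_lit 315) (nat_lit 264)))) (XT.nd (nat_lit 48984) (nat_lit 0) (nat_lit 0) (XT.nd (nat_lit 48906) (nat_lit 0) (nat_lit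 0) (XT.lf (nat_lit 0) (nat_lit 404431649614455) (nat_lit 76) (nat_lit 112193337071992) (nat_lit 76) (nat_lit 112193245216294) (nat_lit 1) (nat_lit 4) (nat_lit 2) (nat_lit 5) (nat_lit 2) (nat_lit 4) (nat_lit 442) (nat_lit 315) (nat_lit 263)) (XT.lf (nat_lit 0) (nat_lit 74406284680) (nat_lit 76) (nat_lit 46870189014) (nat_lit 76) (nat_lit 46870189014) (nat_lit 1) (nat_lit 4) (nat_lit 2) (nat_lit 5) (nat_lit 2) (nat_lit 4) (nat_lit 388) (nat_lit 316) (nat_lit 316))) (XT.nd (nat_lit 78) (nat_lit 0) (nat_lit 0) (XT.lf (nat_lit 0) (nat_lit 185034530314) (nat_lit 76) (nat_lit 100371811002) (nat_lit 76) (nat_lit 100358023026) (nat_lit 1) (nat_lit 4) (nat_lit 2) (nat_lit 5) (nat_lit 2) (nat_lit 4) (nat_lit 389) (nat_lit 316) (nat_lit 315)) (XT.lf (nat_lit 0) (nat_lit 225508553694) (nat_lit 76) (nat_lit 108627982646) (nat_lit 76) (nat_lit 108602205126) (nat_lit 1) (nat_lit 4) (nat_lit 2) (nat_lit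 5) (nat_lit 2) (nat_lit 4) (nat_lit 390) (nat_lit 316) (nat_lit 314)))))) (XT.nd (nat_lit 546) (nat_lit 0) (nat_lit 0) (XT.nd (nat_lit 234) (nat_lit 0) (nat_lit 0) (XT.nd (nat_lit 78) (nat_lit 0) (nat_lit 0) (XT.lf (nat_lit 0) (nat_lit 271026522567) (nat_lit 76) (nat_lit 118670426754) (nat_lit 76) (nat_lit 118634223544) (nat_lit 1) (nat_lit 4) (nat_lit 2) (nat_lit 5) (nat_lit 2) (nat_lit 4) (nat_lit 391) (nat_lit 316) (nat_lit 313)) (XT.nd (nat_lit 78) (nat_lit 0) (nat_lit 0) (XT.lf (nat_lit 0) (nat_lit 322479005888) (nat_lit 76) (nat_lit 130695625930) (nat_lit 76) (nat_lit 130650356901) (nat_lit 1) (nat_lit 4) (nat_lit 2) (nat_lit 5) (nat_lit 2) (nat_lit 4) (nat_lit 392) (nat_lit 316) (nat_lit 312)) (XT.lf (nat_lit 0) (nat_lit 380872682679) (nat_lit 76) (nat_lit 144938855807) (nat_lit 76) (nat_lit 144885703459) (nat_lit 1) (nat_lit 4) (nat_lit 2) (nat_lit 5) (nat_lit 2) (nat_lit 4) (nat_lit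 393) (nat_lit 316) (nat_lit 311)))) (XT.nd (nat_lit 156) (nat_lit 0) (nat_lit 0) (XT.nd (nat_lit 78) (nat_lit 0) (nat_lit 0) (XT.lf (nat_lit 0) (nat_lit 447350037921) (nat_lit 76) (nat_lit 161678788276) (nat_lit 76) (nat_lit 161618780868) (nat_lit 1) (nat_lit 4) (nat_lit 2) (nat_lit 5) (nat_lit 2) (nat_lit 4) (nat_lit 394) (nat_lit 316) (nat_lit 310)) (XT.lf (nat_lit 0) (nat_lit 523211715521) (nat_lit 76) (nat_lit 181242943755) (nat_lit 76) (nat_lit 181176975423) (nat_lit 1) (nat_lit 4) (nat_lit 2) (nat_lit 5) (nat_lit 2) (nat_lit 4) (nat_lit 395) (nat_lit 316) (nat_lit 309))) (XT.nd (nat_lit 78) (nat_lit 0) (nat_lit 0) (XT.lf (nat_lit 0) (nat_lit 609941965693) (nat_lit 76) (nat_lit 204014099197) (nat_lit 76) (nat_lit 203942947455) (nat_lit 1) (nat_lit 4) (nat_lit 2) (nat_lit 5) (nat_lit 2) (nat_lit 4) (nat_lit 396) (nat_lit 316) (nat_lit 308)) (XT.lf (nat_lit 0) (nat_lit 709237684635) (nat_lit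 76) (nat_lit 230437777211) (nat_lit 76) (nat_lit 230362118155) (nat_lit 1) (nat_lit 4) (nat_lit 2) (nat_lit 5) (nat_lit 2) (nat_lit 4) (nat_lit 397) (nat_lit 316) (nat_lit 307))))) (XT.nd (nat_lit 234) (nat_lit 0) (nat_lit 0) (XT.nd (nat_lit 78) (nat_lit 0) (nat_lit 0) (XT.lf (nat_lit 0) (nat_lit 823041614675) (nat_lit 76) (nat_lit 261030962800) (nat_lit 76) (nat_lit 260951384341) (nat_lit 1) (nat_lit 4) (nat_lit 2) (nat_lit 5) (nat_lit 2) (nat_lit 4) (nat_lit 398) (nat_lit 316) (nat_lit 306)) (XT.nd (nat_lit 78) (nat_lit 0) (nat_lit 0) (XT.lf (nat_lit 0) (nat_lit 953580354445) (nat_lit 76) (nat_lit 296392218291) (nat_lit 76) (nat_lit 296309231655) (nat_lit 1) (nat_lit 4) (nat_lit 2) (nat_lit 5) (nat_lit 2) (nat_lit 4) (nat_lit 399) (nat_lit 316) (nat_lit 305)) (XT.lf (nat_lit 0) (nat_lit 1103407922765) (nat_lit 76) (nat_lit 337213394335) (nat_lit 76) (nat_lit 337127444068) (nat_lit 1) (nat_lit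 4) (nat_lit 2) (nat_lit 5) (nat_lit 2) (nat_lit 4) (nat_lit 400) (nat_lit 316) (nat_lit 304)))) (XT.nd (nat_lit 156) (nat_lit 0) (nat_lit 0) (XT.nd (nat_lit 78) (nat_lit 0) (nat_lit 0) (XT.lf (nat_lit 0) (nat_lit 1275455728581) (nat_lit 76) (nat_lit 384293166116) (nat_lit 76) (nat_lit 384204638777) (nat_lit 1) (nat_lit 4) (nat_lit 2) (nat_lit 5) (nat_lit 2) (nat_lit 4) (nat_lit 401) (nat_lit 316) (nat_lit 303)) (XT.lf (nat_lit 0) (nat_lit 1473089924615) (nat_lit 76) (nat_lit 438552659603) (nat_lit 76) (nat_lit 438461891333) (nat_lit 1) (nat_lit 4) (nat_lit 2) (nat_lit 5) (nat_lit 2) (nat_lit 4) (nat_lit 402) (nat_lit 316) (nat_lit 302))) (XT.nd (nat_lit 78) (nat_lit 0) (nat_lit 0) (XT.lf (nat_lit 0) (nat_lit 1700177266878) (nat_lit 76) (nat_lit 501053473582) (nat_lit 76) (nat_lit 500960756675) (nat_lit 1) (nat_lit 4) (nat_lit 2) (nat_lit 5) (nat_lit 2) (nat_lit 4) (nat_lit 403) (nat_lit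 316) (nat_lit 301)) (XT.lf (nat_lit 0) (nat_lit 1961160768587) (nat_lit 76) (nat_lit 573018450065) (nat_lit 76) (nat_lit 572924038692) (nat_lit 1) (nat_lit 4) (nat_lit 2) (nat_lit 5) (nat_lit 2) (nat_lit 4) (nat_lit 404) (nat_lit 316) (nat_lit 300))))))))
noncomputable def xc13 : XT := (XT.nd (nat_lit 2106) (nat_lit 0) (nat_lit 0) (XT.nd (nat_lit 1014) (nat_lit 0) (nat_lit 0) (XT.nd (nat_lit 468) (nat_lit 0) (nat_lit 0) (XT.nd (nat_lit 234) (nat_lit 0) (nat_lit 0) (XT.nd (nat_lit 78) (nat_lit 0) (nat_lit 0) (XT.lf (nat_lit 0) (nat_lit 2261146628688) (nat_lit 76) (nat_lit 655855599462) (nat_lit 76) (nat_lit 655759714640) (nat_lit 1) (nat_lit 4) (nat_lit 2) (nat_lit 5) (nat_lit 2) (nat_lit 4) (nat_lit 405) (nat_lit 316) (nat_lit 299)) (XT.nd (nat_lit 78) (nat_lit 0) (nat_lit 0) (XT.lf (nat_lit 0) (nat_lit 2606004135749) (nat_lit 76) (nat_lit 751185648609) (nat_lit 76) (nat_lit 751088482527)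 (nat_lit 1) (nat_lit 4) (nat_lit 2) (nat_lit 5) (nat_lit 2) (nat_lit 4) (nat_lit 406) (nat_lit 316) (nat_lit 298)) (XT.lf (nat_lit 0) (nat_lit 3002480501864) (nat_lit 76) (nat_lit 860873750641) (nat_lit 76) (nat_lit 860775470421) (nat_lit 1) (nat_lit 4) (nat_lit 2) (nat_lit 5) (nat_lit 2) (nat_lit 4) (nat_lit 407) (nat_lit 316) (nat_lit 297)))) (XT.nd (nat_lit 78) (nat_lit 0) (nat_lit 0) (XT.lf (nat_lit 0) (nat_lit 3458332873328) (nat_lit 76) (nat_lit 987065977120) (nat_lit 76) (nat_lit 986966728083) (nat_lit 1) (nat_lit 4) (nat_lit 2) (nat_lit 5) (nat_lit 2) (nat_lit 4) (nat_lit 408) (nat_lit 316) (nat_lit 296)) (XT.nd (nat_lit 78) (nat_lit 0) (nat_lit 0) (XT.lf (nat_lit 0) (nat_lit 3982480100885) (nat_lit 76) (nat_lit 1132231306391) (nat_lit 76) (nat_lit 1132131214905) (nat_lit 1) (nat_lit 4) (nat_lit 2) (nat_lit 5) (nat_lit 2) (nat_lit 4) (nat_lit 409) (nat_lit 316) (nat_lit 295)) (XT.lf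 (nat_lit 0) (nat_lit 4585177238989) (nat_lit 76) (nat_lit 1299209929677) (nat_lit 76) (nat_lit 1299109105626) (nat_lit 1) (nat_lit 4) (nat_lit 2) (nat_lit 5) (nat_lit 2) (nat_lit 4) (nat_lit 410) (nat_lit 316) (nat_lit 294))))) (XT.nd (nat_lit 234) (nat_lit 0) (nat_lit 0) (XT.nd (nat_lit 78) (nat_lit 0) (nat_lit 0) (XT.lf (nat_lit 0) (nat_lit 5278216188167) (nat_lit 76) (nat_lit 1491268820043) (nat_lit 76) (nat_lit 1491167358980) (nat_lit 1) (nat_lit 4) (nat_lit 2) (nat_lit 5) (nat_lit 2) (nat_lit 4) (nat_lit 411) (nat_lit 316) (nat_lit 293)) (XT.nd (nat_lit 78) (nat_lit 0) (nat_lit 0) (XT.lf (nat_lit 0) (nat_lit 6075156406121) (nat_lit 76) (nat_lit 1712165651432) (nat_lit 76) (nat_lit 1712063636445) (nat_lit 1) (nat_lit 4) (nat_lit 2) (nat_lit 5) (nat_lit 2) (nat_lit 4) (nat_lit 412) (nat_lit 316) (nat_lit 292)) (XT.lf (nat_lit 0) (nat_lit 6991590201463) (nat_lit 76) (nat_lit 1966222318369)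 (nat_lit 76) (nat_lit 1966119821709) (nat_lit 1) (nat_lit 4) (nat_lit 2) (nat_lit 5) (nat_lit 2) (nat_lit 4) (nat_lit 413) (nat_lit 316) (nat_lit 291)))) (XT.nd (nat_lit 156) (nat_lit 0) (nat_lit 0) (XT.nd (nat_lit 78) (nat_lit 0) (nat_lit 0) (XT.lf (nat_lit 0) (nat_lit 8045447800623) (nat_lit 76) (nat_lit 2258409494775) (nat_lit 76) (nat_lit 2258306579269) (nat_lit 1) (nat_lit 4) (nat_lit 2) (nat_lit 5) (nat_lit 2) (nat_lit 4) (nat_lit 414) (nat_lit 316) (nat_lit 290)) (XT.lf (nat_lit 0) (nat_lit 9257348156628) (nat_lit 76) (nat_lit 2594443886273) (nat_lit 76) (nat_lit 2594340606553) (nat_lit 1) (nat_lit 4) (nat_lit 2) (nat_lit 5) (nat_lit 2) (nat_lit 4) (nat_lit 415) (nat_lit 316) (nat_lit 289))) (XT.nd (nat_lit 78) (nat_lit 0) (nat_lit 0) (XT.lf (nat_lit 0) (nat_lit 10651002363401) (nat_lit 76) (nat_lit 2980900078786) (nat_lit 76) (nat_lit 2980796482358) (nat_lit 1) (nat_lit 4) (nat_lit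 2) (nat_lit 5) (nat_lit 2) (nat_lit 4) (nat_lit 416) (nat_lit 316) (nat_lit 288)) (XT.lf (nat_lit 0) (nat_lit 12253677568465) (nat_lit 76) (nat_lit 3425339171730) (nat_lit 76) (nat_lit 3425235299904) (nat_lit 1) (nat_lit 4) (nat_lit 2) (nat_lit 5) (nat_lit 2) (nat_lit 4) (nat_lit 417) (nat_lit 316) (nat_lit 287)))))) (XT.nd (nat_lit 546) (nat_lit 0) (nat_lit 0) (XT.nd (nat_lit 234) (nat_lit 0) (nat_lit 0) (XT.nd (nat_lit 78) (nat_lit 0) (nat_lit 0) (XT.lf (nat_lit 0) (nat_lit 14096730460615) (nat_lit 76) (nat_lit 3936456712577) (nat_lit 76) (nat_lit 3936352601275) (nat_lit 1) (nat_lit 4) (nat_lit 2) (nat_lit 5) (nat_lit 2) (nat_lit 4) (nat_lit 418) (nat_lit 316) (nat_lit 286)) (XT.nd (nat_lit 78) (nat_lit 0) (nat_lit 0) (XT.lf (nat_lit 0) (nat_lit 16216220770349) (nat_lit 76) (nat_lit 4524252827127) (nat_lit 76) (nat_lit 4524148507584) (nat_lit 1) (nat_lit 4) (nat_lit 2) (nat_lit 5) (nat_lit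 2) (nat_lit 4) (nat_lit 419) (nat_lit 316) (nat_lit 285)) (XT.lf (nat_lit 0) (nat_lit 18653616786337) (nat_lit 76) (nat_lit 5200227874142) (nat_lit 76) (nat_lit 5200123373520) (nat_lit 1) (nat_lit 4) (nat_lit 2) (nat_lit 5) (nat_lit 2) (nat_lit 4) (nat_lit 420) (nat_lit 316) (nat_lit 284)))) (XT.nd (nat_lit 156) (nat_lit 0) (nat_lit 0) (XT.nd (nat_lit 78) (nat_lit 0) (nat_lit 0) (XT.lf (nat_lit 0) (nat_lit 21456606691499) (nat_lit 76) (nat_lit 5977607452367) (nat_lit 76) (nat_lit 5977502794286) (nat_lit 1) (nat_lit 4) (nat_lit 2) (nat_lit 5) (nat_lit 2) (nat_lit 4) (nat_lit 421) (nat_lit 316) (nat_lit 283)) (XT.lf (nat_lit 0) (nat_lit 24680031592675) (nat_lit 76) (nat_lit 6871601162248) (nat_lit 76) (nat_lit 6871496367244) (nat_lit 1) (nat_lit 4) (nat_lit 2) (nat_lit 5) (nat_lit 2) (nat_lit 4) (nat_lit 422) (nat_lit 316) (nat_lit 282))) (XT.nd (nat_lit 78) (nat_lit 0) (nat_lit 0) (XT.lf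 (nat_lit 0) (nat_lit 28386958498803) (nat_lit 76) (nat_lit 7899700185063) (nat_lit 76) (nat_lit 7899595270997) (nat_lit 1) (nat_lit 4) (nat_lit 2) (nat_lit 5) (nat_lit 2) (nat_lit 4) (nat_lit 423) (nat_lit 316) (nat_lit 281)) (XT.lf (nat_lit 0) (nat_lit 32649914240654) (nat_lit 76) (nat_lit 9082019501694) (nat_lit 76) (nat_lit 9081914484096) (nat_lit 1) (nat_lit 4) (nat_lit 2) (nat_lit 5) (nat_lit 2) (nat_lit 4) (nat_lit 424) (nat_lit 316) (nat_lit 280))))) (XT.nd (nat_lit 234) (nat_lit 0) (nat_lit 0) (XT.nd (nat_lit 78) (nat_lit 0) (nat_lit 0) (XT.lf (nat_lit 0) (nat_lit 37552304474046) (nat_lit 76) (nat_lit 10441691446597) (nat_lit 76) (nat_lit 10441586338971) (nat_lit 1) (nat_lit 4) (nat_lit 2) (nat_lit 5) (nat_lit 2) (nat_lit 4) (nat_lit 425) (nat_lit 316) (nat_lit 279)) (XT.nd (nat_lit 78) (nat_lit 0) (nat_lit 0) (XT.lf (nat_lit 0) (nat_lit 43190045529633) (nat_lit 76) (nat_lit 12005318296955)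 (nat_lit 76) (nat_lit 12005213111043) (nat_lit 1) (nat_lit 4) (nat_lit 2) (nat_lit 5) (nat_lit 2) (nat_lit 4) (nat_lit 426) (nat_lit 316) (nat_lit 278)) (XT.lf (nat_lit 0) (nat_lit 49673441036764) (nat_lit 76) (nat_lit 13803492752013) (nat_lit 76) (nat_lit 13803387498028) (nat_lit 1) (nat_lit 4) (nat_lit 2) (nat_lit 5) (nat_lit 2) (nat_lit 4) (nat_lit 427) (nat_lit 316) (nat_lit 277)))) (XT.nd (nat_lit 156) (nat_lit 0) (nat_lit 0) (XT.nd (nat_lit 78) (nat_lit 0) (nat_lit 0) (XT.lf (nat_lit 0) (nat_lit 57129340037969) (nat_lit 76) (nat_lit 15871396485893) (nat_lit 76) (nat_lit 15871291172713) (nat_lit 1) (nat_lit 4) (nat_lit 2) (nat_lit 5) (nat_lit 2) (nat_lit 4) (nat_lit 428) (nat_lit 316) (nat_lit 276)) (XT.lf (nat_lit 0) (nat_lit 65703618818054) (nat_lit 76) (nat_lit 18249488484693) (nat_lit 76) (nat_lit 18249383120038) (nat_lit 1) (nat_lit 4) (nat_lit 2) (nat_lit 5) (nat_lit 2) (nat_lit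 4) (nat_lit 429) (nat_lit 316) (nat_lit 275))) (XT.nd (nat_lit 78) (nat_lit 0) (nat_lit 0) (XT.lf (nat_lit 0) (nat_lit 75564035005326) (nat_lit 76) (nat_lit 20984296635344) (nat_lit 76) (nat_lit 20984191225930) (nat_lit 1) (nat_lit 4) (nat_lit 2) (nat_lit 5) (nat_lit 2) (nat_lit 4) (nat_lit 430) (nat_lit 316) (nat_lit 274)) (XT.lf (nat_lit 0) (nat_lit 86903509786058) (nat_lit 76) (nat_lit 24129328053839) (nat_lit 76) (nat_lit 24129222605503) (nat_lit 1) (nat_lit 4) (nat_lit 2) (nat_lit 5) (nat_lit 2) (nat_lit 4) (nat_lit 431) (nat_lit 316) (nat_lit 273))))))) (XT.nd (nat_lit 49686) (nat_lit 0) (nat_lit 0) (XT.nd (nat_lit 468) (nat_lit 0) (nat_lit 0) (XT.nd (nat_lit 234) (nat_lit 0) (nat_lit 0) (XT.nd (nat_lit 78) (nat_lit 0) (nat_lit 0) (XT.lf (nat_lit 0) (nat_lit 99943902449436) (nat_lit 76) (nat_lit 27746115963583) (nat_lit 76) (nat_lit 27746010481402) (nat_lit 1) (nat_lit 4) (nat_lit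 2) (nat_lit 5) (nat_lit 2) (nat_lit 4) (nat_lit 432) (nat_lit 316) (nat_lit 272)) (XT.nd (nat_lit 78) (nat_lit 0) (nat_lit 0) (XT.lf (nat_lit 0) (nat_lit 114940351112789) (nat_lit 76) (nat_lit 31905423606287) (nat_lit 76) (nat_lit 31905318094676) (nat_lit 1) (nat_lit 4) (nat_lit 2) (nat_lit 5) (nat_lit 2) (nat_lit 4) (nat_lit 433) (nat_lit 316) (nat_lit 271)) (XT.lf (nat_lit 0) (nat_lit 132186264554313) (nat_lit 76) (nat_lit 36688628740179) (nat_lit 76) (nat_lit 36688523202977) (nat_lit 1) (nat_lit 4) (nat_lit 2) (nat_lit 5) (nat_lit 2) (nat_lit 4) (nat_lit 434) (nat_lit 316) (nat_lit 270)))) (XT.nd (nat_lit 78) (nat_lit 0) (nat_lit 0) (XT.lf (nat_lit 0) (nat_lit 152019062819602) (nat_lit 76) (nat_lit 42189315813531) (nat_lit 76) (nat_lit 42189210254075) (nat_lit 1) (nat_lit 4) (nat_lit 2) (nat_lit 5) (nat_lit 2) (nat_lit 4) (nat_lit 435) (nat_lit 316) (nat_lit 269)) (XT.nd (nat_lit 78)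 (nat_lit 0) (nat_lit 0) (XT.lf (nat_lit 0) (nat_lit 174826778918195) (nat_lit 76) (nat_lit 48515106964734) (nat_lit 76) (nat_lit 48515001385927) (nat_lit 1) (nat_lit 4) (nat_lit 2) (nat_lit 5) (nat_lit 2) (nat_lit 4) (nat_lit 436) (nat_lit 316) (nat_lit 268)) (XT.lf (nat_lit 0) (nat_lit 201055650773759) (nat_lit 76) (nat_lit 55789767672834) (nat_lit 76) (nat_lit 55789662077200) (nat_lit 1) (nat_lit 4) (nat_lit 2) (nat_lit 5) (nat_lit 2) (nat_lit 4) (nat_lit 437) (nat_lit 316) (nat_lit 267))))) (XT.nd (nat_lit 234) (nat_lit 0) (nat_lit 0) (XT.nd (nat_lit 78) (nat_lit 0) (nat_lit 0) (XT.lf (nat_lit 0) (nat_lit 231218851966079) (nat_lit 76) (nat_lit 64155628256032) (nat_lit 76) (nat_lit 64155522645766) (nat_lit 1) (nat_lit 4) (nat_lit 2) (nat_lit 5) (nat_lit 2) (nat_lit 4) (nat_lit 438) (nat_lit 316) (nat_lit 266)) (XT.nd (nat_lit 78) (nat_lit 0) (nat_lit 0) (XT.lf (nat_lit 0) (nat_lit 265906532083698)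 (nat_lit 76) (nat_lit 73776368595305) (nat_lit 76) (nat_lit 73776262972314) (nat_lit 1) (nat_lit 4) (nat_lit 2) (nat_lit 5) (nat_lit 2) (nat_lit 4) (nat_lit 439) (nat_lit 316) (nat_lit 265)) (XT.lf (nat_lit 0) (nat_lit 305797363128919) (nat_lit 76) (nat_lit 84840220566853) (nat_lit 76) (nat_lit 84840114932800) (nat_lit 1) (nat_lit 4) (nat_lit 2) (nat_lit 5) (nat_lit 2) (nat_lit 4) (nat_lit 440) (nat_lit 316) (nat_lit 264)))) (XT.nd (nat_lit 48828) (nat_lit 0) (nat_lit 0) (XT.nd (nat_lit 78) (nat_lit 0) (nat_lit 0) (XT.lf (nat_lit 0) (nat_lit 351671817883060) (nat_lit 76) (nat_lit 97563650839689) (nat_lit 76) (nat_lit 97563545196015) (nat_lit 1) (nat_lit 4) (nat_lit 2) (nat_lit 5) (nat_lit 2) (nat_lit 4) (nat_lit 441) (nat_lit 316) (nat_lit 263)) (XT.lf (nat_lit 0) (nat_lit 404427440026094) (nat_lit 76) (nat_lit 112195596093061) (nat_lit 76) (nat_lit 112195490441021) (nat_lit 1) (nat_lit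 4) (nat_lit 2) (nat_lit 5) (nat_lit 2) (nat_lit 4) (nat_lit 442) (nat_lit 316) (nat_lit 262))) (XT.nd (nat_lit 78) (nat_lit 0) (nat_lit 0) (XT.lf (nat_lit 0) (nat_lit 43542997135) (nat_lit 76) (nat_lit 42245157288) (nat_lit 76) (nat_lit 42245157288) (nat_lit 1) (nat_lit 4) (nat_lit 2) (nat_lit 5) (nat_lit 2) (nat_lit 4) (nat_lit 386) (nat_lit 317) (nat_lit 317)) (XT.lf (nat_lit 0) (nat_lit 116133980294) (nat_lit 76) (nat_lit 88619794472) (nat_lit 76) (nat_lit 88603938300) (nat_lit 1) (nat_lit 4) (nat_lit 2) (nat_lit 5) (nat_lit 2) (nat_lit 4) (nat_lit 387) (nat_lit 317) (nat_lit 316)))))) (XT.nd (nat_lit 546) (nat_lit 0) (nat_lit 0) (XT.nd (nat_lit 234) (nat_lit 0) (nat_lit 0) (XT.nd (nat_lit 78) (nat_lit 0) (nat_lit 0) (XT.lf (nat_lit 0) (nat_lit 148180747745) (nat_lit 76) (nat_lit 94093223635) (nat_lit 76) (nat_lit 94063579488) (nat_lit 1) (nat_lit 4) (nat_lit 2) (nat_lit 5) (nat_lit 2)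 (nat_lit 4) (nat_lit 388) (nat_lit 317) (nat_lit 315)) (XT.nd (nat_lit 78) (nat_lit 0) (nat_lit 0) (XT.lf (nat_lit 0) (nat_lit 183853298598) (nat_lit 76) (nat_lit 101017690899) (nat_lit 76) (nat_lit 100976057207) (nat_lit 1) (nat_lit 4) (nat_lit 2) (nat_lit 5) (nat_lit 2) (nat_lit 4) (nat_lit 389) (nat_lit 317) (nat_lit 314)) (XT.lf (nat_lit 0) (nat_lit 223849574064) (nat_lit 76) (nat_lit 109528674970) (nat_lit 76) (nat_lit 109476615588) (nat_lit 1) (nat_lit 4) (nat_lit 2) (nat_lit 5) (nat_lit 2) (nat_lit 4) (nat_lit 390) (nat_lit 317) (nat_lit 313)))) (XT.nd (nat_lit 156) (nat_lit 0) (nat_lit 0) (XT.nd (nat_lit 78) (nat_lit 0) (nat_lit 0) (XT.lf (nat_lit 0) (nat_lit 268952109968) (nat_lit 76) (nat_lit 119792695102) (nat_lit 76) (nat_lit 119731569902) (nat_lit 1) (nat_lit 4) (nat_lit 2) (nat_lit 5) (nat_lit 2) (nat_lit 4) (nat_lit 391) (nat_lit 317) (nat_lit 312)) (XT.lf (nat_lit 0) (nat_lit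 320043347229) (nat_lit 76) (nat_lit 132010569080) (nat_lit 76) (nat_lit 131941560560) (nat_lit 1) (nat_lit 4) (nat_lit 2) (nat_lit 5) (nat_lit 2) (nat_lit 4) (nat_lit 392) (nat_lit 317) (nat_lit 311))) (XT.nd (nat_lit 78) (nat_lit 0) (nat_lit 0) (XT.lf (nat_lit 0) (nat_lit 378122897012) (nat_lit 76) (nat_lit 146421342265) (nat_lit 76) (nat_lit 146345478684) (nat_lit 1) (nat_lit 4) (nat_lit 2) (nat_lit 5) (nat_lit 2) (nat_lit 4) (nat_lit 393) (nat_lit 317) (nat_lit 310)) (XT.lf (nat_lit 0) (nat_lit 444327098334) (nat_lit 76) (nat_lit 163306964566) (nat_lit 76) (nat_lit 163225140063) (nat_lit 1) (nat_lit 4) (nat_lit 2) (nat_lit 5) (nat_lit 2) (nat_lit 4) (nat_lit 394) (nat_lit 317) (nat_lit 309))))) (XT.nd (nat_lit 234) (nat_lit 0) (nat_lit 0) (XT.nd (nat_lit 78) (nat_lit 0) (nat_lit 0) (XT.lf (nat_lit 0) (nat_lit 519951250786) (nat_lit 76) (nat_lit 182997806855) (nat_lit 76) (nat_lit 182910798941)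 (nat_lit 1) (nat_lit 4) (nat_lit 2) (nat_lit 5) (nat_lit 2) (nat_lit 4) (nat_lit 395) (nat_lit 317) (nat_lit 308)) (XT.nd (nat_lit 78) (nat_lit 0) (nat_lit 0) (XT.lf (nat_lit 0) (nat_lit 606474957351) (nat_lit 76) (nat_lit 205879124741) (nat_lit 76) (nat_lit 205787609514) (nat_lit 1) (nat_lit 4) (nat_lit 2) (nat_lit 5) (nat_lit 2) (nat_lit 4) (nat_lit 396) (nat_lit 317) (nat_lit 307)) (XT.lf (nat_lit 0) (nat_lit 705591073157) (nat_lit 76) (nat_lit 232398596184) (nat_lit 76) (nat_lit 232303161553) (nat_lit 1) (nat_lit 4) (nat_lit 2) (nat_lit 5) (nat_lit 2) (nat_lit 4) (nat_lit 397) (nat_lit 317) (nat_lit 306)))) (XT.nd (nat_lit 156) (nat_lit 0) (nat_lit 0) (XT.nd (nat_lit 78) (nat_lit 0) (nat_lit 0) (XT.lf (nat_lit 0) (nat_lit 819238826556) (nat_lit 76) (nat_lit 263075080408) (nat_lit 76) (nat_lit 262976237600) (nat_lit 1) (nat_lit 4) (nat_lit 2) (nat_lit 5) (nat_lit 2) (nat_lit 4) (nat_lit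 398) (nat_lit 317) (nat_lit 305)) (XT.lf (nat_lit 0) (nat_lit 949641760552) (nat_lit 76) (nat_lit 298508769494) (nat_lit 76) (nat_lit 298406963054) (nat_lit 1) (nat_lit 4) (nat_lit 2) (nat_lit 5) (nat_lit 2) (nat_lit 4) (nat_lit 399) (nat_lit 317) (nat_lit 304))) (XT.nd (nat_lit 78) (nat_lit 0) (nat_lit 0) (XT.lf (nat_lit 0) (nat_lit 1099351236894) (nat_lit 76) (nat_lit 339392931273) (nat_lit 76) (nat_lit 339288547762) (nat_lit 1) (nat_lit 4) (nat_lit 2) (nat_lit 5) (nat_lit 2) (nat_lit 4) (nat_lit 400) (nat_lit 317) (nat_lit 303)) (XT.lf (nat_lit 0) (nat_lit 1271296354034) (nat_lit 76) (nat_lit 386527473258) (nat_lit 76) (nat_lit 386420848816) (nat_lit 1) (nat_lit 4) (nat_lit 2) (nat_lit 5) (nat_lit 2) (nat_lit 4) (nat_lit 401) (nat_lit 317) (nat_lit 302))))))))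
noncomputable def xc14 : XT := (XT.nd (nat_lit 2028) (nat_lit 0) (nat_lit 0) (XT.nd (nat_lit 1014) (nat_lit 0) (nat_lit 0) (XT.nd (nat_lit 468) (nat_lit 0) (nat_lit 0) (XT.nd (nat_lit 234) (nat_lit 0) (nat_lit 0) (XT.nd (nat_lit 78) (nat_lit 0) (nat_lit 0) (XT.lf (nat_lit 0) (nat_lit 1468841255567) (nat_lit 76) (nat_lit 440834593009) (nat_lit 76) (nat_lit 440726019931) (nat_lit 1) (nat_lit 4) (nat_lit 2) (nat_lit 5) (nat_lit 2) (nat_lit 4) (nat_lit 402) (nat_lit 317) (nat_lit 301)) (XT.nd (nat_lit 78) (nat_lit 0) (nat_lit 0) (XT.lf (nat_lit 0) (nat_lit 1695850950438) (nat_lit 76) (nat_lit 503376821131) (nat_lit 76) (nat_lit 503266553587) (nat_lit 1) (nat_lit 4) (nat_lit 2) (nat_lit 5) (nat_lit 2) (nat_lit 4) (nat_lit 403) (nat_lit 317) (nat_lit 300)) (XT.lf (nat_lit 0) (nat_lit 1956766932675) (nat_lit 76) (nat_lit 575377809913) (nat_lit 76) (nat_lit 575266068919) (nat_lit 1) (nat_lit 4)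 (nat_lit 2) (nat_lit 5) (nat_lit 2) (nat_lit 4) (nat_lit 404) (nat_lit 317) (nat_lit 299)))) (XT.nd (nat_lit 78) (nat_lit 0) (nat_lit 0) (XT.lf (nat_lit 0) (nat_lit 2256694080192) (nat_lit 76) (nat_lit 658246274352) (nat_lit 76) (nat_lit 658133252098) (nat_lit 1) (nat_lit 4) (nat_lit 2) (nat_lit 5) (nat_lit 2) (nat_lit 4) (nat_lit 405) (nat_lit 317) (nat_lit 298)) (XT.nd (nat_lit 78) (nat_lit 0) (nat_lit 0) (XT.lf (nat_lit 0) (nat_lit 2601500532833) (nat_lit 76) (nat_lit 753603553970) (nat_lit 76) (nat_lit 753489417578) (nat_lit 1) (nat_lit 4) (nat_lit 2) (nat_lit 5) (nat_lit 2) (nat_lit 4) (nat_lit 406) (nat_lit 317) (nat_lit 297)) (XT.lf (nat_lit 0) (nat_lit 2997932503799) (nat_lit 76) (nat_lit 863315334673) (nat_lit 76) (nat_lit 863200229464) (nat_lit 1) (nat_lit 4) (nat_lit 2) (nat_lit 5) (nat_lit 2) (nat_lit 4) (nat_lit 407) (nat_lit 317) (nat_lit 296))))) (XT.nd (nat_lit 234) (nat_lit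 0) (nat_lit 0) (XT.nd (nat_lit 78) (nat_lit 0) (nat_lit 0) (XT.lf (nat_lit 0) (nat_lit 3453746270786) (nat_lit 76) (nat_lit 989528151301) (nat_lit 76) (nat_lit 989412203643) (nat_lit 1) (nat_lit 4) (nat_lit 2) (nat_lit 5) (nat_lit 2) (nat_lit 4) (nat_lit 408) (nat_lit 317) (nat_lit 295)) (XT.nd (nat_lit 78) (nat_lit 0) (nat_lit 0) (XT.lf (nat_lit 0) (nat_lit 3977859929233) (nat_lit 76) (nat_lit 1134711385048) (nat_lit 76) (nat_lit 1134594704825) (nat_lit 1) (nat_lit 4) (nat_lit 2) (nat_lit 5) (nat_lit 2) (nat_lit 4) (nat_lit 409) (nat_lit 317) (nat_lit 294)) (XT.lf (nat_lit 0) (nat_lit 4580527876806) (nat_lit 76) (nat_lit 1301705577444) (nat_lit 76) (nat_lit 1301588260209) (nat_lit 1) (nat_lit 4) (nat_lit 2) (nat_lit 5) (nat_lit 2) (nat_lit 4) (nat_lit 410) (nat_lit 317) (nat_lit 293)))) (XT.nd (nat_lit 156) (nat_lit 0) (nat_lit 0) (XT.nd (nat_lit 78) (nat_lit 0) (nat_lit 0) (XT.lf (nat_lit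 0) (nat_lit 5273541442914) (nat_lit 76) (nat_lit 1493778006168) (nat_lit 76) (nat_lit 1493660135009) (nat_lit 1) (nat_lit 4) (nat_lit 2) (nat_lit 5) (nat_lit 2) (nat_lit 4) (nat_lit 411) (nat_lit 317) (nat_lit 292)) (XT.lf (nat_lit 0) (nat_lit 6070459588633) (nat_lit 76) (nat_lit 1714686610040) (nat_lit 76) (nat_lit 1714568257208) (nat_lit 1) (nat_lit 4) (nat_lit 2) (nat_lit 5) (nat_lit 2) (nat_lit 4) (nat_lit 412) (nat_lit 317) (nat_lit 291))) (XT.nd (nat_lit 78) (nat_lit 0) (nat_lit 0) (XT.lf (nat_lit 0) (nat_lit 6986874190727) (nat_lit 76) (nat_lit 1968753513921) (nat_lit 76) (nat_lit 1968634742243) (nat_lit 1) (nat_lit 4) (nat_lit 2) (nat_lit 5) (nat_lit 2) (nat_lit 4) (nat_lit 413) (nat_lit 317) (nat_lit 290)) (XT.lf (nat_lit 0) (nat_lit 8040715100106) (nat_lit 76) (nat_lit 2260949592016) (nat_lit 76) (nat_lit 2260830456124) (nat_lit 1) (nat_lit 4) (nat_lit 2) (nat_lit 5) (nat_lit 2)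 (nat_lit 4) (nat_lit 414) (nat_lit 317) (nat_lit 289)))))) (XT.nd (nat_lit 468) (nat_lit 0) (nat_lit 0) (XT.nd (nat_lit 234) (nat_lit 0) (nat_lit 0) (XT.nd (nat_lit 78) (nat_lit 0) (nat_lit 0) (XT.lf (nat_lit 0) (nat_lit 9252600943259) (nat_lit 76) (nat_lit 2596991724114) (nat_lit 76) (nat_lit 2596872271514) (nat_lit 1) (nat_lit 4) (nat_lit 2) (nat_lit 5) (nat_lit 2) (nat_lit 4) (nat_lit 415) (nat_lit 317) (nat_lit 288)) (XT.nd (nat_lit 78) (nat_lit 0) (nat_lit 0) (XT.lf (nat_lit 0) (nat_lit 10646242530160) (nat_lit 76) (nat_lit 2983454647582) (nat_lit 76) (nat_lit 2983334919584) (nat_lit 1) (nat_lit 4) (nat_lit 2) (nat_lit 5) (nat_lit 2) (nat_lit 4) (nat_lit 416) (nat_lit 317) (nat_lit 287)) (XT.lf (nat_lit 0) (nat_lit 12248906761422) (nat_lit 76) (nat_lit 3427899593532) (nat_lit 76) (nat_lit 3427779626057) (nat_lit 1) (nat_lit 4) (nat_lit 2) (nat_lit 5) (nat_lit 2) (nat_lit 4) (nat_lit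 417) (nat_lit 317) (nat_lit 286)))) (XT.nd (nat_lit 78) (nat_lit 0) (nat_lit 0) (XT.lf (nat_lit 0) (nat_lit 14091950111135) (nat_lit 76) (nat_lit 3939022223949) (nat_lit 76) (nat_lit 3938902048233) (nat_lit 1) (nat_lit 4) (nat_lit 2) (nat_lit 5) (nat_lit 2) (nat_lit 4) (nat_lit 418) (nat_lit 317) (nat_lit 285)) (XT.nd (nat_lit 78) (nat_lit 0) (nat_lit 0) (XT.lf (nat_lit 0) (nat_lit 16211432123099) (nat_lit 76) (nat_lit 4526822764211) (nat_lit 76) (nat_lit 4526702407417) (nat_lit 1) (nat_lit 4) (nat_lit 2) (nat_lit 5) (nat_lit 2) (nat_lit 4) (nat_lit 419) (nat_lit 317) (nat_lit 284)) (XT.lf (nat_lit 0) (nat_lit 18648820923633) (nat_lit 76) (nat_lit 5202801659672) (nat_lit 76) (nat_lit 5202681145418) (nat_lit 1) (nat_lit 4) (nat_lit 2) (nat_lit 5) (nat_lit 2) (nat_lit 4) (nat_lit 420) (nat_lit 317) (nat_lit 283))))) (XT.nd (nat_lit 234) (nat_lit 0) (nat_lit 0) (XT.nd (nat_lit 78) (nat_lit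 0) (nat_lit 0) (XT.lf (nat_lit 0) (nat_lit 21451804554489) (nat_lit 76) (nat_lit 5980184584372) (nat_lit 76) (nat_lit 5980063933197) (nat_lit 1) (nat_lit 4) (nat_lit 2) (nat_lit 5) (nat_lit 2) (nat_lit 4) (nat_lit 421) (nat_lit 317) (nat_lit 282)) (XT.nd (nat_lit 78) (nat_lit 0) (nat_lit 0) (XT.lf (nat_lit 0) (nat_lit 24675223999746) (nat_lit 76) (nat_lit 6874181204231) (nat_lit 76) (nat_lit 6874060433993) (nat_lit 1) (nat_lit 4) (nat_lit 2) (nat_lit 5) (nat_lit 2) (nat_lit 4) (nat_lit 422) (nat_lit 317) (nat_lit 281)) (XT.lf (nat_lit 0) (nat_lit 28382146161597) (nat_lit 76) (nat_lit 7902282757462) (nat_lit 76) (nat_lit 7902161883692) (nat_lit 1) (nat_lit 4) (nat_lit 2) (nat_lit 5) (nat_lit 2) (nat_lit 4) (nat_lit 423) (nat_lit 317) (nat_lit 280)))) (XT.nd (nat_lit 156) (nat_lit 0) (nat_lit 0) (XT.nd (nat_lit 78) (nat_lit 0) (nat_lit 0) (XT.lf (nat_lit 0) (nat_lit 32645097777989) (nat_lit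 76) (nat_lit 9084604274454) (nat_lit 76) (nat_lit 9084483310656) (nat_lit 1) (nat_lit 4) (nat_lit 2) (nat_lit 5) (nat_lit 2) (nat_lit 4) (nat_lit 424) (nat_lit 317) (nat_lit 279)) (XT.lf (nat_lit 0) (nat_lit 37547484424026) (nat_lit 76) (nat_lit 10444278132715) (nat_lit 76) (nat_lit 10444157090632) (nat_lit 1) (nat_lit 4) (nat_lit 2) (nat_lit 5) (nat_lit 2) (nat_lit 4) (nat_lit 425) (nat_lit 317) (nat_lit 278))) (XT.nd (nat_lit 78) (nat_lit 0) (nat_lit 0) (XT.lf (nat_lit 0) (nat_lit 43185222360174) (nat_lit 76) (nat_lit 12007906646862) (nat_lit 76) (nat_lit 12007785536704) (nat_lit 1) (nat_lit 4) (nat_lit 2) (nat_lit 5) (nat_lit 2) (nat_lit 4) (nat_lit 426) (nat_lit 317) (nat_lit 277)) (XT.lf (nat_lit 0) (nat_lit 49668615154748) (nat_lit 76) (nat_lit 13806082548694) (nat_lit 76) (nat_lit 13805961379341) (nat_lit 1) (nat_lit 4) (nat_lit 2) (nat_lit 5) (nat_lit 2) (nat_lit 4) (nat_lit 427)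 (nat_lit 317) (nat_lit 276))))))) (XT.nd (nat_lit 1014) (nat_lit 0) (nat_lit 0) (XT.nd (nat_lit 468) (nat_lit 0) (nat_lit 0) (XT.nd (nat_lit 234) (nat_lit 0) (nat_lit 0) (XT.nd (nat_lit 78) (nat_lit 0) (nat_lit 0) (XT.lf (nat_lit 0) (nat_lit 57124511797209) (nat_lit 76) (nat_lit 15873987540638) (nat_lit 76) (nat_lit 15873866319812) (nat_lit 1) (nat_lit 4) (nat_lit 2) (nat_lit 5) (nat_lit 2) (nat_lit 4) (nat_lit 428) (nat_lit 317) (nat_lit 275)) (XT.nd (nat_lit 78) (nat_lit 0) (nat_lit 0) (XT.lf (nat_lit 0) (nat_lit 65698788526213) (nat_lit 76) (nat_lit 18252080633406) (nat_lit 76) (nat_lit 18251959367820) (nat_lit 1) (nat_lit 4) (nat_lit 2) (nat_lit 5) (nat_lit 2) (nat_lit 4) (nat_lit 429) (nat_lit 317) (nat_lit 274)) (XT.lf (nat_lit 0) (nat_lit 75559202929935) (nat_lit 76) (nat_lit 20986889735334) (nat_lit 76) (nat_lit 20986768430827) (nat_lit 1) (nat_lit 4) (nat_lit 2) (nat_lit 5) (nat_lit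 2) (nat_lit 4) (nat_lit 430) (nat_lit 317) (nat_lit 273)))) (XT.nd (nat_lit 78) (nat_lit 0) (nat_lit 0) (XT.lf (nat_lit 0) (nat_lit 86898676159754) (nat_lit 76) (nat_lit 24131921981027) (nat_lit 76) (nat_lit 24131800642674) (nat_lit 1) (nat_lit 4) (nat_lit 2) (nat_lit 5) (nat_lit 2) (nat_lit 4) (nat_lit 431) (nat_lit 317) (nat_lit 272)) (XT.nd (nat_lit 78) (nat_lit 0) (nat_lit 0) (XT.lf (nat_lit 0) (nat_lit 99939067474513) (nat_lit 76) (nat_lit 27748710610072) (nat_lit 76) (nat_lit 27748589242289) (nat_lit 1) (nat_lit 4) (nat_lit 2) (nat_lit 5) (nat_lit 2) (nat_lit 4) (nat_lit 432) (nat_lit 317) (nat_lit 271)) (XT.lf (nat_lit 0) (nat_lit 114935514965153) (nat_lit 76) (nat_lit 31908018878257) (nat_lit 76) (nat_lit 31907897484882) (nat_lit 1) (nat_lit 4) (nat_lit 2) (nat_lit 5) (nat_lit 2) (nat_lit 4) (nat_lit 433) (nat_lit 317) (nat_lit 270))))) (XT.nd (nat_lit 234) (nat_lit 0) (nat_lit 0)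 (XT.nd (nat_lit 78) (nat_lit 0) (nat_lit 0) (XT.lf (nat_lit 0) (nat_lit 132181427386926) (nat_lit 76) (nat_lit 36691224556045) (nat_lit 76) (nat_lit 36691103140416) (nat_lit 1) (nat_lit 4) (nat_lit 2) (nat_lit 5) (nat_lit 2) (nat_lit 4) (nat_lit 434) (nat_lit 317) (nat_lit 269)) (XT.nd (nat_lit 78) (nat_lit 0) (nat_lit 0) (XT.lf (nat_lit 0) (nat_lit 152014224765476) (nat_lit 76) (nat_lit 42191912102349) (nat_lit 76) (nat_lit 42191790667370) (nat_lit 1) (nat_lit 4) (nat_lit 2) (nat_lit 5) (nat_lit 2) (nat_lit 4) (nat_lit 435) (nat_lit 317) (nat_lit 268)) (XT.lf (nat_lit 0) (nat_lit 174821940092992) (nat_lit 76) (nat_lit 48517703664816) (nat_lit 76) (nat_lit 48517582213010) (nat_lit 1) (nat_lit 4) (nat_lit 2) (nat_lit 5) (nat_lit 2) (nat_lit 4) (nat_lit 436) (nat_lit 317) (nat_lit 267)))) (XT.nd (nat_lit 156) (nat_lit 0) (nat_lit 0) (XT.nd (nat_lit 78) (nat_lit 0) (nat_lit 0) (XT.lf (nat_lit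 0) (nat_lit 201050811278054) (nat_lit 76) (nat_lit 55792364730536) (nat_lit 76) (nat_lit 55792243264097) (nat_lit 1) (nat_lit 4) (nat_lit 2) (nat_lit 5) (nat_lit 2) (nat_lit 4) (nat_lit 437) (nat_lit 317) (nat_lit 266)) (XT.lf (nat_lit 0) (nat_lit 231214011887327) (nat_lit 76) (nat_lit 64158225624708) (nat_lit 76) (nat_lit 64158104145546) (nat_lit 1) (nat_lit 4) (nat_lit 2) (nat_lit 5) (nat_lit 2) (nat_lit 4) (nat_lit 438) (nat_lit 317) (nat_lit 265))) (XT.nd (nat_lit 78) (nat_lit 0) (nat_lit 0) (XT.lf (nat_lit 0) (nat_lit 265901691497951) (nat_lit 76) (nat_lit 73778966234392) (nat_lit 76) (nat_lit 73778844744166) (nat_lit 1) (nat_lit 4) (nat_lit 2) (nat_lit 5) (nat_lit 2) (nat_lit 4) (nat_lit 439) (nat_lit 317) (nat_lit 264)) (XT.lf (nat_lit 0) (nat_lit 305792522102305) (nat_lit 76) (nat_lit 84842818441083) (nat_lit 76) (nat_lit 84842696941236) (nat_lit 1) (nat_lit 4) (nat_lit 2) (nat_lit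 5) (nat_lit 2) (nat_lit 4) (nat_lit 440) (nat_lit 317) (nat_lit 263)))))) (XT.nd (nat_lit 49140) (nat_lit 0) (nat_lit 0) (XT.nd (nat_lit 48828) (nat_lit 0) (nat_lit 0) (XT.nd (nat_lit 48672) (nat_lit 0) (nat_lit 0) (XT.lf (nat_lit 0) (nat_lit 351666976473085) (nat_lit 76) (nat_lit 97566248918388) (nat_lit 76) (nat_lit 97566127410177) (nat_lit 1) (nat_lit 4) (nat_lit 2) (nat_lit 5) (nat_lit 2) (nat_lit 4) (nat_lit 441) (nat_lit 317) (nat_lit 262)) (XT.nd (nat_lit 78) (nat_lit 0) (nat_lit 0) (XT.lf (nat_lit 0) (nat_lit 18298091131) (nat_lit 76) (nat_lit 39768652939) (nat_lit 76) (nat_lit 39768652939) (nat_lit 1) (nat_lit 4) (nat_lit 2) (nat_lit 5) (nat_lit 2) (nat_lit 4) (nat_lit 384) (nat_lit 318) (nat_lit 318)) (XT.lf (nat_lit 0) (nat_lit 60468459517) (nat_lit 76) (nat_lit 81642224376) (nat_lit 76) (nat_lit 81623989778) (nat_lit 1) (nat_lit 4) (nat_lit 2) (nat_lit 5) (nat_lit 2) (nat_lit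 4) (nat_lit 385) (nat_lit 318) (nat_lit 317)))) (XT.nd (nat_lit 156) (nat_lit 0) (nat_lit 0) (XT.nd (nat_lit 78) (nat_lit 0) (nat_lit 0) (XT.lf (nat_lit 0) (nat_lit 86359399413) (nat_lit 76) (nat_lit 84896087024) (nat_lit 76) (nat_lit 84861996254) (nat_lit 1) (nat_lit 4) (nat_lit 2) (nat_lit 5) (nat_lit 2) (nat_lit 4) (nat_lit 386) (nat_lit 318) (nat_lit 316)) (XT.lf (nat_lit 0) (nat_lit 114775563819) (nat_lit 76) (nat_lit 89362556354) (nat_lit 76) (nat_lit 89314677608) (nat_lit 1) (nat_lit 4) (nat_lit 2) (nat_lit 5) (nat_lit 2) (nat_lit 4) (nat_lit 387) (nat_lit 318) (nat_lit 315))) (XT.nd (nat_lit 78) (nat_lit 0) (nat_lit 0) (XT.lf (nat_lit 0) (nat_lit 146272921170) (nat_lit 76) (nat_lit 95129019808) (nat_lit 76) (nat_lit 95069151519) (nat_lit 1) (nat_lit 4) (nat_lit 2) (nat_lit 5) (nat_lit 2) (nat_lit 4) (nat_lit 388) (nat_lit 318) (nat_lit 314)) (XT.lf (nat_lit 0) (nat_lit 181467724109)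 (nat_lit 76) (nat_lit 102308299499) (nat_lit 76) (nat_lit 102238005519) (nat_lit 1) (nat_lit 4) (nat_lit 2) (nat_lit 5) (nat_lit 2) (nat_lit 4) (nat_lit 389) (nat_lit 318) (nat_lit 313))))) (XT.nd (nat_lit 234) (nat_lit 0) (nat_lit 0) (XT.nd (nat_lit 78) (nat_lit 0) (nat_lit 0) (XT.lf (nat_lit 0) (nat_lit 221048566607) (nat_lit 76) (nat_lit 111040859593) (nat_lit 76) (nat_lit 110961499795) (nat_lit 1) (nat_lit 4) (nat_lit 2) (nat_lit 5) (nat_lit 2) (nat_lit 4) (nat_lit 390) (nat_lit 318) (nat_lit 312)) (XT.nd (nat_lit 78) (nat_lit 0) (nat_lit 0) (XT.lf (nat_lit 0) (nat_lit 265789856451) (nat_lit 76) (nat_lit 121497554528) (nat_lit 76) (nat_lit 121410311410) (nat_lit 1) (nat_lit 4) (nat_lit 2) (nat_lit 5) (nat_lit 2) (nat_lit 4) (nat_lit 391) (nat_lit 318) (nat_lit 311)) (XT.lf (nat_lit 0) (nat_lit 316566966705) (nat_lit 76) (nat_lit 133882971813) (nat_lit 76) (nat_lit 133788873635) (nat_lit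 1) (nat_lit 4) (nat_lit 2) (nat_lit 5) (nat_lit 2) (nat_lit 4) (nat_lit 392) (nat_lit 318) (nat_lit 310)))) (XT.nd (nat_lit 156) (nat_lit 0) (nat_lit 0) (XT.nd (nat_lit 78) (nat_lit 0) (nat_lit 0) (XT.lf (nat_lit 0) (nat_lit 374373362567) (nat_lit 76) (nat_lit 148439434830) (nat_lit 76) (nat_lit 148339375729) (nat_lit 1) (nat_lit 4) (nat_lit 2) (nat_lit 5) (nat_lit 2) (nat_lit 4) (nat_lit 393) (nat_lit 318) (nat_lit 309)) (XT.lf (nat_lit 0) (nat_lit 440340038741) (nat_lit 76) (nat_lit 165451743941) (nat_lit 76) (nat_lit 165346501430) (nat_lit 1) (nat_lit 4) (nat_lit 2) (nat_lit 5) (nat_lit 2) (nat_lit 4) (nat_lit 394) (nat_lit 318) (nat_lit 308))) (XT.nd (nat_lit 78) (nat_lit 0) (nat_lit 0) (XT.lf (nat_lit 0) (nat_lit 515757647586) (nat_lit 76) (nat_lit 185252748674) (nat_lit 76) (nat_lit 185142998849) (nat_lit 1) (nat_lit 4) (nat_lit 2) (nat_lit 5) (nat_lit 2) (nat_lit 4) (nat_lit 395)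 (nat_lit 318) (nat_lit 307)) (XT.lf (nat_lit 0) (nat_lit 602101751014) (nat_lit 76) (nat_lit 208229859990) (nat_lit 76) (nat_lit 208116190762) (nat_lit 1) (nat_lit 4) (nat_lit 2) (nat_lit 5) (nat_lit 2) (nat_lit 4) (nat_lit 396) (nat_lit 318) (nat_lit 306))))))))
noncomputable def xc15 : XT := (XT.nd (nat_lit 2106) (nat_lit 0) (nat_lit 0) (XT.nd (nat_lit 1014) (nat_lit 0) (nat_lit 0) (XT.nd (nat_lit 468) (nat_lit 0) (nat_lit 0) (XT.nd (nat_lit 234) (nat_lit 0) (nat_lit 0) (XT.nd (nat_lit 78) (nat_lit 0) (nat_lit 0) (XT.lf (nat_lit 0) (nat_lit 701061690180) (nat_lit 76) (nat_lit 234832630068) (nat_lit 76) (nat_lit 234715552662) (nat_lit 1) (nat_lit 4) (nat_lit 2) (nat_lit 5) (nat_lit 2) (nat_lit 4) (nat_lit 397) (nat_lit 318) (nat_lit 305)) (XT.nd (nat_lit 78) (nat_lit 0) (nat_lit 0) (XT.lf (nat_lit 0) (nat_lit 814573637805) (nat_lit 76) (nat_lit 265581547886) (nat_lit 76) (nat_lit 265461506849)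 (nat_lit 1) (nat_lit 4) (nat_lit 2) (nat_lit 5) (nat_lit 2) (nat_lit 4) (nat_lit 398) (nat_lit 318) (nat_lit 304)) (XT.lf (nat_lit 0) (nat_lit 944858479823) (nat_lit 76) (nat_lit 301078222707) (nat_lit 76) (nat_lit 300955604598) (nat_lit 1) (nat_lit 4) (nat_lit 2) (nat_lit 5) (nat_lit 2) (nat_lit 4) (nat_lit 399) (nat_lit 318) (nat_lit 303)))) (XT.nd (nat_lit 78) (nat_lit 0) (nat_lit 0) (XT.lf (nat_lit 0) (nat_lit 1094465267489) (nat_lit 76) (nat_lit 342017154690) (nat_lit 76) (nat_lit 341892295650) (nat_lit 1) (nat_lit 4) (nat_lit 2) (nat_lit 5) (nat_lit 2) (nat_lit 4) (nat_lit 400) (nat_lit 318) (nat_lit 302)) (XT.nd (nat_lit 78) (nat_lit 0) (nat_lit 0) (XT.lf (nat_lit 0) (nat_lit 1266321090128) (nat_lit 76) (nat_lit 389199322940) (nat_lit 76) (nat_lit 389072515264) (nat_lit 1) (nat_lit 4) (nat_lit 2) (nat_lit 5) (nat_lit 2) (nat_lit 4) (nat_lit 401) (nat_lit 318) (nat_lit 301)) (XT.lf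 (nat_lit 0) (nat_lit 1463788344269) (nat_lit 76) (nat_lit 443547856834) (nat_lit 76) (nat_lit 443419354692) (nat_lit 1) (nat_lit 4) (nat_lit 2) (nat_lit 5) (nat_lit 2) (nat_lit 4) (nat_lit 402) (nat_lit 318) (nat_lit 300))))) (XT.nd (nat_lit 234) (nat_lit 0) (nat_lit 0) (XT.nd (nat_lit 78) (nat_lit 0) (nat_lit 0) (XT.lf (nat_lit 0) (nat_lit 1690730519668) (nat_lit 76) (nat_lit 506126097254) (nat_lit 76) (nat_lit 505996121663) (nat_lit 1) (nat_lit 4) (nat_lit 2) (nat_lit 5) (nat_lit 2) (nat_lit 4) (nat_lit 403) (nat_lit 318) (nat_lit 299)) (XT.nd (nat_lit 78) (nat_lit 0) (nat_lit 0) (XT.lf (nat_lit 0) (nat_lit 1951587789321) (nat_lit 76) (nat_lit 578158401078) (nat_lit 76) (nat_lit 578027144227) (nat_lit 1) (nat_lit 4) (nat_lit 2) (nat_lit 5) (nat_lit 2) (nat_lit 4) (nat_lit 404) (nat_lit 318) (nat_lit 298)) (XT.lf (nat_lit 0) (nat_lit 2251463882418) (nat_lit 76) (nat_lit 661054095988) (nat_lit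 76) (nat_lit 660921724998) (nat_lit 1) (nat_lit 4) (nat_lit 2) (nat_lit 5) (nat_lit 2) (nat_lit 4) (nat_lit 405) (nat_lit 318) (nat_lit 297)))) (XT.nd (nat_lit 156) (nat_lit 0) (nat_lit 0) (XT.nd (nat_lit 78) (nat_lit 0) (nat_lit 0) (XT.lf (nat_lit 0) (nat_lit 2596225939909) (nat_lit 76) (nat_lit 756435054277) (nat_lit 76) (nat_lit 756301714471) (nat_lit 1) (nat_lit 4) (nat_lit 2) (nat_lit 5) (nat_lit 2) (nat_lit 4) (nat_lit 406) (nat_lit 318) (nat_lit 296)) (XT.lf (nat_lit 0) (nat_lit 2992619306399) (nat_lit 76) (nat_lit 866167425129) (nat_lit 76) (nat_lit 866033242873) (nat_lit 1) (nat_lit 4) (nat_lit 2) (nat_lit 5) (nat_lit 2) (nat_lit 4) (nat_lit 407) (nat_lit 318) (nat_lit 295))) (XT.nd (nat_lit 78) (nat_lit 0) (nat_lit 0) (XT.lf (nat_lit 0) (nat_lit 3448399504275) (nat_lit 76) (nat_lit 992398146233) (nat_lit 76) (nat_lit 992263231413) (nat_lit 1) (nat_lit 4) (nat_lit 2) (nat_lit 5)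 (nat_lit 2) (nat_lit 4) (nat_lit 408) (nat_lit 318) (nat_lit 294)) (XT.lf (nat_lit 0) (nat_lit 3972483972192) (nat_lit 76) (nat_lit 1137596949091) (nat_lit 76) (nat_lit 1137461397258) (nat_lit 1) (nat_lit 4) (nat_lit 2) (nat_lit 5) (nat_lit 2) (nat_lit 4) (nat_lit 409) (nat_lit 318) (nat_lit 293)))))) (XT.nd (nat_lit 546) (nat_lit 0) (nat_lit 0) (XT.nd (nat_lit 234) (nat_lit 0) (nat_lit 0) (XT.nd (nat_lit 78) (nat_lit 0) (nat_lit 0) (XT.lf (nat_lit 0) (nat_lit 4575126536695) (nat_lit 76) (nat_lit 1304604679844) (nat_lit 76) (nat_lit 1304468574087) (nat_lit 1) (nat_lit 4) (nat_lit 2) (nat_lit 5) (nat_lit 2) (nat_lit 4) (nat_lit 410) (nat_lit 318) (nat_lit 292)) (XT.nd (nat_lit 78) (nat_lit 0) (nat_lit 0) (XT.lf (nat_lit 0) (nat_lit 5268118030567) (nat_lit 76) (nat_lit 1496688881052) (nat_lit 76) (nat_lit 1496552293622) (nat_lit 1) (nat_lit 4) (nat_lit 2) (nat_lit 5) (nat_lit 2) (nat_lit 4)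 (nat_lit 411) (nat_lit 318) (nat_lit 291)) (XT.lf (nat_lit 0) (nat_lit 6065016983038) (nat_lit 76) (nat_lit 1717607721867) (nat_lit 76) (nat_lit 1717470715591) (nat_lit 1) (nat_lit 4) (nat_lit 2) (nat_lit 5) (nat_lit 2) (nat_lit 4) (nat_lit 412) (nat_lit 318) (nat_lit 290)))) (XT.nd (nat_lit 156) (nat_lit 0) (nat_lit 0) (XT.nd (nat_lit 78) (nat_lit 0) (nat_lit 0) (XT.lf (nat_lit 0) (nat_lit 6981414895351) (nat_lit 76) (nat_lit 1971683527437) (nat_lit 76) (nat_lit 1971546156947) (nat_lit 1) (nat_lit 4) (nat_lit 2) (nat_lit 5) (nat_lit 2) (nat_lit 4) (nat_lit 413) (nat_lit 318) (nat_lit 289)) (XT.lf (nat_lit 0) (nat_lit 8035241291878) (nat_lit 76) (nat_lit 2263887346132) (nat_lit 76) (nat_lit 2263749658934) (nat_lit 1) (nat_lit 4) (nat_lit 2) (nat_lit 5) (nat_lit 2) (nat_lit 4) (nat_lit 414) (nat_lit 318) (nat_lit 288))) (XT.nd (nat_lit 78) (nat_lit 0) (nat_lit 0) (XT.lf (nat_lit 0) (nat_lit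 9247114515159) (nat_lit 76) (nat_lit 2599936209186) (nat_lit 76) (nat_lit 2599798246590) (nat_lit 1) (nat_lit 4) (nat_lit 2) (nat_lit 5) (nat_lit 2) (nat_lit 4) (nat_lit 415) (nat_lit 318) (nat_lit 287)) (XT.lf (nat_lit 0) (nat_lit 10640745128258) (nat_lit 76) (nat_lit 2986404985659) (nat_lit 76) (nat_lit 2986266783586) (nat_lit 1) (nat_lit 4) (nat_lit 2) (nat_lit 5) (nat_lit 2) (nat_lit 4) (nat_lit 416) (nat_lit 318) (nat_lit 286))))) (XT.nd (nat_lit 234) (nat_lit 0) (nat_lit 0) (XT.nd (nat_lit 78) (nat_lit 0) (nat_lit 0) (XT.lf (nat_lit 0) (nat_lit 12243399817084) (nat_lit 76) (nat_lit 3430855021179) (nat_lit 76) (nat_lit 3430716610865) (nat_lit 1) (nat_lit 4) (nat_lit 2) (nat_lit 5) (nat_lit 2) (nat_lit 4) (nat_lit 417) (nat_lit 318) (nat_lit 285)) (XT.nd (nat_lit 78) (nat_lit 0) (nat_lit 0) (XT.lf (nat_lit 0) (nat_lit 14086434869027) (nat_lit 76) (nat_lit 3941982077309) (nat_lit 76)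 (nat_lit 3941843485917) (nat_lit 1) (nat_lit 4) (nat_lit 2) (nat_lit 5) (nat_lit 2) (nat_lit 4) (nat_lit 418) (nat_lit 318) (nat_lit 284)) (XT.lf (nat_lit 0) (nat_lit 16205909665537) (nat_lit 76) (nat_lit 4529786466017) (nat_lit 76) (nat_lit 4529647717165) (nat_lit 1) (nat_lit 4) (nat_lit 2) (nat_lit 5) (nat_lit 2) (nat_lit 4) (nat_lit 419) (nat_lit 318) (nat_lit 283)))) (XT.nd (nat_lit 156) (nat_lit 0) (nat_lit 0) (XT.nd (nat_lit 78) (nat_lit 0) (nat_lit 0) (XT.lf (nat_lit 0) (nat_lit 18643292191765) (nat_lit 76) (nat_lit 5205768707952) (nat_lit 76) (nat_lit 5205629822179) (nat_lit 1) (nat_lit 4) (nat_lit 2) (nat_lit 5) (nat_lit 2) (nat_lit 4) (nat_lit 420) (nat_lit 318) (nat_lit 282)) (XT.lf (nat_lit 0) (nat_lit 21446270366701) (nat_lit 76) (nat_lit 5983154542631) (nat_lit 76) (nat_lit 5983015537796) (nat_lit 1) (nat_lit 4) (nat_lit 2) (nat_lit 5) (nat_lit 2) (nat_lit 4) (nat_lit 421)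 (nat_lit 318) (nat_lit 281))) (XT.nd (nat_lit 78) (nat_lit 0) (nat_lit 0) (XT.lf (nat_lit 0) (nat_lit 24669685067682) (nat_lit 76) (nat_lit 6877153692905) (nat_lit 76) (nat_lit 6877014584537) (nat_lit 1) (nat_lit 4) (nat_lit 2) (nat_lit 5) (nat_lit 2) (nat_lit 4) (nat_lit 422) (nat_lit 318) (nat_lit 280)) (XT.lf (nat_lit 0) (nat_lit 28376603104074) (nat_lit 76) (nat_lit 7905257446497) (nat_lit 76) (nat_lit 7905118248101) (nat_lit 1) (nat_lit 4) (nat_lit 2) (nat_lit 5) (nat_lit 2) (nat_lit 4) (nat_lit 423) (nat_lit 318) (nat_lit 279))))))) (XT.nd (nat_lit 1014) (nat_lit 0) (nat_lit 0) (XT.nd (nat_lit 468) (nat_lit 0) (nat_lit 0) (XT.nd (nat_lit 234) (nat_lit 0) (nat_lit 0) (XT.nd (nat_lit 78) (nat_lit 0) (nat_lit 0) (XT.lf (nat_lit 0) (nat_lit 32639551133111) (nat_lit 76) (nat_lit 9087580876848) (nat_lit 76) (nat_lit 9087441600166) (nat_lit 1) (nat_lit 4) (nat_lit 2) (nat_lit 5) (nat_lit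 2) (nat_lit 4) (nat_lit 424) (nat_lit 318) (nat_lit 278)) (XT.nd (nat_lit 78) (nat_lit 0) (nat_lit 0) (XT.lf (nat_lit 0) (nat_lit 37541934659708) (nat_lit 76) (nat_lit 10447256398898) (nat_lit 76) (nat_lit 10447117054142) (nat_lit 1) (nat_lit 4) (nat_lit 2) (nat_lit 5) (nat_lit 2) (nat_lit 4) (nat_lit 425) (nat_lit 318) (nat_lit 277)) (XT.lf (nat_lit 0) (nat_lit 43179669883300) (nat_lit 76) (nat_lit 12010886359819) (nat_lit 76) (nat_lit 12010746955868) (nat_lit 1) (nat_lit 4) (nat_lit 2) (nat_lit 5) (nat_lit 2) (nat_lit 4) (nat_lit 426) (nat_lit 318) (nat_lit 276)))) (XT.nd (nat_lit 78) (nat_lit 0) (nat_lit 0) (XT.lf (nat_lit 0) (nat_lit 49663060319131) (nat_lit 76) (nat_lit 13809063519714) (nat_lit 76) (nat_lit 13808924064290) (nat_lit 1) (nat_lit 4) (nat_lit 2) (nat_lit 5) (nat_lit 2) (nat_lit 4) (nat_lit 427) (nat_lit 318) (nat_lit 275)) (XT.nd (nat_lit 78) (nat_lit 0) (nat_lit 0) (XT.lf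 (nat_lit 0) (nat_lit 57118954910509) (nat_lit 76) (nat_lit 15876969605627) (nat_lit 76) (nat_lit 15876830105442) (nat_lit 1) (nat_lit 4) (nat_lit 2) (nat_lit 5) (nat_lit 2) (nat_lit 4) (nat_lit 428) (nat_lit 318) (nat_lit 274)) (XT.lf (nat_lit 0) (nat_lit 65693229855963) (nat_lit 76) (nat_lit 18255063649672) (nat_lit 76) (nat_lit 18254924110566) (nat_lit 1) (nat_lit 4) (nat_lit 2) (nat_lit 5) (nat_lit 2) (nat_lit 4) (nat_lit 429) (nat_lit 318) (nat_lit 273))))) (XT.nd (nat_lit 234) (nat_lit 0) (nat_lit 0) (XT.nd (nat_lit 78) (nat_lit 0) (nat_lit 0) (XT.lf (nat_lit 0) (nat_lit 75553642708773) (nat_lit 76) (nat_lit 20989873578798) (nat_lit 76) (nat_lit 20989734005847) (nat_lit 1) (nat_lit 4) (nat_lit 2) (nat_lit 5) (nat_lit 2) (nat_lit 4) (nat_lit 430) (nat_lit 318) (nat_lit 272)) (XT.nd (nat_lit 78) (nat_lit 0) (nat_lit 0) (XT.lf (nat_lit 0) (nat_lit 86893114589972) (nat_lit 76) (nat_lit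 24134906543792) (nat_lit 76) (nat_lit 24134766941411) (nat_lit 1) (nat_lit 4) (nat_lit 2) (nat_lit 5) (nat_lit 2) (nat_lit 4) (nat_lit 431) (nat_lit 318) (nat_lit 271)) (XT.lf (nat_lit 0) (nat_lit 99933504732018) (nat_lit 76) (nat_lit 27751695798318) (nat_lit 76) (nat_lit 27751556170345) (nat_lit 1) (nat_lit 4) (nat_lit 2) (nat_lit 5) (nat_lit 2) (nat_lit 4) (nat_lit 432) (nat_lit 318) (nat_lit 270)))) (XT.nd (nat_lit 156) (nat_lit 0) (nat_lit 0) (XT.nd (nat_lit 78) (nat_lit 0) (nat_lit 0) (XT.lf (nat_lit 0) (nat_lit 114929951202908) (nat_lit 76) (nat_lit 31911004610398) (nat_lit 76) (nat_lit 31910864960171) (nat_lit 1) (nat_lit 4) (nat_lit 2) (nat_lit 5) (nat_lit 2) (nat_lit 4) (nat_lit 433) (nat_lit 318) (nat_lit 269)) (XT.lf (nat_lit 0) (nat_lit 132175862737942) (nat_lit 76) (nat_lit 36694210761138) (nat_lit 76) (nat_lit 36694071091561) (nat_lit 1) (nat_lit 4) (nat_lit 2) (nat_lit 5)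 (nat_lit 2) (nat_lit 4) (nat_lit 434) (nat_lit 318) (nat_lit 268))) (XT.nd (nat_lit 78) (nat_lit 0) (nat_lit 0) (XT.lf (nat_lit 0) (nat_lit 152008659345414) (nat_lit 76) (nat_lit 42194898718706) (nat_lit 76) (nat_lit 42194759032302) (nat_lit 1) (nat_lit 4) (nat_lit 2) (nat_lit 5) (nat_lit 2) (nat_lit 4) (nat_lit 435) (nat_lit 318) (nat_lit 267)) (XT.lf (nat_lit 0) (nat_lit 174816374002427) (nat_lit 76) (nat_lit 48520690638793) (nat_lit 76) (nat_lit 48520550937757) (nat_lit 1) (nat_lit 4) (nat_lit 2) (nat_lit 5) (nat_lit 2) (nat_lit 4) (nat_lit 436) (nat_lit 318) (nat_lit 266)))))) (XT.nd (nat_lit 48984) (nat_lit 0) (nat_lit 0) (XT.nd (nat_lit 234) (nat_lit 0) (nat_lit 0) (XT.nd (nat_lit 78) (nat_lit 0) (nat_lit 0) (XT.lf (nat_lit 0) (nat_lit 201045244604444) (nat_lit 76) (nat_lit 55795352015487) (nat_lit 76) (nat_lit 55795212301727) (nat_lit 1) (nat_lit 4) (nat_lit 2) (nat_lit 5) (nat_lit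 2) (nat_lit 4) (nat_lit 437) (nat_lit 318) (nat_lit 265)) (XT.nd (nat_lit 78) (nat_lit 0) (nat_lit 0) (XT.lf (nat_lit 0) (nat_lit 231208444706722) (nat_lit 76) (nat_lit 64161213180072) (nat_lit 76) (nat_lit 64161073455247) (nat_lit 1) (nat_lit 4) (nat_lit 2) (nat_lit 5) (nat_lit 2) (nat_lit 4) (nat_lit 438) (nat_lit 318) (nat_lit 264)) (XT.lf (nat_lit 0) (nat_lit 265896123876478) (nat_lit 76) (nat_lit 73781954024897) (nat_lit 76) (nat_lit 73781814290452) (nat_lit 1) (nat_lit 4) (nat_lit 2) (nat_lit 5) (nat_lit 2) (nat_lit 4) (nat_lit 439) (nat_lit 318) (nat_lit 263)))) (XT.nd (nat_lit 48594) (nat_lit 0) (nat_lit 0) (XT.nd (nat_lit 78) (nat_lit 0) (nat_lit 0) (XT.lf (nat_lit 0) (nat_lit 305786954097471) (nat_lit 76) (nat_lit 84845806436058) (nat_lit 76) (nat_lit 84845666693248) (nat_lit 1) (nat_lit 4) (nat_lit 2) (nat_lit 5) (nat_lit 2) (nat_lit 4) (nat_lit 440) (nat_lit 318) (nat_lit 262))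 (XT.lf (nat_lit 0) (nat_lit 351661408134893) (nat_lit 76) (nat_lit 97569237091165) (nat_lit 76) (nat_lit 97569097341079) (nat_lit 1) (nat_lit 4) (nat_lit 2) (nat_lit 5) (nat_lit 2) (nat_lit 4) (nat_lit 441) (nat_lit 318) (nat_lit 261))) (XT.nd (nat_lit 78) (nat_lit 76) (nat_lit 0) (XT.lf (nat_lit 0) (nat_lit 36208750791) (nat_lit 152) (nat_lit 2718967916) (nat_lit 0) (nat_lit 36208750791) (nat_lit 2) (nat_lit 5) (nat_lit 4) (nat_lit 4) (nat_lit 2) (nat_lit 4) (nat_lit 382) (nat_lit 319) (nat_lit 319)) (XT.lf (nat_lit 0) (nat_lit 14275501359) (nat_lit 76) (nat_lit 78561118133) (nat_lit 76) (nat_lit 78540148345) (nat_lit 1) (nat_lit 4) (nat_lit 2) (nat_lit 5) (nat_lit 2) (nat_lit 4) (nat_lit 383) (nat_lit 319) (nat_lit 318))))) (XT.nd (nat_lit 234) (nat_lit 0) (nat_lit 0) (XT.nd (nat_lit 78) (nat_lit 0) (nat_lit 0) (XT.lf (nat_lit 0) (nat_lit 35760598176) (nat_lit 76) (nat_lit 80003944193)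 (nat_lit 76) (nat_lit 79964739808) (nat_lit 1) (nat_lit 4) (nat_lit 2) (nat_lit 5) (nat_lit 2) (nat_lit 4) (nat_lit 384) (nat_lit 319) (nat_lit 317)) (XT.nd (nat_lit 78) (nat_lit 0) (nat_lit 0) (XT.lf (nat_lit 0) (nat_lit 58906280572) (nat_lit 76) (nat_lit 82496400540) (nat_lit 76) (nat_lit 82441339983) (nat_lit 1) (nat_lit 4) (nat_lit 2) (nat_lit 5) (nat_lit 2) (nat_lit 4) (nat_lit 385) (nat_lit 319) (nat_lit 316)) (XT.lf (nat_lit 0) (nat_lit 84165398852) (nat_lit 76) (nat_lit 86087252623) (nat_lit 76) (nat_lit 86018404090) (nat_lit 1) (nat_lit 4) (nat_lit 2) (nat_lit 5) (nat_lit 2) (nat_lit 4) (nat_lit 386) (nat_lit 319) (nat_lit 315)))) (XT.nd (nat_lit 156) (nat_lit 0) (nat_lit 0) (XT.nd (nat_lit 78) (nat_lit 0) (nat_lit 0) (XT.lf (nat_lit 0) (nat_lit 112032153158) (nat_lit 76) (nat_lit 90846756244) (nat_lit 76) (nat_lit 90765918166) (nat_lit 1) (nat_lit 4) (nat_lit 2) (nat_lit 5) (nat_lit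 2) (nat_lit 4) (nat_lit 387) (nat_lit 319) (nat_lit 314)) (XT.lf (nat_lit 0) (nat_lit 143051762595) (nat_lit 76) (nat_lit 96868032125) (nat_lit 76) (nat_lit 96776768357) (nat_lit 1) (nat_lit 4) (nat_lit 2) (nat_lit 5) (nat_lit 2) (nat_lit 4) (nat_lit 388) (nat_lit 319) (nat_lit 313))) (XT.nd (nat_lit 78) (nat_lit 0) (nat_lit 0) (XT.lf (nat_lit 0) (nat_lit 177831132565) (nat_lit 76) (nat_lit 104268887839) (nat_lit 76) (nat_lit 104168558254) (nat_lit 1) (nat_lit 4) (nat_lit 2) (nat_lit 5) (nat_lit 2) (nat_lit 4) (nat_lit 389) (nat_lit 319) (nat_lit 312)) (XT.lf (nat_lit 0) (nat_lit 217050729003) (nat_lit 76) (nat_lit 113194122736) (nat_lit 76) (nat_lit 113085909831) (nat_lit 1) (nat_lit 4) (nat_lit 2) (nat_lit 5) (nat_lit 2) (nat_lit 4) (nat_lit 390) (nat_lit 319) (nat_lit 311))))))))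
noncomputable def xc16 : XT := (XT.nd (nat_lit 2028) (nat_lit 0) (nat_lit 0) (XT.nd (nat_lit 1014) (nat_lit 0) (nat_lit 0) (XT.nd (nat_lit 468) (nat_lit 0) (nat_lit 0) (XT.nd (nat_lit 234) (nat_lit 0) (nat_lit 0) (XT.nd (nat_lit 78) (nat_lit 0) (nat_lit 0) (XT.lf (nat_lit 0) (nat_lit 261477891839) (nat_lit 76) (nat_lit 123818360978) (nat_lit 76) (nat_lit 123703293012) (nat_lit 1) (nat_lit 4) (nat_lit 2) (nat_lit 5) (nat_lit 2) (nat_lit 4) (nat_lit 391) (nat_lit 319) (nat_lit 310)) (XT.nd (nat_lit 78) (nat_lit 0) (nat_lit 0) (XT.lf (nat_lit 0) (nat_lit 311981848172) (nat_lit 76) (nat_lit 136349468095) (nat_lit 76) (nat_lit 136228439207) (nat_lit 1) (nat_lit 4) (nat_lit 2) (nat_lit 5) (nat_lit 2) (nat_lit 4) (nat_lit 392) (nat_lit 319) (nat_lit 309)) (XT.lf (nat_lit 0) (nat_lit 369550718887) (nat_lit 76) (nat_lit 151032617922) (nat_lit 76) (nat_lit 150906405623) (nat_lit 1) (nat_lit 4) (nat_lit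 2) (nat_lit 5) (nat_lit 2) (nat_lit 4) (nat_lit 393) (nat_lit 319) (nat_lit 308)))) (XT.nd (nat_lit 78) (nat_lit 0) (nat_lit 0) (XT.lf (nat_lit 0) (nat_lit 435310851454) (nat_lit 76) (nat_lit 168155089478) (nat_lit 76) (nat_lit 168024369865) (nat_lit 1) (nat_lit 4) (nat_lit 2) (nat_lit 5) (nat_lit 2) (nat_lit 4) (nat_lit 394) (nat_lit 319) (nat_lit 307)) (XT.nd (nat_lit 78) (nat_lit 0) (nat_lit 0) (XT.lf (nat_lit 0) (nat_lit 510548857162) (nat_lit 76) (nat_lit 188051887640) (nat_lit 76) (nat_lit 187917248624) (nat_lit 1) (nat_lit 4) (nat_lit 2) (nat_lit 5) (nat_lit 2) (nat_lit 4) (nat_lit 395) (nat_lit 319) (nat_lit 306)) (XT.lf (nat_lit 0) (nat_lit 596736783950) (nat_lit 76) (nat_lit 211112297590) (nat_lit 76) (nat_lit 210974250397) (nat_lit 1) (nat_lit 4) (nat_lit 2) (nat_lit 5) (nat_lit 2) (nat_lit 4) (nat_lit 396) (nat_lit 319) (nat_lit 305))))) (XT.nd (nat_lit 234) (nat_lit 0) (nat_lit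 0) (XT.nd (nat_lit 78) (nat_lit 0) (nat_lit 0) (XT.lf (nat_lit 0) (nat_lit 695560917341) (nat_lit 76) (nat_lit 237787501263) (nat_lit 76) (nat_lit 237646490438) (nat_lit 1) (nat_lit 4) (nat_lit 2) (nat_lit 5) (nat_lit 2) (nat_lit 4) (nat_lit 397) (nat_lit 319) (nat_lit 304)) (XT.nd (nat_lit 78) (nat_lit 0) (nat_lit 0) (XT.lf (nat_lit 0) (nat_lit 808954772989) (nat_lit 76) (nat_lit 268599404816) (nat_lit 76) (nat_lit 268455816920) (nat_lit 1) (nat_lit 4) (nat_lit 2) (nat_lit 5) (nat_lit 2) (nat_lit 4) (nat_lit 398) (nat_lit 319) (nat_lit 303)) (XT.lf (nat_lit 0) (nat_lit 939136926330) (nat_lit 76) (nat_lit 304150849841) (nat_lit 76) (nat_lit 304005021014) (nat_lit 1) (nat_lit 4) (nat_lit 2) (nat_lit 5) (nat_lit 2) (nat_lit 4) (nat_lit 399) (nat_lit 319) (nat_lit 302)))) (XT.nd (nat_lit 156) (nat_lit 0) (nat_lit 0) (XT.nd (nat_lit 78) (nat_lit 0) (nat_lit 0) (XT.lf (nat_lit 0) (nat_lit 1088654419496)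 (nat_lit 76) (nat_lit 345137408089) (nat_lit 76) (nat_lit 344989630625) (nat_lit 1) (nat_lit 4) (nat_lit 2) (nat_lit 5) (nat_lit 2) (nat_lit 4) (nat_lit 400) (nat_lit 319) (nat_lit 301)) (XT.lf (nat_lit 0) (nat_lit 1260432594742) (nat_lit 76) (nat_lit 392360990482) (nat_lit 76) (nat_lit 392211518552) (nat_lit 1) (nat_lit 4) (nat_lit 2) (nat_lit 5) (nat_lit 2) (nat_lit 4) (nat_lit 401) (nat_lit 319) (nat_lit 300))) (XT.nd (nat_lit 78) (nat_lit 0) (nat_lit 0) (XT.lf (nat_lit 0) (nat_lit 1457832329412) (nat_lit 76) (nat_lit 446745536675) (nat_lit 76) (nat_lit 446594591296) (nat_lit 1) (nat_lit 4) (nat_lit 2) (nat_lit 5) (nat_lit 2) (nat_lit 4) (nat_lit 402) (nat_lit 319) (nat_lit 299)) (XT.lf (nat_lit 0) (nat_lit 1684715792227) (nat_lit 76) (nat_lit 509355092137) (nat_lit 76) (nat_lit 509202865498) (nat_lit 1) (nat_lit 4) (nat_lit 2) (nat_lit 5) (nat_lit 2) (nat_lit 4) (nat_lit 403) (nat_lit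 319) (nat_lit 298)))))) (XT.nd (nat_lit 468) (nat_lit 0) (nat_lit 0) (XT.nd (nat_lit 234) (nat_lit 0) (nat_lit 0) (XT.nd (nat_lit 78) (nat_lit 0) (nat_lit 0) (XT.lf (nat_lit 0) (nat_lit 1945522007459) (nat_lit 76) (nat_lit 581414626432) (nat_lit 76) (nat_lit 581261285654) (nat_lit 1) (nat_lit 4) (nat_lit 2) (nat_lit 5) (nat_lit 2) (nat_lit 4) (nat_lit 404) (nat_lit 319) (nat_lit 297)) (XT.nd (nat_lit 78) (nat_lit 0) (nat_lit 0) (XT.lf (nat_lit 0) (nat_lit 2245353705407) (nat_lit 76) (nat_lit 664334000013) (nat_lit 76) (nat_lit 664179690418) (nat_lit 1) (nat_lit 4) (nat_lit 2) (nat_lit 5) (nat_lit 2) (nat_lit 4) (nat_lit 405) (nat_lit 319) (nat_lit 296)) (XT.lf (nat_lit 0) (nat_lit 2590077158422) (nat_lit 76) (nat_lit 759735548450) (nat_lit 76) (nat_lit 759580396407) (nat_lit 1) (nat_lit 4) (nat_lit 2) (nat_lit 5) (nat_lit 2) (nat_lit 4) (nat_lit 406) (nat_lit 319) (nat_lit 295)))) (XT.nd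 (nat_lit 78) (nat_lit 0) (nat_lit 0) (XT.lf (nat_lit 0) (nat_lit 2986436955802) (nat_lit 76) (nat_lit 869485823779) (nat_lit 76) (nat_lit 869329939171) (nat_lit 1) (nat_lit 4) (nat_lit 2) (nat_lit 5) (nat_lit 2) (nat_lit 4) (nat_lit 407) (nat_lit 319) (nat_lit 294)) (XT.nd (nat_lit 78) (nat_lit 0) (nat_lit 0) (XT.lf (nat_lit 0) (nat_lit 3442187963147) (nat_lit 76) (nat_lit 995732113993) (nat_lit 76) (nat_lit 995575592373) (nat_lit 1) (nat_lit 4) (nat_lit 2) (nat_lit 5) (nat_lit 2) (nat_lit 4) (nat_lit 408) (nat_lit 319) (nat_lit 293)) (XT.lf (nat_lit 0) (nat_lit 3966247047993) (nat_lit 76) (nat_lit 1140944455208) (nat_lit 76) (nat_lit 1140787379663) (nat_lit 1) (nat_lit 4) (nat_lit 2) (nat_lit 5) (nat_lit 2) (nat_lit 4) (nat_lit 409) (nat_lit 319) (nat_lit 292))))) (XT.nd (nat_lit 234) (nat_lit 0) (nat_lit 0) (XT.nd (nat_lit 78) (nat_lit 0) (nat_lit 0) (XT.lf (nat_lit 0) (nat_lit 4568867540261)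 (nat_lit 76) (nat_lit 1307963958445) (nat_lit 76) (nat_lit 1307806401228) (nat_lit 1) (nat_lit 4) (nat_lit 2) (nat_lit 5) (nat_lit 2) (nat_lit 4) (nat_lit 410) (nat_lit 319) (nat_lit 291)) (XT.nd (nat_lit 78) (nat_lit 0) (nat_lit 0) (XT.lf (nat_lit 0) (nat_lit 5261839840886) (nat_lit 76) (nat_lit 1500058396596) (nat_lit 76) (nat_lit 1499900420532) (nat_lit 1) (nat_lit 4) (nat_lit 2) (nat_lit 5) (nat_lit 2) (nat_lit 4) (nat_lit 411) (nat_lit 319) (nat_lit 290)) (XT.lf (nat_lit 0) (nat_lit 6058722103576) (nat_lit 76) (nat_lit 1720986139101) (nat_lit 76) (nat_lit 1720827798823) (nat_lit 1) (nat_lit 4) (nat_lit 2) (nat_lit 5) (nat_lit 2) (nat_lit 4) (nat_lit 412) (nat_lit 319) (nat_lit 289)))) (XT.nd (nat_lit 156) (nat_lit 0) (nat_lit 0) (XT.nd (nat_lit 78) (nat_lit 0) (nat_lit 0) (XT.lf (nat_lit 0) (nat_lit 6975105503037) (nat_lit 76) (nat_lit 1975069685270) (nat_lit 76) (nat_lit 1974911028285)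 (nat_lit 1) (nat_lit 4) (nat_lit 2) (nat_lit 5) (nat_lit 2) (nat_lit 4) (nat_lit 413) (nat_lit 319) (nat_lit 288)) (XT.lf (nat_lit 0) (nat_lit 8028919279691) (nat_lit 76) (nat_lit 2267280234920) (nat_lit 76) (nat_lit 2267121302537) (nat_lit 1) (nat_lit 4) (nat_lit 2) (nat_lit 5) (nat_lit 2) (nat_lit 4) (nat_lit 414) (nat_lit 319) (nat_lit 287))) (XT.nd (nat_lit 78) (nat_lit 0) (nat_lit 0) (XT.lf (nat_lit 0) (nat_lit 9240781529170) (nat_lit 76) (nat_lit 2603334950980) (nat_lit 76) (nat_lit 2603175779119) (nat_lit 1) (nat_lit 4) (nat_lit 2) (nat_lit 5) (nat_lit 2) (nat_lit 4) (nat_lit 415) (nat_lit 319) (nat_lit 286)) (XT.lf (nat_lit 0) (nat_lit 10634402599833) (nat_lit 76) (nat_lit 2989808817023) (nat_lit 76) (nat_lit 2989649436922) (nat_lit 1) (nat_lit 4) (nat_lit 2) (nat_lit 5) (nat_lit 2) (nat_lit 4) (nat_lit 416) (nat_lit 319) (nat_lit 285))))))) (XT.nd (nat_lit 1014) (nat_lit 0) (nat_lit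 0) (XT.nd (nat_lit 468) (nat_lit 0) (nat_lit 0) (XT.nd (nat_lit 234) (nat_lit 0) (nat_lit 0) (XT.nd (nat_lit 78) (nat_lit 0) (nat_lit 0) (XT.lf (nat_lit 0) (nat_lit 12237048990888) (nat_lit 76) (nat_lit 3434263278255) (nat_lit 76) (nat_lit 3434103717076) (nat_lit 1) (nat_lit 4) (nat_lit 2) (nat_lit 5) (nat_lit 2) (nat_lit 4) (nat_lit 417) (nat_lit 319) (nat_lit 284)) (XT.nd (nat_lit 78) (nat_lit 0) (nat_lit 0) (XT.lf (nat_lit 0) (nat_lit 14080076827378) (nat_lit 76) (nat_lit 3945394182831) (nat_lit 76) (nat_lit 3945234464192) (nat_lit 1) (nat_lit 4) (nat_lit 2) (nat_lit 5) (nat_lit 2) (nat_lit 4) (nat_lit 418) (nat_lit 319) (nat_lit 283)) (XT.lf (nat_lit 0) (nat_lit 16199545349582) (nat_lit 76) (nat_lit 4533201918014) (nat_lit 76) (nat_lit 4533042062454) (nat_lit 1) (nat_lit 4) (nat_lit 2) (nat_lit 5) (nat_lit 2) (nat_lit 4) (nat_lit 419) (nat_lit 319) (nat_lit 282)))) (XT.nd (nat_lit 78)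 (nat_lit 0) (nat_lit 0) (XT.lf (nat_lit 0) (nat_lit 18636922419891) (nat_lit 76) (nat_lit 5209187069928) (nat_lit 76) (nat_lit 5209027095305) (nat_lit 1) (nat_lit 4) (nat_lit 2) (nat_lit 5) (nat_lit 2) (nat_lit 4) (nat_lit 420) (nat_lit 319) (nat_lit 281)) (XT.nd (nat_lit 78) (nat_lit 0) (nat_lit 0) (XT.lf (nat_lit 0) (nat_lit 21439895850550) (nat_lit 76) (nat_lit 5986575435022) (nat_lit 76) (nat_lit 5986415356867) (nat_lit 1) (nat_lit 4) (nat_lit 2) (nat_lit 5) (nat_lit 2) (nat_lit 4) (nat_lit 421) (nat_lit 319) (nat_lit 280)) (XT.lf (nat_lit 0) (nat_lit 24663306426072) (nat_lit 76) (nat_lit 6880576785658) (nat_lit 76) (nat_lit 6880416617474) (nat_lit 1) (nat_lit 4) (nat_lit 2) (nat_lit 5) (nat_lit 2) (nat_lit 4) (nat_lit 422) (nat_lit 319) (nat_lit 279))))) (XT.nd (nat_lit 234) (nat_lit 0) (nat_lit 0) (XT.nd (nat_lit 78) (nat_lit 0) (nat_lit 0) (XT.lf (nat_lit 0) (nat_lit 28370220875109)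 (nat_lit 76) (nat_lit 7908682452608) (nat_lit 76) (nat_lit 7908522206139) (nat_lit 1) (nat_lit 4) (nat_lit 2) (nat_lit 5) (nat_lit 2) (nat_lit 4) (nat_lit 423) (nat_lit 319) (nat_lit 278)) (XT.nd (nat_lit 78) (nat_lit 0) (nat_lit 0) (XT.lf (nat_lit 0) (nat_lit 32633165784706) (nat_lit 76) (nat_lit 9091007546748) (nat_lit 76) (nat_lit 9090847232205) (nat_lit 1) (nat_lit 4) (nat_lit 2) (nat_lit 5) (nat_lit 2) (nat_lit 4) (nat_lit 424) (nat_lit 319) (nat_lit 277)) (XT.lf (nat_lit 0) (nat_lit 37535546598748) (nat_lit 76) (nat_lit 10450684515571) (nat_lit 76) (nat_lit 10450524141833) (nat_lit 1) (nat_lit 4) (nat_lit 2) (nat_lit 5) (nat_lit 2) (nat_lit 4) (nat_lit 425) (nat_lit 319) (nat_lit 276)))) (XT.nd (nat_lit 156) (nat_lit 0) (nat_lit 0) (XT.nd (nat_lit 78) (nat_lit 0) (nat_lit 0) (XT.lf (nat_lit 0) (nat_lit 43173279463595) (nat_lit 76) (nat_lit 12014315734555) (nat_lit 76) (nat_lit 12014155309344)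 (nat_lit 1) (nat_lit 4) (nat_lit 2) (nat_lit 5) (nat_lit 2) (nat_lit 4) (nat_lit 426) (nat_lit 319) (nat_lit 275)) (XT.lf (nat_lit 0) (nat_lit 49656667848344) (nat_lit 76) (nat_lit 13812493988420) (nat_lit 76) (nat_lit 13812333518448) (nat_lit 1) (nat_lit 4) (nat_lit 2) (nat_lit 5) (nat_lit 2) (nat_lit 4) (nat_lit 427) (nat_lit 319) (nat_lit 274))) (XT.nd (nat_lit 78) (nat_lit 0) (nat_lit 0) (XT.lf (nat_lit 0) (nat_lit 57112560656173) (nat_lit 76) (nat_lit 15880401025609) (nat_lit 76) (nat_lit 15880240516716) (nat_lit 1) (nat_lit 4) (nat_lit 2) (nat_lit 5) (nat_lit 2) (nat_lit 4) (nat_lit 428) (nat_lit 319) (nat_lit 273)) (XT.lf (nat_lit 0) (nat_lit 65686834050714) (nat_lit 76) (nat_lit 18258495896852) (nat_lit 76) (nat_lit 18258335354113) (nat_lit 1) (nat_lit 4) (nat_lit 2) (nat_lit 5) (nat_lit 2) (nat_lit 4) (nat_lit 429) (nat_lit 319) (nat_lit 272)))))) (XT.nd (nat_lit 546) (nat_lit 0)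 (nat_lit 0) (XT.nd (nat_lit 234) (nat_lit 0) (nat_lit 0) (XT.nd (nat_lit 78) (nat_lit 0) (nat_lit 0) (XT.lf (nat_lit 0) (nat_lit 75547245554904) (nat_lit 76) (nat_lit 20993306545280) (nat_lit 76) (nat_lit 20993145973111) (nat_lit 1) (nat_lit 4) (nat_lit 2) (nat_lit 5) (nat_lit 2) (nat_lit 4) (nat_lit 430) (nat_lit 319) (nat_lit 271)) (XT.nd (nat_lit 78) (nat_lit 0) (nat_lit 0) (XT.lf (nat_lit 0) (nat_lit 86886716263390) (nat_lit 76) (nat_lit 24138340135754) (nat_lit 76) (nat_lit 24138179537994) (nat_lit 1) (nat_lit 4) (nat_lit 2) (nat_lit 5) (nat_lit 2) (nat_lit 4) (nat_lit 431) (nat_lit 319) (nat_lit 270)) (XT.lf (nat_lit 0) (nat_lit 99927105385686) (nat_lit 76) (nat_lit 27755129934175) (nat_lit 76) (nat_lit 27754969314161) (nat_lit 1) (nat_lit 4) (nat_lit 2) (nat_lit 5) (nat_lit 2) (nat_lit 4) (nat_lit 432) (nat_lit 319) (nat_lit 269)))) (XT.nd (nat_lit 156) (nat_lit 0) (nat_lit 0) (XT.nd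 (nat_lit 78) (nat_lit 0) (nat_lit 0) (XT.lf (nat_lit 0) (nat_lit 114923550969837) (nat_lit 76) (nat_lit 31914439219208) (nat_lit 76) (nat_lit 31914278579843) (nat_lit 1) (nat_lit 4) (nat_lit 2) (nat_lit 5) (nat_lit 2) (nat_lit 4) (nat_lit 433) (nat_lit 319) (nat_lit 268)) (XT.lf (nat_lit 0) (nat_lit 132169461733793) (nat_lit 76) (nat_lit 36697645781212) (nat_lit 76) (nat_lit 36697485125021) (nat_lit 1) (nat_lit 4) (nat_lit 2) (nat_lit 5) (nat_lit 2) (nat_lit 4) (nat_lit 434) (nat_lit 319) (nat_lit 267))) (XT.nd (nat_lit 78) (nat_lit 0) (nat_lit 0) (XT.lf (nat_lit 0) (nat_lit 152002257670763) (nat_lit 76) (nat_lit 42198334096401) (nat_lit 76) (nat_lit 42198173425577) (nat_lit 1) (nat_lit 4) (nat_lit 2) (nat_lit 5) (nat_lit 2) (nat_lit 4) (nat_lit 435) (nat_lit 319) (nat_lit 266)) (XT.lf (nat_lit 0) (nat_lit 174809971744730) (nat_lit 76) (nat_lit 48524126327461) (nat_lit 76) (nat_lit 48523965643914)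 (nat_lit 1) (nat_lit 4) (nat_lit 2) (nat_lit 5) (nat_lit 2) (nat_lit 4) (nat_lit 436) (nat_lit 319) (nat_lit 265))))) (XT.nd (nat_lit 234) (nat_lit 0) (nat_lit 0) (XT.nd (nat_lit 78) (nat_lit 0) (nat_lit 0) (XT.lf (nat_lit 0) (nat_lit 201038841839751) (nat_lit 76) (nat_lit 55798787974568) (nat_lit 76) (nat_lit 55798627279956) (nat_lit 1) (nat_lit 4) (nat_lit 2) (nat_lit 5) (nat_lit 2) (nat_lit 4) (nat_lit 437) (nat_lit 319) (nat_lit 264)) (XT.nd (nat_lit 78) (nat_lit 0) (nat_lit 0) (XT.lf (nat_lit 0) (nat_lit 231202041501162) (nat_lit 76) (nat_lit 64164649374293) (nat_lit 76) (nat_lit 64164488670061) (nat_lit 1) (nat_lit 4) (nat_lit 2) (nat_lit 5) (nat_lit 2) (nat_lit 4) (nat_lit 438) (nat_lit 319) (nat_lit 263)) (XT.lf (nat_lit 0) (nat_lit 265889720287558) (nat_lit 76) (nat_lit 73785390423589) (nat_lit 76) (nat_lit 73785229710991) (nat_lit 1) (nat_lit 4) (nat_lit 2) (nat_lit 5) (nat_lit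 2) (nat_lit 4) (nat_lit 439) (nat_lit 319) (nat_lit 262)))) (XT.nd (nat_lit 48516) (nat_lit 0) (nat_lit 76) (XT.nd (nat_lit 48438) (nat_lit 0) (nat_lit 76) (XT.lf (nat_lit 0) (nat_lit 305780550175192) (nat_lit 76) (nat_lit 84849243012551) (nat_lit 76) (nat_lit 84849082292678) (nat_lit 1) (nat_lit 4) (nat_lit 2) (nat_lit 5) (nat_lit 2) (nat_lit 4) (nat_lit 440) (nat_lit 319) (nat_lit 261)) (XT.lf (nat_lit 0) (nat_lit 19185116554) (nat_lit 152) (nat_lit 19677585671) (nat_lit 0) (nat_lit 19185116554) (nat_lit 2) (nat_lit 5) (nat_lit 4) (nat_lit 4) (nat_lit 2) (nat_lit 4) (nat_lit 380) (nat_lit 320) (nat_lit 320))) (XT.nd (nat_lit 78) (nat_lit 0) (nat_lit 0) (XT.lf (nat_lit 0) (nat_lit 54435948867) (nat_lit 152) (nat_lit 23111489768) (nat_lit 0) (nat_lit 54411833611) (nat_lit 2) (nat_lit 5) (nat_lit 4) (nat_lit 4) (nat_lit 2) (nat_lit 4) (nat_lit 381) (nat_lit 320) (nat_lit 319)) (XT.lf (nat_lit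 0) (nat_lit 72033003663) (nat_lit 152) (nat_lit 6313309638) (nat_lit 0) (nat_lit 71987918620) (nat_lit 2) (nat_lit 5) (nat_lit 4) (nat_lit 4) (nat_lit 2) (nat_lit 4) (nat_lit 382) (nat_lit 320) (nat_lit 318))))))))
noncomputable def xc17 : XT := (XT.nd (nat_lit 2028) (nat_lit 0) (nat_lit 0) (XT.nd (nat_lit 1014) (nat_lit 0) (nat_lit 0) (XT.nd (nat_lit 468) (nat_lit 0) (nat_lit 0) (XT.nd (nat_lit 234) (nat_lit 0) (nat_lit 0) (XT.nd (nat_lit 78) (nat_lit 0) (nat_lit 0) (XT.lf (nat_lit 0) (nat_lit 12478995572) (nat_lit 76) (nat_lit 79543420722) (nat_lit 76) (nat_lit 79480101081) (nat_lit 1) (nat_lit 4) (nat_lit 2) (nat_lit 5) (nat_lit 2) (nat_lit 4) (nat_lit 383) (nat_lit 320) (nat_lit 317)) (XT.nd (nat_lit 78) (nat_lit 0) (nat_lit 0) (XT.lf (nat_lit 0) (nat_lit 33237497531) (nat_lit 76) (nat_lit 81373784632) (nat_lit 76) (nat_lit 81294608819) (nat_lit 1) (nat_lit 4) (nat_lit 2) (nat_lit 5)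 (nat_lit 2) (nat_lit 4) (nat_lit 384) (nat_lit 320) (nat_lit 316)) (XT.lf (nat_lit 0) (nat_lit 55751358310) (nat_lit 76) (nat_lit 84203230413) (nat_lit 76) (nat_lit 84110266625) (nat_lit 1) (nat_lit 4) (nat_lit 2) (nat_lit 5) (nat_lit 2) (nat_lit 4) (nat_lit 385) (nat_lit 320) (nat_lit 315)))) (XT.nd (nat_lit 78) (nat_lit 0) (nat_lit 0) (XT.lf (nat_lit 0) (nat_lit 80461066490) (nat_lit 76) (nat_lit 88087116787) (nat_lit 76) (nat_lit 87982163454) (nat_lit 1) (nat_lit 4) (nat_lit 2) (nat_lit 5) (nat_lit 2) (nat_lit 4) (nat_lit 386) (nat_lit 320) (nat_lit 314)) (XT.nd (nat_lit 78) (nat_lit 0) (nat_lit 0) (XT.lf (nat_lit 0) (nat_lit 107850072882) (nat_lit 76) (nat_lit 93101432835) (nat_lit 76) (nat_lit 92986053811) (nat_lit 1) (nat_lit 4) (nat_lit 2) (nat_lit 5) (nat_lit 2) (nat_lit 4) (nat_lit 387) (nat_lit 320) (nat_lit 313)) (XT.lf (nat_lit 0) (nat_lit 138454249351) (nat_lit 76) (nat_lit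 99344284739) (nat_lit 76) (nat_lit 99219839898) (nat_lit 1) (nat_lit 4) (nat_lit 2) (nat_lit 5) (nat_lit 2) (nat_lit 4) (nat_lit 388) (nat_lit 320) (nat_lit 312))))) (XT.nd (nat_lit 234) (nat_lit 0) (nat_lit 0) (XT.nd (nat_lit 78) (nat_lit 0) (nat_lit 0) (XT.lf (nat_lit 0) (nat_lit 172872373262) (nat_lit 76) (nat_lit 106937815256) (nat_lit 76) (nat_lit 106805487095) (nat_lit 1) (nat_lit 4) (nat_lit 2) (nat_lit 5) (nat_lit 2) (nat_lit 4) (nat_lit 389) (nat_lit 320) (nat_lit 311)) (XT.nd (nat_lit 78) (nat_lit 0) (nat_lit 0) (XT.lf (nat_lit 0) (nat_lit 211777842692) (nat_lit 76) (nat_lit 116030593461) (nat_lit 76) (nat_lit 115891410239) (nat_lit 1) (nat_lit 4) (nat_lit 2) (nat_lit 5) (nat_lit 2) (nat_lit 4) (nat_lit 390) (nat_lit 320) (nat_lit 310)) (XT.lf (nat_lit 0) (nat_lit 255931851607) (nat_lit 76) (nat_lit 126800521534) (nat_lit 76) (nat_lit 126655377390) (nat_lit 1) (nat_lit 4) (nat_lit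 2) (nat_lit 5) (nat_lit 2) (nat_lit 4) (nat_lit 391) (nat_lit 320) (nat_lit 309)))) (XT.nd (nat_lit 156) (nat_lit 0) (nat_lit 0) (XT.nd (nat_lit 78) (nat_lit 0) (nat_lit 0) (XT.lf (nat_lit 0) (nat_lit 306198282792) (nat_lit 76) (nat_lit 139458315462) (nat_lit 76) (nat_lit 139307987907) (nat_lit 1) (nat_lit 4) (nat_lit 2) (nat_lit 5) (nat_lit 2) (nat_lit 4) (nat_lit 392) (nat_lit 320) (nat_lit 308)) (XT.lf (nat_lit 0) (nat_lit 363560609900) (nat_lit 76) (nat_lit 154251627733) (nat_lit 76) (nat_lit 154096792864) (nat_lit 1) (nat_lit 4) (nat_lit 2) (nat_lit 5) (nat_lit 2) (nat_lit 4) (nat_lit 393) (nat_lit 320) (nat_lit 307))) (XT.nd (nat_lit 78) (nat_lit 0) (nat_lit 0) (XT.lf (nat_lit 0) (nat_lit 429141139330) (nat_lit 76) (nat_lit 171469892718) (nat_lit 76) (nat_lit 171311138446) (nat_lit 1) (nat_lit 4) (nat_lit 2) (nat_lit 5) (nat_lit 2) (nat_lit 4) (nat_lit 394) (nat_lit 320) (nat_lit 306))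 (XT.lf (nat_lit 0) (nat_lit 504222968398) (nat_lit 76) (nat_lit 191449989514) (nat_lit 76) (nat_lit 191287827066) (nat_lit 1) (nat_lit 4) (nat_lit 2) (nat_lit 5) (nat_lit 2) (nat_lit 4) (nat_lit 395) (nat_lit 320) (nat_lit 305)))))) (XT.nd (nat_lit 468) (nat_lit 0) (nat_lit 0) (XT.nd (nat_lit 234) (nat_lit 0) (nat_lit 0) (XT.nd (nat_lit 78) (nat_lit 0) (nat_lit 0) (XT.lf (nat_lit 0) (nat_lit 590275089412) (nat_lit 76) (nat_lit 214582833060) (nat_lit 76) (nat_lit 214417706979) (nat_lit 1) (nat_lit 4) (nat_lit 2) (nat_lit 5) (nat_lit 2) (nat_lit 4) (nat_lit 396) (nat_lit 320) (nat_lit 304)) (XT.nd (nat_lit 78) (nat_lit 0) (nat_lit 0) (XT.lf (nat_lit 0) (nat_lit 688981130825) (nat_lit 76) (nat_lit 241321022467) (nat_lit 76) (nat_lit 241153319315) (nat_lit 1) (nat_lit 4) (nat_lit 2) (nat_lit 5) (nat_lit 2) (nat_lit 4) (nat_lit 397) (nat_lit 320) (nat_lit 303)) (XT.lf (nat_lit 0) (nat_lit 802272297797)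 (nat_lit 76) (nat_lit 272187696225) (nat_lit 76) (nat_lit 272017752141) (nat_lit 1) (nat_lit 4) (nat_lit 2) (nat_lit 5) (nat_lit 2) (nat_lit 4) (nat_lit 398) (nat_lit 320) (nat_lit 302)))) (XT.nd (nat_lit 78) (nat_lit 0) (nat_lit 0) (XT.lf (nat_lit 0) (nat_lit 932365156637) (nat_lit 76) (nat_lit 307786767514) (nat_lit 76) (nat_lit 307614874795) (nat_lit 1) (nat_lit 4) (nat_lit 2) (nat_lit 5) (nat_lit 2) (nat_lit 4) (nat_lit 399) (nat_lit 320) (nat_lit 301)) (XT.nd (nat_lit 78) (nat_lit 0) (nat_lit 0) (XT.lf (nat_lit 0) (nat_lit 1081805002410) (nat_lit 76) (nat_lit 348814739905) (nat_lit 76) (nat_lit 348641152720) (nat_lit 1) (nat_lit 4) (nat_lit 2) (nat_lit 5) (nat_lit 2) (nat_lit 4) (nat_lit 400) (nat_lit 320) (nat_lit 300)) (XT.lf (nat_lit 0) (nat_lit 1253515658185) (nat_lit 76) (nat_lit 396074334596) (nat_lit 76) (nat_lit 395899273962) (nat_lit 1) (nat_lit 4) (nat_lit 2) (nat_lit 5) (nat_lit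 2) (nat_lit 4) (nat_lit 401) (nat_lit 320) (nat_lit 299))))) (XT.nd (nat_lit 234) (nat_lit 0) (nat_lit 0) (XT.nd (nat_lit 78) (nat_lit 0) (nat_lit 0) (XT.lf (nat_lit 0) (nat_lit 1450856680271) (nat_lit 76) (nat_lit 450490195831) (nat_lit 76) (nat_lit 450313853937) (nat_lit 1) (nat_lit 4) (nat_lit 2) (nat_lit 5) (nat_lit 2) (nat_lit 4) (nat_lit 402) (nat_lit 320) (nat_lit 298)) (XT.nd (nat_lit 78) (nat_lit 0) (nat_lit 0) (XT.lf (nat_lit 0) (nat_lit 1677689088665) (nat_lit 76) (nat_lit 513126981765) (nat_lit 76) (nat_lit 512949525731) (nat_lit 1) (nat_lit 4) (nat_lit 2) (nat_lit 5) (nat_lit 2) (nat_lit 4) (nat_lit 403) (nat_lit 320) (nat_lit 297)) (XT.lf (nat_lit 0) (nat_lit 1938450908749) (nat_lit 76) (nat_lit 585210194730) (nat_lit 76) (nat_lit 585031769880) (nat_lit 1) (nat_lit 4) (nat_lit 2) (nat_lit 5) (nat_lit 2) (nat_lit 4) (nat_lit 404) (nat_lit 320) (nat_lit 296)))) (XT.nd (nat_lit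 156) (nat_lit 0) (nat_lit 0) (XT.nd (nat_lit 78) (nat_lit 0) (nat_lit 0) (XT.lf (nat_lit 0) (nat_lit 2238244002220) (nat_lit 76) (nat_lit 668150158460) (nat_lit 76) (nat_lit 667970891161) (nat_lit 1) (nat_lit 4) (nat_lit 2) (nat_lit 5) (nat_lit 2) (nat_lit 4) (nat_lit 405) (nat_lit 320) (nat_lit 295)) (XT.lf (nat_lit 0) (nat_lit 2582933886125) (nat_lit 76) (nat_lit 763569611374) (nat_lit 76) (nat_lit 763389611511) (nat_lit 1) (nat_lit 4) (nat_lit 2) (nat_lit 5) (nat_lit 2) (nat_lit 4) (nat_lit 406) (nat_lit 320) (nat_lit 294))) (XT.nd (nat_lit 78) (nat_lit 0) (nat_lit 0) (XT.lf (nat_lit 0) (nat_lit 2979264492973) (nat_lit 76) (nat_lit 873335455813) (nat_lit 76) (nat_lit 873154818937) (nat_lit 1) (nat_lit 4) (nat_lit 2) (nat_lit 5) (nat_lit 2) (nat_lit 4) (nat_lit 407) (nat_lit 320) (nat_lit 293)) (XT.lf (nat_lit 0) (nat_lit 3434990117249) (nat_lit 76) (nat_lit 999595284385) (nat_lit 76)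 (nat_lit 999414093585) (nat_lit 1) (nat_lit 4) (nat_lit 2) (nat_lit 5) (nat_lit 2) (nat_lit 4) (nat_lit 408) (nat_lit 320) (nat_lit 292))))))) (XT.nd (nat_lit 1014) (nat_lit 0) (nat_lit 0) (XT.nd (nat_lit 468) (nat_lit 0) (nat_lit 0) (XT.nd (nat_lit 234) (nat_lit 0) (nat_lit 0) (XT.nd (nat_lit 78) (nat_lit 0) (nat_lit 0) (XT.lf (nat_lit 0) (nat_lit 3959027129860) (nat_lit 76) (nat_lit 1144819398083) (nat_lit 76) (nat_lit 1144637725610) (nat_lit 1) (nat_lit 4) (nat_lit 2) (nat_lit 5) (nat_lit 2) (nat_lit 4) (nat_lit 409) (nat_lit 320) (nat_lit 291)) (XT.nd (nat_lit 78) (nat_lit 0) (nat_lit 0) (XT.lf (nat_lit 0) (nat_lit 4561628428879) (nat_lit 76) (nat_lit 1311849138264) (nat_lit 76) (nat_lit 1311667046944) (nat_lit 1) (nat_lit 4) (nat_lit 2) (nat_lit 5) (nat_lit 2) (nat_lit 4) (nat_lit 410) (nat_lit 320) (nat_lit 290)) (XT.lf (nat_lit 0) (nat_lit 5254584039724) (nat_lit 76) (nat_lit 1503952478103)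 (nat_lit 76) (nat_lit 1503770022570) (nat_lit 1) (nat_lit 4) (nat_lit 2) (nat_lit 5) (nat_lit 2) (nat_lit 4) (nat_lit 411) (nat_lit 320) (nat_lit 289)))) (XT.nd (nat_lit 78) (nat_lit 0) (nat_lit 0) (XT.lf (nat_lit 0) (nat_lit 6051451789561) (nat_lit 76) (nat_lit 1724887961208) (nat_lit 76) (nat_lit 1724705188966) (nat_lit 1) (nat_lit 4) (nat_lit 2) (nat_lit 5) (nat_lit 2) (nat_lit 4) (nat_lit 412) (nat_lit 320) (nat_lit 288)) (XT.nd (nat_lit 78) (nat_lit 0) (nat_lit 0) (XT.lf (nat_lit 0) (nat_lit 6967822569150) (nat_lit 76) (nat_lit 1978978238333) (nat_lit 76) (nat_lit 1978795190694) (nat_lit 1) (nat_lit 4) (nat_lit 2) (nat_lit 5) (nat_lit 2) (nat_lit 4) (nat_lit 413) (nat_lit 320) (nat_lit 287)) (XT.lf (nat_lit 0) (nat_lit 8021625372002) (nat_lit 76) (nat_lit 2271194640989) (nat_lit 76) (nat_lit 2271011353873) (nat_lit 1) (nat_lit 4) (nat_lit 2) (nat_lit 5) (nat_lit 2) (nat_lit 4) (nat_lit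 414) (nat_lit 320) (nat_lit 286))))) (XT.nd (nat_lit 234) (nat_lit 0) (nat_lit 0) (XT.nd (nat_lit 78) (nat_lit 0) (nat_lit 0) (XT.lf (nat_lit 0) (nat_lit 9233478079045) (nat_lit 76) (nat_lit 2607254446618) (nat_lit 76) (nat_lit 2607070951261) (nat_lit 1) (nat_lit 4) (nat_lit 2) (nat_lit 5) (nat_lit 2) (nat_lit 4) (nat_lit 415) (nat_lit 320) (nat_lit 285)) (XT.nd (nat_lit 78) (nat_lit 0) (nat_lit 0) (XT.lf (nat_lit 0) (nat_lit 10627090851937) (nat_lit 76) (nat_lit 2993732738374) (nat_lit 76) (nat_lit 2993549061939) (nat_lit 1) (nat_lit 4) (nat_lit 2) (nat_lit 5) (nat_lit 2) (nat_lit 4) (nat_lit 416) (nat_lit 320) (nat_lit 284)) (XT.lf (nat_lit 0) (nat_lit 12229730027540) (nat_lit 76) (nat_lit 3438191048052) (nat_lit 76) (nat_lit 3438007214157) (nat_lit 1) (nat_lit 4) (nat_lit 2) (nat_lit 5) (nat_lit 2) (nat_lit 4) (nat_lit 417) (nat_lit 320) (nat_lit 283)))) (XT.nd (nat_lit 156) (nat_lit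 0) (nat_lit 0) (XT.nd (nat_lit 78) (nat_lit 0) (nat_lit 0) (XT.lf (nat_lit 0) (nat_lit 14072751589723) (nat_lit 76) (nat_lit 3949325299103) (nat_lit 76) (nat_lit 3949141328287) (nat_lit 1) (nat_lit 4) (nat_lit 2) (nat_lit 5) (nat_lit 2) (nat_lit 4) (nat_lit 418) (nat_lit 320) (nat_lit 282)) (XT.lf (nat_lit 0) (nat_lit 16192214656008) (nat_lit 76) (nat_lit 4537135944264) (nat_lit 76) (nat_lit 4536951854386) (nat_lit 1) (nat_lit 4) (nat_lit 2) (nat_lit 5) (nat_lit 2) (nat_lit 4) (nat_lit 419) (nat_lit 320) (nat_lit 281))) (XT.nd (nat_lit 78) (nat_lit 0) (nat_lit 0) (XT.lf (nat_lit 0) (nat_lit 18629586982040) (nat_lit 76) (nat_lit 5213123626593) (nat_lit 76) (nat_lit 5212939433182) (nat_lit 1) (nat_lit 4) (nat_lit 2) (nat_lit 5) (nat_lit 2) (nat_lit 4) (nat_lit 420) (nat_lit 320) (nat_lit 280)) (XT.lf (nat_lit 0) (nat_lit 21432556287240) (nat_lit 76) (nat_lit 5990514192049) (nat_lit 76) (nat_lit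 5990329908610) (nat_lit 1) (nat_lit 4) (nat_lit 2) (nat_lit 5) (nat_lit 2) (nat_lit 4) (nat_lit 421) (nat_lit 320) (nat_lit 279)))))) (XT.nd (nat_lit 546) (nat_lit 0) (nat_lit 0) (XT.nd (nat_lit 234) (nat_lit 0) (nat_lit 0) (XT.nd (nat_lit 78) (nat_lit 0) (nat_lit 0) (XT.lf (nat_lit 0) (nat_lit 24655963275407) (nat_lit 76) (nat_lit 6884517456042) (nat_lit 76) (nat_lit 6884333094318) (nat_lit 1) (nat_lit 4) (nat_lit 2) (nat_lit 5) (nat_lit 2) (nat_lit 4) (nat_lit 422) (nat_lit 320) (nat_lit 278)) (XT.nd (nat_lit 78) (nat_lit 0) (nat_lit 0) (XT.lf (nat_lit 0) (nat_lit 28362874605004) (nat_lit 76) (nat_lit 7912624786782) (nat_lit 76) (nat_lit 7912440356983) (nat_lit 1) (nat_lit 4) (nat_lit 2) (nat_lit 5) (nat_lit 2) (nat_lit 4) (nat_lit 423) (nat_lit 320) (nat_lit 277)) (XT.lf (nat_lit 0) (nat_lit 32625816802045) (nat_lit 76) (nat_lit 9094951327695) (nat_lit 76) (nat_lit 9094766838701) (nat_lit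 1) (nat_lit 4) (nat_lit 2) (nat_lit 5) (nat_lit 2) (nat_lit 4) (nat_lit 424) (nat_lit 320) (nat_lit 276)))) (XT.nd (nat_lit 156) (nat_lit 0) (nat_lit 0) (XT.nd (nat_lit 78) (nat_lit 0) (nat_lit 0) (XT.lf (nat_lit 0) (nat_lit 37528195257343) (nat_lit 76) (nat_lit 10454629554583) (nat_lit 76) (nat_lit 10454445014115) (nat_lit 1) (nat_lit 4) (nat_lit 2) (nat_lit 5) (nat_lit 2) (nat_lit 4) (nat_lit 425) (nat_lit 320) (nat_lit 275)) (XT.lf (nat_lit 0) (nat_lit 43165926071108) (nat_lit 76) (nat_lit 12018261867535) (nat_lit 76) (nat_lit 12018077282308) (nat_lit 1) (nat_lit 4) (nat_lit 2) (nat_lit 5) (nat_lit 2) (nat_lit 4) (nat_lit 426) (nat_lit 320) (nat_lit 274))) (XT.nd (nat_lit 78) (nat_lit 0) (nat_lit 0) (XT.lf (nat_lit 0) (nat_lit 49649312672307) (nat_lit 76) (nat_lit 13816441072677) (nat_lit 76) (nat_lit 13816256448528) (nat_lit 1) (nat_lit 4) (nat_lit 2) (nat_lit 5) (nat_lit 2) (nat_lit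 4) (nat_lit 427) (nat_lit 320) (nat_lit 273)) (XT.lf (nat_lit 0) (nat_lit 57105203929224) (nat_lit 76) (nat_lit 15884348937063) (nat_lit 76) (nat_lit 15884164279069) (nat_lit 1) (nat_lit 4) (nat_lit 2) (nat_lit 5) (nat_lit 2) (nat_lit 4) (nat_lit 428) (nat_lit 320) (nat_lit 272))))) (XT.nd (nat_lit 234) (nat_lit 0) (nat_lit 0) (XT.nd (nat_lit 78) (nat_lit 0) (nat_lit 0) (XT.lf (nat_lit 0) (nat_lit 65679475975145) (nat_lit 76) (nat_lit 18262444527608) (nat_lit 76) (nat_lit 18262259840183) (nat_lit 1) (nat_lit 4) (nat_lit 2) (nat_lit 5) (nat_lit 2) (nat_lit 4) (nat_lit 429) (nat_lit 320) (nat_lit 271)) (XT.nd (nat_lit 78) (nat_lit 0) (nat_lit 0) (XT.lf (nat_lit 0) (nat_lit 75539886306622) (nat_lit 76) (nat_lit 20997255801516) (nat_lit 76) (nat_lit 20997071088500) (nat_lit 1) (nat_lit 4) (nat_lit 2) (nat_lit 5) (nat_lit 2) (nat_lit 4) (nat_lit 430) (nat_lit 320) (nat_lit 270)) (XT.lf (nat_lit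 0) (nat_lit 86879355995358) (nat_lit 76) (nat_lit 24142289935886) (nat_lit 76) (nat_lit 24142105200616) (nat_lit 1) (nat_lit 4) (nat_lit 2) (nat_lit 5) (nat_lit 2) (nat_lit 4) (nat_lit 431) (nat_lit 320) (nat_lit 269)))) (XT.nd (nat_lit 156) (nat_lit 0) (nat_lit 0) (XT.nd (nat_lit 78) (nat_lit 0) (nat_lit 0) (XT.lf (nat_lit 0) (nat_lit 99919744230915) (nat_lit 76) (nat_lit 27759080207260) (nat_lit 76) (nat_lit 27758895452640) (nat_lit 1) (nat_lit 4) (nat_lit 2) (nat_lit 5) (nat_lit 2) (nat_lit 4) (nat_lit 432) (nat_lit 320) (nat_lit 268)) (XT.lf (nat_lit 0) (nat_lit 114916189043988) (nat_lit 76) (nat_lit 31918389903556) (nat_lit 76) (nat_lit 31918205132109) (nat_lit 1) (nat_lit 4) (nat_lit 2) (nat_lit 5) (nat_lit 2) (nat_lit 4) (nat_lit 433) (nat_lit 320) (nat_lit 267))) (XT.nd (nat_lit 78) (nat_lit 0) (nat_lit 0) (XT.lf (nat_lit 0) (nat_lit 132162099137442) (nat_lit 76) (nat_lit 36701596823181)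 (nat_lit 76) (nat_lit 36701412037101) (nat_lit 1) (nat_lit 4) (nat_lit 2) (nat_lit 5) (nat_lit 2) (nat_lit 4) (nat_lit 434) (nat_lit 320) (nat_lit 266)) (XT.lf (nat_lit 0) (nat_lit 151994894491366) (nat_lit 76) (nat_lit 42202285449343) (nat_lit 76) (nat_lit 42202100650540) (nat_lit 1) (nat_lit 4) (nat_lit 2) (nat_lit 5) (nat_lit 2) (nat_lit 4) (nat_lit 435) (nat_lit 320) (nat_lit 265))))))))
noncomputable def xc18 : XT := (XT.nd (nat_lit 50310) (nat_lit 0) (nat_lit 0) (XT.nd (nat_lit 49296) (nat_lit 0) (nat_lit 0) (XT.nd (nat_lit 48750) (nat_lit 0) (nat_lit 0) (XT.nd (nat_lit 234) (nat_lit 0) (nat_lit 0) (XT.nd (nat_lit 78) (nat_lit 0) (nat_lit 0) (XT.lf (nat_lit 0) (nat_lit 174802608058337) (nat_lit 76) (nat_lit 48528077950816) (nat_lit 76) (nat_lit 48527893140949) (nat_lit 1) (nat_lit 4) (nat_lit 2) (nat_lit 5) (nat_lit 2) (nat_lit 4) (nat_lit 436) (nat_lit 320) (nat_lit 264)) (XT.nd (nat_lit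 78) (nat_lit 0) (nat_lit 0) (XT.lf (nat_lit 0) (nat_lit 201031477712492) (nat_lit 76) (nat_lit 55802739833063) (nat_lit 76) (nat_lit 55802555013576) (nat_lit 1) (nat_lit 4) (nat_lit 2) (nat_lit 5) (nat_lit 2) (nat_lit 4) (nat_lit 437) (nat_lit 320) (nat_lit 263)) (XT.lf (nat_lit 0) (nat_lit 231194676990541) (nat_lit 76) (nat_lit 64168601437260) (nat_lit 76) (nat_lit 64168416609406) (nat_lit 1) (nat_lit 4) (nat_lit 2) (nat_lit 5) (nat_lit 2) (nat_lit 4) (nat_lit 438) (nat_lit 320) (nat_lit 262)))) (XT.nd (nat_lit 48360) (nat_lit 0) (nat_lit 76) (XT.lf (nat_lit 0) (nat_lit 265882355443578) (nat_lit 76) (nat_lit 73789342664356) (nat_lit 76) (nat_lit 73789157829228) (nat_lit 1) (nat_lit 4) (nat_lit 2) (nat_lit 5) (nat_lit 2) (nat_lit 4) (nat_lit 439) (nat_lit 320) (nat_lit 261)) (XT.nd (nat_lit 78) (nat_lit 0) (nat_lit 0) (XT.lf (nat_lit 0) (nat_lit 5083718172) (nat_lit 152) (nat_lit 35143985389)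 (nat_lit 0) (nat_lit 5083718172) (nat_lit 2) (nat_lit 5) (nat_lit 4) (nat_lit 4) (nat_lit 2) (nat_lit 4) (nat_lit 378) (nat_lit 321) (nat_lit 321)) (XT.lf (nat_lit 0) (nat_lit 23549259708) (nat_lit 152) (nat_lit 55362165526) (nat_lit 0) (nat_lit 23521527164) (nat_lit 2) (nat_lit 5) (nat_lit 4) (nat_lit 4) (nat_lit 2) (nat_lit 4) (nat_lit 379) (nat_lit 321) (nat_lit 320))))) (XT.nd (nat_lit 234) (nat_lit 76) (nat_lit 0) (XT.nd (nat_lit 78) (nat_lit 0) (nat_lit 0) (XT.lf (nat_lit 0) (nat_lit 37928060500) (nat_lit 152) (nat_lit 40361851220) (nat_lit 0) (nat_lit 37876212700) (nat_lit 2) (nat_lit 5) (nat_lit 4) (nat_lit 4) (nat_lit 2) (nat_lit 4) (nat_lit 380) (nat_lit 321) (nat_lit 319)) (XT.nd (nat_lit 78) (nat_lit 0) (nat_lit 0) (XT.lf (nat_lit 0) (nat_lit 53585163084) (nat_lit 152) (nat_lit 24993543450) (nat_lit 0) (nat_lit 53512345497) (nat_lit 2) (nat_lit 5) (nat_lit 4) (nat_lit 4) (nat_lit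 2) (nat_lit 4) (nat_lit 381) (nat_lit 321) (nat_lit 318)) (XT.lf (nat_lit 0) (nat_lit 70826902076) (nat_lit 152) (nat_lit 8956557933) (nat_lit 0) (nat_lit 70735849891) (nat_lit 2) (nat_lit 5) (nat_lit 4) (nat_lit 4) (nat_lit 2) (nat_lit 4) (nat_lit 382) (nat_lit 321) (nat_lit 317)))) (XT.nd (nat_lit 156) (nat_lit 0) (nat_lit 0) (XT.nd (nat_lit 78) (nat_lit 0) (nat_lit 0) (XT.lf (nat_lit 0) (nat_lit 8850834971) (nat_lit 76) (nat_lit 81506275076) (nat_lit 76) (nat_lit 81399366719) (nat_lit 1) (nat_lit 4) (nat_lit 2) (nat_lit 5) (nat_lit 2) (nat_lit 4) (nat_lit 383) (nat_lit 321) (nat_lit 316)) (XT.lf (nat_lit 0) (nat_lit 28977515315) (nat_lit 76) (nat_lit 83673628421) (nat_lit 76) (nat_lit 83552932088) (nat_lit 1) (nat_lit 4) (nat_lit 2) (nat_lit 5) (nat_lit 2) (nat_lit 4) (nat_lit 384) (nat_lit 321) (nat_lit 315))) (XT.nd (nat_lit 78) (nat_lit 0) (nat_lit 0) (XT.lf (nat_lit 0) (nat_lit 50941965993)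 (nat_lit 76) (nat_lit 86796108493) (nat_lit 76) (nat_lit 86663422616) (nat_lit 1) (nat_lit 4) (nat_lit 2) (nat_lit 5) (nat_lit 2) (nat_lit 4) (nat_lit 385) (nat_lit 321) (nat_lit 314)) (XT.lf (nat_lit 0) (nat_lit 75173926259) (nat_lit 76) (nat_lit 90934807294) (nat_lit 76) (nat_lit 90791695726) (nat_lit 1) (nat_lit 4) (nat_lit 2) (nat_lit 5) (nat_lit 2) (nat_lit 4) (nat_lit 386) (nat_lit 321) (nat_lit 313)))))) (XT.nd (nat_lit 468) (nat_lit 0) (nat_lit 0) (XT.nd (nat_lit 234) (nat_lit 0) (nat_lit 0) (XT.nd (nat_lit 78) (nat_lit 0) (nat_lit 0) (XT.lf (nat_lit 0) (nat_lit 102147499683) (nat_lit 76) (nat_lit 96170699365) (nat_lit 76) (nat_lit 96018521979) (nat_lit 1) (nat_lit 4) (nat_lit 2) (nat_lit 5) (nat_lit 2) (nat_lit 4) (nat_lit 387) (nat_lit 321) (nat_lit 312)) (XT.nd (nat_lit 78) (nat_lit 0) (nat_lit 0) (XT.lf (nat_lit 0) (nat_lit 132390430092) (nat_lit 76) (nat_lit 102606226072) (nat_lit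 76) (nat_lit 102446165367) (nat_lit 1) (nat_lit 4) (nat_lit 2) (nat_lit 5) (nat_lit 2) (nat_lit 4) (nat_lit 388) (nat_lit 321) (nat_lit 311)) (XT.lf (nat_lit 0) (nat_lit 166494426995) (nat_lit 76) (nat_lit 110367299896) (nat_lit 76) (nat_lit 110200384130) (nat_lit 1) (nat_lit 4) (nat_lit 2) (nat_lit 5) (nat_lit 2) (nat_lit 4) (nat_lit 389) (nat_lit 321) (nat_lit 310)))) (XT.nd (nat_lit 78) (nat_lit 0) (nat_lit 0) (XT.lf (nat_lit 0) (nat_lit 205126742504) (nat_lit 76) (nat_lit 119605767932) (nat_lit 76) (nat_lit 119432891244) (nat_lit 1) (nat_lit 4) (nat_lit 2) (nat_lit 5) (nat_lit 2) (nat_lit 4) (nat_lit 390) (nat_lit 321) (nat_lit 309)) (XT.nd (nat_lit 78) (nat_lit 0) (nat_lit 0) (XT.lf (nat_lit 0) (nat_lit 249043226272) (nat_lit 76) (nat_lit 130502382817) (nat_lit 76) (nat_lit 130324322718) (nat_lit 1) (nat_lit 4) (nat_lit 2) (nat_lit 5) (nat_lit 2) (nat_lit 4) (nat_lit 391) (nat_lit 321)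 (nat_lit 308)) (XT.lf (nat_lit 0) (nat_lit 299103113850) (nat_lit 76) (nat_lit 143270339188) (nat_lit 76) (nat_lit 143087771775) (nat_lit 1) (nat_lit 4) (nat_lit 2) (nat_lit 5) (nat_lit 2) (nat_lit 4) (nat_lit 392) (nat_lit 321) (nat_lit 307))))) (XT.nd (nat_lit 234) (nat_lit 0) (nat_lit 0) (XT.nd (nat_lit 78) (nat_lit 0) (nat_lit 0) (XT.lf (nat_lit 0) (nat_lit 356285837821) (nat_lit 76) (nat_lit 158159444888) (nat_lit 76) (nat_lit 157972958073) (nat_lit 1) (nat_lit 4) (nat_lit 2) (nat_lit 5) (nat_lit 2) (nat_lit 4) (nat_lit 393) (nat_lit 321) (nat_lit 306)) (XT.nd (nat_lit 78) (nat_lit 0) (nat_lit 0) (XT.lf (nat_lit 0) (nat_lit 421710190611) (nat_lit 76) (nat_lit 175461008508) (nat_lit 76) (nat_lit 175271113515) (nat_lit 1) (nat_lit 4) (nat_lit 2) (nat_lit 5) (nat_lit 2) (nat_lit 4) (nat_lit 394) (nat_lit 321) (nat_lit 305)) (XT.lf (nat_lit 0) (nat_lit 496656213905) (nat_lit 76) (nat_lit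 195513538900) (nat_lit 76) (nat_lit 195320680275) (nat_lit 1) (nat_lit 4) (nat_lit 2) (nat_lit 5) (nat_lit 2) (nat_lit 4) (nat_lit 395) (nat_lit 321) (nat_lit 304)))) (XT.nd (nat_lit 156) (nat_lit 0) (nat_lit 0) (XT.nd (nat_lit 78) (nat_lit 0) (nat_lit 0) (XT.lf (nat_lit 0) (nat_lit 582590242941) (nat_lit 76) (nat_lit 218709368180) (nat_lit 76) (nat_lit 218513932484) (nat_lit 1) (nat_lit 4) (nat_lit 2) (nat_lit 5) (nat_lit 2) (nat_lit 4) (nat_lit 396) (nat_lit 321) (nat_lit 303)) (XT.lf (nat_lit 0) (nat_lit 681193595678) (nat_lit 76) (nat_lit 245502327791) (nat_lit 76) (nat_lit 245304651164) (nat_lit 1) (nat_lit 4) (nat_lit 2) (nat_lit 5) (nat_lit 2) (nat_lit 4) (nat_lit 397) (nat_lit 321) (nat_lit 302))) (XT.nd (nat_lit 78) (nat_lit 0) (nat_lit 0) (XT.lf (nat_lit 0) (nat_lit 794395468149) (nat_lit 76) (nat_lit 276416627813) (nat_lit 76) (nat_lit 276217002550) (nat_lit 1) (nat_lit 4) (nat_lit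 2) (nat_lit 5) (nat_lit 2) (nat_lit 4) (nat_lit 398) (nat_lit 321) (nat_lit 301)) (XT.lf (nat_lit 0) (nat_lit 924410679597) (nat_lit 76) (nat_lit 312057113246) (nat_lit 76) (nat_lit 311855793517) (nat_lit 1) (nat_lit 4) (nat_lit 2) (nat_lit 5) (nat_lit 2) (nat_lit 4) (nat_lit 399) (nat_lit 321) (nat_lit 300))))))) (XT.nd (nat_lit 1014) (nat_lit 0) (nat_lit 0) (XT.nd (nat_lit 468) (nat_lit 0) (nat_lit 0) (XT.nd (nat_lit 234) (nat_lit 0) (nat_lit 0) (XT.nd (nat_lit 78) (nat_lit 0) (nat_lit 0) (XT.lf (nat_lit 0) (nat_lit 1073783005898) (nat_lit 76) (nat_lit 353121097935) (nat_lit 76) (nat_lit 352918304757) (nat_lit 1) (nat_lit 4) (nat_lit 2) (nat_lit 5) (nat_lit 2) (nat_lit 4) (nat_lit 400) (nat_lit 321) (nat_lit 299)) (XT.nd (nat_lit 78) (nat_lit 0) (nat_lit 0) (XT.lf (nat_lit 0) (nat_lit 1245434949089) (nat_lit 76) (nat_lit 400412007668) (nat_lit 76) (nat_lit 400207933230) (nat_lit 1) (nat_lit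 4) (nat_lit 2) (nat_lit 5) (nat_lit 2) (nat_lit 4) (nat_lit 401) (nat_lit 321) (nat_lit 298)) (XT.lf (nat_lit 0) (nat_lit 1442724916754) (nat_lit 76) (nat_lit 454855099375) (nat_lit 76) (nat_lit 454649910797) (nat_lit 1) (nat_lit 4) (nat_lit 2) (nat_lit 5) (nat_lit 2) (nat_lit 4) (nat_lit 402) (nat_lit 321) (nat_lit 297)))) (XT.nd (nat_lit 78) (nat_lit 0) (nat_lit 0) (XT.lf (nat_lit 0) (nat_lit 1669512930000) (nat_lit 76) (nat_lit 517515563979) (nat_lit 76) (nat_lit 517309406585) (nat_lit 1) (nat_lit 4) (nat_lit 2) (nat_lit 5) (nat_lit 2) (nat_lit 4) (nat_lit 403) (nat_lit 321) (nat_lit 296)) (XT.nd (nat_lit 78) (nat_lit 0) (nat_lit 0) (XT.lf (nat_lit 0) (nat_lit 1930236145607) (nat_lit 76) (nat_lit 589619367093) (nat_lit 76) (nat_lit 589412367250) (nat_lit 1) (nat_lit 4) (nat_lit 2) (nat_lit 5) (nat_lit 2) (nat_lit 4) (nat_lit 404) (nat_lit 321) (nat_lit 295)) (XT.lf (nat_lit 0) (nat_lit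 2229995669968) (nat_lit 76) (nat_lit 672577235299) (nat_lit 76) (nat_lit 672369502892) (nat_lit 1) (nat_lit 4) (nat_lit 2) (nat_lit 5) (nat_lit 2) (nat_lit 4) (nat_lit 405) (nat_lit 321) (nat_lit 294))))) (XT.nd (nat_lit 234) (nat_lit 0) (nat_lit 0) (XT.nd (nat_lit 78) (nat_lit 0) (nat_lit 0) (XT.lf (nat_lit 0) (nat_lit 2574656363341) (nat_lit 76) (nat_lit 768012257324) (nat_lit 76) (nat_lit 767803887904) (nat_lit 1) (nat_lit 4) (nat_lit 2) (nat_lit 5) (nat_lit 2) (nat_lit 4) (nat_lit 406) (nat_lit 321) (nat_lit 293)) (XT.nd (nat_lit 78) (nat_lit 0) (nat_lit 0) (XT.lf (nat_lit 0) (nat_lit 2970961587120) (nat_lit 76) (nat_lit 877791640120) (nat_lit 76) (nat_lit 877582716776) (nat_lit 1) (nat_lit 4) (nat_lit 2) (nat_lit 5) (nat_lit 2) (nat_lit 4) (nat_lit 407) (nat_lit 321) (nat_lit 292)) (XT.lf (nat_lit 0) (nat_lit 3426665139160) (nat_lit 76) (nat_lit 1004063241176) (nat_lit 76) (nat_lit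 1003853836158) (nat_lit 1) (nat_lit 4) (nat_lit 2) (nat_lit 5) (nat_lit 2) (nat_lit 4) (nat_lit 408) (nat_lit 321) (nat_lit 291)))) (XT.nd (nat_lit 156) (nat_lit 0) (nat_lit 0) (XT.nd (nat_lit 78) (nat_lit 0) (nat_lit 0) (XT.lf (nat_lit 0) (nat_lit 3950682958523) (nat_lit 76) (nat_lit 1149297591817) (nat_lit 76) (nat_lit 1149087767954) (nat_lit 1) (nat_lit 4) (nat_lit 2) (nat_lit 5) (nat_lit 2) (nat_lit 4) (nat_lit 409) (nat_lit 321) (nat_lit 290)) (XT.lf (nat_lit 0) (nat_lit 4553267567762) (nat_lit 76) (nat_lit 1316336233687) (nat_lit 76) (nat_lit 1316126045609) (nat_lit 1) (nat_lit 4) (nat_lit 2) (nat_lit 5) (nat_lit 2) (nat_lit 4) (nat_lit 410) (nat_lit 321) (nat_lit 289))) (XT.nd (nat_lit 78) (nat_lit 0) (nat_lit 0) (XT.lf (nat_lit 0) (nat_lit 5246208665754) (nat_lit 76) (nat_lit 1508447314126) (nat_lit 76) (nat_lit 1508236809341) (nat_lit 1) (nat_lit 4) (nat_lit 2) (nat_lit 5) (nat_lit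 2) (nat_lit 4) (nat_lit 411) (nat_lit 321) (nat_lit 288)) (XT.lf (nat_lit 0) (nat_lit 6043063795719) (nat_lit 76) (nat_lit 1729389528186) (nat_lit 76) (nat_lit 1729178748003) (nat_lit 1) (nat_lit 4) (nat_lit 2) (nat_lit 5) (nat_lit 2) (nat_lit 4) (nat_lit 412) (nat_lit 321) (nat_lit 287)))))) (XT.nd (nat_lit 546) (nat_lit 0) (nat_lit 0) (XT.nd (nat_lit 234) (nat_lit 0) (nat_lit 0) (XT.nd (nat_lit 78) (nat_lit 0) (nat_lit 0) (XT.lf (nat_lit 0) (nat_lit 6959423601506) (nat_lit 76) (nat_lit 1983485658317) (nat_lit 76) (nat_lit 1983274638657) (nat_lit 1) (nat_lit 4) (nat_lit 2) (nat_lit 5) (nat_lit 2) (nat_lit 4) (nat_lit 413) (nat_lit 321) (nat_lit 286)) (XT.nd (nat_lit 78) (nat_lit 0) (nat_lit 0) (XT.lf (nat_lit 0) (nat_lit 8013216861922) (nat_lit 76) (nat_lit 2275707150542) (nat_lit 76) (nat_lit 2275495922642) (nat_lit 1) (nat_lit 4) (nat_lit 2) (nat_lit 5) (nat_lit 2) (nat_lit 4) (nat_lit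 414) (nat_lit 321) (nat_lit 285)) (XT.lf (nat_lit 0) (nat_lit 9225061271194) (nat_lit 76) (nat_lit 2611771381884) (nat_lit 76) (nat_lit 2611559972905) (nat_lit 1) (nat_lit 4) (nat_lit 2) (nat_lit 5) (nat_lit 2) (nat_lit 4) (nat_lit 415) (nat_lit 321) (nat_lit 284)))) (XT.nd (nat_lit 156) (nat_lit 0) (nat_lit 0) (XT.nd (nat_lit 78) (nat_lit 0) (nat_lit 0) (XT.lf (nat_lit 0) (nat_lit 10618666828634) (nat_lit 76) (nat_lit 2998253522086) (nat_lit 76) (nat_lit 2998041955647) (nat_lit 1) (nat_lit 4) (nat_lit 2) (nat_lit 5) (nat_lit 2) (nat_lit 4) (nat_lit 416) (nat_lit 321) (nat_lit 283)) (XT.lf (nat_lit 0) (nat_lit 12221299729929) (nat_lit 76) (nat_lit 3442715178239) (nat_lit 76) (nat_lit 3442503474879) (nat_lit 1) (nat_lit 4) (nat_lit 2) (nat_lit 5) (nat_lit 2) (nat_lit 4) (nat_lit 417) (nat_lit 321) (nat_lit 282))) (XT.nd (nat_lit 78) (nat_lit 0) (nat_lit 0) (XT.lf (nat_lit 0) (nat_lit 14064315836194)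 (nat_lit 76) (nat_lit 3953852339268) (nat_lit 76) (nat_lit 3953640516846) (nat_lit 1) (nat_lit 4) (nat_lit 2) (nat_lit 5) (nat_lit 2) (nat_lit 4) (nat_lit 418) (nat_lit 321) (nat_lit 281)) (XT.lf (nat_lit 0) (nat_lit 16183774158201) (nat_lit 76) (nat_lit 4541665514845) (nat_lit 76) (nat_lit 4541453588890) (nat_lit 1) (nat_lit 4) (nat_lit 2) (nat_lit 5) (nat_lit 2) (nat_lit 4) (nat_lit 419) (nat_lit 321) (nat_lit 280))))) (XT.nd (nat_lit 234) (nat_lit 0) (nat_lit 0) (XT.nd (nat_lit 78) (nat_lit 0) (nat_lit 0) (XT.lf (nat_lit 0) (nat_lit 18621142358774) (nat_lit 76) (nat_lit 5217655397536) (nat_lit 76) (nat_lit 5217443381553) (nat_lit 1) (nat_lit 4) (nat_lit 2) (nat_lit 5) (nat_lit 2) (nat_lit 4) (nat_lit 420) (nat_lit 321) (nat_lit 279)) (XT.nd (nat_lit 78) (nat_lit 0) (nat_lit 0) (XT.lf (nat_lit 0) (nat_lit 21424108076620) (nat_lit 76) (nat_lit 5995047876349) (nat_lit 76) (nat_lit 5994835782081)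 (nat_lit 1) (nat_lit 4) (nat_lit 2) (nat_lit 5) (nat_lit 2) (nat_lit 4) (nat_lit 421) (nat_lit 321) (nat_lit 278)) (XT.lf (nat_lit 0) (nat_lit 24647511945347) (nat_lit 76) (nat_lit 6889052804132) (nat_lit 76) (nat_lit 6888840641789) (nat_lit 1) (nat_lit 4) (nat_lit 2) (nat_lit 5) (nat_lit 2) (nat_lit 4) (nat_lit 422) (nat_lit 321) (nat_lit 277)))) (XT.nd (nat_lit 156) (nat_lit 0) (nat_lit 0) (XT.nd (nat_lit 78) (nat_lit 0) (nat_lit 0) (XT.lf (nat_lit 0) (nat_lit 28354420562388) (nat_lit 76) (nat_lit 7917161581645) (nat_lit 76) (nat_lit 7916949360107) (nat_lit 1) (nat_lit 4) (nat_lit 2) (nat_lit 5) (nat_lit 2) (nat_lit 4) (nat_lit 423) (nat_lit 321) (nat_lit 276)) (XT.lf (nat_lit 0) (nat_lit 32617360400685) (nat_lit 76) (nat_lit 9099489380622) (nat_lit 76) (nat_lit 9099277107610) (nat_lit 1) (nat_lit 4) (nat_lit 2) (nat_lit 5) (nat_lit 2) (nat_lit 4) (nat_lit 424) (nat_lit 321) (nat_lit 275)))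 (XT.nd (nat_lit 78) (nat_lit 0) (nat_lit 0) (XT.lf (nat_lit 0) (nat_lit 37519736804901) (nat_lit 76) (nat_lit 10459168701478) (nat_lit 76) (nat_lit 10458956383706) (nat_lit 1) (nat_lit 4) (nat_lit 2) (nat_lit 5) (nat_lit 2) (nat_lit 4) (nat_lit 425) (nat_lit 321) (nat_lit 274)) (XT.lf (nat_lit 0) (nat_lit 43157465835117) (nat_lit 76) (nat_lit 12022801965708) (nat_lit 76) (nat_lit 12022589609015) (nat_lit 1) (nat_lit 4) (nat_lit 2) (nat_lit 5) (nat_lit 2) (nat_lit 4) (nat_lit 426) (nat_lit 321) (nat_lit 273))))))))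
noncomputable def xc19 : XT := (XT.nd (nat_lit 50310) (nat_lit 0) (nat_lit 0) (XT.nd (nat_lit 49218) (nat_lit 0) (nat_lit 0) (XT.nd (nat_lit 468) (nat_lit 0) (nat_lit 0) (XT.nd (nat_lit 234) (nat_lit 0) (nat_lit 0) (XT.nd (nat_lit 78) (nat_lit 0) (nat_lit 0) (XT.lf (nat_lit 0) (nat_lit 49640850885403) (nat_lit 76) (nat_lit 13820981998046) (nat_lit 76) (nat_lit 13820769607508) (nat_lit 1) (nat_lit 4) (nat_lit 2) (nat_lit 5) (nat_lit 2) (nat_lit 4) (nat_lit 427) (nat_lit 321) (nat_lit 272)) (XT.nd (nat_lit 78) (nat_lit 0) (nat_lit 0) (XT.lf (nat_lit 0) (nat_lit 57096740793700) (nat_lit 76) (nat_lit 15888890581735) (nat_lit 76) (nat_lit 15888678161767) (nat_lit 1) (nat_lit 4) (nat_lit 2) (nat_lit 5) (nat_lit 2) (nat_lit 4) (nat_lit 428) (nat_lit 321) (nat_lit 271)) (XT.lf (nat_lit 0) (nat_lit 65671011666909) (nat_lit 76) (nat_lit 18266986797760) (nat_lit 76) (nat_lit 18266774352200) (nat_lit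 1) (nat_lit 4) (nat_lit 2) (nat_lit 5) (nat_lit 2) (nat_lit 4) (nat_lit 429) (nat_lit 321) (nat_lit 270)))) (XT.nd (nat_lit 78) (nat_lit 0) (nat_lit 0) (XT.lf (nat_lit 0) (nat_lit 75531420978636) (nat_lit 76) (nat_lit 21001798615564) (nat_lit 76) (nat_lit 21001586147750) (nat_lit 1) (nat_lit 4) (nat_lit 2) (nat_lit 5) (nat_lit 2) (nat_lit 4) (nat_lit 430) (nat_lit 321) (nat_lit 269)) (XT.nd (nat_lit 78) (nat_lit 0) (nat_lit 0) (XT.lf (nat_lit 0) (nat_lit 86870889780632) (nat_lit 76) (nat_lit 24146833222886) (nat_lit 76) (nat_lit 24146620735722) (nat_lit 1) (nat_lit 4) (nat_lit 2) (nat_lit 5) (nat_lit 2) (nat_lit 4) (nat_lit 431) (nat_lit 321) (nat_lit 268)) (XT.lf (nat_lit 0) (nat_lit 99911277245111) (nat_lit 76) (nat_lit 27763623905524) (nat_lit 76) (nat_lit 27763411401532) (nat_lit 1) (nat_lit 4) (nat_lit 2) (nat_lit 5) (nat_lit 2) (nat_lit 4) (nat_lit 432) (nat_lit 321) (nat_lit 267)))))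 (XT.nd (nat_lit 234) (nat_lit 0) (nat_lit 0) (XT.nd (nat_lit 78) (nat_lit 0) (nat_lit 0) (XT.lf (nat_lit 0) (nat_lit 114907721387682) (nat_lit 76) (nat_lit 31922933959440) (nat_lit 76) (nat_lit 31922721440817) (nat_lit 1) (nat_lit 4) (nat_lit 2) (nat_lit 5) (nat_lit 2) (nat_lit 4) (nat_lit 433) (nat_lit 321) (nat_lit 266)) (XT.nd (nat_lit 78) (nat_lit 0) (nat_lit 0) (XT.lf (nat_lit 0) (nat_lit 132153630898090) (nat_lit 76) (nat_lit 36706141190039) (nat_lit 76) (nat_lit 36705928658691) (nat_lit 1) (nat_lit 4) (nat_lit 2) (nat_lit 5) (nat_lit 2) (nat_lit 4) (nat_lit 434) (nat_lit 321) (nat_lit 265)) (XT.lf (nat_lit 0) (nat_lit 151986425745018) (nat_lit 76) (nat_lit 42206830086614) (nat_lit 76) (nat_lit 42206617544202) (nat_lit 1) (nat_lit 4) (nat_lit 2) (nat_lit 5) (nat_lit 2) (nat_lit 4) (nat_lit 435) (nat_lit 321) (nat_lit 264)))) (XT.nd (nat_lit 156) (nat_lit 0) (nat_lit 0) (XT.nd (nat_lit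 78) (nat_lit 0) (nat_lit 0) (XT.lf (nat_lit 0) (nat_lit 174794138871123) (nat_lit 76) (nat_lit 48532622823228) (nat_lit 76) (nat_lit 48532410271195) (nat_lit 1) (nat_lit 4) (nat_lit 2) (nat_lit 5) (nat_lit 2) (nat_lit 4) (nat_lit 436) (nat_lit 321) (nat_lit 263)) (XT.lf (nat_lit 0) (nat_lit 201023008141916) (nat_lit 76) (nat_lit 55807284909946) (nat_lit 76) (nat_lit 55807072349548) (nat_lit 1) (nat_lit 4) (nat_lit 2) (nat_lit 5) (nat_lit 2) (nat_lit 4) (nat_lit 437) (nat_lit 321) (nat_lit 262))) (XT.nd (nat_lit 48282) (nat_lit 0) (nat_lit 228) (XT.lf (nat_lit 0) (nat_lit 231186207086607) (nat_lit 76) (nat_lit 64173146691942) (nat_lit 76) (nat_lit 64172934124270) (nat_lit 1) (nat_lit 4) (nat_lit 2) (nat_lit 5) (nat_lit 2) (nat_lit 4) (nat_lit 438) (nat_lit 321) (nat_lit 261)) (XT.lf (nat_lit 0) (nat_lit 22366298568) (nat_lit 76) (nat_lit 6674575899) (nat_lit 76) (nat_lit 6674575899) (nat_lit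 4) (nat_lit 4) (nat_lit 5) (nat_lit 5) (nat_lit 5) (nat_lit 4) (nat_lit 376) (nat_lit 322) (nat_lit 322)))))) (XT.nd (nat_lit 546) (nat_lit 0) (nat_lit 0) (XT.nd (nat_lit 234) (nat_lit 76) (nat_lit 0) (XT.nd (nat_lit 78) (nat_lit 152) (nat_lit 0) (XT.lf (nat_lit 0) (nat_lit 75739302574) (nat_lit 76) (nat_lit 2369652457) (nat_lit 76) (nat_lit 2332976168) (nat_lit 4) (nat_lit 4) (nat_lit 5) (nat_lit 5) (nat_lit 5) (nat_lit 4) (nat_lit 377) (nat_lit 322) (nat_lit 321)) (XT.nd (nat_lit 78) (nat_lit 0) (nat_lit 0) (XT.lf (nat_lit 0) (nat_lit 9658937845) (nat_lit 152) (nat_lit 71445652635) (nat_lit 0) (nat_lit 9599312876) (nat_lit 2) (nat_lit 5) (nat_lit 4) (nat_lit 4) (nat_lit 2) (nat_lit 4) (nat_lit 378) (nat_lit 322) (nat_lit 320)) (XT.lf (nat_lit 0) (nat_lit 22570856057) (nat_lit 152) (nat_lit 57526527259) (nat_lit 0) (nat_lit 22487115832) (nat_lit 2) (nat_lit 5) (nat_lit 4) (nat_lit 4) (nat_lit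 2) (nat_lit 4) (nat_lit 379) (nat_lit 322) (nat_lit 319)))) (XT.nd (nat_lit 156) (nat_lit 76) (nat_lit 0) (XT.nd (nat_lit 78) (nat_lit 0) (nat_lit 0) (XT.lf (nat_lit 0) (nat_lit 36541043674) (nat_lit 152) (nat_lit 43401586759) (nat_lit 0) (nat_lit 36436333661) (nat_lit 2) (nat_lit 5) (nat_lit 4) (nat_lit 4) (nat_lit 2) (nat_lit 4) (nat_lit 380) (nat_lit 322) (nat_lit 318)) (XT.lf (nat_lit 0) (nat_lit 51842830454) (nat_lit 152) (nat_lit 28794473602) (nat_lit 0) (nat_lit 51719885843) (nat_lit 2) (nat_lit 5) (nat_lit 4) (nat_lit 4) (nat_lit 2) (nat_lit 4) (nat_lit 381) (nat_lit 322) (nat_lit 317))) (XT.nd (nat_lit 78) (nat_lit 76) (nat_lit 0) (XT.lf (nat_lit 0) (nat_lit 68775599180) (nat_lit 152) (nat_lit 13419396445) (nat_lit 0) (nat_lit 68636798397) (nat_lit 2) (nat_lit 5) (nat_lit 4) (nat_lit 4) (nat_lit 2) (nat_lit 4) (nat_lit 382) (nat_lit 322) (nat_lit 316)) (XT.lf (nat_lit 0) (nat_lit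 3320033807) (nat_lit 76) (nat_lit 84488084868) (nat_lit 76) (nat_lit 84335496109) (nat_lit 1) (nat_lit 4) (nat_lit 2) (nat_lit 5) (nat_lit 2) (nat_lit 4) (nat_lit 383) (nat_lit 322) (nat_lit 315))))) (XT.nd (nat_lit 234) (nat_lit 0) (nat_lit 0) (XT.nd (nat_lit 78) (nat_lit 0) (nat_lit 0) (XT.lf (nat_lit 0) (nat_lit 22897304050) (nat_lit 76) (nat_lit 86948472504) (nat_lit 76) (nat_lit 86783894201) (nat_lit 1) (nat_lit 4) (nat_lit 2) (nat_lit 5) (nat_lit 2) (nat_lit 4) (nat_lit 384) (nat_lit 322) (nat_lit 314)) (XT.nd (nat_lit 78) (nat_lit 0) (nat_lit 0) (XT.lf (nat_lit 0) (nat_lit 44384006814) (nat_lit 76) (nat_lit 90325765002) (nat_lit 76) (nat_lit 90150761009) (nat_lit 1) (nat_lit 4) (nat_lit 2) (nat_lit 5) (nat_lit 2) (nat_lit 4) (nat_lit 385) (nat_lit 322) (nat_lit 313)) (XT.lf (nat_lit 0) (nat_lit 68200534112) (nat_lit 76) (nat_lit 94686039826) (nat_lit 76) (nat_lit 94501970016) (nat_lit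 1) (nat_lit 4) (nat_lit 2) (nat_lit 5) (nat_lit 2) (nat_lit 4) (nat_lit 386) (nat_lit 322) (nat_lit 312)))) (XT.nd (nat_lit 156) (nat_lit 0) (nat_lit 0) (XT.nd (nat_lit 78) (nat_lit 0) (nat_lit 0) (XT.lf (nat_lit 0) (nat_lit 94812861476) (nat_lit 76) (nat_lit 100114606700) (nat_lit 76) (nat_lit 99922653569) (nat_lit 1) (nat_lit 4) (nat_lit 2) (nat_lit 5) (nat_lit 2) (nat_lit 4) (nat_lit 387) (nat_lit 322) (nat_lit 311)) (XT.lf (nat_lit 0) (nat_lit 124741664877) (nat_lit 76) (nat_lit 106717676715) (nat_lit 76) (nat_lit 106518868523) (nat_lit 1) (nat_lit 4) (nat_lit 2) (nat_lit 5) (nat_lit 2) (nat_lit 4) (nat_lit 388) (nat_lit 322) (nat_lit 310))) (XT.nd (nat_lit 78) (nat_lit 0) (nat_lit 0) (XT.lf (nat_lit 0) (nat_lit 158572507859) (nat_lit 76) (nat_lit 114624440371) (nat_lit 76) (nat_lit 114419671257) (nat_lit 1) (nat_lit 4) (nat_lit 2) (nat_lit 5) (nat_lit 2) (nat_lit 4) (nat_lit 389) (nat_lit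 322) (nat_lit 309)) (XT.lf (nat_lit 0) (nat_lit 196967298221) (nat_lit 76) (nat_lit 123989595217) (nat_lit 76) (nat_lit 123779642693) (nat_lit 1) (nat_lit 4) (nat_lit 2) (nat_lit 5) (nat_lit 2) (nat_lit 4) (nat_lit 390) (nat_lit 322) (nat_lit 308))))))) (XT.nd (nat_lit 1014) (nat_lit 0) (nat_lit 0) (XT.nd (nat_lit 468) (nat_lit 0) (nat_lit 0) (XT.nd (nat_lit 234) (nat_lit 0) (nat_lit 0) (XT.nd (nat_lit 78) (nat_lit 0) (nat_lit 0) (XT.lf (nat_lit 0) (nat_lit 240677238382) (nat_lit 76) (nat_lit 134996372546) (nat_lit 76) (nat_lit 134781912707) (nat_lit 1) (nat_lit 4) (nat_lit 2) (nat_lit 5) (nat_lit 2) (nat_lit 4) (nat_lit 391) (nat_lit 322) (nat_lit 307)) (XT.nd (nat_lit 78) (nat_lit 0) (nat_lit 0) (XT.lf (nat_lit 0) (nat_lit 290557522823) (nat_lit 76) (nat_lit 147860122347) (nat_lit 76) (nat_lit 147641743105) (nat_lit 1) (nat_lit 4) (nat_lit 2) (nat_lit 5) (nat_lit 2) (nat_lit 4) (nat_lit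 392) (nat_lit 322) (nat_lit 306)) (XT.lf (nat_lit 0) (nat_lit 347584070154) (nat_lit 76) (nat_lit 162832526681) (nat_lit 76) (nat_lit 162610739263) (nat_lit 1) (nat_lit 4) (nat_lit 2) (nat_lit 5) (nat_lit 2) (nat_lit 4) (nat_lit 393) (nat_lit 322) (nat_lit 305)))) (XT.nd (nat_lit 78) (nat_lit 0) (nat_lit 0) (XT.lf (nat_lit 0) (nat_lit 412872617170) (nat_lit 76) (nat_lit 180206523896) (nat_lit 76) (nat_lit 179981772846) (nat_lit 1) (nat_lit 4) (nat_lit 2) (nat_lit 5) (nat_lit 2) (nat_lit 4) (nat_lit 394) (nat_lit 322) (nat_lit 304)) (XT.nd (nat_lit 78) (nat_lit 0) (nat_lit 0) (XT.lf (nat_lit 0) (nat_lit 487700548486) (nat_lit 76) (nat_lit 200322040022) (nat_lit 76) (nat_lit 200094711901) (nat_lit 1) (nat_lit 4) (nat_lit 2) (nat_lit 5) (nat_lit 2) (nat_lit 4) (nat_lit 395) (nat_lit 322) (nat_lit 303)) (XT.lf (nat_lit 0) (nat_lit 573531888845) (nat_lit 76) (nat_lit 223572639507) (nat_lit 76)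 (nat_lit 223343070454) (nat_lit 1) (nat_lit 4) (nat_lit 2) (nat_lit 5) (nat_lit 2) (nat_lit 4) (nat_lit 396) (nat_lit 322) (nat_lit 302))))) (XT.nd (nat_lit 234) (nat_lit 0) (nat_lit 0) (XT.nd (nat_lit 78) (nat_lit 0) (nat_lit 0) (XT.lf (nat_lit 0) (nat_lit 672045947082) (nat_lit 76) (nat_lit 250413225383) (nat_lit 76) (nat_lit 250181707694) (nat_lit 1) (nat_lit 4) (nat_lit 2) (nat_lit 5) (nat_lit 2) (nat_lit 4) (nat_lit 397) (nat_lit 322) (nat_lit 301)) (XT.nd (nat_lit 78) (nat_lit 0) (nat_lit 0) (XT.lf (nat_lit 0) (nat_lit 785170172160) (nat_lit 76) (nat_lit 281368939548) (nat_lit 76) (nat_lit 281135727393) (nat_lit 1) (nat_lit 4) (nat_lit 2) (nat_lit 5) (nat_lit 2) (nat_lit 4) (nat_lit 398) (nat_lit 322) (nat_lit 300)) (XT.lf (nat_lit 0) (nat_lit 915117864136) (nat_lit 76) (nat_lit 317045437279) (nat_lit 76) (nat_lit 316810751675) (nat_lit 1) (nat_lit 4) (nat_lit 2) (nat_lit 5) (nat_lit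 2) (nat_lit 4) (nat_lit 399) (nat_lit 322) (nat_lit 299)))) (XT.nd (nat_lit 156) (nat_lit 0) (nat_lit 0) (XT.nd (nat_lit 78) (nat_lit 0) (nat_lit 0) (XT.lf (nat_lit 0) (nat_lit 1064431477854) (nat_lit 76) (nat_lit 358140737010) (nat_lit 76) (nat_lit 357904770146) (nat_lit 1) (nat_lit 4) (nat_lit 2) (nat_lit 5) (nat_lit 2) (nat_lit 4) (nat_lit 400) (nat_lit 322) (nat_lit 298)) (XT.lf (nat_lit 0) (nat_lit 1236032366624) (nat_lit 76) (nat_lit 405458877215) (nat_lit 76) (nat_lit 405221796212) (nat_lit 1) (nat_lit 4) (nat_lit 2) (nat_lit 5) (nat_lit 2) (nat_lit 4) (nat_lit 401) (nat_lit 322) (nat_lit 297))) (XT.nd (nat_lit 78) (nat_lit 0) (nat_lit 0) (XT.lf (nat_lit 0) (nat_lit 1433277939141) (nat_lit 76) (nat_lit 459925647592) (nat_lit 76) (nat_lit 459687597772) (nat_lit 1) (nat_lit 4) (nat_lit 2) (nat_lit 5) (nat_lit 2) (nat_lit 4) (nat_lit 402) (nat_lit 322) (nat_lit 296)) (XT.lf (nat_lit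 0) (nat_lit 1660027347910) (nat_lit 76) (nat_lit 522606702344) (nat_lit 76) (nat_lit 522367810076) (nat_lit 1) (nat_lit 4) (nat_lit 2) (nat_lit 5) (nat_lit 2) (nat_lit 4) (nat_lit 403) (nat_lit 322) (nat_lit 295)))))) (XT.nd (nat_lit 546) (nat_lit 0) (nat_lit 0) (XT.nd (nat_lit 234) (nat_lit 0) (nat_lit 0) (XT.nd (nat_lit 78) (nat_lit 0) (nat_lit 0) (XT.lf (nat_lit 0) (nat_lit 1920716994406) (nat_lit 76) (nat_lit 594728409935) (nat_lit 76) (nat_lit 594488785102) (nat_lit 1) (nat_lit 4) (nat_lit 2) (nat_lit 5) (nat_lit 2) (nat_lit 4) (nat_lit 404) (nat_lit 322) (nat_lit 294)) (XT.nd (nat_lit 78) (nat_lit 0) (nat_lit 0) (XT.lf (nat_lit 0) (nat_lit 2220447328236) (nat_lit 76) (nat_lit 677701847252) (nat_lit 76) (nat_lit 677461585406) (nat_lit 1) (nat_lit 4) (nat_lit 2) (nat_lit 5) (nat_lit 2) (nat_lit 4) (nat_lit 405) (nat_lit 322) (nat_lit 293)) (XT.lf (nat_lit 0) (nat_lit 2565082638539) (nat_lit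 76) (nat_lit 773150407634) (nat_lit 76) (nat_lit 772909591864) (nat_lit 1) (nat_lit 4) (nat_lit 2) (nat_lit 5) (nat_lit 2) (nat_lit 4) (nat_lit 406) (nat_lit 322) (nat_lit 292)))) (XT.nd (nat_lit 156) (nat_lit 0) (nat_lit 0) (XT.nd (nat_lit 78) (nat_lit 0) (nat_lit 0) (XT.lf (nat_lit 0) (nat_lit 2961365790083) (nat_lit 76) (nat_lit 882941562913) (nat_lit 76) (nat_lit 882700265471) (nat_lit 1) (nat_lit 4) (nat_lit 2) (nat_lit 5) (nat_lit 2) (nat_lit 4) (nat_lit 407) (nat_lit 322) (nat_lit 291)) (XT.lf (nat_lit 0) (nat_lit 3417050148875) (nat_lit 76) (nat_lit 1009223400912) (nat_lit 76) (nat_lit 1008981684623) (nat_lit 1) (nat_lit 4) (nat_lit 2) (nat_lit 5) (nat_lit 2) (nat_lit 4) (nat_lit 408) (nat_lit 322) (nat_lit 290))) (XT.nd (nat_lit 78) (nat_lit 0) (nat_lit 0) (XT.lf (nat_lit 0) (nat_lit 3941051278458) (nat_lit 76) (nat_lit 1154466653243) (nat_lit 76) (nat_lit 1154224572740) (nat_lit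 1) (nat_lit 4) (nat_lit 2) (nat_lit 5) (nat_lit 2) (nat_lit 4) (nat_lit 409) (nat_lit 322) (nat_lit 289)) (XT.lf (nat_lit 0) (nat_lit 4543621374844) (nat_lit 76) (nat_lit 1321513035712) (nat_lit 76) (nat_lit 1321270638501) (nat_lit 1) (nat_lit 4) (nat_lit 2) (nat_lit 5) (nat_lit 2) (nat_lit 4) (nat_lit 410) (nat_lit 322) (nat_lit 288))))) (XT.nd (nat_lit 234) (nat_lit 0) (nat_lit 0) (XT.nd (nat_lit 78) (nat_lit 0) (nat_lit 0) (XT.lf (nat_lit 0) (nat_lit 5236549852963) (nat_lit 76) (nat_lit 1513630847107) (nat_lit 76) (nat_lit 1513388174498) (nat_lit 1) (nat_lit 4) (nat_lit 2) (nat_lit 5) (nat_lit 2) (nat_lit 4) (nat_lit 411) (nat_lit 322) (nat_lit 287)) (XT.nd (nat_lit 78) (nat_lit 0) (nat_lit 0) (XT.lf (nat_lit 0) (nat_lit 6033394009127) (nat_lit 76) (nat_lit 1734578914173) (nat_lit 76) (nat_lit 1734336002087) (nat_lit 1) (nat_lit 4) (nat_lit 2) (nat_lit 5) (nat_lit 2) (nat_lit 4) (nat_lit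 412) (nat_lit 322) (nat_lit 286)) (XT.lf (nat_lit 0) (nat_lit 6949744272477) (nat_lit 76) (nat_lit 1988680133873) (nat_lit 76) (nat_lit 1988437013547) (nat_lit 1) (nat_lit 4) (nat_lit 2) (nat_lit 5) (nat_lit 2) (nat_lit 4) (nat_lit 413) (nat_lit 322) (nat_lit 285)))) (XT.nd (nat_lit 156) (nat_lit 0) (nat_lit 0) (XT.nd (nat_lit 78) (nat_lit 0) (nat_lit 0) (XT.lf (nat_lit 0) (nat_lit 8003529235123) (nat_lit 76) (nat_lit 2280906051812) (nat_lit 76) (nat_lit 2280662750407) (nat_lit 1) (nat_lit 4) (nat_lit 2) (nat_lit 5) (nat_lit 2) (nat_lit 4) (nat_lit 414) (nat_lit 322) (nat_lit 284)) (XT.lf (nat_lit 0) (nat_lit 9215366428942) (nat_lit 76) (nat_lit 2616974131600) (nat_lit 76) (nat_lit 2616730672735) (nat_lit 1) (nat_lit 4) (nat_lit 2) (nat_lit 5) (nat_lit 2) (nat_lit 4) (nat_lit 415) (nat_lit 322) (nat_lit 283))) (XT.nd (nat_lit 78) (nat_lit 0) (nat_lit 0) (XT.lf (nat_lit 0) (nat_lit 10608965712075)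 (nat_lit 76) (nat_lit 3003459618276) (nat_lit 76) (nat_lit 3003216022490) (nat_lit 1) (nat_lit 4) (nat_lit 2) (nat_lit 5) (nat_lit 2) (nat_lit 4) (nat_lit 416) (nat_lit 322) (nat_lit 282)) (XT.lf (nat_lit 0) (nat_lit 12211593157452) (nat_lit 76) (nat_lit 3447924184408) (nat_lit 76) (nat_lit 3447680469559) (nat_lit 1) (nat_lit 4) (nat_lit 2) (nat_lit 5) (nat_lit 2) (nat_lit 4) (nat_lit 417) (nat_lit 322) (nat_lit 281))))))))
noncomputable def xc20 : XT := (XT.nd (nat_lit 50154) (nat_lit 0) (nat_lit 0) (XT.nd (nat_lit 1014) (nat_lit 0) (nat_lit 0) (XT.nd (nat_lit 468) (nat_lit 0) (nat_lit 0) (XT.nd (nat_lit 234) (nat_lit 0) (nat_lit 0) (XT.nd (nat_lit 78) (nat_lit 0) (nat_lit 0) (XT.lf (nat_lit 0) (nat_lit 14054604519439) (nat_lit 76) (nat_lit 3959063875852) (nat_lit 76) (nat_lit 3958820057471) (nat_lit 1) (nat_lit 4) (nat_lit 2) (nat_lit 5) (nat_lit 2) (nat_lit 4) (nat_lit 418) (nat_lit 322)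 (nat_lit 280)) (XT.nd (nat_lit 78) (nat_lit 0) (nat_lit 0) (XT.lf (nat_lit 0) (nat_lit 16174058715988) (nat_lit 76) (nat_lit 4546879251791) (nat_lit 76) (nat_lit 4546635343382) (nat_lit 1) (nat_lit 4) (nat_lit 2) (nat_lit 5) (nat_lit 2) (nat_lit 4) (nat_lit 419) (nat_lit 322) (nat_lit 279)) (XT.lf (nat_lit 0) (nat_lit 18611423329206) (nat_lit 76) (nat_lit 5222871047839) (nat_lit 76) (nat_lit 5222627061145) (nat_lit 1) (nat_lit 4) (nat_lit 2) (nat_lit 5) (nat_lit 2) (nat_lit 4) (nat_lit 420) (nat_lit 322) (nat_lit 278)))) (XT.nd (nat_lit 78) (nat_lit 0) (nat_lit 0) (XT.lf (nat_lit 0) (nat_lit 21414385927612) (nat_lit 76) (nat_lit 6000265190442) (nat_lit 76) (nat_lit 6000021135673) (nat_lit 1) (nat_lit 4) (nat_lit 2) (nat_lit 5) (nat_lit 2) (nat_lit 4) (nat_lit 421) (nat_lit 322) (nat_lit 277)) (XT.nd (nat_lit 78) (nat_lit 0) (nat_lit 0) (XT.lf (nat_lit 0) (nat_lit 24637787083783) (nat_lit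 76) (nat_lit 6894271564998) (nat_lit 76) (nat_lit 6894027451035) (nat_lit 1) (nat_lit 4) (nat_lit 2) (nat_lit 5) (nat_lit 2) (nat_lit 4) (nat_lit 422) (nat_lit 322) (nat_lit 276)) (XT.lf (nat_lit 0) (nat_lit 28344693342080) (nat_lit 76) (nat_lit 7922381600575) (nat_lit 76) (nat_lit 7922137435137) (nat_lit 1) (nat_lit 4) (nat_lit 2) (nat_lit 5) (nat_lit 2) (nat_lit 4) (nat_lit 423) (nat_lit 322) (nat_lit 275))))) (XT.nd (nat_lit 234) (nat_lit 0) (nat_lit 0) (XT.nd (nat_lit 78) (nat_lit 0) (nat_lit 0) (XT.lf (nat_lit 0) (nat_lit 32607631129295) (nat_lit 76) (nat_lit 9104710493520) (nat_lit 76) (nat_lit 9104466283323) (nat_lit 1) (nat_lit 4) (nat_lit 2) (nat_lit 5) (nat_lit 2) (nat_lit 4) (nat_lit 424) (nat_lit 322) (nat_lit 274)) (XT.nd (nat_lit 78) (nat_lit 0) (nat_lit 0) (XT.lf (nat_lit 0) (nat_lit 37510005749961) (nat_lit 76) (nat_lit 10464390765653) (nat_lit 76) (nat_lit 10464146516534)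 (nat_lit 1) (nat_lit 4) (nat_lit 2) (nat_lit 5) (nat_lit 2) (nat_lit 4) (nat_lit 425) (nat_lit 322) (nat_lit 273)) (XT.lf (nat_lit 0) (nat_lit 43147733229264) (nat_lit 76) (nat_lit 12028024857080) (nat_lit 76) (nat_lit 12027780574117) (nat_lit 1) (nat_lit 4) (nat_lit 2) (nat_lit 5) (nat_lit 2) (nat_lit 4) (nat_lit 426) (nat_lit 322) (nat_lit 272)))) (XT.nd (nat_lit 156) (nat_lit 0) (nat_lit 0) (XT.nd (nat_lit 78) (nat_lit 0) (nat_lit 0) (XT.lf (nat_lit 0) (nat_lit 49631116930931) (nat_lit 76) (nat_lit 13826205608721) (nat_lit 76) (nat_lit 13825961296327) (nat_lit 1) (nat_lit 4) (nat_lit 2) (nat_lit 5) (nat_lit 2) (nat_lit 4) (nat_lit 427) (nat_lit 322) (nat_lit 271)) (XT.lf (nat_lit 0) (nat_lit 57087005666515) (nat_lit 76) (nat_lit 15894114817890) (nat_lit 76) (nat_lit 15893870479904) (nat_lit 1) (nat_lit 4) (nat_lit 2) (nat_lit 5) (nat_lit 2) (nat_lit 4) (nat_lit 428) (nat_lit 322) (nat_lit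 270))) (XT.nd (nat_lit 78) (nat_lit 0) (nat_lit 0) (XT.lf (nat_lit 0) (nat_lit 65661275519973) (nat_lit 76) (nat_lit 18272211577810) (nat_lit 76) (nat_lit 18271967217571) (nat_lit 1) (nat_lit 4) (nat_lit 2) (nat_lit 5) (nat_lit 2) (nat_lit 4) (nat_lit 429) (nat_lit 322) (nat_lit 269)) (XT.lf (nat_lit 0) (nat_lit 75521683944961) (nat_lit 76) (nat_lit 21007023868567) (nat_lit 76) (nat_lit 21006779488977) (nat_lit 1) (nat_lit 4) (nat_lit 2) (nat_lit 5) (nat_lit 2) (nat_lit 4) (nat_lit 430) (nat_lit 322) (nat_lit 268)))))) (XT.nd (nat_lit 468) (nat_lit 0) (nat_lit 0) (XT.nd (nat_lit 234) (nat_lit 0) (nat_lit 0) (XT.nd (nat_lit 78) (nat_lit 0) (nat_lit 0) (XT.lf (nat_lit 0) (nat_lit 86861151975880) (nat_lit 76) (nat_lit 24152058887153) (nat_lit 76) (nat_lit 24151814490736) (nat_lit 1) (nat_lit 4) (nat_lit 2) (nat_lit 5) (nat_lit 2) (nat_lit 4) (nat_lit 431) (nat_lit 322) (nat_lit 267)) (XT.nd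 (nat_lit 78) (nat_lit 0) (nat_lit 0) (XT.lf (nat_lit 0) (nat_lit 99901538769856) (nat_lit 76) (nat_lit 27768849927410) (nat_lit 76) (nat_lit 27768605516361) (nat_lit 1) (nat_lit 4) (nat_lit 2) (nat_lit 5) (nat_lit 2) (nat_lit 4) (nat_lit 432) (nat_lit 322) (nat_lit 266)) (XT.lf (nat_lit 0) (nat_lit 114897982329381) (nat_lit 76) (nat_lit 31928160292301) (nat_lit 76) (nat_lit 31927915868529) (nat_lit 1) (nat_lit 4) (nat_lit 2) (nat_lit 5) (nat_lit 2) (nat_lit 4) (nat_lit 433) (nat_lit 322) (nat_lit 265)))) (XT.nd (nat_lit 78) (nat_lit 0) (nat_lit 0) (XT.lf (nat_lit 0) (nat_lit 132143891332794) (nat_lit 76) (nat_lit 36711367793312) (nat_lit 76) (nat_lit 36711123358475) (nat_lit 1) (nat_lit 4) (nat_lit 2) (nat_lit 5) (nat_lit 2) (nat_lit 4) (nat_lit 434) (nat_lit 322) (nat_lit 264)) (XT.nd (nat_lit 78) (nat_lit 0) (nat_lit 0) (XT.lf (nat_lit 0) (nat_lit 151976685738855) (nat_lit 76) (nat_lit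 42212056925028) (nat_lit 76) (nat_lit 42211812480570) (nat_lit 1) (nat_lit 4) (nat_lit 2) (nat_lit 5) (nat_lit 2) (nat_lit 4) (nat_lit 435) (nat_lit 322) (nat_lit 263)) (XT.lf (nat_lit 0) (nat_lit 174784398481599) (nat_lit 76) (nat_lit 48537849866112) (nat_lit 76) (nat_lit 48537605413289) (nat_lit 1) (nat_lit 4) (nat_lit 2) (nat_lit 5) (nat_lit 2) (nat_lit 4) (nat_lit 436) (nat_lit 322) (nat_lit 262))))) (XT.nd (nat_lit 48360) (nat_lit 0) (nat_lit 76) (XT.nd (nat_lit 48204) (nat_lit 0) (nat_lit 228) (XT.lf (nat_lit 0) (nat_lit 201013267419033) (nat_lit 76) (nat_lit 55812512130631) (nat_lit 76) (nat_lit 55812267670533) (nat_lit 1) (nat_lit 4) (nat_lit 2) (nat_lit 5) (nat_lit 2) (nat_lit 4) (nat_lit 437) (nat_lit 322) (nat_lit 261)) (XT.nd (nat_lit 78) (nat_lit 76) (nat_lit 0) (XT.lf (nat_lit 0) (nat_lit 11842742958) (nat_lit 76) (nat_lit 4846314564) (nat_lit 0) (nat_lit 11842742958) (nat_lit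 5) (nat_lit 5) (nat_lit 6) (nat_lit 4) (nat_lit 5) (nat_lit 4) (nat_lit 374) (nat_lit 323) (nat_lit 323)) (XT.lf (nat_lit 0) (nat_lit 15705495407) (nat_lit 76) (nat_lit 24038338558) (nat_lit 76) (nat_lit 23996160825) (nat_lit 4) (nat_lit 4) (nat_lit 5) (nat_lit 5) (nat_lit 5) (nat_lit 4) (nat_lit 375) (nat_lit 323) (nat_lit 322)))) (XT.nd (nat_lit 156) (nat_lit 152) (nat_lit 0) (XT.nd (nat_lit 78) (nat_lit 0) (nat_lit 0) (XT.lf (nat_lit 0) (nat_lit 43628196415) (nat_lit 76) (nat_lit 13979497457) (nat_lit 76) (nat_lit 13900643434) (nat_lit 4) (nat_lit 4) (nat_lit 5) (nat_lit 5) (nat_lit 5) (nat_lit 4) (nat_lit 376) (nat_lit 323) (nat_lit 321)) (XT.lf (nat_lit 0) (nat_lit 73674553399) (nat_lit 76) (nat_lit 3511448487) (nat_lit 76) (nat_lit 3400702039) (nat_lit 4) (nat_lit 4) (nat_lit 5) (nat_lit 5) (nat_lit 5) (nat_lit 4) (nat_lit 377) (nat_lit 323) (nat_lit 320))) (XT.nd (nat_lit 78) (nat_lit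 0) (nat_lit 0) (XT.lf (nat_lit 0) (nat_lit 8063868495) (nat_lit 152) (nat_lit 74941348505) (nat_lit 0) (nat_lit 7943451981) (nat_lit 2) (nat_lit 5) (nat_lit 4) (nat_lit 4) (nat_lit 2) (nat_lit 4) (nat_lit 378) (nat_lit 323) (nat_lit 319)) (XT.lf (nat_lit 0) (nat_lit 20567173532) (nat_lit 152) (nat_lit 61897596935) (nat_lit 0) (nat_lit 20425787230) (nat_lit 2) (nat_lit 5) (nat_lit 4) (nat_lit 4) (nat_lit 2) (nat_lit 4) (nat_lit 379) (nat_lit 323) (nat_lit 318))))))) (XT.nd (nat_lit 1014) (nat_lit 0) (nat_lit 0) (XT.nd (nat_lit 468) (nat_lit 0) (nat_lit 0) (XT.nd (nat_lit 234) (nat_lit 76) (nat_lit 0) (XT.nd (nat_lit 78) (nat_lit 0) (nat_lit 0) (XT.lf (nat_lit 0) (nat_lit 34182045344) (nat_lit 152) (nat_lit 48533851048) (nat_lit 0) (nat_lit 34022424444) (nat_lit 2) (nat_lit 5) (nat_lit 4) (nat_lit 4) (nat_lit 2) (nat_lit 4) (nat_lit 380) (nat_lit 323) (nat_lit 317)) (XT.nd (nat_lit 78) (nat_lit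 0) (nat_lit 0) (XT.lf (nat_lit 0) (nat_lit 49174861859) (nat_lit 152) (nat_lit 34588646251) (nat_lit 0) (nat_lit 48999384787) (nat_lit 2) (nat_lit 5) (nat_lit 4) (nat_lit 4) (nat_lit 2) (nat_lit 4) (nat_lit 381) (nat_lit 323) (nat_lit 316)) (XT.lf (nat_lit 0) (nat_lit 65838960790) (nat_lit 152) (nat_lit 19789141580) (nat_lit 0) (nat_lit 65649695742) (nat_lit 2) (nat_lit 5) (nat_lit 4) (nat_lit 4) (nat_lit 2) (nat_lit 4) (nat_lit 382) (nat_lit 323) (nat_lit 315)))) (XT.nd (nat_lit 78) (nat_lit 76) (nat_lit 0) (XT.lf (nat_lit 0) (nat_lit 84500378856) (nat_lit 152) (nat_lit 3845781509) (nat_lit 0) (nat_lit 84299124264) (nat_lit 2) (nat_lit 5) (nat_lit 4) (nat_lit 4) (nat_lit 2) (nat_lit 4) (nat_lit 383) (nat_lit 323) (nat_lit 314)) (XT.nd (nat_lit 78) (nat_lit 0) (nat_lit 0) (XT.lf (nat_lit 0) (nat_lit 14877903080) (nat_lit 76) (nat_lit 91262389916) (nat_lit 76) (nat_lit 91050709634) (nat_lit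 1) (nat_lit 4) (nat_lit 2) (nat_lit 5) (nat_lit 2) (nat_lit 4) (nat_lit 384) (nat_lit 323) (nat_lit 313)) (XT.lf (nat_lit 0) (nat_lit 35949172877) (nat_lit 76) (nat_lit 94861258438) (nat_lit 76) (nat_lit 94640512338) (nat_lit 1) (nat_lit 4) (nat_lit 2) (nat_lit 5) (nat_lit 2) (nat_lit 4) (nat_lit 385) (nat_lit 323) (nat_lit 312))))) (XT.nd (nat_lit 234) (nat_lit 0) (nat_lit 0) (XT.nd (nat_lit 78) (nat_lit 0) (nat_lit 0) (XT.lf (nat_lit 0) (nat_lit 59404454114) (nat_lit 76) (nat_lit 99414208065) (nat_lit 76) (nat_lit 99185578645) (nat_lit 1) (nat_lit 4) (nat_lit 2) (nat_lit 5) (nat_lit 2) (nat_lit 4) (nat_lit 386) (nat_lit 323) (nat_lit 311)) (XT.nd (nat_lit 78) (nat_lit 0) (nat_lit 0) (XT.lf (nat_lit 0) (nat_lit 85702654470) (nat_lit 76) (nat_lit 105010318246) (nat_lit 76) (nat_lit 104774833765) (nat_lit 1) (nat_lit 4) (nat_lit 2) (nat_lit 5) (nat_lit 2) (nat_lit 4) (nat_lit 387) (nat_lit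 323) (nat_lit 310)) (XT.lf (nat_lit 0) (nat_lit 115358303951) (nat_lit 76) (nat_lit 111759078093) (nat_lit 76) (nat_lit 111517632689) (nat_lit 1) (nat_lit 4) (nat_lit 2) (nat_lit 5) (nat_lit 2) (nat_lit 4) (nat_lit 388) (nat_lit 323) (nat_lit 309)))) (XT.nd (nat_lit 156) (nat_lit 0) (nat_lit 0) (XT.nd (nat_lit 78) (nat_lit 0) (nat_lit 0) (XT.lf (nat_lit 0) (nat_lit 148951621785) (nat_lit 76) (nat_lit 119792528559) (nat_lit 76) (nat_lit 119545899745) (nat_lit 1) (nat_lit 4) (nat_lit 2) (nat_lit 5) (nat_lit 2) (nat_lit 4) (nat_lit 389) (nat_lit 323) (nat_lit 308)) (XT.lf (nat_lit 0) (nat_lit 187139868540) (nat_lit 76) (nat_lit 129267845850) (nat_lit 76) (nat_lit 129016709722) (nat_lit 1) (nat_lit 4) (nat_lit 2) (nat_lit 5) (nat_lit 2) (nat_lit 4) (nat_lit 390) (nat_lit 323) (nat_lit 307))) (XT.nd (nat_lit 78) (nat_lit 0) (nat_lit 0) (XT.lf (nat_lit 0) (nat_lit 230670205564) (nat_lit 76) (nat_lit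 140370416607) (nat_lit 76) (nat_lit 140115361076) (nat_lit 1) (nat_lit 4) (nat_lit 2) (nat_lit 5) (nat_lit 2) (nat_lit 4) (nat_lit 391) (nat_lit 323) (nat_lit 306)) (XT.lf (nat_lit 0) (nat_lit 280394313365) (nat_lit 76) (nat_lit 153317465043) (nat_lit 76) (nat_lit 153059001335) (nat_lit 1) (nat_lit 4) (nat_lit 2) (nat_lit 5) (nat_lit 2) (nat_lit 4) (nat_lit 392) (nat_lit 323) (nat_lit 305)))))) (XT.nd (nat_lit 546) (nat_lit 0) (nat_lit 0) (XT.nd (nat_lit 234) (nat_lit 0) (nat_lit 0) (XT.nd (nat_lit 78) (nat_lit 0) (nat_lit 0) (XT.lf (nat_lit 0) (nat_lit 337285054922) (nat_lit 76) (nat_lit 168362302973) (nat_lit 76) (nat_lit 168100875633) (nat_lit 1) (nat_lit 4) (nat_lit 2) (nat_lit 5) (nat_lit 2) (nat_lit 4) (nat_lit 393) (nat_lit 323) (nat_lit 304)) (XT.nd (nat_lit 78) (nat_lit 0) (nat_lit 0) (XT.lf (nat_lit 0) (nat_lit 402455509960) (nat_lit 76) (nat_lit 185799285922) (nat_lit 76) (nat_lit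 185535281511) (nat_lit 1) (nat_lit 4) (nat_lit 2) (nat_lit 5) (nat_lit 2) (nat_lit 4) (nat_lit 394) (nat_lit 323) (nat_lit 303)) (XT.lf (nat_lit 0) (nat_lit 477180752600) (nat_lit 76) (nat_lit 205969572253) (nat_lit 76) (nat_lit 205703326910) (nat_lit 1) (nat_lit 4) (nat_lit 2) (nat_lit 5) (nat_lit 2) (nat_lit 4) (nat_lit 395) (nat_lit 323) (nat_lit 302)))) (XT.nd (nat_lit 156) (nat_lit 0) (nat_lit 0) (XT.nd (nat_lit 78) (nat_lit 0) (nat_lit 0) (XT.lf (nat_lit 0) (nat_lit 562922798458) (nat_lit 76) (nat_lit 229267798002) (nat_lit 76) (nat_lit 228999604023) (nat_lit 1) (nat_lit 4) (nat_lit 2) (nat_lit 5) (nat_lit 2) (nat_lit 4) (nat_lit 396) (nat_lit 323) (nat_lit 301)) (XT.lf (nat_lit 0) (nat_lit 661359209302) (nat_lit 76) (nat_lit 256149798021) (nat_lit 76) (nat_lit 255879909576) (nat_lit 1) (nat_lit 4) (nat_lit 2) (nat_lit 5) (nat_lit 2) (nat_lit 4) (nat_lit 397) (nat_lit 323) (nat_lit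 300))) (XT.nd (nat_lit 78) (nat_lit 0) (nat_lit 0) (XT.lf (nat_lit 0) (nat_lit 774415914909) (nat_lit 76) (nat_lit 287141524484) (nat_lit 76) (nat_lit 286870162591) (nat_lit 1) (nat_lit 4) (nat_lit 2) (nat_lit 5) (nat_lit 2) (nat_lit 4) (nat_lit 398) (nat_lit 323) (nat_lit 299)) (XT.lf (nat_lit 0) (nat_lit 904304894302) (nat_lit 76) (nat_lit 322849337257) (nat_lit 76) (nat_lit 322576694104) (nat_lit 1) (nat_lit 4) (nat_lit 2) (nat_lit 5) (nat_lit 2) (nat_lit 4) (nat_lit 399) (nat_lit 323) (nat_lit 298))))) (XT.nd (nat_lit 234) (nat_lit 0) (nat_lit 0) (XT.nd (nat_lit 78) (nat_lit 0) (nat_lit 0) (XT.lf (nat_lit 0) (nat_lit 1053567453598) (nat_lit 76) (nat_lit 363971867460) (nat_lit 76) (nat_lit 363698110168) (nat_lit 1) (nat_lit 4) (nat_lit 2) (nat_lit 5) (nat_lit 2) (nat_lit 4) (nat_lit 400) (nat_lit 323) (nat_lit 297)) (XT.nd (nat_lit 78) (nat_lit 0) (nat_lit 0) (XT.lf (nat_lit 0) (nat_lit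 1225123947220) (nat_lit 76) (nat_lit 411313686335) (nat_lit 76) (nat_lit 411038960226) (nat_lit 1) (nat_lit 4) (nat_lit 2) (nat_lit 5) (nat_lit 2) (nat_lit 4) (nat_lit 401) (nat_lit 323) (nat_lit 296)) (XT.lf (nat_lit 0) (nat_lit 1422330915260) (nat_lit 76) (nat_lit 465801046860) (nat_lit 76) (nat_lit 465525478302) (nat_lit 1) (nat_lit 4) (nat_lit 2) (nat_lit 5) (nat_lit 2) (nat_lit 4) (nat_lit 402) (nat_lit 323) (nat_lit 295)))) (XT.nd (nat_lit 156) (nat_lit 0) (nat_lit 0) (XT.nd (nat_lit 78) (nat_lit 0) (nat_lit 0) (XT.lf (nat_lit 0) (nat_lit 1649046754918) (nat_lit 76) (nat_lit 528500006090) (nat_lit 76) (nat_lit 528223704967) (nat_lit 1) (nat_lit 4) (nat_lit 2) (nat_lit 5) (nat_lit 2) (nat_lit 4) (nat_lit 403) (nat_lit 323) (nat_lit 294)) (XT.lf (nat_lit 0) (nat_lit 1909707210884) (nat_lit 76) (nat_lit 600637282791) (nat_lit 76) (nat_lit 600360344656) (nat_lit 1) (nat_lit 4) (nat_lit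 2) (nat_lit 5) (nat_lit 2) (nat_lit 4) (nat_lit 404) (nat_lit 323) (nat_lit 293))) (XT.nd (nat_lit 78) (nat_lit 0) (nat_lit 0) (XT.lf (nat_lit 0) (nat_lit 2209412161643) (nat_lit 76) (nat_lit 683624258465) (nat_lit 76) (nat_lit 683346766406) (nat_lit 1) (nat_lit 4) (nat_lit 2) (nat_lit 5) (nat_lit 2) (nat_lit 4) (nat_lit 405) (nat_lit 323) (nat_lit 292)) (XT.lf (nat_lit 0) (nat_lit 2554025399712) (nat_lit 76) (nat_lit 779084591331) (nat_lit 76) (nat_lit 778806617598) (nat_lit 1) (nat_lit 4) (nat_lit 2) (nat_lit 5) (nat_lit 2) (nat_lit 4) (nat_lit 406) (nat_lit 323) (nat_lit 291))))))))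
noncomputable def xc21 : XT := (XT.nd (nat_lit 2106) (nat_lit 0) (nat_lit 0) (XT.nd (nat_lit 1014) (nat_lit 0) (nat_lit 0) (XT.nd (nat_lit 468) (nat_lit 0) (nat_lit 0) (XT.nd (nat_lit 234) (nat_lit 0) (nat_lit 0) (XT.nd (nat_lit 78) (nat_lit 0) (nat_lit 0) (XT.lf (nat_lit 0) (nat_lit 2950289358007) (nat_lit 76) (nat_lit 888885983553) (nat_lit 76) (nat_lit 888607590975) (nat_lit 1) (nat_lit 4) (nat_lit 2) (nat_lit 5) (nat_lit 2) (nat_lit 4) (nat_lit 407) (nat_lit 323) (nat_lit 290)) (XT.nd (nat_lit 78) (nat_lit 0) (nat_lit 0) (XT.lf (nat_lit 0) (nat_lit 3405957027019) (nat_lit 76) (nat_lit 1015176723241) (nat_lit 76) (nat_lit 1014897966449) (nat_lit 1) (nat_lit 4) (nat_lit 2) (nat_lit 5) (nat_lit 2) (nat_lit 4) (nat_lit 408) (nat_lit 323) (nat_lit 289)) (XT.lf (nat_lit 0) (nat_lit 3929943643749) (nat_lit 76) (nat_lit 1160427716172) (nat_lit 76) (nat_lit 1160148642671) (nat_lit 1) (nat_lit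 4) (nat_lit 2) (nat_lit 5) (nat_lit 2) (nat_lit 4) (nat_lit 409) (nat_lit 323) (nat_lit 288)))) (XT.nd (nat_lit 78) (nat_lit 0) (nat_lit 0) (XT.lf (nat_lit 0) (nat_lit 4532501120263) (nat_lit 76) (nat_lit 1327480829597) (nat_lit 76) (nat_lit 1327201480698) (nat_lit 1) (nat_lit 4) (nat_lit 2) (nat_lit 5) (nat_lit 2) (nat_lit 4) (nat_lit 410) (nat_lit 323) (nat_lit 287)) (XT.nd (nat_lit 78) (nat_lit 0) (nat_lit 0) (XT.lf (nat_lit 0) (nat_lit 5225418624581) (nat_lit 76) (nat_lit 1519604493997) (nat_lit 76) (nat_lit 1519324905622) (nat_lit 1) (nat_lit 4) (nat_lit 2) (nat_lit 5) (nat_lit 2) (nat_lit 4) (nat_lit 411) (nat_lit 323) (nat_lit 286)) (XT.lf (nat_lit 0) (nat_lit 6022253238308) (nat_lit 76) (nat_lit 1740557650633) (nat_lit 76) (nat_lit 1740277854017) (nat_lit 1) (nat_lit 4) (nat_lit 2) (nat_lit 5) (nat_lit 2) (nat_lit 4) (nat_lit 412) (nat_lit 323) (nat_lit 285))))) (XT.nd (nat_lit 234)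 (nat_lit 0) (nat_lit 0) (XT.nd (nat_lit 78) (nat_lit 0) (nat_lit 0) (XT.lf (nat_lit 0) (nat_lit 6938595203888) (nat_lit 76) (nat_lit 1994663296046) (nat_lit 76) (nat_lit 1994383318352) (nat_lit 1) (nat_lit 4) (nat_lit 2) (nat_lit 5) (nat_lit 2) (nat_lit 4) (nat_lit 413) (nat_lit 323) (nat_lit 284)) (XT.nd (nat_lit 78) (nat_lit 0) (nat_lit 0) (XT.lf (nat_lit 0) (nat_lit 7992372951081) (nat_lit 76) (nat_lit 2286893062430) (nat_lit 76) (nat_lit 2286612927276) (nat_lit 1) (nat_lit 4) (nat_lit 2) (nat_lit 5) (nat_lit 2) (nat_lit 4) (nat_lit 414) (nat_lit 323) (nat_lit 283)) (XT.lf (nat_lit 0) (nat_lit 9204203870593) (nat_lit 76) (nat_lit 2622964488693) (nat_lit 76) (nat_lit 2622684216617) (nat_lit 1) (nat_lit 4) (nat_lit 2) (nat_lit 5) (nat_lit 2) (nat_lit 4) (nat_lit 415) (nat_lit 323) (nat_lit 282)))) (XT.nd (nat_lit 156) (nat_lit 0) (nat_lit 0) (XT.nd (nat_lit 78) (nat_lit 0) (nat_lit 0) (XT.lf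 (nat_lit 0) (nat_lit 10597797697807) (nat_lit 76) (nat_lit 3009452885348) (nat_lit 76) (nat_lit 3009172494210) (nat_lit 1) (nat_lit 4) (nat_lit 2) (nat_lit 5) (nat_lit 2) (nat_lit 4) (nat_lit 416) (nat_lit 323) (nat_lit 281)) (XT.lf (nat_lit 0) (nat_lit 12200420398906) (nat_lit 76) (nat_lit 3453919981895) (nat_lit 76) (nat_lit 3453639487225) (nat_lit 1) (nat_lit 4) (nat_lit 2) (nat_lit 5) (nat_lit 2) (nat_lit 4) (nat_lit 417) (nat_lit 323) (nat_lit 280))) (XT.nd (nat_lit 78) (nat_lit 0) (nat_lit 0) (XT.lf (nat_lit 0) (nat_lit 14043427635435) (nat_lit 76) (nat_lit 3965061873701) (nat_lit 76) (nat_lit 3964781289002) (nat_lit 1) (nat_lit 4) (nat_lit 2) (nat_lit 5) (nat_lit 2) (nat_lit 4) (nat_lit 418) (nat_lit 323) (nat_lit 279)) (XT.lf (nat_lit 0) (nat_lit 16162878244629) (nat_lit 76) (nat_lit 4552879162997) (nat_lit 76) (nat_lit 4552598500013) (nat_lit 1) (nat_lit 4) (nat_lit 2) (nat_lit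 5) (nat_lit 2) (nat_lit 4) (nat_lit 419) (nat_lit 323) (nat_lit 278)))))) (XT.nd (nat_lit 546) (nat_lit 0) (nat_lit 0) (XT.nd (nat_lit 234) (nat_lit 0) (nat_lit 0) (XT.nd (nat_lit 78) (nat_lit 0) (nat_lit 0) (XT.lf (nat_lit 0) (nat_lit 18600239738407) (nat_lit 76) (nat_lit 5228872622835) (nat_lit 76) (nat_lit 5228591891777) (nat_lit 1) (nat_lit 4) (nat_lit 2) (nat_lit 5) (nat_lit 2) (nat_lit 4) (nat_lit 420) (nat_lit 323) (nat_lit 277)) (XT.nd (nat_lit 78) (nat_lit 0) (nat_lit 0) (XT.lf (nat_lit 0) (nat_lit 21403199624257) (nat_lit 76) (nat_lit 6006268212211) (nat_lit 76) (nat_lit 6005987421958) (nat_lit 1) (nat_lit 4) (nat_lit 2) (nat_lit 5) (nat_lit 2) (nat_lit 4) (nat_lit 421) (nat_lit 323) (nat_lit 276)) (XT.lf (nat_lit 0) (nat_lit 24626598421684) (nat_lit 76) (nat_lit 6900275844831) (nat_lit 76) (nat_lit 6899995003104) (nat_lit 1) (nat_lit 4) (nat_lit 2) (nat_lit 5) (nat_lit 2) (nat_lit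 4) (nat_lit 422) (nat_lit 323) (nat_lit 275)))) (XT.nd (nat_lit 156) (nat_lit 0) (nat_lit 0) (XT.nd (nat_lit 78) (nat_lit 0) (nat_lit 0) (XT.lf (nat_lit 0) (nat_lit 28333502628899) (nat_lit 76) (nat_lit 7928386974376) (nat_lit 76) (nat_lit 7928106087890) (nat_lit 1) (nat_lit 4) (nat_lit 2) (nat_lit 5) (nat_lit 2) (nat_lit 4) (nat_lit 423) (nat_lit 323) (nat_lit 274)) (XT.lf (nat_lit 0) (nat_lit 32596438632565) (nat_lit 76) (nat_lit 9110716818599) (nat_lit 76) (nat_lit 9110435893190) (nat_lit 1) (nat_lit 4) (nat_lit 2) (nat_lit 5) (nat_lit 2) (nat_lit 4) (nat_lit 424) (nat_lit 323) (nat_lit 273))) (XT.nd (nat_lit 78) (nat_lit 0) (nat_lit 0) (XT.lf (nat_lit 0) (nat_lit 37498811702318) (nat_lit 76) (nat_lit 10470397917929) (nat_lit 76) (nat_lit 10470116958676) (nat_lit 1) (nat_lit 4) (nat_lit 2) (nat_lit 5) (nat_lit 2) (nat_lit 4) (nat_lit 425) (nat_lit 323) (nat_lit 272)) (XT.lf (nat_lit 0)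 (nat_lit 43136537833002) (nat_lit 76) (nat_lit 12034032728658) (nat_lit 76) (nat_lit 12033751739975) (nat_lit 1) (nat_lit 4) (nat_lit 2) (nat_lit 5) (nat_lit 2) (nat_lit 4) (nat_lit 426) (nat_lit 323) (nat_lit 271))))) (XT.nd (nat_lit 234) (nat_lit 0) (nat_lit 0) (XT.nd (nat_lit 78) (nat_lit 0) (nat_lit 0) (XT.lf (nat_lit 0) (nat_lit 49619920361955) (nat_lit 76) (nat_lit 13832214105779) (nat_lit 76) (nat_lit 13831933091504) (nat_lit 1) (nat_lit 4) (nat_lit 2) (nat_lit 5) (nat_lit 2) (nat_lit 4) (nat_lit 427) (nat_lit 323) (nat_lit 270)) (XT.nd (nat_lit 78) (nat_lit 0) (nat_lit 0) (XT.lf (nat_lit 0) (nat_lit 57075808077789) (nat_lit 76) (nat_lit 15900123858844) (nat_lit 76) (nat_lit 15899842822315) (nat_lit 1) (nat_lit 4) (nat_lit 2) (nat_lit 5) (nat_lit 2) (nat_lit 4) (nat_lit 428) (nat_lit 323) (nat_lit 269)) (XT.lf (nat_lit 0) (nat_lit 65650077044508) (nat_lit 76) (nat_lit 18278221091717)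 (nat_lit 76) (nat_lit 18277940035837) (nat_lit 1) (nat_lit 4) (nat_lit 2) (nat_lit 5) (nat_lit 2) (nat_lit 4) (nat_lit 429) (nat_lit 323) (nat_lit 268)))) (XT.nd (nat_lit 156) (nat_lit 0) (nat_lit 0) (XT.nd (nat_lit 78) (nat_lit 0) (nat_lit 0) (XT.lf (nat_lit 0) (nat_lit 75510484698418) (nat_lit 76) (nat_lit 21013033793737) (nat_lit 76) (nat_lit 21012752721030) (nat_lit 1) (nat_lit 4) (nat_lit 2) (nat_lit 5) (nat_lit 2) (nat_lit 4) (nat_lit 430) (nat_lit 323) (nat_lit 267)) (XT.lf (nat_lit 0) (nat_lit 86849952058834) (nat_lit 76) (nat_lit 24158069169943) (nat_lit 76) (nat_lit 24157788082604) (nat_lit 1) (nat_lit 4) (nat_lit 2) (nat_lit 5) (nat_lit 2) (nat_lit 4) (nat_lit 431) (nat_lit 323) (nat_lit 266))) (XT.nd (nat_lit 78) (nat_lit 0) (nat_lit 0) (XT.lf (nat_lit 0) (nat_lit 99890338269765) (nat_lit 76) (nat_lit 27774860521175) (nat_lit 76) (nat_lit 27774579421113) (nat_lit 1) (nat_lit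 4) (nat_lit 2) (nat_lit 5) (nat_lit 2) (nat_lit 4) (nat_lit 432) (nat_lit 323) (nat_lit 265)) (XT.lf (nat_lit 0) (nat_lit 114886781322295) (nat_lit 76) (nat_lit 31934171156478) (nat_lit 76) (nat_lit 31933890045351) (nat_lit 1) (nat_lit 4) (nat_lit 2) (nat_lit 5) (nat_lit 2) (nat_lit 4) (nat_lit 433) (nat_lit 323) (nat_lit 264))))))) (XT.nd (nat_lit 48906) (nat_lit 0) (nat_lit 0) (XT.nd (nat_lit 48360) (nat_lit 0) (nat_lit 76) (XT.nd (nat_lit 1950) (nat_lit 0) (nat_lit 0) (XT.nd (nat_lit 78) (nat_lit 0) (nat_lit 0) (XT.lf (nat_lit 0) (nat_lit 132132689884841) (nat_lit 76) (nat_lit 36717378892629) (nat_lit 76) (nat_lit 36717097771883) (nat_lit 1) (nat_lit 4) (nat_lit 2) (nat_lit 5) (nat_lit 2) (nat_lit 4) (nat_lit 434) (nat_lit 323) (nat_lit 263)) (XT.nd (nat_lit 78) (nat_lit 0) (nat_lit 0) (XT.lf (nat_lit 0) (nat_lit 151965483907541) (nat_lit 76) (nat_lit 42218068228816) (nat_lit 76) (nat_lit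 42217787099703) (nat_lit 1) (nat_lit 4) (nat_lit 2) (nat_lit 5) (nat_lit 2) (nat_lit 4) (nat_lit 435) (nat_lit 323) (nat_lit 262)) (XT.lf (nat_lit 0) (nat_lit 174773196316926) (nat_lit 76) (nat_lit 48543861347701) (nat_lit 76) (nat_lit 48543580211313) (nat_lit 1) (nat_lit 4) (nat_lit 2) (nat_lit 5) (nat_lit 2) (nat_lit 4) (nat_lit 436) (nat_lit 323) (nat_lit 261)))) (XT.nd (nat_lit 78) (nat_lit 0) (nat_lit 0) (XT.lf (nat_lit 0) (nat_lit 4352412249896170) (nat_lit 76) (nat_lit 1207225940811478) (nat_lit 76) (nat_lit 1207225659628541) (nat_lit 1) (nat_lit 4) (nat_lit 2) (nat_lit 5) (nat_lit 2) (nat_lit 4) (nat_lit 459) (nat_lit 323) (nat_lit 238)) (XT.nd (nat_lit 46254) (nat_lit 0) (nat_lit 380) (XT.lf (nat_lit 0) (nat_lit 5005286972592616) (nat_lit 76) (nat_lit 1388302917277211) (nat_lit 76) (nat_lit 1388302636094010) (nat_lit 1) (nat_lit 4) (nat_lit 2) (nat_lit 5) (nat_lit 2) (nat_lit 4)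 (nat_lit 460) (nat_lit 323) (nat_lit 237)) (XT.lf (nat_lit 0) (nat_lit 19583309571) (nat_lit 76) (nat_lit 1788460287) (nat_lit 76) (nat_lit 1788460287) (nat_lit 6) (nat_lit 4) (nat_lit 7) (nat_lit 5) (nat_lit 7) (nat_lit 4) (nat_lit 372) (nat_lit 324) (nat_lit 324))))) (XT.nd (nat_lit 234) (nat_lit 152) (nat_lit 0) (XT.nd (nat_lit 78) (nat_lit 76) (nat_lit 0) (XT.lf (nat_lit 0) (nat_lit 9324135557) (nat_lit 76) (nat_lit 32725189023) (nat_lit 0) (nat_lit 9275631164) (nat_lit 5) (nat_lit 5) (nat_lit 6) (nat_lit 4) (nat_lit 5) (nat_lit 4) (nat_lit 373) (nat_lit 324) (nat_lit 323)) (XT.nd (nat_lit 78) (nat_lit 76) (nat_lit 0) (XT.lf (nat_lit 0) (nat_lit 23192913105) (nat_lit 76) (nat_lit 10849620360) (nat_lit 0) (nat_lit 23102230979) (nat_lit 5) (nat_lit 5) (nat_lit 6) (nat_lit 4) (nat_lit 5) (nat_lit 4) (nat_lit 374) (nat_lit 324) (nat_lit 322)) (XT.lf (nat_lit 0) (nat_lit 13331033856) (nat_lit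 76) (nat_lit 25351403992) (nat_lit 76) (nat_lit 25224045577) (nat_lit 4) (nat_lit 4) (nat_lit 5) (nat_lit 5) (nat_lit 5) (nat_lit 4) (nat_lit 375) (nat_lit 324) (nat_lit 321)))) (XT.nd (nat_lit 156) (nat_lit 152) (nat_lit 0) (XT.nd (nat_lit 78) (nat_lit 0) (nat_lit 0) (XT.lf (nat_lit 0) (nat_lit 40293386411) (nat_lit 76) (nat_lit 15804013262) (nat_lit 76) (nat_lit 15644762421) (nat_lit 4) (nat_lit 4) (nat_lit 5) (nat_lit 5) (nat_lit 5) (nat_lit 4) (nat_lit 376) (nat_lit 324) (nat_lit 320)) (XT.lf (nat_lit 0) (nat_lit 69504657784) (nat_lit 76) (nat_lit 5780703745) (nat_lit 76) (nat_lit 5593720360) (nat_lit 4) (nat_lit 4) (nat_lit 5) (nat_lit 5) (nat_lit 5) (nat_lit 4) (nat_lit 377) (nat_lit 324) (nat_lit 319))) (XT.nd (nat_lit 78) (nat_lit 0) (nat_lit 0) (XT.lf (nat_lit 0) (nat_lit 5351020416) (nat_lit 152) (nat_lit 80843452438) (nat_lit 0) (nat_lit 5167456381) (nat_lit 2) (nat_lit 5) (nat_lit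 4) (nat_lit 4) (nat_lit 2) (nat_lit 4) (nat_lit 378) (nat_lit 324) (nat_lit 318)) (XT.lf (nat_lit 0) (nat_lit 17499009648) (nat_lit 152) (nat_lit 68560895481) (nat_lit 0) (nat_lit 17297211015) (nat_lit 2) (nat_lit 5) (nat_lit 4) (nat_lit 4) (nat_lit 2) (nat_lit 4) (nat_lit 379) (nat_lit 324) (nat_lit 317)))))) (XT.nd (nat_lit 546) (nat_lit 0) (nat_lit 0) (XT.nd (nat_lit 234) (nat_lit 76) (nat_lit 0) (XT.nd (nat_lit 78) (nat_lit 0) (nat_lit 0) (XT.lf (nat_lit 0) (nat_lit 30804911195) (nat_lit 152) (nat_lit 55859057953) (nat_lit 0) (nat_lit 30587256390) (nat_lit 2) (nat_lit 5) (nat_lit 4) (nat_lit 4) (nat_lit 2) (nat_lit 4) (nat_lit 380) (nat_lit 324) (nat_lit 316)) (XT.nd (nat_lit 78) (nat_lit 0) (nat_lit 0) (XT.lf (nat_lit 0) (nat_lit 45529057914) (nat_lit 152) (nat_lit 42489425643) (nat_lit 0) (nat_lit 45297615133) (nat_lit 2) (nat_lit 5) (nat_lit 4) (nat_lit 4) (nat_lit 2) (nat_lit 4)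 (nat_lit 381) (nat_lit 324) (nat_lit 315)) (XT.lf (nat_lit 0) (nat_lit 61959530936) (nat_lit 152) (nat_lit 28190418786) (nat_lit 0) (nat_lit 61716098611) (nat_lit 2) (nat_lit 5) (nat_lit 4) (nat_lit 4) (nat_lit 2) (nat_lit 4) (nat_lit 382) (nat_lit 324) (nat_lit 314)))) (XT.nd (nat_lit 156) (nat_lit 0) (nat_lit 0) (XT.nd (nat_lit 78) (nat_lit 76) (nat_lit 0) (XT.lf (nat_lit 0) (nat_lit 80417796037) (nat_lit 152) (nat_lit 12682274206) (nat_lit 0) (nat_lit 80163938022) (nat_lit 2) (nat_lit 5) (nat_lit 4) (nat_lit 4) (nat_lit 2) (nat_lit 4) (nat_lit 383) (nat_lit 324) (nat_lit 313)) (XT.lf (nat_lit 0) (nat_lit 4762411083) (nat_lit 76) (nat_lit 96699783391) (nat_lit 76) (nat_lit 96436859558) (nat_lit 1) (nat_lit 4) (nat_lit 2) (nat_lit 5) (nat_lit 2) (nat_lit 4) (nat_lit 384) (nat_lit 324) (nat_lit 312))) (XT.nd (nat_lit 78) (nat_lit 0) (nat_lit 0) (XT.lf (nat_lit 0) (nat_lit 25472434820) (nat_lit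 76) (nat_lit 100491326716) (nat_lit 76) (nat_lit 100220519563) (nat_lit 1) (nat_lit 4) (nat_lit 2) (nat_lit 5) (nat_lit 2) (nat_lit 4) (nat_lit 385) (nat_lit 324) (nat_lit 311)) (XT.lf (nat_lit 0) (nat_lit 48613589050) (nat_lit 76) (nat_lit 105211819650) (nat_lit 76) (nat_lit 104934157436) (nat_lit 1) (nat_lit 4) (nat_lit 2) (nat_lit 5) (nat_lit 2) (nat_lit 4) (nat_lit 386) (nat_lit 324) (nat_lit 310))))) (XT.nd (nat_lit 234) (nat_lit 0) (nat_lit 0) (XT.nd (nat_lit 78) (nat_lit 0) (nat_lit 0) (XT.lf (nat_lit 0) (nat_lit 74638635485) (nat_lit 76) (nat_lit 110953619663) (nat_lit 76) (nat_lit 110669996526) (nat_lit 1) (nat_lit 4) (nat_lit 2) (nat_lit 5) (nat_lit 2) (nat_lit 4) (nat_lit 387) (nat_lit 324) (nat_lit 309)) (XT.nd (nat_lit 78) (nat_lit 0) (nat_lit 0) (XT.lf (nat_lit 0) (nat_lit 104056759818) (nat_lit 76) (nat_lit 117829066320) (nat_lit 76) (nat_lit 117540259773) (nat_lit 1) (nat_lit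 4) (nat_lit 2) (nat_lit 5) (nat_lit 2) (nat_lit 4) (nat_lit 388) (nat_lit 324) (nat_lit 308)) (XT.lf (nat_lit 0) (nat_lit 137443534045) (nat_lit 76) (nat_lit 125972679230) (nat_lit 76) (nat_lit 125679365369) (nat_lit 1) (nat_lit 4) (nat_lit 2) (nat_lit 5) (nat_lit 2) (nat_lit 4) (nat_lit 389) (nat_lit 324) (nat_lit 307)))) (XT.nd (nat_lit 156) (nat_lit 0) (nat_lit 0) (XT.nd (nat_lit 78) (nat_lit 0) (nat_lit 0) (XT.lf (nat_lit 0) (nat_lit 175452177663) (nat_lit 76) (nat_lit 135543789950) (nat_lit 76) (nat_lit 135246556686) (nat_lit 1) (nat_lit 4) (nat_lit 2) (nat_lit 5) (nat_lit 2) (nat_lit 4) (nat_lit 390) (nat_lit 324) (nat_lit 306)) (XT.lf (nat_lit 0) (nat_lit 218826338047) (nat_lit 76) (nat_lit 146729659342) (nat_lit 76) (nat_lit 146429017902) (nat_lit 1) (nat_lit 4) (nat_lit 2) (nat_lit 5) (nat_lit 2) (nat_lit 4) (nat_lit 391) (nat_lit 324) (nat_lit 305))) (XT.nd (nat_lit 78) (nat_lit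 0) (nat_lit 0) (XT.lf (nat_lit 0) (nat_lit 268414640074) (nat_lit 76) (nat_lit 159749141373) (nat_lit 76) (nat_lit 159445536300) (nat_lit 1) (nat_lit 4) (nat_lit 2) (nat_lit 5) (nat_lit 2) (nat_lit 4) (nat_lit 392) (nat_lit 324) (nat_lit 304)) (XT.lf (nat_lit 0) (nat_lit 325187289653) (nat_lit 76) (nat_lit 174856965037) (nat_lit 76) (nat_lit 174550782894) (nat_lit 1) (nat_lit 4) (nat_lit 2) (nat_lit 5) (nat_lit 2) (nat_lit 4) (nat_lit 393) (nat_lit 324) (nat_lit 303))))))))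
noncomputable def xc22 : XT := (XT.nd (nat_lit 2028) (nat_lit 0) (nat_lit 0) (XT.nd (nat_lit 1014) (nat_lit 0) (nat_lit 0) (XT.nd (nat_lit 468) (nat_lit 0) (nat_lit 0) (XT.nd (nat_lit 234) (nat_lit 0) (nat_lit 0) (XT.nd (nat_lit 78) (nat_lit 0) (nat_lit 0) (XT.lf (nat_lit 0) (nat_lit 390255056015) (nat_lit 76) (nat_lit 192348718191) (nat_lit 76) (nat_lit 192040295116) (nat_lit 1) (nat_lit 4) (nat_lit 2) (nat_lit 5) (nat_lit 2) (nat_lit 4) (nat_lit 394) (nat_lit 324) (nat_lit 302)) (XT.nd (nat_lit 78) (nat_lit 0) (nat_lit 0) (XT.lf (nat_lit 0) (nat_lit 464891004153) (nat_lit 76) (nat_lit 212566630786) (nat_lit 76) (nat_lit 212256259075) (nat_lit 1) (nat_lit 4) (nat_lit 2) (nat_lit 5) (nat_lit 2) (nat_lit 4) (nat_lit 395) (nat_lit 324) (nat_lit 301)) (XT.lf (nat_lit 0) (nat_lit 550555402620) (nat_lit 76) (nat_lit 235906270678) (nat_lit 76) (nat_lit 235594204501) (nat_lit 1) (nat_lit 4) (nat_lit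 2) (nat_lit 5) (nat_lit 2) (nat_lit 4) (nat_lit 396) (nat_lit 324) (nat_lit 300)))) (XT.nd (nat_lit 78) (nat_lit 0) (nat_lit 0) (XT.lf (nat_lit 0) (nat_lit 648924293992) (nat_lit 76) (nat_lit 262824282996) (nat_lit 76) (nat_lit 262510743369) (nat_lit 1) (nat_lit 4) (nat_lit 2) (nat_lit 5) (nat_lit 2) (nat_lit 4) (nat_lit 397) (nat_lit 324) (nat_lit 299)) (XT.nd (nat_lit 78) (nat_lit 0) (nat_lit 0) (XT.lf (nat_lit 0) (nat_lit 761922287015) (nat_lit 76) (nat_lit 293847324501) (nat_lit 76) (nat_lit 293532503615) (nat_lit 1) (nat_lit 4) (nat_lit 2) (nat_lit 5) (nat_lit 2) (nat_lit 4) (nat_lit 398) (nat_lit 324) (nat_lit 298)) (XT.lf (nat_lit 0) (nat_lit 891760211987) (nat_lit 76) (nat_lit 329582367746) (nat_lit 76) (nat_lit 329266432720) (nat_lit 1) (nat_lit 4) (nat_lit 2) (nat_lit 5) (nat_lit 2) (nat_lit 4) (nat_lit 399) (nat_lit 324) (nat_lit 297))))) (XT.nd (nat_lit 234) (nat_lit 0) (nat_lit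 0) (XT.nd (nat_lit 78) (nat_lit 0) (nat_lit 0) (XT.lf (nat_lit 0) (nat_lit 1040978376135) (nat_lit 76) (nat_lit 370728576619) (nat_lit 76) (nat_lit 370411672777) (nat_lit 1) (nat_lit 4) (nat_lit 2) (nat_lit 5) (nat_lit 2) (nat_lit 4) (nat_lit 400) (nat_lit 324) (nat_lit 296)) (XT.nd (nat_lit 78) (nat_lit 0) (nat_lit 0) (XT.lf (nat_lit 0) (nat_lit 1212496265280) (nat_lit 76) (nat_lit 418090985642) (nat_lit 76) (nat_lit 417773239351) (nat_lit 1) (nat_lit 4) (nat_lit 2) (nat_lit 5) (nat_lit 2) (nat_lit 4) (nat_lit 401) (nat_lit 324) (nat_lit 295)) (XT.lf (nat_lit 0) (nat_lit 1409669664209) (nat_lit 76) (nat_lit 472596250645) (nat_lit 76) (nat_lit 472277771789) (nat_lit 1) (nat_lit 4) (nat_lit 2) (nat_lit 5) (nat_lit 2) (nat_lit 4) (nat_lit 402) (nat_lit 324) (nat_lit 294)))) (XT.nd (nat_lit 156) (nat_lit 0) (nat_lit 0) (XT.nd (nat_lit 78) (nat_lit 0) (nat_lit 0) (XT.lf (nat_lit 0) (nat_lit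 1636356313337) (nat_lit 76) (nat_lit 535310778985) (nat_lit 76) (nat_lit 534991663117) (nat_lit 1) (nat_lit 4) (nat_lit 2) (nat_lit 5) (nat_lit 2) (nat_lit 4) (nat_lit 403) (nat_lit 324) (nat_lit 293)) (XT.lf (nat_lit 0) (nat_lit 1896991386232) (nat_lit 76) (nat_lit 607461594043) (nat_lit 76) (nat_lit 607141924251) (nat_lit 1) (nat_lit 4) (nat_lit 2) (nat_lit 5) (nat_lit 2) (nat_lit 4) (nat_lit 404) (nat_lit 324) (nat_lit 292))) (XT.nd (nat_lit 78) (nat_lit 0) (nat_lit 0) (XT.lf (nat_lit 0) (nat_lit 2196674264757) (nat_lit 76) (nat_lit 690460342201) (nat_lit 76) (nat_lit 690140190736) (nat_lit 1) (nat_lit 4) (nat_lit 2) (nat_lit 5) (nat_lit 2) (nat_lit 4) (nat_lit 405) (nat_lit 324) (nat_lit 291)) (XT.lf (nat_lit 0) (nat_lit 2541268309577) (nat_lit 76) (nat_lit 785930912009) (nat_lit 76) (nat_lit 785610341698) (nat_lit 1) (nat_lit 4) (nat_lit 2) (nat_lit 5) (nat_lit 2) (nat_lit 4) (nat_lit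 406) (nat_lit 324) (nat_lit 290)))))) (XT.nd (nat_lit 468) (nat_lit 0) (nat_lit 0) (XT.nd (nat_lit 234) (nat_lit 0) (nat_lit 0) (XT.nd (nat_lit 78) (nat_lit 0) (nat_lit 0) (XT.lf (nat_lit 0) (nat_lit 2937515578092) (nat_lit 76) (nat_lit 895741205921) (nat_lit 76) (nat_lit 895420271396) (nat_lit 1) (nat_lit 4) (nat_lit 2) (nat_lit 5) (nat_lit 2) (nat_lit 4) (nat_lit 407) (nat_lit 324) (nat_lit 289)) (XT.nd (nat_lit 78) (nat_lit 0) (nat_lit 0) (XT.lf (nat_lit 0) (nat_lit 3393168734251) (nat_lit 76) (nat_lit 1022039686209) (nat_lit 76) (nat_lit 1021718434976) (nat_lit 1) (nat_lit 4) (nat_lit 2) (nat_lit 5) (nat_lit 2) (nat_lit 4) (nat_lit 408) (nat_lit 324) (nat_lit 288)) (XT.lf (nat_lit 0) (nat_lit 3917142731109) (nat_lit 76) (nat_lit 1167297410095) (nat_lit 76) (nat_lit 1166975883464) (nat_lit 1) (nat_lit 4) (nat_lit 2) (nat_lit 5) (nat_lit 2) (nat_lit 4) (nat_lit 409) (nat_lit 324) (nat_lit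 287)))) (XT.nd (nat_lit 78) (nat_lit 0) (nat_lit 0) (XT.lf (nat_lit 0) (nat_lit 4519689233821) (nat_lit 76) (nat_lit 1334356376526) (nat_lit 76) (nat_lit 1334034610418) (nat_lit 1) (nat_lit 4) (nat_lit 2) (nat_lit 5) (nat_lit 2) (nat_lit 4) (nat_lit 410) (nat_lit 324) (nat_lit 286)) (XT.nd (nat_lit 78) (nat_lit 0) (nat_lit 0) (XT.lf (nat_lit 0) (nat_lit 5212597195703) (nat_lit 76) (nat_lit 1526485130496) (nat_lit 76) (nat_lit 1526163156147) (nat_lit 1) (nat_lit 4) (nat_lit 2) (nat_lit 5) (nat_lit 2) (nat_lit 4) (nat_lit 411) (nat_lit 324) (nat_lit 285)) (XT.lf (nat_lit 0) (nat_lit 6009423511660) (nat_lit 76) (nat_lit 1747442712844) (nat_lit 76) (nat_lit 1747120557417) (nat_lit 1) (nat_lit 4) (nat_lit 2) (nat_lit 5) (nat_lit 2) (nat_lit 4) (nat_lit 412) (nat_lit 324) (nat_lit 284))))) (XT.nd (nat_lit 234) (nat_lit 0) (nat_lit 0) (XT.nd (nat_lit 78) (nat_lit 0) (nat_lit 0) (XT.lf (nat_lit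 0) (nat_lit 6925758261786) (nat_lit 76) (nat_lit 2001552206703) (nat_lit 76) (nat_lit 2001229893817) (nat_lit 1) (nat_lit 4) (nat_lit 2) (nat_lit 5) (nat_lit 2) (nat_lit 4) (nat_lit 413) (nat_lit 324) (nat_lit 283)) (XT.nd (nat_lit 78) (nat_lit 0) (nat_lit 0) (XT.lf (nat_lit 0) (nat_lit 7979529734673) (nat_lit 76) (nat_lit 2293785319562) (nat_lit 76) (nat_lit 2293462869754) (nat_lit 1) (nat_lit 4) (nat_lit 2) (nat_lit 5) (nat_lit 2) (nat_lit 4) (nat_lit 414) (nat_lit 324) (nat_lit 282)) (XT.lf (nat_lit 0) (nat_lit 9191355198266) (nat_lit 76) (nat_lit 2629859655803) (nat_lit 76) (nat_lit 2629537086933) (nat_lit 1) (nat_lit 4) (nat_lit 2) (nat_lit 5) (nat_lit 2) (nat_lit 4) (nat_lit 415) (nat_lit 324) (nat_lit 281)))) (XT.nd (nat_lit 156) (nat_lit 0) (nat_lit 0) (XT.nd (nat_lit 78) (nat_lit 0) (nat_lit 0) (XT.lf (nat_lit 0) (nat_lit 10584944281202) (nat_lit 76) (nat_lit 3016350582874) (nat_lit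 76) (nat_lit 3016027910471) (nat_lit 1) (nat_lit 4) (nat_lit 2) (nat_lit 5) (nat_lit 2) (nat_lit 4) (nat_lit 416) (nat_lit 324) (nat_lit 280)) (XT.lf (nat_lit 0) (nat_lit 12187562856843) (nat_lit 76) (nat_lit 3460819879782) (nat_lit 76) (nat_lit 3460497117351) (nat_lit 1) (nat_lit 4) (nat_lit 2) (nat_lit 5) (nat_lit 2) (nat_lit 4) (nat_lit 417) (nat_lit 324) (nat_lit 279))) (XT.nd (nat_lit 78) (nat_lit 0) (nat_lit 0) (XT.lf (nat_lit 0) (nat_lit 14030566506017) (nat_lit 76) (nat_lit 3971963684946) (nat_lit 76) (nat_lit 3971640844229) (nat_lit 1) (nat_lit 4) (nat_lit 2) (nat_lit 5) (nat_lit 2) (nat_lit 4) (nat_lit 418) (nat_lit 324) (nat_lit 278)) (XT.lf (nat_lit 0) (nat_lit 16150013995771) (nat_lit 76) (nat_lit 4559782638031) (nat_lit 76) (nat_lit 4559459729241) (nat_lit 1) (nat_lit 4) (nat_lit 2) (nat_lit 5) (nat_lit 2) (nat_lit 4) (nat_lit 419) (nat_lit 324) (nat_lit 277))))))) (XT.nd (nat_lit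 1014) (nat_lit 0) (nat_lit 0) (XT.nd (nat_lit 468) (nat_lit 0) (nat_lit 0) (XT.nd (nat_lit 234) (nat_lit 0) (nat_lit 0) (XT.nd (nat_lit 78) (nat_lit 0) (nat_lit 0) (XT.lf (nat_lit 0) (nat_lit 18587372776994) (nat_lit 76) (nat_lit 5235777544643) (nat_lit 76) (nat_lit 5235454576657) (nat_lit 1) (nat_lit 4) (nat_lit 2) (nat_lit 5) (nat_lit 2) (nat_lit 4) (nat_lit 420) (nat_lit 324) (nat_lit 276)) (XT.nd (nat_lit 78) (nat_lit 0) (nat_lit 0) (XT.lf (nat_lit 0) (nat_lit 21390330304099) (nat_lit 76) (nat_lit 6013174392083) (nat_lit 76) (nat_lit 6012851372623) (nat_lit 1) (nat_lit 4) (nat_lit 2) (nat_lit 5) (nat_lit 2) (nat_lit 4) (nat_lit 421) (nat_lit 324) (nat_lit 275)) (XT.lf (nat_lit 0) (nat_lit 24613727050444) (nat_lit 76) (nat_lit 6907183118671) (nat_lit 76) (nat_lit 6906860054452) (nat_lit 1) (nat_lit 4) (nat_lit 2) (nat_lit 5) (nat_lit 2) (nat_lit 4) (nat_lit 422) (nat_lit 324) (nat_lit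 274)))) (XT.nd (nat_lit 78) (nat_lit 0) (nat_lit 0) (XT.lf (nat_lit 0) (nat_lit 28320629474110) (nat_lit 76) (nat_lit 7935295199493) (nat_lit 76) (nat_lit 7934972096352) (nat_lit 1) (nat_lit 4) (nat_lit 2) (nat_lit 5) (nat_lit 2) (nat_lit 4) (nat_lit 423) (nat_lit 324) (nat_lit 273)) (XT.nd (nat_lit 78) (nat_lit 0) (nat_lit 0) (XT.lf (nat_lit 0) (nat_lit 32583563926863) (nat_lit 76) (nat_lit 9117625870913) (nat_lit 76) (nat_lit 9117302733927) (nat_lit 1) (nat_lit 4) (nat_lit 2) (nat_lit 5) (nat_lit 2) (nat_lit 4) (nat_lit 424) (nat_lit 324) (nat_lit 272)) (XT.lf (nat_lit 0) (nat_lit 37485935647996) (nat_lit 76) (nat_lit 10477307689546) (nat_lit 76) (nat_lit 10476984523129) (nat_lit 1) (nat_lit 4) (nat_lit 2) (nat_lit 5) (nat_lit 2) (nat_lit 4) (nat_lit 425) (nat_lit 324) (nat_lit 271))))) (XT.nd (nat_lit 234) (nat_lit 0) (nat_lit 0) (XT.nd (nat_lit 78) (nat_lit 0) (nat_lit 0) (XT.lf (nat_lit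 0) (nat_lit 43123660605967) (nat_lit 76) (nat_lit 12040943125755) (nat_lit 76) (nat_lit 12040619933747) (nat_lit 1) (nat_lit 4) (nat_lit 2) (nat_lit 5) (nat_lit 2) (nat_lit 4) (nat_lit 426) (nat_lit 324) (nat_lit 270)) (XT.nd (nat_lit 78) (nat_lit 0) (nat_lit 0) (XT.lf (nat_lit 0) (nat_lit 49607042115170) (nat_lit 76) (nat_lit 13839125046772) (nat_lit 76) (nat_lit 13838801832510) (nat_lit 1) (nat_lit 4) (nat_lit 2) (nat_lit 5) (nat_lit 2) (nat_lit 4) (nat_lit 427) (nat_lit 324) (nat_lit 269)) (XT.lf (nat_lit 0) (nat_lit 57062928944265) (nat_lit 76) (nat_lit 15907035272789) (nat_lit 76) (nat_lit 15906712039176) (nat_lit 1) (nat_lit 4) (nat_lit 2) (nat_lit 5) (nat_lit 2) (nat_lit 4) (nat_lit 428) (nat_lit 324) (nat_lit 268)))) (XT.nd (nat_lit 156) (nat_lit 0) (nat_lit 0) (XT.nd (nat_lit 78) (nat_lit 0) (nat_lit 0) (XT.lf (nat_lit 0) (nat_lit 65637197139906) (nat_lit 76) (nat_lit 18285132916925)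 (nat_lit 76) (nat_lit 18284809666486) (nat_lit 1) (nat_lit 4) (nat_lit 2) (nat_lit 5) (nat_lit 2) (nat_lit 4) (nat_lit 429) (nat_lit 324) (nat_lit 267)) (XT.lf (nat_lit 0) (nat_lit 75497604123314) (nat_lit 76) (nat_lit 21019945976565) (nat_lit 76) (nat_lit 21019622711494) (nat_lit 1) (nat_lit 4) (nat_lit 2) (nat_lit 5) (nat_lit 2) (nat_lit 4) (nat_lit 430) (nat_lit 324) (nat_lit 266))) (XT.nd (nat_lit 78) (nat_lit 0) (nat_lit 0) (XT.lf (nat_lit 0) (nat_lit 86837070900685) (nat_lit 76) (nat_lit 24164981663746) (nat_lit 76) (nat_lit 24164658385951) (nat_lit 1) (nat_lit 4) (nat_lit 2) (nat_lit 5) (nat_lit 2) (nat_lit 4) (nat_lit 431) (nat_lit 324) (nat_lit 265)) (XT.lf (nat_lit 0) (nat_lit 99877456604620) (nat_lit 76) (nat_lit 27781773285390) (nat_lit 76) (nat_lit 27781449996531) (nat_lit 1) (nat_lit 4) (nat_lit 2) (nat_lit 5) (nat_lit 2) (nat_lit 4) (nat_lit 432) (nat_lit 324) (nat_lit 264))))))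 (XT.nd (nat_lit 48204) (nat_lit 0) (nat_lit 228) (XT.nd (nat_lit 1872) (nat_lit 0) (nat_lit 0) (XT.nd (nat_lit 78) (nat_lit 0) (nat_lit 0) (XT.lf (nat_lit 0) (nat_lit 114873899216283) (nat_lit 76) (nat_lit 31941084155834) (nat_lit 76) (nat_lit 31940760857354) (nat_lit 1) (nat_lit 4) (nat_lit 2) (nat_lit 5) (nat_lit 2) (nat_lit 4) (nat_lit 433) (nat_lit 324) (nat_lit 263)) (XT.nd (nat_lit 78) (nat_lit 0) (nat_lit 0) (XT.lf (nat_lit 0) (nat_lit 132119807395467) (nat_lit 76) (nat_lit 36724292096456) (nat_lit 76) (nat_lit 36723968789610) (nat_lit 1) (nat_lit 4) (nat_lit 2) (nat_lit 5) (nat_lit 2) (nat_lit 4) (nat_lit 434) (nat_lit 324) (nat_lit 262)) (XT.lf (nat_lit 0) (nat_lit 151952601084808) (nat_lit 76) (nat_lit 42224981610443) (nat_lit 76) (nat_lit 42224658296323) (nat_lit 1) (nat_lit 4) (nat_lit 2) (nat_lit 5) (nat_lit 2) (nat_lit 4) (nat_lit 435) (nat_lit 324) (nat_lit 261)))) (XT.nd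 (nat_lit 156) (nat_lit 0) (nat_lit 0) (XT.nd (nat_lit 78) (nat_lit 0) (nat_lit 0) (XT.lf (nat_lit 0) (nat_lit 3291015127612058) (nat_lit 76) (nat_lit 912854405905952) (nat_lit 76) (nat_lit 912854082545574) (nat_lit 1) (nat_lit 4) (nat_lit 2) (nat_lit 5) (nat_lit 2) (nat_lit 4) (nat_lit 457) (nat_lit 324) (nat_lit 239)) (XT.lf (nat_lit 0) (nat_lit 3784682214747717) (nat_lit 76) (nat_lit 1049774614937454) (nat_lit 76) (nat_lit 1049774291576782) (nat_lit 1) (nat_lit 4) (nat_lit 2) (nat_lit 5) (nat_lit 2) (nat_lit 4) (nat_lit 458) (nat_lit 324) (nat_lit 238))) (XT.nd (nat_lit 78) (nat_lit 0) (nat_lit 0) (XT.lf (nat_lit 0) (nat_lit 4352399364928683) (nat_lit 76) (nat_lit 1207232855337033) (nat_lit 76) (nat_lit 1207232531976115) (nat_lit 1) (nat_lit 4) (nat_lit 2) (nat_lit 5) (nat_lit 2) (nat_lit 4) (nat_lit 459) (nat_lit 324) (nat_lit 237)) (XT.lf (nat_lit 0) (nat_lit 5005274087615007) (nat_lit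 76) (nat_lit 1388309831808155) (nat_lit 76) (nat_lit 1388309508447023) (nat_lit 1) (nat_lit 4) (nat_lit 2) (nat_lit 5) (nat_lit 2) (nat_lit 4) (nat_lit 460) (nat_lit 324) (nat_lit 236))))) (XT.nd (nat_lit 234) (nat_lit 152) (nat_lit 0) (XT.nd (nat_lit 78) (nat_lit 76) (nat_lit 0) (XT.lf (nat_lit 0) (nat_lit 6141506344) (nat_lit 152) (nat_lit 6744925028) (nat_lit 0) (nat_lit 6141506344) (nat_lit 7) (nat_lit 5) (nat_lit 9) (nat_lit 4) (nat_lit 7) (nat_lit 4) (nat_lit 370) (nat_lit 325) (nat_lit 325)) (XT.nd (nat_lit 78) (nat_lit 0) (nat_lit 0) (XT.lf (nat_lit 0) (nat_lit 10886569399) (nat_lit 76) (nat_lit 15542576568) (nat_lit 76) (nat_lit 15478429509) (nat_lit 6) (nat_lit 4) (nat_lit 7) (nat_lit 5) (nat_lit 7) (nat_lit 4) (nat_lit 371) (nat_lit 325) (nat_lit 324)) (XT.lf (nat_lit 0) (nat_lit 38063221034) (nat_lit 76) (nat_lit 4227366860) (nat_lit 76) (nat_lit 4107439748) (nat_lit 6) (nat_lit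 4) (nat_lit 7) (nat_lit 5) (nat_lit 7) (nat_lit 4) (nat_lit 372) (nat_lit 325) (nat_lit 323)))) (XT.nd (nat_lit 156) (nat_lit 76) (nat_lit 0) (XT.nd (nat_lit 78) (nat_lit 0) (nat_lit 0) (XT.lf (nat_lit 0) (nat_lit 8216599621) (nat_lit 76) (nat_lit 35212720171) (nat_lit 0) (nat_lit 8070137443) (nat_lit 5) (nat_lit 5) (nat_lit 6) (nat_lit 4) (nat_lit 5) (nat_lit 4) (nat_lit 373) (nat_lit 325) (nat_lit 322)) (XT.lf (nat_lit 0) (nat_lit 21614875253) (nat_lit 76) (nat_lit 14343230841) (nat_lit 0) (nat_lit 21431736786) (nat_lit 5) (nat_lit 5) (nat_lit 6) (nat_lit 4) (nat_lit 5) (nat_lit 4) (nat_lit 374) (nat_lit 325) (nat_lit 321))) (XT.nd (nat_lit 78) (nat_lit 0) (nat_lit 0) (XT.lf (nat_lit 0) (nat_lit 8535653898) (nat_lit 76) (nat_lit 27961047539) (nat_lit 76) (nat_lit 27746016646) (nat_lit 4) (nat_lit 4) (nat_lit 5) (nat_lit 5) (nat_lit 5) (nat_lit 4) (nat_lit 375) (nat_lit 325) (nat_lit 320))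 (XT.lf (nat_lit 0) (nat_lit 34662920841) (nat_lit 76) (nat_lit 18858396261) (nat_lit 76) (nat_lit 18615632824) (nat_lit 4) (nat_lit 4) (nat_lit 5) (nat_lit 5) (nat_lit 5) (nat_lit 4) (nat_lit 376) (nat_lit 325) (nat_lit 319))))))))
noncomputable def xc23 : XT := (XT.nd (nat_lit 2106) (nat_lit 0) (nat_lit 0) (XT.nd (nat_lit 1014) (nat_lit 0) (nat_lit 0) (XT.nd (nat_lit 468) (nat_lit 76) (nat_lit 0) (XT.nd (nat_lit 234) (nat_lit 0) (nat_lit 0) (XT.nd (nat_lit 78) (nat_lit 152) (nat_lit 0) (XT.lf (nat_lit 0) (nat_lit 63148030813) (nat_lit 76) (nat_lit 9221816702) (nat_lit 76) (nat_lit 8954938010) (nat_lit 4) (nat_lit 4) (nat_lit 5) (nat_lit 5) (nat_lit 5) (nat_lit 4) (nat_lit 377) (nat_lit 325) (nat_lit 318)) (XT.nd (nat_lit 78) (nat_lit 0) (nat_lit 0) (XT.lf (nat_lit 0) (nat_lit 1467316145) (nat_lit 152) (nat_lit 89267440379) (nat_lit 0) (nat_lit 1217013119) (nat_lit 2) (nat_lit 5) (nat_lit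 4) (nat_lit 4) (nat_lit 2) (nat_lit 4) (nat_lit 378) (nat_lit 325) (nat_lit 317)) (XT.lf (nat_lit 0) (nat_lit 13306335112) (nat_lit 152) (nat_lit 77646791781) (nat_lit 0) (nat_lit 13040175914) (nat_lit 2) (nat_lit 5) (nat_lit 4) (nat_lit 4) (nat_lit 2) (nat_lit 4) (nat_lit 379) (nat_lit 325) (nat_lit 316)))) (XT.nd (nat_lit 78) (nat_lit 0) (nat_lit 0) (XT.lf (nat_lit 0) (nat_lit 26343566864) (nat_lit 152) (nat_lit 65520526740) (nat_lit 0) (nat_lit 26063619690) (nat_lit 2) (nat_lit 5) (nat_lit 4) (nat_lit 4) (nat_lit 2) (nat_lit 4) (nat_lit 380) (nat_lit 325) (nat_lit 315)) (XT.nd (nat_lit 78) (nat_lit 0) (nat_lit 0) (XT.lf (nat_lit 0) (nat_lit 40834087673) (nat_lit 152) (nat_lit 52651392244) (nat_lit 0) (nat_lit 40542150956) (nat_lit 2) (nat_lit 5) (nat_lit 4) (nat_lit 4) (nat_lit 2) (nat_lit 4) (nat_lit 381) (nat_lit 325) (nat_lit 314)) (XT.lf (nat_lit 0) (nat_lit 57061407730) (nat_lit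 152) (nat_lit 38787600878) (nat_lit 0) (nat_lit 56759045322) (nat_lit 2) (nat_lit 5) (nat_lit 4) (nat_lit 4) (nat_lit 2) (nat_lit 4) (nat_lit 382) (nat_lit 325) (nat_lit 313))))) (XT.nd (nat_lit 234) (nat_lit 0) (nat_lit 0) (XT.nd (nat_lit 78) (nat_lit 76) (nat_lit 0) (XT.lf (nat_lit 0) (nat_lit 75343018080) (nat_lit 152) (nat_lit 23657904551) (nat_lit 0) (nat_lit 75031589854) (nat_lit 2) (nat_lit 5) (nat_lit 4) (nat_lit 4) (nat_lit 2) (nat_lit 4) (nat_lit 383) (nat_lit 325) (nat_lit 312)) (XT.nd (nat_lit 78) (nat_lit 76) (nat_lit 0) (XT.lf (nat_lit 0) (nat_lit 96036602403) (nat_lit 152) (nat_lit 6966287465) (nat_lit 0) (nat_lit 95717290857) (nat_lit 2) (nat_lit 5) (nat_lit 4) (nat_lit 4) (nat_lit 2) (nat_lit 4) (nat_lit 384) (nat_lit 325) (nat_lit 311)) (XT.lf (nat_lit 0) (nat_lit 12748812987) (nat_lit 76) (nat_lit 107326123345) (nat_lit 76) (nat_lit 106999956739) (nat_lit 1) (nat_lit 4)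 (nat_lit 2) (nat_lit 5) (nat_lit 2) (nat_lit 4) (nat_lit 385) (nat_lit 325) (nat_lit 310)))) (XT.nd (nat_lit 156) (nat_lit 0) (nat_lit 0) (XT.nd (nat_lit 78) (nat_lit 0) (nat_lit 0) (XT.lf (nat_lit 0) (nat_lit 35616813296) (nat_lit 76) (nat_lit 112192306111) (nat_lit 76) (nat_lit 111860178582) (nat_lit 1) (nat_lit 4) (nat_lit 2) (nat_lit 5) (nat_lit 2) (nat_lit 4) (nat_lit 386) (nat_lit 325) (nat_lit 309)) (XT.lf (nat_lit 0) (nat_lit 61404334584) (nat_lit 76) (nat_lit 118060792934) (nat_lit 76) (nat_lit 117723481995) (nat_lit 1) (nat_lit 4) (nat_lit 2) (nat_lit 5) (nat_lit 2) (nat_lit 4) (nat_lit 387) (nat_lit 325) (nat_lit 308))) (XT.nd (nat_lit 78) (nat_lit 0) (nat_lit 0) (XT.lf (nat_lit 0) (nat_lit 90615915310) (nat_lit 76) (nat_lit 125046402036) (nat_lit 76) (nat_lit 124704583782) (nat_lit 1) (nat_lit 4) (nat_lit 2) (nat_lit 5) (nat_lit 2) (nat_lit 4) (nat_lit 388) (nat_lit 325) (nat_lit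 307)) (XT.lf (nat_lit 0) (nat_lit 123823086401) (nat_lit 76) (nat_lit 133285808375) (nat_lit 76) (nat_lit 132940070719) (nat_lit 1) (nat_lit 4) (nat_lit 2) (nat_lit 5) (nat_lit 2) (nat_lit 4) (nat_lit 389) (nat_lit 325) (nat_lit 306)))))) (XT.nd (nat_lit 546) (nat_lit 0) (nat_lit 0) (XT.nd (nat_lit 234) (nat_lit 0) (nat_lit 0) (XT.nd (nat_lit 78) (nat_lit 0) (nat_lit 0) (XT.lf (nat_lit 0) (nat_lit 161675553378) (nat_lit 76) (nat_lit 142940217730) (nat_lit 76) (nat_lit 142591071896) (nat_lit 1) (nat_lit 4) (nat_lit 2) (nat_lit 5) (nat_lit 2) (nat_lit 4) (nat_lit 390) (nat_lit 325) (nat_lit 305)) (XT.nd (nat_lit 78) (nat_lit 0) (nat_lit 0) (XT.lf (nat_lit 0) (nat_lit 204913907988) (nat_lit 76) (nat_lit 154198520717) (nat_lit 76) (nat_lit 153846411252) (nat_lit 1) (nat_lit 4) (nat_lit 2) (nat_lit 5) (nat_lit 2) (nat_lit 4) (nat_lit 391) (nat_lit 325) (nat_lit 304)) (XT.lf (nat_lit 0) (nat_lit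 254384118037) (nat_lit 76) (nat_lit 167280988482) (nat_lit 76) (nat_lit 166926301945) (nat_lit 1) (nat_lit 4) (nat_lit 2) (nat_lit 5) (nat_lit 2) (nat_lit 4) (nat_lit 392) (nat_lit 325) (nat_lit 303)))) (XT.nd (nat_lit 156) (nat_lit 0) (nat_lit 0) (XT.nd (nat_lit 78) (nat_lit 0) (nat_lit 0) (XT.lf (nat_lit 0) (nat_lit 311054078940) (nat_lit 76) (nat_lit 182443582351) (nat_lit 76) (nat_lit 182086654883) (nat_lit 1) (nat_lit 4) (nat_lit 2) (nat_lit 5) (nat_lit 2) (nat_lit 4) (nat_lit 393) (nat_lit 325) (nat_lit 302)) (XT.lf (nat_lit 0) (nat_lit 376032550800) (nat_lit 76) (nat_lit 199982961769) (nat_lit 76) (nat_lit 199624085665) (nat_lit 1) (nat_lit 4) (nat_lit 2) (nat_lit 5) (nat_lit 2) (nat_lit 4) (nat_lit 394) (nat_lit 325) (nat_lit 301))) (XT.nd (nat_lit 78) (nat_lit 0) (nat_lit 0) (XT.lf (nat_lit 0) (nat_lit 450590851547) (nat_lit 76) (nat_lit 220242288507) (nat_lit 76) (nat_lit 219881717937)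 (nat_lit 1) (nat_lit 4) (nat_lit 2) (nat_lit 5) (nat_lit 2) (nat_lit 4) (nat_lit 395) (nat_lit 325) (nat_lit 300)) (XT.lf (nat_lit 0) (nat_lit 536187730542) (nat_lit 76) (nat_lit 243617940698) (nat_lit 76) (nat_lit 243255896679) (nat_lit 1) (nat_lit 4) (nat_lit 2) (nat_lit 5) (nat_lit 2) (nat_lit 4) (nat_lit 396) (nat_lit 325) (nat_lit 299))))) (XT.nd (nat_lit 234) (nat_lit 0) (nat_lit 0) (XT.nd (nat_lit 78) (nat_lit 0) (nat_lit 0) (XT.lf (nat_lit 0) (nat_lit 634497909330) (nat_lit 76) (nat_lit 270567268057) (nat_lit 76) (nat_lit 270203942778) (nat_lit 1) (nat_lit 4) (nat_lit 2) (nat_lit 5) (nat_lit 2) (nat_lit 4) (nat_lit 397) (nat_lit 325) (nat_lit 298)) (XT.nd (nat_lit 78) (nat_lit 0) (nat_lit 0) (XT.lf (nat_lit 0) (nat_lit 747444847932) (nat_lit 76) (nat_lit 301617540034) (nat_lit 76) (nat_lit 301253100616) (nat_lit 1) (nat_lit 4) (nat_lit 2) (nat_lit 5) (nat_lit 2) (nat_lit 4) (nat_lit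 398) (nat_lit 325) (nat_lit 297)) (XT.lf (nat_lit 0) (nat_lit 877238377756) (nat_lit 76) (nat_lit 337376261949) (nat_lit 76) (nat_lit 337010853715) (nat_lit 1) (nat_lit 4) (nat_lit 2) (nat_lit 5) (nat_lit 2) (nat_lit 4) (nat_lit 399) (nat_lit 325) (nat_lit 296)))) (XT.nd (nat_lit 156) (nat_lit 0) (nat_lit 0) (XT.nd (nat_lit 78) (nat_lit 0) (nat_lit 0) (XT.lf (nat_lit 0) (nat_lit 1026417937427) (nat_lit 76) (nat_lit 378543060971) (nat_lit 76) (nat_lit 378176810287) (nat_lit 1) (nat_lit 4) (nat_lit 2) (nat_lit 5) (nat_lit 2) (nat_lit 4) (nat_lit 400) (nat_lit 325) (nat_lit 295)) (XT.lf (nat_lit 0) (nat_lit 1197902257461) (nat_lit 76) (nat_lit 425923374471) (nat_lit 76) (nat_lit 425556391223) (nat_lit 1) (nat_lit 4) (nat_lit 2) (nat_lit 5) (nat_lit 2) (nat_lit 4) (nat_lit 401) (nat_lit 325) (nat_lit 294))) (XT.nd (nat_lit 78) (nat_lit 0) (nat_lit 0) (XT.lf (nat_lit 0) (nat_lit 1395046465860)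 (nat_lit 76) (nat_lit 480444208584) (nat_lit 76) (nat_lit 480076588323) (nat_lit 1) (nat_lit 4) (nat_lit 2) (nat_lit 5) (nat_lit 2) (nat_lit 4) (nat_lit 402) (nat_lit 325) (nat_lit 293)) (XT.lf (nat_lit 0) (nat_lit 1621707731917) (nat_lit 76) (nat_lit 543172275281) (nat_lit 76) (nat_lit 542804101096) (nat_lit 1) (nat_lit 4) (nat_lit 2) (nat_lit 5) (nat_lit 2) (nat_lit 4) (nat_lit 403) (nat_lit 325) (nat_lit 292))))))) (XT.nd (nat_lit 1014) (nat_lit 0) (nat_lit 0) (XT.nd (nat_lit 468) (nat_lit 0) (nat_lit 0) (XT.nd (nat_lit 234) (nat_lit 0) (nat_lit 0) (XT.nd (nat_lit 78) (nat_lit 0) (nat_lit 0) (XT.lf (nat_lit 0) (nat_lit 1882320732578) (nat_lit 76) (nat_lit 615334862823) (nat_lit 76) (nat_lit 614966206965) (nat_lit 1) (nat_lit 4) (nat_lit 2) (nat_lit 5) (nat_lit 2) (nat_lit 4) (nat_lit 404) (nat_lit 325) (nat_lit 291)) (XT.nd (nat_lit 78) (nat_lit 0) (nat_lit 0) (XT.lf (nat_lit 0) (nat_lit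 2181984417854) (nat_lit 76) (nat_lit 698343847924) (nat_lit 76) (nat_lit 697974773220) (nat_lit 1) (nat_lit 4) (nat_lit 2) (nat_lit 5) (nat_lit 2) (nat_lit 4) (nat_lit 405) (nat_lit 325) (nat_lit 290)) (XT.lf (nat_lit 0) (nat_lit 2526561772894) (nat_lit 76) (nat_lit 793823319422) (nat_lit 76) (nat_lit 793453880504) (nat_lit 1) (nat_lit 4) (nat_lit 2) (nat_lit 5) (nat_lit 2) (nat_lit 4) (nat_lit 406) (nat_lit 325) (nat_lit 289)))) (XT.nd (nat_lit 78) (nat_lit 0) (nat_lit 0) (XT.lf (nat_lit 0) (nat_lit 2922794528556) (nat_lit 76) (nat_lit 903641353933) (nat_lit 76) (nat_lit 903271598307) (nat_lit 1) (nat_lit 4) (nat_lit 2) (nat_lit 5) (nat_lit 2) (nat_lit 4) (nat_lit 407) (nat_lit 325) (nat_lit 288)) (XT.nd (nat_lit 78) (nat_lit 0) (nat_lit 0) (XT.lf (nat_lit 0) (nat_lit 3378435064843) (nat_lit 76) (nat_lit 1029946565177) (nat_lit 76) (nat_lit 1029576534153) (nat_lit 1) (nat_lit 4) (nat_lit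 2) (nat_lit 5) (nat_lit 2) (nat_lit 4) (nat_lit 408) (nat_lit 325) (nat_lit 287)) (XT.lf (nat_lit 0) (nat_lit 3902398087899) (nat_lit 76) (nat_lit 1175210142068) (nat_lit 76) (nat_lit 1174839871568) (nat_lit 1) (nat_lit 4) (nat_lit 2) (nat_lit 5) (nat_lit 2) (nat_lit 4) (nat_lit 409) (nat_lit 325) (nat_lit 286))))) (XT.nd (nat_lit 234) (nat_lit 0) (nat_lit 0) (XT.nd (nat_lit 78) (nat_lit 0) (nat_lit 0) (XT.lf (nat_lit 0) (nat_lit 4504935048175) (nat_lit 76) (nat_lit 1342274198069) (nat_lit 76) (nat_lit 1341903719327) (nat_lit 1) (nat_lit 4) (nat_lit 2) (nat_lit 5) (nat_lit 2) (nat_lit 4) (nat_lit 410) (nat_lit 325) (nat_lit 285)) (XT.nd (nat_lit 78) (nat_lit 0) (nat_lit 0) (XT.lf (nat_lit 0) (nat_lit 5197834712286) (nat_lit 76) (nat_lit 1534407377752) (nat_lit 76) (nat_lit 1534036717932) (nat_lit 1) (nat_lit 4) (nat_lit 2) (nat_lit 5) (nat_lit 2) (nat_lit 4) (nat_lit 411) (nat_lit 325) (nat_lit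 284)) (XT.lf (nat_lit 0) (nat_lit 5994653812790) (nat_lit 76) (nat_lit 1755368808546) (nat_lit 76) (nat_lit 1754997991266) (nat_lit 1) (nat_lit 4) (nat_lit 2) (nat_lit 5) (nat_lit 2) (nat_lit 4) (nat_lit 412) (nat_lit 325) (nat_lit 283)))) (XT.nd (nat_lit 156) (nat_lit 0) (nat_lit 0) (XT.nd (nat_lit 78) (nat_lit 0) (nat_lit 0) (XT.lf (nat_lit 0) (nat_lit 6910982288610) (nat_lit 76) (nat_lit 2009481648880) (nat_lit 76) (nat_lit 2009110694679) (nat_lit 1) (nat_lit 4) (nat_lit 2) (nat_lit 5) (nat_lit 2) (nat_lit 4) (nat_lit 413) (nat_lit 325) (nat_lit 282)) (XT.lf (nat_lit 0) (nat_lit 7964748305577) (nat_lit 76) (nat_lit 2301717671717) (nat_lit 76) (nat_lit 2301346598454) (nat_lit 1) (nat_lit 4) (nat_lit 2) (nat_lit 5) (nat_lit 2) (nat_lit 4) (nat_lit 414) (nat_lit 325) (nat_lit 281))) (XT.nd (nat_lit 78) (nat_lit 0) (nat_lit 0) (XT.lf (nat_lit 0) (nat_lit 9176569024894) (nat_lit 76) (nat_lit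 2637794538374) (nat_lit 76) (nat_lit 2637423361578) (nat_lit 1) (nat_lit 4) (nat_lit 2) (nat_lit 5) (nat_lit 2) (nat_lit 4) (nat_lit 415) (nat_lit 325) (nat_lit 280)) (XT.lf (nat_lit 0) (nat_lit 10570153982371) (nat_lit 76) (nat_lit 3024287665806) (nat_lit 76) (nat_lit 3023916398982) (nat_lit 1) (nat_lit 4) (nat_lit 2) (nat_lit 5) (nat_lit 2) (nat_lit 4) (nat_lit 416) (nat_lit 325) (nat_lit 279)))))) (XT.nd (nat_lit 546) (nat_lit 0) (nat_lit 0) (XT.nd (nat_lit 234) (nat_lit 0) (nat_lit 0) (XT.nd (nat_lit 78) (nat_lit 0) (nat_lit 0) (XT.lf (nat_lit 0) (nat_lit 12172768970657) (nat_lit 76) (nat_lit 3468758876072) (nat_lit 76) (nat_lit 3468387530962) (nat_lit 1) (nat_lit 4) (nat_lit 2) (nat_lit 5) (nat_lit 2) (nat_lit 4) (nat_lit 417) (nat_lit 325) (nat_lit 278)) (XT.nd (nat_lit 78) (nat_lit 0) (nat_lit 0) (XT.lf (nat_lit 0) (nat_lit 14015769500391) (nat_lit 76) (nat_lit 3979904345025) (nat_lit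 76) (nat_lit 3979532931841) (nat_lit 1) (nat_lit 4) (nat_lit 2) (nat_lit 5) (nat_lit 2) (nat_lit 4) (nat_lit 418) (nat_lit 325) (nat_lit 277)) (XT.lf (nat_lit 0) (nat_lit 16135214277590) (nat_lit 76) (nat_lit 4567724744884) (nat_lit 76) (nat_lit 4567353272505) (nat_lit 1) (nat_lit 4) (nat_lit 2) (nat_lit 5) (nat_lit 2) (nat_lit 4) (nat_lit 419) (nat_lit 325) (nat_lit 276)))) (XT.nd (nat_lit 156) (nat_lit 0) (nat_lit 0) (XT.nd (nat_lit 78) (nat_lit 0) (nat_lit 0) (XT.lf (nat_lit 0) (nat_lit 18572570700068) (nat_lit 76) (nat_lit 5243720909559) (nat_lit 76) (nat_lit 5243349385707) (nat_lit 1) (nat_lit 4) (nat_lit 2) (nat_lit 5) (nat_lit 2) (nat_lit 4) (nat_lit 420) (nat_lit 325) (nat_lit 275)) (XT.lf (nat_lit 0) (nat_lit 21375526176091) (nat_lit 76) (nat_lit 6021118850968) (nat_lit 76) (nat_lit 6020747282355) (nat_lit 1) (nat_lit 4) (nat_lit 2) (nat_lit 5) (nat_lit 2) (nat_lit 4) (nat_lit 421)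 (nat_lit 325) (nat_lit 274))) (XT.nd (nat_lit 78) (nat_lit 0) (nat_lit 0) (XT.lf (nat_lit 0) (nat_lit 24598921138887) (nat_lit 76) (nat_lit 6915128528833) (nat_lit 76) (nat_lit 6914756921299) (nat_lit 1) (nat_lit 4) (nat_lit 2) (nat_lit 5) (nat_lit 2) (nat_lit 4) (nat_lit 422) (nat_lit 325) (nat_lit 273)) (XT.lf (nat_lit 0) (nat_lit 28305822011640) (nat_lit 76) (nat_lit 7943241436853) (nat_lit 76) (nat_lit 7942869795474) (nat_lit 1) (nat_lit 4) (nat_lit 2) (nat_lit 5) (nat_lit 2) (nat_lit 4) (nat_lit 423) (nat_lit 325) (nat_lit 272))))) (XT.nd (nat_lit 234) (nat_lit 0) (nat_lit 0) (XT.nd (nat_lit 78) (nat_lit 0) (nat_lit 0) (XT.lf (nat_lit 0) (nat_lit 32568755115773) (nat_lit 76) (nat_lit 9125572827575) (nat_lit 76) (nat_lit 9125201156765) (nat_lit 1) (nat_lit 4) (nat_lit 2) (nat_lit 5) (nat_lit 2) (nat_lit 4) (nat_lit 424) (nat_lit 325) (nat_lit 271)) (XT.nd (nat_lit 78) (nat_lit 0) (nat_lit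 0) (XT.lf (nat_lit 0) (nat_lit 37471125664193) (nat_lit 76) (nat_lit 10485255271687) (nat_lit 76) (nat_lit 10484883575286) (nat_lit 1) (nat_lit 4) (nat_lit 2) (nat_lit 5) (nat_lit 2) (nat_lit 4) (nat_lit 425) (nat_lit 325) (nat_lit 270)) (XT.lf (nat_lit 0) (nat_lit 43108849602414) (nat_lit 76) (nat_lit 12048891251792) (nat_lit 76) (nat_lit 12048519533138) (nat_lit 1) (nat_lit 4) (nat_lit 2) (nat_lit 5) (nat_lit 2) (nat_lit 4) (nat_lit 426) (nat_lit 325) (nat_lit 269)))) (XT.nd (nat_lit 156) (nat_lit 0) (nat_lit 0) (XT.nd (nat_lit 78) (nat_lit 0) (nat_lit 0) (XT.lf (nat_lit 0) (nat_lit 49592230224878) (nat_lit 76) (nat_lit 13847073645761) (nat_lit 76) (nat_lit 13846701907756) (nat_lit 1) (nat_lit 4) (nat_lit 2) (nat_lit 5) (nat_lit 2) (nat_lit 4) (nat_lit 427) (nat_lit 325) (nat_lit 268)) (XT.lf (nat_lit 0) (nat_lit 57048116282895) (nat_lit 76) (nat_lit 15914984283042) (nat_lit 76) (nat_lit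 15914612528210) (nat_lit 1) (nat_lit 4) (nat_lit 2) (nat_lit 5) (nat_lit 2) (nat_lit 4) (nat_lit 428) (nat_lit 325) (nat_lit 267))) (XT.nd (nat_lit 78) (nat_lit 0) (nat_lit 0) (XT.lf (nat_lit 0) (nat_lit 65622383808034) (nat_lit 76) (nat_lit 18293082284798) (nat_lit 76) (nat_lit 18292710515334) (nat_lit 1) (nat_lit 4) (nat_lit 2) (nat_lit 5) (nat_lit 2) (nat_lit 4) (nat_lit 429) (nat_lit 325) (nat_lit 266)) (XT.lf (nat_lit 0) (nat_lit 75482790208396) (nat_lit 76) (nat_lit 21027895655413) (nat_lit 76) (nat_lit 21027523873225) (nat_lit 1) (nat_lit 4) (nat_lit 2) (nat_lit 5) (nat_lit 2) (nat_lit 4) (nat_lit 430) (nat_lit 325) (nat_lit 265))))))))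
noncomputable def xc24 : XT := (XT.nd (nat_lit 49608) (nat_lit 0) (nat_lit 0) (XT.nd (nat_lit 48594) (nat_lit 0) (nat_lit 76) (XT.nd (nat_lit 2184) (nat_lit 0) (nat_lit 0) (XT.nd (nat_lit 234) (nat_lit 0) (nat_lit 0) (XT.nd (nat_lit 78) (nat_lit 0) (nat_lit 0) (XT.lf (nat_lit 0) (nat_lit 86822256478771) (nat_lit 76) (nat_lit 24172931613006) (nat_lit 76) (nat_lit 24172559819754) (nat_lit 1) (nat_lit 4) (nat_lit 2) (nat_lit 5) (nat_lit 2) (nat_lit 4) (nat_lit 431) (nat_lit 325) (nat_lit 264)) (XT.nd (nat_lit 78) (nat_lit 0) (nat_lit 0) (XT.lf (nat_lit 0) (nat_lit 99862641741839) (nat_lit 76) (nat_lit 27789723469791) (nat_lit 76) (nat_lit 27789351666918) (nat_lit 1) (nat_lit 4) (nat_lit 2) (nat_lit 5) (nat_lit 2) (nat_lit 4) (nat_lit 432) (nat_lit 325) (nat_lit 263)) (XT.lf (nat_lit 0) (nat_lit 114859083970140) (nat_lit 76) (nat_lit 31949034544705) (nat_lit 76) (nat_lit 31948662733467) (nat_lit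 1) (nat_lit 4) (nat_lit 2) (nat_lit 5) (nat_lit 2) (nat_lit 4) (nat_lit 433) (nat_lit 325) (nat_lit 262)))) (XT.nd (nat_lit 1794) (nat_lit 0) (nat_lit 0) (XT.lf (nat_lit 0) (nat_lit 132104991815966) (nat_lit 76) (nat_lit 36732242663128) (nat_lit 76) (nat_lit 36731870844615) (nat_lit 1) (nat_lit 4) (nat_lit 2) (nat_lit 5) (nat_lit 2) (nat_lit 4) (nat_lit 434) (nat_lit 325) (nat_lit 261)) (XT.nd (nat_lit 78) (nat_lit 0) (nat_lit 0) (XT.lf (nat_lit 0) (nat_lit 3291000309899456) (nat_lit 76) (nat_lit 912862357610340) (nat_lit 76) (nat_lit 912861985745275) (nat_lit 1) (nat_lit 4) (nat_lit 2) (nat_lit 5) (nat_lit 2) (nat_lit 4) (nat_lit 457) (nat_lit 325) (nat_lit 238)) (XT.lf (nat_lit 0) (nat_lit 3784667397023468) (nat_lit 76) (nat_lit 1049782566648051) (nat_lit 76) (nat_lit 1049782194782735) (nat_lit 1) (nat_lit 4) (nat_lit 2) (nat_lit 5) (nat_lit 2) (nat_lit 4) (nat_lit 458) (nat_lit 325) (nat_lit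 237))))) (XT.nd (nat_lit 46098) (nat_lit 0) (nat_lit 380) (XT.nd (nat_lit 78) (nat_lit 0) (nat_lit 0) (XT.lf (nat_lit 0) (nat_lit 4352384547194307) (nat_lit 76) (nat_lit 1207240807053041) (nat_lit 76) (nat_lit 1207240435187492) (nat_lit 1) (nat_lit 4) (nat_lit 2) (nat_lit 5) (nat_lit 2) (nat_lit 4) (nat_lit 459) (nat_lit 325) (nat_lit 236)) (XT.nd (nat_lit 45942) (nat_lit 0) (nat_lit 608) (XT.lf (nat_lit 0) (nat_lit 5005259269871822) (nat_lit 76) (nat_lit 1388317783528862) (nat_lit 76) (nat_lit 1388317411663127) (nat_lit 1) (nat_lit 4) (nat_lit 2) (nat_lit 5) (nat_lit 2) (nat_lit 4) (nat_lit 460) (nat_lit 325) (nat_lit 235)) (XT.lf (nat_lit 0) (nat_lit 4083809186) (nat_lit 76) (nat_lit 5891856560) (nat_lit 76) (nat_lit 5891856560) (nat_lit 9) (nat_lit 4) (nat_lit 10) (nat_lit 5) (nat_lit 10) (nat_lit 4) (nat_lit 368) (nat_lit 326) (nat_lit 326)))) (XT.nd (nat_lit 156) (nat_lit 76) (nat_lit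 0) (XT.nd (nat_lit 78) (nat_lit 152) (nat_lit 0) (XT.lf (nat_lit 0) (nat_lit 33633972875) (nat_lit 76) (nat_lit 617652780) (nat_lit 76) (nat_lit 532818294) (nat_lit 9) (nat_lit 4) (nat_lit 10) (nat_lit 5) (nat_lit 10) (nat_lit 4) (nat_lit 369) (nat_lit 326) (nat_lit 325)) (XT.lf (nat_lit 0) (nat_lit 11814660857) (nat_lit 152) (nat_lit 14645790933) (nat_lit 0) (nat_lit 11676744680) (nat_lit 7) (nat_lit 5) (nat_lit 9) (nat_lit 4) (nat_lit 7) (nat_lit 4) (nat_lit 370) (nat_lit 326) (nat_lit 324))) (XT.nd (nat_lit 78) (nat_lit 0) (nat_lit 0) (XT.lf (nat_lit 0) (nat_lit 8514263465) (nat_lit 76) (nat_lit 16876889022) (nat_lit 76) (nat_lit 16683192792) (nat_lit 6) (nat_lit 4) (nat_lit 7) (nat_lit 5) (nat_lit 7) (nat_lit 4) (nat_lit 371) (nat_lit 326) (nat_lit 323)) (XT.lf (nat_lit 0) (nat_lit 34731438483) (nat_lit 76) (nat_lit 6071504727) (nat_lit 76) (nat_lit 5829304105) (nat_lit 6) (nat_lit 4)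 (nat_lit 7) (nat_lit 5) (nat_lit 7) (nat_lit 4) (nat_lit 372) (nat_lit 326) (nat_lit 322)))))) (XT.nd (nat_lit 468) (nat_lit 152) (nat_lit 0) (XT.nd (nat_lit 234) (nat_lit 0) (nat_lit 0) (XT.nd (nat_lit 78) (nat_lit 76) (nat_lit 0) (XT.lf (nat_lit 0) (nat_lit 5931354174) (nat_lit 76) (nat_lit 40236451556) (nat_lit 0) (nat_lit 5684068648) (nat_lit 5) (nat_lit 5) (nat_lit 6) (nat_lit 4) (nat_lit 5) (nat_lit 4) (nat_lit 373) (nat_lit 326) (nat_lit 321)) (XT.nd (nat_lit 78) (nat_lit 76) (nat_lit 0) (XT.lf (nat_lit 0) (nat_lit 18920497705) (nat_lit 76) (nat_lit 20241813818) (nat_lit 0) (nat_lit 18641319753) (nat_lit 5) (nat_lit 5) (nat_lit 6) (nat_lit 4) (nat_lit 5) (nat_lit 4) (nat_lit 374) (nat_lit 326) (nat_lit 320)) (XT.lf (nat_lit 0) (nat_lit 1225532882) (nat_lit 76) (nat_lit 31918327440) (nat_lit 76) (nat_lit 31611416944) (nat_lit 4) (nat_lit 4) (nat_lit 5) (nat_lit 5) (nat_lit 5) (nat_lit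 4) (nat_lit 375) (nat_lit 326) (nat_lit 319)))) (XT.nd (nat_lit 78) (nat_lit 0) (nat_lit 0) (XT.lf (nat_lit 0) (nat_lit 26626638424) (nat_lit 76) (nat_lit 23202406121) (nat_lit 76) (nat_lit 22871380369) (nat_lit 4) (nat_lit 4) (nat_lit 5) (nat_lit 5) (nat_lit 5) (nat_lit 4) (nat_lit 376) (nat_lit 326) (nat_lit 318)) (XT.nd (nat_lit 78) (nat_lit 0) (nat_lit 0) (XT.lf (nat_lit 0) (nat_lit 54480303699) (nat_lit 76) (nat_lit 13902113484) (nat_lit 76) (nat_lit 13550117944) (nat_lit 4) (nat_lit 4) (nat_lit 5) (nat_lit 5) (nat_lit 5) (nat_lit 4) (nat_lit 377) (nat_lit 326) (nat_lit 317)) (XT.lf (nat_lit 0) (nat_lit 85331491723) (nat_lit 76) (nat_lit 3835487281) (nat_lit 76) (nat_lit 3465257144) (nat_lit 4) (nat_lit 4) (nat_lit 5) (nat_lit 5) (nat_lit 5) (nat_lit 4) (nat_lit 378) (nat_lit 326) (nat_lit 316))))) (XT.nd (nat_lit 234) (nat_lit 0) (nat_lit 0) (XT.nd (nat_lit 78) (nat_lit 0) (nat_lit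 0) (XT.lf (nat_lit 0) (nat_lit 7907119335) (nat_lit 152) (nat_lit 89333053373) (nat_lit 0) (nat_lit 7571392110) (nat_lit 2) (nat_lit 5) (nat_lit 4) (nat_lit 4) (nat_lit 2) (nat_lit 4) (nat_lit 379) (nat_lit 326) (nat_lit 315)) (XT.nd (nat_lit 78) (nat_lit 0) (nat_lit 0) (XT.lf (nat_lit 0) (nat_lit 20710725177) (nat_lit 152) (nat_lit 77707286146) (nat_lit 0) (nat_lit 20363008408) (nat_lit 2) (nat_lit 5) (nat_lit 4) (nat_lit 4) (nat_lit 2) (nat_lit 4) (nat_lit 380) (nat_lit 326) (nat_lit 314)) (XT.lf (nat_lit 0) (nat_lit 34998093022) (nat_lit 152) (nat_lit 65273367141) (nat_lit 0) (nat_lit 34639950562) (nat_lit 2) (nat_lit 5) (nat_lit 4) (nat_lit 4) (nat_lit 2) (nat_lit 4) (nat_lit 381) (nat_lit 326) (nat_lit 313)))) (XT.nd (nat_lit 156) (nat_lit 0) (nat_lit 0) (XT.nd (nat_lit 78) (nat_lit 0) (nat_lit 0) (XT.lf (nat_lit 0) (nat_lit 51048758328) (nat_lit 152) (nat_lit 51788024028) (nat_lit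 0) (nat_lit 50681550050) (nat_lit 2) (nat_lit 5) (nat_lit 4) (nat_lit 4) (nat_lit 2) (nat_lit 4) (nat_lit 382) (nat_lit 326) (nat_lit 312)) (XT.lf (nat_lit 0) (nat_lit 69176755850) (nat_lit 152) (nat_lit 36987413138) (nat_lit 0) (nat_lit 68801664252) (nat_lit 2) (nat_lit 5) (nat_lit 4) (nat_lit 4) (nat_lit 2) (nat_lit 4) (nat_lit 383) (nat_lit 326) (nat_lit 311))) (XT.nd (nat_lit 78) (nat_lit 0) (nat_lit 0) (XT.lf (nat_lit 0) (nat_lit 89736763800) (nat_lit 152) (nat_lit 20581957302) (nat_lit 0) (nat_lit 89354817142) (nat_lit 2) (nat_lit 5) (nat_lit 4) (nat_lit 4) (nat_lit 2) (nat_lit 4) (nat_lit 384) (nat_lit 326) (nat_lit 310)) (XT.lf (nat_lit 0) (nat_lit 113131043205) (nat_lit 152) (nat_lit 2250680210) (nat_lit 0) (nat_lit 112743135624) (nat_lit 2) (nat_lit 5) (nat_lit 4) (nat_lit 4) (nat_lit 2) (nat_lit 4) (nat_lit 385) (nat_lit 326) (nat_lit 309))))))) (XT.nd (nat_lit 1014) (nat_lit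 0) (nat_lit 0) (XT.nd (nat_lit 468) (nat_lit 0) (nat_lit 0) (XT.nd (nat_lit 234) (nat_lit 0) (nat_lit 0) (XT.nd (nat_lit 78) (nat_lit 0) (nat_lit 0) (XT.lf (nat_lit 0) (nat_lit 20159842112) (nat_lit 76) (nat_lit 120492242184) (nat_lit 76) (nat_lit 120099151193) (nat_lit 1) (nat_lit 4) (nat_lit 2) (nat_lit 5) (nat_lit 2) (nat_lit 4) (nat_lit 386) (nat_lit 326) (nat_lit 308)) (XT.nd (nat_lit 78) (nat_lit 0) (nat_lit 0) (XT.lf (nat_lit 0) (nat_lit 45740819793) (nat_lit 76) (nat_lit 126470891451) (nat_lit 76) (nat_lit 126073293146) (nat_lit 1) (nat_lit 4) (nat_lit 2) (nat_lit 5) (nat_lit 2) (nat_lit 4) (nat_lit 387) (nat_lit 326) (nat_lit 307)) (XT.lf (nat_lit 0) (nat_lit 74772797382) (nat_lit 76) (nat_lit 133552293982) (nat_lit 76) (nat_lit 133150776274) (nat_lit 1) (nat_lit 4) (nat_lit 2) (nat_lit 5) (nat_lit 2) (nat_lit 4) (nat_lit 388) (nat_lit 326) (nat_lit 306)))) (XT.nd (nat_lit 78) (nat_lit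 0) (nat_lit 0) (XT.lf (nat_lit 0) (nat_lit 107823791832) (nat_lit 76) (nat_lit 141874998956) (nat_lit 76) (nat_lit 141470073071) (nat_lit 1) (nat_lit 4) (nat_lit 2) (nat_lit 5) (nat_lit 2) (nat_lit 4) (nat_lit 389) (nat_lit 326) (nat_lit 305)) (XT.nd (nat_lit 78) (nat_lit 0) (nat_lit 0) (XT.lf (nat_lit 0) (nat_lit 145540453036) (nat_lit 76) (nat_lit 151601841906) (nat_lit 76) (nat_lit 151193952389) (nat_lit 1) (nat_lit 4) (nat_lit 2) (nat_lit 5) (nat_lit 2) (nat_lit 4) (nat_lit 390) (nat_lit 326) (nat_lit 304)) (XT.lf (nat_lit 0) (nat_lit 188660715668) (nat_lit 76) (nat_lit 162923130628) (nat_lit 76) (nat_lit 162512664039) (nat_lit 1) (nat_lit 4) (nat_lit 2) (nat_lit 5) (nat_lit 2) (nat_lit 4) (nat_lit 391) (nat_lit 326) (nat_lit 303))))) (XT.nd (nat_lit 234) (nat_lit 0) (nat_lit 0) (XT.nd (nat_lit 78) (nat_lit 0) (nat_lit 0) (XT.lf (nat_lit 0) (nat_lit 238028237041) (nat_lit 76) (nat_lit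 176060368597) (nat_lit 76) (nat_lit 175647661077) (nat_lit 1) (nat_lit 4) (nat_lit 2) (nat_lit 5) (nat_lit 2) (nat_lit 4) (nat_lit 392) (nat_lit 326) (nat_lit 302)) (XT.nd (nat_lit 78) (nat_lit 0) (nat_lit 0) (XT.lf (nat_lit 0) (nat_lit 294608903442) (nat_lit 76) (nat_lit 191270588730) (nat_lit 76) (nat_lit 190855932574) (nat_lit 1) (nat_lit 4) (nat_lit 2) (nat_lit 5) (nat_lit 2) (nat_lit 4) (nat_lit 393) (nat_lit 326) (nat_lit 301)) (XT.lf (nat_lit 0) (nat_lit 359509727911) (nat_lit 76) (nat_lit 208851382292) (nat_lit 76) (nat_lit 208435031669) (nat_lit 1) (nat_lit 4) (nat_lit 2) (nat_lit 5) (nat_lit 2) (nat_lit 4) (nat_lit 394) (nat_lit 326) (nat_lit 300)))) (XT.nd (nat_lit 156) (nat_lit 0) (nat_lit 0) (XT.nd (nat_lit 78) (nat_lit 0) (nat_lit 0) (XT.lf (nat_lit 0) (nat_lit 434000509186) (nat_lit 76) (nat_lit 229146721328) (nat_lit 76) (nat_lit 228728897257) (nat_lit 1) (nat_lit 4) (nat_lit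 2) (nat_lit 5) (nat_lit 2) (nat_lit 4) (nat_lit 395) (nat_lit 326) (nat_lit 299)) (XT.lf (nat_lit 0) (nat_lit 519538675597) (nat_lit 76) (nat_lit 252553688561) (nat_lit 76) (nat_lit 252134583230) (nat_lit 1) (nat_lit 4) (nat_lit 2) (nat_lit 5) (nat_lit 2) (nat_lit 4) (nat_lit 396) (nat_lit 326) (nat_lit 298))) (XT.nd (nat_lit 78) (nat_lit 0) (nat_lit 0) (XT.lf (nat_lit 0) (nat_lit 617797799964) (nat_lit 76) (nat_lit 279530246392) (nat_lit 76) (nat_lit 279110026922) (nat_lit 1) (nat_lit 4) (nat_lit 2) (nat_lit 5) (nat_lit 2) (nat_lit 4) (nat_lit 397) (nat_lit 326) (nat_lit 297)) (XT.lf (nat_lit 0) (nat_lit 730700343418) (nat_lit 76) (nat_lit 310604197039) (nat_lit 76) (nat_lit 310183008753) (nat_lit 1) (nat_lit 4) (nat_lit 2) (nat_lit 5) (nat_lit 2) (nat_lit 4) (nat_lit 398) (nat_lit 326) (nat_lit 296)))))) (XT.nd (nat_lit 546) (nat_lit 0) (nat_lit 0) (XT.nd (nat_lit 234) (nat_lit 0) (nat_lit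 0) (XT.nd (nat_lit 78) (nat_lit 0) (nat_lit 0) (XT.lf (nat_lit 0) (nat_lit 860455268764) (nat_lit 76) (nat_lit 346383509103) (nat_lit 76) (nat_lit 345961478367) (nat_lit 1) (nat_lit 4) (nat_lit 2) (nat_lit 5) (nat_lit 2) (nat_lit 4) (nat_lit 399) (nat_lit 326) (nat_lit 295)) (XT.nd (nat_lit 78) (nat_lit 0) (nat_lit 0) (XT.lf (nat_lit 0) (nat_lit 1009601259325) (nat_lit 76) (nat_lit 387568212601) (nat_lit 76) (nat_lit 387145449301) (nat_lit 1) (nat_lit 4) (nat_lit 2) (nat_lit 5) (nat_lit 2) (nat_lit 4) (nat_lit 400) (nat_lit 326) (nat_lit 294)) (XT.lf (nat_lit 0) (nat_lit 1181056388829) (nat_lit 76) (nat_lit 434964095212) (nat_lit 76) (nat_lit 434540694899) (nat_lit 1) (nat_lit 4) (nat_lit 2) (nat_lit 5) (nat_lit 2) (nat_lit 4) (nat_lit 401) (nat_lit 326) (nat_lit 293)))) (XT.nd (nat_lit 156) (nat_lit 0) (nat_lit 0) (XT.nd (nat_lit 78) (nat_lit 0) (nat_lit 0) (XT.lf (nat_lit 0) (nat_lit 1378175214157)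 (nat_lit 76) (nat_lit 489498467682) (nat_lit 76) (nat_lit 489074513445) (nat_lit 1) (nat_lit 4) (nat_lit 2) (nat_lit 5) (nat_lit 2) (nat_lit 4) (nat_lit 402) (nat_lit 326) (nat_lit 292)) (XT.lf (nat_lit 0) (nat_lit 1604814407979) (nat_lit 76) (nat_lit 552238306862) (nat_lit 76) (nat_lit 551813870953) (nat_lit 1) (nat_lit 4) (nat_lit 2) (nat_lit 5) (nat_lit 2) (nat_lit 4) (nat_lit 403) (nat_lit 326) (nat_lit 291))) (XT.nd (nat_lit 78) (nat_lit 0) (nat_lit 0) (XT.lf (nat_lit 0) (nat_lit 1865408215392) (nat_lit 76) (nat_lit 624411131348) (nat_lit 76) (nat_lit 623986276592) (nat_lit 1) (nat_lit 4) (nat_lit 2) (nat_lit 5) (nat_lit 2) (nat_lit 4) (nat_lit 404) (nat_lit 326) (nat_lit 290)) (XT.lf (nat_lit 0) (nat_lit 2165055210888) (nat_lit 76) (nat_lit 707429018138) (nat_lit 76) (nat_lit 707003799168) (nat_lit 1) (nat_lit 4) (nat_lit 2) (nat_lit 5) (nat_lit 2) (nat_lit 4) (nat_lit 405) (nat_lit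 326) (nat_lit 289))))) (XT.nd (nat_lit 234) (nat_lit 0) (nat_lit 0) (XT.nd (nat_lit 78) (nat_lit 0) (nat_lit 0) (XT.lf (nat_lit 0) (nat_lit 2509618053075) (nat_lit 76) (nat_lit 802916230235) (nat_lit 76) (nat_lit 802490694557) (nat_lit 1) (nat_lit 4) (nat_lit 2) (nat_lit 5) (nat_lit 2) (nat_lit 4) (nat_lit 406) (nat_lit 326) (nat_lit 288)) (XT.nd (nat_lit 78) (nat_lit 0) (nat_lit 0) (XT.lf (nat_lit 0) (nat_lit 2905838188865) (nat_lit 76) (nat_lit 912740995702) (nat_lit 76) (nat_lit 912315184627) (nat_lit 1) (nat_lit 4) (nat_lit 2) (nat_lit 5) (nat_lit 2) (nat_lit 4) (nat_lit 407) (nat_lit 326) (nat_lit 287)) (XT.lf (nat_lit 0) (nat_lit 3361467751350) (nat_lit 76) (nat_lit 1039052059951) (nat_lit 76) (nat_lit 1038626009399) (nat_lit 1) (nat_lit 4) (nat_lit 2) (nat_lit 5) (nat_lit 2) (nat_lit 4) (nat_lit 408) (nat_lit 326) (nat_lit 286)))) (XT.nd (nat_lit 156) (nat_lit 0) (nat_lit 0) (XT.nd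 (nat_lit 78) (nat_lit 0) (nat_lit 0) (XT.lf (nat_lit 0) (nat_lit 3885421231970) (nat_lit 76) (nat_lit 1184320726413) (nat_lit 76) (nat_lit 1183894467620) (nat_lit 1) (nat_lit 4) (nat_lit 2) (nat_lit 5) (nat_lit 2) (nat_lit 4) (nat_lit 409) (nat_lit 326) (nat_lit 285)) (XT.lf (nat_lit 0) (nat_lit 4487949894475) (nat_lit 76) (nat_lit 1351389208126) (nat_lit 76) (nat_lit 1350962768254) (nat_lit 1) (nat_lit 4) (nat_lit 2) (nat_lit 5) (nat_lit 2) (nat_lit 4) (nat_lit 410) (nat_lit 326) (nat_lit 284))) (XT.nd (nat_lit 78) (nat_lit 0) (nat_lit 0) (XT.lf (nat_lit 0) (nat_lit 5180842343133) (nat_lit 76) (nat_lit 1543526236255) (nat_lit 76) (nat_lit 1543099638923) (nat_lit 1) (nat_lit 4) (nat_lit 2) (nat_lit 5) (nat_lit 2) (nat_lit 4) (nat_lit 411) (nat_lit 326) (nat_lit 283)) (XT.lf (nat_lit 0) (nat_lit 5977655169331) (nat_lit 76) (nat_lit 1764491013524) (nat_lit 76) (nat_lit 1764064279271) (nat_lit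 1) (nat_lit 4) (nat_lit 2) (nat_lit 5) (nat_lit 2) (nat_lit 4) (nat_lit 412) (nat_lit 326) (nat_lit 282))))))))
noncomputable def xc25 : XT := (XT.nd (nat_lit 3666) (nat_lit 0) (nat_lit 0) (XT.nd (nat_lit 1014) (nat_lit 0) (nat_lit 0) (XT.nd (nat_lit 468) (nat_lit 0) (nat_lit 0) (XT.nd (nat_lit 234) (nat_lit 0) (nat_lit 0) (XT.nd (nat_lit 78) (nat_lit 0) (nat_lit 0) (XT.lf (nat_lit 0) (nat_lit 6893978189232) (nat_lit 76) (nat_lit 2018606763836) (nat_lit 76) (nat_lit 2018179910521) (nat_lit 1) (nat_lit 4) (nat_lit 2) (nat_lit 5) (nat_lit 2) (nat_lit 4) (nat_lit 413) (nat_lit 326) (nat_lit 281)) (XT.nd (nat_lit 78) (nat_lit 0) (nat_lit 0) (XT.lf (nat_lit 0) (nat_lit 7947739461922) (nat_lit 76) (nat_lit 2310845317089) (nat_lit 76) (nat_lit 2310418360241) (nat_lit 1) (nat_lit 4) (nat_lit 2) (nat_lit 5) (nat_lit 2) (nat_lit 4) (nat_lit 414) (nat_lit 326) (nat_lit 280)) (XT.lf (nat_lit 0) (nat_lit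 9159556055779) (nat_lit 76) (nat_lit 2646924384107) (nat_lit 76) (nat_lit 2646497337231) (nat_lit 1) (nat_lit 4) (nat_lit 2) (nat_lit 5) (nat_lit 2) (nat_lit 4) (nat_lit 415) (nat_lit 326) (nat_lit 279)))) (XT.nd (nat_lit 78) (nat_lit 0) (nat_lit 0) (XT.lf (nat_lit 0) (nat_lit 10553137425902) (nat_lit 76) (nat_lit 3033419424897) (nat_lit 76) (nat_lit 3032992299736) (nat_lit 1) (nat_lit 4) (nat_lit 2) (nat_lit 5) (nat_lit 2) (nat_lit 4) (nat_lit 416) (nat_lit 326) (nat_lit 278)) (XT.nd (nat_lit 78) (nat_lit 0) (nat_lit 0) (XT.lf (nat_lit 0) (nat_lit 12155749294748) (nat_lit 76) (nat_lit 3477892298952) (nat_lit 76) (nat_lit 3477465105717) (nat_lit 1) (nat_lit 4) (nat_lit 2) (nat_lit 5) (nat_lit 2) (nat_lit 4) (nat_lit 417) (nat_lit 326) (nat_lit 277)) (XT.lf (nat_lit 0) (nat_lit 13998747111926) (nat_lit 76) (nat_lit 3989039214679) (nat_lit 76) (nat_lit 3988611962248) (nat_lit 1) (nat_lit 4)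 (nat_lit 2) (nat_lit 5) (nat_lit 2) (nat_lit 4) (nat_lit 418) (nat_lit 326) (nat_lit 276))))) (XT.nd (nat_lit 234) (nat_lit 0) (nat_lit 0) (XT.nd (nat_lit 78) (nat_lit 0) (nat_lit 0) (XT.lf (nat_lit 0) (nat_lit 16118189530380) (nat_lit 76) (nat_lit 4576860872601) (nat_lit 76) (nat_lit 4576433568697) (nat_lit 1) (nat_lit 4) (nat_lit 2) (nat_lit 5) (nat_lit 2) (nat_lit 4) (nat_lit 419) (nat_lit 326) (nat_lit 275)) (XT.nd (nat_lit 78) (nat_lit 0) (nat_lit 0) (XT.lf (nat_lit 0) (nat_lit 18555543901777) (nat_lit 76) (nat_lit 5252858131245) (nat_lit 76) (nat_lit 5252430782581) (nat_lit 1) (nat_lit 4) (nat_lit 2) (nat_lit 5) (nat_lit 2) (nat_lit 4) (nat_lit 420) (nat_lit 326) (nat_lit 274)) (XT.lf (nat_lit 0) (nat_lit 21358497594251) (nat_lit 76) (nat_lit 6030257023931) (nat_lit 76) (nat_lit 6029829636345) (nat_lit 1) (nat_lit 4) (nat_lit 2) (nat_lit 5) (nat_lit 2) (nat_lit 4) (nat_lit 421) (nat_lit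 326) (nat_lit 273)))) (XT.nd (nat_lit 156) (nat_lit 0) (nat_lit 0) (XT.nd (nat_lit 78) (nat_lit 0) (nat_lit 0) (XT.lf (nat_lit 0) (nat_lit 24581891006134) (nat_lit 76) (nat_lit 6924267528993) (nat_lit 76) (nat_lit 6923840107563) (nat_lit 1) (nat_lit 4) (nat_lit 2) (nat_lit 5) (nat_lit 2) (nat_lit 4) (nat_lit 422) (nat_lit 326) (nat_lit 272)) (XT.lf (nat_lit 0) (nat_lit 28288790530266) (nat_lit 76) (nat_lit 7952381156315) (nat_lit 76) (nat_lit 7951953705454) (nat_lit 1) (nat_lit 4) (nat_lit 2) (nat_lit 5) (nat_lit 2) (nat_lit 4) (nat_lit 423) (nat_lit 326) (nat_lit 271))) (XT.nd (nat_lit 78) (nat_lit 0) (nat_lit 0) (XT.lf (nat_lit 0) (nat_lit 32551722461687) (nat_lit 76) (nat_lit 9134713172517) (nat_lit 76) (nat_lit 9134285696065) (nat_lit 1) (nat_lit 4) (nat_lit 2) (nat_lit 5) (nat_lit 2) (nat_lit 4) (nat_lit 424) (nat_lit 326) (nat_lit 270)) (XT.lf (nat_lit 0) (nat_lit 37454091990357) (nat_lit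 76) (nat_lit 10494396160525) (nat_lit 76) (nat_lit 10493968661819) (nat_lit 1) (nat_lit 4) (nat_lit 2) (nat_lit 5) (nat_lit 2) (nat_lit 4) (nat_lit 425) (nat_lit 326) (nat_lit 269)))))) (XT.nd (nat_lit 468) (nat_lit 0) (nat_lit 0) (XT.nd (nat_lit 234) (nat_lit 0) (nat_lit 0) (XT.nd (nat_lit 78) (nat_lit 0) (nat_lit 0) (XT.lf (nat_lit 0) (nat_lit 43091815041838) (nat_lit 76) (nat_lit 12058032613583) (nat_lit 76) (nat_lit 12057605095526) (nat_lit 1) (nat_lit 4) (nat_lit 2) (nat_lit 5) (nat_lit 2) (nat_lit 4) (nat_lit 426) (nat_lit 326) (nat_lit 268)) (XT.nd (nat_lit 78) (nat_lit 0) (nat_lit 0) (XT.lf (nat_lit 0) (nat_lit 49575194893225) (nat_lit 76) (nat_lit 13856215418816) (nat_lit 76) (nat_lit 13855787883932) (nat_lit 1) (nat_lit 4) (nat_lit 2) (nat_lit 5) (nat_lit 2) (nat_lit 4) (nat_lit 427) (nat_lit 326) (nat_lit 267)) (XT.lf (nat_lit 0) (nat_lit 57031080280739) (nat_lit 76) (nat_lit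 15924126413717) (nat_lit 76) (nat_lit 15923698864201) (nat_lit 1) (nat_lit 4) (nat_lit 2) (nat_lit 5) (nat_lit 2) (nat_lit 4) (nat_lit 428) (nat_lit 326) (nat_lit 266)))) (XT.nd (nat_lit 78) (nat_lit 0) (nat_lit 0) (XT.lf (nat_lit 0) (nat_lit 65605347222833) (nat_lit 76) (nat_lit 18302224726447) (nat_lit 76) (nat_lit 18301797164208) (nat_lit 1) (nat_lit 4) (nat_lit 2) (nat_lit 5) (nat_lit 2) (nat_lit 4) (nat_lit 429) (nat_lit 326) (nat_lit 265)) (XT.nd (nat_lit 78) (nat_lit 0) (nat_lit 0) (XT.lf (nat_lit 0) (nat_lit 75465753116199) (nat_lit 76) (nat_lit 21037038367474) (nat_lit 76) (nat_lit 21036610794170) (nat_lit 1) (nat_lit 4) (nat_lit 2) (nat_lit 5) (nat_lit 2) (nat_lit 4) (nat_lit 430) (nat_lit 326) (nat_lit 264)) (XT.lf (nat_lit 0) (nat_lit 86805218945707) (nat_lit 76) (nat_lit 24182074560208) (nat_lit 76) (nat_lit 24181646977284) (nat_lit 1) (nat_lit 4) (nat_lit 2) (nat_lit 5) (nat_lit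 2) (nat_lit 4) (nat_lit 431) (nat_lit 326) (nat_lit 263))))) (XT.nd (nat_lit 1872) (nat_lit 0) (nat_lit 0) (XT.nd (nat_lit 78) (nat_lit 0) (nat_lit 0) (XT.lf (nat_lit 0) (nat_lit 99845603825414) (nat_lit 76) (nat_lit 27798866621464) (nat_lit 76) (nat_lit 27798439030173) (nat_lit 1) (nat_lit 4) (nat_lit 2) (nat_lit 5) (nat_lit 2) (nat_lit 4) (nat_lit 432) (nat_lit 326) (nat_lit 262)) (XT.nd (nat_lit 78) (nat_lit 0) (nat_lit 0) (XT.lf (nat_lit 0) (nat_lit 114842045720357) (nat_lit 76) (nat_lit 31958177874179) (nat_lit 76) (nat_lit 31957750275613) (nat_lit 1) (nat_lit 4) (nat_lit 2) (nat_lit 5) (nat_lit 2) (nat_lit 4) (nat_lit 433) (nat_lit 326) (nat_lit 261)) (XT.lf (nat_lit 0) (nat_lit 132087953276306) (nat_lit 76) (nat_lit 36741386147211) (nat_lit 76) (nat_lit 36740958542320) (nat_lit 1) (nat_lit 4) (nat_lit 2) (nat_lit 5) (nat_lit 2) (nat_lit 4) (nat_lit 434) (nat_lit 326) (nat_lit 260))))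 (XT.nd (nat_lit 156) (nat_lit 0) (nat_lit 0) (XT.nd (nat_lit 78) (nat_lit 0) (nat_lit 0) (XT.lf (nat_lit 0) (nat_lit 2861707541560873) (nat_lit 76) (nat_lit 793810450751999) (nat_lit 76) (nat_lit 793810023106883) (nat_lit 1) (nat_lit 4) (nat_lit 2) (nat_lit 5) (nat_lit 2) (nat_lit 4) (nat_lit 456) (nat_lit 326) (nat_lit 238)) (XT.lf (nat_lit 0) (nat_lit 3290983269504919) (nat_lit 76) (nat_lit 912871502083744) (nat_lit 76) (nat_lit 912871074438370) (nat_lit 1) (nat_lit 4) (nat_lit 2) (nat_lit 5) (nat_lit 2) (nat_lit 4) (nat_lit 457) (nat_lit 326) (nat_lit 237))) (XT.nd (nat_lit 78) (nat_lit 0) (nat_lit 0) (XT.lf (nat_lit 0) (nat_lit 3784650356618809) (nat_lit 76) (nat_lit 1049791711126861) (nat_lit 76) (nat_lit 1049791283481254) (nat_lit 1) (nat_lit 4) (nat_lit 2) (nat_lit 5) (nat_lit 2) (nat_lit 4) (nat_lit 458) (nat_lit 326) (nat_lit 236)) (XT.lf (nat_lit 0) (nat_lit 4352367506780835) (nat_lit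 76) (nat_lit 1207249951536542) (nat_lit 76) (nat_lit 1207249523890752) (nat_lit 1) (nat_lit 4) (nat_lit 2) (nat_lit 5) (nat_lit 2) (nat_lit 4) (nat_lit 459) (nat_lit 326) (nat_lit 235))))))) (XT.nd (nat_lit 46722) (nat_lit 0) (nat_lit 0) (XT.nd (nat_lit 46176) (nat_lit 0) (nat_lit 228) (XT.nd (nat_lit 45942) (nat_lit 0) (nat_lit 456) (XT.nd (nat_lit 45786) (nat_lit 0) (nat_lit 684) (XT.lf (nat_lit 0) (nat_lit 5005242229450705) (nat_lit 76) (nat_lit 1388326928016445) (nat_lit 76) (nat_lit 1388326500370486) (nat_lit 1) (nat_lit 4) (nat_lit 2) (nat_lit 5) (nat_lit 2) (nat_lit 4) (nat_lit 460) (nat_lit 326) (nat_lit 234)) (XT.nd (nat_lit 78) (nat_lit 152) (nat_lit 0) (XT.lf (nat_lit 0) (nat_lit 9625720656) (nat_lit 76) (nat_lit 1884475928) (nat_lit 76) (nat_lit 1884475928) (nat_lit 12) (nat_lit 4) (nat_lit 13) (nat_lit 5) (nat_lit 13) (nat_lit 4) (nat_lit 366) (nat_lit 327) (nat_lit 327)) (XT.lf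 (nat_lit 0) (nat_lit 7308700571) (nat_lit 152) (nat_lit 14609331514) (nat_lit 0) (nat_lit 7211140912) (nat_lit 10) (nat_lit 5) (nat_lit 12) (nat_lit 4) (nat_lit 10) (nat_lit 4) (nat_lit 367) (nat_lit 327) (nat_lit 326)))) (XT.nd (nat_lit 78) (nat_lit 152) (nat_lit 0) (XT.lf (nat_lit 0) (nat_lit 7065745111) (nat_lit 76) (nat_lit 12464729944) (nat_lit 76) (nat_lit 12282335799) (nat_lit 9) (nat_lit 4) (nat_lit 10) (nat_lit 5) (nat_lit 10) (nat_lit 4) (nat_lit 368) (nat_lit 327) (nat_lit 325)) (XT.nd (nat_lit 78) (nat_lit 152) (nat_lit 0) (XT.lf (nat_lit 0) (nat_lit 31573948952) (nat_lit 76) (nat_lit 1806023662) (nat_lit 76) (nat_lit 1549860399) (nat_lit 9) (nat_lit 4) (nat_lit 10) (nat_lit 5) (nat_lit 10) (nat_lit 4) (nat_lit 369) (nat_lit 327) (nat_lit 324)) (XT.lf (nat_lit 0) (nat_lit 10262525783) (nat_lit 152) (nat_lit 18136229796) (nat_lit 0) (nat_lit 9983995067) (nat_lit 7) (nat_lit 5)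 (nat_lit 9) (nat_lit 4) (nat_lit 7) (nat_lit 4) (nat_lit 370) (nat_lit 327) (nat_lit 323))))) (XT.nd (nat_lit 234) (nat_lit 76) (nat_lit 0) (XT.nd (nat_lit 78) (nat_lit 76) (nat_lit 0) (XT.lf (nat_lit 0) (nat_lit 3723236914) (nat_lit 76) (nat_lit 19507472983) (nat_lit 76) (nat_lit 19180437875) (nat_lit 6) (nat_lit 4) (nat_lit 7) (nat_lit 5) (nat_lit 7) (nat_lit 4) (nat_lit 371) (nat_lit 327) (nat_lit 322)) (XT.nd (nat_lit 78) (nat_lit 76) (nat_lit 0) (XT.lf (nat_lit 0) (nat_lit 29106084440) (nat_lit 76) (nat_lit 9145415135) (nat_lit 76) (nat_lit 8776202293) (nat_lit 6) (nat_lit 4) (nat_lit 7) (nat_lit 5) (nat_lit 7) (nat_lit 4) (nat_lit 372) (nat_lit 327) (nat_lit 321)) (XT.lf (nat_lit 0) (nat_lit 2423687893) (nat_lit 76) (nat_lit 47894673573) (nat_lit 0) (nat_lit 2070740822) (nat_lit 5) (nat_lit 5) (nat_lit 6) (nat_lit 4) (nat_lit 5) (nat_lit 4) (nat_lit 373) (nat_lit 327) (nat_lit 320))))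 (XT.nd (nat_lit 156) (nat_lit 76) (nat_lit 0) (XT.nd (nat_lit 78) (nat_lit 0) (nat_lit 0) (XT.lf (nat_lit 0) (nat_lit 15057064379) (nat_lit 76) (nat_lit 28660776351) (nat_lit 0) (nat_lit 14676384765) (nat_lit 5) (nat_lit 5) (nat_lit 6) (nat_lit 4) (nat_lit 5) (nat_lit 4) (nat_lit 374) (nat_lit 327) (nat_lit 319)) (XT.lf (nat_lit 0) (nat_lit 28920317647) (nat_lit 76) (nat_lit 7964048554) (nat_lit 0) (nat_lit 28515522777) (nat_lit 5) (nat_lit 5) (nat_lit 6) (nat_lit 4) (nat_lit 5) (nat_lit 4) (nat_lit 375) (nat_lit 327) (nat_lit 318))) (XT.nd (nat_lit 78) (nat_lit 0) (nat_lit 0) (XT.lf (nat_lit 0) (nat_lit 16027307545) (nat_lit 76) (nat_lit 28921034340) (nat_lit 76) (nat_lit 28495269683) (nat_lit 4) (nat_lit 4) (nat_lit 5) (nat_lit 5) (nat_lit 5) (nat_lit 4) (nat_lit 376) (nat_lit 327) (nat_lit 317)) (XT.lf (nat_lit 0) (nat_lit 43331890475) (nat_lit 76) (nat_lit 19913165112) (nat_lit 76) (nat_lit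 19469165857) (nat_lit 4) (nat_lit 4) (nat_lit 5) (nat_lit 5) (nat_lit 5) (nat_lit 4) (nat_lit 377) (nat_lit 327) (nat_lit 316)))))) (XT.nd (nat_lit 546) (nat_lit 76) (nat_lit 0) (XT.nd (nat_lit 234) (nat_lit 0) (nat_lit 0) (XT.nd (nat_lit 78) (nat_lit 152) (nat_lit 0) (XT.lf (nat_lit 0) (nat_lit 73705615591) (nat_lit 76) (nat_lit 10100820135) (nat_lit 76) (nat_lit 9640964707) (nat_lit 4) (nat_lit 4) (nat_lit 5) (nat_lit 5) (nat_lit 5) (nat_lit 4) (nat_lit 378) (nat_lit 327) (nat_lit 315)) (XT.nd (nat_lit 78) (nat_lit 0) (nat_lit 0) (XT.lf (nat_lit 0) (nat_lit 1195725486) (nat_lit 152) (nat_lit 103848324504) (nat_lit 0) (nat_lit 783861657) (nat_lit 2) (nat_lit 5) (nat_lit 4) (nat_lit 4) (nat_lit 2) (nat_lit 4) (nat_lit 379) (nat_lit 327) (nat_lit 314)) (XT.lf (nat_lit 0) (nat_lit 13796178364) (nat_lit 152) (nat_lit 92657772768) (nat_lit 0) (nat_lit 13373888845) (nat_lit 2) (nat_lit 5) (nat_lit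 4) (nat_lit 4) (nat_lit 2) (nat_lit 4) (nat_lit 380) (nat_lit 327) (nat_lit 313)))) (XT.nd (nat_lit 156) (nat_lit 0) (nat_lit 0) (XT.nd (nat_lit 78) (nat_lit 0) (nat_lit 0) (XT.lf (nat_lit 0) (nat_lit 27906891457) (nat_lit 152) (nat_lit 80602302016) (nat_lit 0) (nat_lit 27475536120) (nat_lit 2) (nat_lit 5) (nat_lit 4) (nat_lit 4) (nat_lit 2) (nat_lit 4) (nat_lit 381) (nat_lit 327) (nat_lit 312)) (XT.lf (nat_lit 0) (nat_lit 43803943935) (nat_lit 152) (nat_lit 67446044340) (nat_lit 0) (nat_lit 43364705278) (nat_lit 2) (nat_lit 5) (nat_lit 4) (nat_lit 4) (nat_lit 2) (nat_lit 4) (nat_lit 382) (nat_lit 327) (nat_lit 311))) (XT.nd (nat_lit 78) (nat_lit 0) (nat_lit 0) (XT.lf (nat_lit 0) (nat_lit 61798365085) (nat_lit 152) (nat_lit 52931594700) (nat_lit 0) (nat_lit 61352271367) (nat_lit 2) (nat_lit 5) (nat_lit 4) (nat_lit 4) (nat_lit 2) (nat_lit 4) (nat_lit 383) (nat_lit 327) (nat_lit 310)) (XT.lf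 (nat_lit 0) (nat_lit 82242219669) (nat_lit 152) (nat_lit 36774974733) (nat_lit 0) (nat_lit 81790165029) (nat_lit 2) (nat_lit 5) (nat_lit 4) (nat_lit 4) (nat_lit 2) (nat_lit 4) (nat_lit 384) (nat_lit 327) (nat_lit 309))))) (XT.nd (nat_lit 234) (nat_lit 0) (nat_lit 0) (XT.nd (nat_lit 78) (nat_lit 76) (nat_lit 0) (XT.lf (nat_lit 0) (nat_lit 105535496146) (nat_lit 152) (nat_lit 18660076658) (nat_lit 0) (nat_lit 105078258095) (nat_lit 2) (nat_lit 5) (nat_lit 4) (nat_lit 4) (nat_lit 2) (nat_lit 4) (nat_lit 385) (nat_lit 327) (nat_lit 308)) (XT.nd (nat_lit 78) (nat_lit 0) (nat_lit 0) (XT.lf (nat_lit 0) (nat_lit 1940256495) (nat_lit 76) (nat_lit 130274017922) (nat_lit 76) (nat_lit 129812272558) (nat_lit 1) (nat_lit 4) (nat_lit 2) (nat_lit 5) (nat_lit 2) (nat_lit 4) (nat_lit 386) (nat_lit 327) (nat_lit 307)) (XT.lf (nat_lit 0) (nat_lit 27341631039) (nat_lit 76) (nat_lit 136348460619) (nat_lit 76)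 (nat_lit 135882795851) (nat_lit 1) (nat_lit 4) (nat_lit 2) (nat_lit 5) (nat_lit 2) (nat_lit 4) (nat_lit 387) (nat_lit 327) (nat_lit 306)))) (XT.nd (nat_lit 156) (nat_lit 0) (nat_lit 0) (XT.nd (nat_lit 78) (nat_lit 0) (nat_lit 0) (XT.lf (nat_lit 0) (nat_lit 56217431988) (nat_lit 76) (nat_lit 143513161784) (nat_lit 76) (nat_lit 143044088839) (nat_lit 1) (nat_lit 4) (nat_lit 2) (nat_lit 5) (nat_lit 2) (nat_lit 4) (nat_lit 388) (nat_lit 327) (nat_lit 305)) (XT.lf (nat_lit 0) (nat_lit 89132620664) (nat_lit 76) (nat_lit 151908300353) (nat_lit 76) (nat_lit 151436263777) (nat_lit 1) (nat_lit 4) (nat_lit 2) (nat_lit 5) (nat_lit 2) (nat_lit 4) (nat_lit 389) (nat_lit 327) (nat_lit 304))) (XT.nd (nat_lit 78) (nat_lit 0) (nat_lit 0) (XT.lf (nat_lit 0) (nat_lit 126731189890) (nat_lit 76) (nat_lit 161698129038) (nat_lit 76) (nat_lit 161223515390) (nat_lit 1) (nat_lit 4) (nat_lit 2) (nat_lit 5) (nat_lit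 2) (nat_lit 4) (nat_lit 390) (nat_lit 327) (nat_lit 303)) (XT.lf (nat_lit 0) (nat_lit 169748763846) (nat_lit 76) (nat_lit 173074187964) (nat_lit 76) (nat_lit 172597333385) (nat_lit 1) (nat_lit 4) (nat_lit 2) (nat_lit 5) (nat_lit 2) (nat_lit 4) (nat_lit 391) (nat_lit 327) (nat_lit 302))))))))
noncomputable def xc26 : XT := (XT.nd (nat_lit 2028) (nat_lit 0) (nat_lit 0) (XT.nd (nat_lit 1014) (nat_lit 0) (nat_lit 0) (XT.nd (nat_lit 468) (nat_lit 0) (nat_lit 0) (XT.nd (nat_lit 234) (nat_lit 0) (nat_lit 0) (XT.nd (nat_lit 78) (nat_lit 0) (nat_lit 0) (XT.lf (nat_lit 0) (nat_lit 219026990717) (nat_lit 76) (nat_lit 186259052198) (nat_lit 76) (nat_lit 185780248982) (nat_lit 1) (nat_lit 4) (nat_lit 2) (nat_lit 5) (nat_lit 2) (nat_lit 4) (nat_lit 392) (nat_lit 327) (nat_lit 301)) (XT.nd (nat_lit 78) (nat_lit 0) (nat_lit 0) (XT.lf (nat_lit 0) (nat_lit 275530009727) (nat_lit 76) (nat_lit 201510686474)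 (nat_lit 76) (nat_lit 201030188793) (nat_lit 1) (nat_lit 4) (nat_lit 2) (nat_lit 5) (nat_lit 2) (nat_lit 4) (nat_lit 393) (nat_lit 327) (nat_lit 300)) (XT.lf (nat_lit 0) (nat_lit 340363314724) (nat_lit 76) (nat_lit 219127492334) (nat_lit 76) (nat_lit 218645521203) (nat_lit 1) (nat_lit 4) (nat_lit 2) (nat_lit 5) (nat_lit 2) (nat_lit 4) (nat_lit 394) (nat_lit 327) (nat_lit 299)))) (XT.nd (nat_lit 78) (nat_lit 0) (nat_lit 0) (XT.lf (nat_lit 0) (nat_lit 414795383415) (nat_lit 76) (nat_lit 239454146412) (nat_lit 76) (nat_lit 238970894022) (nat_lit 1) (nat_lit 4) (nat_lit 2) (nat_lit 5) (nat_lit 2) (nat_lit 4) (nat_lit 395) (nat_lit 327) (nat_lit 298)) (XT.nd (nat_lit 78) (nat_lit 0) (nat_lit 0) (XT.lf (nat_lit 0) (nat_lit 500282495405) (nat_lit 76) (nat_lit 262888344116) (nat_lit 76) (nat_lit 262403977587) (nat_lit 1) (nat_lit 4) (nat_lit 2) (nat_lit 5) (nat_lit 2) (nat_lit 4) (nat_lit 396) (nat_lit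 327) (nat_lit 297)) (XT.lf (nat_lit 0) (nat_lit 598497224624) (nat_lit 76) (nat_lit 289888580618) (nat_lit 76) (nat_lit 289403245272) (nat_lit 1) (nat_lit 4) (nat_lit 2) (nat_lit 5) (nat_lit 2) (nat_lit 4) (nat_lit 397) (nat_lit 327) (nat_lit 296))))) (XT.nd (nat_lit 234) (nat_lit 0) (nat_lit 0) (XT.nd (nat_lit 78) (nat_lit 0) (nat_lit 0) (XT.lf (nat_lit 0) (nat_lit 711361163601) (nat_lit 76) (nat_lit 320983121414) (nat_lit 76) (nat_lit 320496943619) (nat_lit 1) (nat_lit 4) (nat_lit 2) (nat_lit 5) (nat_lit 2) (nat_lit 4) (nat_lit 398) (nat_lit 327) (nat_lit 295)) (XT.nd (nat_lit 78) (nat_lit 0) (nat_lit 0) (XT.lf (nat_lit 0) (nat_lit 841082519837) (nat_lit 76) (nat_lit 356780337954) (nat_lit 76) (nat_lit 356293427595) (nat_lit 1) (nat_lit 4) (nat_lit 2) (nat_lit 5) (nat_lit 2) (nat_lit 4) (nat_lit 399) (nat_lit 327) (nat_lit 294)) (XT.lf (nat_lit 0) (nat_lit 990199319867) (nat_lit 76) (nat_lit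 397980610563) (nat_lit 76) (nat_lit 397493063191) (nat_lit 1) (nat_lit 4) (nat_lit 2) (nat_lit 5) (nat_lit 2) (nat_lit 4) (nat_lit 400) (nat_lit 327) (nat_lit 293)))) (XT.nd (nat_lit 156) (nat_lit 0) (nat_lit 0) (XT.nd (nat_lit 78) (nat_lit 0) (nat_lit 0) (XT.lf (nat_lit 0) (nat_lit 1161629066300) (nat_lit 76) (nat_lit 445390031531) (nat_lit 76) (nat_lit 444901930235) (nat_lit 1) (nat_lit 4) (nat_lit 2) (nat_lit 5) (nat_lit 2) (nat_lit 4) (nat_lit 401) (nat_lit 327) (nat_lit 292)) (XT.lf (nat_lit 0) (nat_lit 1358725819393) (nat_lit 76) (nat_lit 499936176485) (nat_lit 76) (nat_lit 499447593515) (nat_lit 1) (nat_lit 4) (nat_lit 2) (nat_lit 5) (nat_lit 2) (nat_lit 4) (nat_lit 402) (nat_lit 327) (nat_lit 291))) (XT.nd (nat_lit 78) (nat_lit 0) (nat_lit 0) (XT.lf (nat_lit 0) (nat_lit 1585345819968) (nat_lit 76) (nat_lit 562686252608) (nat_lit 76) (nat_lit 562197250793) (nat_lit 1) (nat_lit 4)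 (nat_lit 2) (nat_lit 5) (nat_lit 2) (nat_lit 4) (nat_lit 403) (nat_lit 327) (nat_lit 290)) (XT.lf (nat_lit 0) (nat_lit 1845922937600) (nat_lit 76) (nat_lit 634867978783) (nat_lit 76) (nat_lit 634378612754) (nat_lit 1) (nat_lit 4) (nat_lit 2) (nat_lit 5) (nat_lit 2) (nat_lit 4) (nat_lit 404) (nat_lit 327) (nat_lit 289)))))) (XT.nd (nat_lit 468) (nat_lit 0) (nat_lit 0) (XT.nd (nat_lit 234) (nat_lit 0) (nat_lit 0) (XT.nd (nat_lit 78) (nat_lit 0) (nat_lit 0) (XT.lf (nat_lit 0) (nat_lit 2145555420243) (nat_lit 76) (nat_lit 717893606172) (nat_lit 76) (nat_lit 717403923435) (nat_lit 1) (nat_lit 4) (nat_lit 2) (nat_lit 5) (nat_lit 2) (nat_lit 4) (nat_lit 405) (nat_lit 327) (nat_lit 288)) (XT.nd (nat_lit 78) (nat_lit 0) (nat_lit 0) (XT.lf (nat_lit 0) (nat_lit 2490105642558) (nat_lit 76) (nat_lit 813387549226) (nat_lit 76) (nat_lit 812897591090) (nat_lit 1) (nat_lit 4) (nat_lit 2) (nat_lit 5) (nat_lit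 2) (nat_lit 4) (nat_lit 406) (nat_lit 327) (nat_lit 287)) (XT.lf (nat_lit 0) (nat_lit 2886314804546) (nat_lit 76) (nat_lit 923218167698) (nat_lit 76) (nat_lit 922727970087) (nat_lit 1) (nat_lit 4) (nat_lit 2) (nat_lit 5) (nat_lit 2) (nat_lit 4) (nat_lit 407) (nat_lit 327) (nat_lit 286)))) (XT.nd (nat_lit 78) (nat_lit 0) (nat_lit 0) (XT.lf (nat_lit 0) (nat_lit 3341934824595) (nat_lit 76) (nat_lit 1049534321517) (nat_lit 76) (nat_lit 1049043915665) (nat_lit 1) (nat_lit 4) (nat_lit 2) (nat_lit 5) (nat_lit 2) (nat_lit 4) (nat_lit 408) (nat_lit 327) (nat_lit 285)) (XT.nd (nat_lit 78) (nat_lit 0) (nat_lit 0) (XT.lf (nat_lit 0) (nat_lit 3865880007444) (nat_lit 76) (nat_lit 1194807413691) (nat_lit 76) (nat_lit 1194316826760) (nat_lit 1) (nat_lit 4) (nat_lit 2) (nat_lit 5) (nat_lit 2) (nat_lit 4) (nat_lit 409) (nat_lit 327) (nat_lit 284)) (XT.lf (nat_lit 0) (nat_lit 4468401454497) (nat_lit 76) (nat_lit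 1361879743851) (nat_lit 76) (nat_lit 1361388999460) (nat_lit 1) (nat_lit 4) (nat_lit 2) (nat_lit 5) (nat_lit 2) (nat_lit 4) (nat_lit 410) (nat_lit 327) (nat_lit 283))))) (XT.nd (nat_lit 234) (nat_lit 0) (nat_lit 0) (XT.nd (nat_lit 78) (nat_lit 0) (nat_lit 0) (XT.lf (nat_lit 0) (nat_lit 5161287628848) (nat_lit 76) (nat_lit 1554020118454) (nat_lit 76) (nat_lit 1553529237142) (nat_lit 1) (nat_lit 4) (nat_lit 2) (nat_lit 5) (nat_lit 2) (nat_lit 4) (nat_lit 411) (nat_lit 327) (nat_lit 282)) (XT.nd (nat_lit 78) (nat_lit 0) (nat_lit 0) (XT.lf (nat_lit 0) (nat_lit 5958094999127) (nat_lit 76) (nat_lit 1774987805701) (nat_lit 76) (nat_lit 1774496805327) (nat_lit 1) (nat_lit 4) (nat_lit 2) (nat_lit 5) (nat_lit 2) (nat_lit 4) (nat_lit 412) (nat_lit 327) (nat_lit 281)) (XT.lf (nat_lit 0) (nat_lit 6874413274750) (nat_lit 76) (nat_lit 2029106086429) (nat_lit 76) (nat_lit 2028614982522) (nat_lit 1) (nat_lit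 4) (nat_lit 2) (nat_lit 5) (nat_lit 2) (nat_lit 4) (nat_lit 413) (nat_lit 327) (nat_lit 280)))) (XT.nd (nat_lit 156) (nat_lit 0) (nat_lit 0) (XT.nd (nat_lit 78) (nat_lit 0) (nat_lit 0) (XT.lf (nat_lit 0) (nat_lit 7928170421982) (nat_lit 76) (nat_lit 2321346840044) (nat_lit 76) (nat_lit 2320855646108) (nat_lit 1) (nat_lit 4) (nat_lit 2) (nat_lit 5) (nat_lit 2) (nat_lit 4) (nat_lit 414) (nat_lit 327) (nat_lit 279)) (XT.lf (nat_lit 0) (nat_lit 9139983428484) (nat_lit 76) (nat_lit 2657427820419) (nat_lit 76) (nat_lit 2656936548199) (nat_lit 1) (nat_lit 4) (nat_lit 2) (nat_lit 5) (nat_lit 2) (nat_lit 4) (nat_lit 415) (nat_lit 327) (nat_lit 278))) (XT.nd (nat_lit 78) (nat_lit 0) (nat_lit 0) (XT.lf (nat_lit 0) (nat_lit 10533561679167) (nat_lit 76) (nat_lit 3043924524998) (nat_lit 76) (nat_lit 3043433184704) (nat_lit 1) (nat_lit 4) (nat_lit 2) (nat_lit 5) (nat_lit 2) (nat_lit 4) (nat_lit 416) (nat_lit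 327) (nat_lit 277)) (XT.lf (nat_lit 0) (nat_lit 12136170835458) (nat_lit 76) (nat_lit 3488398845827) (nat_lit 76) (nat_lit 3487907446338) (nat_lit 1) (nat_lit 4) (nat_lit 2) (nat_lit 5) (nat_lit 2) (nat_lit 4) (nat_lit 417) (nat_lit 327) (nat_lit 276))))))) (XT.nd (nat_lit 1014) (nat_lit 0) (nat_lit 0) (XT.nd (nat_lit 468) (nat_lit 0) (nat_lit 0) (XT.nd (nat_lit 234) (nat_lit 0) (nat_lit 0) (XT.nd (nat_lit 78) (nat_lit 0) (nat_lit 0) (XT.lf (nat_lit 0) (nat_lit 13979166293891) (nat_lit 76) (nat_lit 3999547019618) (nat_lit 76) (nat_lit 3999055568654) (nat_lit 1) (nat_lit 4) (nat_lit 2) (nat_lit 5) (nat_lit 2) (nat_lit 4) (nat_lit 418) (nat_lit 327) (nat_lit 275)) (XT.nd (nat_lit 78) (nat_lit 0) (nat_lit 0) (XT.lf (nat_lit 0) (nat_lit 16098606661264) (nat_lit 76) (nat_lit 4587369771509) (nat_lit 76) (nat_lit 4586878275786) (nat_lit 1) (nat_lit 4) (nat_lit 2) (nat_lit 5) (nat_lit 2) (nat_lit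 4) (nat_lit 419) (nat_lit 327) (nat_lit 274)) (XT.lf (nat_lit 0) (nat_lit 18535959249110) (nat_lit 76) (nat_lit 5263367981430) (nat_lit 76) (nat_lit 5262876446784) (nat_lit 1) (nat_lit 4) (nat_lit 2) (nat_lit 5) (nat_lit 2) (nat_lit 4) (nat_lit 420) (nat_lit 327) (nat_lit 273)))) (XT.nd (nat_lit 78) (nat_lit 0) (nat_lit 0) (XT.lf (nat_lit 0) (nat_lit 21338911390672) (nat_lit 76) (nat_lit 6040767701313) (nat_lit 76) (nat_lit 6040276132823) (nat_lit 1) (nat_lit 4) (nat_lit 2) (nat_lit 5) (nat_lit 2) (nat_lit 4) (nat_lit 421) (nat_lit 327) (nat_lit 272)) (XT.nd (nat_lit 78) (nat_lit 0) (nat_lit 0) (XT.lf (nat_lit 0) (nat_lit 24562303453935) (nat_lit 76) (nat_lit 6934778925677) (nat_lit 76) (nat_lit 6934287327757) (nat_lit 1) (nat_lit 4) (nat_lit 2) (nat_lit 5) (nat_lit 2) (nat_lit 4) (nat_lit 422) (nat_lit 327) (nat_lit 271)) (XT.lf (nat_lit 0) (nat_lit 28269201805355) (nat_lit 76) (nat_lit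 7962893178479) (nat_lit 76) (nat_lit 7962401554967) (nat_lit 1) (nat_lit 4) (nat_lit 2) (nat_lit 5) (nat_lit 2) (nat_lit 4) (nat_lit 423) (nat_lit 327) (nat_lit 270))))) (XT.nd (nat_lit 234) (nat_lit 0) (nat_lit 0) (XT.nd (nat_lit 78) (nat_lit 0) (nat_lit 0) (XT.lf (nat_lit 0) (nat_lit 32532132717025) (nat_lit 76) (nat_lit 9145225738577) (nat_lit 76) (nat_lit 9144734092811) (nat_lit 1) (nat_lit 4) (nat_lit 2) (nat_lit 5) (nat_lit 2) (nat_lit 4) (nat_lit 424) (nat_lit 327) (nat_lit 269)) (XT.nd (nat_lit 78) (nat_lit 0) (nat_lit 0) (XT.lf (nat_lit 0) (nat_lit 37434501358956) (nat_lit 76) (nat_lit 10504909199538) (nat_lit 76) (nat_lit 10504417534421) (nat_lit 1) (nat_lit 4) (nat_lit 2) (nat_lit 5) (nat_lit 2) (nat_lit 4) (nat_lit 425) (nat_lit 327) (nat_lit 268)) (XT.lf (nat_lit 0) (nat_lit 43072223639359) (nat_lit 76) (nat_lit 12068546063859) (nat_lit 76) (nat_lit 12068054381915) (nat_lit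 1) (nat_lit 4) (nat_lit 2) (nat_lit 5) (nat_lit 2) (nat_lit 4) (nat_lit 426) (nat_lit 327) (nat_lit 267)))) (XT.nd (nat_lit 156) (nat_lit 0) (nat_lit 0) (XT.nd (nat_lit 78) (nat_lit 0) (nat_lit 0) (XT.lf (nat_lit 0) (nat_lit 49555602820244) (nat_lit 76) (nat_lit 13866729226712) (nat_lit 76) (nat_lit 13866237530136) (nat_lit 1) (nat_lit 4) (nat_lit 2) (nat_lit 5) (nat_lit 2) (nat_lit 4) (nat_lit 427) (nat_lit 327) (nat_lit 266)) (XT.lf (nat_lit 0) (nat_lit 57011487624712) (nat_lit 76) (nat_lit 15934640532587) (nat_lit 76) (nat_lit 15934148823288) (nat_lit 1) (nat_lit 4) (nat_lit 2) (nat_lit 5) (nat_lit 2) (nat_lit 4) (nat_lit 428) (nat_lit 327) (nat_lit 265))) (XT.nd (nat_lit 78) (nat_lit 0) (nat_lit 0) (XT.lf (nat_lit 0) (nat_lit 65585754059810) (nat_lit 76) (nat_lit 18312739115730) (nat_lit 76) (nat_lit 18312247395367) (nat_lit 1) (nat_lit 4) (nat_lit 2) (nat_lit 5) (nat_lit 2) (nat_lit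 4) (nat_lit 429) (nat_lit 327) (nat_lit 264)) (XT.lf (nat_lit 0) (nat_lit 75446159512310) (nat_lit 76) (nat_lit 21047552991897) (nat_lit 76) (nat_lit 21047061261914) (nat_lit 1) (nat_lit 4) (nat_lit 2) (nat_lit 5) (nat_lit 2) (nat_lit 4) (nat_lit 430) (nat_lit 327) (nat_lit 263)))))) (XT.nd (nat_lit 47892) (nat_lit 0) (nat_lit 456) (XT.nd (nat_lit 1950) (nat_lit 0) (nat_lit 0) (XT.nd (nat_lit 78) (nat_lit 0) (nat_lit 0) (XT.lf (nat_lit 0) (nat_lit 86785624958456) (nat_lit 76) (nat_lit 24192589389102) (nat_lit 76) (nat_lit 24192097650752) (nat_lit 1) (nat_lit 4) (nat_lit 2) (nat_lit 5) (nat_lit 2) (nat_lit 4) (nat_lit 431) (nat_lit 327) (nat_lit 262)) (XT.nd (nat_lit 78) (nat_lit 0) (nat_lit 0) (XT.lf (nat_lit 0) (nat_lit 99826009504805) (nat_lit 76) (nat_lit 27809381628158) (nat_lit 76) (nat_lit 27808889882533) (nat_lit 1) (nat_lit 4) (nat_lit 2) (nat_lit 5) (nat_lit 2) (nat_lit 4) (nat_lit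 432) (nat_lit 327) (nat_lit 261)) (XT.lf (nat_lit 0) (nat_lit 114822451109871) (nat_lit 76) (nat_lit 31968693035482) (nat_lit 76) (nat_lit 31968201283532) (nat_lit 1) (nat_lit 4) (nat_lit 2) (nat_lit 5) (nat_lit 2) (nat_lit 4) (nat_lit 433) (nat_lit 327) (nat_lit 260)))) (XT.nd (nat_lit 156) (nat_lit 0) (nat_lit 0) (XT.nd (nat_lit 78) (nat_lit 0) (nat_lit 0) (XT.lf (nat_lit 0) (nat_lit 2861687945095510) (nat_lit 76) (nat_lit 793820966902623) (nat_lit 76) (nat_lit 793820475110194) (nat_lit 1) (nat_lit 4) (nat_lit 2) (nat_lit 5) (nat_lit 2) (nat_lit 4) (nat_lit 456) (nat_lit 327) (nat_lit 237)) (XT.lf (nat_lit 0) (nat_lit 3290963673029434) (nat_lit 76) (nat_lit 912882018239764) (nat_lit 76) (nat_lit 912881526447115) (nat_lit 1) (nat_lit 4) (nat_lit 2) (nat_lit 5) (nat_lit 2) (nat_lit 4) (nat_lit 457) (nat_lit 327) (nat_lit 236))) (XT.nd (nat_lit 78) (nat_lit 0) (nat_lit 0) (XT.lf (nat_lit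 0) (nat_lit 3784630760134513) (nat_lit 76) (nat_lit 1049802227287574) (nat_lit 76) (nat_lit 1049801735494734) (nat_lit 1) (nat_lit 4) (nat_lit 2) (nat_lit 5) (nat_lit 2) (nat_lit 4) (nat_lit 458) (nat_lit 327) (nat_lit 235)) (XT.lf (nat_lit 0) (nat_lit 4352347910288889) (nat_lit 76) (nat_lit 1207260467701336) (nat_lit 76) (nat_lit 1207259975908335) (nat_lit 1) (nat_lit 4) (nat_lit 2) (nat_lit 5) (nat_lit 2) (nat_lit 4) (nat_lit 459) (nat_lit 327) (nat_lit 234))))) (XT.nd (nat_lit 234) (nat_lit 380) (nat_lit 0) (XT.nd (nat_lit 78) (nat_lit 76) (nat_lit 0) (XT.lf (nat_lit 0) (nat_lit 258560461) (nat_lit 152) (nat_lit 10903406274) (nat_lit 0) (nat_lit 258560461) (nat_lit 13) (nat_lit 5) (nat_lit 15) (nat_lit 4) (nat_lit 13) (nat_lit 4) (nat_lit 364) (nat_lit 328) (nat_lit 328)) (XT.nd (nat_lit 78) (nat_lit 76) (nat_lit 0) (XT.lf (nat_lit 0) (nat_lit 10893875798) (nat_lit 152) (nat_lit 3041221073)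 (nat_lit 0) (nat_lit 10764853148) (nat_lit 13) (nat_lit 5) (nat_lit 15) (nat_lit 4) (nat_lit 13) (nat_lit 4) (nat_lit 365) (nat_lit 328) (nat_lit 327)) (XT.lf (nat_lit 0) (nat_lit 18295307261) (nat_lit 76) (nat_lit 4401569938) (nat_lit 76) (nat_lit 4160353681) (nat_lit 12) (nat_lit 4) (nat_lit 13) (nat_lit 5) (nat_lit 13) (nat_lit 4) (nat_lit 366) (nat_lit 328) (nat_lit 326)))) (XT.nd (nat_lit 156) (nat_lit 152) (nat_lit 0) (XT.nd (nat_lit 78) (nat_lit 76) (nat_lit 0) (XT.lf (nat_lit 0) (nat_lit 6404395951) (nat_lit 152) (nat_lit 16767451815) (nat_lit 0) (nat_lit 6109808198) (nat_lit 10) (nat_lit 5) (nat_lit 12) (nat_lit 4) (nat_lit 10) (nat_lit 4) (nat_lit 367) (nat_lit 328) (nat_lit 325)) (XT.lf (nat_lit 0) (nat_lit 3738566937) (nat_lit 76) (nat_lit 14338710516) (nat_lit 76) (nat_lit 13970353645) (nat_lit 9) (nat_lit 4) (nat_lit 10) (nat_lit 5) (nat_lit 10) (nat_lit 4) (nat_lit 368) (nat_lit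 328) (nat_lit 324))) (XT.nd (nat_lit 78) (nat_lit 152) (nat_lit 0) (XT.lf (nat_lit 0) (nat_lit 27413596289) (nat_lit 76) (nat_lit 4121181675) (nat_lit 76) (nat_lit 3688677744) (nat_lit 9) (nat_lit 4) (nat_lit 10) (nat_lit 5) (nat_lit 10) (nat_lit 4) (nat_lit 369) (nat_lit 328) (nat_lit 323)) (XT.lf (nat_lit 0) (nat_lit 7596239605) (nat_lit 152) (nat_lit 24029457841) (nat_lit 0) (nat_lit 7171644837) (nat_lit 7) (nat_lit 5) (nat_lit 9) (nat_lit 4) (nat_lit 7) (nat_lit 4) (nat_lit 370) (nat_lit 328) (nat_lit 322))))))))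
noncomputable def xc27 : XT := (XT.nd (nat_lit 2106) (nat_lit 0) (nat_lit 0) (XT.nd (nat_lit 1014) (nat_lit 76) (nat_lit 0) (XT.nd (nat_lit 468) (nat_lit 152) (nat_lit 0) (XT.nd (nat_lit 234) (nat_lit 152) (nat_lit 0) (XT.nd (nat_lit 78) (nat_lit 76) (nat_lit 0) (XT.lf (nat_lit 0) (nat_lit 20053799095) (nat_lit 152) (nat_lit 3261509316) (nat_lit 0) (nat_lit 19587026595) (nat_lit 7) (nat_lit 5) (nat_lit 9) (nat_lit 4) (nat_lit 7) (nat_lit 4) (nat_lit 371) (nat_lit 328) (nat_lit 321)) (XT.nd (nat_lit 78) (nat_lit 0) (nat_lit 0) (XT.lf (nat_lit 0) (nat_lit 21077097630) (nat_lit 76) (nat_lit 13509239809) (nat_lit 76) (nat_lit 13005791019) (nat_lit 6) (nat_lit 4) (nat_lit 7) (nat_lit 5) (nat_lit 7) (nat_lit 4) (nat_lit 372) (nat_lit 328) (nat_lit 320)) (XT.lf (nat_lit 0) (nat_lit 48076671174) (nat_lit 76) (nat_lit 2756919473) (nat_lit 76) (nat_lit 2221578257) (nat_lit 6) (nat_lit 4) (nat_lit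 7) (nat_lit 5) (nat_lit 7) (nat_lit 4) (nat_lit 373) (nat_lit 328) (nat_lit 319)))) (XT.nd (nat_lit 78) (nat_lit 76) (nat_lit 0) (XT.lf (nat_lit 0) (nat_lit 9948986363) (nat_lit 76) (nat_lit 39764837271) (nat_lit 0) (nat_lit 9459357007) (nat_lit 5) (nat_lit 5) (nat_lit 6) (nat_lit 4) (nat_lit 5) (nat_lit 4) (nat_lit 374) (nat_lit 328) (nat_lit 318)) (XT.nd (nat_lit 78) (nat_lit 76) (nat_lit 0) (XT.lf (nat_lit 0) (nat_lit 23543228633) (nat_lit 76) (nat_lit 19643338597) (nat_lit 0) (nat_lit 23032629489) (nat_lit 5) (nat_lit 5) (nat_lit 6) (nat_lit 4) (nat_lit 5) (nat_lit 4) (nat_lit 375) (nat_lit 328) (nat_lit 317)) (XT.lf (nat_lit 0) (nat_lit 2657549993) (nat_lit 76) (nat_lit 36126167123) (nat_lit 76) (nat_lit 35597333381) (nat_lit 4) (nat_lit 4) (nat_lit 5) (nat_lit 5) (nat_lit 5) (nat_lit 4) (nat_lit 376) (nat_lit 328) (nat_lit 316))))) (XT.nd (nat_lit 234) (nat_lit 152) (nat_lit 0) (XT.nd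 (nat_lit 78) (nat_lit 0) (nat_lit 0) (XT.lf (nat_lit 0) (nat_lit 29484670015) (nat_lit 76) (nat_lit 27372579120) (nat_lit 76) (nat_lit 26827889206) (nat_lit 4) (nat_lit 4) (nat_lit 5) (nat_lit 5) (nat_lit 5) (nat_lit 4) (nat_lit 377) (nat_lit 328) (nat_lit 315)) (XT.nd (nat_lit 78) (nat_lit 0) (nat_lit 0) (XT.lf (nat_lit 0) (nat_lit 59443209992) (nat_lit 76) (nat_lit 17781348252) (nat_lit 76) (nat_lit 17222870363) (nat_lit 4) (nat_lit 4) (nat_lit 5) (nat_lit 5) (nat_lit 5) (nat_lit 4) (nat_lit 378) (nat_lit 328) (nat_lit 314)) (XT.lf (nat_lit 0) (nat_lit 93119315274) (nat_lit 76) (nat_lit 7164820001) (nat_lit 76) (nat_lit 6594352568) (nat_lit 4) (nat_lit 4) (nat_lit 5) (nat_lit 5) (nat_lit 5) (nat_lit 4) (nat_lit 379) (nat_lit 328) (nat_lit 313)))) (XT.nd (nat_lit 156) (nat_lit 0) (nat_lit 0) (XT.nd (nat_lit 78) (nat_lit 0) (nat_lit 0) (XT.lf (nat_lit 0) (nat_lit 5464641813) (nat_lit 152)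 (nat_lit 110664496127) (nat_lit 0) (nat_lit 4959517357) (nat_lit 2) (nat_lit 5) (nat_lit 4) (nat_lit 4) (nat_lit 2) (nat_lit 4) (nat_lit 380) (nat_lit 328) (nat_lit 312)) (XT.lf (nat_lit 0) (nat_lit 19421742078) (nat_lit 152) (nat_lit 98938110812) (nat_lit 0) (nat_lit 18908734303) (nat_lit 2) (nat_lit 5) (nat_lit 4) (nat_lit 4) (nat_lit 2) (nat_lit 4) (nat_lit 381) (nat_lit 328) (nat_lit 311))) (XT.nd (nat_lit 78) (nat_lit 0) (nat_lit 0) (XT.lf (nat_lit 0) (nat_lit 35185218184) (nat_lit 152) (nat_lit 86068014386) (nat_lit 0) (nat_lit 34665355348) (nat_lit 2) (nat_lit 5) (nat_lit 4) (nat_lit 4) (nat_lit 2) (nat_lit 4) (nat_lit 382) (nat_lit 328) (nat_lit 310)) (XT.lf (nat_lit 0) (nat_lit 53063485968) (nat_lit 152) (nat_lit 71802400615) (nat_lit 0) (nat_lit 52537662209) (nat_lit 2) (nat_lit 5) (nat_lit 4) (nat_lit 4) (nat_lit 2) (nat_lit 4) (nat_lit 383) (nat_lit 328) (nat_lit 309)))))) (XT.nd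 (nat_lit 546) (nat_lit 0) (nat_lit 0) (XT.nd (nat_lit 234) (nat_lit 76) (nat_lit 0) (XT.nd (nat_lit 78) (nat_lit 0) (nat_lit 0) (XT.lf (nat_lit 0) (nat_lit 73406337624) (nat_lit 152) (nat_lit 55862159665) (nat_lit 0) (nat_lit 72875330454) (nat_lit 2) (nat_lit 5) (nat_lit 4) (nat_lit 4) (nat_lit 2) (nat_lit 4) (nat_lit 384) (nat_lit 328) (nat_lit 308)) (XT.nd (nat_lit 78) (nat_lit 0) (nat_lit 0) (XT.lf (nat_lit 0) (nat_lit 96611785468) (nat_lit 152) (nat_lit 37935417256) (nat_lit 0) (nat_lit 96076270985) (nat_lit 2) (nat_lit 5) (nat_lit 4) (nat_lit 4) (nat_lit 2) (nat_lit 4) (nat_lit 385) (nat_lit 328) (nat_lit 307)) (XT.lf (nat_lit 0) (nat_lit 123133849132) (nat_lit 152) (nat_lit 17671432776) (nat_lit 0) (nat_lit 122594415246) (nat_lit 2) (nat_lit 5) (nat_lit 4) (nat_lit 4) (nat_lit 2) (nat_lit 4) (nat_lit 386) (nat_lit 328) (nat_lit 306)))) (XT.nd (nat_lit 156) (nat_lit 0) (nat_lit 0) (XT.nd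 (nat_lit 78) (nat_lit 0) (nat_lit 0) (XT.lf (nat_lit 0) (nat_lit 5846784196) (nat_lit 76) (nat_lit 147886757226) (nat_lit 76) (nat_lit 147343915163) (nat_lit 1) (nat_lit 4) (nat_lit 2) (nat_lit 5) (nat_lit 2) (nat_lit 4) (nat_lit 387) (nat_lit 328) (nat_lit 305)) (XT.lf (nat_lit 0) (nat_lit 34586779370) (nat_lit 76) (nat_lit 155123891986) (nat_lit 76) (nat_lit 154578086291) (nat_lit 1) (nat_lit 4) (nat_lit 2) (nat_lit 5) (nat_lit 2) (nat_lit 4) (nat_lit 388) (nat_lit 328) (nat_lit 304))) (XT.nd (nat_lit 78) (nat_lit 0) (nat_lit 0) (XT.lf (nat_lit 0) (nat_lit 67383876069) (nat_lit 76) (nat_lit 163582016290) (nat_lit 76) (nat_lit 163033633524) (nat_lit 1) (nat_lit 4) (nat_lit 2) (nat_lit 5) (nat_lit 2) (nat_lit 4) (nat_lit 389) (nat_lit 328) (nat_lit 303)) (XT.lf (nat_lit 0) (nat_lit 104879756618) (nat_lit 76) (nat_lit 173426615179) (nat_lit 76) (nat_lit 172875991481) (nat_lit 1) (nat_lit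 4) (nat_lit 2) (nat_lit 5) (nat_lit 2) (nat_lit 4) (nat_lit 390) (nat_lit 328) (nat_lit 302))))) (XT.nd (nat_lit 234) (nat_lit 0) (nat_lit 0) (XT.nd (nat_lit 78) (nat_lit 0) (nat_lit 0) (XT.lf (nat_lit 0) (nat_lit 147808036073) (nat_lit 76) (nat_lit 184850300369) (nat_lit 76) (nat_lit 184297728036) (nat_lit 1) (nat_lit 4) (nat_lit 2) (nat_lit 5) (nat_lit 2) (nat_lit 4) (nat_lit 391) (nat_lit 328) (nat_lit 301)) (XT.nd (nat_lit 78) (nat_lit 0) (nat_lit 0) (XT.lf (nat_lit 0) (nat_lit 197008615552) (nat_lit 76) (nat_lit 198076578746) (nat_lit 76) (nat_lit 197522311946) (nat_lit 1) (nat_lit 4) (nat_lit 2) (nat_lit 5) (nat_lit 2) (nat_lit 4) (nat_lit 392) (nat_lit 328) (nat_lit 300)) (XT.lf (nat_lit 0) (nat_lit 253444115090) (nat_lit 76) (nat_lit 213364225321) (nat_lit 76) (nat_lit 212808485072) (nat_lit 1) (nat_lit 4) (nat_lit 2) (nat_lit 5) (nat_lit 2) (nat_lit 4) (nat_lit 393) (nat_lit 328)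 (nat_lit 299)))) (XT.nd (nat_lit 156) (nat_lit 0) (nat_lit 0) (XT.nd (nat_lit 78) (nat_lit 0) (nat_lit 0) (XT.lf (nat_lit 0) (nat_lit 318218707503) (nat_lit 76) (nat_lit 231012346223) (nat_lit 76) (nat_lit 230455324714) (nat_lit 1) (nat_lit 4) (nat_lit 2) (nat_lit 5) (nat_lit 2) (nat_lit 4) (nat_lit 394) (nat_lit 328) (nat_lit 298)) (XT.lf (nat_lit 0) (nat_lit 392599721774) (nat_lit 76) (nat_lit 251366230773) (nat_lit 76) (nat_lit 250808095125) (nat_lit 1) (nat_lit 4) (nat_lit 2) (nat_lit 5) (nat_lit 2) (nat_lit 4) (nat_lit 395) (nat_lit 328) (nat_lit 297))) (XT.nd (nat_lit 78) (nat_lit 0) (nat_lit 0) (XT.lf (nat_lit 0) (nat_lit 478042438615) (nat_lit 76) (nat_lit 274824107147) (nat_lit 76) (nat_lit 274265002683) (nat_lit 1) (nat_lit 4) (nat_lit 2) (nat_lit 5) (nat_lit 2) (nat_lit 4) (nat_lit 396) (nat_lit 328) (nat_lit 296)) (XT.lf (nat_lit 0) (nat_lit 576218563358) (nat_lit 76) (nat_lit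 301844933797) (nat_lit 76) (nat_lit 301284986884) (nat_lit 1) (nat_lit 4) (nat_lit 2) (nat_lit 5) (nat_lit 2) (nat_lit 4) (nat_lit 397) (nat_lit 328) (nat_lit 295))))))) (XT.nd (nat_lit 1014) (nat_lit 0) (nat_lit 0) (XT.nd (nat_lit 468) (nat_lit 0) (nat_lit 0) (XT.nd (nat_lit 234) (nat_lit 0) (nat_lit 0) (XT.nd (nat_lit 78) (nat_lit 0) (nat_lit 0) (XT.lf (nat_lit 0) (nat_lit 689048933224) (nat_lit 76) (nat_lit 332957379070) (nat_lit 76) (nat_lit 332396699592) (nat_lit 1) (nat_lit 4) (nat_lit 2) (nat_lit 5) (nat_lit 2) (nat_lit 4) (nat_lit 398) (nat_lit 328) (nat_lit 294)) (XT.nd (nat_lit 78) (nat_lit 0) (nat_lit 0) (XT.lf (nat_lit 0) (nat_lit 818741098929) (nat_lit 76) (nat_lit 368770164721) (nat_lit 76) (nat_lit 368208848231) (nat_lit 1) (nat_lit 4) (nat_lit 2) (nat_lit 5) (nat_lit 2) (nat_lit 4) (nat_lit 399) (nat_lit 328) (nat_lit 293)) (XT.lf (nat_lit 0) (nat_lit 967832515889) (nat_lit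 76) (nat_lit 409983975687) (nat_lit 76) (nat_lit 409422105272) (nat_lit 1) (nat_lit 4) (nat_lit 2) (nat_lit 5) (nat_lit 2) (nat_lit 4) (nat_lit 400) (nat_lit 328) (nat_lit 292)))) (XT.nd (nat_lit 78) (nat_lit 0) (nat_lit 0) (XT.lf (nat_lit 0) (nat_lit 1139240190087) (nat_lit 76) (nat_lit 457405169139) (nat_lit 76) (nat_lit 456842817051) (nat_lit 1) (nat_lit 4) (nat_lit 2) (nat_lit 5) (nat_lit 2) (nat_lit 4) (nat_lit 401) (nat_lit 328) (nat_lit 291)) (XT.nd (nat_lit 78) (nat_lit 0) (nat_lit 0) (XT.lf (nat_lit 0) (nat_lit 1336317749933) (nat_lit 76) (nat_lit 511961551035) (nat_lit 76) (nat_lit 511398780101) (nat_lit 1) (nat_lit 4) (nat_lit 2) (nat_lit 5) (nat_lit 2) (nat_lit 4) (nat_lit 402) (nat_lit 328) (nat_lit 290)) (XT.lf (nat_lit 0) (nat_lit 1562921060726) (nat_lit 76) (nat_lit 574720528848) (nat_lit 76) (nat_lit 574157393701) (nat_lit 1) (nat_lit 4) (nat_lit 2) (nat_lit 5) (nat_lit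 2) (nat_lit 4) (nat_lit 403) (nat_lit 328) (nat_lit 289))))) (XT.nd (nat_lit 234) (nat_lit 0) (nat_lit 0) (XT.nd (nat_lit 78) (nat_lit 0) (nat_lit 0) (XT.lf (nat_lit 0) (nat_lit 1823483665505) (nat_lit 76) (nat_lit 646909995622) (nat_lit 76) (nat_lit 646346543767) (nat_lit 1) (nat_lit 4) (nat_lit 2) (nat_lit 5) (nat_lit 2) (nat_lit 4) (nat_lit 404) (nat_lit 328) (nat_lit 288)) (XT.nd (nat_lit 78) (nat_lit 0) (nat_lit 0) (XT.lf (nat_lit 0) (nat_lit 2123103528277) (nat_lit 76) (nat_lit 729942353968) (nat_lit 76) (nat_lit 729378626714) (nat_lit 1) (nat_lit 4) (nat_lit 2) (nat_lit 5) (nat_lit 2) (nat_lit 4) (nat_lit 405) (nat_lit 328) (nat_lit 287)) (XT.lf (nat_lit 0) (nat_lit 2467642776790) (nat_lit 76) (nat_lit 825442150026) (nat_lit 76) (nat_lit 824878183296) (nat_lit 1) (nat_lit 4) (nat_lit 2) (nat_lit 5) (nat_lit 2) (nat_lit 4) (nat_lit 406) (nat_lit 328) (nat_lit 286)))) (XT.nd (nat_lit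 156) (nat_lit 0) (nat_lit 0) (XT.nd (nat_lit 78) (nat_lit 0) (nat_lit 0) (XT.lf (nat_lit 0) (nat_lit 2863842396342) (nat_lit 76) (nat_lit 935277858069) (nat_lit 76) (nat_lit 934713683098) (nat_lit 1) (nat_lit 4) (nat_lit 2) (nat_lit 5) (nat_lit 2) (nat_lit 4) (nat_lit 407) (nat_lit 328) (nat_lit 285)) (XT.lf (nat_lit 0) (nat_lit 3319454118620) (nat_lit 76) (nat_lit 1061598437601) (nat_lit 76) (nat_lit 1061034081551) (nat_lit 1) (nat_lit 4) (nat_lit 2) (nat_lit 5) (nat_lit 2) (nat_lit 4) (nat_lit 408) (nat_lit 328) (nat_lit 284))) (XT.nd (nat_lit 78) (nat_lit 0) (nat_lit 0) (XT.lf (nat_lit 0) (nat_lit 3843392086016) (nat_lit 76) (nat_lit 1206875378221) (nat_lit 76) (nat_lit 1206310864711) (nat_lit 1) (nat_lit 4) (nat_lit 2) (nat_lit 5) (nat_lit 2) (nat_lit 4) (nat_lit 409) (nat_lit 328) (nat_lit 283)) (XT.lf (nat_lit 0) (nat_lit 4445907258762) (nat_lit 76) (nat_lit 1373951054855) (nat_lit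 76) (nat_lit 1373386404424) (nat_lit 1) (nat_lit 4) (nat_lit 2) (nat_lit 5) (nat_lit 2) (nat_lit 4) (nat_lit 410) (nat_lit 328) (nat_lit 282)))))) (XT.nd (nat_lit 546) (nat_lit 0) (nat_lit 0) (XT.nd (nat_lit 234) (nat_lit 0) (nat_lit 0) (XT.nd (nat_lit 78) (nat_lit 0) (nat_lit 0) (XT.lf (nat_lit 0) (nat_lit 5138787977195) (nat_lit 76) (nat_lit 1566094339436) (nat_lit 76) (nat_lit 1565529569943) (nat_lit 1) (nat_lit 4) (nat_lit 2) (nat_lit 5) (nat_lit 2) (nat_lit 4) (nat_lit 411) (nat_lit 328) (nat_lit 281)) (XT.nd (nat_lit 78) (nat_lit 0) (nat_lit 0) (XT.lf (nat_lit 0) (nat_lit 5935590603196) (nat_lit 76) (nat_lit 1787064557099) (nat_lit 76) (nat_lit 1786499684074) (nat_lit 1) (nat_lit 4) (nat_lit 2) (nat_lit 5) (nat_lit 2) (nat_lit 4) (nat_lit 412) (nat_lit 328) (nat_lit 280)) (XT.lf (nat_lit 0) (nat_lit 6851904753361) (nat_lit 76) (nat_lit 2041185038189) (nat_lit 76) (nat_lit 2040620075135)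 (nat_lit 1) (nat_lit 4) (nat_lit 2) (nat_lit 5) (nat_lit 2) (nat_lit 4) (nat_lit 413) (nat_lit 328) (nat_lit 279)))) (XT.nd (nat_lit 156) (nat_lit 0) (nat_lit 0) (XT.nd (nat_lit 78) (nat_lit 0) (nat_lit 0) (XT.lf (nat_lit 0) (nat_lit 7905658313237) (nat_lit 76) (nat_lit 2333427705161) (nat_lit 76) (nat_lit 2332862663822) (nat_lit 1) (nat_lit 4) (nat_lit 2) (nat_lit 5) (nat_lit 2) (nat_lit 4) (nat_lit 414) (nat_lit 328) (nat_lit 278)) (XT.lf (nat_lit 0) (nat_lit 9117468200300) (nat_lit 76) (nat_lit 2669510349326) (nat_lit 76) (nat_lit 2668945239913) (nat_lit 1) (nat_lit 4) (nat_lit 2) (nat_lit 5) (nat_lit 2) (nat_lit 4) (nat_lit 415) (nat_lit 328) (nat_lit 277))) (XT.nd (nat_lit 78) (nat_lit 0) (nat_lit 0) (XT.lf (nat_lit 0) (nat_lit 10511043738427) (nat_lit 76) (nat_lit 3056008500678) (nat_lit 76) (nat_lit 3055443332070) (nat_lit 1) (nat_lit 4) (nat_lit 2) (nat_lit 5) (nat_lit 2) (nat_lit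 4) (nat_lit 416) (nat_lit 328) (nat_lit 276)) (XT.lf (nat_lit 0) (nat_lit 12113650535973) (nat_lit 76) (nat_lit 3500484079571) (nat_lit 76) (nat_lit 3499918859489) (nat_lit 1) (nat_lit 4) (nat_lit 2) (nat_lit 5) (nat_lit 2) (nat_lit 4) (nat_lit 417) (nat_lit 328) (nat_lit 275))))) (XT.nd (nat_lit 234) (nat_lit 0) (nat_lit 0) (XT.nd (nat_lit 78) (nat_lit 0) (nat_lit 0) (XT.lf (nat_lit 0) (nat_lit 13956643943325) (nat_lit 76) (nat_lit 4011633347330) (nat_lit 76) (nat_lit 4011068082488) (nat_lit 1) (nat_lit 4) (nat_lit 2) (nat_lit 5) (nat_lit 2) (nat_lit 4) (nat_lit 418) (nat_lit 328) (nat_lit 274)) (XT.nd (nat_lit 78) (nat_lit 0) (nat_lit 0) (XT.lf (nat_lit 0) (nat_lit 16076082527148) (nat_lit 76) (nat_lit 4599457050498) (nat_lit 76) (nat_lit 4598891746735) (nat_lit 1) (nat_lit 4) (nat_lit 2) (nat_lit 5) (nat_lit 2) (nat_lit 4) (nat_lit 419) (nat_lit 328) (nat_lit 273)) (XT.lf (nat_lit 0)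 (nat_lit 18513433564082) (nat_lit 76) (nat_lit 5275456087616) (nat_lit 76) (nat_lit 5274890750008) (nat_lit 1) (nat_lit 4) (nat_lit 2) (nat_lit 5) (nat_lit 2) (nat_lit 4) (nat_lit 420) (nat_lit 328) (nat_lit 272)))) (XT.nd (nat_lit 156) (nat_lit 0) (nat_lit 0) (XT.nd (nat_lit 78) (nat_lit 0) (nat_lit 0) (XT.lf (nat_lit 0) (nat_lit 21316384357023) (nat_lit 76) (nat_lit 6052856526801) (nat_lit 76) (nat_lit 6052291159762) (nat_lit 1) (nat_lit 4) (nat_lit 2) (nat_lit 5) (nat_lit 2) (nat_lit 4) (nat_lit 421) (nat_lit 328) (nat_lit 271)) (XT.lf (nat_lit 0) (nat_lit 24539775247574) (nat_lit 76) (nat_lit 6946868376646) (nat_lit 76) (nat_lit 6946302984016) (nat_lit 1) (nat_lit 4) (nat_lit 2) (nat_lit 5) (nat_lit 2) (nat_lit 4) (nat_lit 422) (nat_lit 328) (nat_lit 270))) (XT.nd (nat_lit 78) (nat_lit 0) (nat_lit 0) (XT.lf (nat_lit 0) (nat_lit 28246672579243) (nat_lit 76) (nat_lit 7974983173343) (nat_lit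 76) (nat_lit 7974417758460) (nat_lit 1) (nat_lit 4) (nat_lit 2) (nat_lit 5) (nat_lit 2) (nat_lit 4) (nat_lit 423) (nat_lit 328) (nat_lit 269)) (XT.lf (nat_lit 0) (nat_lit 32509602604174) (nat_lit 76) (nat_lit 9157316206394) (nat_lit 76) (nat_lit 9156750772159) (nat_lit 1) (nat_lit 4) (nat_lit 2) (nat_lit 5) (nat_lit 2) (nat_lit 4) (nat_lit 424) (nat_lit 328) (nat_lit 268))))))))
noncomputable def xc28 : XT := (XT.nd (nat_lit 49530) (nat_lit 0) (nat_lit 0) (XT.nd (nat_lit 48516) (nat_lit 0) (nat_lit 228) (XT.nd (nat_lit 468) (nat_lit 0) (nat_lit 0) (XT.nd (nat_lit 234) (nat_lit 0) (nat_lit 0) (XT.nd (nat_lit 78) (nat_lit 0) (nat_lit 0) (XT.lf (nat_lit 0) (nat_lit 37411970475027) (nat_lit 76) (nat_lit 10517000078618) (nat_lit 76) (nat_lit 10516434627556) (nat_lit 1) (nat_lit 4) (nat_lit 2) (nat_lit 5) (nat_lit 2) (nat_lit 4) (nat_lit 425) (nat_lit 328) (nat_lit 267)) (XT.nd (nat_lit 78) (nat_lit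 0) (nat_lit 0) (XT.lf (nat_lit 0) (nat_lit 43049692084929) (nat_lit 76) (nat_lit 12080637300560) (nat_lit 76) (nat_lit 12080071834866) (nat_lit 1) (nat_lit 4) (nat_lit 2) (nat_lit 5) (nat_lit 2) (nat_lit 4) (nat_lit 426) (nat_lit 328) (nat_lit 266)) (XT.lf (nat_lit 0) (nat_lit 49533070682767) (nat_lit 76) (nat_lit 13878820774387) (nat_lit 76) (nat_lit 13878255295969) (nat_lit 1) (nat_lit 4) (nat_lit 2) (nat_lit 5) (nat_lit 2) (nat_lit 4) (nat_lit 427) (nat_lit 328) (nat_lit 265)))) (XT.nd (nat_lit 78) (nat_lit 0) (nat_lit 0) (XT.lf (nat_lit 0) (nat_lit 56988954980240) (nat_lit 76) (nat_lit 15946732350674) (nat_lit 76) (nat_lit 15946166861193) (nat_lit 1) (nat_lit 4) (nat_lit 2) (nat_lit 5) (nat_lit 2) (nat_lit 4) (nat_lit 428) (nat_lit 328) (nat_lit 264)) (XT.nd (nat_lit 78) (nat_lit 0) (nat_lit 0) (XT.lf (nat_lit 0) (nat_lit 65563220974471) (nat_lit 76) (nat_lit 18324831168958) (nat_lit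 76) (nat_lit 18324265669856) (nat_lit 1) (nat_lit 4) (nat_lit 2) (nat_lit 5) (nat_lit 2) (nat_lit 4) (nat_lit 429) (nat_lit 328) (nat_lit 263)) (XT.lf (nat_lit 0) (nat_lit 75423626043609) (nat_lit 76) (nat_lit 21059645249596) (nat_lit 76) (nat_lit 21059079742128) (nat_lit 1) (nat_lit 4) (nat_lit 2) (nat_lit 5) (nat_lit 2) (nat_lit 4) (nat_lit 430) (nat_lit 328) (nat_lit 262))))) (XT.nd (nat_lit 47736) (nat_lit 0) (nat_lit 912) (XT.nd (nat_lit 78) (nat_lit 0) (nat_lit 0) (XT.lf (nat_lit 0) (nat_lit 86763091156398) (nat_lit 76) (nat_lit 24204681824601) (nat_lit 76) (nat_lit 24204116309858) (nat_lit 1) (nat_lit 4) (nat_lit 2) (nat_lit 5) (nat_lit 2) (nat_lit 4) (nat_lit 431) (nat_lit 328) (nat_lit 261)) (XT.nd (nat_lit 78) (nat_lit 0) (nat_lit 0) (XT.lf (nat_lit 0) (nat_lit 99803475412870) (nat_lit 76) (nat_lit 27821474218267) (nat_lit 76) (nat_lit 27820908697198) (nat_lit 1) (nat_lit 4) (nat_lit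 2) (nat_lit 5) (nat_lit 2) (nat_lit 4) (nat_lit 432) (nat_lit 328) (nat_lit 260)) (XT.lf (nat_lit 0) (nat_lit 114799916765869) (nat_lit 76) (nat_lit 31980785760033) (nat_lit 76) (nat_lit 31980220233464) (nat_lit 1) (nat_lit 4) (nat_lit 2) (nat_lit 5) (nat_lit 2) (nat_lit 4) (nat_lit 433) (nat_lit 328) (nat_lit 259)))) (XT.nd (nat_lit 156) (nat_lit 152) (nat_lit 0) (XT.nd (nat_lit 78) (nat_lit 76) (nat_lit 0) (XT.lf (nat_lit 0) (nat_lit 1400813159) (nat_lit 152) (nat_lit 6986607350) (nat_lit 0) (nat_lit 1400813159) (nat_lit 16) (nat_lit 5) (nat_lit 18) (nat_lit 4) (nat_lit 16) (nat_lit 4) (nat_lit 362) (nat_lit 329) (nat_lit 329)) (XT.lf (nat_lit 0) (nat_lit 3327879119) (nat_lit 76) (nat_lit 8981481819) (nat_lit 76) (nat_lit 8810849365) (nat_lit 15) (nat_lit 4) (nat_lit 16) (nat_lit 5) (nat_lit 16) (nat_lit 4) (nat_lit 363) (nat_lit 329) (nat_lit 328))) (XT.nd (nat_lit 78) (nat_lit 0) (nat_lit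 0) (XT.lf (nat_lit 0) (nat_lit 99280009) (nat_lit 76) (nat_lit 95272785) (nat_lit 152) (nat_lit 22717149049) (nat_lit 13) (nat_lit 5) (nat_lit 14) (nat_lit 5) (nat_lit 15) (nat_lit 4) (nat_lit 364) (nat_lit 329) (nat_lit 327)) (XT.lf (nat_lit 0) (nat_lit 10154415481) (nat_lit 152) (nat_lit 4913897702) (nat_lit 0) (nat_lit 9764823178) (nat_lit 13) (nat_lit 5) (nat_lit 15) (nat_lit 4) (nat_lit 13) (nat_lit 4) (nat_lit 365) (nat_lit 329) (nat_lit 326)))))) (XT.nd (nat_lit 468) (nat_lit 228) (nat_lit 0) (XT.nd (nat_lit 234) (nat_lit 228) (nat_lit 0) (XT.nd (nat_lit 78) (nat_lit 152) (nat_lit 0) (XT.lf (nat_lit 0) (nat_lit 15408198139) (nat_lit 76) (nat_lit 6070585238) (nat_lit 76) (nat_lit 5583433275) (nat_lit 12) (nat_lit 4) (nat_lit 13) (nat_lit 5) (nat_lit 13) (nat_lit 4) (nat_lit 366) (nat_lit 329) (nat_lit 325)) (XT.nd (nat_lit 78) (nat_lit 0) (nat_lit 0) (XT.lf (nat_lit 0) (nat_lit 4480534136)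 (nat_lit 152) (nat_lit 21125916509) (nat_lit 0) (nat_lit 3983154615) (nat_lit 10) (nat_lit 5) (nat_lit 12) (nat_lit 4) (nat_lit 10) (nat_lit 4) (nat_lit 367) (nat_lit 329) (nat_lit 324)) (XT.lf (nat_lit 0) (nat_lit 15641112485) (nat_lit 152) (nat_lit 1711730371) (nat_lit 0) (nat_lit 15079585905) (nat_lit 10) (nat_lit 5) (nat_lit 12) (nat_lit 4) (nat_lit 10) (nat_lit 4) (nat_lit 368) (nat_lit 329) (nat_lit 323)))) (XT.nd (nat_lit 78) (nat_lit 152) (nat_lit 0) (XT.lf (nat_lit 0) (nat_lit 21071516684) (nat_lit 76) (nat_lit 7608423389) (nat_lit 76) (nat_lit 6991116756) (nat_lit 9) (nat_lit 4) (nat_lit 10) (nat_lit 5) (nat_lit 10) (nat_lit 4) (nat_lit 369) (nat_lit 329) (nat_lit 322)) (XT.nd (nat_lit 78) (nat_lit 0) (nat_lit 0) (XT.lf (nat_lit 0) (nat_lit 3763635854) (nat_lit 152) (nat_lit 32440777355) (nat_lit 0) (nat_lit 3184669745) (nat_lit 7) (nat_lit 5) (nat_lit 9) (nat_lit 4) (nat_lit 7)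 (nat_lit 4) (nat_lit 370) (nat_lit 329) (nat_lit 321)) (XT.lf (nat_lit 0) (nat_lit 15911235932) (nat_lit 152) (nat_lit 12333741779) (nat_lit 0) (nat_lit 15295593534) (nat_lit 7) (nat_lit 5) (nat_lit 9) (nat_lit 4) (nat_lit 7) (nat_lit 4) (nat_lit 371) (nat_lit 329) (nat_lit 320))))) (XT.nd (nat_lit 234) (nat_lit 76) (nat_lit 0) (XT.nd (nat_lit 78) (nat_lit 76) (nat_lit 0) (XT.lf (nat_lit 0) (nat_lit 10487389182) (nat_lit 76) (nat_lit 19248357926) (nat_lit 76) (nat_lit 18600823103) (nat_lit 6) (nat_lit 4) (nat_lit 7) (nat_lit 5) (nat_lit 7) (nat_lit 4) (nat_lit 372) (nat_lit 329) (nat_lit 319)) (XT.nd (nat_lit 78) (nat_lit 76) (nat_lit 0) (XT.lf (nat_lit 0) (nat_lit 36938378856) (nat_lit 76) (nat_lit 8787531926) (nat_lit 76) (nat_lit 8112264558) (nat_lit 6) (nat_lit 4) (nat_lit 7) (nat_lit 5) (nat_lit 7) (nat_lit 4) (nat_lit 373) (nat_lit 329) (nat_lit 318)) (XT.lf (nat_lit 0) (nat_lit 3496322999)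 (nat_lit 76) (nat_lit 53771249945) (nat_lit 0) (nat_lit 2888164196) (nat_lit 5) (nat_lit 5) (nat_lit 6) (nat_lit 4) (nat_lit 5) (nat_lit 4) (nat_lit 374) (nat_lit 329) (nat_lit 317)))) (XT.nd (nat_lit 156) (nat_lit 76) (nat_lit 0) (XT.nd (nat_lit 78) (nat_lit 0) (nat_lit 0) (XT.lf (nat_lit 0) (nat_lit 16856642662) (nat_lit 76) (nat_lit 34149950508) (nat_lit 0) (nat_lit 16230249262) (nat_lit 5) (nat_lit 5) (nat_lit 6) (nat_lit 4) (nat_lit 5) (nat_lit 4) (nat_lit 375) (nat_lit 329) (nat_lit 316)) (XT.lf (nat_lit 0) (nat_lit 31783676706) (nat_lit 76) (nat_lit 12520611253) (nat_lit 0) (nat_lit 31141427133) (nat_lit 5) (nat_lit 5) (nat_lit 6) (nat_lit 4) (nat_lit 5) (nat_lit 4) (nat_lit 376) (nat_lit 329) (nat_lit 315))) (XT.nd (nat_lit 78) (nat_lit 0) (nat_lit 0) (XT.lf (nat_lit 0) (nat_lit 12667718438) (nat_lit 76) (nat_lit 36426300564) (nat_lit 76) (nat_lit 35770263015) (nat_lit 4) (nat_lit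 4) (nat_lit 5) (nat_lit 5) (nat_lit 5) (nat_lit 4) (nat_lit 377) (nat_lit 329) (nat_lit 314)) (XT.lf (nat_lit 0) (nat_lit 42265227861) (nat_lit 76) (nat_lit 27027342834) (nat_lit 76) (nat_lit 26359315741) (nat_lit 4) (nat_lit 4) (nat_lit 5) (nat_lit 5) (nat_lit 5) (nat_lit 4) (nat_lit 378) (nat_lit 329) (nat_lit 313))))))) (XT.nd (nat_lit 1014) (nat_lit 0) (nat_lit 0) (XT.nd (nat_lit 468) (nat_lit 76) (nat_lit 0) (XT.nd (nat_lit 234) (nat_lit 0) (nat_lit 0) (XT.nd (nat_lit 78) (nat_lit 152) (nat_lit 0) (XT.lf (nat_lit 0) (nat_lit 75627393530) (nat_lit 76) (nat_lit 16578008617) (nat_lit 76) (nat_lit 15899555834) (nat_lit 4) (nat_lit 4) (nat_lit 5) (nat_lit 5) (nat_lit 5) (nat_lit 4) (nat_lit 379) (nat_lit 329) (nat_lit 312)) (XT.nd (nat_lit 78) (nat_lit 152) (nat_lit 0) (XT.lf (nat_lit 0) (nat_lit 113406953468) (nat_lit 76) (nat_lit 4873854416) (nat_lit 76) (nat_lit 4186335815) (nat_lit 4)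 (nat_lit 4) (nat_lit 5) (nat_lit 5) (nat_lit 5) (nat_lit 4) (nat_lit 380) (nat_lit 329) (nat_lit 311)) (XT.lf (nat_lit 0) (nat_lit 9376631093) (nat_lit 152) (nat_lit 120639537614) (nat_lit 0) (nat_lit 8771933771) (nat_lit 2) (nat_lit 5) (nat_lit 4) (nat_lit 4) (nat_lit 2) (nat_lit 4) (nat_lit 381) (nat_lit 329) (nat_lit 310)))) (XT.nd (nat_lit 78) (nat_lit 0) (nat_lit 0) (XT.lf (nat_lit 0) (nat_lit 25023953832) (nat_lit 152) (nat_lit 108018277058) (nat_lit 0) (nat_lit 24413295587) (nat_lit 2) (nat_lit 5) (nat_lit 4) (nat_lit 4) (nat_lit 2) (nat_lit 4) (nat_lit 382) (nat_lit 329) (nat_lit 309)) (XT.nd (nat_lit 78) (nat_lit 0) (nat_lit 0) (XT.lf (nat_lit 0) (nat_lit 42801218688) (nat_lit 152) (nat_lit 93969042304) (nat_lit 0) (nat_lit 42185377032) (nat_lit 2) (nat_lit 5) (nat_lit 4) (nat_lit 4) (nat_lit 2) (nat_lit 4) (nat_lit 383) (nat_lit 329) (nat_lit 308)) (XT.lf (nat_lit 0) (nat_lit 63056241711)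 (nat_lit 152) (nat_lit 78216957021) (nat_lit 0) (nat_lit 62435892742) (nat_lit 2) (nat_lit 5) (nat_lit 4) (nat_lit 4) (nat_lit 2) (nat_lit 4) (nat_lit 384) (nat_lit 329) (nat_lit 307))))) (XT.nd (nat_lit 234) (nat_lit 76) (nat_lit 0) (XT.nd (nat_lit 78) (nat_lit 0) (nat_lit 0) (XT.lf (nat_lit 0) (nat_lit 86185316831) (nat_lit 152) (nat_lit 60453828235) (nat_lit 0) (nat_lit 85561048459) (nat_lit 2) (nat_lit 5) (nat_lit 4) (nat_lit 4) (nat_lit 2) (nat_lit 4) (nat_lit 385) (nat_lit 329) (nat_lit 306)) (XT.nd (nat_lit 78) (nat_lit 0) (nat_lit 0) (XT.lf (nat_lit 0) (nat_lit 112640969431) (nat_lit 152) (nat_lit 40332116471) (nat_lit 0) (nat_lit 112013292882) (nat_lit 2) (nat_lit 5) (nat_lit 4) (nat_lit 4) (nat_lit 2) (nat_lit 4) (nat_lit 386) (nat_lit 329) (nat_lit 305)) (XT.lf (nat_lit 0) (nat_lit 142940810104) (nat_lit 152) (nat_lit 17458136064) (nat_lit 0) (nat_lit 142310169923) (nat_lit 2)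 (nat_lit 5) (nat_lit 4) (nat_lit 4) (nat_lit 2) (nat_lit 4) (nat_lit 387) (nat_lit 329) (nat_lit 304)))) (XT.nd (nat_lit 156) (nat_lit 0) (nat_lit 0) (XT.nd (nat_lit 78) (nat_lit 0) (nat_lit 0) (XT.lf (nat_lit 0) (nat_lit 9457631108) (nat_lit 76) (nat_lit 168611651048) (nat_lit 76) (nat_lit 167978433796) (nat_lit 1) (nat_lit 4) (nat_lit 2) (nat_lit 5) (nat_lit 2) (nat_lit 4) (nat_lit 388) (nat_lit 329) (nat_lit 303)) (XT.lf (nat_lit 0) (nat_lit 42152039130) (nat_lit 76) (nat_lit 177124545556) (nat_lit 76) (nat_lit 176489087372) (nat_lit 1) (nat_lit 4) (nat_lit 2) (nat_lit 5) (nat_lit 2) (nat_lit 4) (nat_lit 389) (nat_lit 329) (nat_lit 302))) (XT.nd (nat_lit 78) (nat_lit 0) (nat_lit 0) (XT.lf (nat_lit 0) (nat_lit 79558625179) (nat_lit 76) (nat_lit 187016770710) (nat_lit 76) (nat_lit 186379363890) (nat_lit 1) (nat_lit 4) (nat_lit 2) (nat_lit 5) (nat_lit 2) (nat_lit 4) (nat_lit 390) (nat_lit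 329) (nat_lit 301)) (XT.lf (nat_lit 0) (nat_lit 122409257241) (nat_lit 76) (nat_lit 198481870043) (nat_lit 76) (nat_lit 197842768757) (nat_lit 1) (nat_lit 4) (nat_lit 2) (nat_lit 5) (nat_lit 2) (nat_lit 4) (nat_lit 391) (nat_lit 329) (nat_lit 300)))))) (XT.nd (nat_lit 546) (nat_lit 0) (nat_lit 0) (XT.nd (nat_lit 234) (nat_lit 0) (nat_lit 0) (XT.nd (nat_lit 78) (nat_lit 0) (nat_lit 0) (XT.lf (nat_lit 0) (nat_lit 171542317249) (nat_lit 76) (nat_lit 211744160719) (nat_lit 76) (nat_lit 211103585984) (nat_lit 1) (nat_lit 4) (nat_lit 2) (nat_lit 5) (nat_lit 2) (nat_lit 4) (nat_lit 392) (nat_lit 329) (nat_lit 299)) (XT.nd (nat_lit 78) (nat_lit 0) (nat_lit 0) (XT.lf (nat_lit 0) (nat_lit 227919104203) (nat_lit 76) (nat_lit 227063122336) (nat_lit 76) (nat_lit 226421266341) (nat_lit 1) (nat_lit 4) (nat_lit 2) (nat_lit 5) (nat_lit 2) (nat_lit 4) (nat_lit 393) (nat_lit 329) (nat_lit 298)) (XT.lf (nat_lit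 0) (nat_lit 292642642195) (nat_lit 76) (nat_lit 244738473708) (nat_lit 76) (nat_lit 244095503574) (nat_lit 1) (nat_lit 4) (nat_lit 2) (nat_lit 5) (nat_lit 2) (nat_lit 4) (nat_lit 394) (nat_lit 329) (nat_lit 297)))) (XT.nd (nat_lit 156) (nat_lit 0) (nat_lit 0) (XT.nd (nat_lit 78) (nat_lit 0) (nat_lit 0) (XT.lf (nat_lit 0) (nat_lit 366979261317) (nat_lit 76) (nat_lit 265116036929) (nat_lit 76) (nat_lit 264472097979) (nat_lit 1) (nat_lit 4) (nat_lit 2) (nat_lit 5) (nat_lit 2) (nat_lit 4) (nat_lit 395) (nat_lit 329) (nat_lit 296)) (XT.lf (nat_lit 0) (nat_lit 452383373682) (nat_lit 76) (nat_lit 288594503452) (nat_lit 76) (nat_lit 287949722053) (nat_lit 1) (nat_lit 4) (nat_lit 2) (nat_lit 5) (nat_lit 2) (nat_lit 4) (nat_lit 396) (nat_lit 329) (nat_lit 295))) (XT.nd (nat_lit 78) (nat_lit 0) (nat_lit 0) (XT.lf (nat_lit 0) (nat_lit 550525929314) (nat_lit 76) (nat_lit 315633234579) (nat_lit 76) (nat_lit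 314987720615) (nat_lit 1) (nat_lit 4) (nat_lit 2) (nat_lit 5) (nat_lit 2) (nat_lit 4) (nat_lit 397) (nat_lit 329) (nat_lit 294)) (XT.lf (nat_lit 0) (nat_lit 663327108649) (nat_lit 76) (nat_lit 346761248962) (nat_lit 76) (nat_lit 346115097985) (nat_lit 1) (nat_lit 4) (nat_lit 2) (nat_lit 5) (nat_lit 2) (nat_lit 4) (nat_lit 398) (nat_lit 329) (nat_lit 293))))) (XT.nd (nat_lit 234) (nat_lit 0) (nat_lit 0) (XT.nd (nat_lit 78) (nat_lit 0) (nat_lit 0) (XT.lf (nat_lit 0) (nat_lit 792993891284) (nat_lit 76) (nat_lit 382587572970) (nat_lit 76) (nat_lit 381940868069) (nat_lit 1) (nat_lit 4) (nat_lit 2) (nat_lit 5) (nat_lit 2) (nat_lit 4) (nat_lit 399) (nat_lit 329) (nat_lit 292)) (XT.nd (nat_lit 78) (nat_lit 0) (nat_lit 0) (XT.lf (nat_lit 0) (nat_lit 942063236009) (nat_lit 76) (nat_lit 423813156420) (nat_lit 76) (nat_lit 423165969846) (nat_lit 1) (nat_lit 4) (nat_lit 2) (nat_lit 5) (nat_lit 2) (nat_lit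 4) (nat_lit 400) (nat_lit 329) (nat_lit 291)) (XT.lf (nat_lit 0) (nat_lit 1113451716959) (nat_lit 76) (nat_lit 471244586815) (nat_lit 76) (nat_lit 470596981395) (nat_lit 1) (nat_lit 4) (nat_lit 2) (nat_lit 5) (nat_lit 2) (nat_lit 4) (nat_lit 401) (nat_lit 329) (nat_lit 290)))) (XT.nd (nat_lit 156) (nat_lit 0) (nat_lit 0) (XT.nd (nat_lit 78) (nat_lit 0) (nat_lit 0) (XT.lf (nat_lit 0) (nat_lit 1310512587024) (nat_lit 76) (nat_lit 525809870400) (nat_lit 76) (nat_lit 525161900767) (nat_lit 1) (nat_lit 4) (nat_lit 2) (nat_lit 5) (nat_lit 2) (nat_lit 4) (nat_lit 402) (nat_lit 329) (nat_lit 289)) (XT.lf (nat_lit 0) (nat_lit 1537101384965) (nat_lit 76) (nat_lit 588576588813) (nat_lit 76) (nat_lit 587928302471) (nat_lit 1) (nat_lit 4) (nat_lit 2) (nat_lit 5) (nat_lit 2) (nat_lit 4) (nat_lit 403) (nat_lit 329) (nat_lit 288))) (XT.nd (nat_lit 78) (nat_lit 0) (nat_lit 0) (XT.lf (nat_lit 0) (nat_lit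 1797651369872) (nat_lit 76) (nat_lit 660772786543) (nat_lit 76) (nat_lit 660124224803) (nat_lit 1) (nat_lit 4) (nat_lit 2) (nat_lit 5) (nat_lit 2) (nat_lit 4) (nat_lit 404) (nat_lit 329) (nat_lit 287)) (XT.lf (nat_lit 0) (nat_lit 2097260258841) (nat_lit 76) (nat_lit 743810997894) (nat_lit 76) (nat_lit 743162196677) (nat_lit 1) (nat_lit 4) (nat_lit 2) (nat_lit 5) (nat_lit 2) (nat_lit 4) (nat_lit 405) (nat_lit 329) (nat_lit 286))))))))
noncomputable def xc29 : XT := (XT.nd (nat_lit 2106) (nat_lit 0) (nat_lit 0) (XT.nd (nat_lit 1014) (nat_lit 0) (nat_lit 0) (XT.nd (nat_lit 468) (nat_lit 0) (nat_lit 0) (XT.nd (nat_lit 234) (nat_lit 0) (nat_lit 0) (XT.nd (nat_lit 78) (nat_lit 0) (nat_lit 0) (XT.lf (nat_lit 0) (nat_lit 2441789964918) (nat_lit 76) (nat_lit 839315883522) (nat_lit 76) (nat_lit 838666874065) (nat_lit 1) (nat_lit 4) (nat_lit 2) (nat_lit 5) (nat_lit 2) (nat_lit 4) (nat_lit 406) (nat_lit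 329) (nat_lit 285)) (XT.nd (nat_lit 78) (nat_lit 0) (nat_lit 0) (XT.lf (nat_lit 0) (nat_lit 2837981286700) (nat_lit 76) (nat_lit 949156017278) (nat_lit 76) (nat_lit 948506826742) (nat_lit 1) (nat_lit 4) (nat_lit 2) (nat_lit 5) (nat_lit 2) (nat_lit 4) (nat_lit 407) (nat_lit 329) (nat_lit 284)) (XT.lf (nat_lit 0) (nat_lit 3293585793525) (nat_lit 76) (nat_lit 1075480445255) (nat_lit 76) (nat_lit 1074831097260) (nat_lit 1) (nat_lit 4) (nat_lit 2) (nat_lit 5) (nat_lit 2) (nat_lit 4) (nat_lit 408) (nat_lit 329) (nat_lit 283)))) (XT.nd (nat_lit 78) (nat_lit 0) (nat_lit 0) (XT.lf (nat_lit 0) (nat_lit 3817517486615) (nat_lit 76) (nat_lit 1220760732350) (nat_lit 76) (nat_lit 1220111247433) (nat_lit 1) (nat_lit 4) (nat_lit 2) (nat_lit 5) (nat_lit 2) (nat_lit 4) (nat_lit 409) (nat_lit 329) (nat_lit 282)) (XT.nd (nat_lit 78) (nat_lit 0) (nat_lit 0) (XT.lf (nat_lit 0) (nat_lit 4420027203442) (nat_lit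 76) (nat_lit 1387839318962) (nat_lit 76) (nat_lit 1387189714983) (nat_lit 1) (nat_lit 4) (nat_lit 2) (nat_lit 5) (nat_lit 2) (nat_lit 4) (nat_lit 410) (nat_lit 329) (nat_lit 281)) (XT.lf (nat_lit 0) (nat_lit 5112903177597) (nat_lit 76) (nat_lit 1579985133960) (nat_lit 76) (nat_lit 1579335426448) (nat_lit 1) (nat_lit 4) (nat_lit 2) (nat_lit 5) (nat_lit 2) (nat_lit 4) (nat_lit 411) (nat_lit 329) (nat_lit 280))))) (XT.nd (nat_lit 234) (nat_lit 0) (nat_lit 0) (XT.nd (nat_lit 78) (nat_lit 0) (nat_lit 0) (XT.lf (nat_lit 0) (nat_lit 5909701678139) (nat_lit 76) (nat_lit 1800957551984) (nat_lit 76) (nat_lit 1800307754444) (nat_lit 1) (nat_lit 4) (nat_lit 2) (nat_lit 5) (nat_lit 2) (nat_lit 4) (nat_lit 412) (nat_lit 329) (nat_lit 279)) (XT.nd (nat_lit 78) (nat_lit 0) (nat_lit 0) (XT.lf (nat_lit 0) (nat_lit 6826012240949) (nat_lit 76) (nat_lit 2055079946431) (nat_lit 76) (nat_lit 2054430070606) (nat_lit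 1) (nat_lit 4) (nat_lit 2) (nat_lit 5) (nat_lit 2) (nat_lit 4) (nat_lit 413) (nat_lit 329) (nat_lit 278)) (XT.lf (nat_lit 0) (nat_lit 7879762681386) (nat_lit 76) (nat_lit 2347324277192) (nat_lit 76) (nat_lit 2346674333293) (nat_lit 1) (nat_lit 4) (nat_lit 2) (nat_lit 5) (nat_lit 2) (nat_lit 4) (nat_lit 414) (nat_lit 329) (nat_lit 277)))) (XT.nd (nat_lit 156) (nat_lit 0) (nat_lit 0) (XT.nd (nat_lit 78) (nat_lit 0) (nat_lit 0) (XT.lf (nat_lit 0) (nat_lit 9091569855893) (nat_lit 76) (nat_lit 2683408368131) (nat_lit 76) (nat_lit 2682758365037) (nat_lit 1) (nat_lit 4) (nat_lit 2) (nat_lit 5) (nat_lit 2) (nat_lit 4) (nat_lit 415) (nat_lit 329) (nat_lit 276)) (XT.lf (nat_lit 0) (nat_lit 10485143035276) (nat_lit 76) (nat_lit 3069907777547) (nat_lit 76) (nat_lit 3069257722979) (nat_lit 1) (nat_lit 4) (nat_lit 2) (nat_lit 5) (nat_lit 2) (nat_lit 4) (nat_lit 416) (nat_lit 329) (nat_lit 275))) (XT.nd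 (nat_lit 78) (nat_lit 0) (nat_lit 0) (XT.lf (nat_lit 0) (nat_lit 12087747781740) (nat_lit 76) (nat_lit 3514384450408) (nat_lit 76) (nat_lit 3513734351080) (nat_lit 1) (nat_lit 4) (nat_lit 2) (nat_lit 5) (nat_lit 2) (nat_lit 4) (nat_lit 417) (nat_lit 329) (nat_lit 274)) (XT.lf (nat_lit 0) (nat_lit 13930739405542) (nat_lit 76) (nat_lit 4025534669444) (nat_lit 76) (nat_lit 4024884531195) (nat_lit 1) (nat_lit 4) (nat_lit 2) (nat_lit 5) (nat_lit 2) (nat_lit 4) (nat_lit 418) (nat_lit 329) (nat_lit 273)))))) (XT.nd (nat_lit 546) (nat_lit 0) (nat_lit 0) (XT.nd (nat_lit 234) (nat_lit 0) (nat_lit 0) (XT.nd (nat_lit 78) (nat_lit 0) (nat_lit 0) (XT.lf (nat_lit 0) (nat_lit 16050176438452) (nat_lit 76) (nat_lit 4613359199810) (nat_lit 76) (nat_lit 4612709027716) (nat_lit 1) (nat_lit 4) (nat_lit 2) (nat_lit 5) (nat_lit 2) (nat_lit 4) (nat_lit 419) (nat_lit 329) (nat_lit 272)) (XT.nd (nat_lit 78) (nat_lit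 0) (nat_lit 0) (XT.lf (nat_lit 0) (nat_lit 18487526126766) (nat_lit 76) (nat_lit 5289358956230) (nat_lit 76) (nat_lit 5288708754705) (nat_lit 1) (nat_lit 4) (nat_lit 2) (nat_lit 5) (nat_lit 2) (nat_lit 4) (nat_lit 420) (nat_lit 329) (nat_lit 271)) (XT.lf (nat_lit 0) (nat_lit 21290475746995) (nat_lit 76) (nat_lit 6066760020895) (nat_lit 76) (nat_lit 6066109793779) (nat_lit 1) (nat_lit 4) (nat_lit 2) (nat_lit 5) (nat_lit 2) (nat_lit 4) (nat_lit 421) (nat_lit 329) (nat_lit 270)))) (XT.nd (nat_lit 156) (nat_lit 0) (nat_lit 0) (XT.nd (nat_lit 78) (nat_lit 0) (nat_lit 0) (XT.lf (nat_lit 0) (nat_lit 24513865617795) (nat_lit 76) (nat_lit 6960772414636) (nat_lit 76) (nat_lit 6960122165266) (nat_lit 1) (nat_lit 4) (nat_lit 2) (nat_lit 5) (nat_lit 2) (nat_lit 4) (nat_lit 422) (nat_lit 329) (nat_lit 269)) (XT.lf (nat_lit 0) (nat_lit 28220762062726) (nat_lit 76) (nat_lit 7988887684286) (nat_lit 76) (nat_lit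 7988237415565) (nat_lit 1) (nat_lit 4) (nat_lit 2) (nat_lit 5) (nat_lit 2) (nat_lit 4) (nat_lit 423) (nat_lit 329) (nat_lit 268))) (XT.nd (nat_lit 78) (nat_lit 0) (nat_lit 0) (XT.lf (nat_lit 0) (nat_lit 32483691316579) (nat_lit 76) (nat_lit 9171221128600) (nat_lit 76) (nat_lit 9170570843052) (nat_lit 1) (nat_lit 4) (nat_lit 2) (nat_lit 5) (nat_lit 2) (nat_lit 4) (nat_lit 424) (nat_lit 329) (nat_lit 267)) (XT.lf (nat_lit 0) (nat_lit 37386058516930) (nat_lit 76) (nat_lit 10530905358444) (nat_lit 76) (nat_lit 10530255058264) (nat_lit 1) (nat_lit 4) (nat_lit 2) (nat_lit 5) (nat_lit 2) (nat_lit 4) (nat_lit 425) (nat_lit 329) (nat_lit 266))))) (XT.nd (nat_lit 234) (nat_lit 0) (nat_lit 0) (XT.nd (nat_lit 78) (nat_lit 0) (nat_lit 0) (XT.lf (nat_lit 0) (nat_lit 43023779543785) (nat_lit 76) (nat_lit 12094542891360) (nat_lit 76) (nat_lit 12093892578456) (nat_lit 1) (nat_lit 4) (nat_lit 2) (nat_lit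 5) (nat_lit 2) (nat_lit 4) (nat_lit 426) (nat_lit 329) (nat_lit 265)) (XT.nd (nat_lit 78) (nat_lit 0) (nat_lit 0) (XT.lf (nat_lit 0) (nat_lit 49507157634628) (nat_lit 76) (nat_lit 13892726635599) (nat_lit 76) (nat_lit 13892076311632) (nat_lit 1) (nat_lit 4) (nat_lit 2) (nat_lit 5) (nat_lit 2) (nat_lit 4) (nat_lit 427) (nat_lit 329) (nat_lit 264)) (XT.lf (nat_lit 0) (nat_lit 56963041491234) (nat_lit 76) (nat_lit 15960638447028) (nat_lit 76) (nat_lit 15959988113439) (nat_lit 1) (nat_lit 4) (nat_lit 2) (nat_lit 5) (nat_lit 2) (nat_lit 4) (nat_lit 428) (nat_lit 329) (nat_lit 263)))) (XT.nd (nat_lit 156) (nat_lit 0) (nat_lit 0) (XT.nd (nat_lit 78) (nat_lit 0) (nat_lit 0) (XT.lf (nat_lit 0) (nat_lit 65537307102104) (nat_lit 76) (nat_lit 18338737469782) (nat_lit 76) (nat_lit 18338087127828) (nat_lit 1) (nat_lit 4) (nat_lit 2) (nat_lit 5) (nat_lit 2) (nat_lit 4) (nat_lit 429) (nat_lit 329) (nat_lit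 262)) (XT.lf (nat_lit 0) (nat_lit 75397711837884) (nat_lit 76) (nat_lit 21073551728221) (nat_lit 76) (nat_lit 21072901378992) (nat_lit 1) (nat_lit 4) (nat_lit 2) (nat_lit 5) (nat_lit 2) (nat_lit 4) (nat_lit 430) (nat_lit 329) (nat_lit 261))) (XT.nd (nat_lit 78) (nat_lit 0) (nat_lit 0) (XT.lf (nat_lit 0) (nat_lit 86737176660795) (nat_lit 76) (nat_lit 24218588457835) (nat_lit 76) (nat_lit 24217938102280) (nat_lit 1) (nat_lit 4) (nat_lit 2) (nat_lit 5) (nat_lit 2) (nat_lit 4) (nat_lit 431) (nat_lit 329) (nat_lit 260)) (XT.lf (nat_lit 0) (nat_lit 99777560665201) (nat_lit 76) (nat_lit 27835380985943) (nat_lit 76) (nat_lit 27834730624887) (nat_lit 1) (nat_lit 4) (nat_lit 2) (nat_lit 5) (nat_lit 2) (nat_lit 4) (nat_lit 432) (nat_lit 329) (nat_lit 259))))))) (XT.nd (nat_lit 48360) (nat_lit 0) (nat_lit 76) (XT.nd (nat_lit 47814) (nat_lit 0) (nat_lit 456) (XT.nd (nat_lit 47580) (nat_lit 0) (nat_lit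 1064) (XT.nd (nat_lit 47424) (nat_lit 0) (nat_lit 1292) (XT.lf (nat_lit 0) (nat_lit 114774001799012) (nat_lit 76) (nat_lit 31994692644617) (nat_lit 76) (nat_lit 31994042278778) (nat_lit 1) (nat_lit 4) (nat_lit 2) (nat_lit 5) (nat_lit 2) (nat_lit 4) (nat_lit 433) (nat_lit 329) (nat_lit 258)) (XT.nd (nat_lit 78) (nat_lit 76) (nat_lit 0) (XT.lf (nat_lit 0) (nat_lit 1952112626) (nat_lit 152) (nat_lit 4541797531) (nat_lit 0) (nat_lit 1952112626) (nat_lit 19) (nat_lit 5) (nat_lit 21) (nat_lit 4) (nat_lit 19) (nat_lit 4) (nat_lit 360) (nat_lit 330) (nat_lit 330)) (XT.lf (nat_lit 0) (nat_lit 6676345494) (nat_lit 76) (nat_lit 5864206832) (nat_lit 76) (nat_lit 5638545413) (nat_lit 18) (nat_lit 4) (nat_lit 19) (nat_lit 5) (nat_lit 19) (nat_lit 4) (nat_lit 361) (nat_lit 330) (nat_lit 329)))) (XT.nd (nat_lit 78) (nat_lit 76) (nat_lit 0) (XT.lf (nat_lit 0) (nat_lit 2582130111) (nat_lit 152) (nat_lit 14841433120)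 (nat_lit 0) (nat_lit 2215270336) (nat_lit 16) (nat_lit 5) (nat_lit 18) (nat_lit 4) (nat_lit 16) (nat_lit 4) (nat_lit 362) (nat_lit 330) (nat_lit 328)) (XT.nd (nat_lit 78) (nat_lit 0) (nat_lit 0) (XT.lf (nat_lit 0) (nat_lit 1546058137) (nat_lit 76) (nat_lit 10108526468) (nat_lit 76) (nat_lit 9593290646) (nat_lit 15) (nat_lit 4) (nat_lit 16) (nat_lit 5) (nat_lit 16) (nat_lit 4) (nat_lit 363) (nat_lit 330) (nat_lit 327)) (XT.lf (nat_lit 0) (nat_lit 20510238233) (nat_lit 76) (nat_lit 1613468047) (nat_lit 76) (nat_lit 969209576) (nat_lit 15) (nat_lit 4) (nat_lit 16) (nat_lit 5) (nat_lit 16) (nat_lit 4) (nat_lit 364) (nat_lit 330) (nat_lit 326))))) (XT.nd (nat_lit 234) (nat_lit 228) (nat_lit 0) (XT.nd (nat_lit 78) (nat_lit 228) (nat_lit 0) (XT.lf (nat_lit 0) (nat_lit 8532004497) (nat_lit 152) (nat_lit 8695890286) (nat_lit 0) (nat_lit 7874220081) (nat_lit 13) (nat_lit 5) (nat_lit 15) (nat_lit 4)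 (nat_lit 13) (nat_lit 4) (nat_lit 365) (nat_lit 330) (nat_lit 325)) (XT.nd (nat_lit 78) (nat_lit 152) (nat_lit 0) (XT.lf (nat_lit 0) (nat_lit 10533627027) (nat_lit 76) (nat_lit 8808652402) (nat_lit 76) (nat_lit 8066033500) (nat_lit 12) (nat_lit 4) (nat_lit 13) (nat_lit 5) (nat_lit 13) (nat_lit 4) (nat_lit 366) (nat_lit 330) (nat_lit 324)) (XT.lf (nat_lit 0) (nat_lit 1499474351) (nat_lit 152) (nat_lit 27769999905) (nat_lit 0) (nat_lit 789571724) (nat_lit 10) (nat_lit 5) (nat_lit 12) (nat_lit 4) (nat_lit 10) (nat_lit 4) (nat_lit 367) (nat_lit 330) (nat_lit 323)))) (XT.nd (nat_lit 156) (nat_lit 152) (nat_lit 0) (XT.nd (nat_lit 78) (nat_lit 76) (nat_lit 0) (XT.lf (nat_lit 0) (nat_lit 12349185684) (nat_lit 152) (nat_lit 9015813362) (nat_lit 0) (nat_lit 11583503005) (nat_lit 10) (nat_lit 5) (nat_lit 12) (nat_lit 4) (nat_lit 10) (nat_lit 4) (nat_lit 368) (nat_lit 330) (nat_lit 322)) (XT.lf (nat_lit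 0) (nat_lit 12423625969) (nat_lit 76) (nat_lit 12335977444) (nat_lit 76) (nat_lit 11521790373) (nat_lit 9) (nat_lit 4) (nat_lit 10) (nat_lit 5) (nat_lit 10) (nat_lit 4) (nat_lit 369) (nat_lit 330) (nat_lit 321))) (XT.nd (nat_lit 78) (nat_lit 152) (nat_lit 0) (XT.lf (nat_lit 0) (nat_lit 36914410316) (nat_lit 76) (nat_lit 2034304133) (nat_lit 76) (nat_lit 1177939329) (nat_lit 9) (nat_lit 4) (nat_lit 10) (nat_lit 5) (nat_lit 10) (nat_lit 4) (nat_lit 370) (nat_lit 330) (nat_lit 320)) (XT.lf (nat_lit 0) (nat_lit 10567798959) (nat_lit 152) (nat_lit 24002428969) (nat_lit 0) (nat_lit 9791241487) (nat_lit 7) (nat_lit 5) (nat_lit 9) (nat_lit 4) (nat_lit 7) (nat_lit 4) (nat_lit 371) (nat_lit 330) (nat_lit 319)))))) (XT.nd (nat_lit 546) (nat_lit 152) (nat_lit 0) (XT.nd (nat_lit 234) (nat_lit 152) (nat_lit 0) (XT.nd (nat_lit 78) (nat_lit 76) (nat_lit 0) (XT.lf (nat_lit 0) (nat_lit 23723675868) (nat_lit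 152) (nat_lit 2614703054) (nat_lit 0) (nat_lit 22919385851) (nat_lit 7) (nat_lit 5) (nat_lit 9) (nat_lit 4) (nat_lit 7) (nat_lit 4) (nat_lit 372) (nat_lit 330) (nat_lit 318)) (XT.nd (nat_lit 78) (nat_lit 0) (nat_lit 0) (XT.lf (nat_lit 0) (nat_lit 23103729368) (nat_lit 76) (nat_lit 16267703916) (nat_lit 76) (nat_lit 15439298644) (nat_lit 6) (nat_lit 4) (nat_lit 7) (nat_lit 5) (nat_lit 7) (nat_lit 4) (nat_lit 373) (nat_lit 330) (nat_lit 317)) (XT.lf (nat_lit 0) (nat_lit 52081945953) (nat_lit 76) (nat_lit 5003133281) (nat_lit 76) (nat_lit 4153758221) (nat_lit 6) (nat_lit 4) (nat_lit 7) (nat_lit 5) (nat_lit 7) (nat_lit 4) (nat_lit 374) (nat_lit 330) (nat_lit 316)))) (XT.nd (nat_lit 156) (nat_lit 76) (nat_lit 0) (XT.nd (nat_lit 78) (nat_lit 0) (nat_lit 0) (XT.lf (nat_lit 0) (nat_lit 8729735227) (nat_lit 76) (nat_lit 51767709303) (nat_lit 0) (nat_lit 7975292047) (nat_lit 5) (nat_lit 5) (nat_lit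 6) (nat_lit 4) (nat_lit 5) (nat_lit 4) (nat_lit 375) (nat_lit 330) (nat_lit 315)) (XT.lf (nat_lit 0) (nat_lit 23479890173) (nat_lit 76) (nat_lit 30516592534) (nat_lit 0) (nat_lit 22711659017) (nat_lit 5) (nat_lit 5) (nat_lit 6) (nat_lit 4) (nat_lit 5) (nat_lit 4) (nat_lit 376) (nat_lit 330) (nat_lit 314))) (XT.nd (nat_lit 78) (nat_lit 76) (nat_lit 0) (XT.lf (nat_lit 0) (nat_lit 40111881352) (nat_lit 76) (nat_lit 6784919854) (nat_lit 0) (nat_lit 39331660652) (nat_lit 5) (nat_lit 5) (nat_lit 6) (nat_lit 4) (nat_lit 5) (nat_lit 4) (nat_lit 377) (nat_lit 330) (nat_lit 313)) (XT.lf (nat_lit 0) (nat_lit 21835578242) (nat_lit 76) (nat_lit 38019703775) (nat_lit 76) (nat_lit 37229057384) (nat_lit 4) (nat_lit 4) (nat_lit 5) (nat_lit 5) (nat_lit 5) (nat_lit 4) (nat_lit 378) (nat_lit 330) (nat_lit 312))))) (XT.nd (nat_lit 234) (nat_lit 152) (nat_lit 0) (XT.nd (nat_lit 78) (nat_lit 0) (nat_lit 0) (XT.lf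 (nat_lit 0) (nat_lit 54924752943) (nat_lit 76) (nat_lit 27715755674) (nat_lit 76) (nat_lit 26916043465) (nat_lit 4) (nat_lit 4) (nat_lit 5) (nat_lit 5) (nat_lit 5) (nat_lit 4) (nat_lit 379) (nat_lit 330) (nat_lit 311)) (XT.nd (nat_lit 78) (nat_lit 0) (nat_lit 0) (XT.lf (nat_lit 0) (nat_lit 92466929431) (nat_lit 76) (nat_lit 16138024183) (nat_lit 76) (nat_lit 15330428654) (nat_lit 4) (nat_lit 4) (nat_lit 5) (nat_lit 5) (nat_lit 5) (nat_lit 4) (nat_lit 380) (nat_lit 330) (nat_lit 310)) (XT.lf (nat_lit 0) (nat_lit 135196628551) (nat_lit 76) (nat_lit 3059988469) (nat_lit 76) (nat_lit 2245537879) (nat_lit 4) (nat_lit 4) (nat_lit 5) (nat_lit 5) (nat_lit 5) (nat_lit 4) (nat_lit 381) (nat_lit 330) (nat_lit 309)))) (XT.nd (nat_lit 156) (nat_lit 0) (nat_lit 0) (XT.nd (nat_lit 78) (nat_lit 0) (nat_lit 0) (XT.lf (nat_lit 0) (nat_lit 13121343533) (nat_lit 152) (nat_lit 133726294017) (nat_lit 0) (nat_lit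 12407942218) (nat_lit 2) (nat_lit 5) (nat_lit 4) (nat_lit 4) (nat_lit 2) (nat_lit 4) (nat_lit 382) (nat_lit 330) (nat_lit 308)) (XT.lf (nat_lit 0) (nat_lit 30810779755) (nat_lit 152) (nat_lit 119865214930) (nat_lit 0) (nat_lit 30092871127) (nat_lit 2) (nat_lit 5) (nat_lit 4) (nat_lit 4) (nat_lit 2) (nat_lit 4) (nat_lit 383) (nat_lit 330) (nat_lit 307))) (XT.nd (nat_lit 78) (nat_lit 0) (nat_lit 0) (XT.lf (nat_lit 0) (nat_lit 50989430055) (nat_lit 152) (nat_lit 104276743270) (nat_lit 0) (nat_lit 50267602023) (nat_lit 2) (nat_lit 5) (nat_lit 4) (nat_lit 4) (nat_lit 2) (nat_lit 4) (nat_lit 384) (nat_lit 330) (nat_lit 306)) (XT.lf (nat_lit 0) (nat_lit 74052094110) (nat_lit 152) (nat_lit 86655887200) (nat_lit 0) (nat_lit 73326857902) (nat_lit 2) (nat_lit 5) (nat_lit 4) (nat_lit 4) (nat_lit 2) (nat_lit 4) (nat_lit 385) (nat_lit 330) (nat_lit 305))))))))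
noncomputable def xc30 : XT := (XT.nd (nat_lit 2028) (nat_lit 0) (nat_lit 0) (XT.nd (nat_lit 1014) (nat_lit 0) (nat_lit 0) (XT.nd (nat_lit 468) (nat_lit 0) (nat_lit 0) (XT.nd (nat_lit 234) (nat_lit 76) (nat_lit 0) (XT.nd (nat_lit 78) (nat_lit 0) (nat_lit 0) (XT.lf (nat_lit 0) (nat_lit 100449997958) (nat_lit 152) (nat_lit 66657890841) (nat_lit 0) (nat_lit 99721798118) (nat_lit 2) (nat_lit 5) (nat_lit 4) (nat_lit 4) (nat_lit 2) (nat_lit 4) (nat_lit 386) (nat_lit 330) (nat_lit 304)) (XT.nd (nat_lit 78) (nat_lit 0) (nat_lit 0) (XT.lf (nat_lit 0) (nat_lit 130699622326) (nat_lit 152) (nat_lit 43891489047) (nat_lit 0) (nat_lit 129968845414) (nat_lit 2) (nat_lit 5) (nat_lit 4) (nat_lit 4) (nat_lit 2) (nat_lit 4) (nat_lit 387) (nat_lit 330) (nat_lit 303)) (XT.lf (nat_lit 0) (nat_lit 165392807689) (nat_lit 152) (nat_lit 17911252217) (nat_lit 0) (nat_lit 164659789846) (nat_lit 2) (nat_lit 5) (nat_lit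 4) (nat_lit 4) (nat_lit 2) (nat_lit 4) (nat_lit 388) (nat_lit 330) (nat_lit 302)))) (XT.nd (nat_lit 78) (nat_lit 0) (nat_lit 0) (XT.lf (nat_lit 0) (nat_lit 12943443473) (nat_lit 76) (nat_lit 192800850681) (nat_lit 76) (nat_lit 192065884202) (nat_lit 1) (nat_lit 4) (nat_lit 2) (nat_lit 5) (nat_lit 2) (nat_lit 4) (nat_lit 389) (nat_lit 330) (nat_lit 301)) (XT.nd (nat_lit 78) (nat_lit 0) (nat_lit 0) (XT.lf (nat_lit 0) (nat_lit 50272382130) (nat_lit 76) (nat_lit 202734489978) (nat_lit 76) (nat_lit 201997829032) (nat_lit 1) (nat_lit 4) (nat_lit 2) (nat_lit 5) (nat_lit 2) (nat_lit 4) (nat_lit 390) (nat_lit 330) (nat_lit 300)) (XT.lf (nat_lit 0) (nat_lit 93055494721) (nat_lit 76) (nat_lit 214235601610) (nat_lit 76) (nat_lit 213497467216) (nat_lit 1) (nat_lit 4) (nat_lit 2) (nat_lit 5) (nat_lit 2) (nat_lit 4) (nat_lit 391) (nat_lit 330) (nat_lit 299))))) (XT.nd (nat_lit 234) (nat_lit 0) (nat_lit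 0) (XT.nd (nat_lit 78) (nat_lit 0) (nat_lit 0) (XT.lf (nat_lit 0) (nat_lit 142129842145) (nat_lit 76) (nat_lit 227529207327) (nat_lit 76) (nat_lit 226789791673) (nat_lit 1) (nat_lit 4) (nat_lit 2) (nat_lit 5) (nat_lit 2) (nat_lit 4) (nat_lit 392) (nat_lit 330) (nat_lit 298)) (XT.nd (nat_lit 78) (nat_lit 0) (nat_lit 0) (XT.lf (nat_lit 0) (nat_lit 198455574678) (nat_lit 76) (nat_lit 242875399415) (nat_lit 76) (nat_lit 242134869622) (nat_lit 1) (nat_lit 4) (nat_lit 2) (nat_lit 5) (nat_lit 2) (nat_lit 4) (nat_lit 393) (nat_lit 330) (nat_lit 297)) (XT.lf (nat_lit 0) (nat_lit 263134717522) (nat_lit 76) (nat_lit 260574429459) (nat_lit 76) (nat_lit 259832930849) (nat_lit 1) (nat_lit 4) (nat_lit 2) (nat_lit 5) (nat_lit 2) (nat_lit 4) (nat_lit 394) (nat_lit 330) (nat_lit 296)))) (XT.nd (nat_lit 156) (nat_lit 0) (nat_lit 0) (XT.nd (nat_lit 78) (nat_lit 0) (nat_lit 0) (XT.lf (nat_lit 0) (nat_lit 337432732167)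 (nat_lit 76) (nat_lit 280972582828) (nat_lit 76) (nat_lit 280230241769) (nat_lit 1) (nat_lit 4) (nat_lit 2) (nat_lit 5) (nat_lit 2) (nat_lit 4) (nat_lit 395) (nat_lit 330) (nat_lit 295)) (XT.lf (nat_lit 0) (nat_lit 422803275421) (nat_lit 76) (nat_lit 304468953828) (nat_lit 76) (nat_lit 303725880205) (nat_lit 1) (nat_lit 4) (nat_lit 2) (nat_lit 5) (nat_lit 2) (nat_lit 4) (nat_lit 396) (nat_lit 330) (nat_lit 294))) (XT.nd (nat_lit 78) (nat_lit 0) (nat_lit 0) (XT.lf (nat_lit 0) (nat_lit 520916640522) (nat_lit 76) (nat_lit 331523254065) (nat_lit 76) (nat_lit 330779543429) (nat_lit 1) (nat_lit 4) (nat_lit 2) (nat_lit 5) (nat_lit 2) (nat_lit 4) (nat_lit 397) (nat_lit 330) (nat_lit 293)) (XT.lf (nat_lit 0) (nat_lit 633692436787) (nat_lit 76) (nat_lit 362664806805) (nat_lit 76) (nat_lit 361920542245) (nat_lit 1) (nat_lit 4) (nat_lit 2) (nat_lit 5) (nat_lit 2) (nat_lit 4) (nat_lit 398) (nat_lit 330)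 (nat_lit 292)))))) (XT.nd (nat_lit 468) (nat_lit 0) (nat_lit 0) (XT.nd (nat_lit 234) (nat_lit 0) (nat_lit 0) (XT.nd (nat_lit 78) (nat_lit 0) (nat_lit 0) (XT.lf (nat_lit 0) (nat_lit 763337147187) (nat_lit 76) (nat_lit 398502903297) (nat_lit 76) (nat_lit 397758157064) (nat_lit 1) (nat_lit 4) (nat_lit 2) (nat_lit 5) (nat_lit 2) (nat_lit 4) (nat_lit 399) (nat_lit 330) (nat_lit 291)) (XT.nd (nat_lit 78) (nat_lit 0) (nat_lit 0) (XT.lf (nat_lit 0) (nat_lit 912387298664) (nat_lit 76) (nat_lit 439738723690) (nat_lit 76) (nat_lit 438993558611) (nat_lit 1) (nat_lit 4) (nat_lit 2) (nat_lit 5) (nat_lit 2) (nat_lit 4) (nat_lit 400) (nat_lit 330) (nat_lit 290)) (XT.lf (nat_lit 0) (nat_lit 1083759089834) (nat_lit 76) (nat_lit 487179055774) (nat_lit 76) (nat_lit 486433526481) (nat_lit 1) (nat_lit 4) (nat_lit 2) (nat_lit 5) (nat_lit 2) (nat_lit 4) (nat_lit 401) (nat_lit 330) (nat_lit 289)))) (XT.nd (nat_lit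 78) (nat_lit 0) (nat_lit 0) (XT.lf (nat_lit 0) (nat_lit 1280805447046) (nat_lit 76) (nat_lit 541752079959) (nat_lit 76) (nat_lit 541006233958) (nat_lit 1) (nat_lit 4) (nat_lit 2) (nat_lit 5) (nat_lit 2) (nat_lit 4) (nat_lit 402) (nat_lit 330) (nat_lit 288)) (XT.nd (nat_lit 78) (nat_lit 0) (nat_lit 0) (XT.lf (nat_lit 0) (nat_lit 1507381625114) (nat_lit 76) (nat_lit 604525529328) (nat_lit 76) (nat_lit 603779407929) (nat_lit 1) (nat_lit 4) (nat_lit 2) (nat_lit 5) (nat_lit 2) (nat_lit 4) (nat_lit 403) (nat_lit 330) (nat_lit 287)) (XT.lf (nat_lit 0) (nat_lit 1767920636220) (nat_lit 76) (nat_lit 676727580063) (nat_lit 76) (nat_lit 675981219188) (nat_lit 1) (nat_lit 4) (nat_lit 2) (nat_lit 5) (nat_lit 2) (nat_lit 4) (nat_lit 404) (nat_lit 330) (nat_lit 286))))) (XT.nd (nat_lit 234) (nat_lit 0) (nat_lit 0) (XT.nd (nat_lit 78) (nat_lit 0) (nat_lit 0) (XT.lf (nat_lit 0) (nat_lit 2067519982753) (nat_lit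 76) (nat_lit 759770880984) (nat_lit 76) (nat_lit 759024311868) (nat_lit 1) (nat_lit 4) (nat_lit 2) (nat_lit 5) (nat_lit 2) (nat_lit 4) (nat_lit 405) (nat_lit 330) (nat_lit 285)) (XT.nd (nat_lit 78) (nat_lit 0) (nat_lit 0) (XT.lf (nat_lit 0) (nat_lit 2412041391059) (nat_lit 76) (nat_lit 855280192325) (nat_lit 76) (nat_lit 854533442130) (nat_lit 1) (nat_lit 4) (nat_lit 2) (nat_lit 5) (nat_lit 2) (nat_lit 4) (nat_lit 406) (nat_lit 330) (nat_lit 284)) (XT.lf (nat_lit 0) (nat_lit 2808225497388) (nat_lit 76) (nat_lit 965124174526) (nat_lit 76) (nat_lit 964377266872) (nat_lit 1) (nat_lit 4) (nat_lit 2) (nat_lit 5) (nat_lit 2) (nat_lit 4) (nat_lit 407) (nat_lit 330) (nat_lit 283)))) (XT.nd (nat_lit 156) (nat_lit 0) (nat_lit 0) (XT.nd (nat_lit 78) (nat_lit 0) (nat_lit 0) (XT.lf (nat_lit 0) (nat_lit 3263823729906) (nat_lit 76) (nat_lit 1091451948979) (nat_lit 76) (nat_lit 1090704904403) (nat_lit 1)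 (nat_lit 4) (nat_lit 2) (nat_lit 5) (nat_lit 2) (nat_lit 4) (nat_lit 408) (nat_lit 330) (nat_lit 282)) (XT.lf (nat_lit 0) (nat_lit 3787749967077) (nat_lit 76) (nat_lit 1236735146052) (nat_lit 76) (nat_lit 1235987982413) (nat_lit 1) (nat_lit 4) (nat_lit 2) (nat_lit 5) (nat_lit 2) (nat_lit 4) (nat_lit 409) (nat_lit 330) (nat_lit 281))) (XT.nd (nat_lit 78) (nat_lit 0) (nat_lit 0) (XT.lf (nat_lit 0) (nat_lit 4390254939627) (nat_lit 76) (nat_lit 1403816263079) (nat_lit 76) (nat_lit 1403068995909) (nat_lit 1) (nat_lit 4) (nat_lit 2) (nat_lit 5) (nat_lit 2) (nat_lit 4) (nat_lit 410) (nat_lit 330) (nat_lit 280)) (XT.lf (nat_lit 0) (nat_lit 5083126788323) (nat_lit 76) (nat_lit 1595964278438) (nat_lit 76) (nat_lit 1595216921239) (nat_lit 1) (nat_lit 4) (nat_lit 2) (nat_lit 5) (nat_lit 2) (nat_lit 4) (nat_lit 411) (nat_lit 330) (nat_lit 279))))))) (XT.nd (nat_lit 1014) (nat_lit 0) (nat_lit 0) (XT.nd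 (nat_lit 468) (nat_lit 0) (nat_lit 0) (XT.nd (nat_lit 234) (nat_lit 0) (nat_lit 0) (XT.nd (nat_lit 78) (nat_lit 0) (nat_lit 0) (XT.lf (nat_lit 0) (nat_lit 5879921701510) (nat_lit 76) (nat_lit 1816938609820) (nat_lit 76) (nat_lit 1816191174336) (nat_lit 1) (nat_lit 4) (nat_lit 2) (nat_lit 5) (nat_lit 2) (nat_lit 4) (nat_lit 412) (nat_lit 330) (nat_lit 278)) (XT.nd (nat_lit 78) (nat_lit 0) (nat_lit 0) (XT.lf (nat_lit 0) (nat_lit 6796229144881) (nat_lit 76) (nat_lit 2071062668057) (nat_lit 76) (nat_lit 2070315164499) (nat_lit 1) (nat_lit 4) (nat_lit 2) (nat_lit 5) (nat_lit 2) (nat_lit 4) (nat_lit 413) (nat_lit 330) (nat_lit 277)) (XT.lf (nat_lit 0) (nat_lit 7849976872762) (nat_lit 76) (nat_lit 2363308445592) (nat_lit 76) (nat_lit 2362560882838) (nat_lit 1) (nat_lit 4) (nat_lit 2) (nat_lit 5) (nat_lit 2) (nat_lit 4) (nat_lit 414) (nat_lit 330) (nat_lit 276)))) (XT.nd (nat_lit 78) (nat_lit 0)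 (nat_lit 0) (XT.lf (nat_lit 0) (nat_lit 9061781688525) (nat_lit 76) (nat_lit 2699393794594) (nat_lit 76) (nat_lit 2698646180367) (nat_lit 1) (nat_lit 4) (nat_lit 2) (nat_lit 5) (nat_lit 2) (nat_lit 4) (nat_lit 415) (nat_lit 330) (nat_lit 275)) (XT.nd (nat_lit 78) (nat_lit 0) (nat_lit 0) (XT.lf (nat_lit 0) (nat_lit 10455352816826) (nat_lit 76) (nat_lit 3085894297979) (nat_lit 76) (nat_lit 3085146638992) (nat_lit 1) (nat_lit 4) (nat_lit 2) (nat_lit 5) (nat_lit 2) (nat_lit 4) (nat_lit 416) (nat_lit 330) (nat_lit 274)) (XT.lf (nat_lit 0) (nat_lit 12057955779740) (nat_lit 76) (nat_lit 3530371922117) (nat_lit 76) (nat_lit 3529624224208) (nat_lit 1) (nat_lit 4) (nat_lit 2) (nat_lit 5) (nat_lit 2) (nat_lit 4) (nat_lit 417) (nat_lit 330) (nat_lit 273))))) (XT.nd (nat_lit 234) (nat_lit 0) (nat_lit 0) (XT.nd (nat_lit 78) (nat_lit 0) (nat_lit 0) (XT.lf (nat_lit 0) (nat_lit 13900945852630) (nat_lit 76)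 (nat_lit 4041522968351) (nat_lit 76) (nat_lit 4040775236597) (nat_lit 1) (nat_lit 4) (nat_lit 2) (nat_lit 5) (nat_lit 2) (nat_lit 4) (nat_lit 418) (nat_lit 330) (nat_lit 272)) (XT.nd (nat_lit 78) (nat_lit 0) (nat_lit 0) (XT.lf (nat_lit 0) (nat_lit 16020381536920) (nat_lit 76) (nat_lit 4629348218018) (nat_lit 76) (nat_lit 4628600456834) (nat_lit 1) (nat_lit 4) (nat_lit 2) (nat_lit 5) (nat_lit 2) (nat_lit 4) (nat_lit 419) (nat_lit 330) (nat_lit 271)) (XT.lf (nat_lit 0) (nat_lit 18457730052521) (nat_lit 76) (nat_lit 5305348599918) (nat_lit 76) (nat_lit 5304600813143) (nat_lit 1) (nat_lit 4) (nat_lit 2) (nat_lit 5) (nat_lit 2) (nat_lit 4) (nat_lit 420) (nat_lit 330) (nat_lit 270)))) (XT.nd (nat_lit 156) (nat_lit 0) (nat_lit 0) (XT.nd (nat_lit 78) (nat_lit 0) (nat_lit 0) (XT.lf (nat_lit 0) (nat_lit 21260678653000) (nat_lit 76) (nat_lit 6082750208479) (nat_lit 76) (nat_lit 6082002399450) (nat_lit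 1) (nat_lit 4) (nat_lit 2) (nat_lit 5) (nat_lit 2) (nat_lit 4) (nat_lit 421) (nat_lit 330) (nat_lit 269)) (XT.lf (nat_lit 0) (nat_lit 24484067637061) (nat_lit 76) (nat_lit 6976763075173) (nat_lit 76) (nat_lit 6976015246792) (nat_lit 1) (nat_lit 4) (nat_lit 2) (nat_lit 5) (nat_lit 2) (nat_lit 4) (nat_lit 422) (nat_lit 330) (nat_lit 268))) (XT.nd (nat_lit 78) (nat_lit 0) (nat_lit 0) (XT.lf (nat_lit 0) (nat_lit 28190963310913) (nat_lit 76) (nat_lit 8004878756086) (nat_lit 76) (nat_lit 8004130910879) (nat_lit 1) (nat_lit 4) (nat_lit 2) (nat_lit 5) (nat_lit 2) (nat_lit 4) (nat_lit 423) (nat_lit 330) (nat_lit 267)) (XT.lf (nat_lit 0) (nat_lit 32453891894264) (nat_lit 76) (nat_lit 9187212558020) (nat_lit 76) (nat_lit 9186464698181) (nat_lit 1) (nat_lit 4) (nat_lit 2) (nat_lit 5) (nat_lit 2) (nat_lit 4) (nat_lit 424) (nat_lit 330) (nat_lit 266)))))) (XT.nd (nat_lit 546) (nat_lit 0) (nat_lit 0) (XT.nd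 (nat_lit 234) (nat_lit 0) (nat_lit 0) (XT.nd (nat_lit 78) (nat_lit 0) (nat_lit 0) (XT.lf (nat_lit 0) (nat_lit 37356258511569) (nat_lit 76) (nat_lit 10546897098839) (nat_lit 76) (nat_lit 10546149226276) (nat_lit 1) (nat_lit 4) (nat_lit 2) (nat_lit 5) (nat_lit 2) (nat_lit 4) (nat_lit 425) (nat_lit 330) (nat_lit 265)) (XT.nd (nat_lit 78) (nat_lit 0) (nat_lit 0) (XT.lf (nat_lit 0) (nat_lit 42993979031429) (nat_lit 76) (nat_lit 12110534902167) (nat_lit 76) (nat_lit 12109787018540) (nat_lit 1) (nat_lit 4) (nat_lit 2) (nat_lit 5) (nat_lit 2) (nat_lit 4) (nat_lit 426) (nat_lit 330) (nat_lit 264)) (XT.lf (nat_lit 0) (nat_lit 49477356681405) (nat_lit 76) (nat_lit 13908718881547) (nat_lit 76) (nat_lit 13907970988299) (nat_lit 1) (nat_lit 4) (nat_lit 2) (nat_lit 5) (nat_lit 2) (nat_lit 4) (nat_lit 427) (nat_lit 330) (nat_lit 263)))) (XT.nd (nat_lit 156) (nat_lit 0) (nat_lit 0) (XT.nd (nat_lit 78) (nat_lit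 0) (nat_lit 0) (XT.lf (nat_lit 0) (nat_lit 56933240154650) (nat_lit 76) (nat_lit 15976630897446) (nat_lit 76) (nat_lit 15975882995833) (nat_lit 1) (nat_lit 4) (nat_lit 2) (nat_lit 5) (nat_lit 2) (nat_lit 4) (nat_lit 428) (nat_lit 330) (nat_lit 262)) (XT.lf (nat_lit 0) (nat_lit 65507505432161) (nat_lit 76) (nat_lit 18354730098001) (nat_lit 76) (nat_lit 18353982189113) (nat_lit 1) (nat_lit 4) (nat_lit 2) (nat_lit 5) (nat_lit 2) (nat_lit 4) (nat_lit 429) (nat_lit 330) (nat_lit 261))) (XT.nd (nat_lit 78) (nat_lit 0) (nat_lit 0) (XT.lf (nat_lit 0) (nat_lit 75367909878064) (nat_lit 76) (nat_lit 21089544511049) (nat_lit 76) (nat_lit 21088796595835) (nat_lit 1) (nat_lit 4) (nat_lit 2) (nat_lit 5) (nat_lit 2) (nat_lit 4) (nat_lit 430) (nat_lit 330) (nat_lit 260)) (XT.lf (nat_lit 0) (nat_lit 86707374448909) (nat_lit 76) (nat_lit 24234581375105) (nat_lit 76) (nat_lit 24233833454391) (nat_lit 1) (nat_lit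 4) (nat_lit 2) (nat_lit 5) (nat_lit 2) (nat_lit 4) (nat_lit 431) (nat_lit 330) (nat_lit 259))))) (XT.nd (nat_lit 47424) (nat_lit 0) (nat_lit 1140) (XT.nd (nat_lit 78) (nat_lit 0) (nat_lit 0) (XT.lf (nat_lit 0) (nat_lit 99747758234126) (nat_lit 76) (nat_lit 27851374020120) (nat_lit 76) (nat_lit 27850626094622) (nat_lit 1) (nat_lit 4) (nat_lit 2) (nat_lit 5) (nat_lit 2) (nat_lit 4) (nat_lit 432) (nat_lit 330) (nat_lit 258)) (XT.nd (nat_lit 47268) (nat_lit 0) (nat_lit 1596) (XT.lf (nat_lit 0) (nat_lit 114744199177339) (nat_lit 76) (nat_lit 32010685780452) (nat_lit 76) (nat_lit 32009937850795) (nat_lit 1) (nat_lit 4) (nat_lit 2) (nat_lit 5) (nat_lit 2) (nat_lit 4) (nat_lit 433) (nat_lit 330) (nat_lit 257)) (XT.lf (nat_lit 0) (nat_lit 2198689775) (nat_lit 152) (nat_lit 2930814494) (nat_lit 0) (nat_lit 2198689775) (nat_lit 22) (nat_lit 5) (nat_lit 24) (nat_lit 4) (nat_lit 22) (nat_lit 4) (nat_lit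 358) (nat_lit 331) (nat_lit 331)))) (XT.nd (nat_lit 156) (nat_lit 228) (nat_lit 0) (XT.nd (nat_lit 78) (nat_lit 152) (nat_lit 0) (XT.lf (nat_lit 0) (nat_lit 8259174378) (nat_lit 76) (nat_lit 3889304281) (nat_lit 76) (nat_lit 3590867053) (nat_lit 21) (nat_lit 4) (nat_lit 22) (nat_lit 5) (nat_lit 22) (nat_lit 4) (nat_lit 359) (nat_lit 331) (nat_lit 330)) (XT.lf (nat_lit 0) (nat_lit 3798565400) (nat_lit 152) (nat_lit 9834872579) (nat_lit 0) (nat_lit 3313393348) (nat_lit 19) (nat_lit 5) (nat_lit 21) (nat_lit 4) (nat_lit 19) (nat_lit 4) (nat_lit 360) (nat_lit 331) (nat_lit 329))) (XT.nd (nat_lit 78) (nat_lit 152) (nat_lit 0) (XT.lf (nat_lit 0) (nat_lit 5134519136) (nat_lit 76) (nat_lit 6918990043) (nat_lit 76) (nat_lit 6237590669) (nat_lit 18) (nat_lit 4) (nat_lit 19) (nat_lit 5) (nat_lit 19) (nat_lit 4) (nat_lit 361) (nat_lit 331) (nat_lit 328)) (XT.lf (nat_lit 0) (nat_lit 1552487226) (nat_lit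 152) (nat_lit 17463075259) (nat_lit 0) (nat_lit 811589984) (nat_lit 16) (nat_lit 5) (nat_lit 18) (nat_lit 4) (nat_lit 16) (nat_lit 4) (nat_lit 362) (nat_lit 331) (nat_lit 327))))))))
noncomputable def xc31 : XT := (XT.nd (nat_lit 2106) (nat_lit 76) (nat_lit 0) (XT.nd (nat_lit 1014) (nat_lit 304) (nat_lit 0) (XT.nd (nat_lit 468) (nat_lit 304) (nat_lit 0) (XT.nd (nat_lit 234) (nat_lit 228) (nat_lit 0) (XT.nd (nat_lit 78) (nat_lit 228) (nat_lit 0) (XT.lf (nat_lit 0) (nat_lit 10246576036) (nat_lit 152) (nat_lit 1869722647) (nat_lit 0) (nat_lit 9376656145) (nat_lit 16) (nat_lit 5) (nat_lit 18) (nat_lit 4) (nat_lit 16) (nat_lit 4) (nat_lit 363) (nat_lit 331) (nat_lit 326)) (XT.nd (nat_lit 78) (nat_lit 152) (nat_lit 0) (XT.lf (nat_lit 0) (nat_lit 16285077506) (nat_lit 76) (nat_lit 4046339311) (nat_lit 76) (nat_lit 3064225813) (nat_lit 15) (nat_lit 4) (nat_lit 16) (nat_lit 5) (nat_lit 16) (nat_lit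 4) (nat_lit 364) (nat_lit 331) (nat_lit 325)) (XT.lf (nat_lit 0) (nat_lit 5994900022) (nat_lit 152) (nat_lit 14461194332) (nat_lit 0) (nat_lit 5056053798) (nat_lit 13) (nat_lit 5) (nat_lit 15) (nat_lit 4) (nat_lit 13) (nat_lit 4) (nat_lit 365) (nat_lit 331) (nat_lit 324)))) (XT.nd (nat_lit 78) (nat_lit 152) (nat_lit 0) (XT.lf (nat_lit 0) (nat_lit 3576221881) (nat_lit 76) (nat_lit 12669342311) (nat_lit 76) (nat_lit 11656726968) (nat_lit 12) (nat_lit 4) (nat_lit 13) (nat_lit 5) (nat_lit 13) (nat_lit 4) (nat_lit 366) (nat_lit 331) (nat_lit 323)) (XT.nd (nat_lit 78) (nat_lit 152) (nat_lit 0) (XT.lf (nat_lit 0) (nat_lit 24769145167) (nat_lit 76) (nat_lit 3464316978) (nat_lit 76) (nat_lit 2387554576) (nat_lit 12) (nat_lit 4) (nat_lit 13) (nat_lit 5) (nat_lit 13) (nat_lit 4) (nat_lit 367) (nat_lit 331) (nat_lit 322)) (XT.lf (nat_lit 0) (nat_lit 7982283701) (nat_lit 152) (nat_lit 18649421089) (nat_lit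 0) (nat_lit 6997464176) (nat_lit 10) (nat_lit 5) (nat_lit 12) (nat_lit 4) (nat_lit 10) (nat_lit 4) (nat_lit 368) (nat_lit 331) (nat_lit 321))))) (XT.nd (nat_lit 234) (nat_lit 76) (nat_lit 0) (XT.nd (nat_lit 78) (nat_lit 152) (nat_lit 0) (XT.lf (nat_lit 0) (nat_lit 1300726282) (nat_lit 76) (nat_lit 18396339466) (nat_lit 76) (nat_lit 17369342208) (nat_lit 9) (nat_lit 4) (nat_lit 10) (nat_lit 5) (nat_lit 10) (nat_lit 4) (nat_lit 369) (nat_lit 331) (nat_lit 320)) (XT.nd (nat_lit 78) (nat_lit 152) (nat_lit 0) (XT.lf (nat_lit 0) (nat_lit 25315140411) (nat_lit 76) (nat_lit 8346910788) (nat_lit 76) (nat_lit 7283237241) (nat_lit 9) (nat_lit 4) (nat_lit 10) (nat_lit 5) (nat_lit 10) (nat_lit 4) (nat_lit 370) (nat_lit 331) (nat_lit 319)) (XT.lf (nat_lit 0) (nat_lit 3918942671) (nat_lit 152) (nat_lit 38495871289) (nat_lit 0) (nat_lit 2966276607) (nat_lit 7) (nat_lit 5) (nat_lit 9) (nat_lit 4) (nat_lit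 7) (nat_lit 4) (nat_lit 371) (nat_lit 331) (nat_lit 318)))) (XT.nd (nat_lit 156) (nat_lit 0) (nat_lit 0) (XT.nd (nat_lit 78) (nat_lit 76) (nat_lit 0) (XT.lf (nat_lit 0) (nat_lit 16871016234) (nat_lit 152) (nat_lit 17542706366) (nat_lit 0) (nat_lit 15894234915) (nat_lit 7) (nat_lit 5) (nat_lit 9) (nat_lit 4) (nat_lit 7) (nat_lit 4) (nat_lit 372) (nat_lit 331) (nat_lit 317)) (XT.lf (nat_lit 0) (nat_lit 6302044787) (nat_lit 76) (nat_lit 25343786635) (nat_lit 76) (nat_lit 24346035529) (nat_lit 6) (nat_lit 4) (nat_lit 7) (nat_lit 5) (nat_lit 7) (nat_lit 4) (nat_lit 373) (nat_lit 331) (nat_lit 316))) (XT.nd (nat_lit 78) (nat_lit 0) (nat_lit 0) (XT.lf (nat_lit 0) (nat_lit 34919558573) (nat_lit 76) (nat_lit 14270878257) (nat_lit 76) (nat_lit 13254892552) (nat_lit 6) (nat_lit 4) (nat_lit 7) (nat_lit 5) (nat_lit 7) (nat_lit 4) (nat_lit 374) (nat_lit 331) (nat_lit 315)) (XT.lf (nat_lit 0) (nat_lit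 67155342020) (nat_lit 76) (nat_lit 1895358710) (nat_lit 76) (nat_lit 863516834) (nat_lit 6) (nat_lit 4) (nat_lit 7) (nat_lit 5) (nat_lit 7) (nat_lit 4) (nat_lit 375) (nat_lit 331) (nat_lit 314)))))) (XT.nd (nat_lit 546) (nat_lit 152) (nat_lit 0) (XT.nd (nat_lit 234) (nat_lit 76) (nat_lit 0) (XT.nd (nat_lit 78) (nat_lit 0) (nat_lit 0) (XT.lf (nat_lit 0) (nat_lit 13599848652) (nat_lit 76) (nat_lit 51919082611) (nat_lit 0) (nat_lit 12690605302) (nat_lit 5) (nat_lit 5) (nat_lit 6) (nat_lit 4) (nat_lit 5) (nat_lit 4) (nat_lit 376) (nat_lit 331) (nat_lit 313)) (XT.nd (nat_lit 78) (nat_lit 0) (nat_lit 0) (XT.lf (nat_lit 0) (nat_lit 30098093821) (nat_lit 76) (nat_lit 28473400468) (nat_lit 0) (nat_lit 29178424781) (nat_lit 5) (nat_lit 5) (nat_lit 6) (nat_lit 4) (nat_lit 5) (nat_lit 4) (nat_lit 377) (nat_lit 331) (nat_lit 312)) (XT.lf (nat_lit 0) (nat_lit 48821028878) (nat_lit 76) (nat_lit 2045543966)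 (nat_lit 0) (nat_lit 47892294020) (nat_lit 5) (nat_lit 5) (nat_lit 6) (nat_lit 4) (nat_lit 5) (nat_lit 4) (nat_lit 378) (nat_lit 331) (nat_lit 311)))) (XT.nd (nat_lit 156) (nat_lit 0) (nat_lit 0) (XT.nd (nat_lit 78) (nat_lit 0) (nat_lit 0) (XT.lf (nat_lit 0) (nat_lit 30606341850) (nat_lit 76) (nat_lit 40795973615) (nat_lit 76) (nat_lit 39859355437) (nat_lit 4) (nat_lit 4) (nat_lit 5) (nat_lit 5) (nat_lit 5) (nat_lit 4) (nat_lit 379) (nat_lit 331) (nat_lit 310)) (XT.lf (nat_lit 0) (nat_lit 67942097947) (nat_lit 76) (nat_lit 29328174915) (nat_lit 76) (nat_lit 28384701676) (nat_lit 4) (nat_lit 4) (nat_lit 5) (nat_lit 5) (nat_lit 5) (nat_lit 4) (nat_lit 380) (nat_lit 331) (nat_lit 309))) (XT.nd (nat_lit 78) (nat_lit 0) (nat_lit 0) (XT.lf (nat_lit 0) (nat_lit 110492301074) (nat_lit 76) (nat_lit 16345732932) (nat_lit 76) (nat_lit 15396298771) (nat_lit 4) (nat_lit 4) (nat_lit 5) (nat_lit 5) (nat_lit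 5) (nat_lit 4) (nat_lit 381) (nat_lit 331) (nat_lit 308)) (XT.lf (nat_lit 0) (nat_lit 159089455206) (nat_lit 76) (nat_lit 1594643367) (nat_lit 76) (nat_lit 640025795) (nat_lit 4) (nat_lit 4) (nat_lit 5) (nat_lit 5) (nat_lit 5) (nat_lit 4) (nat_lit 382) (nat_lit 331) (nat_lit 307))))) (XT.nd (nat_lit 234) (nat_lit 0) (nat_lit 0) (XT.nd (nat_lit 78) (nat_lit 0) (nat_lit 0) (XT.lf (nat_lit 0) (nat_lit 16857573627) (nat_lit 152) (nat_lit 149997582739) (nat_lit 0) (nat_lit 16023551987) (nat_lit 2) (nat_lit 5) (nat_lit 4) (nat_lit 4) (nat_lit 2) (nat_lit 4) (nat_lit 383) (nat_lit 331) (nat_lit 306)) (XT.nd (nat_lit 78) (nat_lit 0) (nat_lit 0) (XT.lf (nat_lit 0) (nat_lit 36969812861) (nat_lit 152) (nat_lit 134551383796) (nat_lit 0) (nat_lit 36132383045) (nat_lit 2) (nat_lit 5) (nat_lit 4) (nat_lit 4) (nat_lit 2) (nat_lit 4) (nat_lit 384) (nat_lit 331) (nat_lit 305)) (XT.lf (nat_lit 0) (nat_lit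 59974728165) (nat_lit 152) (nat_lit 117054243131) (nat_lit 0) (nat_lit 59134334717) (nat_lit 2) (nat_lit 5) (nat_lit 4) (nat_lit 4) (nat_lit 2) (nat_lit 4) (nat_lit 385) (nat_lit 331) (nat_lit 304)))) (XT.nd (nat_lit 156) (nat_lit 0) (nat_lit 0) (XT.nd (nat_lit 78) (nat_lit 0) (nat_lit 0) (XT.lf (nat_lit 0) (nat_lit 86322415707) (nat_lit 152) (nat_lit 97163825385) (nat_lit 0) (nat_lit 85479445188) (nat_lit 2) (nat_lit 5) (nat_lit 4) (nat_lit 4) (nat_lit 2) (nat_lit 4) (nat_lit 386) (nat_lit 331) (nat_lit 303)) (XT.lf (nat_lit 0) (nat_lit 116528373722) (nat_lit 152) (nat_lit 74490970211) (nat_lit 0) (nat_lit 115683162271) (nat_lit 2) (nat_lit 5) (nat_lit 4) (nat_lit 4) (nat_lit 2) (nat_lit 4) (nat_lit 387) (nat_lit 331) (nat_lit 302))) (XT.nd (nat_lit 78) (nat_lit 0) (nat_lit 0) (XT.lf (nat_lit 0) (nat_lit 151183588344) (nat_lit 152) (nat_lit 48592078268) (nat_lit 0) (nat_lit 150336428257)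 (nat_lit 2) (nat_lit 5) (nat_lit 4) (nat_lit 4) (nat_lit 2) (nat_lit 4) (nat_lit 388) (nat_lit 331) (nat_lit 301)) (XT.lf (nat_lit 0) (nat_lit 190966096381) (nat_lit 152) (nat_lit 18960432105) (nat_lit 0) (nat_lit 190117241828) (nat_lit 2) (nat_lit 5) (nat_lit 4) (nat_lit 4) (nat_lit 2) (nat_lit 4) (nat_lit 389) (nat_lit 331) (nat_lit 300))))))) (XT.nd (nat_lit 1014) (nat_lit 0) (nat_lit 0) (XT.nd (nat_lit 468) (nat_lit 0) (nat_lit 0) (XT.nd (nat_lit 234) (nat_lit 0) (nat_lit 0) (XT.nd (nat_lit 78) (nat_lit 0) (nat_lit 0) (XT.lf (nat_lit 0) (nat_lit 16448035760) (nat_lit 76) (nat_lit 220887293577) (nat_lit 76) (nat_lit 220036965575) (nat_lit 1) (nat_lit 4) (nat_lit 2) (nat_lit 5) (nat_lit 2) (nat_lit 4) (nat_lit 390) (nat_lit 331) (nat_lit 299)) (XT.nd (nat_lit 78) (nat_lit 0) (nat_lit 0) (XT.lf (nat_lit 0) (nat_lit 59172435767) (nat_lit 76) (nat_lit 232419720252) (nat_lit 76) (nat_lit 231568110990)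 (nat_lit 1) (nat_lit 4) (nat_lit 2) (nat_lit 5) (nat_lit 2) (nat_lit 4) (nat_lit 391) (nat_lit 331) (nat_lit 298)) (XT.lf (nat_lit 0) (nat_lit 108195728770) (nat_lit 76) (nat_lit 245740556440) (nat_lit 76) (nat_lit 244887833039) (nat_lit 1) (nat_lit 4) (nat_lit 2) (nat_lit 5) (nat_lit 2) (nat_lit 4) (nat_lit 392) (nat_lit 331) (nat_lit 297)))) (XT.nd (nat_lit 78) (nat_lit 0) (nat_lit 0) (XT.lf (nat_lit 0) (nat_lit 164477066155) (nat_lit 76) (nat_lit 261110427199) (nat_lit 76) (nat_lit 260256734982) (nat_lit 1) (nat_lit 4) (nat_lit 2) (nat_lit 5) (nat_lit 2) (nat_lit 4) (nat_lit 393) (nat_lit 331) (nat_lit 296)) (XT.nd (nat_lit 78) (nat_lit 0) (nat_lit 0) (XT.lf (nat_lit 0) (nat_lit 229117604522) (nat_lit 76) (nat_lit 278830047391) (nat_lit 76) (nat_lit 277975512724) (nat_lit 1) (nat_lit 4) (nat_lit 2) (nat_lit 5) (nat_lit 2) (nat_lit 4) (nat_lit 394) (nat_lit 331) (nat_lit 295)) (XT.lf (nat_lit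 0) (nat_lit 303382050056) (nat_lit 76) (nat_lit 299246105237) (nat_lit 76) (nat_lit 298390838006) (nat_lit 1) (nat_lit 4) (nat_lit 2) (nat_lit 5) (nat_lit 2) (nat_lit 4) (nat_lit 395) (nat_lit 331) (nat_lit 294))))) (XT.nd (nat_lit 234) (nat_lit 0) (nat_lit 0) (XT.nd (nat_lit 78) (nat_lit 0) (nat_lit 0) (XT.lf (nat_lit 0) (nat_lit 388723402779) (nat_lit 76) (nat_lit 322758045348) (nat_lit 76) (nat_lit 321902141104) (nat_lit 1) (nat_lit 4) (nat_lit 2) (nat_lit 5) (nat_lit 2) (nat_lit 4) (nat_lit 396) (nat_lit 331) (nat_lit 293)) (XT.nd (nat_lit 78) (nat_lit 0) (nat_lit 0) (XT.lf (nat_lit 0) (nat_lit 486811384810) (nat_lit 76) (nat_lit 349825883942) (nat_lit 76) (nat_lit 348969425774) (nat_lit 1) (nat_lit 4) (nat_lit 2) (nat_lit 5) (nat_lit 2) (nat_lit 4) (nat_lit 397) (nat_lit 331) (nat_lit 292)) (XT.lf (nat_lit 0) (nat_lit 599565108840) (nat_lit 76) (nat_lit 380979209166) (nat_lit 76) (nat_lit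 380122269325) (nat_lit 1) (nat_lit 4) (nat_lit 2) (nat_lit 5) (nat_lit 2) (nat_lit 4) (nat_lit 398) (nat_lit 331) (nat_lit 291)))) (XT.nd (nat_lit 156) (nat_lit 0) (nat_lit 0) (XT.nd (nat_lit 78) (nat_lit 0) (nat_lit 0) (XT.lf (nat_lit 0) (nat_lit 729190625992) (nat_lit 76) (nat_lit 416827542601) (nat_lit 76) (nat_lit 415970183914) (nat_lit 1) (nat_lit 4) (nat_lit 2) (nat_lit 5) (nat_lit 2) (nat_lit 4) (nat_lit 399) (nat_lit 331) (nat_lit 290)) (XT.lf (nat_lit 0) (nat_lit 878224087689) (nat_lit 76) (nat_lit 458072264683) (nat_lit 76) (nat_lit 457214541782) (nat_lit 1) (nat_lit 4) (nat_lit 2) (nat_lit 5) (nat_lit 2) (nat_lit 4) (nat_lit 400) (nat_lit 331) (nat_lit 289))) (XT.nd (nat_lit 78) (nat_lit 0) (nat_lit 0) (XT.lf (nat_lit 0) (nat_lit 1049581366006) (nat_lit 76) (nat_lit 505520337366) (nat_lit 76) (nat_lit 504662297757) (nat_lit 1) (nat_lit 4) (nat_lit 2) (nat_lit 5) (nat_lit 2) (nat_lit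 4) (nat_lit 401) (nat_lit 331) (nat_lit 288)) (XT.lf (nat_lit 0) (nat_lit 1246615103346) (nat_lit 76) (nat_lit 560100092508) (nat_lit 76) (nat_lit 559241777501) (nat_lit 1) (nat_lit 4) (nat_lit 2) (nat_lit 5) (nat_lit 2) (nat_lit 4) (nat_lit 402) (nat_lit 331) (nat_lit 287)))))) (XT.nd (nat_lit 546) (nat_lit 0) (nat_lit 0) (XT.nd (nat_lit 234) (nat_lit 0) (nat_lit 0) (XT.nd (nat_lit 78) (nat_lit 0) (nat_lit 0) (XT.lf (nat_lit 0) (nat_lit 1473180307613) (nat_lit 76) (nat_lit 622879394881) (nat_lit 76) (nat_lit 622020840398) (nat_lit 1) (nat_lit 4) (nat_lit 2) (nat_lit 5) (nat_lit 2) (nat_lit 4) (nat_lit 403) (nat_lit 331) (nat_lit 286)) (XT.nd (nat_lit 78) (nat_lit 0) (nat_lit 0) (XT.lf (nat_lit 0) (nat_lit 1733709776282) (nat_lit 76) (nat_lit 695086535186) (nat_lit 76) (nat_lit 694227772462) (nat_lit 1) (nat_lit 4) (nat_lit 2) (nat_lit 5) (nat_lit 2) (nat_lit 4) (nat_lit 404) (nat_lit 331)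 (nat_lit 285)) (XT.lf (nat_lit 0) (nat_lit 2033300825044) (nat_lit 76) (nat_lit 778134261820) (nat_lit 76) (nat_lit 777275318017) (nat_lit 1) (nat_lit 4) (nat_lit 2) (nat_lit 5) (nat_lit 2) (nat_lit 4) (nat_lit 405) (nat_lit 331) (nat_lit 284)))) (XT.nd (nat_lit 156) (nat_lit 0) (nat_lit 0) (XT.nd (nat_lit 78) (nat_lit 0) (nat_lit 0) (XT.lf (nat_lit 0) (nat_lit 2377815017898) (nat_lit 76) (nat_lit 873647421607) (nat_lit 76) (nat_lit 872788320345) (nat_lit 1) (nat_lit 4) (nat_lit 2) (nat_lit 5) (nat_lit 2) (nat_lit 4) (nat_lit 406) (nat_lit 331) (nat_lit 283)) (XT.lf (nat_lit 0) (nat_lit 2773992849920) (nat_lit 76) (nat_lit 983494750283) (nat_lit 76) (nat_lit 982635512099) (nat_lit 1) (nat_lit 4) (nat_lit 2) (nat_lit 5) (nat_lit 2) (nat_lit 4) (nat_lit 407) (nat_lit 331) (nat_lit 282))) (XT.nd (nat_lit 78) (nat_lit 0) (nat_lit 0) (XT.lf (nat_lit 0) (nat_lit 3229585626519) (nat_lit 76) (nat_lit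 1109825434714) (nat_lit 76) (nat_lit 1108966077467) (nat_lit 1) (nat_lit 4) (nat_lit 2) (nat_lit 5) (nat_lit 2) (nat_lit 4) (nat_lit 408) (nat_lit 331) (nat_lit 281)) (XT.lf (nat_lit 0) (nat_lit 3753507119413) (nat_lit 76) (nat_lit 1255111162202) (nat_lit 76) (nat_lit 1254251701424) (nat_lit 1) (nat_lit 4) (nat_lit 2) (nat_lit 5) (nat_lit 2) (nat_lit 4) (nat_lit 409) (nat_lit 331) (nat_lit 280))))) (XT.nd (nat_lit 234) (nat_lit 0) (nat_lit 0) (XT.nd (nat_lit 78) (nat_lit 0) (nat_lit 0) (XT.lf (nat_lit 0) (nat_lit 4356007966504) (nat_lit 76) (nat_lit 1422194479591) (nat_lit 76) (nat_lit 1421334928785) (nat_lit 1) (nat_lit 4) (nat_lit 2) (nat_lit 5) (nat_lit 2) (nat_lit 4) (nat_lit 410) (nat_lit 331) (nat_lit 279)) (XT.nd (nat_lit 78) (nat_lit 0) (nat_lit 0) (XT.lf (nat_lit 0) (nat_lit 5048876227845) (nat_lit 76) (nat_lit 1614344408308) (nat_lit 76) (nat_lit 1613484779216) (nat_lit 1) (nat_lit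 4) (nat_lit 2) (nat_lit 5) (nat_lit 2) (nat_lit 4) (nat_lit 411) (nat_lit 331) (nat_lit 278)) (XT.lf (nat_lit 0) (nat_lit 5845668021593) (nat_lit 76) (nat_lit 1835320403480) (nat_lit 76) (nat_lit 1834460706313) (nat_lit 1) (nat_lit 4) (nat_lit 2) (nat_lit 5) (nat_lit 2) (nat_lit 4) (nat_lit 412) (nat_lit 331) (nat_lit 277)))) (XT.nd (nat_lit 156) (nat_lit 0) (nat_lit 0) (XT.nd (nat_lit 78) (nat_lit 0) (nat_lit 0) (XT.lf (nat_lit 0) (nat_lit 6761972752408) (nat_lit 76) (nat_lit 2089445908490) (nat_lit 76) (nat_lit 2088586152128) (nat_lit 1) (nat_lit 4) (nat_lit 2) (nat_lit 5) (nat_lit 2) (nat_lit 4) (nat_lit 413) (nat_lit 331) (nat_lit 276)) (XT.lf (nat_lit 0) (nat_lit 7815718121544) (nat_lit 76) (nat_lit 2381692944088) (nat_lit 76) (nat_lit 2380833136253) (nat_lit 1) (nat_lit 4) (nat_lit 2) (nat_lit 5) (nat_lit 2) (nat_lit 4) (nat_lit 414) (nat_lit 331) (nat_lit 275))) (XT.nd (nat_lit 78)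 (nat_lit 0) (nat_lit 0) (XT.lf (nat_lit 0) (nat_lit 9027520886225) (nat_lit 76) (nat_lit 2717779387059) (nat_lit 76) (nat_lit 2716919534464) (nat_lit 1) (nat_lit 4) (nat_lit 2) (nat_lit 5) (nat_lit 2) (nat_lit 4) (nat_lit 415) (nat_lit 331) (nat_lit 274)) (XT.lf (nat_lit 0) (nat_lit 10421090230976) (nat_lit 76) (nat_lit 3104280841721) (nat_lit 76) (nat_lit 3103420950204) (nat_lit 1) (nat_lit 4) (nat_lit 2) (nat_lit 5) (nat_lit 2) (nat_lit 4) (nat_lit 416) (nat_lit 331) (nat_lit 273))))))))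
noncomputable def xc32 : XT := (XT.nd (nat_lit 49062) (nat_lit 0) (nat_lit 0) (XT.nd (nat_lit 1014) (nat_lit 0) (nat_lit 0) (XT.nd (nat_lit 468) (nat_lit 0) (nat_lit 0) (XT.nd (nat_lit 234) (nat_lit 0) (nat_lit 0) (XT.nd (nat_lit 78) (nat_lit 0) (nat_lit 0) (XT.lf (nat_lit 0) (nat_lit 12023691642978) (nat_lit 76) (nat_lit 3548759293057) (nat_lit 76) (nat_lit 3547899367695) (nat_lit 1) (nat_lit 4) (nat_lit 2) (nat_lit 5) (nat_lit 2) (nat_lit 4) (nat_lit 417) (nat_lit 331) (nat_lit 272)) (XT.nd (nat_lit 78) (nat_lit 0) (nat_lit 0) (XT.lf (nat_lit 0) (nat_lit 13866680367248) (nat_lit 76) (nat_lit 4059911058592) (nat_lit 76) (nat_lit 4059051103800) (nat_lit 1) (nat_lit 4) (nat_lit 2) (nat_lit 5) (nat_lit 2) (nat_lit 4) (nat_lit 418) (nat_lit 331) (nat_lit 271)) (XT.lf (nat_lit 0) (nat_lit 15986114878825) (nat_lit 76) (nat_lit 4647736933740) (nat_lit 76) (nat_lit 4646876953356) (nat_lit 1) (nat_lit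 4) (nat_lit 2) (nat_lit 5) (nat_lit 2) (nat_lit 4) (nat_lit 419) (nat_lit 331) (nat_lit 270)))) (XT.nd (nat_lit 78) (nat_lit 0) (nat_lit 0) (XT.lf (nat_lit 0) (nat_lit 18423462374676) (nat_lit 76) (nat_lit 5323737859536) (nat_lit 76) (nat_lit 5322877856898) (nat_lit 1) (nat_lit 4) (nat_lit 2) (nat_lit 5) (nat_lit 2) (nat_lit 4) (nat_lit 420) (nat_lit 331) (nat_lit 269)) (XT.nd (nat_lit 78) (nat_lit 0) (nat_lit 0) (XT.lf (nat_lit 0) (nat_lit 21226410088416) (nat_lit 76) (nat_lit 6101139941049) (nat_lit 76) (nat_lit 6100279919061) (nat_lit 1) (nat_lit 4) (nat_lit 2) (nat_lit 5) (nat_lit 2) (nat_lit 4) (nat_lit 421) (nat_lit 331) (nat_lit 268)) (XT.lf (nat_lit 0) (nat_lit 24449798301399) (nat_lit 76) (nat_lit 6995153219006) (nat_lit 76) (nat_lit 6994293180191) (nat_lit 1) (nat_lit 4) (nat_lit 2) (nat_lit 5) (nat_lit 2) (nat_lit 4) (nat_lit 422) (nat_lit 331) (nat_lit 267))))) (XT.nd (nat_lit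 234) (nat_lit 0) (nat_lit 0) (XT.nd (nat_lit 78) (nat_lit 0) (nat_lit 0) (XT.lf (nat_lit 0) (nat_lit 28156693304749) (nat_lit 76) (nat_lit 8023269257540) (nat_lit 76) (nat_lit 8022409204092) (nat_lit 1) (nat_lit 4) (nat_lit 2) (nat_lit 5) (nat_lit 2) (nat_lit 4) (nat_lit 423) (nat_lit 331) (nat_lit 266)) (XT.nd (nat_lit 78) (nat_lit 0) (nat_lit 0) (XT.lf (nat_lit 0) (nat_lit 32419621305054) (nat_lit 76) (nat_lit 9205603370448) (nat_lit 76) (nat_lit 9204743304277) (nat_lit 1) (nat_lit 4) (nat_lit 2) (nat_lit 5) (nat_lit 2) (nat_lit 4) (nat_lit 424) (nat_lit 331) (nat_lit 265)) (XT.lf (nat_lit 0) (nat_lit 37321987415364) (nat_lit 76) (nat_lit 10565288181679) (nat_lit 76) (nat_lit 10564428104444) (nat_lit 1) (nat_lit 4) (nat_lit 2) (nat_lit 5) (nat_lit 2) (nat_lit 4) (nat_lit 425) (nat_lit 331) (nat_lit 264)))) (XT.nd (nat_lit 156) (nat_lit 0) (nat_lit 0) (XT.nd (nat_lit 78) (nat_lit 0) (nat_lit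 0) (XT.lf (nat_lit 0) (nat_lit 42959707494357) (nat_lit 76) (nat_lit 12128926220148) (nat_lit 76) (nat_lit 12128066133292) (nat_lit 1) (nat_lit 4) (nat_lit 2) (nat_lit 5) (nat_lit 2) (nat_lit 4) (nat_lit 426) (nat_lit 331) (nat_lit 263)) (XT.lf (nat_lit 0) (nat_lit 49443084760971) (nat_lit 76) (nat_lit 13927110403999) (nat_lit 76) (nat_lit 13926250308777) (nat_lit 1) (nat_lit 4) (nat_lit 2) (nat_lit 5) (nat_lit 2) (nat_lit 4) (nat_lit 427) (nat_lit 331) (nat_lit 262))) (XT.nd (nat_lit 78) (nat_lit 0) (nat_lit 0) (XT.lf (nat_lit 0) (nat_lit 56898967900858) (nat_lit 76) (nat_lit 15995022597698) (nat_lit 76) (nat_lit 15994162495202) (nat_lit 1) (nat_lit 4) (nat_lit 2) (nat_lit 5) (nat_lit 2) (nat_lit 4) (nat_lit 428) (nat_lit 331) (nat_lit 261)) (XT.lf (nat_lit 0) (nat_lit 65473232888492) (nat_lit 76) (nat_lit 18373121952862) (nat_lit 76) (nat_lit 18372261844040) (nat_lit 1) (nat_lit 4) (nat_lit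 2) (nat_lit 5) (nat_lit 2) (nat_lit 4) (nat_lit 429) (nat_lit 331) (nat_lit 260)))))) (XT.nd (nat_lit 47502) (nat_lit 0) (nat_lit 1064) (XT.nd (nat_lit 234) (nat_lit 0) (nat_lit 0) (XT.nd (nat_lit 78) (nat_lit 0) (nat_lit 0) (XT.lf (nat_lit 0) (nat_lit 75333637082329) (nat_lit 76) (nat_lit 21107936500353) (nat_lit 76) (nat_lit 21107076386030) (nat_lit 1) (nat_lit 4) (nat_lit 2) (nat_lit 5) (nat_lit 2) (nat_lit 4) (nat_lit 430) (nat_lit 331) (nat_lit 259)) (XT.nd (nat_lit 78) (nat_lit 0) (nat_lit 0) (XT.lf (nat_lit 0) (nat_lit 86673101433986) (nat_lit 76) (nat_lit 24252973481316) (nat_lit 76) (nat_lit 24252113362210) (nat_lit 1) (nat_lit 4) (nat_lit 2) (nat_lit 5) (nat_lit 2) (nat_lit 4) (nat_lit 431) (nat_lit 331) (nat_lit 258)) (XT.lf (nat_lit 0) (nat_lit 99713485028604) (nat_lit 76) (nat_lit 27869766227989) (nat_lit 76) (nat_lit 27868906104723) (nat_lit 1) (nat_lit 4) (nat_lit 2) (nat_lit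 5) (nat_lit 2) (nat_lit 4) (nat_lit 432) (nat_lit 331) (nat_lit 257)))) (XT.nd (nat_lit 47112) (nat_lit 0) (nat_lit 1748) (XT.lf (nat_lit 0) (nat_lit 114709925806079) (nat_lit 76) (nat_lit 32029078076719) (nat_lit 76) (nat_lit 32028217949837) (nat_lit 1) (nat_lit 4) (nat_lit 2) (nat_lit 5) (nat_lit 2) (nat_lit 4) (nat_lit 433) (nat_lit 331) (nat_lit 256)) (XT.nd (nat_lit 78) (nat_lit 76) (nat_lit 0) (XT.lf (nat_lit 0) (nat_lit 2306284681) (nat_lit 152) (nat_lit 1778652284) (nat_lit 0) (nat_lit 2306284681) (nat_lit 25) (nat_lit 5) (nat_lit 27) (nat_lit 4) (nat_lit 25) (nat_lit 4) (nat_lit 356) (nat_lit 332) (nat_lit 332)) (XT.lf (nat_lit 0) (nat_lit 8969595833) (nat_lit 76) (nat_lit 2561233142) (nat_lit 76) (nat_lit 2166549909) (nat_lit 24) (nat_lit 4) (nat_lit 25) (nat_lit 5) (nat_lit 25) (nat_lit 4) (nat_lit 357) (nat_lit 332) (nat_lit 331))))) (XT.nd (nat_lit 234) (nat_lit 304) (nat_lit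 0) (XT.nd (nat_lit 78) (nat_lit 228) (nat_lit 0) (XT.lf (nat_lit 0) (nat_lit 4418186898) (nat_lit 152) (nat_lit 6510027121) (nat_lit 0) (nat_lit 3776546859) (nat_lit 22) (nat_lit 5) (nat_lit 24) (nat_lit 4) (nat_lit 22) (nat_lit 4) (nat_lit 358) (nat_lit 332) (nat_lit 330)) (XT.nd (nat_lit 78) (nat_lit 152) (nat_lit 0) (XT.lf (nat_lit 0) (nat_lit 6928484575) (nat_lit 76) (nat_lit 4905356524) (nat_lit 76) (nat_lit 4004205852) (nat_lit 21) (nat_lit 4) (nat_lit 22) (nat_lit 5) (nat_lit 22) (nat_lit 4) (nat_lit 359) (nat_lit 332) (nat_lit 329)) (XT.lf (nat_lit 0) (nat_lit 2994346530) (nat_lit 152) (nat_lit 12103404037) (nat_lit 0) (nat_lit 2014509929) (nat_lit 19) (nat_lit 5) (nat_lit 21) (nat_lit 4) (nat_lit 19) (nat_lit 4) (nat_lit 360) (nat_lit 332) (nat_lit 328)))) (XT.nd (nat_lit 156) (nat_lit 228) (nat_lit 0) (XT.nd (nat_lit 78) (nat_lit 0) (nat_lit 0) (XT.lf (nat_lit 0) (nat_lit 2020700251)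 (nat_lit 76) (nat_lit 8823532108) (nat_lit 76) (nat_lit 7673063053) (nat_lit 18) (nat_lit 4) (nat_lit 19) (nat_lit 5) (nat_lit 19) (nat_lit 4) (nat_lit 361) (nat_lit 332) (nat_lit 327)) (XT.lf (nat_lit 0) (nat_lit 18457835513) (nat_lit 76) (nat_lit 1481941574) (nat_lit 76) (nat_lit 183096473) (nat_lit 18) (nat_lit 4) (nat_lit 19) (nat_lit 5) (nat_lit 19) (nat_lit 4) (nat_lit 362) (nat_lit 332) (nat_lit 326))) (XT.nd (nat_lit 78) (nat_lit 76) (nat_lit 0) (XT.lf (nat_lit 0) (nat_lit 8113296316) (nat_lit 152) (nat_lit 6866949207) (nat_lit 0) (nat_lit 6871672185) (nat_lit 16) (nat_lit 5) (nat_lit 18) (nat_lit 4) (nat_lit 16) (nat_lit 4) (nat_lit 363) (nat_lit 332) (nat_lit 325)) (XT.lf (nat_lit 0) (nat_lit 10254566451) (nat_lit 76) (nat_lit 7456168768) (nat_lit 76) (nat_lit 6116984978) (nat_lit 15) (nat_lit 4) (nat_lit 16) (nat_lit 5) (nat_lit 16) (nat_lit 4) (nat_lit 364) (nat_lit 332) (nat_lit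 324))))))) (XT.nd (nat_lit 1014) (nat_lit 304) (nat_lit 0) (XT.nd (nat_lit 468) (nat_lit 304) (nat_lit 0) (XT.nd (nat_lit 234) (nat_lit 228) (nat_lit 0) (XT.nd (nat_lit 78) (nat_lit 76) (nat_lit 0) (XT.lf (nat_lit 0) (nat_lit 2493463055) (nat_lit 152) (nat_lit 22322609266) (nat_lit 0) (nat_lit 1255186293) (nat_lit 13) (nat_lit 5) (nat_lit 15) (nat_lit 4) (nat_lit 13) (nat_lit 4) (nat_lit 365) (nat_lit 332) (nat_lit 323)) (XT.nd (nat_lit 78) (nat_lit 76) (nat_lit 0) (XT.lf (nat_lit 0) (nat_lit 12359939633) (nat_lit 152) (nat_lit 5101577212) (nat_lit 0) (nat_lit 11057515812) (nat_lit 13) (nat_lit 5) (nat_lit 15) (nat_lit 4) (nat_lit 13) (nat_lit 4) (nat_lit 366) (nat_lit 332) (nat_lit 322)) (XT.lf (nat_lit 0) (nat_lit 15117415239) (nat_lit 76) (nat_lit 8773540802) (nat_lit 76) (nat_lit 7415336928) (nat_lit 12) (nat_lit 4) (nat_lit 13) (nat_lit 5) (nat_lit 13) (nat_lit 4) (nat_lit 367) (nat_lit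 332) (nat_lit 321)))) (XT.nd (nat_lit 78) (nat_lit 76) (nat_lit 0) (XT.lf (nat_lit 0) (nat_lit 2454967150) (nat_lit 152) (nat_lit 30801037179) (nat_lit 0) (nat_lit 1231742571) (nat_lit 10) (nat_lit 5) (nat_lit 12) (nat_lit 4) (nat_lit 10) (nat_lit 4) (nat_lit 368) (nat_lit 332) (nat_lit 320)) (XT.nd (nat_lit 78) (nat_lit 76) (nat_lit 0) (XT.lf (nat_lit 0) (nat_lit 13911488787) (nat_lit 152) (nat_lit 11400649902) (nat_lit 0) (nat_lit 12651587919) (nat_lit 10) (nat_lit 5) (nat_lit 12) (nat_lit 4) (nat_lit 10) (nat_lit 4) (nat_lit 369) (nat_lit 332) (nat_lit 319)) (XT.lf (nat_lit 0) (nat_lit 11085374831) (nat_lit 76) (nat_lit 16077996236) (nat_lit 76) (nat_lit 14786202941) (nat_lit 9) (nat_lit 4) (nat_lit 10) (nat_lit 5) (nat_lit 10) (nat_lit 4) (nat_lit 370) (nat_lit 332) (nat_lit 318))))) (XT.nd (nat_lit 234) (nat_lit 152) (nat_lit 0) (XT.nd (nat_lit 78) (nat_lit 152) (nat_lit 0) (XT.lf (nat_lit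 0) (nat_lit 37451141566) (nat_lit 76) (nat_lit 5183474232) (nat_lit 76) (nat_lit 3863948394) (nat_lit 9) (nat_lit 4) (nat_lit 10) (nat_lit 5) (nat_lit 10) (nat_lit 4) (nat_lit 371) (nat_lit 332) (nat_lit 317)) (XT.nd (nat_lit 78) (nat_lit 0) (nat_lit 0) (XT.lf (nat_lit 0) (nat_lit 8609434011) (nat_lit 152) (nat_lit 35522350288) (nat_lit 0) (nat_lit 7441050451) (nat_lit 7) (nat_lit 5) (nat_lit 9) (nat_lit 4) (nat_lit 7) (nat_lit 4) (nat_lit 372) (nat_lit 332) (nat_lit 316)) (XT.lf (nat_lit 0) (nat_lit 22969190356) (nat_lit 152) (nat_lit 12567241282) (nat_lit 0) (nat_lit 21782572198) (nat_lit 7) (nat_lit 5) (nat_lit 9) (nat_lit 4) (nat_lit 7) (nat_lit 4) (nat_lit 373) (nat_lit 332) (nat_lit 315)))) (XT.nd (nat_lit 156) (nat_lit 76) (nat_lit 0) (XT.nd (nat_lit 78) (nat_lit 0) (nat_lit 0) (XT.lf (nat_lit 0) (nat_lit 14508455679) (nat_lit 76) (nat_lit 25287110068) (nat_lit 76) (nat_lit 24084635738)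 (nat_lit 6) (nat_lit 4) (nat_lit 7) (nat_lit 5) (nat_lit 7) (nat_lit 4) (nat_lit 374) (nat_lit 332) (nat_lit 314)) (XT.lf (nat_lit 0) (nat_lit 46471495988) (nat_lit 76) (nat_lit 13056514723) (nat_lit 76) (nat_lit 11840252418) (nat_lit 6) (nat_lit 4) (nat_lit 7) (nat_lit 5) (nat_lit 7) (nat_lit 4) (nat_lit 375) (nat_lit 332) (nat_lit 313))) (XT.nd (nat_lit 78) (nat_lit 0) (nat_lit 0) (XT.lf (nat_lit 0) (nat_lit 1950246982) (nat_lit 76) (nat_lit 77146825855) (nat_lit 0) (nat_lit 882201895) (nat_lit 5) (nat_lit 5) (nat_lit 6) (nat_lit 4) (nat_lit 5) (nat_lit 4) (nat_lit 376) (nat_lit 332) (nat_lit 312)) (XT.lf (nat_lit 0) (nat_lit 18332191273) (nat_lit 76) (nat_lit 53949831137) (nat_lit 0) (nat_lit 17255080369) (nat_lit 5) (nat_lit 5) (nat_lit 6) (nat_lit 4) (nat_lit 5) (nat_lit 4) (nat_lit 377) (nat_lit 332) (nat_lit 311)))))) (XT.nd (nat_lit 546) (nat_lit 76) (nat_lit 0) (XT.nd (nat_lit 234)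 (nat_lit 152) (nat_lit 0) (XT.nd (nat_lit 78) (nat_lit 76) (nat_lit 0) (XT.lf (nat_lit 0) (nat_lit 36953995132) (nat_lit 76) (nat_lit 27738224568) (nat_lit 0) (nat_lit 35869000908) (nat_lit 5) (nat_lit 5) (nat_lit 6) (nat_lit 4) (nat_lit 5) (nat_lit 4) (nat_lit 378) (nat_lit 332) (nat_lit 310)) (XT.nd (nat_lit 78) (nat_lit 0) (nat_lit 0) (XT.lf (nat_lit 0) (nat_lit 2196365252) (nat_lit 76) (nat_lit 56074579748) (nat_lit 76) (nat_lit 54982730463) (nat_lit 4) (nat_lit 4) (nat_lit 5) (nat_lit 5) (nat_lit 5) (nat_lit 4) (nat_lit 379) (nat_lit 332) (nat_lit 309)) (XT.lf (nat_lit 0) (nat_lit 39352625356) (nat_lit 76) (nat_lit 44702374779) (nat_lit 76) (nat_lit 43604564572) (nat_lit 4) (nat_lit 4) (nat_lit 5) (nat_lit 5) (nat_lit 5) (nat_lit 4) (nat_lit 380) (nat_lit 332) (nat_lit 308)))) (XT.nd (nat_lit 156) (nat_lit 152) (nat_lit 0) (XT.nd (nat_lit 78) (nat_lit 0) (nat_lit 0) (XT.lf (nat_lit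 0) (nat_lit 81746745012) (nat_lit 76) (nat_lit 31803057780) (nat_lit 76) (nat_lit 30700064162) (nat_lit 4) (nat_lit 4) (nat_lit 5) (nat_lit 5) (nat_lit 5) (nat_lit 4) (nat_lit 381) (nat_lit 332) (nat_lit 307)) (XT.lf (nat_lit 0) (nat_lit 130208174385) (nat_lit 76) (nat_lit 17124250809) (nat_lit 76) (nat_lit 16016749877) (nat_lit 4) (nat_lit 4) (nat_lit 5) (nat_lit 5) (nat_lit 5) (nat_lit 4) (nat_lit 382) (nat_lit 332) (nat_lit 306))) (XT.nd (nat_lit 78) (nat_lit 0) (nat_lit 0) (XT.lf (nat_lit 0) (nat_lit 355183699) (nat_lit 76) (nat_lit 326957711) (nat_lit 152) (nat_lit 184642272970) (nat_lit 2) (nat_lit 5) (nat_lit 3) (nat_lit 5) (nat_lit 4) (nat_lit 4) (nat_lit 383) (nat_lit 332) (nat_lit 305)) (XT.lf (nat_lit 0) (nat_lit 20723093273) (nat_lit 152) (nat_lit 169633208521) (nat_lit 0) (nat_lit 19753677175) (nat_lit 2) (nat_lit 5) (nat_lit 4) (nat_lit 4) (nat_lit 2) (nat_lit 4) (nat_lit 384)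 (nat_lit 332) (nat_lit 304))))) (XT.nd (nat_lit 234) (nat_lit 76) (nat_lit 0) (XT.nd (nat_lit 78) (nat_lit 0) (nat_lit 0) (XT.lf (nat_lit 0) (nat_lit 43677792271) (nat_lit 152) (nat_lit 152243646470) (nat_lit 0) (nat_lit 42705799102) (nat_lit 2) (nat_lit 5) (nat_lit 4) (nat_lit 4) (nat_lit 2) (nat_lit 4) (nat_lit 385) (nat_lit 332) (nat_lit 303)) (XT.nd (nat_lit 78) (nat_lit 0) (nat_lit 0) (XT.lf (nat_lit 0) (nat_lit 69981813460) (nat_lit 152) (nat_lit 132446775344) (nat_lit 0) (nat_lit 69007579360) (nat_lit 2) (nat_lit 5) (nat_lit 4) (nat_lit 4) (nat_lit 2) (nat_lit 4) (nat_lit 386) (nat_lit 332) (nat_lit 302)) (XT.lf (nat_lit 0) (nat_lit 100149800733) (nat_lit 152) (nat_lit 109855265057) (nat_lit 0) (nat_lit 99173617996) (nat_lit 2) (nat_lit 5) (nat_lit 4) (nat_lit 4) (nat_lit 2) (nat_lit 4) (nat_lit 387) (nat_lit 332) (nat_lit 301)))) (XT.nd (nat_lit 156) (nat_lit 76) (nat_lit 0) (XT.nd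 (nat_lit 78) (nat_lit 0) (nat_lit 0) (XT.lf (nat_lit 0) (nat_lit 134771997318) (nat_lit 152) (nat_lit 84027107798) (nat_lit 0) (nat_lit 133794120116) (nat_lit 2) (nat_lit 5) (nat_lit 4) (nat_lit 4) (nat_lit 2) (nat_lit 4) (nat_lit 388) (nat_lit 332) (nat_lit 300)) (XT.lf (nat_lit 0) (nat_lit 174525794020) (nat_lit 152) (nat_lit 54456970056) (nat_lit 0) (nat_lit 173546443369) (nat_lit 2) (nat_lit 5) (nat_lit 4) (nat_lit 4) (nat_lit 2) (nat_lit 4) (nat_lit 389) (nat_lit 332) (nat_lit 299))) (XT.nd (nat_lit 78) (nat_lit 76) (nat_lit 0) (XT.lf (nat_lit 0) (nat_lit 220188982512) (nat_lit 152) (nat_lit 20566305658) (nat_lit 0) (nat_lit 219208350601) (nat_lit 2) (nat_lit 5) (nat_lit 4) (nat_lit 4) (nat_lit 2) (nat_lit 4) (nat_lit 390) (nat_lit 332) (nat_lit 298)) (XT.lf (nat_lit 0) (nat_lit 20097150965) (nat_lit 76) (nat_lit 253390002203) (nat_lit 76) (nat_lit 252408256153) (nat_lit 1) (nat_lit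 4) (nat_lit 2) (nat_lit 5) (nat_lit 2) (nat_lit 4) (nat_lit 391) (nat_lit 332) (nat_lit 297))))))))
noncomputable def xc33 : XT := (XT.nd (nat_lit 2028) (nat_lit 0) (nat_lit 0) (XT.nd (nat_lit 1014) (nat_lit 0) (nat_lit 0) (XT.nd (nat_lit 468) (nat_lit 0) (nat_lit 0) (XT.nd (nat_lit 234) (nat_lit 0) (nat_lit 0) (XT.nd (nat_lit 78) (nat_lit 0) (nat_lit 0) (XT.lf (nat_lit 0) (nat_lit 69076048820) (nat_lit 76) (nat_lit 266734517062) (nat_lit 76) (nat_lit 265751802196) (nat_lit 1) (nat_lit 4) (nat_lit 2) (nat_lit 5) (nat_lit 2) (nat_lit 4) (nat_lit 392) (nat_lit 332) (nat_lit 296)) (XT.nd (nat_lit 78) (nat_lit 0) (nat_lit 0) (XT.lf (nat_lit 0) (nat_lit 125318781728) (nat_lit 76) (nat_lit 282124977970) (nat_lit 76) (nat_lit 281141420654) (nat_lit 1) (nat_lit 4) (nat_lit 2) (nat_lit 5) (nat_lit 2) (nat_lit 4) (nat_lit 393) (nat_lit 332) (nat_lit 295)) (XT.lf (nat_lit 0) (nat_lit 189925750984)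 (nat_lit 76) (nat_lit 299862502639) (nat_lit 76) (nat_lit 298878212758) (nat_lit 1) (nat_lit 4) (nat_lit 2) (nat_lit 5) (nat_lit 2) (nat_lit 4) (nat_lit 394) (nat_lit 332) (nat_lit 294)))) (XT.nd (nat_lit 78) (nat_lit 0) (nat_lit 0) (XT.lf (nat_lit 0) (nat_lit 264161005988) (nat_lit 76) (nat_lit 320294129595) (nat_lit 76) (nat_lit 319309202702) (nat_lit 1) (nat_lit 4) (nat_lit 2) (nat_lit 5) (nat_lit 2) (nat_lit 4) (nat_lit 395) (nat_lit 332) (nat_lit 293)) (XT.nd (nat_lit 78) (nat_lit 0) (nat_lit 0) (XT.lf (nat_lit 0) (nat_lit 349476975641) (nat_lit 76) (nat_lit 343819608062) (nat_lit 76) (nat_lit 342834127245) (nat_lit 1) (nat_lit 4) (nat_lit 2) (nat_lit 5) (nat_lit 2) (nat_lit 4) (nat_lit 396) (nat_lit 332) (nat_lit 292)) (XT.lf (nat_lit 0) (nat_lit 447542885437) (nat_lit 76) (nat_lit 370899219140) (nat_lit 76) (nat_lit 369913256650) (nat_lit 1) (nat_lit 4) (nat_lit 2) (nat_lit 5) (nat_lit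 2) (nat_lit 4) (nat_lit 397) (nat_lit 332) (nat_lit 291))))) (XT.nd (nat_lit 234) (nat_lit 0) (nat_lit 0) (XT.nd (nat_lit 78) (nat_lit 0) (nat_lit 0) (XT.lf (nat_lit 0) (nat_lit 560277416219) (nat_lit 76) (nat_lit 402062781307) (nat_lit 76) (nat_lit 401076399971) (nat_lit 1) (nat_lit 4) (nat_lit 2) (nat_lit 5) (nat_lit 2) (nat_lit 4) (nat_lit 398) (nat_lit 332) (nat_lit 290)) (XT.nd (nat_lit 78) (nat_lit 0) (nat_lit 0) (XT.lf (nat_lit 0) (nat_lit 689886243590) (nat_lit 76) (nat_lit 437920016432) (nat_lit 76) (nat_lit 436933270882) (nat_lit 1) (nat_lit 4) (nat_lit 2) (nat_lit 5) (nat_lit 2) (nat_lit 4) (nat_lit 399) (nat_lit 332) (nat_lit 289)) (XT.lf (nat_lit 0) (nat_lit 838905192434) (nat_lit 76) (nat_lit 479172479113) (nat_lit 76) (nat_lit 478185416855) (nat_lit 1) (nat_lit 4) (nat_lit 2) (nat_lit 5) (nat_lit 2) (nat_lit 4) (nat_lit 400) (nat_lit 332) (nat_lit 288)))) (XT.nd (nat_lit 156)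 (nat_lit 0) (nat_lit 0) (XT.nd (nat_lit 78) (nat_lit 0) (nat_lit 0) (XT.lf (nat_lit 0) (nat_lit 1010249850879) (nat_lit 76) (nat_lit 526627282753) (nat_lit 76) (nat_lit 525639945097) (nat_lit 1) (nat_lit 4) (nat_lit 2) (nat_lit 5) (nat_lit 2) (nat_lit 4) (nat_lit 401) (nat_lit 332) (nat_lit 287)) (XT.lf (nat_lit 0) (nat_lit 1207272614417) (nat_lit 76) (nat_lit 581212890899) (nat_lit 76) (nat_lit 580225313767) (nat_lit 1) (nat_lit 4) (nat_lit 2) (nat_lit 5) (nat_lit 2) (nat_lit 4) (nat_lit 402) (nat_lit 332) (nat_lit 286))) (XT.nd (nat_lit 78) (nat_lit 0) (nat_lit 0) (XT.lf (nat_lit 0) (nat_lit 1433828276248) (nat_lit 76) (nat_lit 643997282843) (nat_lit 76) (nat_lit 643009497470) (nat_lit 1) (nat_lit 4) (nat_lit 2) (nat_lit 5) (nat_lit 2) (nat_lit 4) (nat_lit 403) (nat_lit 332) (nat_lit 285)) (XT.lf (nat_lit 0) (nat_lit 1694349447146) (nat_lit 76) (nat_lit 716208848861) (nat_lit 76) (nat_lit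 715220882409) (nat_lit 1) (nat_lit 4) (nat_lit 2) (nat_lit 5) (nat_lit 2) (nat_lit 4) (nat_lit 404) (nat_lit 332) (nat_lit 284)))))) (XT.nd (nat_lit 468) (nat_lit 0) (nat_lit 0) (XT.nd (nat_lit 234) (nat_lit 0) (nat_lit 0) (XT.nd (nat_lit 78) (nat_lit 0) (nat_lit 0) (XT.lf (nat_lit 0) (nat_lit 1993933280456) (nat_lit 76) (nat_lit 799260423940) (nat_lit 76) (nat_lit 798272300029) (nat_lit 1) (nat_lit 4) (nat_lit 2) (nat_lit 5) (nat_lit 2) (nat_lit 4) (nat_lit 405) (nat_lit 332) (nat_lit 283)) (XT.nd (nat_lit 78) (nat_lit 0) (nat_lit 0) (XT.lf (nat_lit 0) (nat_lit 2338441199003) (nat_lit 76) (nat_lit 894776930202) (nat_lit 76) (nat_lit 893788669369) (nat_lit 1) (nat_lit 4) (nat_lit 2) (nat_lit 5) (nat_lit 2) (nat_lit 4) (nat_lit 406) (nat_lit 332) (nat_lit 282)) (XT.lf (nat_lit 0) (nat_lit 2734613575106) (nat_lit 76) (nat_lit 1004627168857) (nat_lit 76) (nat_lit 1003638788961) (nat_lit 1)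 (nat_lit 4) (nat_lit 2) (nat_lit 5) (nat_lit 2) (nat_lit 4) (nat_lit 407) (nat_lit 332) (nat_lit 281)))) (XT.nd (nat_lit 78) (nat_lit 0) (nat_lit 0) (XT.lf (nat_lit 0) (nat_lit 3190201607428) (nat_lit 76) (nat_lit 1130960383703) (nat_lit 76) (nat_lit 1129971900275) (nat_lit 1) (nat_lit 4) (nat_lit 2) (nat_lit 5) (nat_lit 2) (nat_lit 4) (nat_lit 408) (nat_lit 332) (nat_lit 280)) (XT.nd (nat_lit 78) (nat_lit 0) (nat_lit 0) (XT.lf (nat_lit 0) (nat_lit 3714118974863) (nat_lit 76) (nat_lit 1276248311553) (nat_lit 76) (nat_lit 1275259738097) (nat_lit 1) (nat_lit 4) (nat_lit 2) (nat_lit 5) (nat_lit 2) (nat_lit 4) (nat_lit 409) (nat_lit 332) (nat_lit 279)) (XT.lf (nat_lit 0) (nat_lit 4316616234599) (nat_lit 76) (nat_lit 1443333542300) (nat_lit 76) (nat_lit 1442344890558) (nat_lit 1) (nat_lit 4) (nat_lit 2) (nat_lit 5) (nat_lit 2) (nat_lit 4) (nat_lit 410) (nat_lit 332) (nat_lit 278))))) (XT.nd (nat_lit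 234) (nat_lit 0) (nat_lit 0) (XT.nd (nat_lit 78) (nat_lit 0) (nat_lit 0) (XT.lf (nat_lit 0) (nat_lit 5009481376500) (nat_lit 76) (nat_lit 1635485134806) (nat_lit 76) (nat_lit 1634496414990) (nat_lit 1) (nat_lit 4) (nat_lit 2) (nat_lit 5) (nat_lit 2) (nat_lit 4) (nat_lit 411) (nat_lit 332) (nat_lit 277)) (XT.nd (nat_lit 78) (nat_lit 0) (nat_lit 0) (XT.lf (nat_lit 0) (nat_lit 5806270457692) (nat_lit 76) (nat_lit 1856462576751) (nat_lit 76) (nat_lit 1855473797740) (nat_lit 1) (nat_lit 4) (nat_lit 2) (nat_lit 5) (nat_lit 2) (nat_lit 4) (nat_lit 412) (nat_lit 332) (nat_lit 276)) (XT.lf (nat_lit 0) (nat_lit 6722572829763) (nat_lit 76) (nat_lit 2110589339824) (nat_lit 76) (nat_lit 2109600509340) (nat_lit 1) (nat_lit 4) (nat_lit 2) (nat_lit 5) (nat_lit 2) (nat_lit 4) (nat_lit 413) (nat_lit 332) (nat_lit 275)))) (XT.nd (nat_lit 156) (nat_lit 0) (nat_lit 0) (XT.nd (nat_lit 78) (nat_lit 0) (nat_lit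 0) (XT.lf (nat_lit 0) (nat_lit 7776316147817) (nat_lit 76) (nat_lit 2402837469392) (nat_lit 76) (nat_lit 2401848594147) (nat_lit 1) (nat_lit 4) (nat_lit 2) (nat_lit 5) (nat_lit 2) (nat_lit 4) (nat_lit 414) (nat_lit 332) (nat_lit 274)) (XT.lf (nat_lit 0) (nat_lit 8988117128949) (nat_lit 76) (nat_lit 2738924863639) (nat_lit 76) (nat_lit 2737935949473) (nat_lit 1) (nat_lit 4) (nat_lit 2) (nat_lit 5) (nat_lit 2) (nat_lit 4) (nat_lit 415) (nat_lit 332) (nat_lit 273))) (XT.nd (nat_lit 78) (nat_lit 0) (nat_lit 0) (XT.lf (nat_lit 0) (nat_lit 10381684922787) (nat_lit 76) (nat_lit 3125427145499) (nat_lit 76) (nat_lit 3124438197488) (nat_lit 1) (nat_lit 4) (nat_lit 2) (nat_lit 5) (nat_lit 2) (nat_lit 4) (nat_lit 416) (nat_lit 332) (nat_lit 272)) (XT.lf (nat_lit 0) (nat_lit 11984284986169) (nat_lit 76) (nat_lit 3569906316136) (nat_lit 76) (nat_lit 3568917338695) (nat_lit 1) (nat_lit 4) (nat_lit 2) (nat_lit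 5) (nat_lit 2) (nat_lit 4) (nat_lit 417) (nat_lit 332) (nat_lit 271))))))) (XT.nd (nat_lit 1014) (nat_lit 0) (nat_lit 0) (XT.nd (nat_lit 468) (nat_lit 0) (nat_lit 0) (XT.nd (nat_lit 234) (nat_lit 0) (nat_lit 0) (XT.nd (nat_lit 78) (nat_lit 0) (nat_lit 0) (XT.lf (nat_lit 0) (nat_lit 13827272537726) (nat_lit 76) (nat_lit 4081058707152) (nat_lit 76) (nat_lit 4080069704119) (nat_lit 1) (nat_lit 4) (nat_lit 2) (nat_lit 5) (nat_lit 2) (nat_lit 4) (nat_lit 418) (nat_lit 332) (nat_lit 270)) (XT.nd (nat_lit 78) (nat_lit 0) (nat_lit 0) (XT.lf (nat_lit 0) (nat_lit 15946706029553) (nat_lit 76) (nat_lit 4668885126195) (nat_lit 76) (nat_lit 4667896100909) (nat_lit 1) (nat_lit 4) (nat_lit 2) (nat_lit 5) (nat_lit 2) (nat_lit 4) (nat_lit 419) (nat_lit 332) (nat_lit 269)) (XT.lf (nat_lit 0) (nat_lit 18384052638665) (nat_lit 76) (nat_lit 5344886524944) (nat_lit 76) (nat_lit 5343897480306) (nat_lit 1) (nat_lit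 4) (nat_lit 2) (nat_lit 5) (nat_lit 2) (nat_lit 4) (nat_lit 420) (nat_lit 332) (nat_lit 268)))) (XT.nd (nat_lit 78) (nat_lit 0) (nat_lit 0) (XT.lf (nat_lit 0) (nat_lit 21186999581327) (nat_lit 76) (nat_lit 6122289017721) (nat_lit 76) (nat_lit 6121299956256) (nat_lit 1) (nat_lit 4) (nat_lit 2) (nat_lit 5) (nat_lit 2) (nat_lit 4) (nat_lit 421) (nat_lit 332) (nat_lit 267)) (XT.nd (nat_lit 78) (nat_lit 0) (nat_lit 0) (XT.lf (nat_lit 0) (nat_lit 24410387123807) (nat_lit 76) (nat_lit 7016302653298) (nat_lit 76) (nat_lit 7015313577201) (nat_lit 1) (nat_lit 4) (nat_lit 2) (nat_lit 5) (nat_lit 2) (nat_lit 4) (nat_lit 422) (nat_lit 332) (nat_lit 266)) (XT.lf (nat_lit 0) (nat_lit 28117281544112) (nat_lit 76) (nat_lit 8044419002806) (nat_lit 76) (nat_lit 8043429913986) (nat_lit 1) (nat_lit 4) (nat_lit 2) (nat_lit 5) (nat_lit 2) (nat_lit 4) (nat_lit 423) (nat_lit 332) (nat_lit 265))))) (XT.nd (nat_lit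 234) (nat_lit 0) (nat_lit 0) (XT.nd (nat_lit 78) (nat_lit 0) (nat_lit 0) (XT.lf (nat_lit 0) (nat_lit 32380209037421) (nat_lit 76) (nat_lit 9226753386126) (nat_lit 76) (nat_lit 9225764286242) (nat_lit 1) (nat_lit 4) (nat_lit 2) (nat_lit 5) (nat_lit 2) (nat_lit 4) (nat_lit 424) (nat_lit 332) (nat_lit 264)) (XT.nd (nat_lit 78) (nat_lit 0) (nat_lit 0) (XT.lf (nat_lit 0) (nat_lit 37282574706864) (nat_lit 76) (nat_lit 10586438432498) (nat_lit 76) (nat_lit 10585449322994) (nat_lit 1) (nat_lit 4) (nat_lit 2) (nat_lit 5) (nat_lit 2) (nat_lit 4) (nat_lit 425) (nat_lit 332) (nat_lit 263)) (XT.lf (nat_lit 0) (nat_lit 42920294402496) (nat_lit 76) (nat_lit 12150076675438) (nat_lit 76) (nat_lit 12149087557567) (nat_lit 1) (nat_lit 4) (nat_lit 2) (nat_lit 5) (nat_lit 2) (nat_lit 4) (nat_lit 426) (nat_lit 332) (nat_lit 262)))) (XT.nd (nat_lit 156) (nat_lit 0) (nat_lit 0) (XT.nd (nat_lit 78) (nat_lit 0) (nat_lit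 0) (XT.lf (nat_lit 0) (nat_lit 49403671335752) (nat_lit 76) (nat_lit 13948261037089) (nat_lit 76) (nat_lit 13947271911944) (nat_lit 1) (nat_lit 4) (nat_lit 2) (nat_lit 5) (nat_lit 2) (nat_lit 4) (nat_lit 427) (nat_lit 332) (nat_lit 261)) (XT.lf (nat_lit 0) (nat_lit 56859554185762) (nat_lit 76) (nat_lit 16016173385398) (nat_lit 76) (nat_lit 16015184253926) (nat_lit 1) (nat_lit 4) (nat_lit 2) (nat_lit 5) (nat_lit 2) (nat_lit 4) (nat_lit 428) (nat_lit 332) (nat_lit 260))) (XT.nd (nat_lit 78) (nat_lit 0) (nat_lit 0) (XT.lf (nat_lit 0) (nat_lit 65433818921330) (nat_lit 76) (nat_lit 18394272875005) (nat_lit 76) (nat_lit 18393283738033) (nat_lit 1) (nat_lit 4) (nat_lit 2) (nat_lit 5) (nat_lit 2) (nat_lit 4) (nat_lit 429) (nat_lit 332) (nat_lit 259)) (XT.lf (nat_lit 0) (nat_lit 75294222895978) (nat_lit 76) (nat_lit 21129087539402) (nat_lit 76) (nat_lit 21128098397646) (nat_lit 1) (nat_lit 4) (nat_lit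 2) (nat_lit 5) (nat_lit 2) (nat_lit 4) (nat_lit 430) (nat_lit 332) (nat_lit 258)))))) (XT.nd (nat_lit 47346) (nat_lit 0) (nat_lit 1140) (XT.nd (nat_lit 234) (nat_lit 0) (nat_lit 0) (XT.nd (nat_lit 78) (nat_lit 0) (nat_lit 0) (XT.lf (nat_lit 0) (nat_lit 86633687057036) (nat_lit 76) (nat_lit 24274124622023) (nat_lit 76) (nat_lit 24273135476108) (nat_lit 1) (nat_lit 4) (nat_lit 2) (nat_lit 5) (nat_lit 2) (nat_lit 4) (nat_lit 431) (nat_lit 332) (nat_lit 257)) (XT.nd (nat_lit 78) (nat_lit 0) (nat_lit 0) (XT.lf (nat_lit 0) (nat_lit 99674070485916) (nat_lit 76) (nat_lit 27890917457094) (nat_lit 76) (nat_lit 27889928307563) (nat_lit 1) (nat_lit 4) (nat_lit 2) (nat_lit 5) (nat_lit 2) (nat_lit 4) (nat_lit 432) (nat_lit 332) (nat_lit 256)) (XT.lf (nat_lit 0) (nat_lit 114670511119271) (nat_lit 76) (nat_lit 32050229382692) (nat_lit 76) (nat_lit 32049240230015) (nat_lit 1) (nat_lit 4) (nat_lit 2) (nat_lit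 5) (nat_lit 2) (nat_lit 4) (nat_lit 433) (nat_lit 332) (nat_lit 255)))) (XT.nd (nat_lit 46956) (nat_lit 0) (nat_lit 1824) (XT.nd (nat_lit 46878) (nat_lit 0) (nat_lit 2052) (XT.lf (nat_lit 0) (nat_lit 131916417578187) (nat_lit 76) (nat_lit 36833438240839) (nat_lit 76) (nat_lit 36832449085428) (nat_lit 1) (nat_lit 4) (nat_lit 2) (nat_lit 5) (nat_lit 2) (nat_lit 4) (nat_lit 434) (nat_lit 332) (nat_lit 254)) (XT.lf (nat_lit 0) (nat_lit 2373541926) (nat_lit 152) (nat_lit 858491351) (nat_lit 0) (nat_lit 2373541926) (nat_lit 28) (nat_lit 5) (nat_lit 30) (nat_lit 4) (nat_lit 28) (nat_lit 4) (nat_lit 354) (nat_lit 333) (nat_lit 333))) (XT.nd (nat_lit 78) (nat_lit 152) (nat_lit 0) (XT.lf (nat_lit 0) (nat_lit 9330697815) (nat_lit 76) (nat_lit 1587350299) (nat_lit 76) (nat_lit 1065381722) (nat_lit 27) (nat_lit 4) (nat_lit 28) (nat_lit 5) (nat_lit 28) (nat_lit 4) (nat_lit 355) (nat_lit 333) (nat_lit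 332)) (XT.lf (nat_lit 0) (nat_lit 4779689258) (nat_lit 152) (nat_lit 4114666415) (nat_lit 0) (nat_lit 3931120306) (nat_lit 25) (nat_lit 5) (nat_lit 27) (nat_lit 4) (nat_lit 25) (nat_lit 4) (nat_lit 356) (nat_lit 333) (nat_lit 331))))) (XT.nd (nat_lit 234) (nat_lit 380) (nat_lit 0) (XT.nd (nat_lit 78) (nat_lit 228) (nat_lit 0) (XT.lf (nat_lit 0) (nat_lit 7825737315) (nat_lit 76) (nat_lit 3575485230) (nat_lit 76) (nat_lit 2383713466) (nat_lit 24) (nat_lit 4) (nat_lit 25) (nat_lit 5) (nat_lit 25) (nat_lit 4) (nat_lit 357) (nat_lit 333) (nat_lit 330)) (XT.nd (nat_lit 78) (nat_lit 76) (nat_lit 0) (XT.lf (nat_lit 0) (nat_lit 3839376005) (nat_lit 152) (nat_lit 8467907567) (nat_lit 0) (nat_lit 2543542099) (nat_lit 22) (nat_lit 5) (nat_lit 24) (nat_lit 4) (nat_lit 22) (nat_lit 4) (nat_lit 358) (nat_lit 333) (nat_lit 329)) (XT.lf (nat_lit 0) (nat_lit 4241069735) (nat_lit 76) (nat_lit 6658903065) (nat_lit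 76) (nat_lit 5137407739) (nat_lit 21) (nat_lit 4) (nat_lit 22) (nat_lit 5) (nat_lit 22) (nat_lit 4) (nat_lit 359) (nat_lit 333) (nat_lit 328)))) (XT.nd (nat_lit 156) (nat_lit 228) (nat_lit 0) (XT.nd (nat_lit 78) (nat_lit 0) (nat_lit 0) (XT.lf (nat_lit 0) (nat_lit 1457063549) (nat_lit 76) (nat_lit 19581192) (nat_lit 152) (nat_lit 15914803372) (nat_lit 19) (nat_lit 5) (nat_lit 20) (nat_lit 5) (nat_lit 21) (nat_lit 4) (nat_lit 360) (nat_lit 333) (nat_lit 327)) (XT.lf (nat_lit 0) (nat_lit 9001941346) (nat_lit 152) (nat_lit 2483343332) (nat_lit 0) (nat_lit 7359893432) (nat_lit 19) (nat_lit 5) (nat_lit 21) (nat_lit 4) (nat_lit 19) (nat_lit 4) (nat_lit 361) (nat_lit 333) (nat_lit 326))) (XT.nd (nat_lit 78) (nat_lit 152) (nat_lit 0) (XT.lf (nat_lit 0) (nat_lit 13239577903) (nat_lit 76) (nat_lit 4516716729) (nat_lit 76) (nat_lit 2745646166) (nat_lit 18) (nat_lit 4) (nat_lit 19) (nat_lit 5) (nat_lit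 19) (nat_lit 4) (nat_lit 362) (nat_lit 333) (nat_lit 325)) (XT.lf (nat_lit 0) (nat_lit 5148988395) (nat_lit 152) (nat_lit 13681034154) (nat_lit 0) (nat_lit 3511367377) (nat_lit 16) (nat_lit 5) (nat_lit 18) (nat_lit 4) (nat_lit 16) (nat_lit 4) (nat_lit 363) (nat_lit 333) (nat_lit 324))))))))
noncomputable def xc34 : XT := (XT.nd (nat_lit 2028) (nat_lit 76) (nat_lit 0) (XT.nd (nat_lit 1014) (nat_lit 304) (nat_lit 0) (XT.nd (nat_lit 468) (nat_lit 304) (nat_lit 0) (XT.nd (nat_lit 234) (nat_lit 228) (nat_lit 0) (XT.nd (nat_lit 78) (nat_lit 152) (nat_lit 0) (XT.lf (nat_lit 0) (nat_lit 2300716808) (nat_lit 76) (nat_lit 11909670471) (nat_lit 76) (nat_lit 10187214967) (nat_lit 15) (nat_lit 4) (nat_lit 16) (nat_lit 5) (nat_lit 16) (nat_lit 4) (nat_lit 364) (nat_lit 333) (nat_lit 323)) (XT.nd (nat_lit 78) (nat_lit 152) (nat_lit 0) (XT.lf (nat_lit 0) (nat_lit 21331412156) (nat_lit 76) (nat_lit 3591629588)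 (nat_lit 76) (nat_lit 1795404966) (nat_lit 15) (nat_lit 4) (nat_lit 16) (nat_lit 5) (nat_lit 16) (nat_lit 4) (nat_lit 365) (nat_lit 333) (nat_lit 322)) (XT.lf (nat_lit 0) (nat_lit 7620356086) (nat_lit 152) (nat_lit 15645960422) (nat_lit 0) (nat_lit 6002641580) (nat_lit 13) (nat_lit 5) (nat_lit 15) (nat_lit 4) (nat_lit 13) (nat_lit 4) (nat_lit 366) (nat_lit 333) (nat_lit 321)))) (XT.nd (nat_lit 78) (nat_lit 152) (nat_lit 0) (XT.lf (nat_lit 0) (nat_lit 3129195080) (nat_lit 76) (nat_lit 15347242334) (nat_lit 76) (nat_lit 13681023435) (nat_lit 12) (nat_lit 4) (nat_lit 13) (nat_lit 5) (nat_lit 13) (nat_lit 4) (nat_lit 367) (nat_lit 333) (nat_lit 320)) (XT.nd (nat_lit 78) (nat_lit 152) (nat_lit 0) (XT.lf (nat_lit 0) (nat_lit 25706207165) (nat_lit 76) (nat_lit 5706809838) (nat_lit 76) (nat_lit 3998413206) (nat_lit 12) (nat_lit 4) (nat_lit 13) (nat_lit 5) (nat_lit 13) (nat_lit 4) (nat_lit 368) (nat_lit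 333) (nat_lit 319)) (XT.lf (nat_lit 0) (nat_lit 6937875294) (nat_lit 152) (nat_lit 26685380278) (nat_lit 0) (nat_lit 5420420579) (nat_lit 10) (nat_lit 5) (nat_lit 12) (nat_lit 4) (nat_lit 10) (nat_lit 4) (nat_lit 369) (nat_lit 333) (nat_lit 318))))) (XT.nd (nat_lit 234) (nat_lit 228) (nat_lit 0) (XT.nd (nat_lit 78) (nat_lit 76) (nat_lit 0) (XT.lf (nat_lit 0) (nat_lit 19576179993) (nat_lit 152) (nat_lit 5514388711) (nat_lit 0) (nat_lit 18030992735) (nat_lit 10) (nat_lit 5) (nat_lit 12) (nat_lit 4) (nat_lit 10) (nat_lit 4) (nat_lit 370) (nat_lit 333) (nat_lit 317)) (XT.nd (nat_lit 78) (nat_lit 0) (nat_lit 0) (XT.lf (nat_lit 0) (nat_lit 19999250702) (nat_lit 76) (nat_lit 14650153780) (nat_lit 76) (nat_lit 13080851266) (nat_lit 9) (nat_lit 4) (nat_lit 10) (nat_lit 5) (nat_lit 10) (nat_lit 4) (nat_lit 371) (nat_lit 333) (nat_lit 316)) (XT.lf (nat_lit 0) (nat_lit 49374090753) (nat_lit 76) (nat_lit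 2622263289) (nat_lit 76) (nat_lit 1031990987) (nat_lit 9) (nat_lit 4) (nat_lit 10) (nat_lit 5) (nat_lit 10) (nat_lit 4) (nat_lit 372) (nat_lit 333) (nat_lit 315)))) (XT.nd (nat_lit 156) (nat_lit 76) (nat_lit 0) (XT.nd (nat_lit 78) (nat_lit 0) (nat_lit 0) (XT.lf (nat_lit 0) (nat_lit 13003041884) (nat_lit 152) (nat_lit 34236032363) (nat_lit 0) (nat_lit 11604340233) (nat_lit 7) (nat_lit 5) (nat_lit 9) (nat_lit 4) (nat_lit 7) (nat_lit 4) (nat_lit 373) (nat_lit 333) (nat_lit 314)) (XT.lf (nat_lit 0) (nat_lit 29112127841) (nat_lit 152) (nat_lit 8700440110) (nat_lit 0) (nat_lit 27699638214) (nat_lit 7) (nat_lit 5) (nat_lit 9) (nat_lit 4) (nat_lit 7) (nat_lit 4) (nat_lit 374) (nat_lit 333) (nat_lit 313))) (XT.nd (nat_lit 78) (nat_lit 0) (nat_lit 0) (XT.lf (nat_lit 0) (nat_lit 22175161969) (nat_lit 76) (nat_lit 26162789385) (nat_lit 76) (nat_lit 24738310214) (nat_lit 6) (nat_lit 4) (nat_lit 7) (nat_lit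 5) (nat_lit 7) (nat_lit 4) (nat_lit 375) (nat_lit 333) (nat_lit 312)) (XT.lf (nat_lit 0) (nat_lit 58216514246) (nat_lit 76) (nat_lit 12478133503) (nat_lit 76) (nat_lit 11043228641) (nat_lit 6) (nat_lit 4) (nat_lit 7) (nat_lit 5) (nat_lit 7) (nat_lit 4) (nat_lit 376) (nat_lit 333) (nat_lit 311)))))) (XT.nd (nat_lit 468) (nat_lit 152) (nat_lit 0) (XT.nd (nat_lit 234) (nat_lit 76) (nat_lit 0) (XT.nd (nat_lit 78) (nat_lit 0) (nat_lit 0) (XT.lf (nat_lit 0) (nat_lit 4583971267) (nat_lit 76) (nat_lit 83712663763) (nat_lit 0) (nat_lit 3328344589) (nat_lit 5) (nat_lit 5) (nat_lit 6) (nat_lit 4) (nat_lit 5) (nat_lit 4) (nat_lit 377) (nat_lit 333) (nat_lit 310)) (XT.nd (nat_lit 78) (nat_lit 0) (nat_lit 0) (XT.lf (nat_lit 0) (nat_lit 23117834954) (nat_lit 76) (nat_lit 57689100616) (nat_lit 0) (nat_lit 21855353215) (nat_lit 5) (nat_lit 5) (nat_lit 6) (nat_lit 4) (nat_lit 5) (nat_lit 4) (nat_lit 378)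 (nat_lit 333) (nat_lit 309)) (XT.lf (nat_lit 0) (nat_lit 44267368306) (nat_lit 76) (nat_lit 28113562435) (nat_lit 0) (nat_lit 42998925645) (nat_lit 5) (nat_lit 5) (nat_lit 6) (nat_lit 4) (nat_lit 5) (nat_lit 4) (nat_lit 379) (nat_lit 333) (nat_lit 308)))) (XT.nd (nat_lit 78) (nat_lit 0) (nat_lit 0) (XT.lf (nat_lit 0) (nat_lit 6139152413) (nat_lit 76) (nat_lit 62561423338) (nat_lit 76) (nat_lit 61287797266) (nat_lit 4) (nat_lit 4) (nat_lit 5) (nat_lit 5) (nat_lit 5) (nat_lit 4) (nat_lit 380) (nat_lit 333) (nat_lit 307)) (XT.nd (nat_lit 78) (nat_lit 0) (nat_lit 0) (XT.lf (nat_lit 0) (nat_lit 48397547310) (nat_lit 76) (nat_lit 49734388933) (nat_lit 76) (nat_lit 48456255548) (nat_lit 4) (nat_lit 4) (nat_lit 5) (nat_lit 5) (nat_lit 5) (nat_lit 4) (nat_lit 381) (nat_lit 333) (nat_lit 306)) (XT.lf (nat_lit 0) (nat_lit 96740955155) (nat_lit 76) (nat_lit 35118436392) (nat_lit 76) (nat_lit 33836383604)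 (nat_lit 4) (nat_lit 4) (nat_lit 5) (nat_lit 5) (nat_lit 5) (nat_lit 4) (nat_lit 382) (nat_lit 333) (nat_lit 305))))) (XT.nd (nat_lit 234) (nat_lit 0) (nat_lit 0) (XT.nd (nat_lit 78) (nat_lit 152) (nat_lit 0) (XT.lf (nat_lit 0) (nat_lit 152115225231) (nat_lit 76) (nat_lit 18427601426) (nat_lit 76) (nat_lit 17142140461) (nat_lit 4) (nat_lit 4) (nat_lit 5) (nat_lit 5) (nat_lit 5) (nat_lit 4) (nat_lit 383) (nat_lit 333) (nat_lit 304)) (XT.nd (nat_lit 78) (nat_lit 0) (nat_lit 0) (XT.lf (nat_lit 0) (nat_lit 1931400688) (nat_lit 152) (nat_lit 210208600974) (nat_lit 0) (nat_lit 811031473) (nat_lit 2) (nat_lit 5) (nat_lit 4) (nat_lit 4) (nat_lit 2) (nat_lit 4) (nat_lit 384) (nat_lit 333) (nat_lit 303)) (XT.lf (nat_lit 0) (nat_lit 24842433333) (nat_lit 152) (nat_lit 192912585543) (nat_lit 0) (nat_lit 23719823187) (nat_lit 2) (nat_lit 5) (nat_lit 4) (nat_lit 4) (nat_lit 2) (nat_lit 4) (nat_lit 385)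 (nat_lit 333) (nat_lit 302)))) (XT.nd (nat_lit 156) (nat_lit 0) (nat_lit 0) (XT.nd (nat_lit 78) (nat_lit 0) (nat_lit 0) (XT.lf (nat_lit 0) (nat_lit 51108483781) (nat_lit 152) (nat_lit 173197059304) (nat_lit 0) (nat_lit 49983924998) (nat_lit 2) (nat_lit 5) (nat_lit 4) (nat_lit 4) (nat_lit 2) (nat_lit 4) (nat_lit 386) (nat_lit 333) (nat_lit 301)) (XT.lf (nat_lit 0) (nat_lit 81243453017) (nat_lit 152) (nat_lit 150676283701) (nat_lit 0) (nat_lit 80117199768) (nat_lit 2) (nat_lit 5) (nat_lit 4) (nat_lit 4) (nat_lit 2) (nat_lit 4) (nat_lit 387) (nat_lit 333) (nat_lit 300))) (XT.nd (nat_lit 78) (nat_lit 0) (nat_lit 0) (XT.lf (nat_lit 0) (nat_lit 115836938267) (nat_lit 152) (nat_lit 124909634864) (nat_lit 0) (nat_lit 114709211570) (nat_lit 2) (nat_lit 5) (nat_lit 4) (nat_lit 4) (nat_lit 2) (nat_lit 4) (nat_lit 388) (nat_lit 333) (nat_lit 299)) (XT.lf (nat_lit 0) (nat_lit 155565768590) (nat_lit 152)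 (nat_lit 95392982706) (nat_lit 0) (nat_lit 154436760632) (nat_lit 2) (nat_lit 5) (nat_lit 4) (nat_lit 4) (nat_lit 2) (nat_lit 4) (nat_lit 389) (nat_lit 333) (nat_lit 298))))))) (XT.nd (nat_lit 1014) (nat_lit 0) (nat_lit 0) (XT.nd (nat_lit 468) (nat_lit 0) (nat_lit 0) (XT.nd (nat_lit 234) (nat_lit 0) (nat_lit 0) (XT.nd (nat_lit 78) (nat_lit 76) (nat_lit 0) (XT.lf (nat_lit 0) (nat_lit 201207247187) (nat_lit 152) (nat_lit 61548827511) (nat_lit 0) (nat_lit 200077125091) (nat_lit 2) (nat_lit 5) (nat_lit 4) (nat_lit 4) (nat_lit 2) (nat_lit 4) (nat_lit 390) (nat_lit 333) (nat_lit 297)) (XT.nd (nat_lit 78) (nat_lit 76) (nat_lit 0) (XT.lf (nat_lit 0) (nat_lit 253654359510) (nat_lit 152) (nat_lit 22715001025) (nat_lit 0) (nat_lit 252523268597) (nat_lit 2) (nat_lit 5) (nat_lit 4) (nat_lit 4) (nat_lit 2) (nat_lit 4) (nat_lit 391) (nat_lit 333) (nat_lit 296)) (XT.lf (nat_lit 0) (nat_lit 24005417252)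 (nat_lit 76) (nat_lit 290921840597) (nat_lit 76) (nat_lit 289789907234) (nat_lit 1) (nat_lit 4) (nat_lit 2) (nat_lit 5) (nat_lit 2) (nat_lit 4) (nat_lit 392) (nat_lit 333) (nat_lit 295)))) (XT.nd (nat_lit 78) (nat_lit 0) (nat_lit 0) (XT.lf (nat_lit 0) (nat_lit 80214581049) (nat_lit 76) (nat_lit 306330205981) (nat_lit 76) (nat_lit 305197540054) (nat_lit 1) (nat_lit 4) (nat_lit 2) (nat_lit 5) (nat_lit 2) (nat_lit 4) (nat_lit 393) (nat_lit 333) (nat_lit 294)) (XT.nd (nat_lit 78) (nat_lit 0) (nat_lit 0) (XT.lf (nat_lit 0) (nat_lit 144792359775) (nat_lit 76) (nat_lit 324083299760) (nat_lit 76) (nat_lit 322949996821) (nat_lit 1) (nat_lit 4) (nat_lit 2) (nat_lit 5) (nat_lit 2) (nat_lit 4) (nat_lit 394) (nat_lit 333) (nat_lit 293)) (XT.lf (nat_lit 0) (nat_lit 219002231708) (nat_lit 76) (nat_lit 344528465074) (nat_lit 76) (nat_lit 343394608210) (nat_lit 1) (nat_lit 4) (nat_lit 2) (nat_lit 5) (nat_lit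 2) (nat_lit 4) (nat_lit 395) (nat_lit 333) (nat_lit 292))))) (XT.nd (nat_lit 234) (nat_lit 0) (nat_lit 0) (XT.nd (nat_lit 78) (nat_lit 0) (nat_lit 0) (XT.lf (nat_lit 0) (nat_lit 304296129126) (nat_lit 76) (nat_lit 368065716025) (nat_lit 76) (nat_lit 366931377489) (nat_lit 1) (nat_lit 4) (nat_lit 2) (nat_lit 5) (nat_lit 2) (nat_lit 4) (nat_lit 396) (nat_lit 333) (nat_lit 291)) (XT.nd (nat_lit 78) (nat_lit 0) (nat_lit 0) (XT.lf (nat_lit 0) (nat_lit 402342845674) (nat_lit 76) (nat_lit 395155564046) (nat_lit 76) (nat_lit 394020806663) (nat_lit 1) (nat_lit 4) (nat_lit 2) (nat_lit 5) (nat_lit 2) (nat_lit 4) (nat_lit 397) (nat_lit 333) (nat_lit 290)) (XT.lf (nat_lit 0) (nat_lit 515060686676) (nat_lit 76) (nat_lit 426328027902) (nat_lit 76) (nat_lit 425192906306) (nat_lit 1) (nat_lit 4) (nat_lit 2) (nat_lit 5) (nat_lit 2) (nat_lit 4) (nat_lit 398) (nat_lit 333) (nat_lit 289)))) (XT.nd (nat_lit 156)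 (nat_lit 0) (nat_lit 0) (XT.nd (nat_lit 78) (nat_lit 0) (nat_lit 0) (XT.lf (nat_lit 0) (nat_lit 644655001194) (nat_lit 76) (nat_lit 462193003626) (nat_lit 76) (nat_lit 461057565322) (nat_lit 1) (nat_lit 4) (nat_lit 2) (nat_lit 5) (nat_lit 2) (nat_lit 4) (nat_lit 399) (nat_lit 333) (nat_lit 288)) (XT.lf (nat_lit 0) (nat_lit 793661330166) (nat_lit 76) (nat_lit 503452197264) (nat_lit 76) (nat_lit 502316483561) (nat_lit 1) (nat_lit 4) (nat_lit 2) (nat_lit 5) (nat_lit 2) (nat_lit 4) (nat_lit 400) (nat_lit 333) (nat_lit 287))) (XT.nd (nat_lit 78) (nat_lit 0) (nat_lit 0) (XT.lf (nat_lit 0) (nat_lit 964995014809) (nat_lit 76) (nat_lit 550912853908) (nat_lit 76) (nat_lit 549776900729) (nat_lit 1) (nat_lit 4) (nat_lit 2) (nat_lit 5) (nat_lit 2) (nat_lit 4) (nat_lit 401) (nat_lit 333) (nat_lit 286)) (XT.lf (nat_lit 0) (nat_lit 1162008235911) (nat_lit 76) (nat_lit 605503551625) (nat_lit 76) (nat_lit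 604367390205) (nat_lit 1) (nat_lit 4) (nat_lit 2) (nat_lit 5) (nat_lit 2) (nat_lit 4) (nat_lit 402) (nat_lit 333) (nat_lit 285)))))) (XT.nd (nat_lit 546) (nat_lit 0) (nat_lit 0) (XT.nd (nat_lit 234) (nat_lit 0) (nat_lit 0) (XT.nd (nat_lit 78) (nat_lit 0) (nat_lit 0) (XT.lf (nat_lit 0) (nat_lit 1388555599971) (nat_lit 76) (nat_lit 668292369281) (nat_lit 76) (nat_lit 667156026783) (nat_lit 1) (nat_lit 4) (nat_lit 2) (nat_lit 5) (nat_lit 2) (nat_lit 4) (nat_lit 403) (nat_lit 333) (nat_lit 284)) (XT.nd (nat_lit 78) (nat_lit 0) (nat_lit 0) (XT.lf (nat_lit 0) (nat_lit 1649069555417) (nat_lit 76) (nat_lit 740507783745) (nat_lit 76) (nat_lit 739371283787) (nat_lit 1) (nat_lit 4) (nat_lit 2) (nat_lit 5) (nat_lit 2) (nat_lit 4) (nat_lit 404) (nat_lit 333) (nat_lit 283)) (XT.lf (nat_lit 0) (nat_lit 1948647114420) (nat_lit 76) (nat_lit 823562705300) (nat_lit 76) (nat_lit 822426068420) (nat_lit 1) (nat_lit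 4) (nat_lit 2) (nat_lit 5) (nat_lit 2) (nat_lit 4) (nat_lit 405) (nat_lit 333) (nat_lit 282)))) (XT.nd (nat_lit 156) (nat_lit 0) (nat_lit 0) (XT.nd (nat_lit 78) (nat_lit 0) (nat_lit 0) (XT.lf (nat_lit 0) (nat_lit 2293149577047) (nat_lit 76) (nat_lit 919082121540) (nat_lit 76) (nat_lit 917945365598) (nat_lit 1) (nat_lit 4) (nat_lit 2) (nat_lit 5) (nat_lit 2) (nat_lit 4) (nat_lit 406) (nat_lit 333) (nat_lit 281)) (XT.lf (nat_lit 0) (nat_lit 2689317208873) (nat_lit 76) (nat_lit 1028934890610) (nat_lit 76) (nat_lit 1027798031135) (nat_lit 1) (nat_lit 4) (nat_lit 2) (nat_lit 5) (nat_lit 2) (nat_lit 4) (nat_lit 407) (nat_lit 333) (nat_lit 280))) (XT.nd (nat_lit 78) (nat_lit 0) (nat_lit 0) (XT.lf (nat_lit 0) (nat_lit 3144901115737) (nat_lit 76) (nat_lit 1155270305817) (nat_lit 76) (nat_lit 1154133356315) (nat_lit 1) (nat_lit 4) (nat_lit 2) (nat_lit 5) (nat_lit 2) (nat_lit 4) (nat_lit 408) (nat_lit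 333) (nat_lit 279)) (XT.lf (nat_lit 0) (nat_lit 3668814895816) (nat_lit 76) (nat_lit 1300560147025) (nat_lit 76) (nat_lit 1299423119237) (nat_lit 1) (nat_lit 4) (nat_lit 2) (nat_lit 5) (nat_lit 2) (nat_lit 4) (nat_lit 409) (nat_lit 333) (nat_lit 278))))) (XT.nd (nat_lit 234) (nat_lit 0) (nat_lit 0) (XT.nd (nat_lit 78) (nat_lit 0) (nat_lit 0) (XT.lf (nat_lit 0) (nat_lit 4271309036113) (nat_lit 76) (nat_lit 1467647041561) (nat_lit 76) (nat_lit 1466509945699) (nat_lit 1) (nat_lit 4) (nat_lit 2) (nat_lit 5) (nat_lit 2) (nat_lit 4) (nat_lit 410) (nat_lit 333) (nat_lit 277)) (XT.nd (nat_lit 78) (nat_lit 0) (nat_lit 0) (XT.lf (nat_lit 0) (nat_lit 4964171465459) (nat_lit 76) (nat_lit 1659800080841) (nat_lit 76) (nat_lit 1658662925784) (nat_lit 1) (nat_lit 4) (nat_lit 2) (nat_lit 5) (nat_lit 2) (nat_lit 4) (nat_lit 411) (nat_lit 333) (nat_lit 276)) (XT.lf (nat_lit 0) (nat_lit 5760958187906) (nat_lit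 76) (nat_lit 1880778780849) (nat_lit 76) (nat_lit 1879641574319) (nat_lit 1) (nat_lit 4) (nat_lit 2) (nat_lit 5) (nat_lit 2) (nat_lit 4) (nat_lit 412) (nat_lit 333) (nat_lit 275)))) (XT.nd (nat_lit 156) (nat_lit 0) (nat_lit 0) (XT.nd (nat_lit 78) (nat_lit 0) (nat_lit 0) (XT.lf (nat_lit 0) (nat_lit 6677258508895) (nat_lit 76) (nat_lit 2134906637892) (nat_lit 76) (nat_lit 2133769386601) (nat_lit 1) (nat_lit 4) (nat_lit 2) (nat_lit 5) (nat_lit 2) (nat_lit 4) (nat_lit 413) (nat_lit 333) (nat_lit 274)) (XT.lf (nat_lit 0) (nat_lit 7731000043400) (nat_lit 76) (nat_lit 2427155718736) (nat_lit 76) (nat_lit 2426018428523) (nat_lit 1) (nat_lit 4) (nat_lit 2) (nat_lit 5) (nat_lit 2) (nat_lit 4) (nat_lit 414) (nat_lit 333) (nat_lit 273))) (XT.nd (nat_lit 78) (nat_lit 0) (nat_lit 0) (XT.lf (nat_lit 0) (nat_lit 8942799473618) (nat_lit 76) (nat_lit 2763243940181) (nat_lit 76) (nat_lit 2762106616124) (nat_lit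 1) (nat_lit 4) (nat_lit 2) (nat_lit 5) (nat_lit 2) (nat_lit 4) (nat_lit 415) (nat_lit 333) (nat_lit 272)) (XT.lf (nat_lit 0) (nat_lit 10336365918837) (nat_lit 76) (nat_lit 3149746941342) (nat_lit 76) (nat_lit 3148609587855) (nat_lit 1) (nat_lit 4) (nat_lit 2) (nat_lit 5) (nat_lit 2) (nat_lit 4) (nat_lit 416) (nat_lit 333) (nat_lit 271))))))))
noncomputable def xc35 : XT := (XT.nd (nat_lit 48750) (nat_lit 0) (nat_lit 76) (XT.nd (nat_lit 1014) (nat_lit 0) (nat_lit 0) (XT.nd (nat_lit 468) (nat_lit 0) (nat_lit 0) (XT.nd (nat_lit 234) (nat_lit 0) (nat_lit 0) (XT.nd (nat_lit 78) (nat_lit 0) (nat_lit 0) (XT.lf (nat_lit 0) (nat_lit 11938964809507) (nat_lit 76) (nat_lit 3594226737460) (nat_lit 76) (nat_lit 3593089358381) (nat_lit 1) (nat_lit 4) (nat_lit 2) (nat_lit 5) (nat_lit 2) (nat_lit 4) (nat_lit 417) (nat_lit 333) (nat_lit 270)) (XT.nd (nat_lit 78) (nat_lit 0) (nat_lit 0) (XT.lf (nat_lit 0)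 (nat_lit 13781951341313) (nat_lit 76) (nat_lit 4105379672371) (nat_lit 76) (nat_lit 4104242271038) (nat_lit 1) (nat_lit 4) (nat_lit 2) (nat_lit 5) (nat_lit 2) (nat_lit 4) (nat_lit 418) (nat_lit 333) (nat_lit 269)) (XT.lf (nat_lit 0) (nat_lit 15901383946401) (nat_lit 76) (nat_lit 4693206564368) (nat_lit 76) (nat_lit 4692069143684) (nat_lit 1) (nat_lit 4) (nat_lit 2) (nat_lit 5) (nat_lit 2) (nat_lit 4) (nat_lit 419) (nat_lit 333) (nat_lit 268)))) (XT.nd (nat_lit 78) (nat_lit 0) (nat_lit 0) (XT.lf (nat_lit 0) (nat_lit 18338729784435) (nat_lit 76) (nat_lit 5369208374379) (nat_lit 76) (nat_lit 5368070936869) (nat_lit 1) (nat_lit 4) (nat_lit 2) (nat_lit 5) (nat_lit 2) (nat_lit 4) (nat_lit 420) (nat_lit 333) (nat_lit 267)) (XT.nd (nat_lit 78) (nat_lit 0) (nat_lit 0) (XT.lf (nat_lit 0) (nat_lit 21141676056594) (nat_lit 76) (nat_lit 6146611224777) (nat_lit 76) (nat_lit 6145473772634) (nat_lit 1)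 (nat_lit 4) (nat_lit 2) (nat_lit 5) (nat_lit 2) (nat_lit 4) (nat_lit 421) (nat_lit 333) (nat_lit 266)) (XT.lf (nat_lit 0) (nat_lit 24365063016030) (nat_lit 76) (nat_lit 7040625171328) (nat_lit 76) (nat_lit 7039487706461) (nat_lit 1) (nat_lit 4) (nat_lit 2) (nat_lit 5) (nat_lit 2) (nat_lit 4) (nat_lit 422) (nat_lit 333) (nat_lit 265))))) (XT.nd (nat_lit 234) (nat_lit 0) (nat_lit 0) (XT.nd (nat_lit 78) (nat_lit 0) (nat_lit 0) (XT.lf (nat_lit 0) (nat_lit 28071956929338) (nat_lit 76) (nat_lit 8068741791248) (nat_lit 76) (nat_lit 8067604315318) (nat_lit 1) (nat_lit 4) (nat_lit 2) (nat_lit 5) (nat_lit 2) (nat_lit 4) (nat_lit 423) (nat_lit 333) (nat_lit 264)) (XT.nd (nat_lit 78) (nat_lit 0) (nat_lit 0) (XT.lf (nat_lit 0) (nat_lit 32334883981781) (nat_lit 76) (nat_lit 9251076409710) (nat_lit 76) (nat_lit 9249938924158) (nat_lit 1) (nat_lit 4) (nat_lit 2) (nat_lit 5) (nat_lit 2) (nat_lit 4) (nat_lit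 424) (nat_lit 333) (nat_lit 263)) (XT.lf (nat_lit 0) (nat_lit 37237249267863) (nat_lit 76) (nat_lit 10610761660552) (nat_lit 76) (nat_lit 10609624166635) (nat_lit 1) (nat_lit 4) (nat_lit 2) (nat_lit 5) (nat_lit 2) (nat_lit 4) (nat_lit 425) (nat_lit 333) (nat_lit 262)))) (XT.nd (nat_lit 156) (nat_lit 0) (nat_lit 0) (XT.nd (nat_lit 78) (nat_lit 0) (nat_lit 0) (XT.lf (nat_lit 0) (nat_lit 42874968630136) (nat_lit 76) (nat_lit 12174400081292) (nat_lit 76) (nat_lit 12173262580100) (nat_lit 1) (nat_lit 4) (nat_lit 2) (nat_lit 5) (nat_lit 2) (nat_lit 4) (nat_lit 426) (nat_lit 333) (nat_lit 261)) (XT.lf (nat_lit 0) (nat_lit 49358345273515) (nat_lit 76) (nat_lit 13972584597552) (nat_lit 76) (nat_lit 13971447090035) (nat_lit 1) (nat_lit 4) (nat_lit 2) (nat_lit 5) (nat_lit 2) (nat_lit 4) (nat_lit 427) (nat_lit 333) (nat_lit 260))) (XT.nd (nat_lit 78) (nat_lit 0) (nat_lit 0) (XT.lf (nat_lit 0) (nat_lit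 56814227871458) (nat_lit 76) (nat_lit 16040497080304) (nat_lit 76) (nat_lit 16039359567285) (nat_lit 1) (nat_lit 4) (nat_lit 2) (nat_lit 5) (nat_lit 2) (nat_lit 4) (nat_lit 428) (nat_lit 333) (nat_lit 259)) (XT.lf (nat_lit 0) (nat_lit 65388492387838) (nat_lit 76) (nat_lit 18418596686817) (nat_lit 76) (nat_lit 18417459169016) (nat_lit 1) (nat_lit 4) (nat_lit 2) (nat_lit 5) (nat_lit 2) (nat_lit 4) (nat_lit 429) (nat_lit 333) (nat_lit 258)))))) (XT.nd (nat_lit 47190) (nat_lit 0) (nat_lit 1520) (XT.nd (nat_lit 234) (nat_lit 0) (nat_lit 0) (XT.nd (nat_lit 78) (nat_lit 0) (nat_lit 0) (XT.lf (nat_lit 0) (nat_lit 75248896171887) (nat_lit 76) (nat_lit 21153411452873) (nat_lit 76) (nat_lit 21152273930912) (nat_lit 1) (nat_lit 4) (nat_lit 2) (nat_lit 5) (nat_lit 2) (nat_lit 4) (nat_lit 430) (nat_lit 333) (nat_lit 257)) (XT.nd (nat_lit 78) (nat_lit 0) (nat_lit 0) (XT.lf (nat_lit 0) (nat_lit 86588360167208)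 (nat_lit 76) (nat_lit 24298448623892) (nat_lit 76) (nat_lit 24297311098314) (nat_lit 1) (nat_lit 4) (nat_lit 2) (nat_lit 5) (nat_lit 2) (nat_lit 4) (nat_lit 431) (nat_lit 333) (nat_lit 256)) (XT.lf (nat_lit 0) (nat_lit 99628743451968) (nat_lit 76) (nat_lit 27915241535831) (nat_lit 76) (nat_lit 27914104007108) (nat_lit 1) (nat_lit 4) (nat_lit 2) (nat_lit 5) (nat_lit 2) (nat_lit 4) (nat_lit 432) (nat_lit 333) (nat_lit 255)))) (XT.nd (nat_lit 46800) (nat_lit 0) (nat_lit 2204) (XT.nd (nat_lit 78) (nat_lit 0) (nat_lit 0) (XT.lf (nat_lit 0) (nat_lit 114625183960001) (nat_lit 76) (nat_lit 32074553528271) (nat_lit 76) (nat_lit 32073415996813) (nat_lit 1) (nat_lit 4) (nat_lit 2) (nat_lit 5) (nat_lit 2) (nat_lit 4) (nat_lit 433) (nat_lit 333) (nat_lit 254)) (XT.lf (nat_lit 0) (nat_lit 131871090309942) (nat_lit 76) (nat_lit 36857762444542) (nat_lit 76) (nat_lit 36856624910706) (nat_lit 1) (nat_lit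 4) (nat_lit 2) (nat_lit 5) (nat_lit 2) (nat_lit 4) (nat_lit 434) (nat_lit 333) (nat_lit 253))) (XT.nd (nat_lit 78) (nat_lit 152) (nat_lit 0) (XT.lf (nat_lit 0) (nat_lit 2462972188) (nat_lit 152) (nat_lit 25101029) (nat_lit 0) (nat_lit 2462972188) (nat_lit 32) (nat_lit 5) (nat_lit 34) (nat_lit 4) (nat_lit 32) (nat_lit 4) (nat_lit 352) (nat_lit 334) (nat_lit 334)) (XT.lf (nat_lit 0) (nat_lit 9662083444) (nat_lit 152) (nat_lit 788964894) (nat_lit 152) (nat_lit 98661451) (nat_lit 30) (nat_lit 4) (nat_lit 32) (nat_lit 5) (nat_lit 32) (nat_lit 4) (nat_lit 353) (nat_lit 334) (nat_lit 333))))) (XT.nd (nat_lit 234) (nat_lit 304) (nat_lit 0) (XT.nd (nat_lit 78) (nat_lit 228) (nat_lit 0) (XT.lf (nat_lit 0) (nat_lit 5089493114) (nat_lit 152) (nat_lit 2193098371) (nat_lit 0) (nat_lit 3967260675) (nat_lit 28) (nat_lit 5) (nat_lit 30) (nat_lit 4) (nat_lit 28) (nat_lit 4) (nat_lit 354) (nat_lit 334) (nat_lit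 332)) (XT.nd (nat_lit 78) (nat_lit 152) (nat_lit 0) (XT.lf (nat_lit 0) (nat_lit 8353578616) (nat_lit 76) (nat_lit 2642196943) (nat_lit 76) (nat_lit 1066078785) (nat_lit 27) (nat_lit 4) (nat_lit 28) (nat_lit 5) (nat_lit 28) (nat_lit 4) (nat_lit 355) (nat_lit 334) (nat_lit 331)) (XT.lf (nat_lit 0) (nat_lit 4435749732) (nat_lit 152) (nat_lit 5797656863) (nat_lit 0) (nat_lit 2722009391) (nat_lit 25) (nat_lit 5) (nat_lit 27) (nat_lit 4) (nat_lit 25) (nat_lit 4) (nat_lit 356) (nat_lit 334) (nat_lit 330)))) (XT.nd (nat_lit 156) (nat_lit 76) (nat_lit 0) (XT.nd (nat_lit 78) (nat_lit 152) (nat_lit 0) (XT.lf (nat_lit 0) (nat_lit 5515640437) (nat_lit 76) (nat_lit 5229150235) (nat_lit 76) (nat_lit 3216972667) (nat_lit 24) (nat_lit 4) (nat_lit 25) (nat_lit 5) (nat_lit 25) (nat_lit 4) (nat_lit 357) (nat_lit 334) (nat_lit 329)) (XT.lf (nat_lit 0) (nat_lit 2649622309) (nat_lit 152) (nat_lit 11773576683)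 (nat_lit 0) (nat_lit 674241265) (nat_lit 22) (nat_lit 5) (nat_lit 24) (nat_lit 4) (nat_lit 22) (nat_lit 4) (nat_lit 358) (nat_lit 334) (nat_lit 328))) (XT.nd (nat_lit 78) (nat_lit 0) (nat_lit 0) (XT.lf (nat_lit 0) (nat_lit 144350002) (nat_lit 76) (nat_lit 9184252424) (nat_lit 76) (nat_lit 7012644058) (nat_lit 21) (nat_lit 4) (nat_lit 22) (nat_lit 5) (nat_lit 22) (nat_lit 4) (nat_lit 359) (nat_lit 334) (nat_lit 327)) (XT.lf (nat_lit 0) (nat_lit 14298205017) (nat_lit 76) (nat_lit 2894120785) (nat_lit 76) (nat_lit 551879966) (nat_lit 21) (nat_lit 4) (nat_lit 22) (nat_lit 5) (nat_lit 22) (nat_lit 4) (nat_lit 360) (nat_lit 334) (nat_lit 326))))))) (XT.nd (nat_lit 1014) (nat_lit 380) (nat_lit 0) (XT.nd (nat_lit 468) (nat_lit 456) (nat_lit 0) (XT.nd (nat_lit 234) (nat_lit 228) (nat_lit 0) (XT.nd (nat_lit 78) (nat_lit 228) (nat_lit 0) (XT.lf (nat_lit 0) (nat_lit 6530637569) (nat_lit 152) (nat_lit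 8379634759) (nat_lit 0) (nat_lit 4364883772) (nat_lit 19) (nat_lit 5) (nat_lit 21) (nat_lit 4) (nat_lit 19) (nat_lit 4) (nat_lit 361) (nat_lit 334) (nat_lit 325)) (XT.nd (nat_lit 78) (nat_lit 152) (nat_lit 0) (XT.lf (nat_lit 0) (nat_lit 6357037427) (nat_lit 76) (nat_lit 8461407834) (nat_lit 76) (nat_lit 6183460430) (nat_lit 18) (nat_lit 4) (nat_lit 19) (nat_lit 5) (nat_lit 19) (nat_lit 4) (nat_lit 362) (nat_lit 334) (nat_lit 324)) (XT.lf (nat_lit 0) (nat_lit 485401392) (nat_lit 76) (nat_lit 845253703) (nat_lit 152) (nat_lit 21635042991) (nat_lit 16) (nat_lit 5) (nat_lit 17) (nat_lit 5) (nat_lit 18) (nat_lit 4) (nat_lit 363) (nat_lit 334) (nat_lit 323)))) (XT.nd (nat_lit 78) (nat_lit 228) (nat_lit 0) (XT.lf (nat_lit 0) (nat_lit 10082057296) (nat_lit 152) (nat_lit 7043726080) (nat_lit 0) (nat_lit 7942629862) (nat_lit 16) (nat_lit 5) (nat_lit 18) (nat_lit 4) (nat_lit 16) (nat_lit 4) (nat_lit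 364) (nat_lit 334) (nat_lit 322)) (XT.nd (nat_lit 78) (nat_lit 152) (nat_lit 0) (XT.lf (nat_lit 0) (nat_lit 10940311926) (nat_lit 76) (nat_lit 9363108437) (nat_lit 76) (nat_lit 7159533943) (nat_lit 15) (nat_lit 4) (nat_lit 16) (nat_lit 5) (nat_lit 16) (nat_lit 4) (nat_lit 365) (nat_lit 334) (nat_lit 321)) (XT.lf (nat_lit 0) (nat_lit 1598002662) (nat_lit 76) (nat_lit 196116969) (nat_lit 152) (nat_lit 28393614715) (nat_lit 13) (nat_lit 5) (nat_lit 14) (nat_lit 5) (nat_lit 15) (nat_lit 4) (nat_lit 366) (nat_lit 334) (nat_lit 320))))) (XT.nd (nat_lit 234) (nat_lit 380) (nat_lit 0) (XT.nd (nat_lit 78) (nat_lit 76) (nat_lit 0) (XT.lf (nat_lit 0) (nat_lit 12357264752) (nat_lit 152) (nat_lit 10412483798) (nat_lit 0) (nat_lit 10350430892) (nat_lit 13) (nat_lit 5) (nat_lit 15) (nat_lit 4) (nat_lit 13) (nat_lit 4) (nat_lit 367) (nat_lit 334) (nat_lit 319)) (XT.nd (nat_lit 78) (nat_lit 0) (nat_lit 0)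 (XT.lf (nat_lit 0) (nat_lit 10834382725) (nat_lit 76) (nat_lit 13838231220) (nat_lit 76) (nat_lit 11794721071) (nat_lit 12) (nat_lit 4) (nat_lit 13) (nat_lit 5) (nat_lit 13) (nat_lit 4) (nat_lit 368) (nat_lit 334) (nat_lit 318)) (XT.lf (nat_lit 0) (nat_lit 35854145530) (nat_lit 76) (nat_lit 3248833519) (nat_lit 76) (nat_lit 1173430944) (nat_lit 12) (nat_lit 4) (nat_lit 13) (nat_lit 5) (nat_lit 13) (nat_lit 4) (nat_lit 369) (nat_lit 334) (nat_lit 317)))) (XT.nd (nat_lit 156) (nat_lit 228) (nat_lit 0) (XT.nd (nat_lit 78) (nat_lit 0) (nat_lit 0) (XT.lf (nat_lit 0) (nat_lit 11089833012) (nat_lit 152) (nat_lit 24082658036) (nat_lit 0) (nat_lit 9261019865) (nat_lit 10) (nat_lit 5) (nat_lit 12) (nat_lit 4) (nat_lit 10) (nat_lit 4) (nat_lit 370) (nat_lit 334) (nat_lit 316)) (XT.lf (nat_lit 0) (nat_lit 25218064752) (nat_lit 152) (nat_lit 597608511) (nat_lit 0) (nat_lit 23368281818) (nat_lit 10) (nat_lit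 5) (nat_lit 12) (nat_lit 4) (nat_lit 10) (nat_lit 4) (nat_lit 371) (nat_lit 334) (nat_lit 315))) (XT.nd (nat_lit 78) (nat_lit 152) (nat_lit 0) (XT.lf (nat_lit 0) (nat_lit 28481988701) (nat_lit 76) (nat_lit 13944431562) (nat_lit 76) (nat_lit 12076414030) (nat_lit 9) (nat_lit 4) (nat_lit 10) (nat_lit 5) (nat_lit 10) (nat_lit 4) (nat_lit 372) (nat_lit 334) (nat_lit 314)) (XT.lf (nat_lit 0) (nat_lit 926609342) (nat_lit 76) (nat_lit 380592074) (nat_lit 152) (nat_lit 59324502100) (nat_lit 7) (nat_lit 5) (nat_lit 8) (nat_lit 5) (nat_lit 9) (nat_lit 4) (nat_lit 373) (nat_lit 334) (nat_lit 313)))))) (XT.nd (nat_lit 546) (nat_lit 228) (nat_lit 0) (XT.nd (nat_lit 234) (nat_lit 76) (nat_lit 0) (XT.nd (nat_lit 78) (nat_lit 76) (nat_lit 0) (XT.lf (nat_lit 0) (nat_lit 17299201586) (nat_lit 152) (nat_lit 34369796031) (nat_lit 0) (nat_lit 15649060995) (nat_lit 7) (nat_lit 5) (nat_lit 9) (nat_lit 4) (nat_lit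 7) (nat_lit 4) (nat_lit 374) (nat_lit 334) (nat_lit 312)) (XT.nd (nat_lit 78) (nat_lit 76) (nat_lit 0) (XT.lf (nat_lit 0) (nat_lit 35518689121) (nat_lit 152) (nat_lit 5656252922) (nat_lit 0) (nat_lit 33858122839) (nat_lit 7) (nat_lit 5) (nat_lit 9) (nat_lit 4) (nat_lit 7) (nat_lit 4) (nat_lit 375) (nat_lit 334) (nat_lit 311)) (XT.lf (nat_lit 0) (nat_lit 29652996142) (nat_lit 76) (nat_lit 27881243942) (nat_lit 76) (nat_lit 26211611843) (nat_lit 6) (nat_lit 4) (nat_lit 7) (nat_lit 5) (nat_lit 7) (nat_lit 4) (nat_lit 376) (nat_lit 334) (nat_lit 310)))) (XT.nd (nat_lit 156) (nat_lit 0) (nat_lit 0) (XT.nd (nat_lit 78) (nat_lit 76) (nat_lit 0) (XT.lf (nat_lit 0) (nat_lit 70559043450) (nat_lit 76) (nat_lit 12431624093) (nat_lit 76) (nat_lit 10754108674) (nat_lit 6) (nat_lit 4) (nat_lit 7) (nat_lit 5) (nat_lit 7) (nat_lit 4) (nat_lit 377) (nat_lit 334) (nat_lit 309)) (XT.lf (nat_lit 0) (nat_lit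 7041840861) (nat_lit 76) (nat_lit 92484167509) (nat_lit 0) (nat_lit 5577170878) (nat_lit 5) (nat_lit 5) (nat_lit 6) (nat_lit 4) (nat_lit 5) (nat_lit 4) (nat_lit 378) (nat_lit 334) (nat_lit 308))) (XT.nd (nat_lit 78) (nat_lit 0) (nat_lit 0) (XT.lf (nat_lit 0) (nat_lit 28124878809) (nat_lit 76) (nat_lit 63050817170) (nat_lit 0) (nat_lit 26655025416) (nat_lit 5) (nat_lit 5) (nat_lit 6) (nat_lit 4) (nat_lit 5) (nat_lit 4) (nat_lit 379) (nat_lit 334) (nat_lit 307)) (XT.lf (nat_lit 0) (nat_lit 52246054954) (nat_lit 76) (nat_lit 29468293724) (nat_lit 0) (nat_lit 50771694247) (nat_lit 5) (nat_lit 5) (nat_lit 6) (nat_lit 4) (nat_lit 5) (nat_lit 4) (nat_lit 380) (nat_lit 334) (nat_lit 306))))) (XT.nd (nat_lit 234) (nat_lit 152) (nat_lit 0) (XT.nd (nat_lit 78) (nat_lit 0) (nat_lit 0) (XT.lf (nat_lit 0) (nat_lit 9792223666) (nat_lit 76) (nat_lit 70490556784) (nat_lit 76) (nat_lit 69012276674) (nat_lit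 4) (nat_lit 4) (nat_lit 5) (nat_lit 5) (nat_lit 5) (nat_lit 4) (nat_lit 381) (nat_lit 334) (nat_lit 305)) (XT.nd (nat_lit 78) (nat_lit 0) (nat_lit 0) (XT.lf (nat_lit 0) (nat_lit 58033004095) (nat_lit 76) (nat_lit 55929260269) (nat_lit 76) (nat_lit 54447571982) (nat_lit 4) (nat_lit 4) (nat_lit 5) (nat_lit 5) (nat_lit 5) (nat_lit 4) (nat_lit 382) (nat_lit 334) (nat_lit 304)) (XT.lf (nat_lit 0) (nat_lit 113318032939) (nat_lit 76) (nat_lit 39285952283) (nat_lit 76) (nat_lit 37801300364) (nat_lit 4) (nat_lit 4) (nat_lit 5) (nat_lit 5) (nat_lit 5) (nat_lit 4) (nat_lit 383) (nat_lit 334) (nat_lit 303)))) (XT.nd (nat_lit 156) (nat_lit 0) (nat_lit 0) (XT.nd (nat_lit 78) (nat_lit 152) (nat_lit 0) (XT.lf (nat_lit 0) (nat_lit 176728973809) (nat_lit 76) (nat_lit 20235002885) (nat_lit 76) (nat_lit 18747773895) (nat_lit 4) (nat_lit 4) (nat_lit 5) (nat_lit 5) (nat_lit 5) (nat_lit 4) (nat_lit 384) (nat_lit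 334) (nat_lit 302)) (XT.lf (nat_lit 0) (nat_lit 3100133461) (nat_lit 152) (nat_lit 239856756984) (nat_lit 0) (nat_lit 1804942224) (nat_lit 2) (nat_lit 5) (nat_lit 4) (nat_lit 4) (nat_lit 2) (nat_lit 4) (nat_lit 385) (nat_lit 334) (nat_lit 301))) (XT.nd (nat_lit 78) (nat_lit 0) (nat_lit 0) (XT.lf (nat_lit 0) (nat_lit 29333165872) (nat_lit 152) (nat_lit 220211965430) (nat_lit 0) (nat_lit 28036280169) (nat_lit 2) (nat_lit 5) (nat_lit 4) (nat_lit 4) (nat_lit 2) (nat_lit 4) (nat_lit 386) (nat_lit 334) (nat_lit 300)) (XT.lf (nat_lit 0) (nat_lit 59439423773) (nat_lit 152) (nat_lit 197752698248) (nat_lit 0) (nat_lit 58141064621) (nat_lit 2) (nat_lit 5) (nat_lit 4) (nat_lit 4) (nat_lit 2) (nat_lit 4) (nat_lit 387) (nat_lit 334) (nat_lit 299))))))))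
noncomputable def xc36 : XT := (XT.nd (nat_lit 2028) (nat_lit 0) (nat_lit 0) (XT.nd (nat_lit 1014) (nat_lit 0) (nat_lit 0) (XT.nd (nat_lit 468) (nat_lit 0) (nat_lit 0) (XT.nd (nat_lit 234) (nat_lit 76) (nat_lit 0) (XT.nd (nat_lit 78) (nat_lit 0) (nat_lit 0) (XT.lf (nat_lit 0) (nat_lit 94007942644) (nat_lit 152) (nat_lit 172039534994) (nat_lit 0) (nat_lit 92708302233) (nat_lit 2) (nat_lit 5) (nat_lit 4) (nat_lit 4) (nat_lit 2) (nat_lit 4) (nat_lit 388) (nat_lit 334) (nat_lit 298)) (XT.nd (nat_lit 78) (nat_lit 0) (nat_lit 0) (XT.lf (nat_lit 0) (nat_lit 133715063072) (nat_lit 152) (nat_lit 142569392039) (nat_lit 0) (nat_lit 132414308521) (nat_lit 2) (nat_lit 5) (nat_lit 4) (nat_lit 4) (nat_lit 2) (nat_lit 4) (nat_lit 389) (nat_lit 334) (nat_lit 297)) (XT.lf (nat_lit 0) (nat_lit 179337663500) (nat_lit 152) (nat_lit 108765679630) (nat_lit 0) (nat_lit 178035940133) (nat_lit 2) (nat_lit 5) (nat_lit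 4) (nat_lit 4) (nat_lit 2) (nat_lit 4) (nat_lit 390) (nat_lit 334) (nat_lit 296)))) (XT.nd (nat_lit 78) (nat_lit 76) (nat_lit 0) (XT.lf (nat_lit 0) (nat_lit 231768360023) (nat_lit 152) (nat_lit 69967020783) (nat_lit 0) (nat_lit 230465794207) (nat_lit 2) (nat_lit 5) (nat_lit 4) (nat_lit 4) (nat_lit 2) (nat_lit 4) (nat_lit 391) (nat_lit 334) (nat_lit 295)) (XT.nd (nat_lit 78) (nat_lit 76) (nat_lit 0) (XT.lf (nat_lit 0) (nat_lit 292032970617) (nat_lit 152) (nat_lit 25414311306) (nat_lit 0) (nat_lit 290729672237) (nat_lit 2) (nat_lit 5) (nat_lit 4) (nat_lit 4) (nat_lit 2) (nat_lit 4) (nat_lit 392) (nat_lit 334) (nat_lit 294)) (XT.lf (nat_lit 0) (nat_lit 28281990627) (nat_lit 76) (nat_lit 334199691782) (nat_lit 76) (nat_lit 332895756389) (nat_lit 1) (nat_lit 4) (nat_lit 2) (nat_lit 5) (nat_lit 2) (nat_lit 4) (nat_lit 393) (nat_lit 334) (nat_lit 293))))) (XT.nd (nat_lit 234) (nat_lit 0) (nat_lit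 0) (XT.nd (nat_lit 78) (nat_lit 0) (nat_lit 0) (XT.lf (nat_lit 0) (nat_lit 92834386283) (nat_lit 76) (nat_lit 351966323918) (nat_lit 76) (nat_lit 350661834601) (nat_lit 1) (nat_lit 4) (nat_lit 2) (nat_lit 5) (nat_lit 2) (nat_lit 4) (nat_lit 394) (nat_lit 334) (nat_lit 292)) (XT.nd (nat_lit 78) (nat_lit 0) (nat_lit 0) (XT.lf (nat_lit 0) (nat_lit 167022185981) (nat_lit 76) (nat_lit 372423261715) (nat_lit 76) (nat_lit 371118290725) (nat_lit 1) (nat_lit 4) (nat_lit 2) (nat_lit 5) (nat_lit 2) (nat_lit 4) (nat_lit 395) (nat_lit 334) (nat_lit 291)) (XT.lf (nat_lit 0) (nat_lit 252296890151) (nat_lit 76) (nat_lit 395970749609) (nat_lit 76) (nat_lit 394665359773) (nat_lit 1) (nat_lit 4) (nat_lit 2) (nat_lit 5) (nat_lit 2) (nat_lit 4) (nat_lit 396) (nat_lit 334) (nat_lit 290)))) (XT.nd (nat_lit 156) (nat_lit 0) (nat_lit 0) (XT.nd (nat_lit 78) (nat_lit 0) (nat_lit 0) (XT.lf (nat_lit 0) (nat_lit 350326916919)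 (nat_lit 76) (nat_lit 423069499320) (nat_lit 76) (nat_lit 421763745270) (nat_lit 1) (nat_lit 4) (nat_lit 2) (nat_lit 5) (nat_lit 2) (nat_lit 4) (nat_lit 397) (nat_lit 334) (nat_lit 289)) (XT.lf (nat_lit 0) (nat_lit 463030245068) (nat_lit 76) (nat_lit 454249703776) (nat_lit 76) (nat_lit 452943633018) (nat_lit 1) (nat_lit 4) (nat_lit 2) (nat_lit 5) (nat_lit 2) (nat_lit 4) (nat_lit 398) (nat_lit 334) (nat_lit 288))) (XT.nd (nat_lit 78) (nat_lit 0) (nat_lit 0) (XT.lf (nat_lit 0) (nat_lit 592611939714) (nat_lit 76) (nat_lit 490121410455) (nat_lit 76) (nat_lit 488815064299) (nat_lit 1) (nat_lit 4) (nat_lit 2) (nat_lit 5) (nat_lit 2) (nat_lit 4) (nat_lit 399) (nat_lit 334) (nat_lit 287)) (XT.lf (nat_lit 0) (nat_lit 741607294884) (nat_lit 76) (nat_lit 531386457098) (nat_lit 76) (nat_lit 530079871466) (nat_lit 1) (nat_lit 4) (nat_lit 2) (nat_lit 5) (nat_lit 2) (nat_lit 4) (nat_lit 400) (nat_lit 334)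 (nat_lit 286)))))) (XT.nd (nat_lit 468) (nat_lit 0) (nat_lit 0) (XT.nd (nat_lit 234) (nat_lit 0) (nat_lit 0) (XT.nd (nat_lit 78) (nat_lit 0) (nat_lit 0) (XT.lf (nat_lit 0) (nat_lit 912931437091) (nat_lit 76) (nat_lit 578852203313) (nat_lit 76) (nat_lit 577545409439) (nat_lit 1) (nat_lit 4) (nat_lit 2) (nat_lit 5) (nat_lit 2) (nat_lit 4) (nat_lit 401) (nat_lit 334) (nat_lit 285)) (XT.nd (nat_lit 78) (nat_lit 0) (nat_lit 0) (XT.lf (nat_lit 0) (nat_lit 1109936360422) (nat_lit 76) (nat_lit 633447326742) (nat_lit 76) (nat_lit 632140351790) (nat_lit 1) (nat_lit 4) (nat_lit 2) (nat_lit 5) (nat_lit 2) (nat_lit 4) (nat_lit 402) (nat_lit 334) (nat_lit 284)) (XT.lf (nat_lit 0) (nat_lit 1336476509029) (nat_lit 76) (nat_lit 696239992845) (nat_lit 76) (nat_lit 694932860433) (nat_lit 1) (nat_lit 4) (nat_lit 2) (nat_lit 5) (nat_lit 2) (nat_lit 4) (nat_lit 403) (nat_lit 334) (nat_lit 283)))) (XT.nd (nat_lit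 78) (nat_lit 0) (nat_lit 0) (XT.lf (nat_lit 0) (nat_lit 1596984190168) (nat_lit 76) (nat_lit 768458753783) (nat_lit 76) (nat_lit 767151484450) (nat_lit 1) (nat_lit 4) (nat_lit 2) (nat_lit 5) (nat_lit 2) (nat_lit 4) (nat_lit 404) (nat_lit 334) (nat_lit 282)) (XT.nd (nat_lit 78) (nat_lit 0) (nat_lit 0) (XT.lf (nat_lit 0) (nat_lit 1896556293252) (nat_lit 76) (nat_lit 851516585315) (nat_lit 76) (nat_lit 850209196920) (nat_lit 1) (nat_lit 4) (nat_lit 2) (nat_lit 5) (nat_lit 2) (nat_lit 4) (nat_lit 405) (nat_lit 334) (nat_lit 281)) (XT.lf (nat_lit 0) (nat_lit 2241054011603) (nat_lit 76) (nat_lit 947038531971) (nat_lit 76) (nat_lit 945731040043) (nat_lit 1) (nat_lit 4) (nat_lit 2) (nat_lit 5) (nat_lit 2) (nat_lit 4) (nat_lit 406) (nat_lit 334) (nat_lit 280))))) (XT.nd (nat_lit 234) (nat_lit 0) (nat_lit 0) (XT.nd (nat_lit 78) (nat_lit 0) (nat_lit 0) (XT.lf (nat_lit 0) (nat_lit 2637217517970) (nat_lit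 76) (nat_lit 1056893501403) (nat_lit 76) (nat_lit 1055585919447) (nat_lit 1) (nat_lit 4) (nat_lit 2) (nat_lit 5) (nat_lit 2) (nat_lit 4) (nat_lit 407) (nat_lit 334) (nat_lit 279)) (XT.nd (nat_lit 78) (nat_lit 0) (nat_lit 0) (XT.lf (nat_lit 0) (nat_lit 3092797837478) (nat_lit 76) (nat_lit 1183230829968) (nat_lit 76) (nat_lit 1181923169727) (nat_lit 1) (nat_lit 4) (nat_lit 2) (nat_lit 5) (nat_lit 2) (nat_lit 4) (nat_lit 408) (nat_lit 334) (nat_lit 278)) (XT.lf (nat_lit 0) (nat_lit 3616708498118) (nat_lit 76) (nat_lit 1328522334965) (nat_lit 76) (nat_lit 1327214606650) (nat_lit 1) (nat_lit 4) (nat_lit 2) (nat_lit 5) (nat_lit 2) (nat_lit 4) (nat_lit 409) (nat_lit 334) (nat_lit 277)))) (XT.nd (nat_lit 156) (nat_lit 0) (nat_lit 0) (XT.nd (nat_lit 78) (nat_lit 0) (nat_lit 0) (XT.lf (nat_lit 0) (nat_lit 4219199925859) (nat_lit 76) (nat_lit 1495610676275) (nat_lit 76) (nat_lit 1494302888764) (nat_lit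 1) (nat_lit 4) (nat_lit 2) (nat_lit 5) (nat_lit 2) (nat_lit 4) (nat_lit 410) (nat_lit 334) (nat_lit 276)) (XT.lf (nat_lit 0) (nat_lit 4912059996461) (nat_lit 76) (nat_lit 1687764973618) (nat_lit 76) (nat_lit 1686457134634) (nat_lit 1) (nat_lit 4) (nat_lit 2) (nat_lit 5) (nat_lit 2) (nat_lit 4) (nat_lit 411) (nat_lit 334) (nat_lit 275))) (XT.nd (nat_lit 78) (nat_lit 0) (nat_lit 0) (XT.lf (nat_lit 0) (nat_lit 5708844667826) (nat_lit 76) (nat_lit 1908744767595) (nat_lit 76) (nat_lit 1907436883851) (nat_lit 1) (nat_lit 4) (nat_lit 2) (nat_lit 5) (nat_lit 2) (nat_lit 4) (nat_lit 412) (nat_lit 334) (nat_lit 274)) (XT.lf (nat_lit 0) (nat_lit 6625143205265) (nat_lit 76) (nat_lit 2162873575915) (nat_lit 76) (nat_lit 2161565653249) (nat_lit 1) (nat_lit 4) (nat_lit 2) (nat_lit 5) (nat_lit 2) (nat_lit 4) (nat_lit 413) (nat_lit 334) (nat_lit 273))))))) (XT.nd (nat_lit 1014) (nat_lit 0) (nat_lit 0) (XT.nd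 (nat_lit 468) (nat_lit 0) (nat_lit 0) (XT.nd (nat_lit 234) (nat_lit 0) (nat_lit 0) (XT.nd (nat_lit 78) (nat_lit 0) (nat_lit 0) (XT.lf (nat_lit 0) (nat_lit 7678883188857) (nat_lit 76) (nat_lit 2455123483956) (nat_lit 76) (nat_lit 2453815527445) (nat_lit 1) (nat_lit 4) (nat_lit 2) (nat_lit 5) (nat_lit 2) (nat_lit 4) (nat_lit 414) (nat_lit 334) (nat_lit 272)) (XT.nd (nat_lit 78) (nat_lit 0) (nat_lit 0) (XT.lf (nat_lit 0) (nat_lit 8890681270456) (nat_lit 76) (nat_lit 2791212424704) (nat_lit 76) (nat_lit 2789904438762) (nat_lit 1) (nat_lit 4) (nat_lit 2) (nat_lit 5) (nat_lit 2) (nat_lit 4) (nat_lit 415) (nat_lit 334) (nat_lit 271)) (XT.lf (nat_lit 0) (nat_lit 10284246542962) (nat_lit 76) (nat_lit 3177716051345) (nat_lit 76) (nat_lit 3176408039812) (nat_lit 1) (nat_lit 4) (nat_lit 2) (nat_lit 5) (nat_lit 2) (nat_lit 4) (nat_lit 416) (nat_lit 334) (nat_lit 270)))) (XT.nd (nat_lit 78) (nat_lit 0)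 (nat_lit 0) (XT.lf (nat_lit 0) (nat_lit 11886844413881) (nat_lit 76) (nat_lit 3622196391358) (nat_lit 76) (nat_lit 3620888357572) (nat_lit 1) (nat_lit 4) (nat_lit 2) (nat_lit 5) (nat_lit 2) (nat_lit 4) (nat_lit 417) (nat_lit 334) (nat_lit 269)) (XT.nd (nat_lit 78) (nat_lit 0) (nat_lit 0) (XT.lf (nat_lit 0) (nat_lit 13729830058949) (nat_lit 76) (nat_lit 4133349799222) (nat_lit 76) (nat_lit 4132041746085) (nat_lit 1) (nat_lit 4) (nat_lit 2) (nat_lit 5) (nat_lit 2) (nat_lit 4) (nat_lit 418) (nat_lit 334) (nat_lit 268)) (XT.lf (nat_lit 0) (nat_lit 15849261892959) (nat_lit 76) (nat_lit 4721177102482) (nat_lit 76) (nat_lit 4719869032518) (nat_lit 1) (nat_lit 4) (nat_lit 2) (nat_lit 5) (nat_lit 2) (nat_lit 4) (nat_lit 419) (nat_lit 334) (nat_lit 267))))) (XT.nd (nat_lit 234) (nat_lit 0) (nat_lit 0) (XT.nd (nat_lit 78) (nat_lit 0) (nat_lit 0) (XT.lf (nat_lit 0) (nat_lit 18286607060491) (nat_lit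 76) (nat_lit 5397179270114) (nat_lit 76) (nat_lit 5395871185518) (nat_lit 1) (nat_lit 4) (nat_lit 2) (nat_lit 5) (nat_lit 2) (nat_lit 4) (nat_lit 420) (nat_lit 334) (nat_lit 266)) (XT.nd (nat_lit 78) (nat_lit 0) (nat_lit 0) (XT.lf (nat_lit 0) (nat_lit 21089552749604) (nat_lit 76) (nat_lit 6174582431485) (nat_lit 76) (nat_lit 6173274334165) (nat_lit 1) (nat_lit 4) (nat_lit 2) (nat_lit 5) (nat_lit 2) (nat_lit 4) (nat_lit 421) (nat_lit 334) (nat_lit 265)) (XT.lf (nat_lit 0) (nat_lit 24312939202043) (nat_lit 76) (nat_lit 7068596648449) (nat_lit 76) (nat_lit 7067288540065) (nat_lit 1) (nat_lit 4) (nat_lit 2) (nat_lit 5) (nat_lit 2) (nat_lit 4) (nat_lit 422) (nat_lit 334) (nat_lit 264)))) (XT.nd (nat_lit 156) (nat_lit 0) (nat_lit 0) (XT.nd (nat_lit 78) (nat_lit 0) (nat_lit 0) (XT.lf (nat_lit 0) (nat_lit 28019832674486) (nat_lit 76) (nat_lit 8096713503510) (nat_lit 76) (nat_lit 8095405385505) (nat_lit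 1) (nat_lit 4) (nat_lit 2) (nat_lit 5) (nat_lit 2) (nat_lit 4) (nat_lit 423) (nat_lit 334) (nat_lit 263)) (XT.lf (nat_lit 0) (nat_lit 32282759343567) (nat_lit 76) (nat_lit 9279048326442) (nat_lit 76) (nat_lit 9277740200071) (nat_lit 1) (nat_lit 4) (nat_lit 2) (nat_lit 5) (nat_lit 2) (nat_lit 4) (nat_lit 424) (nat_lit 334) (nat_lit 262))) (XT.nd (nat_lit 78) (nat_lit 0) (nat_lit 0) (XT.lf (nat_lit 0) (nat_lit 37185124296290) (nat_lit 76) (nat_lit 10638733755085) (nat_lit 76) (nat_lit 10637425621440) (nat_lit 1) (nat_lit 4) (nat_lit 2) (nat_lit 5) (nat_lit 2) (nat_lit 4) (nat_lit 425) (nat_lit 334) (nat_lit 261)) (XT.lf (nat_lit 0) (nat_lit 42822843368687) (nat_lit 76) (nat_lit 12202372330434) (nat_lit 76) (nat_lit 12201064190463) (nat_lit 1) (nat_lit 4) (nat_lit 2) (nat_lit 5) (nat_lit 2) (nat_lit 4) (nat_lit 426) (nat_lit 334) (nat_lit 260)))))) (XT.nd (nat_lit 546) (nat_lit 0) (nat_lit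 0) (XT.nd (nat_lit 234) (nat_lit 0) (nat_lit 0) (XT.nd (nat_lit 78) (nat_lit 0) (nat_lit 0) (XT.lf (nat_lit 0) (nat_lit 49306219760000) (nat_lit 76) (nat_lit 14000556981137) (nat_lit 76) (nat_lit 13999248835665) (nat_lit 1) (nat_lit 4) (nat_lit 2) (nat_lit 5) (nat_lit 2) (nat_lit 4) (nat_lit 427) (nat_lit 334) (nat_lit 259)) (XT.nd (nat_lit 78) (nat_lit 0) (nat_lit 0) (XT.lf (nat_lit 0) (nat_lit 56762102138754) (nat_lit 76) (nat_lit 16068469580795) (nat_lit 76) (nat_lit 16067161430540) (nat_lit 1) (nat_lit 4) (nat_lit 2) (nat_lit 5) (nat_lit 2) (nat_lit 4) (nat_lit 428) (nat_lit 334) (nat_lit 258)) (XT.lf (nat_lit 0) (nat_lit 65336366464535) (nat_lit 76) (nat_lit 18446569288967) (nat_lit 76) (nat_lit 18445261134552) (nat_lit 1) (nat_lit 4) (nat_lit 2) (nat_lit 5) (nat_lit 2) (nat_lit 4) (nat_lit 429) (nat_lit 334) (nat_lit 257)))) (XT.nd (nat_lit 156) (nat_lit 0) (nat_lit 0) (XT.nd (nat_lit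 78) (nat_lit 0) (nat_lit 0) (XT.lf (nat_lit 0) (nat_lit 75196770082847) (nat_lit 76) (nat_lit 21181384143421) (nat_lit 76) (nat_lit 21180075985389) (nat_lit 1) (nat_lit 4) (nat_lit 2) (nat_lit 5) (nat_lit 2) (nat_lit 4) (nat_lit 430) (nat_lit 334) (nat_lit 256)) (XT.lf (nat_lit 0) (nat_lit 86536233934047) (nat_lit 76) (nat_lit 24326421391308) (nat_lit 76) (nat_lit 24325113230132) (nat_lit 1) (nat_lit 4) (nat_lit 2) (nat_lit 5) (nat_lit 2) (nat_lit 4) (nat_lit 431) (nat_lit 334) (nat_lit 255))) (XT.nd (nat_lit 78) (nat_lit 0) (nat_lit 0) (XT.lf (nat_lit 0) (nat_lit 99576617093486) (nat_lit 76) (nat_lit 27943214370089) (nat_lit 76) (nat_lit 27941906206178) (nat_lit 1) (nat_lit 4) (nat_lit 2) (nat_lit 5) (nat_lit 2) (nat_lit 4) (nat_lit 432) (nat_lit 334) (nat_lit 254)) (XT.lf (nat_lit 0) (nat_lit 114573057492543) (nat_lit 76) (nat_lit 32102526420652) (nat_lit 76) (nat_lit 32101218254363) (nat_lit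 1) (nat_lit 4) (nat_lit 2) (nat_lit 5) (nat_lit 2) (nat_lit 4) (nat_lit 433) (nat_lit 334) (nat_lit 253))))) (XT.nd (nat_lit 46722) (nat_lit 0) (nat_lit 1976) (XT.nd (nat_lit 46566) (nat_lit 0) (nat_lit 2356) (XT.lf (nat_lit 0) (nat_lit 131818963747723) (nat_lit 76) (nat_lit 36885735387465) (nat_lit 76) (nat_lit 36884427219107) (nat_lit 1) (nat_lit 4) (nat_lit 2) (nat_lit 5) (nat_lit 2) (nat_lit 4) (nat_lit 434) (nat_lit 334) (nat_lit 252)) (XT.nd (nat_lit 78) (nat_lit 152) (nat_lit 0) (XT.lf (nat_lit 0) (nat_lit 904925027) (nat_lit 152) (nat_lit 1751791872) (nat_lit 152) (nat_lit 1751791872) (nat_lit 34) (nat_lit 4) (nat_lit 36) (nat_lit 5) (nat_lit 36) (nat_lit 4) (nat_lit 350) (nat_lit 335) (nat_lit 335)) (XT.lf (nat_lit 0) (nat_lit 823060711) (nat_lit 152) (nat_lit 8500573823) (nat_lit 0) (nat_lit 29211753) (nat_lit 32) (nat_lit 5) (nat_lit 34) (nat_lit 4) (nat_lit 32) (nat_lit 4) (nat_lit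 351) (nat_lit 335) (nat_lit 334)))) (XT.nd (nat_lit 156) (nat_lit 152) (nat_lit 0) (XT.nd (nat_lit 78) (nat_lit 228) (nat_lit 0) (XT.lf (nat_lit 0) (nat_lit 5484339927) (nat_lit 152) (nat_lit 452912528) (nat_lit 0) (nat_lit 4000187526) (nat_lit 32) (nat_lit 5) (nat_lit 34) (nat_lit 4) (nat_lit 32) (nat_lit 4) (nat_lit 352) (nat_lit 335) (nat_lit 333)) (XT.lf (nat_lit 0) (nat_lit 136234778) (nat_lit 228) (nat_lit 1791511489) (nat_lit 76) (nat_lit 8692255588) (nat_lit 29) (nat_lit 5) (nat_lit 32) (nat_lit 5) (nat_lit 30) (nat_lit 4) (nat_lit 353) (nat_lit 335) (nat_lit 332))) (XT.nd (nat_lit 78) (nat_lit 76) (nat_lit 0) (XT.lf (nat_lit 0) (nat_lit 5001187769) (nat_lit 152) (nat_lit 3630760679) (nat_lit 0) (nat_lit 2734766168) (nat_lit 28) (nat_lit 5) (nat_lit 30) (nat_lit 4) (nat_lit 28) (nat_lit 4) (nat_lit 354) (nat_lit 335) (nat_lit 331)) (XT.lf (nat_lit 0) (nat_lit 6380222668) (nat_lit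 76) (nat_lit 4250559959) (nat_lit 76) (nat_lit 1589455126) (nat_lit 27) (nat_lit 4) (nat_lit 28) (nat_lit 5) (nat_lit 28) (nat_lit 4) (nat_lit 355) (nat_lit 335) (nat_lit 330))))))))
noncomputable def xc37 : XT := (XT.nd (nat_lit 2106) (nat_lit 228) (nat_lit 0) (XT.nd (nat_lit 1014) (nat_lit 684) (nat_lit 0) (XT.nd (nat_lit 468) (nat_lit 456) (nat_lit 0) (XT.nd (nat_lit 234) (nat_lit 304) (nat_lit 0) (XT.nd (nat_lit 78) (nat_lit 152) (nat_lit 0) (XT.lf (nat_lit 0) (nat_lit 3574021531) (nat_lit 152) (nat_lit 8639203985) (nat_lit 0) (nat_lit 961580100) (nat_lit 25) (nat_lit 5) (nat_lit 27) (nat_lit 4) (nat_lit 25) (nat_lit 4) (nat_lit 356) (nat_lit 335) (nat_lit 329)) (XT.nd (nat_lit 78) (nat_lit 76) (nat_lit 0) (XT.lf (nat_lit 0) (nat_lit 1994107653) (nat_lit 76) (nat_lit 7554582473) (nat_lit 76) (nat_lit 4682630409) (nat_lit 24) (nat_lit 4) (nat_lit 25) (nat_lit 5) (nat_lit 25) (nat_lit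 4) (nat_lit 357) (nat_lit 335) (nat_lit 328)) (XT.lf (nat_lit 0) (nat_lit 957755646) (nat_lit 152) (nat_lit 1038438844) (nat_lit 76) (nat_lit 13433419070) (nat_lit 23) (nat_lit 5) (nat_lit 25) (nat_lit 5) (nat_lit 24) (nat_lit 4) (nat_lit 358) (nat_lit 335) (nat_lit 327)))) (XT.nd (nat_lit 78) (nat_lit 228) (nat_lit 0) (XT.lf (nat_lit 0) (nat_lit 7314320259) (nat_lit 152) (nat_lit 4957358690) (nat_lit 0) (nat_lit 4450110864) (nat_lit 22) (nat_lit 5) (nat_lit 24) (nat_lit 4) (nat_lit 22) (nat_lit 4) (nat_lit 359) (nat_lit 335) (nat_lit 326)) (XT.nd (nat_lit 78) (nat_lit 152) (nat_lit 0) (XT.lf (nat_lit 0) (nat_lit 8358154521) (nat_lit 76) (nat_lit 6419613992) (nat_lit 76) (nat_lit 3407028550) (nat_lit 21) (nat_lit 4) (nat_lit 22) (nat_lit 5) (nat_lit 22) (nat_lit 4) (nat_lit 360) (nat_lit 335) (nat_lit 325)) (XT.lf (nat_lit 0) (nat_lit 3298296544) (nat_lit 152) (nat_lit 15963432961) (nat_lit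 0) (nat_lit 566463422) (nat_lit 19) (nat_lit 5) (nat_lit 21) (nat_lit 4) (nat_lit 19) (nat_lit 4) (nat_lit 361) (nat_lit 335) (nat_lit 324))))) (XT.nd (nat_lit 234) (nat_lit 228) (nat_lit 0) (XT.nd (nat_lit 78) (nat_lit 228) (nat_lit 0) (XT.lf (nat_lit 0) (nat_lit 11164999595) (nat_lit 152) (nat_lit 2117506209) (nat_lit 0) (nat_lit 8335606813) (nat_lit 19) (nat_lit 5) (nat_lit 21) (nat_lit 4) (nat_lit 19) (nat_lit 4) (nat_lit 362) (nat_lit 335) (nat_lit 323)) (XT.nd (nat_lit 78) (nat_lit 152) (nat_lit 0) (XT.lf (nat_lit 0) (nat_lit 14487890724) (nat_lit 76) (nat_lit 6028575649) (nat_lit 76) (nat_lit 3114348380) (nat_lit 18) (nat_lit 4) (nat_lit 19) (nat_lit 5) (nat_lit 19) (nat_lit 4) (nat_lit 363) (nat_lit 335) (nat_lit 322)) (XT.lf (nat_lit 0) (nat_lit 5108021133) (nat_lit 152) (nat_lit 18256036068) (nat_lit 0) (nat_lit 2509763406) (nat_lit 16) (nat_lit 5) (nat_lit 18) (nat_lit 4) (nat_lit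 16) (nat_lit 4) (nat_lit 364) (nat_lit 335) (nat_lit 321)))) (XT.nd (nat_lit 156) (nat_lit 152) (nat_lit 0) (XT.nd (nat_lit 78) (nat_lit 76) (nat_lit 0) (XT.lf (nat_lit 0) (nat_lit 14740468456) (nat_lit 152) (nat_lit 1529802423) (nat_lit 0) (nat_lit 12086430677) (nat_lit 16) (nat_lit 5) (nat_lit 18) (nat_lit 4) (nat_lit 16) (nat_lit 4) (nat_lit 365) (nat_lit 335) (nat_lit 320)) (XT.lf (nat_lit 0) (nat_lit 18853182986) (nat_lit 76) (nat_lit 7491194662) (nat_lit 76) (nat_lit 4788652490) (nat_lit 15) (nat_lit 4) (nat_lit 16) (nat_lit 5) (nat_lit 16) (nat_lit 4) (nat_lit 366) (nat_lit 335) (nat_lit 319))) (XT.nd (nat_lit 78) (nat_lit 0) (nat_lit 0) (XT.lf (nat_lit 0) (nat_lit 5178990197) (nat_lit 152) (nat_lit 26277225848) (nat_lit 0) (nat_lit 2792277236) (nat_lit 13) (nat_lit 5) (nat_lit 15) (nat_lit 4) (nat_lit 13) (nat_lit 4) (nat_lit 367) (nat_lit 335) (nat_lit 318)) (XT.lf (nat_lit 0) (nat_lit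 16928325355) (nat_lit 152) (nat_lit 6242507077) (nat_lit 0) (nat_lit 14509719969) (nat_lit 13) (nat_lit 5) (nat_lit 15) (nat_lit 4) (nat_lit 13) (nat_lit 4) (nat_lit 368) (nat_lit 335) (nat_lit 317)))))) (XT.nd (nat_lit 546) (nat_lit 228) (nat_lit 0) (XT.nd (nat_lit 234) (nat_lit 228) (nat_lit 0) (XT.nd (nat_lit 78) (nat_lit 152) (nat_lit 0) (XT.lf (nat_lit 0) (nat_lit 17930850821) (nat_lit 76) (nat_lit 13032228690) (nat_lit 76) (nat_lit 10585890760) (nat_lit 12) (nat_lit 4) (nat_lit 13) (nat_lit 5) (nat_lit 13) (nat_lit 4) (nat_lit 369) (nat_lit 335) (nat_lit 316)) (XT.nd (nat_lit 78) (nat_lit 76) (nat_lit 0) (XT.lf (nat_lit 0) (nat_lit 1129746081) (nat_lit 152) (nat_lit 41499110) (nat_lit 76) (nat_lit 44801127836) (nat_lit 11) (nat_lit 5) (nat_lit 13) (nat_lit 5) (nat_lit 12) (nat_lit 4) (nat_lit 370) (nat_lit 335) (nat_lit 315)) (XT.lf (nat_lit 0) (nat_lit 15105879929) (nat_lit 152) (nat_lit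 22700327604) (nat_lit 0) (nat_lit 12939425169) (nat_lit 10) (nat_lit 5) (nat_lit 12) (nat_lit 4) (nat_lit 10) (nat_lit 4) (nat_lit 371) (nat_lit 335) (nat_lit 314)))) (XT.nd (nat_lit 156) (nat_lit 152) (nat_lit 0) (XT.nd (nat_lit 78) (nat_lit 0) (nat_lit 0) (XT.lf (nat_lit 0) (nat_lit 4013283159) (nat_lit 76) (nat_lit 27199387555) (nat_lit 76) (nat_lit 25017076623) (nat_lit 9) (nat_lit 4) (nat_lit 10) (nat_lit 5) (nat_lit 10) (nat_lit 4) (nat_lit 372) (nat_lit 335) (nat_lit 313)) (XT.lf (nat_lit 0) (nat_lit 36900109610) (nat_lit 76) (nat_lit 13840825758) (nat_lit 76) (nat_lit 11644726851) (nat_lit 9) (nat_lit 4) (nat_lit 10) (nat_lit 5) (nat_lit 10) (nat_lit 4) (nat_lit 373) (nat_lit 335) (nat_lit 312))) (XT.nd (nat_lit 78) (nat_lit 0) (nat_lit 0) (XT.lf (nat_lit 0) (nat_lit 3524900300) (nat_lit 152) (nat_lit 64293481664) (nat_lit 0) (nat_lit 1604823386) (nat_lit 7) (nat_lit 5) (nat_lit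 9) (nat_lit 4) (nat_lit 7) (nat_lit 4) (nat_lit 374) (nat_lit 335) (nat_lit 311)) (XT.lf (nat_lit 0) (nat_lit 21667770609) (nat_lit 152) (nat_lit 35743306127) (nat_lit 0) (nat_lit 19738627877) (nat_lit 7) (nat_lit 5) (nat_lit 9) (nat_lit 4) (nat_lit 7) (nat_lit 4) (nat_lit 375) (nat_lit 335) (nat_lit 310))))) (XT.nd (nat_lit 234) (nat_lit 152) (nat_lit 0) (XT.nd (nat_lit 78) (nat_lit 76) (nat_lit 0) (XT.lf (nat_lit 0) (nat_lit 42388830563) (nat_lit 152) (nat_lit 3216030592) (nat_lit 0) (nat_lit 40451804511) (nat_lit 7) (nat_lit 5) (nat_lit 9) (nat_lit 4) (nat_lit 7) (nat_lit 4) (nat_lit 376) (nat_lit 335) (nat_lit 309)) (XT.nd (nat_lit 78) (nat_lit 0) (nat_lit 0) (XT.lf (nat_lit 0) (nat_lit 37240121274) (nat_lit 76) (nat_lit 30395404938) (nat_lit 76) (nat_lit 28451523825) (nat_lit 6) (nat_lit 4) (nat_lit 7) (nat_lit 5) (nat_lit 7) (nat_lit 4) (nat_lit 377) (nat_lit 335) (nat_lit 308)) (XT.lf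 (nat_lit 0) (nat_lit 83872617978) (nat_lit 76) (nat_lit 12845910667) (nat_lit 76) (nat_lit 10896068632) (nat_lit 6) (nat_lit 4) (nat_lit 7) (nat_lit 5) (nat_lit 7) (nat_lit 4) (nat_lit 378) (nat_lit 335) (nat_lit 307)))) (XT.nd (nat_lit 156) (nat_lit 76) (nat_lit 0) (XT.nd (nat_lit 78) (nat_lit 0) (nat_lit 0) (XT.lf (nat_lit 0) (nat_lit 9436698392) (nat_lit 76) (nat_lit 103494489559) (nat_lit 0) (nat_lit 7736676265) (nat_lit 5) (nat_lit 5) (nat_lit 6) (nat_lit 4) (nat_lit 5) (nat_lit 4) (nat_lit 379) (nat_lit 335) (nat_lit 306)) (XT.lf (nat_lit 0) (nat_lit 33507594458) (nat_lit 76) (nat_lit 70019480549) (nat_lit 0) (nat_lit 31803652928) (nat_lit 5) (nat_lit 5) (nat_lit 6) (nat_lit 4) (nat_lit 5) (nat_lit 4) (nat_lit 380) (nat_lit 335) (nat_lit 305))) (XT.nd (nat_lit 78) (nat_lit 76) (nat_lit 0) (XT.lf (nat_lit 0) (nat_lit 61095123047) (nat_lit 76) (nat_lit 31724225437) (nat_lit 0) (nat_lit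 59387773340) (nat_lit 5) (nat_lit 5) (nat_lit 6) (nat_lit 4) (nat_lit 5) (nat_lit 4) (nat_lit 381) (nat_lit 335) (nat_lit 304)) (XT.lf (nat_lit 0) (nat_lit 13326991727) (nat_lit 76) (nat_lit 79963890733) (nat_lit 76) (nat_lit 78253577395) (nat_lit 4) (nat_lit 4) (nat_lit 5) (nat_lit 5) (nat_lit 5) (nat_lit 4) (nat_lit 382) (nat_lit 335) (nat_lit 303))))))) (XT.nd (nat_lit 1014) (nat_lit 0) (nat_lit 0) (XT.nd (nat_lit 468) (nat_lit 76) (nat_lit 0) (XT.nd (nat_lit 234) (nat_lit 152) (nat_lit 0) (XT.nd (nat_lit 78) (nat_lit 0) (nat_lit 0) (XT.lf (nat_lit 0) (nat_lit 68534419501) (nat_lit 76) (nat_lit 63361910554) (nat_lit 76) (nat_lit 61649020144) (nat_lit 4) (nat_lit 4) (nat_lit 5) (nat_lit 5) (nat_lit 5) (nat_lit 4) (nat_lit 383) (nat_lit 335) (nat_lit 302)) (XT.nd (nat_lit 78) (nat_lit 0) (nat_lit 0) (XT.lf (nat_lit 0) (nat_lit 131877881178) (nat_lit 76) (nat_lit 44346898381) (nat_lit 76)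 (nat_lit 42631767040) (nat_lit 4) (nat_lit 4) (nat_lit 5) (nat_lit 5) (nat_lit 5) (nat_lit 4) (nat_lit 384) (nat_lit 335) (nat_lit 301)) (XT.lf (nat_lit 0) (nat_lit 204596705356) (nat_lit 76) (nat_lit 22546821367) (nat_lit 76) (nat_lit 20829741389) (nat_lit 4) (nat_lit 4) (nat_lit 5) (nat_lit 5) (nat_lit 5) (nat_lit 4) (nat_lit 385) (nat_lit 335) (nat_lit 300)))) (XT.nd (nat_lit 78) (nat_lit 0) (nat_lit 0) (XT.lf (nat_lit 0) (nat_lit 4229820905) (nat_lit 152) (nat_lit 274411350580) (nat_lit 0) (nat_lit 2735234432) (nat_lit 2) (nat_lit 5) (nat_lit 4) (nat_lit 4) (nat_lit 2) (nat_lit 4) (nat_lit 386) (nat_lit 335) (nat_lit 299)) (XT.nd (nat_lit 78) (nat_lit 0) (nat_lit 0) (XT.lf (nat_lit 0) (nat_lit 34311112426) (nat_lit 152) (nat_lit 252005568982) (nat_lit 0) (nat_lit 32815244694) (nat_lit 2) (nat_lit 5) (nat_lit 4) (nat_lit 4) (nat_lit 2) (nat_lit 4) (nat_lit 387) (nat_lit 335) (nat_lit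 298)) (XT.lf (nat_lit 0) (nat_lit 68857921403) (nat_lit 152) (nat_lit 226338914931) (nat_lit 0) (nat_lit 67360939531) (nat_lit 2) (nat_lit 5) (nat_lit 4) (nat_lit 4) (nat_lit 2) (nat_lit 4) (nat_lit 388) (nat_lit 335) (nat_lit 297))))) (XT.nd (nat_lit 234) (nat_lit 76) (nat_lit 0) (XT.nd (nat_lit 78) (nat_lit 0) (nat_lit 0) (XT.lf (nat_lit 0) (nat_lit 108546163661) (nat_lit 152) (nat_lit 196909214762) (nat_lit 0) (nat_lit 107048212973) (nat_lit 2) (nat_lit 5) (nat_lit 4) (nat_lit 4) (nat_lit 2) (nat_lit 4) (nat_lit 389) (nat_lit 335) (nat_lit 296)) (XT.nd (nat_lit 78) (nat_lit 0) (nat_lit 0) (XT.lf (nat_lit 0) (nat_lit 154152348290) (nat_lit 152) (nat_lit 163140669991) (nat_lit 0) (nat_lit 152653555152) (nat_lit 2) (nat_lit 5) (nat_lit 4) (nat_lit 4) (nat_lit 2) (nat_lit 4) (nat_lit 390) (nat_lit 335) (nat_lit 295)) (XT.lf (nat_lit 0) (nat_lit 206568770205) (nat_lit 152) (nat_lit 124372591701)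 (nat_lit 0) (nat_lit 205069244503) (nat_lit 2) (nat_lit 5) (nat_lit 4) (nat_lit 4) (nat_lit 2) (nat_lit 4) (nat_lit 391) (nat_lit 335) (nat_lit 294)))) (XT.nd (nat_lit 156) (nat_lit 76) (nat_lit 0) (XT.nd (nat_lit 78) (nat_lit 0) (nat_lit 0) (XT.lf (nat_lit 0) (nat_lit 266820968096) (nat_lit 152) (nat_lit 79846474012) (nat_lit 0) (nat_lit 265320805382) (nat_lit 2) (nat_lit 5) (nat_lit 4) (nat_lit 4) (nat_lit 2) (nat_lit 4) (nat_lit 392) (nat_lit 335) (nat_lit 293)) (XT.lf (nat_lit 0) (nat_lit 336087789314) (nat_lit 152) (nat_lit 28691153750) (nat_lit 0) (nat_lit 334587072675) (nat_lit 2) (nat_lit 5) (nat_lit 4) (nat_lit 4) (nat_lit 2) (nat_lit 4) (nat_lit 393) (nat_lit 335) (nat_lit 292))) (XT.nd (nat_lit 78) (nat_lit 0) (nat_lit 0) (XT.lf (nat_lit 0) (nat_lit 33035261462) (nat_lit 76) (nat_lit 384057112540) (nat_lit 76) (nat_lit 382555914228) (nat_lit 1) (nat_lit 4) (nat_lit 2) (nat_lit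 5) (nat_lit 2) (nat_lit 4) (nat_lit 394) (nat_lit 335) (nat_lit 291)) (XT.lf (nat_lit 0) (nat_lit 107203867912) (nat_lit 76) (nat_lit 404524287280) (nat_lit 76) (nat_lit 403022670122) (nat_lit 1) (nat_lit 4) (nat_lit 2) (nat_lit 5) (nat_lit 2) (nat_lit 4) (nat_lit 395) (nat_lit 335) (nat_lit 290)))))) (XT.nd (nat_lit 546) (nat_lit 0) (nat_lit 0) (XT.nd (nat_lit 234) (nat_lit 0) (nat_lit 0) (XT.nd (nat_lit 78) (nat_lit 0) (nat_lit 0) (XT.lf (nat_lit 0) (nat_lit 192461882302) (nat_lit 76) (nat_lit 428080676863) (nat_lit 76) (nat_lit 426578695492) (nat_lit 1) (nat_lit 4) (nat_lit 2) (nat_lit 5) (nat_lit 2) (nat_lit 4) (nat_lit 396) (nat_lit 335) (nat_lit 289)) (XT.nd (nat_lit 78) (nat_lit 0) (nat_lit 0) (XT.lf (nat_lit 0) (nat_lit 290477396217) (nat_lit 76) (nat_lit 455187167173) (nat_lit 76) (nat_lit 453684869094) (nat_lit 1) (nat_lit 4) (nat_lit 2) (nat_lit 5) (nat_lit 2) (nat_lit 4) (nat_lit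 397) (nat_lit 335) (nat_lit 288)) (XT.lf (nat_lit 0) (nat_lit 403168104494) (nat_lit 76) (nat_lit 486374102585) (nat_lit 76) (nat_lit 484871529108) (nat_lit 1) (nat_lit 4) (nat_lit 2) (nat_lit 5) (nat_lit 2) (nat_lit 4) (nat_lit 398) (nat_lit 335) (nat_lit 287)))) (XT.nd (nat_lit 156) (nat_lit 0) (nat_lit 0) (XT.nd (nat_lit 78) (nat_lit 0) (nat_lit 0) (XT.lf (nat_lit 0) (nat_lit 532738825338) (nat_lit 76) (nat_lit 522251662270) (nat_lit 76) (nat_lit 520748849316) (nat_lit 1) (nat_lit 4) (nat_lit 2) (nat_lit 5) (nat_lit 2) (nat_lit 4) (nat_lit 399) (nat_lit 335) (nat_lit 286)) (XT.lf (nat_lit 0) (nat_lit 681724638072) (nat_lit 76) (nat_lit 563521798483) (nat_lit 76) (nat_lit 562018777288) (nat_lit 1) (nat_lit 4) (nat_lit 2) (nat_lit 5) (nat_lit 2) (nat_lit 4) (nat_lit 400) (nat_lit 335) (nat_lit 285))) (XT.nd (nat_lit 78) (nat_lit 0) (nat_lit 0) (XT.lf (nat_lit 0) (nat_lit 853040482508) (nat_lit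 76) (nat_lit 610991970410) (nat_lit 76) (nat_lit 609488768137) (nat_lit 1) (nat_lit 4) (nat_lit 2) (nat_lit 5) (nat_lit 2) (nat_lit 4) (nat_lit 401) (nat_lit 335) (nat_lit 284)) (XT.lf (nat_lit 0) (nat_lit 1050038190386) (nat_lit 76) (nat_lit 665590942286) (nat_lit 76) (nat_lit 664087582552) (nat_lit 1) (nat_lit 4) (nat_lit 2) (nat_lit 5) (nat_lit 2) (nat_lit 4) (nat_lit 402) (nat_lit 335) (nat_lit 283))))) (XT.nd (nat_lit 234) (nat_lit 0) (nat_lit 0) (XT.nd (nat_lit 78) (nat_lit 0) (nat_lit 0) (XT.lf (nat_lit 0) (nat_lit 1276572064687) (nat_lit 76) (nat_lit 728386954863) (nat_lit 76) (nat_lit 726883458208) (nat_lit 1) (nat_lit 4) (nat_lit 2) (nat_lit 5) (nat_lit 2) (nat_lit 4) (nat_lit 403) (nat_lit 335) (nat_lit 282)) (XT.nd (nat_lit 78) (nat_lit 0) (nat_lit 0) (XT.lf (nat_lit 0) (nat_lit 1537074289907) (nat_lit 76) (nat_lit 800608625780) (nat_lit 76) (nat_lit 799105010062) (nat_lit 1)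 (nat_lit 4) (nat_lit 2) (nat_lit 5) (nat_lit 2) (nat_lit 4) (nat_lit 404) (nat_lit 335) (nat_lit 281)) (XT.lf (nat_lit 0) (nat_lit 1836641648714) (nat_lit 76) (nat_lit 883668987727) (nat_lit 76) (nat_lit 882165268478) (nat_lit 1) (nat_lit 4) (nat_lit 2) (nat_lit 5) (nat_lit 2) (nat_lit 4) (nat_lit 405) (nat_lit 335) (nat_lit 280)))) (XT.nd (nat_lit 156) (nat_lit 0) (nat_lit 0) (XT.nd (nat_lit 78) (nat_lit 0) (nat_lit 0) (XT.lf (nat_lit 0) (nat_lit 2181135241606) (nat_lit 76) (nat_lit 979193134745) (nat_lit 76) (nat_lit 977689325467) (nat_lit 1) (nat_lit 4) (nat_lit 2) (nat_lit 5) (nat_lit 2) (nat_lit 4) (nat_lit 406) (nat_lit 335) (nat_lit 279)) (XT.lf (nat_lit 0) (nat_lit 2577295160617) (nat_lit 76) (nat_lit 1089050017534) (nat_lit 76) (nat_lit 1087546129971) (nat_lit 1) (nat_lit 4) (nat_lit 2) (nat_lit 5) (nat_lit 2) (nat_lit 4) (nat_lit 407) (nat_lit 335) (nat_lit 278))) (XT.nd (nat_lit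 78) (nat_lit 0) (nat_lit 0) (XT.lf (nat_lit 0) (nat_lit 3032872360687) (nat_lit 76) (nat_lit 1215389009889) (nat_lit 76) (nat_lit 1213885054251) (nat_lit 1) (nat_lit 4) (nat_lit 2) (nat_lit 5) (nat_lit 2) (nat_lit 4) (nat_lit 408) (nat_lit 335) (nat_lit 277)) (XT.lf (nat_lit 0) (nat_lit 3556780308771) (nat_lit 76) (nat_lit 1360681961659) (nat_lit 76) (nat_lit 1359177946827) (nat_lit 1) (nat_lit 4) (nat_lit 2) (nat_lit 5) (nat_lit 2) (nat_lit 4) (nat_lit 409) (nat_lit 335) (nat_lit 276))))))))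
noncomputable def xc38 : XT := (XT.nd (nat_lit 48282) (nat_lit 0) (nat_lit 608) (XT.nd (nat_lit 1014) (nat_lit 0) (nat_lit 0) (XT.nd (nat_lit 468) (nat_lit 0) (nat_lit 0) (XT.nd (nat_lit 234) (nat_lit 0) (nat_lit 0) (XT.nd (nat_lit 78) (nat_lit 0) (nat_lit 0) (XT.lf (nat_lit 0) (nat_lit 4159269377767) (nat_lit 76) (nat_lit 1527771561033) (nat_lit 76) (nat_lit 1526267494727) (nat_lit 1) (nat_lit 4) (nat_lit 2) (nat_lit 5) (nat_lit 2) (nat_lit 4) (nat_lit 410) (nat_lit 335) (nat_lit 275)) (XT.nd (nat_lit 78) (nat_lit 0) (nat_lit 0) (XT.lf (nat_lit 0) (nat_lit 4852127397287) (nat_lit 76) (nat_lit 1719926952345) (nat_lit 76) (nat_lit 1718422841279) (nat_lit 1) (nat_lit 4) (nat_lit 2) (nat_lit 5) (nat_lit 2) (nat_lit 4) (nat_lit 411) (nat_lit 335) (nat_lit 274)) (XT.lf (nat_lit 0) (nat_lit 5648910285103) (nat_lit 76) (nat_lit 1940907697599) (nat_lit 76) (nat_lit 1939403547611) (nat_lit 1) (nat_lit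 4) (nat_lit 2) (nat_lit 5) (nat_lit 2) (nat_lit 4) (nat_lit 412) (nat_lit 335) (nat_lit 273)))) (XT.nd (nat_lit 78) (nat_lit 0) (nat_lit 0) (XT.lf (nat_lit 0) (nat_lit 6565207271629) (nat_lit 76) (nat_lit 2195037333116) (nat_lit 76) (nat_lit 2193533149283) (nat_lit 1) (nat_lit 4) (nat_lit 2) (nat_lit 5) (nat_lit 2) (nat_lit 4) (nat_lit 413) (nat_lit 335) (nat_lit 272)) (XT.nd (nat_lit 78) (nat_lit 0) (nat_lit 0) (XT.lf (nat_lit 0) (nat_lit 7618945906601) (nat_lit 76) (nat_lit 2487287960459) (nat_lit 76) (nat_lit 2485783747196) (nat_lit 1) (nat_lit 4) (nat_lit 2) (nat_lit 5) (nat_lit 2) (nat_lit 4) (nat_lit 414) (nat_lit 335) (nat_lit 271)) (XT.lf (nat_lit 0) (nat_lit 8830742815487) (nat_lit 76) (nat_lit 2823377526686) (nat_lit 76) (nat_lit 2821873287832) (nat_lit 1) (nat_lit 4) (nat_lit 2) (nat_lit 5) (nat_lit 2) (nat_lit 4) (nat_lit 415) (nat_lit 335) (nat_lit 270))))) (XT.nd (nat_lit 234)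 (nat_lit 0) (nat_lit 0) (XT.nd (nat_lit 78) (nat_lit 0) (nat_lit 0) (XT.lf (nat_lit 0) (nat_lit 10224307068243) (nat_lit 76) (nat_lit 3209881697224) (nat_lit 76) (nat_lit 3208377436116) (nat_lit 1) (nat_lit 4) (nat_lit 2) (nat_lit 5) (nat_lit 2) (nat_lit 4) (nat_lit 416) (nat_lit 335) (nat_lit 269)) (XT.nd (nat_lit 78) (nat_lit 0) (nat_lit 0) (XT.lf (nat_lit 0) (nat_lit 11826904052423) (nat_lit 76) (nat_lit 3654362510190) (nat_lit 76) (nat_lit 3652858229731) (nat_lit 1) (nat_lit 4) (nat_lit 2) (nat_lit 5) (nat_lit 2) (nat_lit 4) (nat_lit 417) (nat_lit 335) (nat_lit 268)) (XT.lf (nat_lit 0) (nat_lit 13669888926412) (nat_lit 76) (nat_lit 4165516329317) (nat_lit 76) (nat_lit 4164012032031) (nat_lit 1) (nat_lit 4) (nat_lit 2) (nat_lit 5) (nat_lit 2) (nat_lit 4) (nat_lit 418) (nat_lit 335) (nat_lit 267)))) (XT.nd (nat_lit 156) (nat_lit 0) (nat_lit 0) (XT.nd (nat_lit 78) (nat_lit 0) (nat_lit 0)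 (XT.lf (nat_lit 0) (nat_lit 15789320089920) (nat_lit 76) (nat_lit 4753343990197) (nat_lit 76) (nat_lit 4751839678279) (nat_lit 1) (nat_lit 4) (nat_lit 2) (nat_lit 5) (nat_lit 2) (nat_lit 4) (nat_lit 419) (nat_lit 335) (nat_lit 266)) (XT.lf (nat_lit 0) (nat_lit 18226664674407) (nat_lit 76) (nat_lit 5429346468803) (nat_lit 76) (nat_lit 5427842144162) (nat_lit 1) (nat_lit 4) (nat_lit 2) (nat_lit 5) (nat_lit 2) (nat_lit 4) (nat_lit 420) (nat_lit 335) (nat_lit 265))) (XT.nd (nat_lit 78) (nat_lit 0) (nat_lit 0) (XT.lf (nat_lit 0) (nat_lit 21029609856524) (nat_lit 76) (nat_lit 6206749900587) (nat_lit 76) (nat_lit 6205245564881) (nat_lit 1) (nat_lit 4) (nat_lit 2) (nat_lit 5) (nat_lit 2) (nat_lit 4) (nat_lit 421) (nat_lit 335) (nat_lit 264)) (XT.lf (nat_lit 0) (nat_lit 24252995868097) (nat_lit 76) (nat_lit 7100764352691) (nat_lit 76) (nat_lit 7099260007365) (nat_lit 1) (nat_lit 4) (nat_lit 2) (nat_lit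 5) (nat_lit 2) (nat_lit 4) (nat_lit 422) (nat_lit 335) (nat_lit 263)))))) (XT.nd (nat_lit 468) (nat_lit 0) (nat_lit 0) (XT.nd (nat_lit 234) (nat_lit 0) (nat_lit 0) (XT.nd (nat_lit 78) (nat_lit 0) (nat_lit 0) (XT.lf (nat_lit 0) (nat_lit 27959888957178) (nat_lit 76) (nat_lit 8128881412223) (nat_lit 76) (nat_lit 8127377058531) (nat_lit 1) (nat_lit 4) (nat_lit 2) (nat_lit 5) (nat_lit 2) (nat_lit 4) (nat_lit 423) (nat_lit 335) (nat_lit 262)) (XT.nd (nat_lit 78) (nat_lit 0) (nat_lit 0) (XT.lf (nat_lit 0) (nat_lit 32222815292901) (nat_lit 76) (nat_lit 9311216412956) (nat_lit 76) (nat_lit 9309712051989) (nat_lit 1) (nat_lit 4) (nat_lit 2) (nat_lit 5) (nat_lit 2) (nat_lit 4) (nat_lit 424) (nat_lit 335) (nat_lit 261)) (XT.lf (nat_lit 0) (nat_lit 37125179955747) (nat_lit 76) (nat_lit 10670901996208) (nat_lit 76) (nat_lit 10669397628915) (nat_lit 1) (nat_lit 4) (nat_lit 2) (nat_lit 5) (nat_lit 2) (nat_lit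 4) (nat_lit 425) (nat_lit 335) (nat_lit 260)))) (XT.nd (nat_lit 78) (nat_lit 0) (nat_lit 0) (XT.lf (nat_lit 0) (nat_lit 42762898776077) (nat_lit 76) (nat_lit 12234540706000) (nat_lit 76) (nat_lit 12233036333206) (nat_lit 1) (nat_lit 4) (nat_lit 2) (nat_lit 5) (nat_lit 2) (nat_lit 4) (nat_lit 426) (nat_lit 335) (nat_lit 259)) (XT.nd (nat_lit 78) (nat_lit 0) (nat_lit 0) (XT.lf (nat_lit 0) (nat_lit 49246274948201) (nat_lit 76) (nat_lit 14032725473609) (nat_lit 76) (nat_lit 14031221096033) (nat_lit 1) (nat_lit 4) (nat_lit 2) (nat_lit 5) (nat_lit 2) (nat_lit 4) (nat_lit 427) (nat_lit 335) (nat_lit 258)) (XT.lf (nat_lit 0) (nat_lit 56702157136358) (nat_lit 76) (nat_lit 16100638174926) (nat_lit 76) (nat_lit 16099133793189) (nat_lit 1) (nat_lit 4) (nat_lit 2) (nat_lit 5) (nat_lit 2) (nat_lit 4) (nat_lit 428) (nat_lit 335) (nat_lit 257))))) (XT.nd (nat_lit 234) (nat_lit 0) (nat_lit 0) (XT.nd (nat_lit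 78) (nat_lit 0) (nat_lit 0) (XT.lf (nat_lit 0) (nat_lit 65276421296401) (nat_lit 76) (nat_lit 18478737971495) (nat_lit 76) (nat_lit 18477233586142) (nat_lit 1) (nat_lit 4) (nat_lit 2) (nat_lit 5) (nat_lit 2) (nat_lit 4) (nat_lit 429) (nat_lit 335) (nat_lit 256)) (XT.nd (nat_lit 78) (nat_lit 0) (nat_lit 0) (XT.lf (nat_lit 0) (nat_lit 75136824770592) (nat_lit 76) (nat_lit 21213552902817) (nat_lit 76) (nat_lit 21212048514319) (nat_lit 1) (nat_lit 4) (nat_lit 2) (nat_lit 5) (nat_lit 2) (nat_lit 4) (nat_lit 430) (nat_lit 335) (nat_lit 255)) (XT.lf (nat_lit 0) (nat_lit 86476288496471) (nat_lit 76) (nat_lit 24358590217546) (nat_lit 76) (nat_lit 24357085826313) (nat_lit 1) (nat_lit 4) (nat_lit 2) (nat_lit 5) (nat_lit 2) (nat_lit 4) (nat_lit 431) (nat_lit 335) (nat_lit 254)))) (XT.nd (nat_lit 156) (nat_lit 0) (nat_lit 0) (XT.nd (nat_lit 78) (nat_lit 0) (nat_lit 0) (XT.lf (nat_lit 0) (nat_lit 99516671546934)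 (nat_lit 76) (nat_lit 27975383254450) (nat_lit 76) (nat_lit 27973878860839) (nat_lit 1) (nat_lit 4) (nat_lit 2) (nat_lit 5) (nat_lit 2) (nat_lit 4) (nat_lit 432) (nat_lit 335) (nat_lit 253)) (XT.lf (nat_lit 0) (nat_lit 114513111851231) (nat_lit 76) (nat_lit 32134695355555) (nat_lit 76) (nat_lit 32133190959876) (nat_lit 1) (nat_lit 4) (nat_lit 2) (nat_lit 5) (nat_lit 2) (nat_lit 4) (nat_lit 433) (nat_lit 335) (nat_lit 252))) (XT.nd (nat_lit 78) (nat_lit 0) (nat_lit 0) (XT.lf (nat_lit 0) (nat_lit 131759018024009) (nat_lit 76) (nat_lit 36917904366318) (nat_lit 76) (nat_lit 36916399968840) (nat_lit 1) (nat_lit 4) (nat_lit 2) (nat_lit 5) (nat_lit 2) (nat_lit 4) (nat_lit 434) (nat_lit 335) (nat_lit 251)) (XT.lf (nat_lit 0) (nat_lit 151591809968650) (nat_lit 76) (nat_lit 42418594810861) (nat_lit 76) (nat_lit 42417090411820) (nat_lit 1) (nat_lit 4) (nat_lit 2) (nat_lit 5) (nat_lit 2) (nat_lit 4)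 (nat_lit 435) (nat_lit 335) (nat_lit 250))))))) (XT.nd (nat_lit 1014) (nat_lit 912) (nat_lit 0) (XT.nd (nat_lit 468) (nat_lit 684) (nat_lit 0) (XT.nd (nat_lit 234) (nat_lit 304) (nat_lit 0) (XT.nd (nat_lit 78) (nat_lit 380) (nat_lit 0) (XT.lf (nat_lit 0) (nat_lit 1947633485) (nat_lit 152) (nat_lit 1013465032) (nat_lit 152) (nat_lit 1013465032) (nat_lit 39) (nat_lit 4) (nat_lit 41) (nat_lit 5) (nat_lit 41) (nat_lit 4) (nat_lit 348) (nat_lit 336) (nat_lit 336)) (XT.nd (nat_lit 78) (nat_lit 152) (nat_lit 0) (XT.lf (nat_lit 0) (nat_lit 1906476647) (nat_lit 228) (nat_lit 5606252861) (nat_lit 0) (nat_lit 856611399) (nat_lit 36) (nat_lit 5) (nat_lit 39) (nat_lit 4) (nat_lit 36) (nat_lit 4) (nat_lit 349) (nat_lit 336) (nat_lit 335)) (XT.lf (nat_lit 0) (nat_lit 1441853897) (nat_lit 152) (nat_lit 4686610779) (nat_lit 152) (nat_lit 2723819229) (nat_lit 34) (nat_lit 4) (nat_lit 36) (nat_lit 5) (nat_lit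 36) (nat_lit 4) (nat_lit 350) (nat_lit 336) (nat_lit 334)))) (XT.nd (nat_lit 78) (nat_lit 152) (nat_lit 0) (XT.lf (nat_lit 0) (nat_lit 1426849) (nat_lit 76) (nat_lit 1281395177) (nat_lit 152) (nat_lit 8138065997) (nat_lit 32) (nat_lit 5) (nat_lit 33) (nat_lit 5) (nat_lit 34) (nat_lit 4) (nat_lit 351) (nat_lit 336) (nat_lit 333)) (XT.nd (nat_lit 78) (nat_lit 152) (nat_lit 0) (XT.lf (nat_lit 0) (nat_lit 5686299306) (nat_lit 152) (nat_lit 1668923054) (nat_lit 0) (nat_lit 2688956740) (nat_lit 32) (nat_lit 5) (nat_lit 34) (nat_lit 4) (nat_lit 32) (nat_lit 4) (nat_lit 352) (nat_lit 336) (nat_lit 332)) (XT.lf (nat_lit 0) (nat_lit 7166498205) (nat_lit 152) (nat_lit 3558789501) (nat_lit 152) (nat_lit 39478358) (nat_lit 30) (nat_lit 4) (nat_lit 32) (nat_lit 5) (nat_lit 32) (nat_lit 4) (nat_lit 353) (nat_lit 336) (nat_lit 331))))) (XT.nd (nat_lit 234) (nat_lit 304) (nat_lit 0) (XT.nd (nat_lit 78) (nat_lit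 228) (nat_lit 0) (XT.lf (nat_lit 0) (nat_lit 4480440104) (nat_lit 152) (nat_lit 6058097805) (nat_lit 0) (nat_lit 1025486311) (nat_lit 28) (nat_lit 5) (nat_lit 30) (nat_lit 4) (nat_lit 28) (nat_lit 4) (nat_lit 354) (nat_lit 336) (nat_lit 330)) (XT.nd (nat_lit 78) (nat_lit 152) (nat_lit 0) (XT.lf (nat_lit 0) (nat_lit 3372020833) (nat_lit 76) (nat_lit 6443907320) (nat_lit 76) (nat_lit 2645750716) (nat_lit 27) (nat_lit 4) (nat_lit 28) (nat_lit 5) (nat_lit 28) (nat_lit 4) (nat_lit 355) (nat_lit 336) (nat_lit 329)) (XT.lf (nat_lit 0) (nat_lit 720656627) (nat_lit 76) (nat_lit 1519924981) (nat_lit 152) (nat_lit 11237915139) (nat_lit 25) (nat_lit 5) (nat_lit 26) (nat_lit 5) (nat_lit 27) (nat_lit 4) (nat_lit 356) (nat_lit 336) (nat_lit 328)))) (XT.nd (nat_lit 156) (nat_lit 228) (nat_lit 0) (XT.nd (nat_lit 78) (nat_lit 76) (nat_lit 0) (XT.lf (nat_lit 0) (nat_lit 7905782317) (nat_lit 152) (nat_lit 2557794327)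 (nat_lit 0) (nat_lit 4117865391) (nat_lit 25) (nat_lit 5) (nat_lit 27) (nat_lit 4) (nat_lit 25) (nat_lit 4) (nat_lit 357) (nat_lit 336) (nat_lit 327)) (XT.lf (nat_lit 0) (nat_lit 9335182682) (nat_lit 76) (nat_lit 5237975251) (nat_lit 76) (nat_lit 1253831004) (nat_lit 24) (nat_lit 4) (nat_lit 25) (nat_lit 5) (nat_lit 25) (nat_lit 4) (nat_lit 358) (nat_lit 336) (nat_lit 326))) (XT.nd (nat_lit 78) (nat_lit 76) (nat_lit 0) (XT.lf (nat_lit 0) (nat_lit 4660151401) (nat_lit 152) (nat_lit 11502637200) (nat_lit 0) (nat_lit 1047302096) (nat_lit 22) (nat_lit 5) (nat_lit 24) (nat_lit 4) (nat_lit 22) (nat_lit 4) (nat_lit 359) (nat_lit 336) (nat_lit 325)) (XT.lf (nat_lit 0) (nat_lit 865508439) (nat_lit 76) (nat_lit 10808456263) (nat_lit 76) (nat_lit 7066584309) (nat_lit 21) (nat_lit 4) (nat_lit 22) (nat_lit 5) (nat_lit 22) (nat_lit 4) (nat_lit 360) (nat_lit 336) (nat_lit 324)))))) (XT.nd (nat_lit 546)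 (nat_lit 456) (nat_lit 0) (XT.nd (nat_lit 234) (nat_lit 228) (nat_lit 0) (XT.nd (nat_lit 78) (nat_lit 228) (nat_lit 0) (XT.lf (nat_lit 0) (nat_lit 15806321570) (nat_lit 76) (nat_lit 4250400102) (nat_lit 76) (nat_lit 396334539) (nat_lit 21) (nat_lit 4) (nat_lit 22) (nat_lit 5) (nat_lit 22) (nat_lit 4) (nat_lit 361) (nat_lit 336) (nat_lit 323)) (XT.nd (nat_lit 78) (nat_lit 76) (nat_lit 0) (XT.lf (nat_lit 0) (nat_lit 6971098758) (nat_lit 152) (nat_lit 11819622893) (nat_lit 0) (nat_lit 3534902913) (nat_lit 19) (nat_lit 5) (nat_lit 21) (nat_lit 4) (nat_lit 19) (nat_lit 4) (nat_lit 362) (nat_lit 336) (nat_lit 322)) (XT.lf (nat_lit 0) (nat_lit 3568017457) (nat_lit 76) (nat_lit 12183004534) (nat_lit 76) (nat_lit 8673039571) (nat_lit 18) (nat_lit 4) (nat_lit 19) (nat_lit 5) (nat_lit 19) (nat_lit 4) (nat_lit 363) (nat_lit 336) (nat_lit 321)))) (XT.nd (nat_lit 156) (nat_lit 76) (nat_lit 0) (XT.nd (nat_lit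 78) (nat_lit 152) (nat_lit 0) (XT.lf (nat_lit 0) (nat_lit 22088142525) (nat_lit 76) (nat_lit 4133585353) (nat_lit 76) (nat_lit 559473330) (nat_lit 18) (nat_lit 4) (nat_lit 19) (nat_lit 5) (nat_lit 19) (nat_lit 4) (nat_lit 364) (nat_lit 336) (nat_lit 320)) (XT.lf (nat_lit 0) (nat_lit 8609965664) (nat_lit 152) (nat_lit 15280978375) (nat_lit 0) (nat_lit 5453537773) (nat_lit 16) (nat_lit 5) (nat_lit 18) (nat_lit 4) (nat_lit 16) (nat_lit 4) (nat_lit 365) (nat_lit 336) (nat_lit 319))) (XT.nd (nat_lit 78) (nat_lit 0) (nat_lit 0) (XT.lf (nat_lit 0) (nat_lit 3522558516) (nat_lit 76) (nat_lit 15953747375) (nat_lit 76) (nat_lit 12755141752) (nat_lit 15) (nat_lit 4) (nat_lit 16) (nat_lit 5) (nat_lit 16) (nat_lit 4) (nat_lit 366) (nat_lit 336) (nat_lit 318)) (XT.lf (nat_lit 0) (nat_lit 26423560638) (nat_lit 76) (nat_lit 6137459842) (nat_lit 76) (nat_lit 2902177929) (nat_lit 15) (nat_lit 4) (nat_lit 16)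 (nat_lit 5) (nat_lit 16) (nat_lit 4) (nat_lit 367) (nat_lit 336) (nat_lit 317))))) (XT.nd (nat_lit 234) (nat_lit 228) (nat_lit 0) (XT.nd (nat_lit 78) (nat_lit 76) (nat_lit 0) (XT.lf (nat_lit 0) (nat_lit 8318856893) (nat_lit 152) (nat_lit 25234592951) (nat_lit 0) (nat_lit 5477835729) (nat_lit 13) (nat_lit 5) (nat_lit 15) (nat_lit 4) (nat_lit 13) (nat_lit 4) (nat_lit 368) (nat_lit 336) (nat_lit 316)) (XT.nd (nat_lit 78) (nat_lit 76) (nat_lit 0) (XT.lf (nat_lit 0) (nat_lit 21522372564) (nat_lit 152) (nat_lit 2844781595) (nat_lit 0) (nat_lit 18657236144) (nat_lit 13) (nat_lit 5) (nat_lit 15) (nat_lit 4) (nat_lit 13) (nat_lit 4) (nat_lit 369) (nat_lit 336) (nat_lit 315)) (XT.lf (nat_lit 0) (nat_lit 24757575372) (nat_lit 76) (nat_lit 12808055649) (nat_lit 76) (nat_lit 9921949442) (nat_lit 12) (nat_lit 4) (nat_lit 13) (nat_lit 5) (nat_lit 13) (nat_lit 4) (nat_lit 370) (nat_lit 336) (nat_lit 314))))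 (XT.nd (nat_lit 156) (nat_lit 76) (nat_lit 0) (XT.nd (nat_lit 78) (nat_lit 0) (nat_lit 0) (XT.lf (nat_lit 0) (nat_lit 3286876595) (nat_lit 152) (nat_lit 48521822677) (nat_lit 0) (nat_lit 761362851) (nat_lit 10) (nat_lit 5) (nat_lit 12) (nat_lit 4) (nat_lit 10) (nat_lit 4) (nat_lit 371) (nat_lit 336) (nat_lit 313)) (XT.lf (nat_lit 0) (nat_lit 19150644311) (nat_lit 152) (nat_lit 22328643938) (nat_lit 0) (nat_lit 16611342592) (nat_lit 10) (nat_lit 5) (nat_lit 12) (nat_lit 4) (nat_lit 10) (nat_lit 4) (nat_lit 372) (nat_lit 336) (nat_lit 312))) (XT.nd (nat_lit 78) (nat_lit 0) (nat_lit 0) (XT.lf (nat_lit 0) (nat_lit 8220338767) (nat_lit 76) (nat_lit 29370364786) (nat_lit 76) (nat_lit 26819073523) (nat_lit 9) (nat_lit 4) (nat_lit 10) (nat_lit 5) (nat_lit 10) (nat_lit 4) (nat_lit 373) (nat_lit 336) (nat_lit 311)) (XT.lf (nat_lit 0) (nat_lit 45569963559) (nat_lit 76) (nat_lit 14257009707) (nat_lit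 76) (nat_lit 11695292753) (nat_lit 9) (nat_lit 4) (nat_lit 10) (nat_lit 5) (nat_lit 10) (nat_lit 4) (nat_lit 374) (nat_lit 336) (nat_lit 310))))))))
noncomputable def xc39 : XT := (XT.nd (nat_lit 2106) (nat_lit 0) (nat_lit 0) (XT.nd (nat_lit 1014) (nat_lit 76) (nat_lit 0) (XT.nd (nat_lit 468) (nat_lit 228) (nat_lit 0) (XT.nd (nat_lit 234) (nat_lit 152) (nat_lit 0) (XT.nd (nat_lit 78) (nat_lit 0) (nat_lit 0) (XT.lf (nat_lit 0) (nat_lit 5595973419) (nat_lit 152) (nat_lit 70648843645) (nat_lit 0) (nat_lit 3360510140) (nat_lit 7) (nat_lit 5) (nat_lit 9) (nat_lit 4) (nat_lit 7) (nat_lit 4) (nat_lit 375) (nat_lit 336) (nat_lit 309)) (XT.nd (nat_lit 78) (nat_lit 0) (nat_lit 0) (XT.lf (nat_lit 0) (nat_lit 26259099743) (nat_lit 152) (nat_lit 38245097465) (nat_lit 0) (nat_lit 24016781403) (nat_lit 7) (nat_lit 5) (nat_lit 9) (nat_lit 4) (nat_lit 7) (nat_lit 4) (nat_lit 376) (nat_lit 336) (nat_lit 308))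 (XT.lf (nat_lit 0) (nat_lit 49913384315) (nat_lit 152) (nat_lit 1211735544) (nat_lit 0) (nat_lit 47665105053) (nat_lit 7) (nat_lit 5) (nat_lit 9) (nat_lit 4) (nat_lit 7) (nat_lit 4) (nat_lit 377) (nat_lit 336) (nat_lit 307)))) (XT.nd (nat_lit 78) (nat_lit 76) (nat_lit 0) (XT.lf (nat_lit 0) (nat_lit 45199807300) (nat_lit 76) (nat_lit 33693448687) (nat_lit 76) (nat_lit 31439986013) (nat_lit 6) (nat_lit 4) (nat_lit 7) (nat_lit 5) (nat_lit 7) (nat_lit 4) (nat_lit 378) (nat_lit 336) (nat_lit 306)) (XT.nd (nat_lit 78) (nat_lit 76) (nat_lit 0) (XT.lf (nat_lit 0) (nat_lit 98517569661) (nat_lit 76) (nat_lit 13676043361) (nat_lit 76) (nat_lit 11418073374) (nat_lit 6) (nat_lit 4) (nat_lit 7) (nat_lit 5) (nat_lit 7) (nat_lit 4) (nat_lit 379) (nat_lit 336) (nat_lit 305)) (XT.lf (nat_lit 0) (nat_lit 11864363001) (nat_lit 76) (nat_lit 116854350648) (nat_lit 0) (nat_lit 9897502661) (nat_lit 5) (nat_lit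 5) (nat_lit 6) (nat_lit 4) (nat_lit 5) (nat_lit 4) (nat_lit 380) (nat_lit 336) (nat_lit 304))))) (XT.nd (nat_lit 234) (nat_lit 152) (nat_lit 0) (XT.nd (nat_lit 78) (nat_lit 76) (nat_lit 0) (XT.lf (nat_lit 0) (nat_lit 39413872627) (nat_lit 76) (nat_lit 78640391896) (nat_lit 0) (nat_lit 37444048655) (nat_lit 5) (nat_lit 5) (nat_lit 6) (nat_lit 4) (nat_lit 5) (nat_lit 4) (nat_lit 381) (nat_lit 336) (nat_lit 303)) (XT.nd (nat_lit 78) (nat_lit 76) (nat_lit 0) (XT.lf (nat_lit 0) (nat_lit 71024729765) (nat_lit 76) (nat_lit 34846328179) (nat_lit 0) (nat_lit 69052328723) (nat_lit 5) (nat_lit 5) (nat_lit 6) (nat_lit 4) (nat_lit 5) (nat_lit 4) (nat_lit 382) (nat_lit 336) (nat_lit 302)) (XT.lf (nat_lit 0) (nat_lit 16888183784) (nat_lit 76) (nat_lit 91126527599) (nat_lit 76) (nat_lit 89151885625) (nat_lit 4) (nat_lit 4) (nat_lit 5) (nat_lit 5) (nat_lit 5) (nat_lit 4) (nat_lit 383) (nat_lit 336) (nat_lit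 301)))) (XT.nd (nat_lit 156) (nat_lit 152) (nat_lit 0) (XT.nd (nat_lit 78) (nat_lit 0) (nat_lit 0) (XT.lf (nat_lit 0) (nat_lit 80172967903) (nat_lit 76) (nat_lit 72142765187) (nat_lit 76) (nat_lit 70166174576) (nat_lit 4) (nat_lit 4) (nat_lit 5) (nat_lit 5) (nat_lit 5) (nat_lit 4) (nat_lit 384) (nat_lit 336) (nat_lit 300)) (XT.lf (nat_lit 0) (nat_lit 152840768117) (nat_lit 76) (nat_lit 50369861877) (nat_lit 76) (nat_lit 48391576800) (nat_lit 4) (nat_lit 4) (nat_lit 5) (nat_lit 5) (nat_lit 5) (nat_lit 4) (nat_lit 385) (nat_lit 336) (nat_lit 299))) (XT.nd (nat_lit 78) (nat_lit 152) (nat_lit 0) (XT.lf (nat_lit 0) (nat_lit 236313345735) (nat_lit 76) (nat_lit 25381826083) (nat_lit 76) (nat_lit 23402067558) (nat_lit 4) (nat_lit 4) (nat_lit 5) (nat_lit 5) (nat_lit 5) (nat_lit 4) (nat_lit 386) (nat_lit 336) (nat_lit 298)) (XT.lf (nat_lit 0) (nat_lit 5366878105) (nat_lit 152) (nat_lit 314496365113)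 (nat_lit 0) (nat_lit 3644234813) (nat_lit 2) (nat_lit 5) (nat_lit 4) (nat_lit 4) (nat_lit 2) (nat_lit 4) (nat_lit 387) (nat_lit 336) (nat_lit 297)))))) (XT.nd (nat_lit 546) (nat_lit 76) (nat_lit 0) (XT.nd (nat_lit 234) (nat_lit 0) (nat_lit 0) (XT.nd (nat_lit 78) (nat_lit 0) (nat_lit 0) (XT.lf (nat_lit 0) (nat_lit 39894808912) (nat_lit 152) (nat_lit 288870153847) (nat_lit 0) (nat_lit 38171196803) (nat_lit 2) (nat_lit 5) (nat_lit 4) (nat_lit 4) (nat_lit 2) (nat_lit 4) (nat_lit 388) (nat_lit 336) (nat_lit 296)) (XT.nd (nat_lit 78) (nat_lit 0) (nat_lit 0) (XT.lf (nat_lit 0) (nat_lit 79566635371) (nat_lit 152) (nat_lit 259475621317) (nat_lit 0) (nat_lit 77842180813) (nat_lit 2) (nat_lit 5) (nat_lit 4) (nat_lit 4) (nat_lit 2) (nat_lit 4) (nat_lit 389) (nat_lit 336) (nat_lit 295)) (XT.lf (nat_lit 0) (nat_lit 125158545391) (nat_lit 152) (nat_lit 225737657103) (nat_lit 0) (nat_lit 123433358269) (nat_lit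 2) (nat_lit 5) (nat_lit 4) (nat_lit 4) (nat_lit 2) (nat_lit 4) (nat_lit 390) (nat_lit 336) (nat_lit 294)))) (XT.nd (nat_lit 156) (nat_lit 0) (nat_lit 0) (XT.nd (nat_lit 78) (nat_lit 0) (nat_lit 0) (XT.lf (nat_lit 0) (nat_lit 177562554603) (nat_lit 152) (nat_lit 186996170601) (nat_lit 0) (nat_lit 175836730469) (nat_lit 2) (nat_lit 5) (nat_lit 4) (nat_lit 4) (nat_lit 2) (nat_lit 4) (nat_lit 391) (nat_lit 336) (nat_lit 293)) (XT.lf (nat_lit 0) (nat_lit 237803958840) (nat_lit 152) (nat_lit 142493176205) (nat_lit 0) (nat_lit 236077580782) (nat_lit 2) (nat_lit 5) (nat_lit 4) (nat_lit 4) (nat_lit 2) (nat_lit 4) (nat_lit 392) (nat_lit 336) (nat_lit 292))) (XT.nd (nat_lit 78) (nat_lit 0) (nat_lit 0) (XT.lf (nat_lit 0) (nat_lit 307061394271) (nat_lit 152) (nat_lit 91357963155) (nat_lit 0) (nat_lit 305334534540) (nat_lit 2) (nat_lit 5) (nat_lit 4) (nat_lit 4) (nat_lit 2) (nat_lit 4) (nat_lit 393) (nat_lit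 336) (nat_lit 291)) (XT.lf (nat_lit 0) (nat_lit 386689897676) (nat_lit 152) (nat_lit 32590059893) (nat_lit 0) (nat_lit 384962619099) (nat_lit 2) (nat_lit 5) (nat_lit 4) (nat_lit 4) (nat_lit 2) (nat_lit 4) (nat_lit 394) (nat_lit 336) (nat_lit 290))))) (XT.nd (nat_lit 234) (nat_lit 0) (nat_lit 0) (XT.nd (nat_lit 78) (nat_lit 0) (nat_lit 0) (XT.lf (nat_lit 0) (nat_lit 38376919105) (nat_lit 76) (nat_lit 441459605312) (nat_lit 76) (nat_lit 439731962520) (nat_lit 1) (nat_lit 4) (nat_lit 2) (nat_lit 5) (nat_lit 2) (nat_lit 4) (nat_lit 395) (nat_lit 336) (nat_lit 289)) (XT.nd (nat_lit 78) (nat_lit 0) (nat_lit 0) (XT.lf (nat_lit 0) (nat_lit 123620420642) (nat_lit 76) (nat_lit 465023735495) (nat_lit 76) (nat_lit 463295775995) (nat_lit 1) (nat_lit 4) (nat_lit 2) (nat_lit 5) (nat_lit 2) (nat_lit 4) (nat_lit 396) (nat_lit 336) (nat_lit 288)) (XT.lf (nat_lit 0) (nat_lit 221623314684) (nat_lit 76) (nat_lit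 492136956760) (nat_lit 76) (nat_lit 490408721863) (nat_lit 1) (nat_lit 4) (nat_lit 2) (nat_lit 5) (nat_lit 2) (nat_lit 4) (nat_lit 397) (nat_lit 336) (nat_lit 287)))) (XT.nd (nat_lit 156) (nat_lit 0) (nat_lit 0) (XT.nd (nat_lit 78) (nat_lit 0) (nat_lit 0) (XT.lf (nat_lit 0) (nat_lit 334303049159) (nat_lit 76) (nat_lit 523329745178) (nat_lit 76) (nat_lit 521601270804) (nat_lit 1) (nat_lit 4) (nat_lit 2) (nat_lit 5) (nat_lit 2) (nat_lit 4) (nat_lit 398) (nat_lit 336) (nat_lit 286)) (XT.lf (nat_lit 0) (nat_lit 463864227568) (nat_lit 76) (nat_lit 559212394432) (nat_lit 76) (nat_lit 557483711818) (nat_lit 1) (nat_lit 4) (nat_lit 2) (nat_lit 5) (nat_lit 2) (nat_lit 4) (nat_lit 399) (nat_lit 336) (nat_lit 285))) (XT.nd (nat_lit 78) (nat_lit 0) (nat_lit 0) (XT.lf (nat_lit 0) (nat_lit 612841742531) (nat_lit 76) (nat_lit 600486956358) (nat_lit 76) (nat_lit 598758092665) (nat_lit 1) (nat_lit 4) (nat_lit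 2) (nat_lit 5) (nat_lit 2) (nat_lit 4) (nat_lit 400) (nat_lit 336) (nat_lit 284)) (XT.lf (nat_lit 0) (nat_lit 784150371514) (nat_lit 76) (nat_lit 647960976731) (nat_lit 76) (nat_lit 646231955578) (nat_lit 1) (nat_lit 4) (nat_lit 2) (nat_lit 5) (nat_lit 2) (nat_lit 4) (nat_lit 401) (nat_lit 336) (nat_lit 283))))))) (XT.nd (nat_lit 1014) (nat_lit 0) (nat_lit 0) (XT.nd (nat_lit 468) (nat_lit 0) (nat_lit 0) (XT.nd (nat_lit 234) (nat_lit 0) (nat_lit 0) (XT.nd (nat_lit 78) (nat_lit 0) (nat_lit 0) (XT.lf (nat_lit 0) (nat_lit 981141805086) (nat_lit 76) (nat_lit 702563295081) (nat_lit 76) (nat_lit 700834137007) (nat_lit 1) (nat_lit 4) (nat_lit 2) (nat_lit 5) (nat_lit 2) (nat_lit 4) (nat_lit 402) (nat_lit 336) (nat_lit 282)) (XT.nd (nat_lit 78) (nat_lit 0) (nat_lit 0) (XT.lf (nat_lit 0) (nat_lit 1207670223467) (nat_lit 76) (nat_lit 765362217637) (nat_lit 76) (nat_lit 763632940500) (nat_lit 1) (nat_lit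 4) (nat_lit 2) (nat_lit 5) (nat_lit 2) (nat_lit 4) (nat_lit 403) (nat_lit 336) (nat_lit 281)) (XT.lf (nat_lit 0) (nat_lit 1468167704410) (nat_lit 76) (nat_lit 837586418969) (nat_lit 76) (nat_lit 835857038300) (nat_lit 1) (nat_lit 4) (nat_lit 2) (nat_lit 5) (nat_lit 2) (nat_lit 4) (nat_lit 404) (nat_lit 336) (nat_lit 280)))) (XT.nd (nat_lit 78) (nat_lit 0) (nat_lit 0) (XT.lf (nat_lit 0) (nat_lit 1767730937758) (nat_lit 76) (nat_lit 920648981278) (nat_lit 76) (nat_lit 918919510581) (nat_lit 1) (nat_lit 4) (nat_lit 2) (nat_lit 5) (nat_lit 2) (nat_lit 4) (nat_lit 405) (nat_lit 336) (nat_lit 279)) (XT.nd (nat_lit 78) (nat_lit 0) (nat_lit 0) (XT.lf (nat_lit 0) (nat_lit 2112220943295) (nat_lit 76) (nat_lit 1016175041654) (nat_lit 76) (nat_lit 1014445492671) (nat_lit 1) (nat_lit 4) (nat_lit 2) (nat_lit 5) (nat_lit 2) (nat_lit 4) (nat_lit 406) (nat_lit 336) (nat_lit 278)) (XT.lf (nat_lit 0) (nat_lit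 2508377742867) (nat_lit 76) (nat_lit 1126033588232) (nat_lit 76) (nat_lit 1124303971175) (nat_lit 1) (nat_lit 4) (nat_lit 2) (nat_lit 5) (nat_lit 2) (nat_lit 4) (nat_lit 407) (nat_lit 336) (nat_lit 277))))) (XT.nd (nat_lit 234) (nat_lit 0) (nat_lit 0) (XT.nd (nat_lit 78) (nat_lit 0) (nat_lit 0) (XT.lf (nat_lit 0) (nat_lit 2963952230381) (nat_lit 76) (nat_lit 1252374027360) (nat_lit 76) (nat_lit 1250644351108) (nat_lit 1) (nat_lit 4) (nat_lit 2) (nat_lit 5) (nat_lit 2) (nat_lit 4) (nat_lit 408) (nat_lit 336) (nat_lit 276)) (XT.nd (nat_lit 78) (nat_lit 0) (nat_lit 0) (XT.lf (nat_lit 0) (nat_lit 3487857819720) (nat_lit 76) (nat_lit 1397668237195) (nat_lit 76) (nat_lit 1395938509469) (nat_lit 1) (nat_lit 4) (nat_lit 2) (nat_lit 5) (nat_lit 2) (nat_lit 4) (nat_lit 409) (nat_lit 336) (nat_lit 275)) (XT.lf (nat_lit 0) (nat_lit 4090344837635) (nat_lit 76) (nat_lit 1564758930537) (nat_lit 76) (nat_lit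 1563029158051) (nat_lit 1) (nat_lit 4) (nat_lit 2) (nat_lit 5) (nat_lit 2) (nat_lit 4) (nat_lit 410) (nat_lit 336) (nat_lit 274)))) (XT.nd (nat_lit 156) (nat_lit 0) (nat_lit 0) (XT.nd (nat_lit 78) (nat_lit 0) (nat_lit 0) (XT.lf (nat_lit 0) (nat_lit 4783201073605) (nat_lit 76) (nat_lit 1756915273126) (nat_lit 76) (nat_lit 1755185461718) (nat_lit 1) (nat_lit 4) (nat_lit 2) (nat_lit 5) (nat_lit 2) (nat_lit 4) (nat_lit 411) (nat_lit 336) (nat_lit 273)) (XT.lf (nat_lit 0) (nat_lit 5579982410508) (nat_lit 76) (nat_lit 1977896845577) (nat_lit 76) (nat_lit 1976167000325) (nat_lit 1) (nat_lit 4) (nat_lit 2) (nat_lit 5) (nat_lit 2) (nat_lit 4) (nat_lit 412) (nat_lit 336) (nat_lit 272))) (XT.nd (nat_lit 78) (nat_lit 0) (nat_lit 0) (XT.lf (nat_lit 0) (nat_lit 6496278048415) (nat_lit 76) (nat_lit 2232027200396) (nat_lit 76) (nat_lit 2230297325713) (nat_lit 1) (nat_lit 4) (nat_lit 2) (nat_lit 5) (nat_lit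 2) (nat_lit 4) (nat_lit 413) (nat_lit 336) (nat_lit 271)) (XT.lf (nat_lit 0) (nat_lit 7550015510674) (nat_lit 76) (nat_lit 2524278453220) (nat_lit 76) (nat_lit 2522548552945) (nat_lit 1) (nat_lit 4) (nat_lit 2) (nat_lit 5) (nat_lit 2) (nat_lit 4) (nat_lit 414) (nat_lit 336) (nat_lit 270)))))) (XT.nd (nat_lit 546) (nat_lit 0) (nat_lit 0) (XT.nd (nat_lit 234) (nat_lit 0) (nat_lit 0) (XT.nd (nat_lit 78) (nat_lit 0) (nat_lit 0) (XT.lf (nat_lit 0) (nat_lit 8761811399810) (nat_lit 76) (nat_lit 2860368563343) (nat_lit 76) (nat_lit 2858638640815) (nat_lit 1) (nat_lit 4) (nat_lit 2) (nat_lit 5) (nat_lit 2) (nat_lit 4) (nat_lit 415) (nat_lit 336) (nat_lit 269)) (XT.nd (nat_lit 78) (nat_lit 0) (nat_lit 0) (XT.lf (nat_lit 0) (nat_lit 10155374765827) (nat_lit 76) (nat_lit 3246873206832) (nat_lit 76) (nat_lit 3245143264954) (nat_lit 1) (nat_lit 4) (nat_lit 2) (nat_lit 5) (nat_lit 2) (nat_lit 4) (nat_lit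 416) (nat_lit 336) (nat_lit 268)) (XT.lf (nat_lit 0) (nat_lit 11757970978929) (nat_lit 76) (nat_lit 3691354431062) (nat_lit 76) (nat_lit 3689624472356) (nat_lit 1) (nat_lit 4) (nat_lit 2) (nat_lit 5) (nat_lit 2) (nat_lit 4) (nat_lit 417) (nat_lit 336) (nat_lit 267)))) (XT.nd (nat_lit 156) (nat_lit 0) (nat_lit 0) (XT.nd (nat_lit 78) (nat_lit 0) (nat_lit 0) (XT.lf (nat_lit 0) (nat_lit 13600955182416) (nat_lit 76) (nat_lit 4202508607809) (nat_lit 76) (nat_lit 4200778634472) (nat_lit 1) (nat_lit 4) (nat_lit 2) (nat_lit 5) (nat_lit 2) (nat_lit 4) (nat_lit 418) (nat_lit 336) (nat_lit 266)) (XT.lf (nat_lit 0) (nat_lit 15720385762878) (nat_lit 76) (nat_lit 4790336579663) (nat_lit 76) (nat_lit 4788606593602) (nat_lit 1) (nat_lit 4) (nat_lit 2) (nat_lit 5) (nat_lit 2) (nat_lit 4) (nat_lit 419) (nat_lit 336) (nat_lit 265))) (XT.nd (nat_lit 78) (nat_lit 0) (nat_lit 0) (XT.lf (nat_lit 0) (nat_lit 18157729840368)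 (nat_lit 76) (nat_lit 5466339328682) (nat_lit 76) (nat_lit 5464609331557) (nat_lit 1) (nat_lit 4) (nat_lit 2) (nat_lit 5) (nat_lit 2) (nat_lit 4) (nat_lit 420) (nat_lit 336) (nat_lit 264)) (XT.lf (nat_lit 0) (nat_lit 20960674581620) (nat_lit 76) (nat_lit 6243742995607) (nat_lit 76) (nat_lit 6242012988861) (nat_lit 1) (nat_lit 4) (nat_lit 2) (nat_lit 5) (nat_lit 2) (nat_lit 4) (nat_lit 421) (nat_lit 336) (nat_lit 263))))) (XT.nd (nat_lit 234) (nat_lit 0) (nat_lit 0) (XT.nd (nat_lit 78) (nat_lit 0) (nat_lit 0) (XT.lf (nat_lit 0) (nat_lit 24184060209831) (nat_lit 76) (nat_lit 7137757652182) (nat_lit 76) (nat_lit 7136027637070) (nat_lit 1) (nat_lit 4) (nat_lit 2) (nat_lit 5) (nat_lit 2) (nat_lit 4) (nat_lit 422) (nat_lit 336) (nat_lit 262)) (XT.nd (nat_lit 78) (nat_lit 0) (nat_lit 0) (XT.lf (nat_lit 0) (nat_lit 27890952965553) (nat_lit 76) (nat_lit 8165874889514) (nat_lit 76) (nat_lit 8164144867127)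 (nat_lit 1) (nat_lit 4) (nat_lit 2) (nat_lit 5) (nat_lit 2) (nat_lit 4) (nat_lit 423) (nat_lit 336) (nat_lit 261)) (XT.lf (nat_lit 0) (nat_lit 32153879011399) (nat_lit 76) (nat_lit 9348210044856) (nat_lit 76) (nat_lit 9346480016143) (nat_lit 1) (nat_lit 4) (nat_lit 2) (nat_lit 5) (nat_lit 2) (nat_lit 4) (nat_lit 424) (nat_lit 336) (nat_lit 260)))) (XT.nd (nat_lit 156) (nat_lit 0) (nat_lit 0) (XT.nd (nat_lit 78) (nat_lit 0) (nat_lit 0) (XT.lf (nat_lit 0) (nat_lit 37056243422179) (nat_lit 76) (nat_lit 10707895762551) (nat_lit 76) (nat_lit 10706165728337) (nat_lit 1) (nat_lit 4) (nat_lit 2) (nat_lit 5) (nat_lit 2) (nat_lit 4) (nat_lit 425) (nat_lit 336) (nat_lit 259)) (XT.lf (nat_lit 0) (nat_lit 42693962023321) (nat_lit 76) (nat_lit 12271534589249) (nat_lit 76) (nat_lit 12269804550252) (nat_lit 1) (nat_lit 4) (nat_lit 2) (nat_lit 5) (nat_lit 2) (nat_lit 4) (nat_lit 426) (nat_lit 336) (nat_lit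 258))) (XT.nd (nat_lit 78) (nat_lit 0) (nat_lit 0) (XT.lf (nat_lit 0) (nat_lit 49177338004847) (nat_lit 76) (nat_lit 14069719458517) (nat_lit 76) (nat_lit 14067989415361) (nat_lit 1) (nat_lit 4) (nat_lit 2) (nat_lit 5) (nat_lit 2) (nat_lit 4) (nat_lit 427) (nat_lit 336) (nat_lit 257)) (XT.lf (nat_lit 0) (nat_lit 56633220027265) (nat_lit 76) (nat_lit 16137632248231) (nat_lit 76) (nat_lit 16135902201458) (nat_lit 1) (nat_lit 4) (nat_lit 2) (nat_lit 5) (nat_lit 2) (nat_lit 4) (nat_lit 428) (nat_lit 336) (nat_lit 256))))))))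
noncomputable def xc40 : XT := (XT.nd (nat_lit 48204) (nat_lit 0) (nat_lit 76) (XT.nd (nat_lit 47190) (nat_lit 0) (nat_lit 1216) (XT.nd (nat_lit 46644) (nat_lit 0) (nat_lit 2356) (XT.nd (nat_lit 234) (nat_lit 0) (nat_lit 0) (XT.nd (nat_lit 78) (nat_lit 0) (nat_lit 0) (XT.lf (nat_lit 0) (nat_lit 65207484043188) (nat_lit 76) (nat_lit 18515732121669) (nat_lit 76) (nat_lit 18514002071751) (nat_lit 1) (nat_lit 4) (nat_lit 2) (nat_lit 5) (nat_lit 2) (nat_lit 4) (nat_lit 429) (nat_lit 336) (nat_lit 255)) (XT.nd (nat_lit 78) (nat_lit 0) (nat_lit 0) (XT.lf (nat_lit 0) (nat_lit 75067887392058) (nat_lit 76) (nat_lit 21250547119832) (nat_lit 76) (nat_lit 21248817067180) (nat_lit 1) (nat_lit 4) (nat_lit 2) (nat_lit 5) (nat_lit 2) (nat_lit 4) (nat_lit 430) (nat_lit 336) (nat_lit 254)) (XT.lf (nat_lit 0) (nat_lit 86407351008961) (nat_lit 76) (nat_lit 24395584492685) (nat_lit 76) (nat_lit 24393854437654)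 (nat_lit 1) (nat_lit 4) (nat_lit 2) (nat_lit 5) (nat_lit 2) (nat_lit 4) (nat_lit 431) (nat_lit 336) (nat_lit 253)))) (XT.nd (nat_lit 78) (nat_lit 0) (nat_lit 0) (XT.lf (nat_lit 0) (nat_lit 99447733964663) (nat_lit 76) (nat_lit 28012377580131) (nat_lit 76) (nat_lit 28010647523032) (nat_lit 1) (nat_lit 4) (nat_lit 2) (nat_lit 5) (nat_lit 2) (nat_lit 4) (nat_lit 432) (nat_lit 336) (nat_lit 252)) (XT.nd (nat_lit 78) (nat_lit 0) (nat_lit 0) (XT.lf (nat_lit 0) (nat_lit 114444174186559) (nat_lit 76) (nat_lit 32171689725186) (nat_lit 76) (nat_lit 32169959666289) (nat_lit 1) (nat_lit 4) (nat_lit 2) (nat_lit 5) (nat_lit 2) (nat_lit 4) (nat_lit 433) (nat_lit 336) (nat_lit 251)) (XT.lf (nat_lit 0) (nat_lit 131690080287684) (nat_lit 76) (nat_lit 36954898774165) (nat_lit 76) (nat_lit 36953168713704) (nat_lit 1) (nat_lit 4) (nat_lit 2) (nat_lit 5) (nat_lit 2) (nat_lit 4) (nat_lit 434) (nat_lit 336) (nat_lit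 250))))) (XT.nd (nat_lit 234) (nat_lit 532) (nat_lit 0) (XT.nd (nat_lit 78) (nat_lit 532) (nat_lit 0) (XT.lf (nat_lit 0) (nat_lit 3189963344) (nat_lit 228) (nat_lit 227727474) (nat_lit 228) (nat_lit 227727474) (nat_lit 46) (nat_lit 4) (nat_lit 49) (nat_lit 5) (nat_lit 49) (nat_lit 4) (nat_lit 346) (nat_lit 337) (nat_lit 337)) (XT.nd (nat_lit 78) (nat_lit 152) (nat_lit 0) (XT.lf (nat_lit 0) (nat_lit 3182708085) (nat_lit 380) (nat_lit 2620882471) (nat_lit 0) (nat_lit 1794261295) (nat_lit 41) (nat_lit 5) (nat_lit 46) (nat_lit 4) (nat_lit 41) (nat_lit 4) (nat_lit 347) (nat_lit 337) (nat_lit 336)) (XT.lf (nat_lit 0) (nat_lit 3596971596) (nat_lit 152) (nat_lit 3490722165) (nat_lit 152) (nat_lit 894930340) (nat_lit 39) (nat_lit 4) (nat_lit 41) (nat_lit 5) (nat_lit 41) (nat_lit 4) (nat_lit 348) (nat_lit 337) (nat_lit 335)))) (XT.nd (nat_lit 156) (nat_lit 152) (nat_lit 0) (XT.nd (nat_lit 78) (nat_lit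 152) (nat_lit 0) (XT.lf (nat_lit 0) (nat_lit 2085618730) (nat_lit 152) (nat_lit 580090945) (nat_lit 228) (nat_lit 5770936625) (nat_lit 36) (nat_lit 5) (nat_lit 38) (nat_lit 5) (nat_lit 39) (nat_lit 4) (nat_lit 349) (nat_lit 337) (nat_lit 334)) (XT.lf (nat_lit 0) (nat_lit 330665498) (nat_lit 152) (nat_lit 6296046514) (nat_lit 152) (nat_lit 2332060970) (nat_lit 34) (nat_lit 4) (nat_lit 36) (nat_lit 5) (nat_lit 36) (nat_lit 4) (nat_lit 350) (nat_lit 337) (nat_lit 333))) (XT.nd (nat_lit 78) (nat_lit 76) (nat_lit 0) (XT.lf (nat_lit 0) (nat_lit 1453591623) (nat_lit 228) (nat_lit 1529066994) (nat_lit 76) (nat_lit 6570229039) (nat_lit 33) (nat_lit 5) (nat_lit 36) (nat_lit 5) (nat_lit 34) (nat_lit 4) (nat_lit 351) (nat_lit 337) (nat_lit 332)) (XT.lf (nat_lit 0) (nat_lit 5535773894) (nat_lit 152) (nat_lit 3722025148) (nat_lit 0) (nat_lit 966597504) (nat_lit 32) (nat_lit 5) (nat_lit 34) (nat_lit 4)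 (nat_lit 32) (nat_lit 4) (nat_lit 352) (nat_lit 337) (nat_lit 331)))))) (XT.nd (nat_lit 468) (nat_lit 532) (nat_lit 0) (XT.nd (nat_lit 234) (nat_lit 304) (nat_lit 0) (XT.nd (nat_lit 78) (nat_lit 152) (nat_lit 0) (XT.lf (nat_lit 0) (nat_lit 4622086297) (nat_lit 152) (nat_lit 5692502886) (nat_lit 152) (nat_lit 669440777) (nat_lit 30) (nat_lit 4) (nat_lit 32) (nat_lit 5) (nat_lit 32) (nat_lit 4) (nat_lit 353) (nat_lit 337) (nat_lit 330)) (XT.nd (nat_lit 78) (nat_lit 0) (nat_lit 0) (XT.lf (nat_lit 0) (nat_lit 2260625499) (nat_lit 76) (nat_lit 1310709775) (nat_lit 152) (nat_lit 8266165046) (nat_lit 28) (nat_lit 5) (nat_lit 29) (nat_lit 5) (nat_lit 30) (nat_lit 4) (nat_lit 354) (nat_lit 337) (nat_lit 329)) (XT.lf (nat_lit 0) (nat_lit 8565492230) (nat_lit 152) (nat_lit 664903777) (nat_lit 0) (nat_lit 3555972096) (nat_lit 28) (nat_lit 5) (nat_lit 30) (nat_lit 4) (nat_lit 28) (nat_lit 4) (nat_lit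 355) (nat_lit 337) (nat_lit 328)))) (XT.nd (nat_lit 78) (nat_lit 152) (nat_lit 0) (XT.lf (nat_lit 0) (nat_lit 598595259) (nat_lit 152) (nat_lit 3982050959) (nat_lit 76) (nat_lit 9263396795) (nat_lit 26) (nat_lit 5) (nat_lit 28) (nat_lit 5) (nat_lit 27) (nat_lit 4) (nat_lit 356) (nat_lit 337) (nat_lit 327)) (XT.nd (nat_lit 78) (nat_lit 76) (nat_lit 0) (XT.lf (nat_lit 0) (nat_lit 5804863258) (nat_lit 152) (nat_lit 8184103754) (nat_lit 0) (nat_lit 1026870052) (nat_lit 25) (nat_lit 5) (nat_lit 27) (nat_lit 4) (nat_lit 25) (nat_lit 4) (nat_lit 357) (nat_lit 337) (nat_lit 326)) (XT.lf (nat_lit 0) (nat_lit 2894517824) (nat_lit 76) (nat_lit 9187050074) (nat_lit 76) (nat_lit 4238424415) (nat_lit 24) (nat_lit 4) (nat_lit 25) (nat_lit 5) (nat_lit 25) (nat_lit 4) (nat_lit 358) (nat_lit 337) (nat_lit 325))))) (XT.nd (nat_lit 234) (nat_lit 304) (nat_lit 0) (XT.nd (nat_lit 78) (nat_lit 152) (nat_lit 0)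 (XT.lf (nat_lit 0) (nat_lit 1532138758) (nat_lit 152) (nat_lit 1802903375) (nat_lit 76) (nat_lit 14447964867) (nat_lit 23) (nat_lit 5) (nat_lit 25) (nat_lit 5) (nat_lit 24) (nat_lit 4) (nat_lit 359) (nat_lit 337) (nat_lit 324)) (XT.nd (nat_lit 78) (nat_lit 76) (nat_lit 0) (XT.lf (nat_lit 0) (nat_lit 8164963281) (nat_lit 152) (nat_lit 7585061138) (nat_lit 0) (nat_lit 3620594276) (nat_lit 22) (nat_lit 5) (nat_lit 24) (nat_lit 4) (nat_lit 22) (nat_lit 4) (nat_lit 360) (nat_lit 337) (nat_lit 323)) (XT.lf (nat_lit 0) (nat_lit 6381807636) (nat_lit 76) (nat_lit 9706110799) (nat_lit 76) (nat_lit 5064182136) (nat_lit 21) (nat_lit 4) (nat_lit 22) (nat_lit 5) (nat_lit 22) (nat_lit 4) (nat_lit 361) (nat_lit 337) (nat_lit 322)))) (XT.nd (nat_lit 156) (nat_lit 152) (nat_lit 0) (XT.nd (nat_lit 78) (nat_lit 76) (nat_lit 0) (XT.lf (nat_lit 0) (nat_lit 2010666039) (nat_lit 152) (nat_lit 403831163) (nat_lit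 76) (nat_lit 20745390272) (nat_lit 20) (nat_lit 5) (nat_lit 22) (nat_lit 5) (nat_lit 21) (nat_lit 4) (nat_lit 362) (nat_lit 337) (nat_lit 321)) (XT.lf (nat_lit 0) (nat_lit 10419831800) (nat_lit 152) (nat_lit 8648653275) (nat_lit 0) (nat_lit 6245455914) (nat_lit 19) (nat_lit 5) (nat_lit 21) (nat_lit 4) (nat_lit 19) (nat_lit 4) (nat_lit 363) (nat_lit 337) (nat_lit 320))) (XT.nd (nat_lit 78) (nat_lit 76) (nat_lit 0) (XT.lf (nat_lit 0) (nat_lit 8822409807) (nat_lit 76) (nat_lit 11576301611) (nat_lit 76) (nat_lit 7346145674) (nat_lit 18) (nat_lit 4) (nat_lit 19) (nat_lit 5) (nat_lit 19) (nat_lit 4) (nat_lit 364) (nat_lit 337) (nat_lit 319)) (XT.lf (nat_lit 0) (nat_lit 1495537663) (nat_lit 152) (nat_lit 1063254353) (nat_lit 76) (nat_lit 27931293653) (nat_lit 17) (nat_lit 5) (nat_lit 19) (nat_lit 5) (nat_lit 18) (nat_lit 4) (nat_lit 365) (nat_lit 337) (nat_lit 318))))))) (XT.nd (nat_lit 1014) (nat_lit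 304) (nat_lit 0) (XT.nd (nat_lit 468) (nat_lit 456) (nat_lit 0) (XT.nd (nat_lit 234) (nat_lit 228) (nat_lit 0) (XT.nd (nat_lit 78) (nat_lit 76) (nat_lit 0) (XT.lf (nat_lit 0) (nat_lit 11970074019) (nat_lit 152) (nat_lit 13252926188) (nat_lit 0) (nat_lit 8212823530) (nat_lit 16) (nat_lit 5) (nat_lit 18) (nat_lit 4) (nat_lit 16) (nat_lit 4) (nat_lit 366) (nat_lit 337) (nat_lit 317)) (XT.nd (nat_lit 78) (nat_lit 0) (nat_lit 0) (XT.lf (nat_lit 0) (nat_lit 8174768558) (nat_lit 76) (nat_lit 16192536421) (nat_lit 76) (nat_lit 12403393506) (nat_lit 15) (nat_lit 4) (nat_lit 16) (nat_lit 5) (nat_lit 16) (nat_lit 4) (nat_lit 367) (nat_lit 337) (nat_lit 316)) (XT.lf (nat_lit 0) (nat_lit 33973030616) (nat_lit 76) (nat_lit 5184797896) (nat_lit 76) (nat_lit 1367922437) (nat_lit 15) (nat_lit 4) (nat_lit 16) (nat_lit 5) (nat_lit 16) (nat_lit 4) (nat_lit 368) (nat_lit 337) (nat_lit 315)))) (XT.nd (nat_lit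 78) (nat_lit 76) (nat_lit 0) (XT.lf (nat_lit 0) (nat_lit 11353466648) (nat_lit 152) (nat_lit 25250997943) (nat_lit 0) (nat_lit 8013474723) (nat_lit 13) (nat_lit 5) (nat_lit 15) (nat_lit 4) (nat_lit 13) (nat_lit 4) (nat_lit 369) (nat_lit 337) (nat_lit 314)) (XT.nd (nat_lit 78) (nat_lit 0) (nat_lit 0) (XT.lf (nat_lit 0) (nat_lit 6262095) (nat_lit 76) (nat_lit 26298448455) (nat_lit 76) (nat_lit 22940221931) (nat_lit 12) (nat_lit 4) (nat_lit 13) (nat_lit 5) (nat_lit 13) (nat_lit 4) (nat_lit 370) (nat_lit 337) (nat_lit 313)) (XT.lf (nat_lit 0) (nat_lit 31599451320) (nat_lit 76) (nat_lit 13081621392) (nat_lit 76) (nat_lit 9707538697) (nat_lit 12) (nat_lit 4) (nat_lit 13) (nat_lit 5) (nat_lit 13) (nat_lit 4) (nat_lit 371) (nat_lit 337) (nat_lit 312))))) (XT.nd (nat_lit 234) (nat_lit 228) (nat_lit 0) (XT.nd (nat_lit 78) (nat_lit 76) (nat_lit 0) (XT.lf (nat_lit 0) (nat_lit 5326762339) (nat_lit 152)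 (nat_lit 52515980594) (nat_lit 0) (nat_lit 2380787842) (nat_lit 10) (nat_lit 5) (nat_lit 12) (nat_lit 4) (nat_lit 10) (nat_lit 4) (nat_lit 372) (nat_lit 337) (nat_lit 311)) (XT.nd (nat_lit 78) (nat_lit 76) (nat_lit 0) (XT.lf (nat_lit 0) (nat_lit 23368331615) (nat_lit 152) (nat_lit 22822187934) (nat_lit 0) (nat_lit 20411931427) (nat_lit 10) (nat_lit 5) (nat_lit 12) (nat_lit 4) (nat_lit 10) (nat_lit 4) (nat_lit 373) (nat_lit 337) (nat_lit 310)) (XT.lf (nat_lit 0) (nat_lit 12179335241) (nat_lit 76) (nat_lit 32332493491) (nat_lit 76) (nat_lit 29367027486) (nat_lit 9) (nat_lit 4) (nat_lit 10) (nat_lit 5) (nat_lit 10) (nat_lit 4) (nat_lit 374) (nat_lit 337) (nat_lit 309)))) (XT.nd (nat_lit 156) (nat_lit 76) (nat_lit 0) (XT.nd (nat_lit 78) (nat_lit 152) (nat_lit 0) (XT.lf (nat_lit 0) (nat_lit 54775845622) (nat_lit 76) (nat_lit 15140408108) (nat_lit 76) (nat_lit 12167058783) (nat_lit 9) (nat_lit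 4) (nat_lit 10) (nat_lit 5) (nat_lit 10) (nat_lit 4) (nat_lit 375) (nat_lit 337) (nat_lit 308)) (XT.lf (nat_lit 0) (nat_lit 7601598600) (nat_lit 152) (nat_lit 78759470556) (nat_lit 0) (nat_lit 5010116525) (nat_lit 7) (nat_lit 5) (nat_lit 9) (nat_lit 4) (nat_lit 7) (nat_lit 4) (nat_lit 376) (nat_lit 337) (nat_lit 307))) (XT.nd (nat_lit 78) (nat_lit 76) (nat_lit 0) (XT.lf (nat_lit 0) (nat_lit 31212077024) (nat_lit 152) (nat_lit 41819514575) (nat_lit 0) (nat_lit 28615411539) (nat_lit 7) (nat_lit 5) (nat_lit 9) (nat_lit 4) (nat_lit 7) (nat_lit 4) (nat_lit 377) (nat_lit 337) (nat_lit 306)) (XT.lf (nat_lit 0) (nat_lit 534380558) (nat_lit 76) (nat_lit 57769975764) (nat_lit 76) (nat_lit 55168802965) (nat_lit 6) (nat_lit 4) (nat_lit 7) (nat_lit 5) (nat_lit 7) (nat_lit 4) (nat_lit 378) (nat_lit 337) (nat_lit 305)))))) (XT.nd (nat_lit 546) (nat_lit 152) (nat_lit 0) (XT.nd (nat_lit 234) (nat_lit 76)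 (nat_lit 0) (XT.nd (nat_lit 78) (nat_lit 76) (nat_lit 0) (XT.lf (nat_lit 0) (nat_lit 53774612296) (nat_lit 76) (nat_lit 37793766942) (nat_lit 76) (nat_lit 35188674739) (nat_lit 6) (nat_lit 4) (nat_lit 7) (nat_lit 5) (nat_lit 7) (nat_lit 4) (nat_lit 379) (nat_lit 337) (nat_lit 304)) (XT.nd (nat_lit 78) (nat_lit 76) (nat_lit 0) (XT.lf (nat_lit 0) (nat_lit 114855930241) (nat_lit 76) (nat_lit 14898146345) (nat_lit 76) (nat_lit 12289645966) (nat_lit 6) (nat_lit 4) (nat_lit 7) (nat_lit 5) (nat_lit 7) (nat_lit 4) (nat_lit 380) (nat_lit 337) (nat_lit 303)) (XT.lf (nat_lit 0) (nat_lit 14409355712) (nat_lit 76) (nat_lit 132745972171) (nat_lit 0) (nat_lit 12138517442) (nat_lit 5) (nat_lit 5) (nat_lit 6) (nat_lit 4) (nat_lit 5) (nat_lit 4) (nat_lit 381) (nat_lit 337) (nat_lit 302)))) (XT.nd (nat_lit 156) (nat_lit 76) (nat_lit 0) (XT.nd (nat_lit 78) (nat_lit 0) (nat_lit 0) (XT.lf (nat_lit 0) (nat_lit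 45991465052) (nat_lit 76) (nat_lit 89013380181) (nat_lit 0) (nat_lit 43718385850) (nat_lit 5) (nat_lit 5) (nat_lit 6) (nat_lit 4) (nat_lit 5) (nat_lit 4) (nat_lit 382) (nat_lit 337) (nat_lit 301)) (XT.lf (nat_lit 0) (nat_lit 82257144909) (nat_lit 76) (nat_lit 38835824798) (nat_lit 0) (nat_lit 79982117072) (nat_lit 5) (nat_lit 5) (nat_lit 6) (nat_lit 4) (nat_lit 5) (nat_lit 4) (nat_lit 383) (nat_lit 337) (nat_lit 300))) (XT.nd (nat_lit 78) (nat_lit 0) (nat_lit 0) (XT.lf (nat_lit 0) (nat_lit 20602616114) (nat_lit 76) (nat_lit 104166435478) (nat_lit 76) (nat_lit 101889713173) (nat_lit 4) (nat_lit 4) (nat_lit 5) (nat_lit 5) (nat_lit 5) (nat_lit 4) (nat_lit 384) (nat_lit 337) (nat_lit 299)) (XT.lf (nat_lit 0) (nat_lit 93226047664) (nat_lit 76) (nat_lit 82417161476) (nat_lit 76) (nat_lit 80138965723) (nat_lit 4) (nat_lit 4) (nat_lit 5) (nat_lit 5) (nat_lit 5) (nat_lit 4) (nat_lit 385) (nat_lit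 337) (nat_lit 298))))) (XT.nd (nat_lit 234) (nat_lit 0) (nat_lit 0) (XT.nd (nat_lit 78) (nat_lit 152) (nat_lit 0) (XT.lf (nat_lit 0) (nat_lit 176660043835) (nat_lit 76) (nat_lit 57449672907) (nat_lit 76) (nat_lit 55170195894) (nat_lit 4) (nat_lit 4) (nat_lit 5) (nat_lit 5) (nat_lit 5) (nat_lit 4) (nat_lit 386) (nat_lit 337) (nat_lit 297)) (XT.nd (nat_lit 78) (nat_lit 152) (nat_lit 0) (XT.lf (nat_lit 0) (nat_lit 272537008901) (nat_lit 76) (nat_lit 28775475430) (nat_lit 76) (nat_lit 26494884278) (nat_lit 4) (nat_lit 4) (nat_lit 5) (nat_lit 5) (nat_lit 5) (nat_lit 4) (nat_lit 387) (nat_lit 337) (nat_lit 296)) (XT.lf (nat_lit 0) (nat_lit 6551935578) (nat_lit 152) (nat_lit 360856689026) (nat_lit 0) (nat_lit 4567970388) (nat_lit 2) (nat_lit 5) (nat_lit 4) (nat_lit 4) (nat_lit 2) (nat_lit 4) (nat_lit 388) (nat_lit 337) (nat_lit 295)))) (XT.nd (nat_lit 156) (nat_lit 0) (nat_lit 0) (XT.nd (nat_lit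 78) (nat_lit 0) (nat_lit 0) (XT.lf (nat_lit 0) (nat_lit 46209487429) (nat_lit 152) (nat_lit 331492737052) (nat_lit 0) (nat_lit 44224789674) (nat_lit 2) (nat_lit 5) (nat_lit 4) (nat_lit 4) (nat_lit 2) (nat_lit 4) (nat_lit 389) (nat_lit 337) (nat_lit 294)) (XT.lf (nat_lit 0) (nat_lit 91788984746) (nat_lit 152) (nat_lit 297781364625) (nat_lit 0) (nat_lit 89803649979) (nat_lit 2) (nat_lit 5) (nat_lit 4) (nat_lit 4) (nat_lit 2) (nat_lit 4) (nat_lit 390) (nat_lit 337) (nat_lit 293))) (XT.nd (nat_lit 78) (nat_lit 0) (nat_lit 0) (XT.lf (nat_lit 0) (nat_lit 144182200304) (nat_lit 152) (nat_lit 259063001417) (nat_lit 0) (nat_lit 142196311613) (nat_lit 2) (nat_lit 5) (nat_lit 4) (nat_lit 4) (nat_lit 2) (nat_lit 4) (nat_lit 391) (nat_lit 337) (nat_lit 292)) (XT.lf (nat_lit 0) (nat_lit 204414218754) (nat_lit 152) (nat_lit 214580114233) (nat_lit 0) (nat_lit 202427848390) (nat_lit 2) (nat_lit 5) (nat_lit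 4) (nat_lit 4) (nat_lit 2) (nat_lit 4) (nat_lit 392) (nat_lit 337) (nat_lit 291))))))))
noncomputable def xc41 : XT := (XT.nd (nat_lit 2028) (nat_lit 0) (nat_lit 0) (XT.nd (nat_lit 1014) (nat_lit 0) (nat_lit 0) (XT.nd (nat_lit 468) (nat_lit 0) (nat_lit 0) (XT.nd (nat_lit 234) (nat_lit 76) (nat_lit 0) (XT.nd (nat_lit 78) (nat_lit 0) (nat_lit 0) (XT.lf (nat_lit 0) (nat_lit 273663492631) (nat_lit 152) (nat_lit 163462385716) (nat_lit 0) (nat_lit 271676703421) (nat_lit 2) (nat_lit 5) (nat_lit 4) (nat_lit 4) (nat_lit 2) (nat_lit 4) (nat_lit 393) (nat_lit 337) (nat_lit 290)) (XT.nd (nat_lit 78) (nat_lit 0) (nat_lit 0) (XT.lf (nat_lit 0) (nat_lit 353284899034) (nat_lit 152) (nat_lit 104709686394) (nat_lit 0) (nat_lit 351297745609) (nat_lit 2) (nat_lit 5) (nat_lit 4) (nat_lit 4) (nat_lit 2) (nat_lit 4) (nat_lit 394) (nat_lit 337) (nat_lit 289)) (XT.lf (nat_lit 0) (nat_lit 444836248086) (nat_lit 152)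 (nat_lit 37172506933) (nat_lit 0) (nat_lit 442848777954) (nat_lit 2) (nat_lit 5) (nat_lit 4) (nat_lit 4) (nat_lit 2) (nat_lit 4) (nat_lit 395) (nat_lit 337) (nat_lit 288)))) (XT.nd (nat_lit 78) (nat_lit 0) (nat_lit 0) (XT.lf (nat_lit 0) (nat_lit 44425607008) (nat_lit 76) (nat_lit 507522724476) (nat_lit 76) (nat_lit 505534978946) (nat_lit 1) (nat_lit 4) (nat_lit 2) (nat_lit 5) (nat_lit 2) (nat_lit 4) (nat_lit 396) (nat_lit 337) (nat_lit 287)) (XT.nd (nat_lit 78) (nat_lit 0) (nat_lit 0) (XT.lf (nat_lit 0) (nat_lit 142417527248) (nat_lit 76) (nat_lit 534641798747) (nat_lit 76) (nat_lit 532653813740) (nat_lit 1) (nat_lit 4) (nat_lit 2) (nat_lit 5) (nat_lit 2) (nat_lit 4) (nat_lit 397) (nat_lit 337) (nat_lit 286)) (XT.lf (nat_lit 0) (nat_lit 255087719287) (nat_lit 76) (nat_lit 565839676734) (nat_lit 76) (nat_lit 563851483487) (nat_lit 1) (nat_lit 4) (nat_lit 2) (nat_lit 5) (nat_lit 2) (nat_lit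 4) (nat_lit 398) (nat_lit 337) (nat_lit 285))))) (XT.nd (nat_lit 234) (nat_lit 0) (nat_lit 0) (XT.nd (nat_lit 78) (nat_lit 0) (nat_lit 0) (XT.lf (nat_lit 0) (nat_lit 384640599925) (nat_lit 76) (nat_lit 601726751702) (nat_lit 76) (nat_lit 599738377375) (nat_lit 1) (nat_lit 4) (nat_lit 2) (nat_lit 5) (nat_lit 2) (nat_lit 4) (nat_lit 399) (nat_lit 337) (nat_lit 284)) (XT.nd (nat_lit 78) (nat_lit 0) (nat_lit 0) (XT.lf (nat_lit 0) (nat_lit 533610899435) (nat_lit 76) (nat_lit 643005162073) (nat_lit 76) (nat_lit 641016630287) (nat_lit 1) (nat_lit 4) (nat_lit 2) (nat_lit 5) (nat_lit 2) (nat_lit 4) (nat_lit 400) (nat_lit 337) (nat_lit 283)) (XT.lf (nat_lit 0) (nat_lit 704913254112) (nat_lit 76) (nat_lit 690482528921) (nat_lit 76) (nat_lit 688493860214) (nat_lit 1) (nat_lit 4) (nat_lit 2) (nat_lit 5) (nat_lit 2) (nat_lit 4) (nat_lit 401) (nat_lit 337) (nat_lit 282)))) (XT.nd (nat_lit 156) (nat_lit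 0) (nat_lit 0) (XT.nd (nat_lit 78) (nat_lit 0) (nat_lit 0) (XT.lf (nat_lit 0) (nat_lit 901899231764) (nat_lit 76) (nat_lit 745087757249) (nat_lit 76) (nat_lit 743098969480) (nat_lit 1) (nat_lit 4) (nat_lit 2) (nat_lit 5) (nat_lit 2) (nat_lit 4) (nat_lit 402) (nat_lit 337) (nat_lit 281)) (XT.lf (nat_lit 0) (nat_lit 1128422905869) (nat_lit 76) (nat_lit 807889210220) (nat_lit 76) (nat_lit 805900318918) (nat_lit 1) (nat_lit 4) (nat_lit 2) (nat_lit 5) (nat_lit 2) (nat_lit 4) (nat_lit 403) (nat_lit 337) (nat_lit 280))) (XT.nd (nat_lit 78) (nat_lit 0) (nat_lit 0) (XT.lf (nat_lit 0) (nat_lit 1388916261353) (nat_lit 76) (nat_lit 880115611914) (nat_lit 76) (nat_lit 878126630584) (nat_lit 1) (nat_lit 4) (nat_lit 2) (nat_lit 5) (nat_lit 2) (nat_lit 4) (nat_lit 404) (nat_lit 337) (nat_lit 279)) (XT.lf (nat_lit 0) (nat_lit 1688475907346) (nat_lit 76) (nat_lit 963180087581) (nat_lit 76) (nat_lit 961191027966)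 (nat_lit 1) (nat_lit 4) (nat_lit 2) (nat_lit 5) (nat_lit 2) (nat_lit 4) (nat_lit 405) (nat_lit 337) (nat_lit 278)))))) (XT.nd (nat_lit 468) (nat_lit 0) (nat_lit 0) (XT.nd (nat_lit 234) (nat_lit 0) (nat_lit 0) (XT.nd (nat_lit 78) (nat_lit 0) (nat_lit 0) (XT.lf (nat_lit 0) (nat_lit 2032962793443) (nat_lit 76) (nat_lit 1058707811746) (nat_lit 76) (nat_lit 1056718684056) (nat_lit 1) (nat_lit 4) (nat_lit 2) (nat_lit 5) (nat_lit 2) (nat_lit 4) (nat_lit 406) (nat_lit 337) (nat_lit 277)) (XT.nd (nat_lit 78) (nat_lit 0) (nat_lit 0) (XT.lf (nat_lit 0) (nat_lit 2429116880460) (nat_lit 76) (nat_lit 1168567805098) (nat_lit 76) (nat_lit 1166578618213) (nat_lit 1) (nat_lit 4) (nat_lit 2) (nat_lit 5) (nat_lit 2) (nat_lit 4) (nat_lit 407) (nat_lit 337) (nat_lit 276)) (XT.lf (nat_lit 0) (nat_lit 2884689009228) (nat_lit 76) (nat_lit 1294909502290) (nat_lit 76) (nat_lit 1292920263931) (nat_lit 1) (nat_lit 4)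 (nat_lit 2) (nat_lit 5) (nat_lit 2) (nat_lit 4) (nat_lit 408) (nat_lit 337) (nat_lit 275)))) (XT.nd (nat_lit 78) (nat_lit 0) (nat_lit 0) (XT.lf (nat_lit 0) (nat_lit 3408592547486) (nat_lit 76) (nat_lit 1440204806093) (nat_lit 76) (nat_lit 1438215522974) (nat_lit 1) (nat_lit 4) (nat_lit 2) (nat_lit 5) (nat_lit 2) (nat_lit 4) (nat_lit 409) (nat_lit 337) (nat_lit 274)) (XT.nd (nat_lit 78) (nat_lit 0) (nat_lit 0) (XT.lf (nat_lit 0) (nat_lit 4011077781851) (nat_lit 76) (nat_lit 1607296450712) (nat_lit 76) (nat_lit 1605307128672) (nat_lit 1) (nat_lit 4) (nat_lit 2) (nat_lit 5) (nat_lit 2) (nat_lit 4) (nat_lit 410) (nat_lit 337) (nat_lit 273)) (XT.lf (nat_lit 0) (nat_lit 4703932466908) (nat_lit 76) (nat_lit 1799453620498) (nat_lit 76) (nat_lit 1797464264613) (nat_lit 1) (nat_lit 4) (nat_lit 2) (nat_lit 5) (nat_lit 2) (nat_lit 4) (nat_lit 411) (nat_lit 337) (nat_lit 272))))) (XT.nd (nat_lit 234)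 (nat_lit 0) (nat_lit 0) (XT.nd (nat_lit 78) (nat_lit 0) (nat_lit 0) (XT.lf (nat_lit 0) (nat_lit 5500712455192) (nat_lit 76) (nat_lit 2020435912252) (nat_lit 76) (nat_lit 2018446526936) (nat_lit 1) (nat_lit 4) (nat_lit 2) (nat_lit 5) (nat_lit 2) (nat_lit 4) (nat_lit 412) (nat_lit 337) (nat_lit 271)) (XT.nd (nat_lit 78) (nat_lit 0) (nat_lit 0) (XT.lf (nat_lit 0) (nat_lit 6417006920386) (nat_lit 76) (nat_lit 2274566892550) (nat_lit 76) (nat_lit 2272577481643) (nat_lit 1) (nat_lit 4) (nat_lit 2) (nat_lit 5) (nat_lit 2) (nat_lit 4) (nat_lit 413) (nat_lit 337) (nat_lit 270)) (XT.lf (nat_lit 0) (nat_lit 7470743362895) (nat_lit 76) (nat_lit 2566818689270) (nat_lit 76) (nat_lit 2564829256109) (nat_lit 1) (nat_lit 4) (nat_lit 2) (nat_lit 5) (nat_lit 2) (nat_lit 4) (nat_lit 414) (nat_lit 337) (nat_lit 269)))) (XT.nd (nat_lit 156) (nat_lit 0) (nat_lit 0) (XT.nd (nat_lit 78) (nat_lit 0) (nat_lit 0) (XT.lf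 (nat_lit 0) (nat_lit 8682538365292) (nat_lit 76) (nat_lit 2902909272346) (nat_lit 76) (nat_lit 2900919819834) (nat_lit 1) (nat_lit 4) (nat_lit 2) (nat_lit 5) (nat_lit 2) (nat_lit 4) (nat_lit 415) (nat_lit 337) (nat_lit 268)) (XT.lf (nat_lit 0) (nat_lit 10076100960230) (nat_lit 76) (nat_lit 3289414327099) (nat_lit 76) (nat_lit 3287424857760) (nat_lit 1) (nat_lit 4) (nat_lit 2) (nat_lit 5) (nat_lit 2) (nat_lit 4) (nat_lit 416) (nat_lit 337) (nat_lit 267))) (XT.nd (nat_lit 78) (nat_lit 0) (nat_lit 0) (XT.lf (nat_lit 0) (nat_lit 11678696502830) (nat_lit 76) (nat_lit 3733895908949) (nat_lit 76) (nat_lit 3731906424978) (nat_lit 1) (nat_lit 4) (nat_lit 2) (nat_lit 5) (nat_lit 2) (nat_lit 4) (nat_lit 417) (nat_lit 337) (nat_lit 266)) (XT.lf (nat_lit 0) (nat_lit 13521680123272) (nat_lit 76) (nat_lit 4245050396670) (nat_lit 76) (nat_lit 4243060899976) (nat_lit 1) (nat_lit 4) (nat_lit 2) (nat_lit 5)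 (nat_lit 2) (nat_lit 4) (nat_lit 418) (nat_lit 337) (nat_lit 265))))))) (XT.nd (nat_lit 1014) (nat_lit 0) (nat_lit 0) (XT.nd (nat_lit 468) (nat_lit 0) (nat_lit 0) (XT.nd (nat_lit 234) (nat_lit 0) (nat_lit 0) (XT.nd (nat_lit 78) (nat_lit 0) (nat_lit 0) (XT.lf (nat_lit 0) (nat_lit 15641110196738) (nat_lit 76) (nat_lit 4832878638936) (nat_lit 76) (nat_lit 4830889131178) (nat_lit 1) (nat_lit 4) (nat_lit 2) (nat_lit 5) (nat_lit 2) (nat_lit 4) (nat_lit 419) (nat_lit 337) (nat_lit 264)) (XT.nd (nat_lit 78) (nat_lit 0) (nat_lit 0) (XT.lf (nat_lit 0) (nat_lit 18078453833362) (nat_lit 76) (nat_lit 5508881623096) (nat_lit 76) (nat_lit 5506892105717) (nat_lit 1) (nat_lit 4) (nat_lit 2) (nat_lit 5) (nat_lit 2) (nat_lit 4) (nat_lit 420) (nat_lit 337) (nat_lit 263)) (XT.lf (nat_lit 0) (nat_lit 20881398191251) (nat_lit 76) (nat_lit 6286285494491) (nat_lit 76) (nat_lit 6284295968747) (nat_lit 1) (nat_lit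 4) (nat_lit 2) (nat_lit 5) (nat_lit 2) (nat_lit 4) (nat_lit 421) (nat_lit 337) (nat_lit 262)))) (XT.nd (nat_lit 78) (nat_lit 0) (nat_lit 0) (XT.lf (nat_lit 0) (nat_lit 24104783486104) (nat_lit 76) (nat_lit 7180300328867) (nat_lit 76) (nat_lit 7178310795847) (nat_lit 1) (nat_lit 4) (nat_lit 2) (nat_lit 5) (nat_lit 2) (nat_lit 4) (nat_lit 422) (nat_lit 337) (nat_lit 261)) (XT.nd (nat_lit 78) (nat_lit 0) (nat_lit 0) (XT.lf (nat_lit 0) (nat_lit 27811675951950) (nat_lit 76) (nat_lit 8208417720808) (nat_lit 76) (nat_lit 8206428181463) (nat_lit 1) (nat_lit 4) (nat_lit 2) (nat_lit 5) (nat_lit 2) (nat_lit 4) (nat_lit 423) (nat_lit 337) (nat_lit 260)) (XT.lf (nat_lit 0) (nat_lit 32074601745730) (nat_lit 76) (nat_lit 9390753010593) (nat_lit 76) (nat_lit 9388763465747) (nat_lit 1) (nat_lit 4) (nat_lit 2) (nat_lit 5) (nat_lit 2) (nat_lit 4) (nat_lit 424) (nat_lit 337) (nat_lit 259))))) (XT.nd (nat_lit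 234) (nat_lit 0) (nat_lit 0) (XT.nd (nat_lit 78) (nat_lit 0) (nat_lit 0) (XT.lf (nat_lit 0) (nat_lit 36976965937321) (nat_lit 76) (nat_lit 10750438845194) (nat_lit 76) (nat_lit 10748449295565) (nat_lit 1) (nat_lit 4) (nat_lit 2) (nat_lit 5) (nat_lit 2) (nat_lit 4) (nat_lit 425) (nat_lit 337) (nat_lit 258)) (XT.nd (nat_lit 78) (nat_lit 0) (nat_lit 0) (XT.lf (nat_lit 0) (nat_lit 42614684347864) (nat_lit 76) (nat_lit 12314077773551) (nat_lit 76) (nat_lit 12312088219762) (nat_lit 1) (nat_lit 4) (nat_lit 2) (nat_lit 5) (nat_lit 2) (nat_lit 4) (nat_lit 426) (nat_lit 337) (nat_lit 257)) (XT.lf (nat_lit 0) (nat_lit 49098060163652) (nat_lit 76) (nat_lit 14112262731217) (nat_lit 76) (nat_lit 14110273173811) (nat_lit 1) (nat_lit 4) (nat_lit 2) (nat_lit 5) (nat_lit 2) (nat_lit 4) (nat_lit 427) (nat_lit 337) (nat_lit 256)))) (XT.nd (nat_lit 156) (nat_lit 0) (nat_lit 0) (XT.nd (nat_lit 78) (nat_lit 0)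 (nat_lit 0) (XT.lf (nat_lit 0) (nat_lit 56553942041950) (nat_lit 76) (nat_lit 16180175597799) (nat_lit 76) (nat_lit 16178186037249) (nat_lit 1) (nat_lit 4) (nat_lit 2) (nat_lit 5) (nat_lit 2) (nat_lit 4) (nat_lit 428) (nat_lit 337) (nat_lit 255)) (XT.lf (nat_lit 0) (nat_lit 65128205932551) (nat_lit 76) (nat_lit 18558275538079) (nat_lit 76) (nat_lit 18556285974793) (nat_lit 1) (nat_lit 4) (nat_lit 2) (nat_lit 5) (nat_lit 2) (nat_lit 4) (nat_lit 429) (nat_lit 337) (nat_lit 254))) (XT.nd (nat_lit 78) (nat_lit 0) (nat_lit 0) (XT.lf (nat_lit 0) (nat_lit 74988609172446) (nat_lit 76) (nat_lit 21293090594365) (nat_lit 76) (nat_lit 21291101028702) (nat_lit 1) (nat_lit 4) (nat_lit 2) (nat_lit 5) (nat_lit 2) (nat_lit 4) (nat_lit 430) (nat_lit 337) (nat_lit 253)) (XT.lf (nat_lit 0) (nat_lit 86328072694588) (nat_lit 76) (nat_lit 24438128017760) (nat_lit 76) (nat_lit 24436138450029) (nat_lit 1) (nat_lit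 4) (nat_lit 2) (nat_lit 5) (nat_lit 2) (nat_lit 4) (nat_lit 431) (nat_lit 337) (nat_lit 252)))))) (XT.nd (nat_lit 46566) (nat_lit 0) (nat_lit 2128) (XT.nd (nat_lit 46254) (nat_lit 0) (nat_lit 3040) (XT.nd (nat_lit 78) (nat_lit 0) (nat_lit 0) (XT.lf (nat_lit 0) (nat_lit 99368455567889) (nat_lit 76) (nat_lit 28054921149156) (nat_lit 76) (nat_lit 28052931579626) (nat_lit 1) (nat_lit 4) (nat_lit 2) (nat_lit 5) (nat_lit 2) (nat_lit 4) (nat_lit 432) (nat_lit 337) (nat_lit 251)) (XT.nd (nat_lit 78) (nat_lit 0) (nat_lit 0) (XT.lf (nat_lit 0) (nat_lit 114364895718131) (nat_lit 76) (nat_lit 32214233332427) (nat_lit 76) (nat_lit 32212243761334) (nat_lit 1) (nat_lit 4) (nat_lit 2) (nat_lit 5) (nat_lit 2) (nat_lit 4) (nat_lit 433) (nat_lit 337) (nat_lit 250)) (XT.lf (nat_lit 0) (nat_lit 131610801756950) (nat_lit 76) (nat_lit 36997442414639) (nat_lit 76) (nat_lit 36995452842186) (nat_lit 1) (nat_lit 4)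 (nat_lit 2) (nat_lit 5) (nat_lit 2) (nat_lit 4) (nat_lit 434) (nat_lit 337) (nat_lit 249)))) (XT.nd (nat_lit 156) (nat_lit 380) (nat_lit 0) (XT.nd (nat_lit 78) (nat_lit 228) (nat_lit 0) (XT.lf (nat_lit 0) (nat_lit 685616588) (nat_lit 228) (nat_lit 2033078461) (nat_lit 0) (nat_lit 685616588) (nat_lit 49) (nat_lit 5) (nat_lit 52) (nat_lit 4) (nat_lit 49) (nat_lit 4) (nat_lit 344) (nat_lit 338) (nat_lit 338)) (XT.lf (nat_lit 0) (nat_lit 703328403) (nat_lit 228) (nat_lit 4081523849) (nat_lit 228) (nat_lit 2245302969) (nat_lit 46) (nat_lit 4) (nat_lit 49) (nat_lit 5) (nat_lit 49) (nat_lit 4) (nat_lit 345) (nat_lit 338) (nat_lit 337))) (XT.nd (nat_lit 78) (nat_lit 304) (nat_lit 0) (XT.lf (nat_lit 0) (nat_lit 1028700941) (nat_lit 304) (nat_lit 1221227664) (nat_lit 76) (nat_lit 5066765413) (nat_lit 45) (nat_lit 5) (nat_lit 49) (nat_lit 5) (nat_lit 46) (nat_lit 4) (nat_lit 346) (nat_lit 338) (nat_lit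 336)) (XT.lf (nat_lit 0) (nat_lit 4326635576) (nat_lit 380) (nat_lit 3205121442) (nat_lit 0) (nat_lit 134129942) (nat_lit 41) (nat_lit 5) (nat_lit 46) (nat_lit 4) (nat_lit 41) (nat_lit 4) (nat_lit 347) (nat_lit 338) (nat_lit 335))))) (XT.nd (nat_lit 234) (nat_lit 532) (nat_lit 0) (XT.nd (nat_lit 78) (nat_lit 228) (nat_lit 0) (XT.lf (nat_lit 0) (nat_lit 2696249263) (nat_lit 152) (nat_lit 5314946053) (nat_lit 152) (nat_lit 72575172) (nat_lit 39) (nat_lit 4) (nat_lit 41) (nat_lit 5) (nat_lit 41) (nat_lit 4) (nat_lit 348) (nat_lit 338) (nat_lit 334)) (XT.nd (nat_lit 78) (nat_lit 0) (nat_lit 0) (XT.lf (nat_lit 0) (nat_lit 681873674) (nat_lit 152) (nat_lit 2498205794) (nat_lit 228) (nat_lit 5387857297) (nat_lit 36) (nat_lit 5) (nat_lit 38) (nat_lit 5) (nat_lit 39) (nat_lit 4) (nat_lit 349) (nat_lit 338) (nat_lit 333)) (XT.lf (nat_lit 0) (nat_lit 6881918153) (nat_lit 228) (nat_lit 1407868623) (nat_lit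 0) (nat_lit 839182377) (nat_lit 36) (nat_lit 5) (nat_lit 39) (nat_lit 4) (nat_lit 36) (nat_lit 4) (nat_lit 350) (nat_lit 338) (nat_lit 332)))) (XT.nd (nat_lit 156) (nat_lit 228) (nat_lit 0) (XT.nd (nat_lit 78) (nat_lit 76) (nat_lit 0) (XT.lf (nat_lit 0) (nat_lit 1302207229) (nat_lit 228) (nat_lit 3843254096) (nat_lit 76) (nat_lit 4611441979) (nat_lit 33) (nat_lit 5) (nat_lit 36) (nat_lit 5) (nat_lit 34) (nat_lit 4) (nat_lit 351) (nat_lit 338) (nat_lit 331)) (XT.lf (nat_lit 0) (nat_lit 3766472076) (nat_lit 76) (nat_lit 1317918757) (nat_lit 152) (nat_lit 5389041645) (nat_lit 32) (nat_lit 5) (nat_lit 33) (nat_lit 5) (nat_lit 34) (nat_lit 4) (nat_lit 352) (nat_lit 338) (nat_lit 330))) (XT.nd (nat_lit 78) (nat_lit 76) (nat_lit 0) (XT.lf (nat_lit 0) (nat_lit 1152594037) (nat_lit 152) (nat_lit 8377754354) (nat_lit 152) (nat_lit 1752663976) (nat_lit 30) (nat_lit 4) (nat_lit 32) (nat_lit 5) (nat_lit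 32) (nat_lit 4) (nat_lit 353) (nat_lit 338) (nat_lit 329)) (XT.lf (nat_lit 0) (nat_lit 2358755763) (nat_lit 228) (nat_lit 1896968297) (nat_lit 76) (nat_lit 7921369081) (nat_lit 29) (nat_lit 5) (nat_lit 32) (nat_lit 5) (nat_lit 30) (nat_lit 4) (nat_lit 354) (nat_lit 338) (nat_lit 328))))))))
noncomputable def xc42 : XT := (XT.nd (nat_lit 2028) (nat_lit 380) (nat_lit 0) (XT.nd (nat_lit 1014) (nat_lit 760) (nat_lit 0) (XT.nd (nat_lit 468) (nat_lit 456) (nat_lit 0) (XT.nd (nat_lit 234) (nat_lit 228) (nat_lit 0) (XT.nd (nat_lit 78) (nat_lit 228) (nat_lit 0) (XT.lf (nat_lit 0) (nat_lit 7012434824) (nat_lit 152) (nat_lit 5471070688) (nat_lit 0) (nat_lit 693538810) (nat_lit 28) (nat_lit 5) (nat_lit 30) (nat_lit 4) (nat_lit 28) (nat_lit 4) (nat_lit 355) (nat_lit 338) (nat_lit 327)) (XT.nd (nat_lit 78) (nat_lit 152) (nat_lit 0) (XT.lf (nat_lit 0) (nat_lit 4391467844) (nat_lit 76) (nat_lit 8221397374)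 (nat_lit 76) (nat_lit 1676839939) (nat_lit 27) (nat_lit 4) (nat_lit 28) (nat_lit 5) (nat_lit 28) (nat_lit 4) (nat_lit 356) (nat_lit 338) (nat_lit 326)) (XT.lf (nat_lit 0) (nat_lit 239770114) (nat_lit 76) (nat_lit 3006999592) (nat_lit 152) (nat_lit 12289943693) (nat_lit 25) (nat_lit 5) (nat_lit 26) (nat_lit 5) (nat_lit 27) (nat_lit 4) (nat_lit 357) (nat_lit 338) (nat_lit 325)))) (XT.nd (nat_lit 78) (nat_lit 228) (nat_lit 0) (XT.lf (nat_lit 0) (nat_lit 9171299202) (nat_lit 152) (nat_lit 4561031222) (nat_lit 0) (nat_lit 3161371194) (nat_lit 25) (nat_lit 5) (nat_lit 27) (nat_lit 4) (nat_lit 25) (nat_lit 4) (nat_lit 358) (nat_lit 338) (nat_lit 324)) (XT.nd (nat_lit 78) (nat_lit 152) (nat_lit 0) (XT.lf (nat_lit 0) (nat_lit 7958897770) (nat_lit 76) (nat_lit 8296811643) (nat_lit 76) (nat_lit 2157860985) (nat_lit 24) (nat_lit 4) (nat_lit 25) (nat_lit 5) (nat_lit 25) (nat_lit 4) (nat_lit 359) (nat_lit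 338) (nat_lit 323)) (XT.lf (nat_lit 0) (nat_lit 2374723917) (nat_lit 76) (nat_lit 1637307795) (nat_lit 152) (nat_lit 16100813578) (nat_lit 22) (nat_lit 5) (nat_lit 23) (nat_lit 5) (nat_lit 24) (nat_lit 4) (nat_lit 360) (nat_lit 338) (nat_lit 322))))) (XT.nd (nat_lit 234) (nat_lit 228) (nat_lit 0) (XT.nd (nat_lit 78) (nat_lit 228) (nat_lit 0) (XT.lf (nat_lit 0) (nat_lit 11511287486) (nat_lit 152) (nat_lit 4455923038) (nat_lit 0) (nat_lit 5990675378) (nat_lit 22) (nat_lit 5) (nat_lit 24) (nat_lit 4) (nat_lit 22) (nat_lit 4) (nat_lit 361) (nat_lit 338) (nat_lit 321)) (XT.nd (nat_lit 78) (nat_lit 152) (nat_lit 0) (XT.lf (nat_lit 0) (nat_lit 11412026177) (nat_lit 76) (nat_lit 9102584014) (nat_lit 76) (nat_lit 3508202787) (nat_lit 21) (nat_lit 4) (nat_lit 22) (nat_lit 5) (nat_lit 22) (nat_lit 4) (nat_lit 362) (nat_lit 338) (nat_lit 320)) (XT.lf (nat_lit 0) (nat_lit 3574867252) (nat_lit 76) (nat_lit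 719735323) (nat_lit 152) (nat_lit 22041859244) (nat_lit 19) (nat_lit 5) (nat_lit 20) (nat_lit 5) (nat_lit 21) (nat_lit 4) (nat_lit 363) (nat_lit 338) (nat_lit 319)))) (XT.nd (nat_lit 156) (nat_lit 152) (nat_lit 0) (XT.nd (nat_lit 78) (nat_lit 76) (nat_lit 0) (XT.lf (nat_lit 0) (nat_lit 13799871393) (nat_lit 152) (nat_lit 6207642719) (nat_lit 0) (nat_lit 8830907620) (nat_lit 19) (nat_lit 5) (nat_lit 21) (nat_lit 4) (nat_lit 19) (nat_lit 4) (nat_lit 364) (nat_lit 338) (nat_lit 318)) (XT.lf (nat_lit 0) (nat_lit 13714156709) (nat_lit 76) (nat_lit 11472177021) (nat_lit 76) (nat_lit 6461035516) (nat_lit 18) (nat_lit 4) (nat_lit 19) (nat_lit 5) (nat_lit 19) (nat_lit 4) (nat_lit 365) (nat_lit 338) (nat_lit 317))) (XT.nd (nat_lit 78) (nat_lit 0) (nat_lit 0) (XT.lf (nat_lit 0) (nat_lit 2232843327) (nat_lit 76) (nat_lit 1153510682) (nat_lit 152) (nat_lit 31427238332) (nat_lit 16) (nat_lit 5) (nat_lit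 17) (nat_lit 5) (nat_lit 18) (nat_lit 4) (nat_lit 366) (nat_lit 338) (nat_lit 316)) (XT.lf (nat_lit 0) (nat_lit 15329754124) (nat_lit 152) (nat_lit 11974174043) (nat_lit 0) (nat_lit 10912614802) (nat_lit 16) (nat_lit 5) (nat_lit 18) (nat_lit 4) (nat_lit 16) (nat_lit 4) (nat_lit 367) (nat_lit 338) (nat_lit 315)))))) (XT.nd (nat_lit 468) (nat_lit 304) (nat_lit 0) (XT.nd (nat_lit 234) (nat_lit 228) (nat_lit 0) (XT.nd (nat_lit 78) (nat_lit 152) (nat_lit 0) (XT.lf (nat_lit 0) (nat_lit 12519188957) (nat_lit 76) (nat_lit 16992476952) (nat_lit 76) (nat_lit 12551222374) (nat_lit 15) (nat_lit 4) (nat_lit 16) (nat_lit 5) (nat_lit 16) (nat_lit 4) (nat_lit 368) (nat_lit 338) (nat_lit 314)) (XT.nd (nat_lit 78) (nat_lit 152) (nat_lit 0) (XT.lf (nat_lit 0) (nat_lit 41780467918) (nat_lit 76) (nat_lit 4546048073) (nat_lit 76) (nat_lit 83823708) (nat_lit 15) (nat_lit 4) (nat_lit 16) (nat_lit 5) (nat_lit 16)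 (nat_lit 4) (nat_lit 369) (nat_lit 338) (nat_lit 313)) (XT.lf (nat_lit 0) (nat_lit 14407549951) (nat_lit 152) (nat_lit 26188905517) (nat_lit 0) (nat_lit 10511498679) (nat_lit 13) (nat_lit 5) (nat_lit 15) (nat_lit 4) (nat_lit 13) (nat_lit 4) (nat_lit 370) (nat_lit 338) (nat_lit 312)))) (XT.nd (nat_lit 78) (nat_lit 152) (nat_lit 0) (XT.lf (nat_lit 0) (nat_lit 2727409794) (nat_lit 76) (nat_lit 28810483024) (nat_lit 76) (nat_lit 24900643776) (nat_lit 12) (nat_lit 4) (nat_lit 13) (nat_lit 5) (nat_lit 13) (nat_lit 4) (nat_lit 371) (nat_lit 338) (nat_lit 311)) (XT.nd (nat_lit 78) (nat_lit 152) (nat_lit 0) (XT.lf (nat_lit 0) (nat_lit 38704767614) (nat_lit 76) (nat_lit 13798010080) (nat_lit 76) (nat_lit 9876181288) (nat_lit 12) (nat_lit 4) (nat_lit 13) (nat_lit 5) (nat_lit 13) (nat_lit 4) (nat_lit 372) (nat_lit 338) (nat_lit 310)) (XT.lf (nat_lit 0) (nat_lit 7295420739) (nat_lit 152) (nat_lit 57910114558)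 (nat_lit 0) (nat_lit 3876069016) (nat_lit 10) (nat_lit 5) (nat_lit 12) (nat_lit 4) (nat_lit 10) (nat_lit 4) (nat_lit 373) (nat_lit 338) (nat_lit 309))))) (XT.nd (nat_lit 234) (nat_lit 228) (nat_lit 0) (XT.nd (nat_lit 78) (nat_lit 76) (nat_lit 0) (XT.lf (nat_lit 0) (nat_lit 27890663139) (nat_lit 152) (nat_lit 24086156884) (nat_lit 0) (nat_lit 24463428095) (nat_lit 10) (nat_lit 5) (nat_lit 12) (nat_lit 4) (nat_lit 10) (nat_lit 4) (nat_lit 374) (nat_lit 338) (nat_lit 308)) (XT.nd (nat_lit 78) (nat_lit 0) (nat_lit 0) (XT.lf (nat_lit 0) (nat_lit 16067442074) (nat_lit 76) (nat_lit 36090930076) (nat_lit 76) (nat_lit 32656839972) (nat_lit 9) (nat_lit 4) (nat_lit 10) (nat_lit 5) (nat_lit 10) (nat_lit 4) (nat_lit 375) (nat_lit 338) (nat_lit 307)) (XT.lf (nat_lit 0) (nat_lit 64784575985) (nat_lit 76) (nat_lit 16462393291) (nat_lit 76) (nat_lit 13022342264) (nat_lit 9) (nat_lit 4) (nat_lit 10) (nat_lit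 5) (nat_lit 10) (nat_lit 4) (nat_lit 376) (nat_lit 338) (nat_lit 306)))) (XT.nd (nat_lit 156) (nat_lit 76) (nat_lit 0) (XT.nd (nat_lit 78) (nat_lit 0) (nat_lit 0) (XT.lf (nat_lit 0) (nat_lit 9623675190) (nat_lit 152) (nat_lit 88693088957) (nat_lit 0) (nat_lit 6627819157) (nat_lit 7) (nat_lit 5) (nat_lit 9) (nat_lit 4) (nat_lit 7) (nat_lit 4) (nat_lit 377) (nat_lit 338) (nat_lit 305)) (XT.lf (nat_lit 0) (nat_lit 36660703187) (nat_lit 152) (nat_lit 46457396386) (nat_lit 0) (nat_lit 33660927751) (nat_lit 7) (nat_lit 5) (nat_lit 9) (nat_lit 4) (nat_lit 7) (nat_lit 4) (nat_lit 378) (nat_lit 338) (nat_lit 304))) (XT.nd (nat_lit 78) (nat_lit 0) (nat_lit 0) (XT.lf (nat_lit 0) (nat_lit 2175262773) (nat_lit 76) (nat_lit 65606168608) (nat_lit 76) (nat_lit 62602984995) (nat_lit 6) (nat_lit 4) (nat_lit 7) (nat_lit 5) (nat_lit 7) (nat_lit 4) (nat_lit 379) (nat_lit 338) (nat_lit 303)) (XT.lf (nat_lit 0)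 (nat_lit 63197956429) (nat_lit 76) (nat_lit 42741698487) (nat_lit 76) (nat_lit 39735551242) (nat_lit 6) (nat_lit 4) (nat_lit 7) (nat_lit 5) (nat_lit 7) (nat_lit 4) (nat_lit 380) (nat_lit 338) (nat_lit 302))))))) (XT.nd (nat_lit 1014) (nat_lit 76) (nat_lit 0) (XT.nd (nat_lit 468) (nat_lit 152) (nat_lit 0) (XT.nd (nat_lit 234) (nat_lit 76) (nat_lit 0) (XT.nd (nat_lit 78) (nat_lit 76) (nat_lit 0) (XT.lf (nat_lit 0) (nat_lit 133264452202) (nat_lit 76) (nat_lit 16505795692) (nat_lit 76) (nat_lit 13497071376) (nat_lit 6) (nat_lit 4) (nat_lit 7) (nat_lit 5) (nat_lit 7) (nat_lit 4) (nat_lit 381) (nat_lit 338) (nat_lit 301)) (XT.nd (nat_lit 78) (nat_lit 0) (nat_lit 0) (XT.lf (nat_lit 0) (nat_lit 17149464748) (nat_lit 76) (nat_lit 151420415389) (nat_lit 0) (nat_lit 14531234099) (nat_lit 5) (nat_lit 5) (nat_lit 6) (nat_lit 4) (nat_lit 5) (nat_lit 4) (nat_lit 382) (nat_lit 338) (nat_lit 300)) (XT.lf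 (nat_lit 0) (nat_lit 53393407140) (nat_lit 76) (nat_lit 101289341463) (nat_lit 0) (nat_lit 50773482024) (nat_lit 5) (nat_lit 5) (nat_lit 6) (nat_lit 4) (nat_lit 5) (nat_lit 4) (nat_lit 383) (nat_lit 338) (nat_lit 299)))) (XT.nd (nat_lit 78) (nat_lit 76) (nat_lit 0) (XT.lf (nat_lit 0) (nat_lit 95033301281) (nat_lit 76) (nat_lit 43725506565) (nat_lit 0) (nat_lit 92411902716) (nat_lit 5) (nat_lit 5) (nat_lit 6) (nat_lit 4) (nat_lit 5) (nat_lit 4) (nat_lit 384) (nat_lit 338) (nat_lit 298)) (XT.nd (nat_lit 78) (nat_lit 0) (nat_lit 0) (XT.lf (nat_lit 0) (nat_lit 24586169032) (nat_lit 76) (nat_lit 119315732548) (nat_lit 76) (nat_lit 116693052724) (nat_lit 4) (nat_lit 4) (nat_lit 5) (nat_lit 5) (nat_lit 5) (nat_lit 4) (nat_lit 385) (nat_lit 338) (nat_lit 297)) (XT.lf (nat_lit 0) (nat_lit 107986616119) (nat_lit 76) (nat_lit 94366111131) (nat_lit 76) (nat_lit 91742317168) (nat_lit 4) (nat_lit 4) (nat_lit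 5) (nat_lit 5) (nat_lit 5) (nat_lit 4) (nat_lit 386) (nat_lit 338) (nat_lit 296))))) (XT.nd (nat_lit 234) (nat_lit 0) (nat_lit 0) (XT.nd (nat_lit 78) (nat_lit 152) (nat_lit 0) (XT.lf (nat_lit 0) (nat_lit 203834408067) (nat_lit 76) (nat_lit 65707450308) (nat_lit 76) (nat_lit 63082687527) (nat_lit 4) (nat_lit 4) (nat_lit 5) (nat_lit 5) (nat_lit 5) (nat_lit 4) (nat_lit 387) (nat_lit 338) (nat_lit 295)) (XT.nd (nat_lit 78) (nat_lit 152) (nat_lit 0) (XT.lf (nat_lit 0) (nat_lit 314004827763) (nat_lit 76) (nat_lit 32779037148) (nat_lit 76) (nat_lit 30153431918) (nat_lit 4) (nat_lit 4) (nat_lit 5) (nat_lit 5) (nat_lit 5) (nat_lit 4) (nat_lit 388) (nat_lit 338) (nat_lit 294)) (XT.lf (nat_lit 0) (nat_lit 7822079984) (nat_lit 152) (nat_lit 414369592490) (nat_lit 0) (nat_lit 5538307990) (nat_lit 2) (nat_lit 5) (nat_lit 4) (nat_lit 4) (nat_lit 2) (nat_lit 4) (nat_lit 389) (nat_lit 338) (nat_lit 293))))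 (XT.nd (nat_lit 156) (nat_lit 0) (nat_lit 0) (XT.nd (nat_lit 78) (nat_lit 0) (nat_lit 0) (XT.lf (nat_lit 0) (nat_lit 53390783647) (nat_lit 152) (nat_lit 380681343358) (nat_lit 0) (nat_lit 51106457729) (nat_lit 2) (nat_lit 5) (nat_lit 4) (nat_lit 4) (nat_lit 2) (nat_lit 4) (nat_lit 390) (nat_lit 338) (nat_lit 292)) (XT.lf (nat_lit 0) (nat_lit 105774613418) (nat_lit 152) (nat_lit 341983087361) (nat_lit 0) (nat_lit 103489805827) (nat_lit 2) (nat_lit 5) (nat_lit 4) (nat_lit 4) (nat_lit 2) (nat_lit 4) (nat_lit 391) (nat_lit 338) (nat_lit 291))) (XT.nd (nat_lit 78) (nat_lit 0) (nat_lit 0) (XT.lf (nat_lit 0) (nat_lit 165998470315) (nat_lit 152) (nat_lit 297517684709) (nat_lit 0) (nat_lit 163713243877) (nat_lit 2) (nat_lit 5) (nat_lit 4) (nat_lit 4) (nat_lit 2) (nat_lit 4) (nat_lit 392) (nat_lit 338) (nat_lit 290)) (XT.lf (nat_lit 0) (nat_lit 235240647189) (nat_lit 152) (nat_lit 246415160133) (nat_lit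 0) (nat_lit 232955056537) (nat_lit 2) (nat_lit 5) (nat_lit 4) (nat_lit 4) (nat_lit 2) (nat_lit 4) (nat_lit 393) (nat_lit 338) (nat_lit 289)))))) (XT.nd (nat_lit 546) (nat_lit 0) (nat_lit 0) (XT.nd (nat_lit 234) (nat_lit 76) (nat_lit 0) (XT.nd (nat_lit 78) (nat_lit 0) (nat_lit 0) (XT.lf (nat_lit 0) (nat_lit 314855882284) (nat_lit 152) (nat_lit 187675681630) (nat_lit 0) (nat_lit 312569974925) (nat_lit 2) (nat_lit 5) (nat_lit 4) (nat_lit 4) (nat_lit 2) (nat_lit 4) (nat_lit 394) (nat_lit 338) (nat_lit 288)) (XT.nd (nat_lit 78) (nat_lit 0) (nat_lit 0) (XT.lf (nat_lit 0) (nat_lit 406401864983) (nat_lit 152) (nat_lit 120149998533) (nat_lit 0) (nat_lit 404115682225) (nat_lit 2) (nat_lit 5) (nat_lit 4) (nat_lit 4) (nat_lit 2) (nat_lit 4) (nat_lit 395) (nat_lit 338) (nat_lit 287)) (XT.lf (nat_lit 0) (nat_lit 511669712338) (nat_lit 152) (nat_lit 42516956173) (nat_lit 0) (nat_lit 509383290103) (nat_lit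 2) (nat_lit 5) (nat_lit 4) (nat_lit 4) (nat_lit 2) (nat_lit 4) (nat_lit 396) (nat_lit 338) (nat_lit 286)))) (XT.nd (nat_lit 156) (nat_lit 0) (nat_lit 0) (XT.nd (nat_lit 78) (nat_lit 0) (nat_lit 0) (XT.lf (nat_lit 0) (nat_lit 51310355459) (nat_lit 76) (nat_lit 583533309607) (nat_lit 76) (nat_lit 581246679132) (nat_lit 1) (nat_lit 4) (nat_lit 2) (nat_lit 5) (nat_lit 2) (nat_lit 4) (nat_lit 397) (nat_lit 338) (nat_lit 285)) (XT.lf (nat_lit 0) (nat_lit 163972249727) (nat_lit 76) (nat_lit 614735613306) (nat_lit 76) (nat_lit 612448801753) (nat_lit 1) (nat_lit 4) (nat_lit 2) (nat_lit 5) (nat_lit 2) (nat_lit 4) (nat_lit 398) (nat_lit 338) (nat_lit 284))) (XT.nd (nat_lit 78) (nat_lit 0) (nat_lit 0) (XT.lf (nat_lit 0) (nat_lit 293517914912) (nat_lit 76) (nat_lit 650626536720) (nat_lit 76) (nat_lit 648339567706) (nat_lit 1) (nat_lit 4) (nat_lit 2) (nat_lit 5) (nat_lit 2) (nat_lit 4) (nat_lit 399) (nat_lit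 338) (nat_lit 283)) (XT.lf (nat_lit 0) (nat_lit 442481940115) (nat_lit 76) (nat_lit 691908293566) (nat_lit 76) (nat_lit 689621187631) (nat_lit 1) (nat_lit 4) (nat_lit 2) (nat_lit 5) (nat_lit 2) (nat_lit 4) (nat_lit 400) (nat_lit 338) (nat_lit 282))))) (XT.nd (nat_lit 234) (nat_lit 0) (nat_lit 0) (XT.nd (nat_lit 78) (nat_lit 0) (nat_lit 0) (XT.lf (nat_lit 0) (nat_lit 613778838873) (nat_lit 76) (nat_lit 739388570392) (nat_lit 76) (nat_lit 737101345395) (nat_lit 1) (nat_lit 4) (nat_lit 2) (nat_lit 5) (nat_lit 2) (nat_lit 4) (nat_lit 401) (nat_lit 338) (nat_lit 281)) (XT.nd (nat_lit 78) (nat_lit 0) (nat_lit 0) (XT.lf (nat_lit 0) (nat_lit 810760072249) (nat_lit 76) (nat_lit 793996329136) (nat_lit 76) (nat_lit 791709000606) (nat_lit 1) (nat_lit 4) (nat_lit 2) (nat_lit 5) (nat_lit 2) (nat_lit 4) (nat_lit 402) (nat_lit 338) (nat_lit 280)) (XT.lf (nat_lit 0) (nat_lit 1037279620894) (nat_lit 76) (nat_lit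 856799982469) (nat_lit 76) (nat_lit 854512563911) (nat_lit 1) (nat_lit 4) (nat_lit 2) (nat_lit 5) (nat_lit 2) (nat_lit 4) (nat_lit 403) (nat_lit 338) (nat_lit 279)))) (XT.nd (nat_lit 156) (nat_lit 0) (nat_lit 0) (XT.nd (nat_lit 78) (nat_lit 0) (nat_lit 0) (XT.lf (nat_lit 0) (nat_lit 1297769389023) (nat_lit 76) (nat_lit 929028297520) (nat_lit 76) (nat_lit 926740800677) (nat_lit 1) (nat_lit 4) (nat_lit 2) (nat_lit 5) (nat_lit 2) (nat_lit 4) (nat_lit 404) (nat_lit 338) (nat_lit 278)) (XT.lf (nat_lit 0) (nat_lit 1597325915577) (nat_lit 76) (nat_lit 1012094436977) (nat_lit 76) (nat_lit 1009806872060) (nat_lit 1) (nat_lit 4) (nat_lit 2) (nat_lit 5) (nat_lit 2) (nat_lit 4) (nat_lit 405) (nat_lit 338) (nat_lit 277))) (XT.nd (nat_lit 78) (nat_lit 0) (nat_lit 0) (XT.lf (nat_lit 0) (nat_lit 1941810089118) (nat_lit 76) (nat_lit 1107623607915) (nat_lit 76) (nat_lit 1105335983802) (nat_lit 1) (nat_lit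 4) (nat_lit 2) (nat_lit 5) (nat_lit 2) (nat_lit 4) (nat_lit 406) (nat_lit 338) (nat_lit 276)) (XT.lf (nat_lit 0) (nat_lit 2337961817390) (nat_lit 76) (nat_lit 1217484859330) (nat_lit 76) (nat_lit 1215197183744) (nat_lit 1) (nat_lit 4) (nat_lit 2) (nat_lit 5) (nat_lit 2) (nat_lit 4) (nat_lit 407) (nat_lit 338) (nat_lit 275))))))))
noncomputable def xc43 : XT := (XT.nd (nat_lit 47970) (nat_lit 0) (nat_lit 1140) (XT.nd (nat_lit 1014) (nat_lit 0) (nat_lit 0) (XT.nd (nat_lit 468) (nat_lit 0) (nat_lit 0) (XT.nd (nat_lit 234) (nat_lit 0) (nat_lit 0) (XT.nd (nat_lit 78) (nat_lit 0) (nat_lit 0) (XT.lf (nat_lit 0) (nat_lit 2793531895077) (nat_lit 76) (nat_lit 1343827650491) (nat_lit 76) (nat_lit 1341539930145) (nat_lit 1) (nat_lit 4) (nat_lit 2) (nat_lit 5) (nat_lit 2) (nat_lit 4) (nat_lit 408) (nat_lit 338) (nat_lit 274)) (XT.nd (nat_lit 78) (nat_lit 0) (nat_lit 0) (XT.lf (nat_lit 0) (nat_lit 3317433649785)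 (nat_lit 76) (nat_lit 1489123905571) (nat_lit 76) (nat_lit 1486836146303) (nat_lit 1) (nat_lit 4) (nat_lit 2) (nat_lit 5) (nat_lit 2) (nat_lit 4) (nat_lit 409) (nat_lit 338) (nat_lit 273)) (XT.lf (nat_lit 0) (nat_lit 3919917333238) (nat_lit 76) (nat_lit 1656216377387) (nat_lit 76) (nat_lit 1653928584275) (nat_lit 1) (nat_lit 4) (nat_lit 2) (nat_lit 5) (nat_lit 2) (nat_lit 4) (nat_lit 410) (nat_lit 338) (nat_lit 272)))) (XT.nd (nat_lit 78) (nat_lit 0) (nat_lit 0) (XT.lf (nat_lit 0) (nat_lit 4612770669675) (nat_lit 76) (nat_lit 1848374266476) (nat_lit 76) (nat_lit 1846086443933) (nat_lit 1) (nat_lit 4) (nat_lit 2) (nat_lit 5) (nat_lit 2) (nat_lit 4) (nat_lit 411) (nat_lit 338) (nat_lit 271)) (XT.nd (nat_lit 78) (nat_lit 0) (nat_lit 0) (XT.lf (nat_lit 0) (nat_lit 5409549485246) (nat_lit 76) (nat_lit 2069357183709) (nat_lit 76) (nat_lit 2067069335575) (nat_lit 1) (nat_lit 4) (nat_lit 2) (nat_lit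 5) (nat_lit 2) (nat_lit 4) (nat_lit 412) (nat_lit 338) (nat_lit 270)) (XT.lf (nat_lit 0) (nat_lit 6325842930689) (nat_lit 76) (nat_lit 2323488707904) (nat_lit 76) (nat_lit 2321200837516) (nat_lit 1) (nat_lit 4) (nat_lit 2) (nat_lit 5) (nat_lit 2) (nat_lit 4) (nat_lit 413) (nat_lit 338) (nat_lit 269))))) (XT.nd (nat_lit 234) (nat_lit 0) (nat_lit 0) (XT.nd (nat_lit 78) (nat_lit 0) (nat_lit 0) (XT.lf (nat_lit 0) (nat_lit 7379578486460) (nat_lit 76) (nat_lit 2615740977576) (nat_lit 76) (nat_lit 2613453087837) (nat_lit 1) (nat_lit 4) (nat_lit 2) (nat_lit 5) (nat_lit 2) (nat_lit 4) (nat_lit 414) (nat_lit 338) (nat_lit 268)) (XT.nd (nat_lit 78) (nat_lit 0) (nat_lit 0) (XT.lf (nat_lit 0) (nat_lit 8591372717778) (nat_lit 76) (nat_lit 2951831971915) (nat_lit 76) (nat_lit 2949544065349) (nat_lit 1) (nat_lit 4) (nat_lit 2) (nat_lit 5) (nat_lit 2) (nat_lit 4) (nat_lit 415) (nat_lit 338) (nat_lit 267))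 (XT.lf (nat_lit 0) (nat_lit 9984934642215) (nat_lit 76) (nat_lit 3338337384289) (nat_lit 76) (nat_lit 3336049463090) (nat_lit 1) (nat_lit 4) (nat_lit 2) (nat_lit 5) (nat_lit 2) (nat_lit 4) (nat_lit 416) (nat_lit 338) (nat_lit 266)))) (XT.nd (nat_lit 156) (nat_lit 0) (nat_lit 0) (XT.nd (nat_lit 78) (nat_lit 0) (nat_lit 0) (XT.lf (nat_lit 0) (nat_lit 11587529601769) (nat_lit 76) (nat_lit 3782819277112) (nat_lit 76) (nat_lit 3780531343191) (nat_lit 1) (nat_lit 4) (nat_lit 2) (nat_lit 5) (nat_lit 2) (nat_lit 4) (nat_lit 417) (nat_lit 338) (nat_lit 265)) (XT.lf (nat_lit 0) (nat_lit 13430512715214) (nat_lit 76) (nat_lit 4293974035246) (nat_lit 76) (nat_lit 4291686090261) (nat_lit 1) (nat_lit 4) (nat_lit 2) (nat_lit 5) (nat_lit 2) (nat_lit 4) (nat_lit 418) (nat_lit 338) (nat_lit 264))) (XT.nd (nat_lit 78) (nat_lit 0) (nat_lit 0) (XT.lf (nat_lit 0) (nat_lit 15549942347815) (nat_lit 76) (nat_lit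 4881802512654) (nat_lit 76) (nat_lit 4879514558047) (nat_lit 1) (nat_lit 4) (nat_lit 2) (nat_lit 5) (nat_lit 2) (nat_lit 4) (nat_lit 419) (nat_lit 338) (nat_lit 263)) (XT.lf (nat_lit 0) (nat_lit 17987285601077) (nat_lit 76) (nat_lit 5557805701284) (nat_lit 76) (nat_lit 5555517738312) (nat_lit 1) (nat_lit 4) (nat_lit 2) (nat_lit 5) (nat_lit 2) (nat_lit 4) (nat_lit 420) (nat_lit 338) (nat_lit 262)))))) (XT.nd (nat_lit 546) (nat_lit 0) (nat_lit 0) (XT.nd (nat_lit 234) (nat_lit 0) (nat_lit 0) (XT.nd (nat_lit 78) (nat_lit 0) (nat_lit 0) (XT.lf (nat_lit 0) (nat_lit 20790229625608) (nat_lit 76) (nat_lit 6335209750480) (nat_lit 76) (nat_lit 6332921780232) (nat_lit 1) (nat_lit 4) (nat_lit 2) (nat_lit 5) (nat_lit 2) (nat_lit 4) (nat_lit 421) (nat_lit 338) (nat_lit 261)) (XT.nd (nat_lit 78) (nat_lit 0) (nat_lit 0) (XT.lf (nat_lit 0) (nat_lit 24013614630584) (nat_lit 76) (nat_lit 7229224739464) (nat_lit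 76) (nat_lit 7226936762891) (nat_lit 1) (nat_lit 4) (nat_lit 2) (nat_lit 5) (nat_lit 2) (nat_lit 4) (nat_lit 422) (nat_lit 338) (nat_lit 260)) (XT.lf (nat_lit 0) (nat_lit 27720506844363) (nat_lit 76) (nat_lit 8257342265848) (nat_lit 76) (nat_lit 8255054283775) (nat_lit 1) (nat_lit 4) (nat_lit 2) (nat_lit 5) (nat_lit 2) (nat_lit 4) (nat_lit 423) (nat_lit 338) (nat_lit 259)))) (XT.nd (nat_lit 156) (nat_lit 0) (nat_lit 0) (XT.nd (nat_lit 78) (nat_lit 0) (nat_lit 0) (XT.lf (nat_lit 0) (nat_lit 31983432418954) (nat_lit 76) (nat_lit 9439677672540) (nat_lit 76) (nat_lit 9437389685683) (nat_lit 1) (nat_lit 4) (nat_lit 2) (nat_lit 5) (nat_lit 2) (nat_lit 4) (nat_lit 424) (nat_lit 338) (nat_lit 258)) (XT.lf (nat_lit 0) (nat_lit 36885796419947) (nat_lit 76) (nat_lit 10799363608799) (nat_lit 76) (nat_lit 10797075617783) (nat_lit 1) (nat_lit 4) (nat_lit 2) (nat_lit 5) (nat_lit 2) (nat_lit 4) (nat_lit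 425) (nat_lit 338) (nat_lit 257))) (XT.nd (nat_lit 78) (nat_lit 0) (nat_lit 0) (XT.lf (nat_lit 0) (nat_lit 42523514664752) (nat_lit 76) (nat_lit 12363002625554) (nat_lit 76) (nat_lit 12360714630921) (nat_lit 1) (nat_lit 4) (nat_lit 2) (nat_lit 5) (nat_lit 2) (nat_lit 4) (nat_lit 426) (nat_lit 338) (nat_lit 256)) (XT.lf (nat_lit 0) (nat_lit 49006890336420) (nat_lit 76) (nat_lit 14161187660088) (nat_lit 76) (nat_lit 14158899662310) (nat_lit 1) (nat_lit 4) (nat_lit 2) (nat_lit 5) (nat_lit 2) (nat_lit 4) (nat_lit 427) (nat_lit 338) (nat_lit 255))))) (XT.nd (nat_lit 234) (nat_lit 0) (nat_lit 0) (XT.nd (nat_lit 78) (nat_lit 0) (nat_lit 0) (XT.lf (nat_lit 0) (nat_lit 56462772089397) (nat_lit 76) (nat_lit 16229100593512) (nat_lit 76) (nat_lit 16226812592999) (nat_lit 1) (nat_lit 4) (nat_lit 2) (nat_lit 5) (nat_lit 2) (nat_lit 4) (nat_lit 428) (nat_lit 338) (nat_lit 254)) (XT.nd (nat_lit 78) (nat_lit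 0) (nat_lit 0) (XT.lf (nat_lit 0) (nat_lit 65037035871023) (nat_lit 76) (nat_lit 18607200591915) (nat_lit 76) (nat_lit 18604912589024) (nat_lit 1) (nat_lit 4) (nat_lit 2) (nat_lit 5) (nat_lit 2) (nat_lit 4) (nat_lit 429) (nat_lit 338) (nat_lit 253)) (XT.lf (nat_lit 0) (nat_lit 74897439016156) (nat_lit 76) (nat_lit 21342015698743) (nat_lit 76) (nat_lit 21339727693784) (nat_lit 1) (nat_lit 4) (nat_lit 2) (nat_lit 5) (nat_lit 2) (nat_lit 4) (nat_lit 430) (nat_lit 338) (nat_lit 252)))) (XT.nd (nat_lit 156) (nat_lit 0) (nat_lit 0) (XT.nd (nat_lit 78) (nat_lit 0) (nat_lit 0) (XT.lf (nat_lit 0) (nat_lit 86236902455897) (nat_lit 76) (nat_lit 24487053166088) (nat_lit 76) (nat_lit 24484765159331) (nat_lit 1) (nat_lit 4) (nat_lit 2) (nat_lit 5) (nat_lit 2) (nat_lit 4) (nat_lit 431) (nat_lit 338) (nat_lit 251)) (XT.lf (nat_lit 0) (nat_lit 99277285257545) (nat_lit 76) (nat_lit 28103846335700) (nat_lit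 76) (nat_lit 28101558327380) (nat_lit 1) (nat_lit 4) (nat_lit 2) (nat_lit 5) (nat_lit 2) (nat_lit 4) (nat_lit 432) (nat_lit 338) (nat_lit 250))) (XT.nd (nat_lit 78) (nat_lit 0) (nat_lit 0) (XT.lf (nat_lit 0) (nat_lit 114273725345480) (nat_lit 76) (nat_lit 32263158552204) (nat_lit 76) (nat_lit 32260870542524) (nat_lit 1) (nat_lit 4) (nat_lit 2) (nat_lit 5) (nat_lit 2) (nat_lit 4) (nat_lit 433) (nat_lit 338) (nat_lit 249)) (XT.lf (nat_lit 0) (nat_lit 131519631330119) (nat_lit 76) (nat_lit 37046367663313) (nat_lit 76) (nat_lit 37044079652450) (nat_lit 1) (nat_lit 4) (nat_lit 2) (nat_lit 5) (nat_lit 2) (nat_lit 4) (nat_lit 434) (nat_lit 338) (nat_lit 248))))))) (XT.nd (nat_lit 1014) (nat_lit 988) (nat_lit 0) (XT.nd (nat_lit 468) (nat_lit 912) (nat_lit 0) (XT.nd (nat_lit 234) (nat_lit 608) (nat_lit 0) (XT.nd (nat_lit 78) (nat_lit 228) (nat_lit 0) (XT.lf (nat_lit 0) (nat_lit 303031167) (nat_lit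 76) (nat_lit 1479698982) (nat_lit 76) (nat_lit 1479698982) (nat_lit 52) (nat_lit 4) (nat_lit 53) (nat_lit 5) (nat_lit 53) (nat_lit 4) (nat_lit 342) (nat_lit 339) (nat_lit 339)) (XT.nd (nat_lit 78) (nat_lit 152) (nat_lit 0) (XT.lf (nat_lit 0) (nat_lit 266483135) (nat_lit 152) (nat_lit 1855463372) (nat_lit 76) (nat_lit 4531401185) (nat_lit 51) (nat_lit 5) (nat_lit 53) (nat_lit 5) (nat_lit 52) (nat_lit 4) (nat_lit 343) (nat_lit 339) (nat_lit 338)) (XT.lf (nat_lit 0) (nat_lit 2500071646) (nat_lit 152) (nat_lit 774406387) (nat_lit 228) (nat_lit 3565489494) (nat_lit 49) (nat_lit 5) (nat_lit 51) (nat_lit 5) (nat_lit 52) (nat_lit 4) (nat_lit 344) (nat_lit 339) (nat_lit 337)))) (XT.nd (nat_lit 78) (nat_lit 380) (nat_lit 0) (XT.lf (nat_lit 0) (nat_lit 207350643) (nat_lit 228) (nat_lit 6219033288) (nat_lit 228) (nat_lit 674444587) (nat_lit 46) (nat_lit 4) (nat_lit 49) (nat_lit 5) (nat_lit 49) (nat_lit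 4) (nat_lit 345) (nat_lit 339) (nat_lit 336)) (XT.nd (nat_lit 78) (nat_lit 304) (nat_lit 0) (XT.lf (nat_lit 0) (nat_lit 2260458771) (nat_lit 304) (nat_lit 2073049132) (nat_lit 76) (nat_lit 3074044804) (nat_lit 45) (nat_lit 5) (nat_lit 49) (nat_lit 5) (nat_lit 46) (nat_lit 4) (nat_lit 346) (nat_lit 339) (nat_lit 335)) (XT.lf (nat_lit 0) (nat_lit 3322590345) (nat_lit 304) (nat_lit 2009024013) (nat_lit 380) (nat_lit 2459195534) (nat_lit 41) (nat_lit 5) (nat_lit 45) (nat_lit 5) (nat_lit 46) (nat_lit 4) (nat_lit 347) (nat_lit 339) (nat_lit 334))))) (XT.nd (nat_lit 234) (nat_lit 532) (nat_lit 0) (XT.nd (nat_lit 78) (nat_lit 152) (nat_lit 0) (XT.lf (nat_lit 0) (nat_lit 415608693) (nat_lit 228) (nat_lit 7097959372) (nat_lit 76) (nat_lit 738143447) (nat_lit 38) (nat_lit 5) (nat_lit 41) (nat_lit 5) (nat_lit 39) (nat_lit 4) (nat_lit 348) (nat_lit 339) (nat_lit 333)) (XT.nd (nat_lit 78) (nat_lit 152)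 (nat_lit 0) (XT.lf (nat_lit 0) (nat_lit 3479960697) (nat_lit 228) (nat_lit 1303451522) (nat_lit 76) (nat_lit 3979322174) (nat_lit 38) (nat_lit 5) (nat_lit 41) (nat_lit 5) (nat_lit 39) (nat_lit 4) (nat_lit 349) (nat_lit 339) (nat_lit 332)) (XT.lf (nat_lit 0) (nat_lit 5450681110) (nat_lit 152) (nat_lit 1491807994) (nat_lit 228) (nat_lit 2417201313) (nat_lit 36) (nat_lit 5) (nat_lit 38) (nat_lit 5) (nat_lit 39) (nat_lit 4) (nat_lit 350) (nat_lit 339) (nat_lit 331)))) (XT.nd (nat_lit 156) (nat_lit 228) (nat_lit 0) (XT.nd (nat_lit 78) (nat_lit 76) (nat_lit 0) (XT.lf (nat_lit 0) (nat_lit 825647892) (nat_lit 228) (nat_lit 6986539056) (nat_lit 76) (nat_lit 2224748487) (nat_lit 33) (nat_lit 5) (nat_lit 36) (nat_lit 5) (nat_lit 34) (nat_lit 4) (nat_lit 351) (nat_lit 339) (nat_lit 330)) (XT.lf (nat_lit 0) (nat_lit 102020088) (nat_lit 76) (nat_lit 4231741693) (nat_lit 152) (nat_lit 6460831099) (nat_lit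 32) (nat_lit 5) (nat_lit 33) (nat_lit 5) (nat_lit 34) (nat_lit 4) (nat_lit 352) (nat_lit 339) (nat_lit 329))) (XT.nd (nat_lit 78) (nat_lit 228) (nat_lit 0) (XT.lf (nat_lit 0) (nat_lit 8494275728) (nat_lit 152) (nat_lit 3015193326) (nat_lit 0) (nat_lit 137535748) (nat_lit 32) (nat_lit 5) (nat_lit 34) (nat_lit 4) (nat_lit 32) (nat_lit 4) (nat_lit 353) (nat_lit 339) (nat_lit 328)) (XT.lf (nat_lit 0) (nat_lit 824810332) (nat_lit 228) (nat_lit 6881834992) (nat_lit 76) (nat_lit 4881926593) (nat_lit 29) (nat_lit 5) (nat_lit 32) (nat_lit 5) (nat_lit 30) (nat_lit 4) (nat_lit 354) (nat_lit 339) (nat_lit 327)))))) (XT.nd (nat_lit 546) (nat_lit 456) (nat_lit 0) (XT.nd (nat_lit 234) (nat_lit 304) (nat_lit 0) (XT.nd (nat_lit 78) (nat_lit 152) (nat_lit 0) (XT.lf (nat_lit 0) (nat_lit 2077038720) (nat_lit 76) (nat_lit 3035392237) (nat_lit 152) (nat_lit 8531011091) (nat_lit 28) (nat_lit 5) (nat_lit 29) (nat_lit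 5) (nat_lit 30) (nat_lit 4) (nat_lit 355) (nat_lit 339) (nat_lit 326)) (XT.nd (nat_lit 78) (nat_lit 152) (nat_lit 0) (XT.lf (nat_lit 0) (nat_lit 10308393817) (nat_lit 152) (nat_lit 2148124027) (nat_lit 0) (nat_lit 2360264026) (nat_lit 28) (nat_lit 5) (nat_lit 30) (nat_lit 4) (nat_lit 28) (nat_lit 4) (nat_lit 356) (nat_lit 339) (nat_lit 325)) (XT.lf (nat_lit 0) (nat_lit 459359922) (nat_lit 152) (nat_lit 7131138412) (nat_lit 76) (nat_lit 8522077582) (nat_lit 26) (nat_lit 5) (nat_lit 28) (nat_lit 5) (nat_lit 27) (nat_lit 4) (nat_lit 357) (nat_lit 339) (nat_lit 324)))) (XT.nd (nat_lit 156) (nat_lit 228) (nat_lit 0) (XT.nd (nat_lit 78) (nat_lit 0) (nat_lit 0) (XT.lf (nat_lit 0) (nat_lit 4258084928) (nat_lit 76) (nat_lit 1567600289) (nat_lit 152) (nat_lit 11727615370) (nat_lit 25) (nat_lit 5) (nat_lit 26) (nat_lit 5) (nat_lit 27) (nat_lit 4) (nat_lit 358) (nat_lit 339) (nat_lit 323)) (XT.lf (nat_lit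 0) (nat_lit 12434106715) (nat_lit 152) (nat_lit 1577368821) (nat_lit 0) (nat_lit 5133097202) (nat_lit 25) (nat_lit 5) (nat_lit 27) (nat_lit 4) (nat_lit 25) (nat_lit 4) (nat_lit 359) (nat_lit 339) (nat_lit 322))) (XT.nd (nat_lit 78) (nat_lit 152) (nat_lit 0) (XT.lf (nat_lit 0) (nat_lit 12653830561) (nat_lit 76) (nat_lit 7826175776) (nat_lit 76) (nat_lit 427606604) (nat_lit 24) (nat_lit 4) (nat_lit 25) (nat_lit 5) (nat_lit 25) (nat_lit 4) (nat_lit 360) (nat_lit 339) (nat_lit 321)) (XT.lf (nat_lit 0) (nat_lit 6247518178) (nat_lit 76) (nat_lit 138957094) (nat_lit 152) (nat_lit 16477323911) (nat_lit 22) (nat_lit 5) (nat_lit 23) (nat_lit 5) (nat_lit 24) (nat_lit 4) (nat_lit 361) (nat_lit 339) (nat_lit 320))))) (XT.nd (nat_lit 234) (nat_lit 228) (nat_lit 0) (XT.nd (nat_lit 78) (nat_lit 228) (nat_lit 0) (XT.lf (nat_lit 0) (nat_lit 14842199673) (nat_lit 152) (nat_lit 1897924143) (nat_lit 0) (nat_lit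 8270745085) (nat_lit 22) (nat_lit 5) (nat_lit 24) (nat_lit 4) (nat_lit 22) (nat_lit 4) (nat_lit 362) (nat_lit 339) (nat_lit 319)) (XT.nd (nat_lit 78) (nat_lit 152) (nat_lit 0) (XT.lf (nat_lit 0) (nat_lit 16203563484) (nat_lit 76) (nat_lit 8910736527) (nat_lit 76) (nat_lit 2283501886) (nat_lit 21) (nat_lit 4) (nat_lit 22) (nat_lit 5) (nat_lit 22) (nat_lit 4) (nat_lit 363) (nat_lit 339) (nat_lit 318)) (XT.lf (nat_lit 0) (nat_lit 6484576219) (nat_lit 152) (nat_lit 22890857558) (nat_lit 0) (nat_lit 679585755) (nat_lit 19) (nat_lit 5) (nat_lit 21) (nat_lit 4) (nat_lit 19) (nat_lit 4) (nat_lit 364) (nat_lit 339) (nat_lit 317)))) (XT.nd (nat_lit 156) (nat_lit 152) (nat_lit 0) (XT.nd (nat_lit 78) (nat_lit 76) (nat_lit 0) (XT.lf (nat_lit 0) (nat_lit 17243814160) (nat_lit 152) (nat_lit 4312090794) (nat_lit 0) (nat_lit 11402147407) (nat_lit 19) (nat_lit 5) (nat_lit 21) (nat_lit 4) (nat_lit 19) (nat_lit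 4) (nat_lit 365) (nat_lit 339) (nat_lit 316)) (XT.lf (nat_lit 0) (nat_lit 18469492261) (nat_lit 76) (nat_lit 11801268352) (nat_lit 76) (nat_lit 5927709173) (nat_lit 18) (nat_lit 4) (nat_lit 19) (nat_lit 5) (nat_lit 19) (nat_lit 4) (nat_lit 366) (nat_lit 339) (nat_lit 315))) (XT.nd (nat_lit 78) (nat_lit 0) (nat_lit 0) (XT.lf (nat_lit 0) (nat_lit 5199524990) (nat_lit 152) (nat_lit 34572331354) (nat_lit 0) (nat_lit 67966970) (nat_lit 16) (nat_lit 5) (nat_lit 18) (nat_lit 4) (nat_lit 16) (nat_lit 4) (nat_lit 367) (nat_lit 339) (nat_lit 314)) (XT.lf (nat_lit 0) (nat_lit 18811953728) (nat_lit 152) (nat_lit 11300212382) (nat_lit 0) (nat_lit 13659425921) (nat_lit 16) (nat_lit 5) (nat_lit 18) (nat_lit 4) (nat_lit 16) (nat_lit 4) (nat_lit 368) (nat_lit 339) (nat_lit 313))))))))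
noncomputable def xc44 : XT := (XT.nd (nat_lit 2028) (nat_lit 76) (nat_lit 0) (XT.nd (nat_lit 1014) (nat_lit 304) (nat_lit 0) (XT.nd (nat_lit 468) (nat_lit 304) (nat_lit 0) (XT.nd (nat_lit 234) (nat_lit 228) (nat_lit 0) (XT.nd (nat_lit 78) (nat_lit 152) (nat_lit 0) (XT.lf (nat_lit 0) (nat_lit 16754878352) (nat_lit 76) (nat_lit 18309635880) (nat_lit 76) (nat_lit 13138873475) (nat_lit 15) (nat_lit 4) (nat_lit 16) (nat_lit 5) (nat_lit 16) (nat_lit 4) (nat_lit 369) (nat_lit 339) (nat_lit 312)) (XT.nd (nat_lit 78) (nat_lit 76) (nat_lit 0) (XT.lf (nat_lit 0) (nat_lit 938045145) (nat_lit 152) (nat_lit 3169821514) (nat_lit 76) (nat_lit 49110729261) (nat_lit 14) (nat_lit 5) (nat_lit 16) (nat_lit 5) (nat_lit 15) (nat_lit 4) (nat_lit 370) (nat_lit 339) (nat_lit 311)) (XT.lf (nat_lit 0) (nat_lit 17590280407) (nat_lit 152) (nat_lit 27962426889) (nat_lit 0) (nat_lit 13068187752) (nat_lit 13) (nat_lit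 5) (nat_lit 15) (nat_lit 4) (nat_lit 13) (nat_lit 4) (nat_lit 371) (nat_lit 339) (nat_lit 310)))) (XT.nd (nat_lit 78) (nat_lit 152) (nat_lit 0) (XT.lf (nat_lit 0) (nat_lit 5193389607) (nat_lit 76) (nat_lit 32048703719) (nat_lit 76) (nat_lit 27516185374) (nat_lit 12) (nat_lit 4) (nat_lit 13) (nat_lit 5) (nat_lit 13) (nat_lit 4) (nat_lit 372) (nat_lit 339) (nat_lit 309)) (XT.nd (nat_lit 78) (nat_lit 152) (nat_lit 0) (XT.lf (nat_lit 0) (nat_lit 46299063925) (nat_lit 76) (nat_lit 14925666585) (nat_lit 76) (nat_lit 10384082422) (nat_lit 12) (nat_lit 4) (nat_lit 13) (nat_lit 5) (nat_lit 13) (nat_lit 4) (nat_lit 373) (nat_lit 339) (nat_lit 308)) (XT.lf (nat_lit 0) (nat_lit 9274152791) (nat_lit 152) (nat_lit 64718928054) (nat_lit 0) (nat_lit 5318094110) (nat_lit 10) (nat_lit 5) (nat_lit 12) (nat_lit 4) (nat_lit 10) (nat_lit 4) (nat_lit 374) (nat_lit 339) (nat_lit 307))))) (XT.nd (nat_lit 234) (nat_lit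 228) (nat_lit 0) (XT.nd (nat_lit 78) (nat_lit 76) (nat_lit 0) (XT.lf (nat_lit 0) (nat_lit 32843322558) (nat_lit 152) (nat_lit 26066294602) (nat_lit 0) (nat_lit 28881302955) (nat_lit 10) (nat_lit 5) (nat_lit 12) (nat_lit 4) (nat_lit 10) (nat_lit 4) (nat_lit 375) (nat_lit 339) (nat_lit 306)) (XT.nd (nat_lit 78) (nat_lit 0) (nat_lit 0) (XT.lf (nat_lit 0) (nat_lit 20036126663) (nat_lit 76) (nat_lit 40679286080) (nat_lit 76) (nat_lit 36712083066) (nat_lit 9) (nat_lit 4) (nat_lit 10) (nat_lit 5) (nat_lit 10) (nat_lit 4) (nat_lit 376) (nat_lit 339) (nat_lit 305)) (XT.lf (nat_lit 0) (nat_lit 75857539146) (nat_lit 76) (nat_lit 18214114452) (nat_lit 76) (nat_lit 14242404124) (nat_lit 9) (nat_lit 4) (nat_lit 10) (nat_lit 5) (nat_lit 10) (nat_lit 4) (nat_lit 377) (nat_lit 339) (nat_lit 304)))) (XT.nd (nat_lit 156) (nat_lit 76) (nat_lit 0) (XT.nd (nat_lit 78) (nat_lit 0) (nat_lit 0) (XT.lf (nat_lit 0)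 (nat_lit 11734021780) (nat_lit 152) (nat_lit 100575273713) (nat_lit 0) (nat_lit 8276952449) (nat_lit 7) (nat_lit 5) (nat_lit 9) (nat_lit 4) (nat_lit 7) (nat_lit 4) (nat_lit 378) (nat_lit 339) (nat_lit 303)) (XT.lf (nat_lit 0) (nat_lit 42739630675) (nat_lit 152) (nat_lit 52189676637) (nat_lit 0) (nat_lit 39279597712) (nat_lit 7) (nat_lit 5) (nat_lit 9) (nat_lit 4) (nat_lit 7) (nat_lit 4) (nat_lit 379) (nat_lit 339) (nat_lit 302))) (XT.nd (nat_lit 78) (nat_lit 0) (nat_lit 0) (XT.lf (nat_lit 0) (nat_lit 3681684613) (nat_lit 76) (nat_lit 74820021294) (nat_lit 76) (nat_lit 71357411260) (nat_lit 6) (nat_lit 4) (nat_lit 7) (nat_lit 5) (nat_lit 7) (nat_lit 4) (nat_lit 380) (nat_lit 339) (nat_lit 301)) (XT.lf (nat_lit 0) (nat_lit 73703852002) (nat_lit 76) (nat_lit 48607672734) (nat_lit 76) (nat_lit 45142821768) (nat_lit 6) (nat_lit 4) (nat_lit 7) (nat_lit 5) (nat_lit 7) (nat_lit 4) (nat_lit 381)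 (nat_lit 339) (nat_lit 300)))))) (XT.nd (nat_lit 468) (nat_lit 152) (nat_lit 0) (XT.nd (nat_lit 234) (nat_lit 76) (nat_lit 0) (XT.nd (nat_lit 78) (nat_lit 76) (nat_lit 0) (XT.lf (nat_lit 0) (nat_lit 154146469692) (nat_lit 76) (nat_lit 18507508067) (nat_lit 76) (nat_lit 15040708465) (nat_lit 6) (nat_lit 4) (nat_lit 7) (nat_lit 5) (nat_lit 7) (nat_lit 4) (nat_lit 382) (nat_lit 339) (nat_lit 299)) (XT.nd (nat_lit 78) (nat_lit 0) (nat_lit 0) (XT.lf (nat_lit 0) (nat_lit 20159469095) (nat_lit 76) (nat_lit 173197785744) (nat_lit 0) (nat_lit 17143387297) (nat_lit 5) (nat_lit 5) (nat_lit 6) (nat_lit 4) (nat_lit 5) (nat_lit 4) (nat_lit 383) (nat_lit 339) (nat_lit 298)) (XT.lf (nat_lit 0) (nat_lit 61782926589) (nat_lit 76) (nat_lit 115669097506) (nat_lit 0) (nat_lit 58765563531) (nat_lit 5) (nat_lit 5) (nat_lit 6) (nat_lit 4) (nat_lit 5) (nat_lit 4) (nat_lit 384) (nat_lit 339) (nat_lit 297)))) (XT.nd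 (nat_lit 78) (nat_lit 76) (nat_lit 0) (XT.lf (nat_lit 0) (nat_lit 109619173323) (nat_lit 76) (nat_lit 49576815004) (nat_lit 0) (nat_lit 106600696126) (nat_lit 5) (nat_lit 5) (nat_lit 6) (nat_lit 4) (nat_lit 5) (nat_lit 4) (nat_lit 385) (nat_lit 339) (nat_lit 296)) (XT.nd (nat_lit 78) (nat_lit 0) (nat_lit 0) (XT.lf (nat_lit 0) (nat_lit 28949452043) (nat_lit 76) (nat_lit 136853418895) (nat_lit 76) (nat_lit 133833972881) (nat_lit 4) (nat_lit 4) (nat_lit 5) (nat_lit 5) (nat_lit 5) (nat_lit 4) (nat_lit 386) (nat_lit 339) (nat_lit 295)) (XT.lf (nat_lit 0) (nat_lit 124771876064) (nat_lit 76) (nat_lit 108208268205) (nat_lit 76) (nat_lit 105187979742) (nat_lit 4) (nat_lit 4) (nat_lit 5) (nat_lit 5) (nat_lit 5) (nat_lit 4) (nat_lit 387) (nat_lit 339) (nat_lit 294))))) (XT.nd (nat_lit 234) (nat_lit 0) (nat_lit 0) (XT.nd (nat_lit 78) (nat_lit 152) (nat_lit 0) (XT.lf (nat_lit 0) (nat_lit 234920236693)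 (nat_lit 76) (nat_lit 75291602987) (nat_lit 76) (nat_lit 72270581960) (nat_lit 4) (nat_lit 4) (nat_lit 5) (nat_lit 5) (nat_lit 5) (nat_lit 4) (nat_lit 388) (nat_lit 339) (nat_lit 293)) (XT.nd (nat_lit 78) (nat_lit 152) (nat_lit 0) (XT.lf (nat_lit 0) (nat_lit 361549610550) (nat_lit 76) (nat_lit 37459401532) (nat_lit 76) (nat_lit 34437743492) (nat_lit 4) (nat_lit 4) (nat_lit 5) (nat_lit 5) (nat_lit 5) (nat_lit 4) (nat_lit 389) (nat_lit 339) (nat_lit 292)) (XT.lf (nat_lit 0) (nat_lit 9212672942) (nat_lit 152) (nat_lit 476059549406) (nat_lit 0) (nat_lit 6584662539) (nat_lit 2) (nat_lit 5) (nat_lit 4) (nat_lit 4) (nat_lit 2) (nat_lit 4) (nat_lit 390) (nat_lit 339) (nat_lit 291)))) (XT.nd (nat_lit 156) (nat_lit 0) (nat_lit 0) (XT.nd (nat_lit 78) (nat_lit 0) (nat_lit 0) (XT.lf (nat_lit 0) (nat_lit 61588341160) (nat_lit 152) (nat_lit 437378777941) (nat_lit 0) (nat_lit 58959911910) (nat_lit 2) (nat_lit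 5) (nat_lit 4) (nat_lit 4) (nat_lit 2) (nat_lit 4) (nat_lit 391) (nat_lit 339) (nat_lit 290)) (XT.lf (nat_lit 0) (nat_lit 121805101053) (nat_lit 152) (nat_lit 392928579231) (nat_lit 0) (nat_lit 119176307589) (nat_lit 2) (nat_lit 5) (nat_lit 4) (nat_lit 4) (nat_lit 2) (nat_lit 4) (nat_lit 392) (nat_lit 339) (nat_lit 289))) (XT.nd (nat_lit 78) (nat_lit 0) (nat_lit 0) (XT.lf (nat_lit 0) (nat_lit 191041106620) (nat_lit 152) (nat_lit 341839275473) (nat_lit 0) (nat_lit 188411996449) (nat_lit 2) (nat_lit 5) (nat_lit 4) (nat_lit 4) (nat_lit 2) (nat_lit 4) (nat_lit 393) (nat_lit 339) (nat_lit 288)) (XT.lf (nat_lit 0) (nat_lit 270650975362) (nat_lit 152) (nat_lit 283111293333) (nat_lit 0) (nat_lit 268021589792) (nat_lit 2) (nat_lit 5) (nat_lit 4) (nat_lit 4) (nat_lit 2) (nat_lit 4) (nat_lit 394) (nat_lit 339) (nat_lit 287))))))) (XT.nd (nat_lit 1014) (nat_lit 0) (nat_lit 0) (XT.nd (nat_lit 468) (nat_lit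 0) (nat_lit 0) (XT.nd (nat_lit 234) (nat_lit 76) (nat_lit 0) (XT.nd (nat_lit 78) (nat_lit 0) (nat_lit 0) (XT.lf (nat_lit 0) (nat_lit 362192291666) (nat_lit 152) (nat_lit 215595607074) (nat_lit 0) (nat_lit 359562666619) (nat_lit 2) (nat_lit 5) (nat_lit 4) (nat_lit 4) (nat_lit 2) (nat_lit 4) (nat_lit 395) (nat_lit 339) (nat_lit 286)) (XT.nd (nat_lit 78) (nat_lit 0) (nat_lit 0) (XT.lf (nat_lit 0) (nat_lit 467456081286) (nat_lit 152) (nat_lit 137971257617) (nat_lit 0) (nat_lit 464826247999) (nat_lit 2) (nat_lit 5) (nat_lit 4) (nat_lit 4) (nat_lit 2) (nat_lit 4) (nat_lit 396) (nat_lit 339) (nat_lit 285)) (XT.lf (nat_lit 0) (nat_lit 588501853149) (nat_lit 152) (nat_lit 48719507690) (nat_lit 0) (nat_lit 585871838784) (nat_lit 2) (nat_lit 5) (nat_lit 4) (nat_lit 4) (nat_lit 2) (nat_lit 4) (nat_lit 397) (nat_lit 339) (nat_lit 284)))) (XT.nd (nat_lit 78) (nat_lit 0) (nat_lit 0) (XT.lf (nat_lit 0)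 (nat_lit 59173946510) (nat_lit 76) (nat_lit 670974214523) (nat_lit 76) (nat_lit 668344042698) (nat_lit 1) (nat_lit 4) (nat_lit 2) (nat_lit 5) (nat_lit 2) (nat_lit 4) (nat_lit 398) (nat_lit 339) (nat_lit 283)) (XT.nd (nat_lit 78) (nat_lit 0) (nat_lit 0) (XT.lf (nat_lit 0) (nat_lit 188713337388) (nat_lit 76) (nat_lit 706868484412) (nat_lit 76) (nat_lit 704238175665) (nat_lit 1) (nat_lit 4) (nat_lit 2) (nat_lit 5) (nat_lit 2) (nat_lit 4) (nat_lit 399) (nat_lit 339) (nat_lit 282)) (XT.lf (nat_lit 0) (nat_lit 337671906672) (nat_lit 76) (nat_lit 748153151236) (nat_lit 76) (nat_lit 745522723427) (nat_lit 1) (nat_lit 4) (nat_lit 2) (nat_lit 5) (nat_lit 2) (nat_lit 4) (nat_lit 400) (nat_lit 339) (nat_lit 281))))) (XT.nd (nat_lit 234) (nat_lit 0) (nat_lit 0) (XT.nd (nat_lit 78) (nat_lit 0) (nat_lit 0) (XT.lf (nat_lit 0) (nat_lit 508964061153) (nat_lit 76) (nat_lit 795635958478) (nat_lit 76) (nat_lit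 793005427137) (nat_lit 1) (nat_lit 4) (nat_lit 2) (nat_lit 5) (nat_lit 2) (nat_lit 4) (nat_lit 401) (nat_lit 339) (nat_lit 280)) (XT.nd (nat_lit 78) (nat_lit 0) (nat_lit 0) (XT.lf (nat_lit 0) (nat_lit 705941169070) (nat_lit 76) (nat_lit 850245917583) (nat_lit 76) (nat_lit 847615296214) (nat_lit 1) (nat_lit 4) (nat_lit 2) (nat_lit 5) (nat_lit 2) (nat_lit 4) (nat_lit 402) (nat_lit 339) (nat_lit 279)) (XT.lf (nat_lit 0) (nat_lit 932457130360) (nat_lit 76) (nat_lit 913051484273) (nat_lit 76) (nat_lit 910420784619) (nat_lit 1) (nat_lit 4) (nat_lit 2) (nat_lit 5) (nat_lit 2) (nat_lit 4) (nat_lit 403) (nat_lit 339) (nat_lit 278)))) (XT.nd (nat_lit 156) (nat_lit 0) (nat_lit 0) (XT.nd (nat_lit 78) (nat_lit 0) (nat_lit 0) (XT.lf (nat_lit 0) (nat_lit 1192943779050) (nat_lit 76) (nat_lit 985281463115) (nat_lit 76) (nat_lit 982650695385) (nat_lit 1) (nat_lit 4) (nat_lit 2) (nat_lit 5) (nat_lit 2) (nat_lit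 4) (nat_lit 404) (nat_lit 339) (nat_lit 277)) (XT.lf (nat_lit 0) (nat_lit 1492497593047) (nat_lit 76) (nat_lit 1068349049344) (nat_lit 76) (nat_lit 1065718222420) (nat_lit 1) (nat_lit 4) (nat_lit 2) (nat_lit 5) (nat_lit 2) (nat_lit 4) (nat_lit 405) (nat_lit 339) (nat_lit 276))) (XT.nd (nat_lit 78) (nat_lit 0) (nat_lit 0) (XT.lf (nat_lit 0) (nat_lit 1836979407844) (nat_lit 76) (nat_lit 1163879478346) (nat_lit 76) (nat_lit 1161248599948) (nat_lit 1) (nat_lit 4) (nat_lit 2) (nat_lit 5) (nat_lit 2) (nat_lit 4) (nat_lit 406) (nat_lit 339) (nat_lit 275)) (XT.lf (nat_lit 0) (nat_lit 2233129085034) (nat_lit 76) (nat_lit 1273741823730) (nat_lit 76) (nat_lit 1271110900573) (nat_lit 1) (nat_lit 4) (nat_lit 2) (nat_lit 5) (nat_lit 2) (nat_lit 4) (nat_lit 407) (nat_lit 339) (nat_lit 274)))))) (XT.nd (nat_lit 546) (nat_lit 0) (nat_lit 0) (XT.nd (nat_lit 234) (nat_lit 0) (nat_lit 0) (XT.nd (nat_lit 78)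 (nat_lit 0) (nat_lit 0) (XT.lf (nat_lit 0) (nat_lit 2688697379172) (nat_lit 76) (nat_lit 1400085566168) (nat_lit 76) (nat_lit 1397454604088) (nat_lit 1) (nat_lit 4) (nat_lit 2) (nat_lit 5) (nat_lit 2) (nat_lit 4) (nat_lit 408) (nat_lit 339) (nat_lit 273)) (XT.nd (nat_lit 78) (nat_lit 0) (nat_lit 0) (XT.lf (nat_lit 0) (nat_lit 3212597582967) (nat_lit 76) (nat_lit 1545382648445) (nat_lit 76) (nat_lit 1542751652521) (nat_lit 1) (nat_lit 4) (nat_lit 2) (nat_lit 5) (nat_lit 2) (nat_lit 4) (nat_lit 409) (nat_lit 339) (nat_lit 272)) (XT.lf (nat_lit 0) (nat_lit 3815079917800) (nat_lit 76) (nat_lit 1712475839564) (nat_lit 76) (nat_lit 1709844814209) (nat_lit 1) (nat_lit 4) (nat_lit 2) (nat_lit 5) (nat_lit 2) (nat_lit 4) (nat_lit 410) (nat_lit 339) (nat_lit 271)))) (XT.nd (nat_lit 156) (nat_lit 0) (nat_lit 0) (XT.nd (nat_lit 78) (nat_lit 0) (nat_lit 0) (XT.lf (nat_lit 0) (nat_lit 4507932081525) (nat_lit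 76) (nat_lit 1904634354132) (nat_lit 76) (nat_lit 1902003303186) (nat_lit 1) (nat_lit 4) (nat_lit 2) (nat_lit 5) (nat_lit 2) (nat_lit 4) (nat_lit 411) (nat_lit 339) (nat_lit 270)) (XT.lf (nat_lit 0) (nat_lit 5304709877345) (nat_lit 76) (nat_lit 2125617815262) (nat_lit 76) (nat_lit 2122986742062) (nat_lit 1) (nat_lit 4) (nat_lit 2) (nat_lit 5) (nat_lit 2) (nat_lit 4) (nat_lit 412) (nat_lit 339) (nat_lit 269))) (XT.nd (nat_lit 78) (nat_lit 0) (nat_lit 0) (XT.lf (nat_lit 0) (nat_lit 6221002436049) (nat_lit 76) (nat_lit 2379749812409) (nat_lit 76) (nat_lit 2377118719858) (nat_lit 1) (nat_lit 4) (nat_lit 2) (nat_lit 5) (nat_lit 2) (nat_lit 4) (nat_lit 413) (nat_lit 339) (nat_lit 268)) (XT.lf (nat_lit 0) (nat_lit 7274737220742) (nat_lit 76) (nat_lit 2672002493344) (nat_lit 76) (nat_lit 2669371383966) (nat_lit 1) (nat_lit 4) (nat_lit 2) (nat_lit 5) (nat_lit 2) (nat_lit 4) (nat_lit 414) (nat_lit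 339) (nat_lit 267))))) (XT.nd (nat_lit 234) (nat_lit 0) (nat_lit 0) (XT.nd (nat_lit 78) (nat_lit 0) (nat_lit 0) (XT.lf (nat_lit 0) (nat_lit 8486530781558) (nat_lit 76) (nat_lit 3008093845304) (nat_lit 76) (nat_lit 3005462721294) (nat_lit 1) (nat_lit 4) (nat_lit 2) (nat_lit 5) (nat_lit 2) (nat_lit 4) (nat_lit 415) (nat_lit 339) (nat_lit 266)) (XT.nd (nat_lit 78) (nat_lit 0) (nat_lit 0) (XT.lf (nat_lit 0) (nat_lit 9880092122949) (nat_lit 76) (nat_lit 3394599568651) (nat_lit 76) (nat_lit 3391968431918) (nat_lit 1) (nat_lit 4) (nat_lit 2) (nat_lit 5) (nat_lit 2) (nat_lit 4) (nat_lit 416) (nat_lit 339) (nat_lit 265)) (XT.lf (nat_lit 0) (nat_lit 11482686575507) (nat_lit 76) (nat_lit 3839081731887) (nat_lit 76) (nat_lit 3836450584090) (nat_lit 1) (nat_lit 4) (nat_lit 2) (nat_lit 5) (nat_lit 2) (nat_lit 4) (nat_lit 417) (nat_lit 339) (nat_lit 264)))) (XT.nd (nat_lit 156) (nat_lit 0) (nat_lit 0)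 (XT.nd (nat_lit 78) (nat_lit 0) (nat_lit 0) (XT.lf (nat_lit 0) (nat_lit 13325669248086) (nat_lit 76) (nat_lit 4350236725162) (nat_lit 76) (nat_lit 4347605567744) (nat_lit 1) (nat_lit 4) (nat_lit 2) (nat_lit 5) (nat_lit 2) (nat_lit 4) (nat_lit 418) (nat_lit 339) (nat_lit 263)) (XT.lf (nat_lit 0) (nat_lit 15445098497324) (nat_lit 76) (nat_lit 4938065407040) (nat_lit 76) (nat_lit 4935434241256) (nat_lit 1) (nat_lit 4) (nat_lit 2) (nat_lit 5) (nat_lit 2) (nat_lit 4) (nat_lit 419) (nat_lit 339) (nat_lit 262))) (XT.nd (nat_lit 78) (nat_lit 0) (nat_lit 0) (XT.lf (nat_lit 0) (nat_lit 17882441417228) (nat_lit 76) (nat_lit 5614068773471) (nat_lit 76) (nat_lit 5611437600412) (nat_lit 1) (nat_lit 4) (nat_lit 2) (nat_lit 5) (nat_lit 2) (nat_lit 4) (nat_lit 420) (nat_lit 339) (nat_lit 261)) (XT.lf (nat_lit 0) (nat_lit 20685385151883) (nat_lit 76) (nat_lit 6391472977276) (nat_lit 76) (nat_lit 6388841797891)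 (nat_lit 1) (nat_lit 4) (nat_lit 2) (nat_lit 5) (nat_lit 2) (nat_lit 4) (nat_lit 421) (nat_lit 339) (nat_lit 260))))))))
noncomputable def xc45 : XT := (XT.nd (nat_lit 47814) (nat_lit 0) (nat_lit 456) (XT.nd (nat_lit 46722) (nat_lit 0) (nat_lit 2356) (XT.nd (nat_lit 468) (nat_lit 0) (nat_lit 0) (XT.nd (nat_lit 234) (nat_lit 0) (nat_lit 0) (XT.nd (nat_lit 78) (nat_lit 0) (nat_lit 0) (XT.lf (nat_lit 0) (nat_lit 23908769904793) (nat_lit 76) (nat_lit 7285488100703) (nat_lit 76) (nat_lit 7282856915818) (nat_lit 1) (nat_lit 4) (nat_lit 2) (nat_lit 5) (nat_lit 2) (nat_lit 4) (nat_lit 422) (nat_lit 339) (nat_lit 259)) (XT.nd (nat_lit 78) (nat_lit 0) (nat_lit 0) (XT.lf (nat_lit 0) (nat_lit 27615661899383) (nat_lit 76) (nat_lit 8313605743994) (nat_lit 76) (nat_lit 8310974554325) (nat_lit 1) (nat_lit 4) (nat_lit 2) (nat_lit 5) (nat_lit 2) (nat_lit 4) (nat_lit 423) (nat_lit 339) (nat_lit 258)) (XT.lf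 (nat_lit 0) (nat_lit 31878587283376) (nat_lit 76) (nat_lit 9495941252343) (nat_lit 76) (nat_lit 9493310058515) (nat_lit 1) (nat_lit 4) (nat_lit 2) (nat_lit 5) (nat_lit 2) (nat_lit 4) (nat_lit 424) (nat_lit 339) (nat_lit 257)))) (XT.nd (nat_lit 78) (nat_lit 0) (nat_lit 0) (XT.lf (nat_lit 0) (nat_lit 36780951118631) (nat_lit 76) (nat_lit 10855627277001) (nat_lit 76) (nat_lit 10852996079556) (nat_lit 1) (nat_lit 4) (nat_lit 2) (nat_lit 5) (nat_lit 2) (nat_lit 4) (nat_lit 425) (nat_lit 339) (nat_lit 256)) (XT.nd (nat_lit 78) (nat_lit 0) (nat_lit 0) (XT.lf (nat_lit 0) (nat_lit 42418669219316) (nat_lit 76) (nat_lit 12419266370624) (nat_lit 76) (nat_lit 12416635170034) (nat_lit 1) (nat_lit 4) (nat_lit 2) (nat_lit 5) (nat_lit 2) (nat_lit 4) (nat_lit 426) (nat_lit 339) (nat_lit 255)) (XT.lf (nat_lit 0) (nat_lit 48902044765662) (nat_lit 76) (nat_lit 14217451472000) (nat_lit 76) (nat_lit 14214820268675)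 (nat_lit 1) (nat_lit 4) (nat_lit 2) (nat_lit 5) (nat_lit 2) (nat_lit 4) (nat_lit 427) (nat_lit 339) (nat_lit 254))))) (XT.nd (nat_lit 234) (nat_lit 0) (nat_lit 0) (XT.nd (nat_lit 78) (nat_lit 0) (nat_lit 0) (XT.lf (nat_lit 0) (nat_lit 56357926409663) (nat_lit 76) (nat_lit 16285364463547) (nat_lit 76) (nat_lit 16282733257844) (nat_lit 1) (nat_lit 4) (nat_lit 2) (nat_lit 5) (nat_lit 2) (nat_lit 4) (nat_lit 428) (nat_lit 339) (nat_lit 253)) (XT.nd (nat_lit 78) (nat_lit 0) (nat_lit 0) (XT.lf (nat_lit 0) (nat_lit 64932190096528) (nat_lit 76) (nat_lit 18663464512492) (nat_lit 76) (nat_lit 18660833304721) (nat_lit 1) (nat_lit 4) (nat_lit 2) (nat_lit 5) (nat_lit 2) (nat_lit 4) (nat_lit 429) (nat_lit 339) (nat_lit 252)) (XT.lf (nat_lit 0) (nat_lit 74792593159260) (nat_lit 76) (nat_lit 21398279663270) (nat_lit 76) (nat_lit 21395648453701) (nat_lit 1) (nat_lit 4) (nat_lit 2) (nat_lit 5) (nat_lit 2)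 (nat_lit 4) (nat_lit 430) (nat_lit 339) (nat_lit 251)))) (XT.nd (nat_lit 156) (nat_lit 0) (nat_lit 0) (XT.nd (nat_lit 78) (nat_lit 0) (nat_lit 0) (XT.lf (nat_lit 0) (nat_lit 86132056527348) (nat_lit 76) (nat_lit 24543317168832) (nat_lit 76) (nat_lit 24540685957699) (nat_lit 1) (nat_lit 4) (nat_lit 2) (nat_lit 5) (nat_lit 2) (nat_lit 4) (nat_lit 431) (nat_lit 339) (nat_lit 250)) (XT.lf (nat_lit 0) (nat_lit 99172439266689) (nat_lit 76) (nat_lit 28160110371676) (nat_lit 76) (nat_lit 28157479159184) (nat_lit 1) (nat_lit 4) (nat_lit 2) (nat_lit 5) (nat_lit 2) (nat_lit 4) (nat_lit 432) (nat_lit 339) (nat_lit 249))) (XT.nd (nat_lit 78) (nat_lit 0) (nat_lit 0) (XT.lf (nat_lit 0) (nat_lit 114168879300445) (nat_lit 76) (nat_lit 32319422617077) (nat_lit 76) (nat_lit 32316791403403) (nat_lit 1) (nat_lit 4) (nat_lit 2) (nat_lit 5) (nat_lit 2) (nat_lit 4) (nat_lit 433) (nat_lit 339) (nat_lit 248)) (XT.lf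 (nat_lit 0) (nat_lit 131414785237970) (nat_lit 76) (nat_lit 37102631753315) (nat_lit 76) (nat_lit 37100000538612) (nat_lit 1) (nat_lit 4) (nat_lit 2) (nat_lit 5) (nat_lit 2) (nat_lit 4) (nat_lit 434) (nat_lit 339) (nat_lit 247)))))) (XT.nd (nat_lit 546) (nat_lit 988) (nat_lit 0) (XT.nd (nat_lit 234) (nat_lit 532) (nat_lit 0) (XT.nd (nat_lit 78) (nat_lit 152) (nat_lit 0) (XT.lf (nat_lit 0) (nat_lit 1073741823) (nat_lit 0) (nat_lit 0) (nat_lit 0) (nat_lit 0) (nat_lit 54) (nat_lit 0) (nat_lit 1) (nat_lit 0) (nat_lit 1) (nat_lit 0) (nat_lit 340) (nat_lit 340) (nat_lit 340)) (XT.nd (nat_lit 78) (nat_lit 76) (nat_lit 0) (XT.lf (nat_lit 0) (nat_lit 3078577870) (nat_lit 76) (nat_lit 3098031271) (nat_lit 0) (nat_lit 285915439) (nat_lit 53) (nat_lit 5) (nat_lit 54) (nat_lit 0) (nat_lit 53) (nat_lit 4) (nat_lit 341) (nat_lit 340) (nat_lit 339)) (XT.lf (nat_lit 0) (nat_lit 419024042) (nat_lit 76) (nat_lit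 5682731710) (nat_lit 76) (nat_lit 461667165) (nat_lit 52) (nat_lit 4) (nat_lit 53) (nat_lit 5) (nat_lit 53) (nat_lit 4) (nat_lit 342) (nat_lit 340) (nat_lit 338)))) (XT.nd (nat_lit 156) (nat_lit 304) (nat_lit 0) (XT.nd (nat_lit 78) (nat_lit 152) (nat_lit 0) (XT.lf (nat_lit 0) (nat_lit 2308218424) (nat_lit 152) (nat_lit 2370048943) (nat_lit 76) (nat_lit 2033258538) (nat_lit 51) (nat_lit 5) (nat_lit 53) (nat_lit 5) (nat_lit 52) (nat_lit 4) (nat_lit 343) (nat_lit 340) (nat_lit 337)) (XT.lf (nat_lit 0) (nat_lit 1758074518) (nat_lit 152) (nat_lit 3324257553) (nat_lit 228) (nat_lit 1850967924) (nat_lit 49) (nat_lit 5) (nat_lit 51) (nat_lit 5) (nat_lit 52) (nat_lit 4) (nat_lit 344) (nat_lit 340) (nat_lit 336))) (XT.nd (nat_lit 78) (nat_lit 228) (nat_lit 0) (XT.lf (nat_lit 0) (nat_lit 705097217) (nat_lit 228) (nat_lit 820334876) (nat_lit 76) (nat_lit 5698681019) (nat_lit 48) (nat_lit 5) (nat_lit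 51) (nat_lit 5) (nat_lit 49) (nat_lit 5) (nat_lit 345) (nat_lit 340) (nat_lit 335)) (XT.lf (nat_lit 0) (nat_lit 3304465899) (nat_lit 304) (nat_lit 3464180956) (nat_lit 76) (nat_lit 799372380) (nat_lit 45) (nat_lit 5) (nat_lit 49) (nat_lit 5) (nat_lit 46) (nat_lit 4) (nat_lit 346) (nat_lit 340) (nat_lit 334))))) (XT.nd (nat_lit 234) (nat_lit 456) (nat_lit 0) (XT.nd (nat_lit 78) (nat_lit 228) (nat_lit 0) (XT.lf (nat_lit 0) (nat_lit 1612794954) (nat_lit 304) (nat_lit 4541364506) (nat_lit 380) (nat_lit 1830377469) (nat_lit 41) (nat_lit 5) (nat_lit 45) (nat_lit 5) (nat_lit 46) (nat_lit 4) (nat_lit 347) (nat_lit 340) (nat_lit 333)) (XT.nd (nat_lit 78) (nat_lit 152) (nat_lit 0) (XT.lf (nat_lit 0) (nat_lit 761346140) (nat_lit 380) (nat_lit 1016374615) (nat_lit 76) (nat_lit 6697908083) (nat_lit 40) (nat_lit 5) (nat_lit 45) (nat_lit 5) (nat_lit 41) (nat_lit 5) (nat_lit 348) (nat_lit 340) (nat_lit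 332)) (XT.lf (nat_lit 0) (nat_lit 3570116807) (nat_lit 228) (nat_lit 3911573341) (nat_lit 76) (nat_lit 1543325864) (nat_lit 38) (nat_lit 5) (nat_lit 41) (nat_lit 5) (nat_lit 39) (nat_lit 4) (nat_lit 349) (nat_lit 340) (nat_lit 331)))) (XT.nd (nat_lit 156) (nat_lit 228) (nat_lit 0) (XT.nd (nat_lit 78) (nat_lit 76) (nat_lit 0) (XT.lf (nat_lit 0) (nat_lit 2412389602) (nat_lit 152) (nat_lit 4378297812) (nat_lit 228) (nat_lit 2867601850) (nat_lit 36) (nat_lit 5) (nat_lit 38) (nat_lit 5) (nat_lit 39) (nat_lit 4) (nat_lit 350) (nat_lit 340) (nat_lit 330)) (XT.lf (nat_lit 0) (nat_lit 70655370) (nat_lit 228) (nat_lit 596898777) (nat_lit 76) (nat_lit 9722498931) (nat_lit 35) (nat_lit 5) (nat_lit 38) (nat_lit 5) (nat_lit 36) (nat_lit 5) (nat_lit 351) (nat_lit 340) (nat_lit 329))) (XT.nd (nat_lit 78) (nat_lit 76) (nat_lit 0) (XT.lf (nat_lit 0) (nat_lit 3412102931) (nat_lit 228) (nat_lit 4110450553)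 (nat_lit 76) (nat_lit 3650172480) (nat_lit 33) (nat_lit 5) (nat_lit 36) (nat_lit 5) (nat_lit 34) (nat_lit 4) (nat_lit 352) (nat_lit 340) (nat_lit 328)) (XT.lf (nat_lit 0) (nat_lit 3863025674) (nat_lit 76) (nat_lit 3417300066) (nat_lit 152) (nat_lit 4788669286) (nat_lit 32) (nat_lit 5) (nat_lit 33) (nat_lit 5) (nat_lit 34) (nat_lit 4) (nat_lit 353) (nat_lit 340) (nat_lit 327))))))) (XT.nd (nat_lit 1014) (nat_lit 912) (nat_lit 0) (XT.nd (nat_lit 468) (nat_lit 456) (nat_lit 0) (XT.nd (nat_lit 234) (nat_lit 228) (nat_lit 0) (XT.nd (nat_lit 78) (nat_lit 152) (nat_lit 0) (XT.lf (nat_lit 0) (nat_lit 40938338) (nat_lit 152) (nat_lit 11778311389) (nat_lit 152) (nat_lit 1266909740) (nat_lit 30) (nat_lit 4) (nat_lit 32) (nat_lit 5) (nat_lit 32) (nat_lit 4) (nat_lit 354) (nat_lit 340) (nat_lit 326)) (XT.nd (nat_lit 78) (nat_lit 76) (nat_lit 0) (XT.lf (nat_lit 0) (nat_lit 2960580652) (nat_lit 228) (nat_lit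 4371814664) (nat_lit 76) (nat_lit 6842450038) (nat_lit 29) (nat_lit 5) (nat_lit 32) (nat_lit 5) (nat_lit 30) (nat_lit 4) (nat_lit 355) (nat_lit 340) (nat_lit 325)) (XT.lf (nat_lit 0) (nat_lit 5769876668) (nat_lit 76) (nat_lit 1999038242) (nat_lit 152) (nat_lit 7637422258) (nat_lit 28) (nat_lit 5) (nat_lit 29) (nat_lit 5) (nat_lit 30) (nat_lit 4) (nat_lit 356) (nat_lit 340) (nat_lit 324)))) (XT.nd (nat_lit 78) (nat_lit 152) (nat_lit 0) (XT.lf (nat_lit 0) (nat_lit 727595328) (nat_lit 76) (nat_lit 12854043024) (nat_lit 76) (nat_lit 3198457943) (nat_lit 27) (nat_lit 4) (nat_lit 28) (nat_lit 5) (nat_lit 28) (nat_lit 4) (nat_lit 357) (nat_lit 340) (nat_lit 323)) (XT.nd (nat_lit 78) (nat_lit 76) (nat_lit 0) (XT.lf (nat_lit 0) (nat_lit 2203915617) (nat_lit 152) (nat_lit 5046189152) (nat_lit 76) (nat_lit 11027892548) (nat_lit 26) (nat_lit 5) (nat_lit 28) (nat_lit 5) (nat_lit 27) (nat_lit 4) (nat_lit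 358) (nat_lit 340) (nat_lit 322)) (XT.lf (nat_lit 0) (nat_lit 7908025869) (nat_lit 76) (nat_lit 373289110) (nat_lit 152) (nat_lit 11667612211) (nat_lit 25) (nat_lit 5) (nat_lit 26) (nat_lit 5) (nat_lit 27) (nat_lit 4) (nat_lit 359) (nat_lit 340) (nat_lit 321))))) (XT.nd (nat_lit 234) (nat_lit 228) (nat_lit 0) (XT.nd (nat_lit 78) (nat_lit 152) (nat_lit 0) (XT.lf (nat_lit 0) (nat_lit 1053184262) (nat_lit 76) (nat_lit 14716576840) (nat_lit 76) (nat_lit 6025828147) (nat_lit 24) (nat_lit 4) (nat_lit 25) (nat_lit 5) (nat_lit 25) (nat_lit 4) (nat_lit 360) (nat_lit 340) (nat_lit 320)) (XT.nd (nat_lit 78) (nat_lit 76) (nat_lit 0) (XT.lf (nat_lit 0) (nat_lit 966835080) (nat_lit 152) (nat_lit 6685822389) (nat_lit 76) (nat_lit 16181864136) (nat_lit 23) (nat_lit 5) (nat_lit 25) (nat_lit 5) (nat_lit 24) (nat_lit 4) (nat_lit 361) (nat_lit 340) (nat_lit 319)) (XT.lf (nat_lit 0) (nat_lit 8732802659) (nat_lit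 152) (nat_lit 16296551934) (nat_lit 0) (nat_lit 1055702771) (nat_lit 22) (nat_lit 5) (nat_lit 24) (nat_lit 4) (nat_lit 22) (nat_lit 4) (nat_lit 362) (nat_lit 340) (nat_lit 318)))) (XT.nd (nat_lit 156) (nat_lit 152) (nat_lit 0) (XT.nd (nat_lit 78) (nat_lit 0) (nat_lit 0) (XT.lf (nat_lit 0) (nat_lit 282115468) (nat_lit 76) (nat_lit 18011116042) (nat_lit 76) (nat_lit 10285511761) (nat_lit 21) (nat_lit 4) (nat_lit 22) (nat_lit 5) (nat_lit 22) (nat_lit 4) (nat_lit 363) (nat_lit 340) (nat_lit 317)) (XT.lf (nat_lit 0) (nat_lit 20962818899) (nat_lit 76) (nat_lit 9069853555) (nat_lit 76) (nat_lit 1302071541) (nat_lit 21) (nat_lit 4) (nat_lit 22) (nat_lit 5) (nat_lit 22) (nat_lit 4) (nat_lit 364) (nat_lit 340) (nat_lit 316))) (XT.nd (nat_lit 78) (nat_lit 0) (nat_lit 0) (XT.lf (nat_lit 0) (nat_lit 8652012268) (nat_lit 152) (nat_lit 23866487641) (nat_lit 0) (nat_lit 1865526787) (nat_lit 19) (nat_lit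 5) (nat_lit 21) (nat_lit 4) (nat_lit 19) (nat_lit 4) (nat_lit 365) (nat_lit 340) (nat_lit 315)) (XT.lf (nat_lit 0) (nat_lit 20869298994) (nat_lit 152) (nat_lit 2821514368) (nat_lit 0) (nat_lit 14055080969) (nat_lit 19) (nat_lit 5) (nat_lit 21) (nat_lit 4) (nat_lit 19) (nat_lit 4) (nat_lit 366) (nat_lit 340) (nat_lit 314)))))) (XT.nd (nat_lit 546) (nat_lit 380) (nat_lit 0) (XT.nd (nat_lit 234) (nat_lit 304) (nat_lit 0) (XT.nd (nat_lit 78) (nat_lit 152) (nat_lit 0) (XT.lf (nat_lit 0) (nat_lit 23280152052) (nat_lit 76) (nat_lit 12519106829) (nat_lit 76) (nat_lit 5680773549) (nat_lit 18) (nat_lit 4) (nat_lit 19) (nat_lit 5) (nat_lit 19) (nat_lit 4) (nat_lit 367) (nat_lit 340) (nat_lit 313)) (XT.nd (nat_lit 78) (nat_lit 0) (nat_lit 0) (XT.lf (nat_lit 0) (nat_lit 7007920247) (nat_lit 152) (nat_lit 37610278650) (nat_lit 0) (nat_lit 1043308884) (nat_lit 16) (nat_lit 5) (nat_lit 18) (nat_lit 4) (nat_lit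 16) (nat_lit 4) (nat_lit 368) (nat_lit 340) (nat_lit 312)) (XT.lf (nat_lit 0) (nat_lit 22528065491) (nat_lit 152) (nat_lit 11127503016) (nat_lit 0) (nat_lit 16547597956) (nat_lit 16) (nat_lit 5) (nat_lit 18) (nat_lit 4) (nat_lit 16) (nat_lit 4) (nat_lit 369) (nat_lit 340) (nat_lit 311)))) (XT.nd (nat_lit 156) (nat_lit 152) (nat_lit 0) (XT.nd (nat_lit 78) (nat_lit 76) (nat_lit 0) (XT.lf (nat_lit 0) (nat_lit 21050953999) (nat_lit 76) (nat_lit 20124729569) (nat_lit 76) (nat_lit 14130474058) (nat_lit 15) (nat_lit 4) (nat_lit 16) (nat_lit 5) (nat_lit 16) (nat_lit 4) (nat_lit 370) (nat_lit 340) (nat_lit 310)) (XT.lf (nat_lit 0) (nat_lit 1854449807) (nat_lit 152) (nat_lit 2019177969) (nat_lit 76) (nat_lit 57211391955) (nat_lit 14) (nat_lit 5) (nat_lit 16) (nat_lit 5) (nat_lit 15) (nat_lit 4) (nat_lit 371) (nat_lit 340) (nat_lit 309))) (XT.nd (nat_lit 78) (nat_lit 76) (nat_lit 0) (XT.lf (nat_lit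 0) (nat_lit 21001297298) (nat_lit 152) (nat_lit 30527441617) (nat_lit 0) (nat_lit 15769409693) (nat_lit 13) (nat_lit 5) (nat_lit 15) (nat_lit 4) (nat_lit 13) (nat_lit 4) (nat_lit 372) (nat_lit 340) (nat_lit 308)) (XT.lf (nat_lit 0) (nat_lit 7527686021) (nat_lit 76) (nat_lit 36036839706) (nat_lit 76) (nat_lit 30797068781) (nat_lit 12) (nat_lit 4) (nat_lit 13) (nat_lit 5) (nat_lit 13) (nat_lit 4) (nat_lit 373) (nat_lit 340) (nat_lit 307))))) (XT.nd (nat_lit 234) (nat_lit 228) (nat_lit 0) (XT.nd (nat_lit 78) (nat_lit 152) (nat_lit 0) (XT.lf (nat_lit 0) (nat_lit 54596347838) (nat_lit 76) (nat_lit 16452195207) (nat_lit 76) (nat_lit 11205569221) (nat_lit 12) (nat_lit 4) (nat_lit 13) (nat_lit 5) (nat_lit 13) (nat_lit 4) (nat_lit 374) (nat_lit 340) (nat_lit 306)) (XT.nd (nat_lit 78) (nat_lit 0) (nat_lit 0) (XT.lf (nat_lit 0) (nat_lit 11334023491) (nat_lit 152) (nat_lit 73006953511) (nat_lit 0) (nat_lit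 6766556614) (nat_lit 10) (nat_lit 5) (nat_lit 12) (nat_lit 4) (nat_lit 10) (nat_lit 4) (nat_lit 375) (nat_lit 340) (nat_lit 305)) (XT.lf (nat_lit 0) (nat_lit 38351340752) (nat_lit 152) (nat_lit 28741618138) (nat_lit 0) (nat_lit 33779366561) (nat_lit 10) (nat_lit 5) (nat_lit 12) (nat_lit 4) (nat_lit 10) (nat_lit 4) (nat_lit 376) (nat_lit 340) (nat_lit 304)))) (XT.nd (nat_lit 156) (nat_lit 152) (nat_lit 0) (XT.nd (nat_lit 78) (nat_lit 0) (nat_lit 0) (XT.lf (nat_lit 0) (nat_lit 24220047196) (nat_lit 76) (nat_lit 46157146094) (nat_lit 76) (nat_lit 41581252500) (nat_lit 9) (nat_lit 4) (nat_lit 10) (nat_lit 5) (nat_lit 10) (nat_lit 4) (nat_lit 377) (nat_lit 340) (nat_lit 303)) (XT.lf (nat_lit 0) (nat_lit 88260953960) (nat_lit 76) (nat_lit 20403594317) (nat_lit 76) (nat_lit 15824292547) (nat_lit 9) (nat_lit 4) (nat_lit 10) (nat_lit 5) (nat_lit 10) (nat_lit 4) (nat_lit 378) (nat_lit 340) (nat_lit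 302))) (XT.nd (nat_lit 78) (nat_lit 0) (nat_lit 0) (XT.lf (nat_lit 0) (nat_lit 13998318099) (nat_lit 152) (nat_lit 114586495895) (nat_lit 0) (nat_lit 10013739489) (nat_lit 7) (nat_lit 5) (nat_lit 9) (nat_lit 4) (nat_lit 7) (nat_lit 4) (nat_lit 379) (nat_lit 340) (nat_lit 301)) (XT.lf (nat_lit 0) (nat_lit 49589004017) (nat_lit 152) (nat_lit 59083285632) (nat_lit 0) (nat_lit 45602184475) (nat_lit 7) (nat_lit 5) (nat_lit 9) (nat_lit 4) (nat_lit 7) (nat_lit 4) (nat_lit 380) (nat_lit 340) (nat_lit 300))))))))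
noncomputable def xc46 : XT := (XT.nd (nat_lit 2028) (nat_lit 0) (nat_lit 0) (XT.nd (nat_lit 1014) (nat_lit 76) (nat_lit 0) (XT.nd (nat_lit 468) (nat_lit 228) (nat_lit 0) (XT.nd (nat_lit 234) (nat_lit 76) (nat_lit 0) (XT.nd (nat_lit 78) (nat_lit 0) (nat_lit 0) (XT.lf (nat_lit 0) (nat_lit 5126286965) (nat_lit 76) (nat_lit 85568867509) (nat_lit 76) (nat_lit 81580099331) (nat_lit 6) (nat_lit 4) (nat_lit 7) (nat_lit 5) (nat_lit 7) (nat_lit 4) (nat_lit 381) (nat_lit 340) (nat_lit 299)) (XT.nd (nat_lit 78) (nat_lit 0) (nat_lit 0) (XT.lf (nat_lit 0) (nat_lit 85535386028) (nat_lit 76) (nat_lit 55486513227) (nat_lit 76) (nat_lit 51496050583) (nat_lit 6) (nat_lit 4) (nat_lit 7) (nat_lit 5) (nat_lit 7) (nat_lit 4) (nat_lit 382) (nat_lit 340) (nat_lit 298)) (XT.lf (nat_lit 0) (nat_lit 177943184690) (nat_lit 76) (nat_lit 20925103480) (nat_lit 76) (nat_lit 16933167386) (nat_lit 6) (nat_lit 4) (nat_lit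 7) (nat_lit 5) (nat_lit 7) (nat_lit 4) (nat_lit 383) (nat_lit 340) (nat_lit 297)))) (XT.nd (nat_lit 78) (nat_lit 0) (nat_lit 0) (XT.lf (nat_lit 0) (nat_lit 23514266310) (nat_lit 76) (nat_lit 198469936061) (nat_lit 0) (nat_lit 20041903394) (nat_lit 5) (nat_lit 5) (nat_lit 6) (nat_lit 4) (nat_lit 5) (nat_lit 4) (nat_lit 384) (nat_lit 340) (nat_lit 296)) (XT.nd (nat_lit 78) (nat_lit 0) (nat_lit 0) (XT.lf (nat_lit 0) (nat_lit 71338084578) (nat_lit 76) (nat_lit 132404229484) (nat_lit 0) (nat_lit 67864752845) (nat_lit 5) (nat_lit 5) (nat_lit 6) (nat_lit 4) (nat_lit 5) (nat_lit 4) (nat_lit 385) (nat_lit 340) (nat_lit 295)) (XT.lf (nat_lit 0) (nat_lit 126312239757) (nat_lit 76) (nat_lit 56478352344) (nat_lit 0) (nat_lit 122838065575) (nat_lit 5) (nat_lit 5) (nat_lit 6) (nat_lit 4) (nat_lit 5) (nat_lit 4) (nat_lit 386) (nat_lit 340) (nat_lit 294))))) (XT.nd (nat_lit 234) (nat_lit 152) (nat_lit 0)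 (XT.nd (nat_lit 78) (nat_lit 0) (nat_lit 0) (XT.lf (nat_lit 0) (nat_lit 33802537265) (nat_lit 76) (nat_lit 157109466863) (nat_lit 76) (nat_lit 153634560117) (nat_lit 4) (nat_lit 4) (nat_lit 5) (nat_lit 5) (nat_lit 5) (nat_lit 4) (nat_lit 387) (nat_lit 340) (nat_lit 293)) (XT.nd (nat_lit 78) (nat_lit 0) (nat_lit 0) (XT.lf (nat_lit 0) (nat_lit 143931716096) (nat_lit 76) (nat_lit 124203017248) (nat_lit 76) (nat_lit 120727473489) (nat_lit 4) (nat_lit 4) (nat_lit 5) (nat_lit 5) (nat_lit 5) (nat_lit 4) (nat_lit 388) (nat_lit 340) (nat_lit 292)) (XT.lf (nat_lit 0) (nat_lit 270544410128) (nat_lit 76) (nat_lit 86379698924) (nat_lit 76) (nat_lit 82903601242) (nat_lit 4) (nat_lit 4) (nat_lit 5) (nat_lit 5) (nat_lit 5) (nat_lit 4) (nat_lit 389) (nat_lit 340) (nat_lit 291)))) (XT.nd (nat_lit 156) (nat_lit 0) (nat_lit 0) (XT.nd (nat_lit 78) (nat_lit 152) (nat_lit 0) (XT.lf (nat_lit 0) (nat_lit 416117824247)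 (nat_lit 76) (nat_lit 42899490448) (nat_lit 76) (nat_lit 39422911092) (nat_lit 4) (nat_lit 4) (nat_lit 5) (nat_lit 5) (nat_lit 5) (nat_lit 4) (nat_lit 390) (nat_lit 340) (nat_lit 290)) (XT.lf (nat_lit 0) (nat_lit 10758869506) (nat_lit 152) (nat_lit 547116510582) (nat_lit 0) (nat_lit 7735392809) (nat_lit 2) (nat_lit 5) (nat_lit 4) (nat_lit 4) (nat_lit 2) (nat_lit 4) (nat_lit 391) (nat_lit 340) (nat_lit 289))) (XT.nd (nat_lit 78) (nat_lit 0) (nat_lit 0) (XT.lf (nat_lit 0) (nat_lit 70969458092) (nat_lit 152) (nat_lit 502679532689) (nat_lit 0) (nat_lit 67945664687) (nat_lit 2) (nat_lit 5) (nat_lit 4) (nat_lit 4) (nat_lit 2) (nat_lit 4) (nat_lit 392) (nat_lit 340) (nat_lit 288)) (XT.lf (nat_lit 0) (nat_lit 140200097305) (nat_lit 152) (nat_lit 451601725295) (nat_lit 0) (nat_lit 137176028502) (nat_lit 2) (nat_lit 5) (nat_lit 4) (nat_lit 4) (nat_lit 2) (nat_lit 4) (nat_lit 393) (nat_lit 340) (nat_lit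 287)))))) (XT.nd (nat_lit 468) (nat_lit 0) (nat_lit 0) (XT.nd (nat_lit 234) (nat_lit 76) (nat_lit 0) (XT.nd (nat_lit 78) (nat_lit 0) (nat_lit 0) (XT.lf (nat_lit 0) (nat_lit 219805299652) (nat_lit 152) (nat_lit 392883739993) (nat_lit 0) (nat_lit 216780991372) (nat_lit 2) (nat_lit 5) (nat_lit 4) (nat_lit 4) (nat_lit 2) (nat_lit 4) (nat_lit 394) (nat_lit 340) (nat_lit 286)) (XT.nd (nat_lit 78) (nat_lit 0) (nat_lit 0) (XT.lf (nat_lit 0) (nat_lit 311342558221) (nat_lit 152) (nat_lit 325376746637) (nat_lit 0) (nat_lit 308318041701) (nat_lit 2) (nat_lit 5) (nat_lit 4) (nat_lit 4) (nat_lit 2) (nat_lit 4) (nat_lit 395) (nat_lit 340) (nat_lit 285)) (XT.lf (nat_lit 0) (nat_lit 416602819376) (nat_lit 152) (nat_lit 247759956226) (nat_lit 0) (nat_lit 413578121777) (nat_lit 2) (nat_lit 5) (nat_lit 4) (nat_lit 4) (nat_lit 2) (nat_lit 4) (nat_lit 396) (nat_lit 340) (nat_lit 284)))) (XT.nd (nat_lit 78) (nat_lit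 76) (nat_lit 0) (XT.lf (nat_lit 0) (nat_lit 537645523010) (nat_lit 152) (nat_lit 158514779382) (nat_lit 0) (nat_lit 534620667951) (nat_lit 2) (nat_lit 5) (nat_lit 4) (nat_lit 4) (nat_lit 2) (nat_lit 4) (nat_lit 397) (nat_lit 340) (nat_lit 283)) (XT.nd (nat_lit 78) (nat_lit 76) (nat_lit 0) (XT.lf (nat_lit 0) (nat_lit 676838895932) (nat_lit 152) (nat_lit 55895114819) (nat_lit 0) (nat_lit 673813903951) (nat_lit 2) (nat_lit 5) (nat_lit 4) (nat_lit 4) (nat_lit 2) (nat_lit 4) (nat_lit 398) (nat_lit 340) (nat_lit 282)) (XT.lf (nat_lit 0) (nat_lit 68176343009) (nat_lit 76) (nat_lit 771552980710) (nat_lit 76) (nat_lit 768527869668) (nat_lit 1) (nat_lit 4) (nat_lit 2) (nat_lit 5) (nat_lit 2) (nat_lit 4) (nat_lit 399) (nat_lit 340) (nat_lit 281))))) (XT.nd (nat_lit 234) (nat_lit 0) (nat_lit 0) (XT.nd (nat_lit 78) (nat_lit 0) (nat_lit 0) (XT.lf (nat_lit 0) (nat_lit 217130168016) (nat_lit 76) (nat_lit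 812840177950) (nat_lit 76) (nat_lit 809814963375) (nat_lit 1) (nat_lit 4) (nat_lit 2) (nat_lit 5) (nat_lit 2) (nat_lit 4) (nat_lit 400) (nat_lit 340) (nat_lit 280)) (XT.nd (nat_lit 78) (nat_lit 0) (nat_lit 0) (XT.lf (nat_lit 0) (nat_lit 388418197038) (nat_lit 76) (nat_lit 860325185554) (nat_lit 76) (nat_lit 857299880950) (nat_lit 1) (nat_lit 4) (nat_lit 2) (nat_lit 5) (nat_lit 2) (nat_lit 4) (nat_lit 401) (nat_lit 340) (nat_lit 279)) (XT.lf (nat_lit 0) (nat_lit 585391717600) (nat_lit 76) (nat_lit 914937058017) (nat_lit 76) (nat_lit 911911675128) (nat_lit 1) (nat_lit 4) (nat_lit 2) (nat_lit 5) (nat_lit 2) (nat_lit 4) (nat_lit 402) (nat_lit 340) (nat_lit 278)))) (XT.nd (nat_lit 156) (nat_lit 0) (nat_lit 0) (XT.nd (nat_lit 78) (nat_lit 0) (nat_lit 0) (XT.lf (nat_lit 0) (nat_lit 811904559451) (nat_lit 76) (nat_lit 977744288496) (nat_lit 76) (nat_lit 974718837534) (nat_lit 1) (nat_lit 4) (nat_lit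 2) (nat_lit 5) (nat_lit 2) (nat_lit 4) (nat_lit 403) (nat_lit 340) (nat_lit 277)) (XT.lf (nat_lit 0) (nat_lit 1072388495585) (nat_lit 76) (nat_lit 1049975714111) (nat_lit 76) (nat_lit 1046950203953) (nat_lit 1) (nat_lit 4) (nat_lit 2) (nat_lit 5) (nat_lit 2) (nat_lit 4) (nat_lit 404) (nat_lit 340) (nat_lit 276))) (XT.nd (nat_lit 78) (nat_lit 0) (nat_lit 0) (XT.lf (nat_lit 0) (nat_lit 1371939950838) (nat_lit 76) (nat_lit 1133044558404) (nat_lit 76) (nat_lit 1130018996773) (nat_lit 1) (nat_lit 4) (nat_lit 2) (nat_lit 5) (nat_lit 2) (nat_lit 4) (nat_lit 405) (nat_lit 340) (nat_lit 275)) (XT.lf (nat_lit 0) (nat_lit 1716419714553) (nat_lit 76) (nat_lit 1228576081375) (nat_lit 76) (nat_lit 1225550474983) (nat_lit 1) (nat_lit 4) (nat_lit 2) (nat_lit 5) (nat_lit 2) (nat_lit 4) (nat_lit 406) (nat_lit 340) (nat_lit 274))))))) (XT.nd (nat_lit 1014) (nat_lit 0) (nat_lit 0) (XT.nd (nat_lit 468) (nat_lit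 0) (nat_lit 0) (XT.nd (nat_lit 234) (nat_lit 0) (nat_lit 0) (XT.nd (nat_lit 78) (nat_lit 0) (nat_lit 0) (XT.lf (nat_lit 0) (nat_lit 2112567608194) (nat_lit 76) (nat_lit 1338439378036) (nat_lit 76) (nat_lit 1335413732723) (nat_lit 1) (nat_lit 4) (nat_lit 2) (nat_lit 5) (nat_lit 2) (nat_lit 4) (nat_lit 407) (nat_lit 340) (nat_lit 273)) (XT.nd (nat_lit 78) (nat_lit 0) (nat_lit 0) (XT.lf (nat_lit 0) (nat_lit 2568134351418) (nat_lit 76) (nat_lit 1464783947671) (nat_lit 76) (nat_lit 1461758268513) (nat_lit 1) (nat_lit 4) (nat_lit 2) (nat_lit 5) (nat_lit 2) (nat_lit 4) (nat_lit 408) (nat_lit 340) (nat_lit 272)) (XT.lf (nat_lit 0) (nat_lit 3092033206594) (nat_lit 76) (nat_lit 1610081749250) (nat_lit 76) (nat_lit 1607056040662) (nat_lit 1) (nat_lit 4) (nat_lit 2) (nat_lit 5) (nat_lit 2) (nat_lit 4) (nat_lit 409) (nat_lit 340) (nat_lit 271)))) (XT.nd (nat_lit 78) (nat_lit 0) (nat_lit 0) (XT.lf (nat_lit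 0) (nat_lit 3694514368714) (nat_lit 76) (nat_lit 1777175565849) (nat_lit 76) (nat_lit 1774149831669) (nat_lit 1) (nat_lit 4) (nat_lit 2) (nat_lit 5) (nat_lit 2) (nat_lit 4) (nat_lit 410) (nat_lit 340) (nat_lit 270)) (XT.nd (nat_lit 78) (nat_lit 0) (nat_lit 0) (XT.lf (nat_lit 0) (nat_lit 4387365512688) (nat_lit 76) (nat_lit 1969334624313) (nat_lit 76) (nat_lit 1966308867879) (nat_lit 1) (nat_lit 4) (nat_lit 2) (nat_lit 5) (nat_lit 2) (nat_lit 4) (nat_lit 411) (nat_lit 340) (nat_lit 269)) (XT.lf (nat_lit 0) (nat_lit 5184142421769) (nat_lit 76) (nat_lit 2190318558395) (nat_lit 76) (nat_lit 2187292782611) (nat_lit 1) (nat_lit 4) (nat_lit 2) (nat_lit 5) (nat_lit 2) (nat_lit 4) (nat_lit 412) (nat_lit 340) (nat_lit 268))))) (XT.nd (nat_lit 234) (nat_lit 0) (nat_lit 0) (XT.nd (nat_lit 78) (nat_lit 0) (nat_lit 0) (XT.lf (nat_lit 0) (nat_lit 6100434209396) (nat_lit 76) (nat_lit 2444450966806) (nat_lit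 76) (nat_lit 2441425174194) (nat_lit 1) (nat_lit 4) (nat_lit 2) (nat_lit 5) (nat_lit 2) (nat_lit 4) (nat_lit 413) (nat_lit 340) (nat_lit 267)) (XT.nd (nat_lit 78) (nat_lit 0) (nat_lit 0) (XT.lf (nat_lit 0) (nat_lit 7154168323586) (nat_lit 76) (nat_lit 2736704005361) (nat_lit 76) (nat_lit 2733678198118) (nat_lit 1) (nat_lit 4) (nat_lit 2) (nat_lit 5) (nat_lit 2) (nat_lit 4) (nat_lit 414) (nat_lit 340) (nat_lit 266)) (XT.lf (nat_lit 0) (nat_lit 8365961301357) (nat_lit 76) (nat_lit 3072795668295) (nat_lit 76) (nat_lit 3069769848328) (nat_lit 1) (nat_lit 4) (nat_lit 2) (nat_lit 5) (nat_lit 2) (nat_lit 4) (nat_lit 415) (nat_lit 340) (nat_lit 265)))) (XT.nd (nat_lit 156) (nat_lit 0) (nat_lit 0) (XT.nd (nat_lit 78) (nat_lit 0) (nat_lit 0) (XT.lf (nat_lit 0) (nat_lit 9759522135752) (nat_lit 76) (nat_lit 3459301662055) (nat_lit 76) (nat_lit 3456275831024) (nat_lit 1) (nat_lit 4) (nat_lit 2) (nat_lit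 5) (nat_lit 2) (nat_lit 4) (nat_lit 416) (nat_lit 340) (nat_lit 264)) (XT.lf (nat_lit 0) (nat_lit 11362116147443) (nat_lit 76) (nat_lit 3903784060432) (nat_lit 76) (nat_lit 3900758219780) (nat_lit 1) (nat_lit 4) (nat_lit 2) (nat_lit 5) (nat_lit 2) (nat_lit 4) (nat_lit 417) (nat_lit 340) (nat_lit 263))) (XT.nd (nat_lit 78) (nat_lit 0) (nat_lit 0) (XT.lf (nat_lit 0) (nat_lit 13205098436661) (nat_lit 76) (nat_lit 4414939258178) (nat_lit 76) (nat_lit 4411913409160) (nat_lit 1) (nat_lit 4) (nat_lit 2) (nat_lit 5) (nat_lit 2) (nat_lit 4) (nat_lit 418) (nat_lit 340) (nat_lit 262)) (XT.lf (nat_lit 0) (nat_lit 15324527352541) (nat_lit 76) (nat_lit 5002768117856) (nat_lit 76) (nat_lit 4999742261563) (nat_lit 1) (nat_lit 4) (nat_lit 2) (nat_lit 5) (nat_lit 2) (nat_lit 4) (nat_lit 419) (nat_lit 340) (nat_lit 261)))))) (XT.nd (nat_lit 546) (nat_lit 0) (nat_lit 0) (XT.nd (nat_lit 234) (nat_lit 0) (nat_lit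 0) (XT.nd (nat_lit 78) (nat_lit 0) (nat_lit 0) (XT.lf (nat_lit 0) (nat_lit 17761869982568) (nat_lit 76) (nat_lit 5678771638896) (nat_lit 76) (nat_lit 5675745776277) (nat_lit 1) (nat_lit 4) (nat_lit 2) (nat_lit 5) (nat_lit 2) (nat_lit 4) (nat_lit 420) (nat_lit 340) (nat_lit 260)) (XT.nd (nat_lit 78) (nat_lit 0) (nat_lit 0) (XT.lf (nat_lit 0) (nat_lit 20564813465156) (nat_lit 76) (nat_lit 6456175977143) (nat_lit 76) (nat_lit 6453150109024) (nat_lit 1) (nat_lit 4) (nat_lit 2) (nat_lit 5) (nat_lit 2) (nat_lit 4) (nat_lit 421) (nat_lit 340) (nat_lit 259)) (XT.lf (nat_lit 0) (nat_lit 23788197998877) (nat_lit 76) (nat_lit 7350191217477) (nat_lit 76) (nat_lit 7347165344575) (nat_lit 1) (nat_lit 4) (nat_lit 2) (nat_lit 5) (nat_lit 2) (nat_lit 4) (nat_lit 422) (nat_lit 340) (nat_lit 258)))) (XT.nd (nat_lit 156) (nat_lit 0) (nat_lit 0) (XT.nd (nat_lit 78) (nat_lit 0) (nat_lit 0) (XT.lf (nat_lit 0)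 (nat_lit 27495089802869) (nat_lit 76) (nat_lit 8378308962426) (nat_lit 76) (nat_lit 8375283085364) (nat_lit 1) (nat_lit 4) (nat_lit 2) (nat_lit 5) (nat_lit 2) (nat_lit 4) (nat_lit 423) (nat_lit 340) (nat_lit 257)) (XT.lf (nat_lit 0) (nat_lit 31758015021124) (nat_lit 76) (nat_lit 9560644559173) (nat_lit 76) (nat_lit 9557618678495) (nat_lit 1) (nat_lit 4) (nat_lit 2) (nat_lit 5) (nat_lit 2) (nat_lit 4) (nat_lit 424) (nat_lit 340) (nat_lit 256))) (XT.nd (nat_lit 78) (nat_lit 0) (nat_lit 0) (XT.lf (nat_lit 0) (nat_lit 36660378712259) (nat_lit 76) (nat_lit 10920330660699) (nat_lit 76) (nat_lit 10917304776876) (nat_lit 1) (nat_lit 4) (nat_lit 2) (nat_lit 5) (nat_lit 2) (nat_lit 4) (nat_lit 425) (nat_lit 340) (nat_lit 255)) (XT.lf (nat_lit 0) (nat_lit 42298096687622) (nat_lit 76) (nat_lit 12483969821164) (nat_lit 76) (nat_lit 12480943934605) (nat_lit 1) (nat_lit 4) (nat_lit 2) (nat_lit 5) (nat_lit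 2) (nat_lit 4) (nat_lit 426) (nat_lit 340) (nat_lit 254))))) (XT.nd (nat_lit 234) (nat_lit 0) (nat_lit 0) (XT.nd (nat_lit 78) (nat_lit 0) (nat_lit 0) (XT.lf (nat_lit 0) (nat_lit 48781472124993) (nat_lit 76) (nat_lit 14282154980663) (nat_lit 76) (nat_lit 14279129091727) (nat_lit 1) (nat_lit 4) (nat_lit 2) (nat_lit 5) (nat_lit 2) (nat_lit 4) (nat_lit 427) (nat_lit 340) (nat_lit 253)) (XT.nd (nat_lit 78) (nat_lit 0) (nat_lit 0) (XT.lf (nat_lit 0) (nat_lit 56237353674233) (nat_lit 76) (nat_lit 16350068022752) (nat_lit 76) (nat_lit 16347042131748) (nat_lit 1) (nat_lit 4) (nat_lit 2) (nat_lit 5) (nat_lit 2) (nat_lit 4) (nat_lit 428) (nat_lit 340) (nat_lit 252)) (XT.lf (nat_lit 0) (nat_lit 64811617278697) (nat_lit 76) (nat_lit 18728168115647) (nat_lit 76) (nat_lit 18725142222844) (nat_lit 1) (nat_lit 4) (nat_lit 2) (nat_lit 5) (nat_lit 2) (nat_lit 4) (nat_lit 429) (nat_lit 340) (nat_lit 251))))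 (XT.nd (nat_lit 156) (nat_lit 0) (nat_lit 0) (XT.nd (nat_lit 78) (nat_lit 0) (nat_lit 0) (XT.lf (nat_lit 0) (nat_lit 74672020269776) (nat_lit 76) (nat_lit 21462983304642) (nat_lit 76) (nat_lit 21459957410276) (nat_lit 1) (nat_lit 4) (nat_lit 2) (nat_lit 5) (nat_lit 2) (nat_lit 4) (nat_lit 430) (nat_lit 340) (nat_lit 250)) (XT.lf (nat_lit 0) (nat_lit 86011483575557) (nat_lit 76) (nat_lit 24608020843436) (nat_lit 76) (nat_lit 24604994947710) (nat_lit 1) (nat_lit 4) (nat_lit 2) (nat_lit 5) (nat_lit 2) (nat_lit 4) (nat_lit 431) (nat_lit 340) (nat_lit 249))) (XT.nd (nat_lit 78) (nat_lit 0) (nat_lit 0) (XT.lf (nat_lit 0) (nat_lit 99051866260718) (nat_lit 76) (nat_lit 28224814075178) (nat_lit 76) (nat_lit 28221788178270) (nat_lit 1) (nat_lit 4) (nat_lit 2) (nat_lit 5) (nat_lit 2) (nat_lit 4) (nat_lit 432) (nat_lit 340) (nat_lit 248)) (XT.lf (nat_lit 0) (nat_lit 114048306247360) (nat_lit 76) (nat_lit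 32384126345708) (nat_lit 76) (nat_lit 32381100447771) (nat_lit 1) (nat_lit 4) (nat_lit 2) (nat_lit 5) (nat_lit 2) (nat_lit 4) (nat_lit 433) (nat_lit 340) (nat_lit 247))))))))
noncomputable def xc47 : XT := (XT.nd (nat_lit 47892) (nat_lit 0) (nat_lit 76) (XT.nd (nat_lit 46800) (nat_lit 0) (nat_lit 1368) (XT.nd (nat_lit 46254) (nat_lit 0) (nat_lit 2432) (XT.nd (nat_lit 46020) (nat_lit 0) (nat_lit 3572) (XT.nd (nat_lit 45864) (nat_lit 0) (nat_lit 3724) (XT.lf (nat_lit 0) (nat_lit 131294212143917) (nat_lit 76) (nat_lit 37167335503796) (nat_lit 76) (nat_lit 37164309604965) (nat_lit 1) (nat_lit 4) (nat_lit 2) (nat_lit 5) (nat_lit 2) (nat_lit 4) (nat_lit 434) (nat_lit 340) (nat_lit 246)) (XT.nd (nat_lit 78) (nat_lit 228) (nat_lit 0) (XT.lf (nat_lit 0) (nat_lit 1469321256) (nat_lit 0) (nat_lit 1469321256) (nat_lit 76) (nat_lit 323701703) (nat_lit 53) (nat_lit 5) (nat_lit 53) (nat_lit 3) (nat_lit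 54) (nat_lit 0) (nat_lit 341) (nat_lit 341) (nat_lit 338)) (XT.lf (nat_lit 0) (nat_lit 1795314168) (nat_lit 228) (nat_lit 305245426) (nat_lit 228) (nat_lit 4552535901) (nat_lit 50) (nat_lit 3) (nat_lit 53) (nat_lit 3) (nat_lit 53) (nat_lit 5) (nat_lit 342) (nat_lit 341) (nat_lit 337)))) (XT.nd (nat_lit 78) (nat_lit 152) (nat_lit 0) (XT.lf (nat_lit 76) (nat_lit 3499613245) (nat_lit 0) (nat_lit 750907256) (nat_lit 228) (nat_lit 2588919322) (nat_lit 51) (nat_lit 5) (nat_lit 50) (nat_lit 3) (nat_lit 53) (nat_lit 5) (nat_lit 343) (nat_lit 341) (nat_lit 336)) (XT.nd (nat_lit 78) (nat_lit 76) (nat_lit 0) (XT.lf (nat_lit 0) (nat_lit 573635731) (nat_lit 152) (nat_lit 6194201837) (nat_lit 228) (nat_lit 331958500) (nat_lit 49) (nat_lit 5) (nat_lit 51) (nat_lit 5) (nat_lit 52) (nat_lit 4) (nat_lit 344) (nat_lit 341) (nat_lit 335)) (XT.lf (nat_lit 0) (nat_lit 1922083725) (nat_lit 228) (nat_lit 2384446080)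 (nat_lit 76) (nat_lit 3099710455) (nat_lit 48) (nat_lit 5) (nat_lit 51) (nat_lit 5) (nat_lit 49) (nat_lit 5) (nat_lit 345) (nat_lit 341) (nat_lit 334))))) (XT.nd (nat_lit 234) (nat_lit 532) (nat_lit 0) (XT.nd (nat_lit 78) (nat_lit 380) (nat_lit 0) (XT.lf (nat_lit 0) (nat_lit 2285209515) (nat_lit 228) (nat_lit 1977837050) (nat_lit 304) (nat_lit 3525901898) (nat_lit 45) (nat_lit 5) (nat_lit 48) (nat_lit 5) (nat_lit 49) (nat_lit 5) (nat_lit 346) (nat_lit 341) (nat_lit 333)) (XT.nd (nat_lit 78) (nat_lit 380) (nat_lit 0) (XT.lf (nat_lit 0) (nat_lit 6833048370) (nat_lit 304) (nat_lit 633182624) (nat_lit 76) (nat_lit 781224757) (nat_lit 45) (nat_lit 5) (nat_lit 49) (nat_lit 5) (nat_lit 46) (nat_lit 4) (nat_lit 347) (nat_lit 341) (nat_lit 332)) (XT.lf (nat_lit 0) (nat_lit 984762763) (nat_lit 380) (nat_lit 3757756948) (nat_lit 76) (nat_lit 4016799516) (nat_lit 40) (nat_lit 5) (nat_lit 45) (nat_lit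 5) (nat_lit 41) (nat_lit 5) (nat_lit 348) (nat_lit 341) (nat_lit 331)))) (XT.nd (nat_lit 156) (nat_lit 380) (nat_lit 0) (XT.nd (nat_lit 78) (nat_lit 0) (nat_lit 0) (XT.lf (nat_lit 0) (nat_lit 2041228696) (nat_lit 152) (nat_lit 1442582347) (nat_lit 228) (nat_lit 5871377275) (nat_lit 38) (nat_lit 5) (nat_lit 40) (nat_lit 5) (nat_lit 41) (nat_lit 5) (nat_lit 349) (nat_lit 341) (nat_lit 330)) (XT.lf (nat_lit 0) (nat_lit 6443756679) (nat_lit 228) (nat_lit 1283882169) (nat_lit 76) (nat_lit 2299936955) (nat_lit 38) (nat_lit 5) (nat_lit 41) (nat_lit 5) (nat_lit 39) (nat_lit 4) (nat_lit 350) (nat_lit 341) (nat_lit 329))) (XT.nd (nat_lit 78) (nat_lit 228) (nat_lit 0) (XT.lf (nat_lit 0) (nat_lit 5842564890) (nat_lit 152) (nat_lit 4126927964) (nat_lit 228) (nat_lit 813097051) (nat_lit 36) (nat_lit 5) (nat_lit 38) (nat_lit 5) (nat_lit 39) (nat_lit 4) (nat_lit 351) (nat_lit 341) (nat_lit 328)) (XT.lf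 (nat_lit 0) (nat_lit 2158176204) (nat_lit 228) (nat_lit 9261249840) (nat_lit 76) (nat_lit 217284784) (nat_lit 33) (nat_lit 5) (nat_lit 36) (nat_lit 5) (nat_lit 34) (nat_lit 4) (nat_lit 352) (nat_lit 341) (nat_lit 327)))))) (XT.nd (nat_lit 546) (nat_lit 532) (nat_lit 0) (XT.nd (nat_lit 234) (nat_lit 228) (nat_lit 0) (XT.nd (nat_lit 78) (nat_lit 304) (nat_lit 0) (XT.lf (nat_lit 0) (nat_lit 5786003706) (nat_lit 228) (nat_lit 1759857938) (nat_lit 76) (nat_lit 5023189255) (nat_lit 33) (nat_lit 5) (nat_lit 36) (nat_lit 5) (nat_lit 34) (nat_lit 4) (nat_lit 353) (nat_lit 341) (nat_lit 326)) (XT.nd (nat_lit 78) (nat_lit 228) (nat_lit 0) (XT.lf (nat_lit 0) (nat_lit 7274768804) (nat_lit 76) (nat_lit 2834089495) (nat_lit 152) (nat_lit 3509777636) (nat_lit 32) (nat_lit 5) (nat_lit 33) (nat_lit 5) (nat_lit 34) (nat_lit 4) (nat_lit 354) (nat_lit 341) (nat_lit 325)) (XT.lf (nat_lit 0) (nat_lit 422368850)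 (nat_lit 228) (nat_lit 11861418242) (nat_lit 76) (nat_lit 2511726217) (nat_lit 29) (nat_lit 5) (nat_lit 32) (nat_lit 5) (nat_lit 30) (nat_lit 4) (nat_lit 355) (nat_lit 341) (nat_lit 324)))) (XT.nd (nat_lit 156) (nat_lit 152) (nat_lit 0) (XT.nd (nat_lit 78) (nat_lit 76) (nat_lit 0) (XT.lf (nat_lit 0) (nat_lit 4926065686) (nat_lit 228) (nat_lit 2349102497) (nat_lit 76) (nat_lit 8797539249) (nat_lit 29) (nat_lit 5) (nat_lit 32) (nat_lit 5) (nat_lit 30) (nat_lit 4) (nat_lit 356) (nat_lit 341) (nat_lit 323)) (XT.lf (nat_lit 0) (nat_lit 9192093247) (nat_lit 76) (nat_lit 1170982574) (nat_lit 152) (nat_lit 7139753557) (nat_lit 28) (nat_lit 5) (nat_lit 29) (nat_lit 5) (nat_lit 30) (nat_lit 4) (nat_lit 357) (nat_lit 341) (nat_lit 322))) (XT.nd (nat_lit 78) (nat_lit 76) (nat_lit 0) (XT.lf (nat_lit 0) (nat_lit 3437383254) (nat_lit 76) (nat_lit 13572256061) (nat_lit 76) (nat_lit 2078740914) (nat_lit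 27) (nat_lit 4) (nat_lit 28) (nat_lit 5) (nat_lit 28) (nat_lit 4) (nat_lit 358) (nat_lit 341) (nat_lit 321)) (XT.lf (nat_lit 0) (nat_lit 3801536386) (nat_lit 152) (nat_lit 3417771574) (nat_lit 76) (nat_lit 13610245298) (nat_lit 26) (nat_lit 5) (nat_lit 28) (nat_lit 5) (nat_lit 27) (nat_lit 4) (nat_lit 359) (nat_lit 341) (nat_lit 320))))) (XT.nd (nat_lit 234) (nat_lit 304) (nat_lit 0) (XT.nd (nat_lit 78) (nat_lit 152) (nat_lit 0) (XT.lf (nat_lit 0) (nat_lit 10746543743) (nat_lit 152) (nat_lit 11417611577) (nat_lit 0) (nat_lit 593579141) (nat_lit 25) (nat_lit 5) (nat_lit 27) (nat_lit 4) (nat_lit 25) (nat_lit 4) (nat_lit 360) (nat_lit 341) (nat_lit 319)) (XT.nd (nat_lit 78) (nat_lit 76) (nat_lit 0) (XT.lf (nat_lit 0) (nat_lit 3513190751) (nat_lit 76) (nat_lit 15796319395) (nat_lit 76) (nat_lit 5579207733) (nat_lit 24) (nat_lit 4) (nat_lit 25) (nat_lit 5) (nat_lit 25) (nat_lit 4) (nat_lit 361)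 (nat_lit 341) (nat_lit 318)) (XT.lf (nat_lit 0) (nat_lit 2181655354) (nat_lit 152) (nat_lit 5582332700) (nat_lit 76) (nat_lit 19485191858) (nat_lit 23) (nat_lit 5) (nat_lit 25) (nat_lit 5) (nat_lit 24) (nat_lit 4) (nat_lit 362) (nat_lit 341) (nat_lit 317)))) (XT.nd (nat_lit 156) (nat_lit 152) (nat_lit 0) (XT.nd (nat_lit 78) (nat_lit 76) (nat_lit 0) (XT.lf (nat_lit 0) (nat_lit 11097523133) (nat_lit 152) (nat_lit 16619632668) (nat_lit 0) (nat_lit 2122396084) (nat_lit 22) (nat_lit 5) (nat_lit 24) (nat_lit 4) (nat_lit 22) (nat_lit 4) (nat_lit 363) (nat_lit 341) (nat_lit 316)) (XT.lf (nat_lit 0) (nat_lit 2349407478) (nat_lit 76) (nat_lit 19688876100) (nat_lit 76) (nat_lit 10677072761) (nat_lit 21) (nat_lit 4) (nat_lit 22) (nat_lit 5) (nat_lit 22) (nat_lit 4) (nat_lit 364) (nat_lit 341) (nat_lit 315))) (XT.nd (nat_lit 78) (nat_lit 152) (nat_lit 0) (XT.lf (nat_lit 0) (nat_lit 25868089290) (nat_lit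 76) (nat_lit 9539977372) (nat_lit 76) (nat_lit 496281608) (nat_lit 21) (nat_lit 4) (nat_lit 22) (nat_lit 5) (nat_lit 22) (nat_lit 4) (nat_lit 365) (nat_lit 341) (nat_lit 314)) (XT.lf (nat_lit 0) (nat_lit 10853216465) (nat_lit 152) (nat_lit 25587860748) (nat_lit 0) (nat_lit 2965017936) (nat_lit 19) (nat_lit 5) (nat_lit 21) (nat_lit 4) (nat_lit 19) (nat_lit 4) (nat_lit 366) (nat_lit 341) (nat_lit 313))))))) (XT.nd (nat_lit 1014) (nat_lit 532) (nat_lit 0) (XT.nd (nat_lit 468) (nat_lit 380) (nat_lit 0) (XT.nd (nat_lit 234) (nat_lit 152) (nat_lit 0) (XT.nd (nat_lit 78) (nat_lit 228) (nat_lit 0) (XT.lf (nat_lit 0) (nat_lit 24785261110) (nat_lit 152) (nat_lit 1628567577) (nat_lit 0) (nat_lit 16876092794) (nat_lit 19) (nat_lit 5) (nat_lit 21) (nat_lit 4) (nat_lit 19) (nat_lit 4) (nat_lit 367) (nat_lit 341) (nat_lit 312)) (XT.nd (nat_lit 78) (nat_lit 152) (nat_lit 0) (XT.lf (nat_lit 0) (nat_lit 28314886355)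 (nat_lit 76) (nat_lit 13601243723) (nat_lit 76) (nat_lit 5673840809) (nat_lit 18) (nat_lit 4) (nat_lit 19) (nat_lit 5) (nat_lit 19) (nat_lit 4) (nat_lit 368) (nat_lit 341) (nat_lit 311)) (XT.lf (nat_lit 0) (nat_lit 8836776723) (nat_lit 152) (nat_lit 41627697645) (nat_lit 0) (nat_lit 1929594909) (nat_lit 16) (nat_lit 5) (nat_lit 18) (nat_lit 4) (nat_lit 16) (nat_lit 4) (nat_lit 369) (nat_lit 341) (nat_lit 310)))) (XT.nd (nat_lit 78) (nat_lit 152) (nat_lit 0) (XT.lf (nat_lit 0) (nat_lit 26583508739) (nat_lit 152) (nat_lit 11384347770) (nat_lit 0) (nat_lit 19664337381) (nat_lit 16) (nat_lit 5) (nat_lit 18) (nat_lit 4) (nat_lit 16) (nat_lit 4) (nat_lit 370) (nat_lit 341) (nat_lit 309)) (XT.nd (nat_lit 78) (nat_lit 76) (nat_lit 0) (XT.lf (nat_lit 0) (nat_lit 25556683220) (nat_lit 76) (nat_lit 22439203320) (nat_lit 76) (nat_lit 15509606271) (nat_lit 15) (nat_lit 4) (nat_lit 16) (nat_lit 5) (nat_lit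 16) (nat_lit 4) (nat_lit 371) (nat_lit 341) (nat_lit 308)) (XT.lf (nat_lit 0) (nat_lit 2719156326) (nat_lit 152) (nat_lit 1092476765) (nat_lit 76) (nat_lit 66348150506) (nat_lit 14) (nat_lit 5) (nat_lit 16) (nat_lit 5) (nat_lit 15) (nat_lit 4) (nat_lit 372) (nat_lit 341) (nat_lit 307))))) (XT.nd (nat_lit 234) (nat_lit 228) (nat_lit 0) (XT.nd (nat_lit 78) (nat_lit 76) (nat_lit 0) (XT.lf (nat_lit 0) (nat_lit 24735593844) (nat_lit 152) (nat_lit 33874535701) (nat_lit 0) (nat_lit 18695118899) (nat_lit 13) (nat_lit 5) (nat_lit 15) (nat_lit 4) (nat_lit 13) (nat_lit 4) (nat_lit 373) (nat_lit 341) (nat_lit 306)) (XT.nd (nat_lit 78) (nat_lit 0) (nat_lit 0) (XT.lf (nat_lit 0) (nat_lit 9832860076) (nat_lit 76) (nat_lit 40822955779) (nat_lit 76) (nat_lit 34776519912) (nat_lit 12) (nat_lit 4) (nat_lit 13) (nat_lit 5) (nat_lit 13) (nat_lit 4) (nat_lit 374) (nat_lit 341) (nat_lit 305)) (XT.lf (nat_lit 0)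 (nat_lit 63808427102) (nat_lit 76) (nat_lit 18381407198) (nat_lit 76) (nat_lit 12329787921) (nat_lit 12) (nat_lit 4) (nat_lit 13) (nat_lit 5) (nat_lit 13) (nat_lit 4) (nat_lit 375) (nat_lit 341) (nat_lit 304)))) (XT.nd (nat_lit 156) (nat_lit 76) (nat_lit 0) (XT.nd (nat_lit 78) (nat_lit 0) (nat_lit 0) (XT.lf (nat_lit 0) (nat_lit 13539796415) (nat_lit 152) (nat_lit 82884413360) (nat_lit 0) (nat_lit 8273599379) (nat_lit 10) (nat_lit 5) (nat_lit 12) (nat_lit 4) (nat_lit 10) (nat_lit 4) (nat_lit 376) (nat_lit 341) (nat_lit 303)) (XT.lf (nat_lit 0) (nat_lit 44543754386) (nat_lit 152) (nat_lit 32119310270) (nat_lit 0) (nat_lit 39274149174) (nat_lit 10) (nat_lit 5) (nat_lit 12) (nat_lit 4) (nat_lit 10) (nat_lit 4) (nat_lit 377) (nat_lit 341) (nat_lit 302))) (XT.nd (nat_lit 78) (nat_lit 0) (nat_lit 0) (XT.lf (nat_lit 0) (nat_lit 28744170747) (nat_lit 76) (nat_lit 52608859484) (nat_lit 76) (nat_lit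 47336290639) (nat_lit 9) (nat_lit 4) (nat_lit 10) (nat_lit 5) (nat_lit 10) (nat_lit 4) (nat_lit 378) (nat_lit 341) (nat_lit 301)) (XT.lf (nat_lit 0) (nat_lit 102274980942) (nat_lit 76) (nat_lit 23053821705) (nat_lit 76) (nat_lit 17778675789) (nat_lit 9) (nat_lit 4) (nat_lit 10) (nat_lit 5) (nat_lit 10) (nat_lit 4) (nat_lit 379) (nat_lit 341) (nat_lit 300)))))) (XT.nd (nat_lit 546) (nat_lit 228) (nat_lit 0) (XT.nd (nat_lit 234) (nat_lit 76) (nat_lit 0) (XT.nd (nat_lit 78) (nat_lit 76) (nat_lit 0) (XT.lf (nat_lit 0) (nat_lit 16479308198) (nat_lit 152) (nat_lit 130961563757) (nat_lit 0) (nat_lit 11890276157) (nat_lit 7) (nat_lit 5) (nat_lit 9) (nat_lit 4) (nat_lit 7) (nat_lit 4) (nat_lit 380) (nat_lit 341) (nat_lit 299)) (XT.nd (nat_lit 78) (nat_lit 76) (nat_lit 0) (XT.lf (nat_lit 0) (nat_lit 57358869736) (nat_lit 152) (nat_lit 67238903241) (nat_lit 0) (nat_lit 52768143229) (nat_lit 7) (nat_lit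 5) (nat_lit 9) (nat_lit 4) (nat_lit 7) (nat_lit 4) (nat_lit 381) (nat_lit 341) (nat_lit 298)) (XT.lf (nat_lit 0) (nat_lit 6569974554) (nat_lit 76) (nat_lit 98045666838) (nat_lit 76) (nat_lit 93453466882) (nat_lit 6) (nat_lit 4) (nat_lit 7) (nat_lit 5) (nat_lit 7) (nat_lit 4) (nat_lit 382) (nat_lit 341) (nat_lit 297)))) (XT.nd (nat_lit 156) (nat_lit 76) (nat_lit 0) (XT.nd (nat_lit 78) (nat_lit 0) (nat_lit 0) (XT.lf (nat_lit 0) (nat_lit 98952428318) (nat_lit 76) (nat_lit 63497724301) (nat_lit 76) (nat_lit 58904243085) (nat_lit 6) (nat_lit 4) (nat_lit 7) (nat_lit 5) (nat_lit 7) (nat_lit 4) (nat_lit 383) (nat_lit 341) (nat_lit 296)) (XT.lf (nat_lit 0) (nat_lit 205144866207) (nat_lit 76) (nat_lit 23792768210) (nat_lit 76) (nat_lit 19198172855) (nat_lit 6) (nat_lit 4) (nat_lit 7) (nat_lit 5) (nat_lit 7) (nat_lit 4) (nat_lit 384) (nat_lit 341) (nat_lit 295))) (XT.nd (nat_lit 78) (nat_lit 0) (nat_lit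 0) (XT.lf (nat_lit 0) (nat_lit 27291596692) (nat_lit 76) (nat_lit 227705441559) (nat_lit 0) (nat_lit 23295453934) (nat_lit 5) (nat_lit 5) (nat_lit 6) (nat_lit 4) (nat_lit 5) (nat_lit 4) (nat_lit 385) (nat_lit 341) (nat_lit 294)) (XT.lf (nat_lit 0) (nat_lit 82256354165) (nat_lit 76) (nat_lit 151799659636) (nat_lit 0) (nat_lit 78259478842) (nat_lit 5) (nat_lit 5) (nat_lit 6) (nat_lit 4) (nat_lit 5) (nat_lit 4) (nat_lit 386) (nat_lit 341) (nat_lit 293))))) (XT.nd (nat_lit 234) (nat_lit 152) (nat_lit 0) (XT.nd (nat_lit 78) (nat_lit 76) (nat_lit 0) (XT.lf (nat_lit 0) (nat_lit 145448255634) (nat_lit 76) (nat_lit 64545579743) (nat_lit 0) (nat_lit 141450743299) (nat_lit 5) (nat_lit 5) (nat_lit 6) (nat_lit 4) (nat_lit 5) (nat_lit 4) (nat_lit 387) (nat_lit 341) (nat_lit 292)) (XT.nd (nat_lit 78) (nat_lit 0) (nat_lit 0) (XT.lf (nat_lit 0) (nat_lit 39259055787) (nat_lit 76) (nat_lit 180470242381) (nat_lit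 76) (nat_lit 176472176122) (nat_lit 4) (nat_lit 4) (nat_lit 5) (nat_lit 5) (nat_lit 5) (nat_lit 4) (nat_lit 388) (nat_lit 341) (nat_lit 291)) (XT.lf (nat_lit 0) (nat_lit 165857245625) (nat_lit 76) (nat_lit 142654648521) (nat_lit 76) (nat_lit 138656100588) (nat_lit 4) (nat_lit 4) (nat_lit 5) (nat_lit 5) (nat_lit 5) (nat_lit 4) (nat_lit 389) (nat_lit 341) (nat_lit 290)))) (XT.nd (nat_lit 156) (nat_lit 152) (nat_lit 0) (XT.nd (nat_lit 78) (nat_lit 0) (nat_lit 0) (XT.lf (nat_lit 0) (nat_lit 311418047400) (nat_lit 76) (nat_lit 99181156968) (nat_lit 76) (nat_lit 95182190190) (nat_lit 4) (nat_lit 4) (nat_lit 5) (nat_lit 5) (nat_lit 5) (nat_lit 4) (nat_lit 390) (nat_lit 341) (nat_lit 289)) (XT.lf (nat_lit 0) (nat_lit 478789389842) (nat_lit 76) (nat_lit 49199199410) (nat_lit 76) (nat_lit 45199868418) (nat_lit 4) (nat_lit 4) (nat_lit 5) (nat_lit 5) (nat_lit 5) (nat_lit 4) (nat_lit 391) (nat_lit 341)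 (nat_lit 288))) (XT.nd (nat_lit 78) (nat_lit 0) (nat_lit 0) (XT.lf (nat_lit 0) (nat_lit 12496931026) (nat_lit 152) (nat_lit 628917846349) (nat_lit 0) (nat_lit 9018976504) (nat_lit 2) (nat_lit 5) (nat_lit 4) (nat_lit 4) (nat_lit 2) (nat_lit 4) (nat_lit 392) (nat_lit 341) (nat_lit 287)) (XT.lf (nat_lit 0) (nat_lit 81722903844) (nat_lit 152) (nat_lit 577850035792) (nat_lit 0) (nat_lit 78244709846) (nat_lit 2) (nat_lit 5) (nat_lit 4) (nat_lit 4) (nat_lit 2) (nat_lit 4) (nat_lit 393) (nat_lit 341) (nat_lit 286))))))))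
noncomputable def xc48 : XT := (XT.nd (nat_lit 2028) (nat_lit 0) (nat_lit 0) (XT.nd (nat_lit 1014) (nat_lit 0) (nat_lit 0) (XT.nd (nat_lit 468) (nat_lit 76) (nat_lit 0) (XT.nd (nat_lit 234) (nat_lit 0) (nat_lit 0) (XT.nd (nat_lit 78) (nat_lit 0) (nat_lit 0) (XT.lf (nat_lit 0) (nat_lit 161324048456) (nat_lit 152) (nat_lit 519140743393) (nat_lit 0) (nat_lit 157845646217) (nat_lit 2) (nat_lit 5) (nat_lit 4) (nat_lit 4) (nat_lit 2) (nat_lit 4) (nat_lit 394) (nat_lit 341) (nat_lit 285)) (XT.nd (nat_lit 78) (nat_lit 0) (nat_lit 0) (XT.lf (nat_lit 0) (nat_lit 252857778561) (nat_lit 152) (nat_lit 451641309083) (nat_lit 0) (nat_lit 249379195243) (nat_lit 2) (nat_lit 5) (nat_lit 4) (nat_lit 4) (nat_lit 2) (nat_lit 4) (nat_lit 395) (nat_lit 341) (nat_lit 284)) (XT.lf (nat_lit 0) (nat_lit 358114971486) (nat_lit 152) (nat_lit 374031091755) (nat_lit 0) (nat_lit 354636230708) (nat_lit 2) (nat_lit 5) (nat_lit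 4) (nat_lit 4) (nat_lit 2) (nat_lit 4) (nat_lit 396) (nat_lit 341) (nat_lit 283)))) (XT.nd (nat_lit 78) (nat_lit 0) (nat_lit 0) (XT.lf (nat_lit 0) (nat_lit 479155007093) (nat_lit 152) (nat_lit 284791630635) (nat_lit 0) (nat_lit 475676129394) (nat_lit 2) (nat_lit 5) (nat_lit 4) (nat_lit 4) (nat_lit 2) (nat_lit 4) (nat_lit 397) (nat_lit 341) (nat_lit 282)) (XT.nd (nat_lit 78) (nat_lit 0) (nat_lit 0) (XT.lf (nat_lit 0) (nat_lit 618346059992) (nat_lit 152) (nat_lit 182176936268) (nat_lit 0) (nat_lit 614867063230) (nat_lit 2) (nat_lit 5) (nat_lit 4) (nat_lit 4) (nat_lit 2) (nat_lit 4) (nat_lit 398) (nat_lit 341) (nat_lit 281)) (XT.lf (nat_lit 0) (nat_lit 778411433391) (nat_lit 152) (nat_lit 64179329850) (nat_lit 0) (nat_lit 774932333098) (nat_lit 2) (nat_lit 5) (nat_lit 4) (nat_lit 4) (nat_lit 2) (nat_lit 4) (nat_lit 399) (nat_lit 341) (nat_lit 280))))) (XT.nd (nat_lit 234) (nat_lit 0) (nat_lit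 0) (XT.nd (nat_lit 78) (nat_lit 0) (nat_lit 0) (XT.lf (nat_lit 0) (nat_lit 78498298826) (nat_lit 76) (nat_lit 887234989449) (nat_lit 76) (nat_lit 883755799127) (nat_lit 1) (nat_lit 4) (nat_lit 2) (nat_lit 5) (nat_lit 2) (nat_lit 4) (nat_lit 400) (nat_lit 341) (nat_lit 279)) (XT.nd (nat_lit 78) (nat_lit 0) (nat_lit 0) (XT.lf (nat_lit 0) (nat_lit 249782740493) (nat_lit 76) (nat_lit 934721910410) (nat_lit 76) (nat_lit 931242641803) (nat_lit 1) (nat_lit 4) (nat_lit 2) (nat_lit 5) (nat_lit 2) (nat_lit 4) (nat_lit 401) (nat_lit 341) (nat_lit 278)) (XT.lf (nat_lit 0) (nat_lit 446753141615) (nat_lit 76) (nat_lit 989335446662) (nat_lit 76) (nat_lit 985856109981) (nat_lit 1) (nat_lit 4) (nat_lit 2) (nat_lit 5) (nat_lit 2) (nat_lit 4) (nat_lit 402) (nat_lit 341) (nat_lit 277)))) (XT.nd (nat_lit 156) (nat_lit 0) (nat_lit 0) (XT.nd (nat_lit 78) (nat_lit 0) (nat_lit 0) (XT.lf (nat_lit 0) (nat_lit 673263270910)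 (nat_lit 76) (nat_lit 1052144123915) (nat_lit 76) (nat_lit 1048664728039) (nat_lit 1) (nat_lit 4) (nat_lit 2) (nat_lit 5) (nat_lit 2) (nat_lit 4) (nat_lit 403) (nat_lit 341) (nat_lit 276)) (XT.lf (nat_lit 0) (nat_lit 933744848300) (nat_lit 76) (nat_lit 1124376807593) (nat_lit 76) (nat_lit 1120897360243) (nat_lit 1) (nat_lit 4) (nat_lit 2) (nat_lit 5) (nat_lit 2) (nat_lit 4) (nat_lit 404) (nat_lit 341) (nat_lit 275))) (XT.nd (nat_lit 78) (nat_lit 0) (nat_lit 0) (XT.lf (nat_lit 0) (nat_lit 1233294252471) (nat_lit 76) (nat_lit 1207446745856) (nat_lit 76) (nat_lit 1203967253746) (nat_lit 1) (nat_lit 4) (nat_lit 2) (nat_lit 5) (nat_lit 2) (nat_lit 4) (nat_lit 405) (nat_lit 341) (nat_lit 274)) (XT.lf (nat_lit 0) (nat_lit 1577772232636) (nat_lit 76) (nat_lit 1302979220103) (nat_lit 76) (nat_lit 1299499689071) (nat_lit 1) (nat_lit 4) (nat_lit 2) (nat_lit 5) (nat_lit 2) (nat_lit 4) (nat_lit 406)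 (nat_lit 341) (nat_lit 273)))))) (XT.nd (nat_lit 468) (nat_lit 0) (nat_lit 0) (XT.nd (nat_lit 234) (nat_lit 0) (nat_lit 0) (XT.nd (nat_lit 78) (nat_lit 0) (nat_lit 0) (XT.lf (nat_lit 0) (nat_lit 1973918575364) (nat_lit 76) (nat_lit 1412843343962) (nat_lit 76) (nat_lit 1409363779085) (nat_lit 1) (nat_lit 4) (nat_lit 2) (nat_lit 5) (nat_lit 2) (nat_lit 4) (nat_lit 407) (nat_lit 341) (nat_lit 272)) (XT.nd (nat_lit 78) (nat_lit 0) (nat_lit 0) (XT.lf (nat_lit 0) (nat_lit 2429483969969) (nat_lit 76) (nat_lit 1539188632899) (nat_lit 76) (nat_lit 1535709038592) (nat_lit 1) (nat_lit 4) (nat_lit 2) (nat_lit 5) (nat_lit 2) (nat_lit 4) (nat_lit 408) (nat_lit 341) (nat_lit 271)) (XT.lf (nat_lit 0) (nat_lit 2953381652432) (nat_lit 76) (nat_lit 1684487059958) (nat_lit 76) (nat_lit 1681007440060) (nat_lit 1) (nat_lit 4) (nat_lit 2) (nat_lit 5) (nat_lit 2) (nat_lit 4) (nat_lit 409) (nat_lit 341) (nat_lit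 270)))) (XT.nd (nat_lit 78) (nat_lit 0) (nat_lit 0) (XT.lf (nat_lit 0) (nat_lit 3555861794802) (nat_lit 76) (nat_lit 1851581420452) (nat_lit 76) (nat_lit 1848101778300) (nat_lit 1) (nat_lit 4) (nat_lit 2) (nat_lit 5) (nat_lit 2) (nat_lit 4) (nat_lit 410) (nat_lit 341) (nat_lit 269)) (XT.nd (nat_lit 78) (nat_lit 0) (nat_lit 0) (XT.lf (nat_lit 0) (nat_lit 4248712052037) (nat_lit 76) (nat_lit 2043740951869) (nat_lit 76) (nat_lit 2040261290366) (nat_lit 1) (nat_lit 4) (nat_lit 2) (nat_lit 5) (nat_lit 2) (nat_lit 4) (nat_lit 411) (nat_lit 341) (nat_lit 268)) (XT.lf (nat_lit 0) (nat_lit 5045488190040) (nat_lit 76) (nat_lit 2264725297215) (nat_lit 76) (nat_lit 2261245618885) (nat_lit 1) (nat_lit 4) (nat_lit 2) (nat_lit 5) (nat_lit 2) (nat_lit 4) (nat_lit 412) (nat_lit 341) (nat_lit 267))))) (XT.nd (nat_lit 234) (nat_lit 0) (nat_lit 0) (XT.nd (nat_lit 78) (nat_lit 0) (nat_lit 0) (XT.lf (nat_lit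 0) (nat_lit 5961779307164) (nat_lit 76) (nat_lit 2518858063245) (nat_lit 76) (nat_lit 2515378370283) (nat_lit 1) (nat_lit 4) (nat_lit 2) (nat_lit 5) (nat_lit 2) (nat_lit 4) (nat_lit 413) (nat_lit 341) (nat_lit 266)) (XT.nd (nat_lit 78) (nat_lit 0) (nat_lit 0) (XT.lf (nat_lit 0) (nat_lit 7015512838309) (nat_lit 76) (nat_lit 2811111412775) (nat_lit 76) (nat_lit 2807631707090) (nat_lit 1) (nat_lit 4) (nat_lit 2) (nat_lit 5) (nat_lit 2) (nat_lit 4) (nat_lit 414) (nat_lit 341) (nat_lit 265)) (XT.lf (nat_lit 0) (nat_lit 8227305309084) (nat_lit 76) (nat_lit 3147203346121) (nat_lit 76) (nat_lit 3143723629372) (nat_lit 1) (nat_lit 4) (nat_lit 2) (nat_lit 5) (nat_lit 2) (nat_lit 4) (nat_lit 415) (nat_lit 341) (nat_lit 264)))) (XT.nd (nat_lit 156) (nat_lit 0) (nat_lit 0) (XT.nd (nat_lit 78) (nat_lit 0) (nat_lit 0) (XT.lf (nat_lit 0) (nat_lit 9620865702612) (nat_lit 76) (nat_lit 3533709575022) (nat_lit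 76) (nat_lit 3530229848652) (nat_lit 1) (nat_lit 4) (nat_lit 2) (nat_lit 5) (nat_lit 2) (nat_lit 4) (nat_lit 416) (nat_lit 341) (nat_lit 263)) (XT.lf (nat_lit 0) (nat_lit 11223459330942) (nat_lit 76) (nat_lit 3978192177870) (nat_lit 76) (nat_lit 3974712443134) (nat_lit 1) (nat_lit 4) (nat_lit 2) (nat_lit 5) (nat_lit 2) (nat_lit 4) (nat_lit 417) (nat_lit 341) (nat_lit 262))) (XT.nd (nat_lit 78) (nat_lit 0) (nat_lit 0) (XT.lf (nat_lit 0) (nat_lit 13066441286802) (nat_lit 76) (nat_lit 4489347553416) (nat_lit 76) (nat_lit 4485867811405) (nat_lit 1) (nat_lit 4) (nat_lit 2) (nat_lit 5) (nat_lit 2) (nat_lit 4) (nat_lit 418) (nat_lit 341) (nat_lit 261)) (XT.lf (nat_lit 0) (nat_lit 15185869912805) (nat_lit 76) (nat_lit 5077176567703) (nat_lit 76) (nat_lit 5073696819367) (nat_lit 1) (nat_lit 4) (nat_lit 2) (nat_lit 5) (nat_lit 2) (nat_lit 4) (nat_lit 419) (nat_lit 341) (nat_lit 260))))))) (XT.nd (nat_lit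 1014) (nat_lit 0) (nat_lit 0) (XT.nd (nat_lit 468) (nat_lit 0) (nat_lit 0) (XT.nd (nat_lit 234) (nat_lit 0) (nat_lit 0) (XT.nd (nat_lit 78) (nat_lit 0) (nat_lit 0) (XT.lf (nat_lit 0) (nat_lit 17623212290765) (nat_lit 76) (nat_lit 5753180223186) (nat_lit 76) (nat_lit 5749700469348) (nat_lit 1) (nat_lit 4) (nat_lit 2) (nat_lit 5) (nat_lit 2) (nat_lit 4) (nat_lit 420) (nat_lit 341) (nat_lit 259)) (XT.nd (nat_lit 78) (nat_lit 0) (nat_lit 0) (XT.lf (nat_lit 0) (nat_lit 20426155554165) (nat_lit 76) (nat_lit 6530584678340) (nat_lit 76) (nat_lit 6527104919719) (nat_lit 1) (nat_lit 4) (nat_lit 2) (nat_lit 5) (nat_lit 2) (nat_lit 4) (nat_lit 421) (nat_lit 341) (nat_lit 258)) (XT.lf (nat_lit 0) (nat_lit 23649539897287) (nat_lit 76) (nat_lit 7424600020332) (nat_lit 76) (nat_lit 7421120257552) (nat_lit 1) (nat_lit 4) (nat_lit 2) (nat_lit 5) (nat_lit 2) (nat_lit 4) (nat_lit 422) (nat_lit 341) (nat_lit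 257)))) (XT.nd (nat_lit 78) (nat_lit 0) (nat_lit 0) (XT.lf (nat_lit 0) (nat_lit 27356431535542) (nat_lit 76) (nat_lit 8452717853679) (nat_lit 76) (nat_lit 8449238087282) (nat_lit 1) (nat_lit 4) (nat_lit 2) (nat_lit 5) (nat_lit 2) (nat_lit 4) (nat_lit 423) (nat_lit 341) (nat_lit 256)) (XT.nd (nat_lit 78) (nat_lit 0) (nat_lit 0) (XT.lf (nat_lit 0) (nat_lit 31619356609676) (nat_lit 76) (nat_lit 9635053527295) (nat_lit 76) (nat_lit 9631573757753) (nat_lit 1) (nat_lit 4) (nat_lit 2) (nat_lit 5) (nat_lit 2) (nat_lit 4) (nat_lit 424) (nat_lit 341) (nat_lit 255)) (XT.lf (nat_lit 0) (nat_lit 36521720175490) (nat_lit 76) (nat_lit 10994739695662) (nat_lit 76) (nat_lit 10991259923385) (nat_lit 1) (nat_lit 4) (nat_lit 2) (nat_lit 5) (nat_lit 2) (nat_lit 4) (nat_lit 425) (nat_lit 341) (nat_lit 254))))) (XT.nd (nat_lit 234) (nat_lit 0) (nat_lit 0) (XT.nd (nat_lit 78) (nat_lit 0) (nat_lit 0) (XT.lf (nat_lit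 0) (nat_lit 42159438041878) (nat_lit 76) (nat_lit 12558378914250) (nat_lit 76) (nat_lit 12554899139595) (nat_lit 1) (nat_lit 4) (nat_lit 2) (nat_lit 5) (nat_lit 2) (nat_lit 4) (nat_lit 426) (nat_lit 341) (nat_lit 253)) (XT.nd (nat_lit 78) (nat_lit 0) (nat_lit 0) (XT.lf (nat_lit 0) (nat_lit 48642813384487) (nat_lit 76) (nat_lit 14356564124291) (nat_lit 76) (nat_lit 14353084347568) (nat_lit 1) (nat_lit 4) (nat_lit 2) (nat_lit 5) (nat_lit 2) (nat_lit 4) (nat_lit 427) (nat_lit 341) (nat_lit 252)) (XT.lf (nat_lit 0) (nat_lit 56098694851326) (nat_lit 76) (nat_lit 16424477210330) (nat_lit 76) (nat_lit 16420997431809) (nat_lit 1) (nat_lit 4) (nat_lit 2) (nat_lit 5) (nat_lit 2) (nat_lit 4) (nat_lit 428) (nat_lit 341) (nat_lit 251)))) (XT.nd (nat_lit 156) (nat_lit 0) (nat_lit 0) (XT.nd (nat_lit 78) (nat_lit 0) (nat_lit 0) (XT.lf (nat_lit 0) (nat_lit 64672958384137) (nat_lit 76) (nat_lit 18802577341442)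 (nat_lit 76) (nat_lit 18799097561357) (nat_lit 1) (nat_lit 4) (nat_lit 2) (nat_lit 5) (nat_lit 2) (nat_lit 4) (nat_lit 429) (nat_lit 341) (nat_lit 250)) (XT.lf (nat_lit 0) (nat_lit 74533361312909) (nat_lit 76) (nat_lit 21537392563669) (nat_lit 76) (nat_lit 21533912782224) (nat_lit 1) (nat_lit 4) (nat_lit 2) (nat_lit 5) (nat_lit 2) (nat_lit 4) (nat_lit 430) (nat_lit 341) (nat_lit 249))) (XT.nd (nat_lit 78) (nat_lit 0) (nat_lit 0) (XT.lf (nat_lit 0) (nat_lit 85872824564510) (nat_lit 76) (nat_lit 24682430131360) (nat_lit 76) (nat_lit 24678950348733) (nat_lit 1) (nat_lit 4) (nat_lit 2) (nat_lit 5) (nat_lit 2) (nat_lit 4) (nat_lit 431) (nat_lit 341) (nat_lit 248)) (XT.lf (nat_lit 0) (nat_lit 98913207202558) (nat_lit 76) (nat_lit 28299223388231) (nat_lit 76) (nat_lit 28295743604576) (nat_lit 1) (nat_lit 4) (nat_lit 2) (nat_lit 5) (nat_lit 2) (nat_lit 4) (nat_lit 432) (nat_lit 341) (nat_lit 247))))))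 (XT.nd (nat_lit 46410) (nat_lit 0) (nat_lit 2432) (XT.nd (nat_lit 46098) (nat_lit 0) (nat_lit 3496) (XT.nd (nat_lit 78) (nat_lit 0) (nat_lit 0) (XT.lf (nat_lit 0) (nat_lit 113909647148232) (nat_lit 76) (nat_lit 32458535680611) (nat_lit 76) (nat_lit 32455055896062) (nat_lit 1) (nat_lit 4) (nat_lit 2) (nat_lit 5) (nat_lit 2) (nat_lit 4) (nat_lit 433) (nat_lit 341) (nat_lit 246)) (XT.nd (nat_lit 45942) (nat_lit 0) (nat_lit 3724) (XT.lf (nat_lit 0) (nat_lit 131155553009165) (nat_lit 76) (nat_lit 37241744857700) (nat_lit 76) (nat_lit 37238265072373) (nat_lit 1) (nat_lit 4) (nat_lit 2) (nat_lit 5) (nat_lit 2) (nat_lit 4) (nat_lit 434) (nat_lit 341) (nat_lit 245)) (XT.lf (nat_lit 0) (nat_lit 1989605005) (nat_lit 228) (nat_lit 707130323) (nat_lit 228) (nat_lit 707130323) (nat_lit 50) (nat_lit 3) (nat_lit 53) (nat_lit 3) (nat_lit 53) (nat_lit 5) (nat_lit 342) (nat_lit 342) (nat_lit 336)))) (XT.nd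 (nat_lit 156) (nat_lit 0) (nat_lit 76) (XT.nd (nat_lit 78) (nat_lit 228) (nat_lit 0) (XT.lf (nat_lit 76) (nat_lit 2171759243) (nat_lit 0) (nat_lit 4032729665) (nat_lit 228) (nat_lit 824138503) (nat_lit 51) (nat_lit 5) (nat_lit 50) (nat_lit 3) (nat_lit 53) (nat_lit 5) (nat_lit 343) (nat_lit 342) (nat_lit 335)) (XT.lf (nat_lit 0) (nat_lit 1074800609) (nat_lit 228) (nat_lit 1122765817) (nat_lit 304) (nat_lit 5117134392) (nat_lit 47) (nat_lit 5) (nat_lit 50) (nat_lit 3) (nat_lit 51) (nat_lit 5) (nat_lit 344) (nat_lit 342) (nat_lit 334))) (XT.nd (nat_lit 78) (nat_lit 0) (nat_lit 0) (XT.lf (nat_lit 0) (nat_lit 3009793064) (nat_lit 228) (nat_lit 4464127371) (nat_lit 76) (nat_lit 188628406) (nat_lit 48) (nat_lit 5) (nat_lit 51) (nat_lit 5) (nat_lit 49) (nat_lit 5) (nat_lit 345) (nat_lit 342) (nat_lit 333)) (XT.lf (nat_lit 0) (nat_lit 5130012903) (nat_lit 228) (nat_lit 111548236) (nat_lit 76) (nat_lit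 2836843186) (nat_lit 48) (nat_lit 5) (nat_lit 51) (nat_lit 5) (nat_lit 49) (nat_lit 5) (nat_lit 346) (nat_lit 342) (nat_lit 332))))) (XT.nd (nat_lit 234) (nat_lit 532) (nat_lit 0) (XT.nd (nat_lit 78) (nat_lit 380) (nat_lit 0) (XT.lf (nat_lit 0) (nat_lit 5138984572) (nat_lit 228) (nat_lit 2406290929) (nat_lit 304) (nat_lit 1014878151) (nat_lit 45) (nat_lit 5) (nat_lit 48) (nat_lit 5) (nat_lit 49) (nat_lit 5) (nat_lit 347) (nat_lit 342) (nat_lit 331)) (XT.nd (nat_lit 78) (nat_lit 0) (nat_lit 0) (XT.lf (nat_lit 0) (nat_lit 1007305654) (nat_lit 380) (nat_lit 7191595906) (nat_lit 76) (nat_lit 921870201) (nat_lit 40) (nat_lit 5) (nat_lit 45) (nat_lit 5) (nat_lit 41) (nat_lit 5) (nat_lit 348) (nat_lit 342) (nat_lit 330)) (XT.lf (nat_lit 0) (nat_lit 3327033748) (nat_lit 380) (nat_lit 1688085525) (nat_lit 76) (nat_lit 4728440095) (nat_lit 40) (nat_lit 5) (nat_lit 45) (nat_lit 5) (nat_lit 41) (nat_lit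 5) (nat_lit 349) (nat_lit 342) (nat_lit 329)))) (XT.nd (nat_lit 156) (nat_lit 228) (nat_lit 0) (XT.nd (nat_lit 78) (nat_lit 152) (nat_lit 0) (XT.lf (nat_lit 0) (nat_lit 4861050922) (nat_lit 152) (nat_lit 1157726225) (nat_lit 228) (nat_lit 4437417854) (nat_lit 38) (nat_lit 5) (nat_lit 40) (nat_lit 5) (nat_lit 41) (nat_lit 5) (nat_lit 350) (nat_lit 342) (nat_lit 328)) (XT.lf (nat_lit 0) (nat_lit 1047346262) (nat_lit 152) (nat_lit 8174298702) (nat_lit 228) (nat_lit 2038009884) (nat_lit 36) (nat_lit 5) (nat_lit 38) (nat_lit 5) (nat_lit 39) (nat_lit 4) (nat_lit 351) (nat_lit 342) (nat_lit 327))) (XT.nd (nat_lit 78) (nat_lit 152) (nat_lit 0) (XT.lf (nat_lit 0) (nat_lit 859673484) (nat_lit 228) (nat_lit 3154691154) (nat_lit 76) (nat_lit 8134427015) (nat_lit 35) (nat_lit 5) (nat_lit 38) (nat_lit 5) (nat_lit 36) (nat_lit 5) (nat_lit 352) (nat_lit 342) (nat_lit 326)) (XT.lf (nat_lit 0) (nat_lit 4101107274)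 (nat_lit 228) (nat_lit 8070298014) (nat_lit 76) (nat_lit 967695679) (nat_lit 33) (nat_lit 5) (nat_lit 36) (nat_lit 5) (nat_lit 34) (nat_lit 4) (nat_lit 353) (nat_lit 342) (nat_lit 325))))))))
noncomputable def xc49 : XT := (XT.nd (nat_lit 2028) (nat_lit 608) (nat_lit 0) (XT.nd (nat_lit 1014) (nat_lit 836) (nat_lit 0) (XT.nd (nat_lit 468) (nat_lit 532) (nat_lit 0) (XT.nd (nat_lit 234) (nat_lit 152) (nat_lit 0) (XT.nd (nat_lit 78) (nat_lit 228) (nat_lit 0) (XT.lf (nat_lit 0) (nat_lit 241239579) (nat_lit 76) (nat_lit 7830657934) (nat_lit 152) (nat_lit 6169607000) (nat_lit 32) (nat_lit 5) (nat_lit 33) (nat_lit 5) (nat_lit 34) (nat_lit 4) (nat_lit 354) (nat_lit 342) (nat_lit 324)) (XT.nd (nat_lit 78) (nat_lit 228) (nat_lit 0) (XT.lf (nat_lit 0) (nat_lit 10507601728) (nat_lit 76) (nat_lit 2430616468) (nat_lit 152) (nat_lit 2526080166) (nat_lit 32) (nat_lit 5) (nat_lit 33) (nat_lit 5) (nat_lit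 34) (nat_lit 4) (nat_lit 355) (nat_lit 342) (nat_lit 323)) (XT.lf (nat_lit 0) (nat_lit 1808678904) (nat_lit 228) (nat_lit 11311514137) (nat_lit 76) (nat_lit 3696069241) (nat_lit 29) (nat_lit 5) (nat_lit 32) (nat_lit 5) (nat_lit 30) (nat_lit 4) (nat_lit 356) (nat_lit 342) (nat_lit 322)))) (XT.nd (nat_lit 78) (nat_lit 152) (nat_lit 0) (XT.lf (nat_lit 0) (nat_lit 6815370954) (nat_lit 228) (nat_lit 676148879) (nat_lit 76) (nat_lit 10819417172) (nat_lit 29) (nat_lit 5) (nat_lit 32) (nat_lit 5) (nat_lit 30) (nat_lit 4) (nat_lit 357) (nat_lit 342) (nat_lit 321)) (XT.nd (nat_lit 78) (nat_lit 76) (nat_lit 0) (XT.lf (nat_lit 0) (nat_lit 12504166272) (nat_lit 76) (nat_lit 493766895) (nat_lit 152) (nat_lit 6968159284) (nat_lit 28) (nat_lit 5) (nat_lit 29) (nat_lit 5) (nat_lit 30) (nat_lit 4) (nat_lit 358) (nat_lit 342) (nat_lit 320)) (XT.lf (nat_lit 0) (nat_lit 5919454732) (nat_lit 76) (nat_lit 14693241225)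 (nat_lit 76) (nat_lit 1181111053) (nat_lit 27) (nat_lit 4) (nat_lit 28) (nat_lit 5) (nat_lit 28) (nat_lit 4) (nat_lit 359) (nat_lit 342) (nat_lit 319))))) (XT.nd (nat_lit 234) (nat_lit 304) (nat_lit 0) (XT.nd (nat_lit 78) (nat_lit 152) (nat_lit 0) (XT.lf (nat_lit 0) (nat_lit 5329826146) (nat_lit 152) (nat_lit 2126773074) (nat_lit 76) (nat_lit 16353611105) (nat_lit 26) (nat_lit 5) (nat_lit 28) (nat_lit 5) (nat_lit 27) (nat_lit 4) (nat_lit 360) (nat_lit 342) (nat_lit 318)) (XT.nd (nat_lit 78) (nat_lit 76) (nat_lit 0) (XT.lf (nat_lit 0) (nat_lit 13296753802) (nat_lit 152) (nat_lit 11306699990) (nat_lit 0) (nat_lit 1427148280) (nat_lit 25) (nat_lit 5) (nat_lit 27) (nat_lit 4) (nat_lit 25) (nat_lit 4) (nat_lit 361) (nat_lit 342) (nat_lit 317)) (XT.lf (nat_lit 0) (nat_lit 5780833900) (nat_lit 76) (nat_lit 17313030842) (nat_lit 76) (nat_lit 5394920927) (nat_lit 24) (nat_lit 4) (nat_lit 25) (nat_lit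 5) (nat_lit 25) (nat_lit 4) (nat_lit 362) (nat_lit 342) (nat_lit 316)))) (XT.nd (nat_lit 156) (nat_lit 152) (nat_lit 0) (XT.nd (nat_lit 78) (nat_lit 76) (nat_lit 0) (XT.lf (nat_lit 0) (nat_lit 3317822381) (nat_lit 152) (nat_lit 4826969526) (nat_lit 76) (nat_lit 23070388861) (nat_lit 23) (nat_lit 5) (nat_lit 25) (nat_lit 5) (nat_lit 24) (nat_lit 4) (nat_lit 363) (nat_lit 342) (nat_lit 315)) (XT.lf (nat_lit 0) (nat_lit 13559732000) (nat_lit 152) (nat_lit 17508492839) (nat_lit 0) (nat_lit 3127589446) (nat_lit 22) (nat_lit 5) (nat_lit 24) (nat_lit 4) (nat_lit 22) (nat_lit 4) (nat_lit 364) (nat_lit 342) (nat_lit 314))) (XT.nd (nat_lit 78) (nat_lit 76) (nat_lit 0) (XT.lf (nat_lit 0) (nat_lit 4232990387) (nat_lit 76) (nat_lit 21867986457) (nat_lit 76) (nat_lit 11408111359) (nat_lit 21) (nat_lit 4) (nat_lit 22) (nat_lit 5) (nat_lit 22) (nat_lit 4) (nat_lit 365) (nat_lit 342) (nat_lit 313)) (XT.lf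 (nat_lit 0) (nat_lit 169670629) (nat_lit 152) (nat_lit 10119198499) (nat_lit 76) (nat_lit 30901216635) (nat_lit 20) (nat_lit 5) (nat_lit 22) (nat_lit 5) (nat_lit 21) (nat_lit 4) (nat_lit 366) (nat_lit 342) (nat_lit 312)))))) (XT.nd (nat_lit 468) (nat_lit 456) (nat_lit 0) (XT.nd (nat_lit 234) (nat_lit 228) (nat_lit 0) (XT.nd (nat_lit 78) (nat_lit 76) (nat_lit 0) (XT.lf (nat_lit 0) (nat_lit 13164300905) (nat_lit 152) (nat_lit 28020671211) (nat_lit 0) (nat_lit 4029552956) (nat_lit 19) (nat_lit 5) (nat_lit 21) (nat_lit 4) (nat_lit 19) (nat_lit 4) (nat_lit 367) (nat_lit 342) (nat_lit 311)) (XT.nd (nat_lit 78) (nat_lit 76) (nat_lit 0) (XT.lf (nat_lit 0) (nat_lit 29097051990) (nat_lit 152) (nat_lit 650793019) (nat_lit 0) (nat_lit 19946447869) (nat_lit 19) (nat_lit 5) (nat_lit 21) (nat_lit 4) (nat_lit 19) (nat_lit 4) (nat_lit 368) (nat_lit 342) (nat_lit 310)) (XT.lf (nat_lit 0) (nat_lit 33728630835)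 (nat_lit 76) (nat_lit 15039744739) (nat_lit 76) (nat_lit 5875352642) (nat_lit 18) (nat_lit 4) (nat_lit 19) (nat_lit 5) (nat_lit 19) (nat_lit 4) (nat_lit 369) (nat_lit 342) (nat_lit 309)))) (XT.nd (nat_lit 78) (nat_lit 76) (nat_lit 0) (XT.lf (nat_lit 0) (nat_lit 10750322296) (nat_lit 152) (nat_lit 46643782120) (nat_lit 0) (nat_lit 2770859999) (nat_lit 16) (nat_lit 5) (nat_lit 18) (nat_lit 4) (nat_lit 16) (nat_lit 4) (nat_lit 370) (nat_lit 342) (nat_lit 308)) (XT.nd (nat_lit 78) (nat_lit 76) (nat_lit 0) (XT.lf (nat_lit 0) (nat_lit 31082364672) (nat_lit 152) (nat_lit 12024112829) (nat_lit 0) (nat_lit 23093836558) (nat_lit 16) (nat_lit 5) (nat_lit 18) (nat_lit 4) (nat_lit 16) (nat_lit 4) (nat_lit 371) (nat_lit 342) (nat_lit 307)) (XT.lf (nat_lit 0) (nat_lit 30409532487) (nat_lit 76) (nat_lit 25272580465) (nat_lit 76) (nat_lit 17276169031) (nat_lit 15) (nat_lit 4) (nat_lit 16) (nat_lit 5) (nat_lit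 16) (nat_lit 4) (nat_lit 372) (nat_lit 342) (nat_lit 306))))) (XT.nd (nat_lit 234) (nat_lit 228) (nat_lit 0) (XT.nd (nat_lit 78) (nat_lit 152) (nat_lit 0) (XT.lf (nat_lit 0) (nat_lit 3570537561) (nat_lit 152) (nat_lit 326610737) (nat_lit 76) (nat_lit 76720070442) (nat_lit 14) (nat_lit 5) (nat_lit 16) (nat_lit 5) (nat_lit 15) (nat_lit 4) (nat_lit 373) (nat_lit 342) (nat_lit 305)) (XT.nd (nat_lit 78) (nat_lit 76) (nat_lit 0) (XT.lf (nat_lit 0) (nat_lit 28887597911) (nat_lit 152) (nat_lit 38024130303) (nat_lit 0) (nat_lit 21923052331) (nat_lit 13) (nat_lit 5) (nat_lit 15) (nat_lit 4) (nat_lit 13) (nat_lit 4) (nat_lit 374) (nat_lit 342) (nat_lit 304)) (XT.lf (nat_lit 0) (nat_lit 12197030034) (nat_lit 76) (nat_lit 46478036285) (nat_lit 76) (nat_lit 39508983391) (nat_lit 12) (nat_lit 4) (nat_lit 13) (nat_lit 5) (nat_lit 13) (nat_lit 4) (nat_lit 375) (nat_lit 342) (nat_lit 303)))) (XT.nd (nat_lit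 156) (nat_lit 76) (nat_lit 0) (XT.nd (nat_lit 78) (nat_lit 152) (nat_lit 0) (XT.lf (nat_lit 0) (nat_lit 74152944164) (nat_lit 76) (nat_lit 20731346225) (nat_lit 76) (nat_lit 13758373928) (nat_lit 12) (nat_lit 4) (nat_lit 13) (nat_lit 5) (nat_lit 13) (nat_lit 4) (nat_lit 376) (nat_lit 342) (nat_lit 302)) (XT.lf (nat_lit 0) (nat_lit 15953124591) (nat_lit 152) (nat_lit 94505292243) (nat_lit 0) (nat_lit 9886706788) (nat_lit 10) (nat_lit 5) (nat_lit 12) (nat_lit 4) (nat_lit 10) (nat_lit 4) (nat_lit 377) (nat_lit 342) (nat_lit 301))) (XT.nd (nat_lit 78) (nat_lit 76) (nat_lit 0) (XT.lf (nat_lit 0) (nat_lit 51557803383) (nat_lit 152) (nat_lit 36231308445) (nat_lit 0) (nat_lit 45488808509) (nat_lit 10) (nat_lit 5) (nat_lit 12) (nat_lit 4) (nat_lit 10) (nat_lit 4) (nat_lit 378) (nat_lit 342) (nat_lit 300)) (XT.lf (nat_lit 0) (nat_lit 33729608435) (nat_lit 76) (nat_lit 60143395572) (nat_lit 76) (nat_lit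 54072159766) (nat_lit 9) (nat_lit 4) (nat_lit 10) (nat_lit 5) (nat_lit 10) (nat_lit 4) (nat_lit 379) (nat_lit 342) (nat_lit 299))))))) (XT.nd (nat_lit 1014) (nat_lit 228) (nat_lit 0) (XT.nd (nat_lit 468) (nat_lit 152) (nat_lit 0) (XT.nd (nat_lit 234) (nat_lit 76) (nat_lit 0) (XT.nd (nat_lit 78) (nat_lit 152) (nat_lit 0) (XT.lf (nat_lit 0) (nat_lit 118202151629) (nat_lit 76) (nat_lit 26201640321) (nat_lit 76) (nat_lit 20128455879) (nat_lit 9) (nat_lit 4) (nat_lit 10) (nat_lit 5) (nat_lit 10) (nat_lit 4) (nat_lit 380) (nat_lit 342) (nat_lit 298)) (XT.nd (nat_lit 78) (nat_lit 0) (nat_lit 0) (XT.lf (nat_lit 0) (nat_lit 19239478442) (nat_lit 152) (nat_lit 149991124202) (nat_lit 0) (nat_lit 13956975043) (nat_lit 7) (nat_lit 5) (nat_lit 9) (nat_lit 4) (nat_lit 7) (nat_lit 4) (nat_lit 381) (nat_lit 342) (nat_lit 297)) (XT.lf (nat_lit 0) (nat_lit 66213373252) (nat_lit 152) (nat_lit 76790239493) (nat_lit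 0) (nat_lit 60929588594) (nat_lit 7) (nat_lit 5) (nat_lit 9) (nat_lit 4) (nat_lit 7) (nat_lit 4) (nat_lit 382) (nat_lit 342) (nat_lit 296)))) (XT.nd (nat_lit 78) (nat_lit 0) (nat_lit 0) (XT.lf (nat_lit 0) (nat_lit 8065674551) (nat_lit 76) (nat_lit 112481416072) (nat_lit 76) (nat_lit 107196517275) (nat_lit 6) (nat_lit 4) (nat_lit 7) (nat_lit 5) (nat_lit 7) (nat_lit 4) (nat_lit 383) (nat_lit 342) (nat_lit 295)) (XT.nd (nat_lit 78) (nat_lit 0) (nat_lit 0) (XT.lf (nat_lit 0) (nat_lit 114238948056) (nat_lit 76) (nat_lit 72786643127) (nat_lit 76) (nat_lit 67500775513) (nat_lit 6) (nat_lit 4) (nat_lit 7) (nat_lit 5) (nat_lit 7) (nat_lit 4) (nat_lit 384) (nat_lit 342) (nat_lit 294)) (XT.lf (nat_lit 0) (nat_lit 236302383521) (nat_lit 76) (nat_lit 27156692294) (nat_lit 76) (nat_lit 21869982231) (nat_lit 6) (nat_lit 4) (nat_lit 7) (nat_lit 5) (nat_lit 7) (nat_lit 4) (nat_lit 385) (nat_lit 342) (nat_lit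 293))))) (XT.nd (nat_lit 234) (nat_lit 76) (nat_lit 0) (XT.nd (nat_lit 78) (nat_lit 0) (nat_lit 0) (XT.lf (nat_lit 0) (nat_lit 31574516109) (nat_lit 76) (nat_lit 261456732340) (nat_lit 0) (nat_lit 26976739911) (nat_lit 5) (nat_lit 5) (nat_lit 6) (nat_lit 4) (nat_lit 5) (nat_lit 4) (nat_lit 386) (nat_lit 342) (nat_lit 292)) (XT.nd (nat_lit 78) (nat_lit 0) (nat_lit 0) (XT.lf (nat_lit 0) (nat_lit 94759311562) (nat_lit 76) (nat_lit 174217847319) (nat_lit 0) (nat_lit 90160981440) (nat_lit 5) (nat_lit 5) (nat_lit 6) (nat_lit 4) (nat_lit 5) (nat_lit 4) (nat_lit 387) (nat_lit 342) (nat_lit 291)) (XT.lf (nat_lit 0) (nat_lit 167408541172) (nat_lit 76) (nat_lit 73921537346) (nat_lit 0) (nat_lit 162809729377) (nat_lit 5) (nat_lit 5) (nat_lit 6) (nat_lit 4) (nat_lit 5) (nat_lit 4) (nat_lit 388) (nat_lit 342) (nat_lit 290)))) (XT.nd (nat_lit 156) (nat_lit 0) (nat_lit 0) (XT.nd (nat_lit 78) (nat_lit 0)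 (nat_lit 0) (XT.lf (nat_lit 0) (nat_lit 45439889907) (nat_lit 76) (nat_lit 207385281943) (nat_lit 76) (nat_lit 202786051302) (nat_lit 4) (nat_lit 4) (nat_lit 5) (nat_lit 5) (nat_lit 5) (nat_lit 4) (nat_lit 389) (nat_lit 342) (nat_lit 289)) (XT.lf (nat_lit 0) (nat_lit 190989724427) (nat_lit 76) (nat_lit 163917631194) (nat_lit 76) (nat_lit 159318036339) (nat_lit 4) (nat_lit 4) (nat_lit 5) (nat_lit 5) (nat_lit 5) (nat_lit 4) (nat_lit 390) (nat_lit 342) (nat_lit 288))) (XT.nd (nat_lit 78) (nat_lit 0) (nat_lit 0) (XT.lf (nat_lit 0) (nat_lit 358351530126) (nat_lit 76) (nat_lit 113940752596) (nat_lit 76) (nat_lit 109340841034) (nat_lit 4) (nat_lit 4) (nat_lit 5) (nat_lit 5) (nat_lit 5) (nat_lit 4) (nat_lit 391) (nat_lit 342) (nat_lit 287)) (XT.lf (nat_lit 0) (nat_lit 550799777115) (nat_lit 76) (nat_lit 56476837655) (nat_lit 76) (nat_lit 51876650694) (nat_lit 4) (nat_lit 4) (nat_lit 5) (nat_lit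 5) (nat_lit 5) (nat_lit 4) (nat_lit 392) (nat_lit 342) (nat_lit 286)))))) (XT.nd (nat_lit 546) (nat_lit 76) (nat_lit 0) (XT.nd (nat_lit 234) (nat_lit 0) (nat_lit 0) (XT.nd (nat_lit 78) (nat_lit 0) (nat_lit 0) (XT.lf (nat_lit 0) (nat_lit 14465407235) (nat_lit 152) (nat_lit 723054282605) (nat_lit 0) (nat_lit 10465036420) (nat_lit 2) (nat_lit 5) (nat_lit 4) (nat_lit 4) (nat_lit 2) (nat_lit 4) (nat_lit 393) (nat_lit 342) (nat_lit 285)) (XT.nd (nat_lit 78) (nat_lit 0) (nat_lit 0) (XT.lf (nat_lit 0) (nat_lit 94063023382) (nat_lit 152) (nat_lit 664352549252) (nat_lit 0) (nat_lit 90062471488) (nat_lit 2) (nat_lit 5) (nat_lit 4) (nat_lit 4) (nat_lit 2) (nat_lit 4) (nat_lit 394) (nat_lit 342) (nat_lit 284)) (XT.lf (nat_lit 0) (nat_lit 185593685256) (nat_lit 152) (nat_lit 596859688025) (nat_lit 0) (nat_lit 181592975902) (nat_lit 2) (nat_lit 5) (nat_lit 4) (nat_lit 4) (nat_lit 2) (nat_lit 4) (nat_lit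 395) (nat_lit 342) (nat_lit 283)))) (XT.nd (nat_lit 156) (nat_lit 0) (nat_lit 0) (XT.nd (nat_lit 78) (nat_lit 0) (nat_lit 0) (XT.lf (nat_lit 0) (nat_lit 290848210155) (nat_lit 152) (nat_lit 519255186421) (nat_lit 0) (nat_lit 286847363879) (nat_lit 2) (nat_lit 5) (nat_lit 4) (nat_lit 4) (nat_lit 2) (nat_lit 4) (nat_lit 396) (nat_lit 342) (nat_lit 282)) (XT.lf (nat_lit 0) (nat_lit 411885925739) (nat_lit 152) (nat_lit 430020695497) (nat_lit 0) (nat_lit 407884960401) (nat_lit 2) (nat_lit 5) (nat_lit 4) (nat_lit 4) (nat_lit 2) (nat_lit 4) (nat_lit 397) (nat_lit 342) (nat_lit 281))) (XT.nd (nat_lit 78) (nat_lit 0) (nat_lit 0) (XT.lf (nat_lit 0) (nat_lit 551074961227) (nat_lit 152) (nat_lit 327410323039) (nat_lit 0) (nat_lit 547073892357) (nat_lit 2) (nat_lit 5) (nat_lit 4) (nat_lit 4) (nat_lit 2) (nat_lit 4) (nat_lit 398) (nat_lit 342) (nat_lit 280)) (XT.lf (nat_lit 0) (nat_lit 711138580356) (nat_lit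 152) (nat_lit 209416474802) (nat_lit 0) (nat_lit 707137421457) (nat_lit 2) (nat_lit 5) (nat_lit 4) (nat_lit 4) (nat_lit 2) (nat_lit 4) (nat_lit 399) (nat_lit 342) (nat_lit 279))))) (XT.nd (nat_lit 234) (nat_lit 0) (nat_lit 0) (XT.nd (nat_lit 78) (nat_lit 76) (nat_lit 0) (XT.lf (nat_lit 0) (nat_lit 895208462630) (nat_lit 152) (nat_lit 73730575496) (nat_lit 0) (nat_lit 891207225447) (nat_lit 2) (nat_lit 5) (nat_lit 4) (nat_lit 4) (nat_lit 2) (nat_lit 4) (nat_lit 400) (nat_lit 342) (nat_lit 278)) (XT.nd (nat_lit 78) (nat_lit 0) (nat_lit 0) (XT.lf (nat_lit 0) (nat_lit 90345258671) (nat_lit 76) (nat_lit 1020281721142) (nat_lit 76) (nat_lit 1016280415884) (nat_lit 1) (nat_lit 4) (nat_lit 2) (nat_lit 5) (nat_lit 2) (nat_lit 4) (nat_lit 401) (nat_lit 342) (nat_lit 277)) (XT.lf (nat_lit 0) (nat_lit 287312947237) (nat_lit 76) (nat_lit 1074896704167) (nat_lit 76) (nat_lit 1070895339715) (nat_lit 1)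 (nat_lit 4) (nat_lit 2) (nat_lit 5) (nat_lit 2) (nat_lit 4) (nat_lit 402) (nat_lit 342) (nat_lit 276)))) (XT.nd (nat_lit 156) (nat_lit 0) (nat_lit 0) (XT.nd (nat_lit 78) (nat_lit 0) (nat_lit 0) (XT.lf (nat_lit 0) (nat_lit 513820717788) (nat_lit 76) (nat_lit 1137706639484) (nat_lit 76) (nat_lit 1133705223558) (nat_lit 1) (nat_lit 4) (nat_lit 2) (nat_lit 5) (nat_lit 2) (nat_lit 4) (nat_lit 403) (nat_lit 342) (nat_lit 275)) (XT.lf (nat_lit 0) (nat_lit 774300244095) (nat_lit 76) (nat_lit 1209940417131) (nat_lit 76) (nat_lit 1205938956445) (nat_lit 1) (nat_lit 4) (nat_lit 2) (nat_lit 5) (nat_lit 2) (nat_lit 4) (nat_lit 404) (nat_lit 342) (nat_lit 274))) (XT.nd (nat_lit 78) (nat_lit 0) (nat_lit 0) (XT.lf (nat_lit 0) (nat_lit 1073847864717) (nat_lit 76) (nat_lit 1293011306670) (nat_lit 76) (nat_lit 1289009807062) (nat_lit 1) (nat_lit 4) (nat_lit 2) (nat_lit 5) (nat_lit 2) (nat_lit 4) (nat_lit 405)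 (nat_lit 342) (nat_lit 273)) (XT.lf (nat_lit 0) (nat_lit 1418324293970) (nat_lit 76) (nat_lit 1388544608115) (nat_lit 76) (nat_lit 1384543074662) (nat_lit 1) (nat_lit 4) (nat_lit 2) (nat_lit 5) (nat_lit 2) (nat_lit 4) (nat_lit 406) (nat_lit 342) (nat_lit 272))))))))
noncomputable def xc50 : XT := (XT.nd (nat_lit 2028) (nat_lit 0) (nat_lit 0) (XT.nd (nat_lit 1014) (nat_lit 0) (nat_lit 0) (XT.nd (nat_lit 468) (nat_lit 0) (nat_lit 0) (XT.nd (nat_lit 234) (nat_lit 0) (nat_lit 0) (XT.nd (nat_lit 78) (nat_lit 0) (nat_lit 0) (XT.lf (nat_lit 0) (nat_lit 1814469288078) (nat_lit 76) (nat_lit 1498409451276) (nat_lit 76) (nat_lit 1494407888392) (nat_lit 1) (nat_lit 4) (nat_lit 2) (nat_lit 5) (nat_lit 2) (nat_lit 4) (nat_lit 407) (nat_lit 342) (nat_lit 271)) (XT.nd (nat_lit 78) (nat_lit 0) (nat_lit 0) (XT.lf (nat_lit 0) (nat_lit 2270033509970) (nat_lit 76) (nat_lit 1624755365693) (nat_lit 76) (nat_lit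 1620753777218) (nat_lit 1) (nat_lit 4) (nat_lit 2) (nat_lit 5) (nat_lit 2) (nat_lit 4) (nat_lit 408) (nat_lit 342) (nat_lit 270)) (XT.lf (nat_lit 0) (nat_lit 2793930172683) (nat_lit 76) (nat_lit 1770054336648) (nat_lit 76) (nat_lit 1766052725919) (nat_lit 1) (nat_lit 4) (nat_lit 2) (nat_lit 5) (nat_lit 2) (nat_lit 4) (nat_lit 409) (nat_lit 342) (nat_lit 269)))) (XT.nd (nat_lit 78) (nat_lit 0) (nat_lit 0) (XT.lf (nat_lit 0) (nat_lit 3396409428313) (nat_lit 76) (nat_lit 1937149170095) (nat_lit 76) (nat_lit 1933147540015) (nat_lit 1) (nat_lit 4) (nat_lit 2) (nat_lit 5) (nat_lit 2) (nat_lit 4) (nat_lit 410) (nat_lit 342) (nat_lit 268)) (XT.nd (nat_lit 78) (nat_lit 0) (nat_lit 0) (XT.lf (nat_lit 0) (nat_lit 4089258914471) (nat_lit 76) (nat_lit 2129309112775) (nat_lit 76) (nat_lit 2125307465869) (nat_lit 1) (nat_lit 4) (nat_lit 2) (nat_lit 5) (nat_lit 2) (nat_lit 4) (nat_lit 411) (nat_lit 342)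 (nat_lit 267)) (XT.lf (nat_lit 0) (nat_lit 4886034381972) (nat_lit 76) (nat_lit 2350293815741) (nat_lit 76) (nat_lit 2346292154202) (nat_lit 1) (nat_lit 4) (nat_lit 2) (nat_lit 5) (nat_lit 2) (nat_lit 4) (nat_lit 412) (nat_lit 342) (nat_lit 266))))) (XT.nd (nat_lit 234) (nat_lit 0) (nat_lit 0) (XT.nd (nat_lit 78) (nat_lit 0) (nat_lit 0) (XT.lf (nat_lit 0) (nat_lit 5802324916050) (nat_lit 76) (nat_lit 2604426892746) (nat_lit 76) (nat_lit 2600425218484) (nat_lit 1) (nat_lit 4) (nat_lit 2) (nat_lit 5) (nat_lit 2) (nat_lit 4) (nat_lit 413) (nat_lit 342) (nat_lit 265)) (XT.nd (nat_lit 78) (nat_lit 0) (nat_lit 0) (XT.lf (nat_lit 0) (nat_lit 6856057940199) (nat_lit 76) (nat_lit 2896680512688) (nat_lit 76) (nat_lit 2892678827362) (nat_lit 1) (nat_lit 4) (nat_lit 2) (nat_lit 5) (nat_lit 2) (nat_lit 4) (nat_lit 414) (nat_lit 342) (nat_lit 264)) (XT.lf (nat_lit 0) (nat_lit 8067849970107) (nat_lit 76)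 (nat_lit 3232772681175) (nat_lit 76) (nat_lit 3228770986228) (nat_lit 1) (nat_lit 4) (nat_lit 2) (nat_lit 5) (nat_lit 2) (nat_lit 4) (nat_lit 415) (nat_lit 342) (nat_lit 263)))) (XT.nd (nat_lit 156) (nat_lit 0) (nat_lit 0) (XT.nd (nat_lit 78) (nat_lit 0) (nat_lit 0) (XT.lf (nat_lit 0) (nat_lit 9461409980274) (nat_lit 76) (nat_lit 3619279114546) (nat_lit 76) (nat_lit 3615277411234) (nat_lit 1) (nat_lit 4) (nat_lit 2) (nat_lit 5) (nat_lit 2) (nat_lit 4) (nat_lit 416) (nat_lit 342) (nat_lit 262)) (XT.lf (nat_lit 0) (nat_lit 11064003275246) (nat_lit 76) (nat_lit 4063761895195) (nat_lit 76) (nat_lit 4059760184607) (nat_lit 1) (nat_lit 4) (nat_lit 2) (nat_lit 5) (nat_lit 2) (nat_lit 4) (nat_lit 417) (nat_lit 342) (nat_lit 261))) (XT.nd (nat_lit 78) (nat_lit 0) (nat_lit 0) (XT.lf (nat_lit 0) (nat_lit 12906984941228) (nat_lit 76) (nat_lit 4574917425350) (nat_lit 76) (nat_lit 4570915708436) (nat_lit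 1) (nat_lit 4) (nat_lit 2) (nat_lit 5) (nat_lit 2) (nat_lit 4) (nat_lit 418) (nat_lit 342) (nat_lit 260)) (XT.lf (nat_lit 0) (nat_lit 15026413315165) (nat_lit 76) (nat_lit 5162746574080) (nat_lit 76) (nat_lit 5158744851666) (nat_lit 1) (nat_lit 4) (nat_lit 2) (nat_lit 5) (nat_lit 2) (nat_lit 4) (nat_lit 419) (nat_lit 342) (nat_lit 259)))))) (XT.nd (nat_lit 468) (nat_lit 0) (nat_lit 0) (XT.nd (nat_lit 234) (nat_lit 0) (nat_lit 0) (XT.nd (nat_lit 78) (nat_lit 0) (nat_lit 0) (XT.lf (nat_lit 0) (nat_lit 17463755473937) (nat_lit 76) (nat_lit 5838750346469) (nat_lit 76) (nat_lit 5834748619272) (nat_lit 1) (nat_lit 4) (nat_lit 2) (nat_lit 5) (nat_lit 2) (nat_lit 4) (nat_lit 420) (nat_lit 342) (nat_lit 258)) (XT.nd (nat_lit 78) (nat_lit 0) (nat_lit 0) (XT.lf (nat_lit 0) (nat_lit 20266698546738) (nat_lit 76) (nat_lit 6616154903281) (nat_lit 76) (nat_lit 6612153171925) (nat_lit 1) (nat_lit 4) (nat_lit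 2) (nat_lit 5) (nat_lit 2) (nat_lit 4) (nat_lit 421) (nat_lit 342) (nat_lit 257)) (XT.lf (nat_lit 0) (nat_lit 23490082724123) (nat_lit 76) (nat_lit 7510170333672) (nat_lit 76) (nat_lit 7506168598698) (nat_lit 1) (nat_lit 4) (nat_lit 2) (nat_lit 5) (nat_lit 2) (nat_lit 4) (nat_lit 422) (nat_lit 342) (nat_lit 256)))) (XT.nd (nat_lit 78) (nat_lit 0) (nat_lit 0) (XT.lf (nat_lit 0) (nat_lit 27196974218257) (nat_lit 76) (nat_lit 8538288243887) (nat_lit 76) (nat_lit 8534286505768) (nat_lit 1) (nat_lit 4) (nat_lit 2) (nat_lit 5) (nat_lit 2) (nat_lit 4) (nat_lit 423) (nat_lit 342) (nat_lit 255)) (XT.nd (nat_lit 78) (nat_lit 0) (nat_lit 0) (XT.lf (nat_lit 0) (nat_lit 31459899167070) (nat_lit 76) (nat_lit 9720623984344) (nat_lit 76) (nat_lit 9716622243491) (nat_lit 1) (nat_lit 4) (nat_lit 2) (nat_lit 5) (nat_lit 2) (nat_lit 4) (nat_lit 424) (nat_lit 342) (nat_lit 254)) (XT.lf (nat_lit 0) (nat_lit 36362262623908)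 (nat_lit 76) (nat_lit 11080310210835) (nat_lit 76) (nat_lit 11076308467603) (nat_lit 1) (nat_lit 4) (nat_lit 2) (nat_lit 5) (nat_lit 2) (nat_lit 4) (nat_lit 425) (nat_lit 342) (nat_lit 253))))) (XT.nd (nat_lit 234) (nat_lit 0) (nat_lit 0) (XT.nd (nat_lit 78) (nat_lit 0) (nat_lit 0) (XT.lf (nat_lit 0) (nat_lit 41999980395535) (nat_lit 76) (nat_lit 12643949479965) (nat_lit 76) (nat_lit 12639947734665) (nat_lit 1) (nat_lit 4) (nat_lit 2) (nat_lit 5) (nat_lit 2) (nat_lit 4) (nat_lit 426) (nat_lit 342) (nat_lit 252)) (XT.nd (nat_lit 78) (nat_lit 0) (nat_lit 0) (XT.lf (nat_lit 0) (nat_lit 48483355655743) (nat_lit 76) (nat_lit 14442134733955) (nat_lit 76) (nat_lit 14438132986858) (nat_lit 1) (nat_lit 4) (nat_lit 2) (nat_lit 5) (nat_lit 2) (nat_lit 4) (nat_lit 427) (nat_lit 342) (nat_lit 251)) (XT.lf (nat_lit 0) (nat_lit 55939237050929) (nat_lit 76) (nat_lit 16510047858211) (nat_lit 76) (nat_lit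 16506046109550) (nat_lit 1) (nat_lit 4) (nat_lit 2) (nat_lit 5) (nat_lit 2) (nat_lit 4) (nat_lit 428) (nat_lit 342) (nat_lit 250)))) (XT.nd (nat_lit 156) (nat_lit 0) (nat_lit 0) (XT.nd (nat_lit 78) (nat_lit 0) (nat_lit 0) (XT.lf (nat_lit 0) (nat_lit 64513500521433) (nat_lit 76) (nat_lit 18888148022555) (nat_lit 76) (nat_lit 18884146272534) (nat_lit 1) (nat_lit 4) (nat_lit 2) (nat_lit 5) (nat_lit 2) (nat_lit 4) (nat_lit 429) (nat_lit 342) (nat_lit 249)) (XT.lf (nat_lit 0) (nat_lit 74373903396025) (nat_lit 76) (nat_lit 21622963273680) (nat_lit 76) (nat_lit 21618961522476) (nat_lit 1) (nat_lit 4) (nat_lit 2) (nat_lit 5) (nat_lit 2) (nat_lit 4) (nat_lit 430) (nat_lit 342) (nat_lit 248))) (XT.nd (nat_lit 78) (nat_lit 0) (nat_lit 0) (XT.lf (nat_lit 0) (nat_lit 85713366600513) (nat_lit 76) (nat_lit 24768000866499) (nat_lit 76) (nat_lit 24763999114268) (nat_lit 1) (nat_lit 4) (nat_lit 2) (nat_lit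 5) (nat_lit 2) (nat_lit 4) (nat_lit 431) (nat_lit 342) (nat_lit 247)) (XT.lf (nat_lit 0) (nat_lit 98753749197593) (nat_lit 76) (nat_lit 28384794145221) (nat_lit 76) (nat_lit 28380792392095) (nat_lit 1) (nat_lit 4) (nat_lit 2) (nat_lit 5) (nat_lit 2) (nat_lit 4) (nat_lit 432) (nat_lit 342) (nat_lit 246))))))) (XT.nd (nat_lit 46956) (nat_lit 0) (nat_lit 1444) (XT.nd (nat_lit 46410) (nat_lit 0) (nat_lit 2584) (XT.nd (nat_lit 46176) (nat_lit 0) (nat_lit 3496) (XT.nd (nat_lit 78) (nat_lit 0) (nat_lit 0) (XT.lf (nat_lit 0) (nat_lit 113750189107643) (nat_lit 76) (nat_lit 32544106456602) (nat_lit 76) (nat_lit 32540104702699) (nat_lit 1) (nat_lit 4) (nat_lit 2) (nat_lit 5) (nat_lit 2) (nat_lit 4) (nat_lit 433) (nat_lit 342) (nat_lit 245)) (XT.nd (nat_lit 46020) (nat_lit 0) (nat_lit 3496) (XT.lf (nat_lit 0) (nat_lit 130996094937599) (nat_lit 76) (nat_lit 37327315650212) (nat_lit 76) (nat_lit 37323313895633)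 (nat_lit 1) (nat_lit 4) (nat_lit 2) (nat_lit 5) (nat_lit 2) (nat_lit 4) (nat_lit 434) (nat_lit 342) (nat_lit 244)) (XT.lf (nat_lit 0) (nat_lit 190530075) (nat_lit 0) (nat_lit 190530075) (nat_lit 228) (nat_lit 3263538733) (nat_lit 47) (nat_lit 5) (nat_lit 47) (nat_lit 3) (nat_lit 50) (nat_lit 3) (nat_lit 343) (nat_lit 343) (nat_lit 334)))) (XT.nd (nat_lit 78) (nat_lit 0) (nat_lit 0) (XT.lf (nat_lit 0) (nat_lit 2429661852) (nat_lit 228) (nat_lit 3289846855) (nat_lit 304) (nat_lit 1874388859) (nat_lit 47) (nat_lit 5) (nat_lit 50) (nat_lit 3) (nat_lit 51) (nat_lit 5) (nat_lit 344) (nat_lit 343) (nat_lit 333)) (XT.nd (nat_lit 78) (nat_lit 0) (nat_lit 0) (XT.lf (nat_lit 76) (nat_lit 736383187) (nat_lit 0) (nat_lit 3393647002) (nat_lit 304) (nat_lit 3846944848) (nat_lit 48) (nat_lit 5) (nat_lit 47) (nat_lit 5) (nat_lit 51) (nat_lit 5) (nat_lit 345) (nat_lit 343) (nat_lit 332)) (XT.lf (nat_lit 76)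 (nat_lit 5562347696) (nat_lit 0) (nat_lit 456619007) (nat_lit 304) (nat_lit 2408587475) (nat_lit 48) (nat_lit 5) (nat_lit 47) (nat_lit 5) (nat_lit 51) (nat_lit 5) (nat_lit 346) (nat_lit 343) (nat_lit 331))))) (XT.nd (nat_lit 234) (nat_lit 380) (nat_lit 0) (XT.nd (nat_lit 78) (nat_lit 380) (nat_lit 0) (XT.lf (nat_lit 0) (nat_lit 2042655749) (nat_lit 228) (nat_lit 6149090725) (nat_lit 304) (nat_lit 753956548) (nat_lit 45) (nat_lit 5) (nat_lit 48) (nat_lit 5) (nat_lit 49) (nat_lit 5) (nat_lit 347) (nat_lit 343) (nat_lit 330)) (XT.nd (nat_lit 78) (nat_lit 304) (nat_lit 0) (XT.lf (nat_lit 0) (nat_lit 1030764305) (nat_lit 304) (nat_lit 1782232744) (nat_lit 76) (nat_lit 6723859024) (nat_lit 44) (nat_lit 5) (nat_lit 48) (nat_lit 5) (nat_lit 45) (nat_lit 5) (nat_lit 348) (nat_lit 343) (nat_lit 329)) (XT.lf (nat_lit 0) (nat_lit 3066711564) (nat_lit 380) (nat_lit 5980478801) (nat_lit 76) (nat_lit 1155038254)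 (nat_lit 40) (nat_lit 5) (nat_lit 45) (nat_lit 5) (nat_lit 41) (nat_lit 5) (nat_lit 349) (nat_lit 343) (nat_lit 328)))) (XT.nd (nat_lit 156) (nat_lit 228) (nat_lit 0) (XT.nd (nat_lit 78) (nat_lit 0) (nat_lit 0) (XT.lf (nat_lit 0) (nat_lit 54755957) (nat_lit 152) (nat_lit 5433000233) (nat_lit 228) (nat_lit 5467728368) (nat_lit 38) (nat_lit 5) (nat_lit 40) (nat_lit 5) (nat_lit 41) (nat_lit 5) (nat_lit 350) (nat_lit 343) (nat_lit 327)) (XT.lf (nat_lit 0) (nat_lit 7490879957) (nat_lit 152) (nat_lit 952373079) (nat_lit 228) (nat_lit 3352810485) (nat_lit 38) (nat_lit 5) (nat_lit 40) (nat_lit 5) (nat_lit 41) (nat_lit 5) (nat_lit 351) (nat_lit 343) (nat_lit 326))) (XT.nd (nat_lit 78) (nat_lit 76) (nat_lit 0) (XT.lf (nat_lit 0) (nat_lit 3221916335) (nat_lit 152) (nat_lit 8803343471) (nat_lit 228) (nat_lit 710016898) (nat_lit 36) (nat_lit 5) (nat_lit 38) (nat_lit 5) (nat_lit 39) (nat_lit 4) (nat_lit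 352) (nat_lit 343) (nat_lit 325)) (XT.lf (nat_lit 0) (nat_lit 2282756411) (nat_lit 228) (nat_lit 1746897695) (nat_lit 76) (nat_lit 9747131474) (nat_lit 35) (nat_lit 5) (nat_lit 38) (nat_lit 5) (nat_lit 36) (nat_lit 5) (nat_lit 353) (nat_lit 343) (nat_lit 324)))))) (XT.nd (nat_lit 546) (nat_lit 532) (nat_lit 0) (XT.nd (nat_lit 234) (nat_lit 380) (nat_lit 0) (XT.nd (nat_lit 78) (nat_lit 76) (nat_lit 0) (XT.lf (nat_lit 0) (nat_lit 5940624699) (nat_lit 228) (nat_lit 7329886722) (nat_lit 76) (nat_lit 1655623699) (nat_lit 33) (nat_lit 5) (nat_lit 36) (nat_lit 5) (nat_lit 34) (nat_lit 4) (nat_lit 354) (nat_lit 343) (nat_lit 323)) (XT.nd (nat_lit 78) (nat_lit 0) (nat_lit 0) (XT.lf (nat_lit 0) (nat_lit 2139701692) (nat_lit 76) (nat_lit 8284746666) (nat_lit 152) (nat_lit 5781861862) (nat_lit 32) (nat_lit 5) (nat_lit 33) (nat_lit 5) (nat_lit 34) (nat_lit 4) (nat_lit 355) (nat_lit 343) (nat_lit 322))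 (XT.lf (nat_lit 0) (nat_lit 13703112575) (nat_lit 76) (nat_lit 2168678541) (nat_lit 152) (nat_lit 1763091158) (nat_lit 32) (nat_lit 5) (nat_lit 33) (nat_lit 5) (nat_lit 34) (nat_lit 4) (nat_lit 356) (nat_lit 343) (nat_lit 321)))) (XT.nd (nat_lit 156) (nat_lit 76) (nat_lit 0) (XT.nd (nat_lit 78) (nat_lit 76) (nat_lit 0) (XT.lf (nat_lit 0) (nat_lit 3080324579) (nat_lit 228) (nat_lit 11247094307) (nat_lit 76) (nat_lit 4861129224) (nat_lit 29) (nat_lit 5) (nat_lit 32) (nat_lit 5) (nat_lit 30) (nat_lit 4) (nat_lit 357) (nat_lit 343) (nat_lit 320)) (XT.lf (nat_lit 0) (nat_lit 827533690) (nat_lit 76) (nat_lit 7914273519) (nat_lit 152) (nat_lit 12180062112) (nat_lit 28) (nat_lit 5) (nat_lit 29) (nat_lit 5) (nat_lit 30) (nat_lit 4) (nat_lit 358) (nat_lit 343) (nat_lit 319))) (XT.nd (nat_lit 78) (nat_lit 76) (nat_lit 0) (XT.lf (nat_lit 0) (nat_lit 15767748403) (nat_lit 152) (nat_lit 6999966947) (nat_lit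 0) (nat_lit 70195100) (nat_lit 28) (nat_lit 5) (nat_lit 30) (nat_lit 4) (nat_lit 28) (nat_lit 4) (nat_lit 359) (nat_lit 343) (nat_lit 318)) (XT.lf (nat_lit 0) (nat_lit 8294302235) (nat_lit 76) (nat_lit 16205466921) (nat_lit 76) (nat_lit 443766559) (nat_lit 27) (nat_lit 4) (nat_lit 28) (nat_lit 5) (nat_lit 28) (nat_lit 4) (nat_lit 360) (nat_lit 343) (nat_lit 317))))) (XT.nd (nat_lit 234) (nat_lit 304) (nat_lit 0) (XT.nd (nat_lit 78) (nat_lit 152) (nat_lit 0) (XT.lf (nat_lit 0) (nat_lit 6853730543) (nat_lit 152) (nat_lit 1081959746) (nat_lit 76) (nat_lit 19337336334) (nat_lit 26) (nat_lit 5) (nat_lit 28) (nat_lit 5) (nat_lit 27) (nat_lit 4) (nat_lit 361) (nat_lit 343) (nat_lit 316)) (XT.nd (nat_lit 78) (nat_lit 76) (nat_lit 0) (XT.lf (nat_lit 0) (nat_lit 16000702410) (nat_lit 152) (nat_lit 11623836691) (nat_lit 0) (nat_lit 2204193882) (nat_lit 25) (nat_lit 5) (nat_lit 27) (nat_lit 4) (nat_lit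 25) (nat_lit 4) (nat_lit 362) (nat_lit 343) (nat_lit 315)) (XT.lf (nat_lit 0) (nat_lit 7964151451) (nat_lit 76) (nat_lit 19265194192) (nat_lit 76) (nat_lit 5432009375) (nat_lit 24) (nat_lit 4) (nat_lit 25) (nat_lit 5) (nat_lit 25) (nat_lit 4) (nat_lit 363) (nat_lit 343) (nat_lit 314)))) (XT.nd (nat_lit 156) (nat_lit 152) (nat_lit 0) (XT.nd (nat_lit 78) (nat_lit 76) (nat_lit 0) (XT.lf (nat_lit 0) (nat_lit 4427154509) (nat_lit 152) (nat_lit 4346695047) (nat_lit 76) (nat_lit 27031830535) (nat_lit 23) (nat_lit 5) (nat_lit 25) (nat_lit 5) (nat_lit 24) (nat_lit 4) (nat_lit 364) (nat_lit 343) (nat_lit 313)) (XT.lf (nat_lit 0) (nat_lit 16196777167) (nat_lit 152) (nat_lit 18921848254) (nat_lit 0) (nat_lit 4116073004) (nat_lit 22) (nat_lit 5) (nat_lit 24) (nat_lit 4) (nat_lit 22) (nat_lit 4) (nat_lit 365) (nat_lit 343) (nat_lit 312))) (XT.nd (nat_lit 78) (nat_lit 76) (nat_lit 0) (XT.lf (nat_lit 0)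 (nat_lit 6025724796) (nat_lit 76) (nat_lit 24562762076) (nat_lit 76) (nat_lit 12461088126) (nat_lit 21) (nat_lit 4) (nat_lit 22) (nat_lit 5) (nat_lit 22) (nat_lit 4) (nat_lit 366) (nat_lit 343) (nat_lit 311)) (XT.lf (nat_lit 0) (nat_lit 716546325) (nat_lit 152) (nat_lit 10579333948) (nat_lit 76) (nat_lit 35994488022) (nat_lit 20) (nat_lit 5) (nat_lit 22) (nat_lit 5) (nat_lit 21) (nat_lit 4) (nat_lit 367) (nat_lit 343) (nat_lit 310))))))))
noncomputable def xc51 : XT := (XT.nd (nat_lit 2106) (nat_lit 76) (nat_lit 0) (XT.nd (nat_lit 1014) (nat_lit 532) (nat_lit 0) (XT.nd (nat_lit 468) (nat_lit 456) (nat_lit 0) (XT.nd (nat_lit 234) (nat_lit 228) (nat_lit 0) (XT.nd (nat_lit 78) (nat_lit 76) (nat_lit 0) (XT.lf (nat_lit 0) (nat_lit 15655469271) (nat_lit 152) (nat_lit 31161111289) (nat_lit 0) (nat_lit 5102630384) (nat_lit 19) (nat_lit 5) (nat_lit 21) (nat_lit 4) (nat_lit 19) (nat_lit 4) (nat_lit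 368) (nat_lit 343) (nat_lit 309)) (XT.nd (nat_lit 78) (nat_lit 0) (nat_lit 0) (XT.lf (nat_lit 0) (nat_lit 192805616) (nat_lit 76) (nat_lit 33725938476) (nat_lit 76) (nat_lit 23161110045) (nat_lit 18) (nat_lit 4) (nat_lit 19) (nat_lit 5) (nat_lit 19) (nat_lit 4) (nat_lit 369) (nat_lit 343) (nat_lit 308)) (XT.lf (nat_lit 0) (nat_lit 39669975764) (nat_lit 76) (nat_lit 16840745737) (nat_lit 76) (nat_lit 6265491615) (nat_lit 18) (nat_lit 4) (nat_lit 19) (nat_lit 5) (nat_lit 19) (nat_lit 4) (nat_lit 370) (nat_lit 343) (nat_lit 307)))) (XT.nd (nat_lit 78) (nat_lit 76) (nat_lit 0) (XT.lf (nat_lit 0) (nat_lit 12807505093) (nat_lit 152) (nat_lit 52711751954) (nat_lit 0) (nat_lit 3603748624) (nat_lit 16) (nat_lit 5) (nat_lit 18) (nat_lit 4) (nat_lit 16) (nat_lit 4) (nat_lit 371) (nat_lit 343) (nat_lit 306)) (XT.nd (nat_lit 78) (nat_lit 76) (nat_lit 0) (XT.lf (nat_lit 0) (nat_lit 36131358028) (nat_lit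 152) (nat_lit 13020253681) (nat_lit 0) (nat_lit 26920746498) (nat_lit 16) (nat_lit 5) (nat_lit 18) (nat_lit 4) (nat_lit 16) (nat_lit 4) (nat_lit 372) (nat_lit 343) (nat_lit 305)) (XT.lf (nat_lit 0) (nat_lit 35741734975) (nat_lit 76) (nat_lit 28660818496) (nat_lit 76) (nat_lit 19444246044) (nat_lit 15) (nat_lit 4) (nat_lit 16) (nat_lit 5) (nat_lit 16) (nat_lit 4) (nat_lit 373) (nat_lit 343) (nat_lit 304))))) (XT.nd (nat_lit 234) (nat_lit 228) (nat_lit 0) (XT.nd (nat_lit 78) (nat_lit 76) (nat_lit 0) (XT.lf (nat_lit 0) (nat_lit 359409966) (nat_lit 76) (nat_lit 4096946233) (nat_lit 152) (nat_lit 88200904942) (nat_lit 13) (nat_lit 5) (nat_lit 14) (nat_lit 5) (nat_lit 15) (nat_lit 4) (nat_lit 374) (nat_lit 343) (nat_lit 303)) (XT.nd (nat_lit 78) (nat_lit 76) (nat_lit 0) (XT.lf (nat_lit 0) (nat_lit 33554699784) (nat_lit 152) (nat_lit 43023337181) (nat_lit 0) (nat_lit 25531862239) (nat_lit 13) (nat_lit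 5) (nat_lit 15) (nat_lit 4) (nat_lit 13) (nat_lit 4) (nat_lit 375) (nat_lit 343) (nat_lit 302)) (XT.lf (nat_lit 0) (nat_lit 14698978449) (nat_lit 76) (nat_lit 53095592116) (nat_lit 76) (nat_lit 45069346395) (nat_lit 12) (nat_lit 4) (nat_lit 13) (nat_lit 5) (nat_lit 13) (nat_lit 4) (nat_lit 376) (nat_lit 343) (nat_lit 301)))) (XT.nd (nat_lit 156) (nat_lit 76) (nat_lit 0) (XT.nd (nat_lit 78) (nat_lit 152) (nat_lit 0) (XT.lf (nat_lit 0) (nat_lit 85860576146) (nat_lit 76) (nat_lit 23533091975) (nat_lit 76) (nat_lit 15503882622) (nat_lit 12) (nat_lit 4) (nat_lit 13) (nat_lit 5) (nat_lit 13) (nat_lit 4) (nat_lit 377) (nat_lit 343) (nat_lit 300)) (XT.lf (nat_lit 0) (nat_lit 18635211401) (nat_lit 152) (nat_lit 108067261414) (nat_lit 0) (nat_lit 11651049292) (nat_lit 10) (nat_lit 5) (nat_lit 12) (nat_lit 4) (nat_lit 10) (nat_lit 4) (nat_lit 378) (nat_lit 343) (nat_lit 299))) (XT.nd (nat_lit 78) (nat_lit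 76) (nat_lit 0) (XT.lf (nat_lit 0) (nat_lit 59542880952) (nat_lit 152) (nat_lit 41132244132) (nat_lit 0) (nat_lit 52556770207) (nat_lit 10) (nat_lit 5) (nat_lit 12) (nat_lit 4) (nat_lit 10) (nat_lit 4) (nat_lit 379) (nat_lit 343) (nat_lit 298)) (XT.lf (nat_lit 0) (nat_lit 39298548435) (nat_lit 76) (nat_lit 68895118265) (nat_lit 76) (nat_lit 61907313054) (nat_lit 9) (nat_lit 4) (nat_lit 10) (nat_lit 5) (nat_lit 10) (nat_lit 4) (nat_lit 380) (nat_lit 343) (nat_lit 297)))))) (XT.nd (nat_lit 546) (nat_lit 228) (nat_lit 0) (XT.nd (nat_lit 234) (nat_lit 152) (nat_lit 0) (XT.nd (nat_lit 78) (nat_lit 152) (nat_lit 0) (XT.lf (nat_lit 0) (nat_lit 136375516751) (nat_lit 76) (nat_lit 29897289289) (nat_lit 76) (nat_lit 22908010630) (nat_lit 9) (nat_lit 4) (nat_lit 10) (nat_lit 5) (nat_lit 10) (nat_lit 4) (nat_lit 381) (nat_lit 343) (nat_lit 296)) (XT.nd (nat_lit 78) (nat_lit 0) (nat_lit 0) (XT.lf (nat_lit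 0) (nat_lit 22343376778) (nat_lit 152) (nat_lit 172025010890) (nat_lit 0) (nat_lit 16264629022) (nat_lit 7) (nat_lit 5) (nat_lit 9) (nat_lit 4) (nat_lit 7) (nat_lit 4) (nat_lit 382) (nat_lit 343) (nat_lit 295)) (XT.lf (nat_lit 0) (nat_lit 76334924084) (nat_lit 152) (nat_lit 87904617207) (nat_lit 0) (nat_lit 70255207511) (nat_lit 7) (nat_lit 5) (nat_lit 9) (nat_lit 4) (nat_lit 7) (nat_lit 4) (nat_lit 383) (nat_lit 343) (nat_lit 294)))) (XT.nd (nat_lit 156) (nat_lit 76) (nat_lit 0) (XT.nd (nat_lit 78) (nat_lit 0) (nat_lit 0) (XT.lf (nat_lit 0) (nat_lit 9661313116) (nat_lit 76) (nat_lit 129148637336) (nat_lit 76) (nat_lit 123068078314) (nat_lit 6) (nat_lit 4) (nat_lit 7) (nat_lit 5) (nat_lit 7) (nat_lit 4) (nat_lit 384) (nat_lit 343) (nat_lit 293)) (XT.lf (nat_lit 0) (nat_lit 131710257554) (nat_lit 76) (nat_lit 83526386425) (nat_lit 76) (nat_lit 77445094838) (nat_lit 6) (nat_lit 4) (nat_lit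 7) (nat_lit 5) (nat_lit 7) (nat_lit 4) (nat_lit 385) (nat_lit 343) (nat_lit 292))) (XT.nd (nat_lit 78) (nat_lit 76) (nat_lit 0) (XT.lf (nat_lit 0) (nat_lit 272039451736) (nat_lit 76) (nat_lit 31075193381) (nat_lit 76) (nat_lit 24993264782) (nat_lit 6) (nat_lit 4) (nat_lit 7) (nat_lit 5) (nat_lit 7) (nat_lit 4) (nat_lit 386) (nat_lit 343) (nat_lit 291)) (XT.lf (nat_lit 0) (nat_lit 36453740719) (nat_lit 76) (nat_lit 300369362832) (nat_lit 0) (nat_lit 31164625481) (nat_lit 5) (nat_lit 5) (nat_lit 6) (nat_lit 4) (nat_lit 5) (nat_lit 4) (nat_lit 387) (nat_lit 343) (nat_lit 290))))) (XT.nd (nat_lit 234) (nat_lit 152) (nat_lit 0) (XT.nd (nat_lit 78) (nat_lit 76) (nat_lit 0) (XT.lf (nat_lit 0) (nat_lit 109097597160) (nat_lit 76) (nat_lit 200084542365) (nat_lit 0) (nat_lit 103808063076) (nat_lit 5) (nat_lit 5) (nat_lit 6) (nat_lit 4) (nat_lit 5) (nat_lit 4) (nat_lit 388) (nat_lit 343) (nat_lit 289))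 (XT.nd (nat_lit 78) (nat_lit 76) (nat_lit 0) (XT.lf (nat_lit 0) (nat_lit 192627986577) (nat_lit 76) (nat_lit 84778479207) (nat_lit 0) (nat_lit 187338088280) (nat_lit 5) (nat_lit 5) (nat_lit 6) (nat_lit 4) (nat_lit 5) (nat_lit 4) (nat_lit 389) (nat_lit 343) (nat_lit 288)) (XT.lf (nat_lit 0) (nat_lit 52476649009) (nat_lit 76) (nat_lit 238375496318) (nat_lit 76) (nat_lit 233085281313) (nat_lit 4) (nat_lit 4) (nat_lit 5) (nat_lit 5) (nat_lit 5) (nat_lit 4) (nat_lit 390) (nat_lit 343) (nat_lit 287)))) (XT.nd (nat_lit 156) (nat_lit 152) (nat_lit 0) (XT.nd (nat_lit 78) (nat_lit 0) (nat_lit 0) (XT.lf (nat_lit 0) (nat_lit 219830161887) (nat_lit 76) (nat_lit 188403034207) (nat_lit 76) (nat_lit 183112543803) (nat_lit 4) (nat_lit 4) (nat_lit 5) (nat_lit 5) (nat_lit 5) (nat_lit 4) (nat_lit 391) (nat_lit 343) (nat_lit 286)) (XT.lf (nat_lit 0) (nat_lit 412271197728) (nat_lit 76) (nat_lit 130942959689)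 (nat_lit 76) (nat_lit 125652229809) (nat_lit 4) (nat_lit 4) (nat_lit 5) (nat_lit 5) (nat_lit 5) (nat_lit 4) (nat_lit 392) (nat_lit 343) (nat_lit 285))) (XT.nd (nat_lit 78) (nat_lit 152) (nat_lit 0) (XT.lf (nat_lit 0) (nat_lit 633564907234) (nat_lit 76) (nat_lit 64871053915) (nat_lit 76) (nat_lit 59580115794) (nat_lit 4) (nat_lit 4) (nat_lit 5) (nat_lit 5) (nat_lit 5) (nat_lit 4) (nat_lit 393) (nat_lit 343) (nat_lit 284)) (XT.lf (nat_lit 0) (nat_lit 16706247852) (nat_lit 152) (nat_lit 831360258118) (nat_lit 0) (nat_lit 12105274635) (nat_lit 2) (nat_lit 5) (nat_lit 4) (nat_lit 4) (nat_lit 2) (nat_lit 4) (nat_lit 394) (nat_lit 343) (nat_lit 283))))))) (XT.nd (nat_lit 1014) (nat_lit 0) (nat_lit 0) (XT.nd (nat_lit 468) (nat_lit 76) (nat_lit 0) (XT.nd (nat_lit 234) (nat_lit 0) (nat_lit 0) (XT.nd (nat_lit 78) (nat_lit 0) (nat_lit 0) (XT.lf (nat_lit 0) (nat_lit 108234241699) (nat_lit 152) (nat_lit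 763873112616) (nat_lit 0) (nat_lit 103633131561) (nat_lit 2) (nat_lit 5) (nat_lit 4) (nat_lit 4) (nat_lit 2) (nat_lit 4) (nat_lit 395) (nat_lit 343) (nat_lit 282)) (XT.nd (nat_lit 78) (nat_lit 0) (nat_lit 0) (XT.lf (nat_lit 0) (nat_lit 213486446575) (nat_lit 152) (nat_lit 686273581207) (nat_lit 0) (nat_lit 208885217375) (nat_lit 2) (nat_lit 5) (nat_lit 4) (nat_lit 4) (nat_lit 2) (nat_lit 4) (nat_lit 396) (nat_lit 343) (nat_lit 281)) (XT.lf (nat_lit 0) (nat_lit 334522144748) (nat_lit 152) (nat_lit 597043412192) (nat_lit 0) (nat_lit 329920812015) (nat_lit 2) (nat_lit 5) (nat_lit 4) (nat_lit 4) (nat_lit 2) (nat_lit 4) (nat_lit 397) (nat_lit 343) (nat_lit 280)))) (XT.nd (nat_lit 78) (nat_lit 0) (nat_lit 0) (XT.lf (nat_lit 0) (nat_lit 473709425965) (nat_lit 152) (nat_lit 494436797915) (nat_lit 0) (nat_lit 469108003204) (nat_lit 2) (nat_lit 5) (nat_lit 4) (nat_lit 4) (nat_lit 2) (nat_lit 4) (nat_lit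 398) (nat_lit 343) (nat_lit 279)) (XT.nd (nat_lit 78) (nat_lit 0) (nat_lit 0) (XT.lf (nat_lit 0) (nat_lit 633771519641) (nat_lit 152) (nat_lit 376446217663) (nat_lit 0) (nat_lit 629170018595) (nat_lit 2) (nat_lit 5) (nat_lit 4) (nat_lit 4) (nat_lit 2) (nat_lit 4) (nat_lit 399) (nat_lit 343) (nat_lit 278)) (XT.lf (nat_lit 0) (nat_lit 817840075435) (nat_lit 152) (nat_lit 240763160082) (nat_lit 0) (nat_lit 813238506315) (nat_lit 2) (nat_lit 5) (nat_lit 4) (nat_lit 4) (nat_lit 2) (nat_lit 4) (nat_lit 400) (nat_lit 343) (nat_lit 277))))) (XT.nd (nat_lit 234) (nat_lit 0) (nat_lit 0) (XT.nd (nat_lit 78) (nat_lit 76) (nat_lit 0) (XT.lf (nat_lit 0) (nat_lit 1029516434657) (nat_lit 152) (nat_lit 84732956654) (nat_lit 0) (nat_lit 1024914806341) (nat_lit 2) (nat_lit 5) (nat_lit 4) (nat_lit 4) (nat_lit 2) (nat_lit 4) (nat_lit 401) (nat_lit 343) (nat_lit 276)) (XT.nd (nat_lit 78) (nat_lit 0) (nat_lit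 0) (XT.lf (nat_lit 0) (nat_lit 103951652403) (nat_lit 76) (nat_lit 1173294855136) (nat_lit 76) (nat_lit 1168693175346) (nat_lit 1) (nat_lit 4) (nat_lit 2) (nat_lit 5) (nat_lit 2) (nat_lit 4) (nat_lit 402) (nat_lit 343) (nat_lit 275)) (XT.lf (nat_lit 0) (nat_lit 330457371871) (nat_lit 76) (nat_lit 1236105884421) (nat_lit 76) (nat_lit 1231504159872) (nat_lit 1) (nat_lit 4) (nat_lit 2) (nat_lit 5) (nat_lit 2) (nat_lit 4) (nat_lit 403) (nat_lit 343) (nat_lit 274)))) (XT.nd (nat_lit 156) (nat_lit 0) (nat_lit 0) (XT.nd (nat_lit 78) (nat_lit 0) (nat_lit 0) (XT.lf (nat_lit 0) (nat_lit 590935114629) (nat_lit 76) (nat_lit 1308340613345) (nat_lit 76) (nat_lit 1303738849874) (nat_lit 1) (nat_lit 4) (nat_lit 2) (nat_lit 5) (nat_lit 2) (nat_lit 4) (nat_lit 404) (nat_lit 343) (nat_lit 273)) (XT.lf (nat_lit 0) (nat_lit 890481184338) (nat_lit 76) (nat_lit 1391412330081) (nat_lit 76) (nat_lit 1386810532766)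 (nat_lit 1) (nat_lit 4) (nat_lit 2) (nat_lit 5) (nat_lit 2) (nat_lit 4) (nat_lit 405) (nat_lit 343) (nat_lit 272))) (XT.nd (nat_lit 78) (nat_lit 0) (nat_lit 0) (XT.lf (nat_lit 0) (nat_lit 1234956264971) (nat_lit 76) (nat_lit 1486946350828) (nat_lit 76) (nat_lit 1482344524082) (nat_lit 1) (nat_lit 4) (nat_lit 2) (nat_lit 5) (nat_lit 2) (nat_lit 4) (nat_lit 406) (nat_lit 343) (nat_lit 271)) (XT.lf (nat_lit 0) (nat_lit 1631100086367) (nat_lit 76) (nat_lit 1596811819469) (nat_lit 76) (nat_lit 1592209967131) (nat_lit 1) (nat_lit 4) (nat_lit 2) (nat_lit 5) (nat_lit 2) (nat_lit 4) (nat_lit 407) (nat_lit 343) (nat_lit 270)))))) (XT.nd (nat_lit 546) (nat_lit 0) (nat_lit 0) (XT.nd (nat_lit 234) (nat_lit 0) (nat_lit 0) (XT.nd (nat_lit 78) (nat_lit 0) (nat_lit 0) (XT.lf (nat_lit 0) (nat_lit 2086663288508) (nat_lit 76) (nat_lit 1723158277782) (nat_lit 76) (nat_lit 1718556403190) (nat_lit 1) (nat_lit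 4) (nat_lit 2) (nat_lit 5) (nat_lit 2) (nat_lit 4) (nat_lit 408) (nat_lit 343) (nat_lit 269)) (XT.nd (nat_lit 78) (nat_lit 0) (nat_lit 0) (XT.lf (nat_lit 0) (nat_lit 2610559064482) (nat_lit 76) (nat_lit 1868457721690) (nat_lit 76) (nat_lit 1863855827747) (nat_lit 1) (nat_lit 4) (nat_lit 2) (nat_lit 5) (nat_lit 2) (nat_lit 4) (nat_lit 409) (nat_lit 343) (nat_lit 268)) (XT.lf (nat_lit 0) (nat_lit 3213037549034) (nat_lit 76) (nat_lit 2035552966400) (nat_lit 76) (nat_lit 2030951055631) (nat_lit 1) (nat_lit 4) (nat_lit 2) (nat_lit 5) (nat_lit 2) (nat_lit 4) (nat_lit 410) (nat_lit 343) (nat_lit 267)))) (XT.nd (nat_lit 156) (nat_lit 0) (nat_lit 0) (XT.nd (nat_lit 78) (nat_lit 0) (nat_lit 0) (XT.lf (nat_lit 0) (nat_lit 3905886364689) (nat_lit 76) (nat_lit 2227713266700) (nat_lit 76) (nat_lit 2223111341299) (nat_lit 1) (nat_lit 4) (nat_lit 2) (nat_lit 5) (nat_lit 2) (nat_lit 4) (nat_lit 411) (nat_lit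 343) (nat_lit 266)) (XT.lf (nat_lit 0) (nat_lit 4702661249145) (nat_lit 76) (nat_lit 2448698280640) (nat_lit 76) (nat_lit 2444096342515) (nat_lit 1) (nat_lit 4) (nat_lit 2) (nat_lit 5) (nat_lit 2) (nat_lit 4) (nat_lit 412) (nat_lit 343) (nat_lit 265))) (XT.nd (nat_lit 78) (nat_lit 0) (nat_lit 0) (XT.lf (nat_lit 0) (nat_lit 5618951276227) (nat_lit 76) (nat_lit 2702831628057) (nat_lit 76) (nat_lit 2698229678869) (nat_lit 1) (nat_lit 4) (nat_lit 2) (nat_lit 5) (nat_lit 2) (nat_lit 4) (nat_lit 413) (nat_lit 343) (nat_lit 264)) (XT.lf (nat_lit 0) (nat_lit 6672683859510) (nat_lit 76) (nat_lit 2995085483141) (nat_lit 76) (nat_lit 2990483524331) (nat_lit 1) (nat_lit 4) (nat_lit 2) (nat_lit 5) (nat_lit 2) (nat_lit 4) (nat_lit 414) (nat_lit 343) (nat_lit 263))))) (XT.nd (nat_lit 234) (nat_lit 0) (nat_lit 0) (XT.nd (nat_lit 78) (nat_lit 0) (nat_lit 0) (XT.lf (nat_lit 0) (nat_lit 7884475506056) (nat_lit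 76) (nat_lit 3331177856098) (nat_lit 76) (nat_lit 3326575888922) (nat_lit 1) (nat_lit 4) (nat_lit 2) (nat_lit 5) (nat_lit 2) (nat_lit 4) (nat_lit 415) (nat_lit 343) (nat_lit 262)) (XT.nd (nat_lit 78) (nat_lit 0) (nat_lit 0) (XT.lf (nat_lit 0) (nat_lit 9278035182865) (nat_lit 76) (nat_lit 3717684467270) (nat_lit 76) (nat_lit 3713082492820) (nat_lit 1) (nat_lit 4) (nat_lit 2) (nat_lit 5) (nat_lit 2) (nat_lit 4) (nat_lit 416) (nat_lit 343) (nat_lit 261)) (XT.lf (nat_lit 0) (nat_lit 10880628187960) (nat_lit 76) (nat_lit 4162167402528) (nat_lit 76) (nat_lit 4157565421751) (nat_lit 1) (nat_lit 4) (nat_lit 2) (nat_lit 5) (nat_lit 2) (nat_lit 4) (nat_lit 417) (nat_lit 343) (nat_lit 260)))) (XT.nd (nat_lit 156) (nat_lit 0) (nat_lit 0) (XT.nd (nat_lit 78) (nat_lit 0) (nat_lit 0) (XT.lf (nat_lit 0) (nat_lit 12723609601876) (nat_lit 76) (nat_lit 4673323067125) (nat_lit 76) (nat_lit 4668721080848) (nat_lit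 1) (nat_lit 4) (nat_lit 2) (nat_lit 5) (nat_lit 2) (nat_lit 4) (nat_lit 418) (nat_lit 343) (nat_lit 259)) (XT.lf (nat_lit 0) (nat_lit 14843037756624) (nat_lit 76) (nat_lit 5261152332762) (nat_lit 76) (nat_lit 5256550341702) (nat_lit 1) (nat_lit 4) (nat_lit 2) (nat_lit 5) (nat_lit 2) (nat_lit 4) (nat_lit 419) (nat_lit 343) (nat_lit 258))) (XT.nd (nat_lit 78) (nat_lit 0) (nat_lit 0) (XT.lf (nat_lit 0) (nat_lit 17280379724798) (nat_lit 76) (nat_lit 5937156206809) (nat_lit 76) (nat_lit 5932554211590) (nat_lit 1) (nat_lit 4) (nat_lit 2) (nat_lit 5) (nat_lit 2) (nat_lit 4) (nat_lit 420) (nat_lit 343) (nat_lit 257)) (XT.lf (nat_lit 0) (nat_lit 20083322631861) (nat_lit 76) (nat_lit 6714560852020) (nat_lit 76) (nat_lit 6709958853183) (nat_lit 1) (nat_lit 4) (nat_lit 2) (nat_lit 5) (nat_lit 2) (nat_lit 4) (nat_lit 421) (nat_lit 343) (nat_lit 256))))))))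
noncomputable def xc52 : XT := (XT.nd (nat_lit 47970) (nat_lit 0) (nat_lit 608) (XT.nd (nat_lit 1014) (nat_lit 0) (nat_lit 0) (XT.nd (nat_lit 468) (nat_lit 0) (nat_lit 0) (XT.nd (nat_lit 234) (nat_lit 0) (nat_lit 0) (XT.nd (nat_lit 78) (nat_lit 0) (nat_lit 0) (XT.lf (nat_lit 0) (nat_lit 23306706665126) (nat_lit 76) (nat_lit 7608576359278) (nat_lit 76) (nat_lit 7603974357297) (nat_lit 1) (nat_lit 4) (nat_lit 2) (nat_lit 5) (nat_lit 2) (nat_lit 4) (nat_lit 422) (nat_lit 343) (nat_lit 255)) (XT.nd (nat_lit 78) (nat_lit 0) (nat_lit 0) (XT.lf (nat_lit 0) (nat_lit 27013598033938) (nat_lit 76) (nat_lit 8636694336335) (nat_lit 76) (nat_lit 8632092331619) (nat_lit 1) (nat_lit 4) (nat_lit 2) (nat_lit 5) (nat_lit 2) (nat_lit 4) (nat_lit 423) (nat_lit 343) (nat_lit 254)) (XT.lf (nat_lit 0) (nat_lit 31276522873776) (nat_lit 76) (nat_lit 9819030134916) (nat_lit 76) (nat_lit 9814428127821) (nat_lit 1)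 (nat_lit 4) (nat_lit 2) (nat_lit 5) (nat_lit 2) (nat_lit 4) (nat_lit 424) (nat_lit 343) (nat_lit 253)))) (XT.nd (nat_lit 78) (nat_lit 0) (nat_lit 0) (XT.lf (nat_lit 0) (nat_lit 36178886235852) (nat_lit 76) (nat_lit 11178716411949) (nat_lit 76) (nat_lit 11174114402786) (nat_lit 1) (nat_lit 4) (nat_lit 2) (nat_lit 5) (nat_lit 2) (nat_lit 4) (nat_lit 425) (nat_lit 343) (nat_lit 252)) (XT.nd (nat_lit 78) (nat_lit 0) (nat_lit 0) (XT.lf (nat_lit 0) (nat_lit 41816603925078) (nat_lit 76) (nat_lit 12742355725028) (nat_lit 76) (nat_lit 12737753714067) (nat_lit 1) (nat_lit 4) (nat_lit 2) (nat_lit 5) (nat_lit 2) (nat_lit 4) (nat_lit 426) (nat_lit 343) (nat_lit 251)) (XT.lf (nat_lit 0) (nat_lit 48299979113634) (nat_lit 76) (nat_lit 14540541017236) (nat_lit 76) (nat_lit 14535939004712) (nat_lit 1) (nat_lit 4) (nat_lit 2) (nat_lit 5) (nat_lit 2) (nat_lit 4) (nat_lit 427) (nat_lit 343) (nat_lit 250)))))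 (XT.nd (nat_lit 234) (nat_lit 0) (nat_lit 0) (XT.nd (nat_lit 78) (nat_lit 0) (nat_lit 0) (XT.lf (nat_lit 0) (nat_lit 55755860446513) (nat_lit 76) (nat_lit 16608454174724) (nat_lit 76) (nat_lit 16603852160840) (nat_lit 1) (nat_lit 4) (nat_lit 2) (nat_lit 5) (nat_lit 2) (nat_lit 4) (nat_lit 428) (nat_lit 343) (nat_lit 249)) (XT.nd (nat_lit 78) (nat_lit 0) (nat_lit 0) (XT.lf (nat_lit 0) (nat_lit 64330123862836) (nat_lit 76) (nat_lit 18986554367965) (nat_lit 76) (nat_lit 18981952352899) (nat_lit 1) (nat_lit 4) (nat_lit 2) (nat_lit 5) (nat_lit 2) (nat_lit 4) (nat_lit 429) (nat_lit 343) (nat_lit 248)) (XT.lf (nat_lit 0) (nat_lit 74190526690315) (nat_lit 76) (nat_lit 21721369644218) (nat_lit 76) (nat_lit 21716767628124) (nat_lit 1) (nat_lit 4) (nat_lit 2) (nat_lit 5) (nat_lit 2) (nat_lit 4) (nat_lit 430) (nat_lit 343) (nat_lit 247)))) (XT.nd (nat_lit 156) (nat_lit 0) (nat_lit 0) (XT.nd (nat_lit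 78) (nat_lit 0) (nat_lit 0) (XT.lf (nat_lit 0) (nat_lit 85529989853835) (nat_lit 76) (nat_lit 24866407258889) (nat_lit 76) (nat_lit 24861805241900) (nat_lit 1) (nat_lit 4) (nat_lit 2) (nat_lit 5) (nat_lit 2) (nat_lit 4) (nat_lit 431) (nat_lit 343) (nat_lit 246)) (XT.lf (nat_lit 0) (nat_lit 98570372415291) (nat_lit 76) (nat_lit 28483200556610) (nat_lit 76) (nat_lit 28478598538845) (nat_lit 1) (nat_lit 4) (nat_lit 2) (nat_lit 5) (nat_lit 2) (nat_lit 4) (nat_lit 432) (nat_lit 343) (nat_lit 245))) (XT.nd (nat_lit 78) (nat_lit 0) (nat_lit 0) (XT.lf (nat_lit 0) (nat_lit 113566812294364) (nat_lit 76) (nat_lit 32642512884513) (nat_lit 76) (nat_lit 32637910866072) (nat_lit 1) (nat_lit 4) (nat_lit 2) (nat_lit 5) (nat_lit 2) (nat_lit 4) (nat_lit 433) (nat_lit 343) (nat_lit 244)) (XT.lf (nat_lit 0) (nat_lit 130812718097382) (nat_lit 76) (nat_lit 37425722092491) (nat_lit 76) (nat_lit 37421120073462)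 (nat_lit 1) (nat_lit 4) (nat_lit 2) (nat_lit 5) (nat_lit 2) (nat_lit 4) (nat_lit 434) (nat_lit 343) (nat_lit 243)))))) (XT.nd (nat_lit 46410) (nat_lit 0) (nat_lit 2432) (XT.nd (nat_lit 46176) (nat_lit 0) (nat_lit 3268) (XT.nd (nat_lit 46020) (nat_lit 0) (nat_lit 3496) (XT.lf (nat_lit 0) (nat_lit 150645509720493) (nat_lit 76) (nat_lit 42926412708526) (nat_lit 76) (nat_lit 42921810688986) (nat_lit 1) (nat_lit 4) (nat_lit 2) (nat_lit 5) (nat_lit 2) (nat_lit 4) (nat_lit 435) (nat_lit 343) (nat_lit 242)) (XT.nd (nat_lit 78) (nat_lit 0) (nat_lit 0) (XT.lf (nat_lit 0) (nat_lit 950123815) (nat_lit 0) (nat_lit 950123815) (nat_lit 228) (nat_lit 2071322078) (nat_lit 47) (nat_lit 5) (nat_lit 47) (nat_lit 3) (nat_lit 50) (nat_lit 3) (nat_lit 344) (nat_lit 344) (nat_lit 332)) (XT.lf (nat_lit 0) (nat_lit 5284126289) (nat_lit 228) (nat_lit 2077231749) (nat_lit 304) (nat_lit 997400603) (nat_lit 47) (nat_lit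 5) (nat_lit 50) (nat_lit 3) (nat_lit 51) (nat_lit 5) (nat_lit 345) (nat_lit 344) (nat_lit 331)))) (XT.nd (nat_lit 78) (nat_lit 228) (nat_lit 0) (XT.lf (nat_lit 76) (nat_lit 2475383157) (nat_lit 0) (nat_lit 4506816605) (nat_lit 304) (nat_lit 1855794568) (nat_lit 48) (nat_lit 5) (nat_lit 47) (nat_lit 5) (nat_lit 51) (nat_lit 5) (nat_lit 346) (nat_lit 344) (nat_lit 330)) (XT.nd (nat_lit 78) (nat_lit 228) (nat_lit 0) (XT.lf (nat_lit 76) (nat_lit 7812823756) (nat_lit 0) (nat_lit 1050435816) (nat_lit 304) (nat_lit 536665155) (nat_lit 48) (nat_lit 5) (nat_lit 47) (nat_lit 5) (nat_lit 51) (nat_lit 5) (nat_lit 347) (nat_lit 344) (nat_lit 329)) (XT.lf (nat_lit 0) (nat_lit 1030984226) (nat_lit 304) (nat_lit 6073224135) (nat_lit 76) (nat_lit 2915196599) (nat_lit 44) (nat_lit 5) (nat_lit 48) (nat_lit 5) (nat_lit 45) (nat_lit 5) (nat_lit 348) (nat_lit 344) (nat_lit 328))))) (XT.nd (nat_lit 234) (nat_lit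 380) (nat_lit 0) (XT.nd (nat_lit 78) (nat_lit 456) (nat_lit 0) (XT.lf (nat_lit 0) (nat_lit 2768721097) (nat_lit 304) (nat_lit 458804581) (nat_lit 76) (nat_lit 7501998877) (nat_lit 44) (nat_lit 5) (nat_lit 48) (nat_lit 5) (nat_lit 45) (nat_lit 5) (nat_lit 349) (nat_lit 344) (nat_lit 327)) (XT.nd (nat_lit 78) (nat_lit 152) (nat_lit 0) (XT.lf (nat_lit 0) (nat_lit 4969674866) (nat_lit 380) (nat_lit 5146090136) (nat_lit 76) (nat_lit 1400042592) (nat_lit 40) (nat_lit 5) (nat_lit 45) (nat_lit 5) (nat_lit 41) (nat_lit 5) (nat_lit 350) (nat_lit 344) (nat_lit 326)) (XT.lf (nat_lit 0) (nat_lit 1715727087) (nat_lit 152) (nat_lit 5918374547) (nat_lit 228) (nat_lit 4765957148) (nat_lit 38) (nat_lit 5) (nat_lit 40) (nat_lit 5) (nat_lit 41) (nat_lit 5) (nat_lit 351) (nat_lit 344) (nat_lit 325)))) (XT.nd (nat_lit 156) (nat_lit 152) (nat_lit 0) (XT.nd (nat_lit 78) (nat_lit 228) (nat_lit 0) (XT.lf (nat_lit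 0) (nat_lit 10051692591) (nat_lit 152) (nat_lit 808641458) (nat_lit 228) (nat_lit 2532314253) (nat_lit 38) (nat_lit 5) (nat_lit 40) (nat_lit 5) (nat_lit 41) (nat_lit 5) (nat_lit 352) (nat_lit 344) (nat_lit 324)) (XT.lf (nat_lit 0) (nat_lit 381504863) (nat_lit 228) (nat_lit 9270904416) (nat_lit 76) (nat_lit 4829252374) (nat_lit 35) (nat_lit 5) (nat_lit 38) (nat_lit 5) (nat_lit 36) (nat_lit 5) (nat_lit 353) (nat_lit 344) (nat_lit 323))) (XT.nd (nat_lit 78) (nat_lit 152) (nat_lit 0) (XT.lf (nat_lit 0) (nat_lit 3603719517) (nat_lit 228) (nat_lit 586628279) (nat_lit 76) (nat_lit 11506018139) (nat_lit 35) (nat_lit 5) (nat_lit 38) (nat_lit 5) (nat_lit 36) (nat_lit 5) (nat_lit 354) (nat_lit 344) (nat_lit 322)) (XT.lf (nat_lit 0) (nat_lit 7757503912) (nat_lit 228) (nat_lit 6954166710) (nat_lit 76) (nat_lit 2314382127) (nat_lit 33) (nat_lit 5) (nat_lit 36) (nat_lit 5) (nat_lit 34) (nat_lit 4) (nat_lit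 355) (nat_lit 344) (nat_lit 321))))))) (XT.nd (nat_lit 1014) (nat_lit 836) (nat_lit 0) (XT.nd (nat_lit 468) (nat_lit 456) (nat_lit 0) (XT.nd (nat_lit 234) (nat_lit 228) (nat_lit 0) (XT.nd (nat_lit 78) (nat_lit 228) (nat_lit 0) (XT.lf (nat_lit 0) (nat_lit 3868805283) (nat_lit 76) (nat_lit 8982649625) (nat_lit 152) (nat_lit 5656183722) (nat_lit 32) (nat_lit 5) (nat_lit 33) (nat_lit 5) (nat_lit 34) (nat_lit 4) (nat_lit 356) (nat_lit 344) (nat_lit 320)) (XT.nd (nat_lit 78) (nat_lit 228) (nat_lit 0) (XT.lf (nat_lit 0) (nat_lit 16983056276) (nat_lit 76) (nat_lit 2020233330) (nat_lit 152) (nat_lit 1164113597) (nat_lit 32) (nat_lit 5) (nat_lit 33) (nat_lit 5) (nat_lit 34) (nat_lit 4) (nat_lit 357) (nat_lit 344) (nat_lit 319)) (XT.lf (nat_lit 0) (nat_lit 4298776924) (nat_lit 228) (nat_lit 11602478340) (nat_lit 76) (nat_lit 6052037433) (nat_lit 29) (nat_lit 5) (nat_lit 32) (nat_lit 5) (nat_lit 30)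 (nat_lit 4) (nat_lit 358) (nat_lit 344) (nat_lit 318)))) (XT.nd (nat_lit 78) (nat_lit 152) (nat_lit 0) (XT.lf (nat_lit 0) (nat_lit 2222812943) (nat_lit 76) (nat_lit 8540643238) (nat_lit 152) (nat_lit 13190069830) (nat_lit 28) (nat_lit 5) (nat_lit 29) (nat_lit 5) (nat_lit 30) (nat_lit 4) (nat_lit 359) (nat_lit 344) (nat_lit 317)) (XT.nd (nat_lit 78) (nat_lit 152) (nat_lit 0) (XT.lf (nat_lit 0) (nat_lit 18770822171) (nat_lit 152) (nat_lit 6872090194) (nat_lit 0) (nat_lit 524939643) (nat_lit 28) (nat_lit 5) (nat_lit 30) (nat_lit 4) (nat_lit 28) (nat_lit 4) (nat_lit 360) (nat_lit 344) (nat_lit 316)) (XT.lf (nat_lit 0) (nat_lit 165041242) (nat_lit 152) (nat_lit 17939548249) (nat_lit 76) (nat_lit 10489111340) (nat_lit 26) (nat_lit 5) (nat_lit 28) (nat_lit 5) (nat_lit 27) (nat_lit 4) (nat_lit 361) (nat_lit 344) (nat_lit 315))))) (XT.nd (nat_lit 234) (nat_lit 304) (nat_lit 0) (XT.nd (nat_lit 78)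 (nat_lit 152) (nat_lit 0) (XT.lf (nat_lit 0) (nat_lit 8429563639) (nat_lit 152) (nat_lit 213002827) (nat_lit 76) (nat_lit 22639209800) (nat_lit 26) (nat_lit 5) (nat_lit 28) (nat_lit 5) (nat_lit 27) (nat_lit 4) (nat_lit 362) (nat_lit 344) (nat_lit 314)) (XT.nd (nat_lit 78) (nat_lit 76) (nat_lit 0) (XT.lf (nat_lit 0) (nat_lit 18937242960) (nat_lit 152) (nat_lit 12324789663) (nat_lit 0) (nat_lit 2960511705) (nat_lit 25) (nat_lit 5) (nat_lit 27) (nat_lit 4) (nat_lit 25) (nat_lit 4) (nat_lit 363) (nat_lit 344) (nat_lit 313)) (XT.lf (nat_lit 0) (nat_lit 10154004767) (nat_lit 76) (nat_lit 21667418481) (nat_lit 76) (nat_lit 5662954682) (nat_lit 24) (nat_lit 4) (nat_lit 25) (nat_lit 5) (nat_lit 25) (nat_lit 4) (nat_lit 364) (nat_lit 344) (nat_lit 312)))) (XT.nd (nat_lit 156) (nat_lit 152) (nat_lit 0) (XT.nd (nat_lit 78) (nat_lit 76) (nat_lit 0) (XT.lf (nat_lit 0) (nat_lit 5553729591) (nat_lit 152)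 (nat_lit 4088060431) (nat_lit 76) (nat_lit 31465344885) (nat_lit 23) (nat_lit 5) (nat_lit 25) (nat_lit 5) (nat_lit 24) (nat_lit 4) (nat_lit 365) (nat_lit 344) (nat_lit 311)) (XT.lf (nat_lit 0) (nat_lit 19082312922) (nat_lit 152) (nat_lit 20842984842) (nat_lit 0) (nat_lit 5126183495) (nat_lit 22) (nat_lit 5) (nat_lit 24) (nat_lit 4) (nat_lit 22) (nat_lit 4) (nat_lit 366) (nat_lit 344) (nat_lit 310))) (XT.nd (nat_lit 78) (nat_lit 76) (nat_lit 0) (XT.lf (nat_lit 0) (nat_lit 7805035955) (nat_lit 76) (nat_lit 27804512985) (nat_lit 76) (nat_lit 13832527385) (nat_lit 21) (nat_lit 4) (nat_lit 22) (nat_lit 5) (nat_lit 22) (nat_lit 4) (nat_lit 367) (nat_lit 344) (nat_lit 309)) (XT.lf (nat_lit 0) (nat_lit 1218300562) (nat_lit 152) (nat_lit 11366427366) (nat_lit 76) (nat_lit 41740042241) (nat_lit 20) (nat_lit 5) (nat_lit 22) (nat_lit 5) (nat_lit 21) (nat_lit 4) (nat_lit 368) (nat_lit 344) (nat_lit 308))))))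 (XT.nd (nat_lit 546) (nat_lit 304) (nat_lit 0) (XT.nd (nat_lit 234) (nat_lit 380) (nat_lit 0) (XT.nd (nat_lit 78) (nat_lit 76) (nat_lit 0) (XT.lf (nat_lit 0) (nat_lit 18394355430) (nat_lit 152) (nat_lit 35031753896) (nat_lit 0) (nat_lit 6222387500) (nat_lit 19) (nat_lit 5) (nat_lit 21) (nat_lit 4) (nat_lit 19) (nat_lit 4) (nat_lit 369) (nat_lit 344) (nat_lit 307)) (XT.nd (nat_lit 78) (nat_lit 0) (nat_lit 0) (XT.lf (nat_lit 0) (nat_lit 988726723) (nat_lit 76) (nat_lit 38389211236) (nat_lit 76) (nat_lit 26208177488) (nat_lit 18) (nat_lit 4) (nat_lit 19) (nat_lit 5) (nat_lit 19) (nat_lit 4) (nat_lit 370) (nat_lit 344) (nat_lit 306)) (XT.lf (nat_lit 0) (nat_lit 46287428881) (nat_lit 76) (nat_lit 19022841935) (nat_lit 76) (nat_lit 6833924868) (nat_lit 18) (nat_lit 4) (nat_lit 19) (nat_lit 5) (nat_lit 19) (nat_lit 4) (nat_lit 371) (nat_lit 344) (nat_lit 305)))) (XT.nd (nat_lit 156) (nat_lit 228)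 (nat_lit 0) (XT.nd (nat_lit 78) (nat_lit 0) (nat_lit 0) (XT.lf (nat_lit 0) (nat_lit 15064838384) (nat_lit 152) (nat_lit 59916361640) (nat_lit 0) (nat_lit 4459819141) (nat_lit 16) (nat_lit 5) (nat_lit 18) (nat_lit 4) (nat_lit 16) (nat_lit 4) (nat_lit 372) (nat_lit 344) (nat_lit 304)) (XT.lf (nat_lit 0) (nat_lit 41843416103) (nat_lit 152) (nat_lit 14362723814) (nat_lit 0) (nat_lit 31233213450) (nat_lit 16) (nat_lit 5) (nat_lit 18) (nat_lit 4) (nat_lit 16) (nat_lit 4) (nat_lit 373) (nat_lit 344) (nat_lit 303))) (XT.nd (nat_lit 78) (nat_lit 152) (nat_lit 0) (XT.lf (nat_lit 0) (nat_lit 41685810053) (nat_lit 76) (nat_lit 32655480750) (nat_lit 76) (nat_lit 22040770783) (nat_lit 15) (nat_lit 4) (nat_lit 16) (nat_lit 5) (nat_lit 16) (nat_lit 4) (nat_lit 374) (nat_lit 344) (nat_lit 302)) (XT.lf (nat_lit 0) (nat_lit 996851827) (nat_lit 76) (nat_lit 4405697566) (nat_lit 152) (nat_lit 101111636393) (nat_lit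 13) (nat_lit 5) (nat_lit 14) (nat_lit 5) (nat_lit 15) (nat_lit 4) (nat_lit 375) (nat_lit 344) (nat_lit 301))))) (XT.nd (nat_lit 234) (nat_lit 228) (nat_lit 0) (XT.nd (nat_lit 78) (nat_lit 76) (nat_lit 0) (XT.lf (nat_lit 0) (nat_lit 38840428144) (nat_lit 152) (nat_lit 48944200580) (nat_lit 0) (nat_lit 29603873756) (nat_lit 13) (nat_lit 5) (nat_lit 15) (nat_lit 4) (nat_lit 13) (nat_lit 4) (nat_lit 376) (nat_lit 344) (nat_lit 300)) (XT.nd (nat_lit 78) (nat_lit 0) (nat_lit 0) (XT.lf (nat_lit 0) (nat_lit 17412251614) (nat_lit 76) (nat_lit 60792142948) (nat_lit 76) (nat_lit 51553011488) (nat_lit 12) (nat_lit 4) (nat_lit 13) (nat_lit 5) (nat_lit 13) (nat_lit 4) (nat_lit 377) (nat_lit 344) (nat_lit 299)) (XT.lf (nat_lit 0) (nat_lit 99181772478) (nat_lit 76) (nat_lit 26830196653) (nat_lit 76) (nat_lit 17588824262) (nat_lit 12) (nat_lit 4) (nat_lit 13) (nat_lit 5) (nat_lit 13) (nat_lit 4) (nat_lit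 378) (nat_lit 344) (nat_lit 298)))) (XT.nd (nat_lit 156) (nat_lit 76) (nat_lit 0) (XT.nd (nat_lit 78) (nat_lit 0) (nat_lit 0) (XT.lf (nat_lit 0) (nat_lit 21649107947) (nat_lit 152) (nat_lit 123813210992) (nat_lit 0) (nat_lit 13611437488) (nat_lit 10) (nat_lit 5) (nat_lit 12) (nat_lit 4) (nat_lit 10) (nat_lit 4) (nat_lit 379) (nat_lit 344) (nat_lit 297)) (XT.lf (nat_lit 0) (nat_lit 68664412952) (nat_lit 152) (nat_lit 46898481070) (nat_lit 0) (nat_lit 60625269045) (nat_lit 10) (nat_lit 5) (nat_lit 12) (nat_lit 4) (nat_lit 10) (nat_lit 4) (nat_lit 380) (nat_lit 344) (nat_lit 296))) (XT.nd (nat_lit 78) (nat_lit 0) (nat_lit 0) (XT.lf (nat_lit 0) (nat_lit 45578584942) (nat_lit 76) (nat_lit 79025388543) (nat_lit 76) (nat_lit 70984963376) (nat_lit 9) (nat_lit 4) (nat_lit 10) (nat_lit 5) (nat_lit 10) (nat_lit 4) (nat_lit 381) (nat_lit 344) (nat_lit 295)) (XT.lf (nat_lit 0) (nat_lit 157166847952)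 (nat_lit 76) (nat_lit 34204493586) (nat_lit 76) (nat_lit 26162954279) (nat_lit 9) (nat_lit 4) (nat_lit 10) (nat_lit 5) (nat_lit 10) (nat_lit 4) (nat_lit 382) (nat_lit 344) (nat_lit 294))))))))
noncomputable def xc53 : XT := (XT.nd (nat_lit 2106) (nat_lit 0) (nat_lit 0) (XT.nd (nat_lit 1014) (nat_lit 76) (nat_lit 0) (XT.nd (nat_lit 468) (nat_lit 228) (nat_lit 0) (XT.nd (nat_lit 234) (nat_lit 76) (nat_lit 0) (XT.nd (nat_lit 78) (nat_lit 76) (nat_lit 0) (XT.lf (nat_lit 0) (nat_lit 25859704898) (nat_lit 152) (nat_lit 197477320601) (nat_lit 0) (nat_lit 18866219574) (nat_lit 7) (nat_lit 5) (nat_lit 9) (nat_lit 4) (nat_lit 7) (nat_lit 4) (nat_lit 383) (nat_lit 344) (nat_lit 293)) (XT.nd (nat_lit 78) (nat_lit 76) (nat_lit 0) (XT.lf (nat_lit 0) (nat_lit 87928485830) (nat_lit 152) (nat_lit 100784708116) (nat_lit 0) (nat_lit 80934267941) (nat_lit 7) (nat_lit 5) (nat_lit 9) (nat_lit 4) (nat_lit 7) (nat_lit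 4) (nat_lit 384) (nat_lit 344) (nat_lit 292)) (XT.lf (nat_lit 0) (nat_lit 11402220770) (nat_lit 76) (nat_lit 148365930179) (nat_lit 76) (nat_lit 141371075278) (nat_lit 6) (nat_lit 4) (nat_lit 7) (nat_lit 5) (nat_lit 7) (nat_lit 4) (nat_lit 385) (nat_lit 344) (nat_lit 291)))) (XT.nd (nat_lit 78) (nat_lit 76) (nat_lit 0) (XT.lf (nat_lit 0) (nat_lit 151720457654) (nat_lit 76) (nat_lit 95920559382) (nat_lit 76) (nat_lit 88925150557) (nat_lit 6) (nat_lit 4) (nat_lit 7) (nat_lit 5) (nat_lit 7) (nat_lit 4) (nat_lit 386) (nat_lit 344) (nat_lit 290)) (XT.nd (nat_lit 78) (nat_lit 76) (nat_lit 0) (XT.lf (nat_lit 0) (nat_lit 313065944685) (nat_lit 76) (nat_lit 35619268034) (nat_lit 76) (nat_lit 28623377536) (nat_lit 6) (nat_lit 4) (nat_lit 7) (nat_lit 5) (nat_lit 7) (nat_lit 4) (nat_lit 387) (nat_lit 344) (nat_lit 289)) (XT.lf (nat_lit 0) (nat_lit 42029966056) (nat_lit 76) (nat_lit 345193478517) (nat_lit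 0) (nat_lit 35946218800) (nat_lit 5) (nat_lit 5) (nat_lit 6) (nat_lit 4) (nat_lit 5) (nat_lit 4) (nat_lit 388) (nat_lit 344) (nat_lit 288))))) (XT.nd (nat_lit 234) (nat_lit 152) (nat_lit 0) (XT.nd (nat_lit 78) (nat_lit 76) (nat_lit 0) (XT.lf (nat_lit 0) (nat_lit 125556292585) (nat_lit 76) (nat_lit 229896103076) (nat_lit 0) (nat_lit 119472228622) (nat_lit 5) (nat_lit 5) (nat_lit 6) (nat_lit 4) (nat_lit 5) (nat_lit 4) (nat_lit 389) (nat_lit 344) (nat_lit 287)) (XT.nd (nat_lit 78) (nat_lit 76) (nat_lit 0) (XT.lf (nat_lit 0) (nat_lit 221603972261) (nat_lit 76) (nat_lit 97320363572) (nat_lit 0) (nat_lit 215519632899) (nat_lit 5) (nat_lit 5) (nat_lit 6) (nat_lit 4) (nat_lit 5) (nat_lit 4) (nat_lit 390) (nat_lit 344) (nat_lit 286)) (XT.lf (nat_lit 0) (nat_lit 60515084444) (nat_lit 76) (nat_lit 274042914968) (nat_lit 76) (nat_lit 267958336130) (nat_lit 4) (nat_lit 4) (nat_lit 5) (nat_lit 5) (nat_lit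 5) (nat_lit 4) (nat_lit 391) (nat_lit 344) (nat_lit 285)))) (XT.nd (nat_lit 156) (nat_lit 152) (nat_lit 0) (XT.nd (nat_lit 78) (nat_lit 0) (nat_lit 0) (XT.lf (nat_lit 0) (nat_lit 252949849722) (nat_lit 76) (nat_lit 216586179949) (nat_lit 76) (nat_lit 210501392870) (nat_lit 4) (nat_lit 4) (nat_lit 5) (nat_lit 5) (nat_lit 5) (nat_lit 4) (nat_lit 392) (nat_lit 344) (nat_lit 284)) (XT.lf (nat_lit 0) (nat_lit 474238106563) (nat_lit 76) (nat_lit 150517178087) (nat_lit 76) (nat_lit 144432209929) (nat_lit 4) (nat_lit 4) (nat_lit 5) (nat_lit 5) (nat_lit 5) (nat_lit 4) (nat_lit 393) (nat_lit 344) (nat_lit 283))) (XT.nd (nat_lit 78) (nat_lit 152) (nat_lit 0) (XT.lf (nat_lit 0) (nat_lit 728709407819) (nat_lit 76) (nat_lit 74543254997) (nat_lit 76) (nat_lit 68458129379) (nat_lit 4) (nat_lit 4) (nat_lit 5) (nat_lit 5) (nat_lit 5) (nat_lit 4) (nat_lit 394) (nat_lit 344) (nat_lit 282)) (XT.lf (nat_lit 0)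 (nat_lit 19265893560) (nat_lit 152) (nat_lit 955949236815) (nat_lit 0) (nat_lit 13974360917) (nat_lit 2) (nat_lit 5) (nat_lit 4) (nat_lit 4) (nat_lit 2) (nat_lit 4) (nat_lit 395) (nat_lit 344) (nat_lit 281)))))) (XT.nd (nat_lit 546) (nat_lit 76) (nat_lit 0) (XT.nd (nat_lit 234) (nat_lit 0) (nat_lit 0) (XT.nd (nat_lit 78) (nat_lit 0) (nat_lit 0) (XT.lf (nat_lit 0) (nat_lit 124516081024) (nat_lit 152) (nat_lit 878354027316) (nat_lit 0) (nat_lit 119224444849) (nat_lit 2) (nat_lit 5) (nat_lit 4) (nat_lit 4) (nat_lit 2) (nat_lit 4) (nat_lit 396) (nat_lit 344) (nat_lit 280)) (XT.nd (nat_lit 78) (nat_lit 0) (nat_lit 0) (XT.lf (nat_lit 0) (nat_lit 245550024926) (nat_lit 152) (nat_lit 789127616482) (nat_lit 0) (nat_lit 240258298723) (nat_lit 2) (nat_lit 5) (nat_lit 4) (nat_lit 4) (nat_lit 2) (nat_lit 4) (nat_lit 397) (nat_lit 344) (nat_lit 279)) (XT.lf (nat_lit 0) (nat_lit 384735780691) (nat_lit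 152) (nat_lit 686524270190) (nat_lit 0) (nat_lit 379443976202) (nat_lit 2) (nat_lit 5) (nat_lit 4) (nat_lit 4) (nat_lit 2) (nat_lit 4) (nat_lit 398) (nat_lit 344) (nat_lit 278)))) (XT.nd (nat_lit 156) (nat_lit 0) (nat_lit 0) (XT.nd (nat_lit 78) (nat_lit 0) (nat_lit 0) (XT.lf (nat_lit 0) (nat_lit 544796547886) (nat_lit 152) (nat_lit 568536531662) (nat_lit 0) (nat_lit 539504675323) (nat_lit 2) (nat_lit 5) (nat_lit 4) (nat_lit 4) (nat_lit 2) (nat_lit 4) (nat_lit 399) (nat_lit 344) (nat_lit 277)) (XT.lf (nat_lit 0) (nat_lit 728863950219) (nat_lit 152) (nat_lit 432855945147) (nat_lit 0) (nat_lit 723572018461) (nat_lit 2) (nat_lit 5) (nat_lit 4) (nat_lit 4) (nat_lit 2) (nat_lit 4) (nat_lit 400) (nat_lit 344) (nat_lit 276))) (XT.nd (nat_lit 78) (nat_lit 0) (nat_lit 0) (XT.lf (nat_lit 0) (nat_lit 940539306431) (nat_lit 152) (nat_lit 276827890472) (nat_lit 0) (nat_lit 935247323199) (nat_lit 2) (nat_lit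 5) (nat_lit 4) (nat_lit 4) (nat_lit 2) (nat_lit 4) (nat_lit 401) (nat_lit 344) (nat_lit 275)) (XT.lf (nat_lit 0) (nat_lit 1183964090881) (nat_lit 152) (nat_lit 97399644829) (nat_lit 0) (nat_lit 1178672062890) (nat_lit 2) (nat_lit 5) (nat_lit 4) (nat_lit 4) (nat_lit 2) (nat_lit 4) (nat_lit 402) (nat_lit 344) (nat_lit 274))))) (XT.nd (nat_lit 234) (nat_lit 0) (nat_lit 0) (XT.nd (nat_lit 78) (nat_lit 0) (nat_lit 0) (XT.lf (nat_lit 0) (nat_lit 119585689436) (nat_lit 76) (nat_lit 1349267061344) (nat_lit 76) (nat_lit 1343974994431) (nat_lit 1) (nat_lit 4) (nat_lit 2) (nat_lit 5) (nat_lit 2) (nat_lit 4) (nat_lit 403) (nat_lit 344) (nat_lit 273)) (XT.nd (nat_lit 78) (nat_lit 0) (nat_lit 0) (XT.lf (nat_lit 0) (nat_lit 380061881281) (nat_lit 76) (nat_lit 1421502617465) (nat_lit 76) (nat_lit 1416210516707) (nat_lit 1) (nat_lit 4) (nat_lit 2) (nat_lit 5) (nat_lit 2) (nat_lit 4) (nat_lit 404) (nat_lit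 344) (nat_lit 272)) (XT.lf (nat_lit 0) (nat_lit 679606602370) (nat_lit 76) (nat_lit 1504575053504) (nat_lit 76) (nat_lit 1499282923315) (nat_lit 1) (nat_lit 4) (nat_lit 2) (nat_lit 5) (nat_lit 2) (nat_lit 4) (nat_lit 405) (nat_lit 344) (nat_lit 271)))) (XT.nd (nat_lit 156) (nat_lit 0) (nat_lit 0) (XT.nd (nat_lit 78) (nat_lit 0) (nat_lit 0) (XT.lf (nat_lit 0) (nat_lit 1024080510290) (nat_lit 76) (nat_lit 1600109699730) (nat_lit 76) (nat_lit 1594817543950) (nat_lit 1) (nat_lit 4) (nat_lit 2) (nat_lit 5) (nat_lit 2) (nat_lit 4) (nat_lit 406) (nat_lit 344) (nat_lit 270)) (XT.lf (nat_lit 0) (nat_lit 1420223311935) (nat_lit 76) (nat_lit 1709975712267) (nat_lit 76) (nat_lit 1704683534233) (nat_lit 1) (nat_lit 4) (nat_lit 2) (nat_lit 5) (nat_lit 2) (nat_lit 4) (nat_lit 407) (nat_lit 344) (nat_lit 269))) (XT.nd (nat_lit 78) (nat_lit 0) (nat_lit 0) (XT.lf (nat_lit 0) (nat_lit 1875785627338) (nat_lit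 76) (nat_lit 1836322643532) (nat_lit 76) (nat_lit 1831030446148) (nat_lit 1) (nat_lit 4) (nat_lit 2) (nat_lit 5) (nat_lit 2) (nat_lit 4) (nat_lit 408) (nat_lit 344) (nat_lit 268)) (XT.lf (nat_lit 0) (nat_lit 2399680632234) (nat_lit 76) (nat_lit 1981622498704) (nat_lit 76) (nat_lit 1976330284492) (nat_lit 1) (nat_lit 4) (nat_lit 2) (nat_lit 5) (nat_lit 2) (nat_lit 4) (nat_lit 409) (nat_lit 344) (nat_lit 267))))))) (XT.nd (nat_lit 1014) (nat_lit 0) (nat_lit 0) (XT.nd (nat_lit 468) (nat_lit 0) (nat_lit 0) (XT.nd (nat_lit 234) (nat_lit 0) (nat_lit 0) (XT.nd (nat_lit 78) (nat_lit 0) (nat_lit 0) (XT.lf (nat_lit 0) (nat_lit 3002158446284) (nat_lit 76) (nat_lit 2148718101034) (nat_lit 76) (nat_lit 2143425872191) (nat_lit 1) (nat_lit 4) (nat_lit 2) (nat_lit 5) (nat_lit 2) (nat_lit 4) (nat_lit 410) (nat_lit 344) (nat_lit 266)) (XT.nd (nat_lit 78) (nat_lit 0) (nat_lit 0) (XT.lf (nat_lit 0) (nat_lit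 3695006678893) (nat_lit 76) (nat_lit 2340878712309) (nat_lit 76) (nat_lit 2335586470742) (nat_lit 1) (nat_lit 4) (nat_lit 2) (nat_lit 5) (nat_lit 2) (nat_lit 4) (nat_lit 411) (nat_lit 344) (nat_lit 265)) (XT.lf (nat_lit 0) (nat_lit 4491781056353) (nat_lit 76) (nat_lit 2561863996661) (nat_lit 76) (nat_lit 2556571744030) (nat_lit 1) (nat_lit 4) (nat_lit 2) (nat_lit 5) (nat_lit 2) (nat_lit 4) (nat_lit 412) (nat_lit 344) (nat_lit 264)))) (XT.nd (nat_lit 78) (nat_lit 0) (nat_lit 0) (XT.lf (nat_lit 0) (nat_lit 5408070642569) (nat_lit 76) (nat_lit 2815997579219) (nat_lit 76) (nat_lit 2810705316967) (nat_lit 1) (nat_lit 4) (nat_lit 2) (nat_lit 5) (nat_lit 2) (nat_lit 4) (nat_lit 413) (nat_lit 344) (nat_lit 263)) (XT.nd (nat_lit 78) (nat_lit 0) (nat_lit 0) (XT.lf (nat_lit 0) (nat_lit 6461802842489) (nat_lit 76) (nat_lit 3108251638773) (nat_lit 76) (nat_lit 3102959368155) (nat_lit 1) (nat_lit 4) (nat_lit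 2) (nat_lit 5) (nat_lit 2) (nat_lit 4) (nat_lit 414) (nat_lit 344) (nat_lit 262)) (XT.lf (nat_lit 0) (nat_lit 7673594155678) (nat_lit 76) (nat_lit 3444344189531) (nat_lit 76) (nat_lit 3439051911638) (nat_lit 1) (nat_lit 4) (nat_lit 2) (nat_lit 5) (nat_lit 2) (nat_lit 4) (nat_lit 415) (nat_lit 344) (nat_lit 261))))) (XT.nd (nat_lit 234) (nat_lit 0) (nat_lit 0) (XT.nd (nat_lit 78) (nat_lit 0) (nat_lit 0) (XT.lf (nat_lit 0) (nat_lit 9067153542610) (nat_lit 76) (nat_lit 3830850955312) (nat_lit 76) (nat_lit 3825558671094) (nat_lit 1) (nat_lit 4) (nat_lit 2) (nat_lit 5) (nat_lit 2) (nat_lit 4) (nat_lit 416) (nat_lit 344) (nat_lit 260)) (XT.nd (nat_lit 78) (nat_lit 0) (nat_lit 0) (XT.lf (nat_lit 0) (nat_lit 10669746295638) (nat_lit 76) (nat_lit 4275334025012) (nat_lit 76) (nat_lit 4270041735293) (nat_lit 1) (nat_lit 4) (nat_lit 2) (nat_lit 5) (nat_lit 2) (nat_lit 4) (nat_lit 417) (nat_lit 344)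 (nat_lit 259)) (XT.lf (nat_lit 0) (nat_lit 12512727490366) (nat_lit 76) (nat_lit 4786489806517) (nat_lit 76) (nat_lit 4781197512014) (nat_lit 1) (nat_lit 4) (nat_lit 2) (nat_lit 5) (nat_lit 2) (nat_lit 4) (nat_lit 418) (nat_lit 344) (nat_lit 258)))) (XT.nd (nat_lit 156) (nat_lit 0) (nat_lit 0) (XT.nd (nat_lit 78) (nat_lit 0) (nat_lit 0) (XT.lf (nat_lit 0) (nat_lit 14632155454515) (nat_lit 76) (nat_lit 5374319173812) (nat_lit 76) (nat_lit 5369026875150) (nat_lit 1) (nat_lit 4) (nat_lit 2) (nat_lit 5) (nat_lit 2) (nat_lit 4) (nat_lit 419) (nat_lit 344) (nat_lit 257)) (XT.lf (nat_lit 0) (nat_lit 17069497256951) (nat_lit 76) (nat_lit 6050323136257) (nat_lit 76) (nat_lit 6045030833978) (nat_lit 1) (nat_lit 4) (nat_lit 2) (nat_lit 5) (nat_lit 2) (nat_lit 4) (nat_lit 420) (nat_lit 344) (nat_lit 256))) (XT.nd (nat_lit 78) (nat_lit 0) (nat_lit 0) (XT.lf (nat_lit 0) (nat_lit 19872440019894) (nat_lit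 76) (nat_lit 6827727858335) (nat_lit 76) (nat_lit 6822435552912) (nat_lit 1) (nat_lit 4) (nat_lit 2) (nat_lit 5) (nat_lit 2) (nat_lit 4) (nat_lit 421) (nat_lit 344) (nat_lit 255)) (XT.lf (nat_lit 0) (nat_lit 23095823927837) (nat_lit 76) (nat_lit 7721743432436) (nat_lit 76) (nat_lit 7716451124277) (nat_lit 1) (nat_lit 4) (nat_lit 2) (nat_lit 5) (nat_lit 2) (nat_lit 4) (nat_lit 422) (nat_lit 344) (nat_lit 254)))))) (XT.nd (nat_lit 546) (nat_lit 0) (nat_lit 0) (XT.nd (nat_lit 234) (nat_lit 0) (nat_lit 0) (XT.nd (nat_lit 78) (nat_lit 0) (nat_lit 0) (XT.lf (nat_lit 0) (nat_lit 26802715187674) (nat_lit 76) (nat_lit 8749861467616) (nat_lit 76) (nat_lit 8744569157079) (nat_lit 1) (nat_lit 4) (nat_lit 2) (nat_lit 5) (nat_lit 2) (nat_lit 4) (nat_lit 423) (nat_lit 344) (nat_lit 253)) (XT.nd (nat_lit 78) (nat_lit 0) (nat_lit 0) (XT.lf (nat_lit 0) (nat_lit 31065639932751) (nat_lit 76) (nat_lit 9932197316738)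 (nat_lit 76) (nat_lit 9926905004134) (nat_lit 1) (nat_lit 4) (nat_lit 2) (nat_lit 5) (nat_lit 2) (nat_lit 4) (nat_lit 424) (nat_lit 344) (nat_lit 252)) (XT.lf (nat_lit 0) (nat_lit 35968003212426) (nat_lit 76) (nat_lit 11291883637721) (nat_lit 76) (nat_lit 11286591323318) (nat_lit 1) (nat_lit 4) (nat_lit 2) (nat_lit 5) (nat_lit 2) (nat_lit 4) (nat_lit 425) (nat_lit 344) (nat_lit 251)))) (XT.nd (nat_lit 156) (nat_lit 0) (nat_lit 0) (XT.nd (nat_lit 78) (nat_lit 0) (nat_lit 0) (XT.lf (nat_lit 0) (nat_lit 41605720829999) (nat_lit 76) (nat_lit 12855522989017) (nat_lit 76) (nat_lit 12850230673051) (nat_lit 1) (nat_lit 4) (nat_lit 2) (nat_lit 5) (nat_lit 2) (nat_lit 4) (nat_lit 426) (nat_lit 344) (nat_lit 250)) (XT.lf (nat_lit 0) (nat_lit 48089095956248) (nat_lit 76) (nat_lit 14653708314457) (nat_lit 76) (nat_lit 14648415997131) (nat_lit 1) (nat_lit 4) (nat_lit 2) (nat_lit 5) (nat_lit 2) (nat_lit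 4) (nat_lit 427) (nat_lit 344) (nat_lit 249))) (XT.nd (nat_lit 78) (nat_lit 0) (nat_lit 0) (XT.lf (nat_lit 0) (nat_lit 55544977234946) (nat_lit 76) (nat_lit 16721621500843) (nat_lit 76) (nat_lit 16716329182334) (nat_lit 1) (nat_lit 4) (nat_lit 2) (nat_lit 5) (nat_lit 2) (nat_lit 4) (nat_lit 428) (nat_lit 344) (nat_lit 248)) (XT.lf (nat_lit 0) (nat_lit 64119240604157) (nat_lit 76) (nat_lit 19099721719212) (nat_lit 76) (nat_lit 19094429399676) (nat_lit 1) (nat_lit 4) (nat_lit 2) (nat_lit 5) (nat_lit 2) (nat_lit 4) (nat_lit 429) (nat_lit 344) (nat_lit 247))))) (XT.nd (nat_lit 234) (nat_lit 0) (nat_lit 0) (XT.nd (nat_lit 78) (nat_lit 0) (nat_lit 0) (XT.lf (nat_lit 0) (nat_lit 73979643390668) (nat_lit 76) (nat_lit 21834537017316) (nat_lit 76) (nat_lit 21829244696885) (nat_lit 1) (nat_lit 4) (nat_lit 2) (nat_lit 5) (nat_lit 2) (nat_lit 4) (nat_lit 430) (nat_lit 344) (nat_lit 246)) (XT.nd (nat_lit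 78) (nat_lit 0) (nat_lit 0) (XT.lf (nat_lit 0) (nat_lit 85319106518564) (nat_lit 76) (nat_lit 24979574650987) (nat_lit 76) (nat_lit 24974282329779) (nat_lit 1) (nat_lit 4) (nat_lit 2) (nat_lit 5) (nat_lit 2) (nat_lit 4) (nat_lit 431) (nat_lit 344) (nat_lit 245)) (XT.lf (nat_lit 0) (nat_lit 98359489049042) (nat_lit 76) (nat_lit 28596367965231) (nat_lit 76) (nat_lit 28591075643347) (nat_lit 1) (nat_lit 4) (nat_lit 2) (nat_lit 5) (nat_lit 2) (nat_lit 4) (nat_lit 432) (nat_lit 344) (nat_lit 244)))) (XT.nd (nat_lit 156) (nat_lit 0) (nat_lit 0) (XT.nd (nat_lit 78) (nat_lit 0) (nat_lit 0) (XT.lf (nat_lit 0) (nat_lit 113355928901178) (nat_lit 76) (nat_lit 32755680307501) (nat_lit 76) (nat_lit 32750387985030) (nat_lit 1) (nat_lit 4) (nat_lit 2) (nat_lit 5) (nat_lit 2) (nat_lit 4) (nat_lit 433) (nat_lit 344) (nat_lit 243)) (XT.lf (nat_lit 0) (nat_lit 130601834680773) (nat_lit 76) (nat_lit 37538889527973)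 (nat_lit 76) (nat_lit 37533597204990) (nat_lit 1) (nat_lit 4) (nat_lit 2) (nat_lit 5) (nat_lit 2) (nat_lit 4) (nat_lit 434) (nat_lit 344) (nat_lit 242))) (XT.nd (nat_lit 46098) (nat_lit 0) (nat_lit 3496) (XT.lf (nat_lit 0) (nat_lit 150434626283515) (nat_lit 76) (nat_lit 43039580154871) (nat_lit 76) (nat_lit 43034287831444) (nat_lit 1) (nat_lit 4) (nat_lit 2) (nat_lit 5) (nat_lit 2) (nat_lit 4) (nat_lit 435) (nat_lit 344) (nat_lit 241)) (XT.lf (nat_lit 0) (nat_lit 1645394167) (nat_lit 0) (nat_lit 1645394167) (nat_lit 228) (nat_lit 1110377694) (nat_lit 47) (nat_lit 5) (nat_lit 47) (nat_lit 3) (nat_lit 50) (nat_lit 3) (nat_lit 345) (nat_lit 345) (nat_lit 330))))))))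
noncomputable def xc54 : XT := (XT.nd (nat_lit 2028) (nat_lit 1216) (nat_lit 0) (XT.nd (nat_lit 1014) (nat_lit 1064) (nat_lit 0) (XT.nd (nat_lit 468) (nat_lit 608) (nat_lit 0) (XT.nd (nat_lit 234) (nat_lit 228) (nat_lit 0) (XT.nd (nat_lit 78) (nat_lit 304) (nat_lit 0) (XT.lf (nat_lit 0) (nat_lit 7959554426) (nat_lit 228) (nat_lit 1098765749) (nat_lit 304) (nat_lit 271285487) (nat_lit 47) (nat_lit 5) (nat_lit 50) (nat_lit 3) (nat_lit 51) (nat_lit 5) (nat_lit 346) (nat_lit 345) (nat_lit 329)) (XT.nd (nat_lit 78) (nat_lit 304) (nat_lit 0) (XT.lf (nat_lit 76) (nat_lit 4078102723) (nat_lit 0) (nat_lit 5639642538) (nat_lit 304) (nat_lit 192241630) (nat_lit 48) (nat_lit 5) (nat_lit 47) (nat_lit 5) (nat_lit 51) (nat_lit 5) (nat_lit 347) (nat_lit 345) (nat_lit 328)) (XT.lf (nat_lit 0) (nat_lit 976073958) (nat_lit 304) (nat_lit 578125567) (nat_lit 380) (nat_lit 9028444437) (nat_lit 43) (nat_lit 5)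 (nat_lit 47) (nat_lit 5) (nat_lit 48) (nat_lit 5) (nat_lit 348) (nat_lit 345) (nat_lit 327)))) (XT.nd (nat_lit 78) (nat_lit 304) (nat_lit 0) (XT.lf (nat_lit 0) (nat_lit 2562451117) (nat_lit 304) (nat_lit 5600935516) (nat_lit 76) (nat_lit 3152094350) (nat_lit 44) (nat_lit 5) (nat_lit 48) (nat_lit 5) (nat_lit 45) (nat_lit 5) (nat_lit 349) (nat_lit 345) (nat_lit 326)) (XT.nd (nat_lit 78) (nat_lit 0) (nat_lit 0) (XT.lf (nat_lit 0) (nat_lit 741207581) (nat_lit 304) (nat_lit 3670747642) (nat_lit 380) (nat_lit 7742537962) (nat_lit 40) (nat_lit 5) (nat_lit 44) (nat_lit 5) (nat_lit 45) (nat_lit 5) (nat_lit 350) (nat_lit 345) (nat_lit 325)) (XT.lf (nat_lit 0) (nat_lit 6806208567) (nat_lit 380) (nat_lit 4608770775) (nat_lit 76) (nat_lit 1664301230) (nat_lit 40) (nat_lit 5) (nat_lit 45) (nat_lit 5) (nat_lit 41) (nat_lit 5) (nat_lit 351) (nat_lit 345) (nat_lit 324))))) (XT.nd (nat_lit 234) (nat_lit 228)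 (nat_lit 0) (XT.nd (nat_lit 78) (nat_lit 228) (nat_lit 0) (XT.lf (nat_lit 0) (nat_lit 3222808445) (nat_lit 152) (nat_lit 6556924135) (nat_lit 228) (nat_lit 4330052629) (nat_lit 38) (nat_lit 5) (nat_lit 40) (nat_lit 5) (nat_lit 41) (nat_lit 5) (nat_lit 352) (nat_lit 345) (nat_lit 323)) (XT.nd (nat_lit 78) (nat_lit 228) (nat_lit 0) (XT.lf (nat_lit 0) (nat_lit 12646161519) (nat_lit 152) (nat_lit 713236291) (nat_lit 228) (nat_lit 1911467398) (nat_lit 38) (nat_lit 5) (nat_lit 40) (nat_lit 5) (nat_lit 41) (nat_lit 5) (nat_lit 353) (nat_lit 345) (nat_lit 322)) (XT.lf (nat_lit 0) (nat_lit 1289643327) (nat_lit 228) (nat_lit 9424753930) (nat_lit 76) (nat_lit 5811741920) (nat_lit 35) (nat_lit 5) (nat_lit 38) (nat_lit 5) (nat_lit 36) (nat_lit 5) (nat_lit 354) (nat_lit 345) (nat_lit 321)))) (XT.nd (nat_lit 156) (nat_lit 76) (nat_lit 0) (XT.nd (nat_lit 78) (nat_lit 0) (nat_lit 0) (XT.lf (nat_lit 0) (nat_lit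 440017054) (nat_lit 152) (nat_lit 4462404675) (nat_lit 228) (nat_lit 13034560225) (nat_lit 33) (nat_lit 5) (nat_lit 35) (nat_lit 5) (nat_lit 36) (nat_lit 5) (nat_lit 355) (nat_lit 345) (nat_lit 320)) (XT.lf (nat_lit 0) (nat_lit 9621156348) (nat_lit 228) (nat_lit 6881826295) (nat_lit 76) (nat_lit 2971872052) (nat_lit 33) (nat_lit 5) (nat_lit 36) (nat_lit 5) (nat_lit 34) (nat_lit 4) (nat_lit 356) (nat_lit 345) (nat_lit 319))) (XT.nd (nat_lit 78) (nat_lit 0) (nat_lit 0) (XT.lf (nat_lit 0) (nat_lit 5513888524) (nat_lit 76) (nat_lit 9918093163) (nat_lit 152) (nat_lit 5753792815) (nat_lit 32) (nat_lit 5) (nat_lit 33) (nat_lit 5) (nat_lit 34) (nat_lit 4) (nat_lit 357) (nat_lit 345) (nat_lit 318)) (XT.lf (nat_lit 0) (nat_lit 20456395107) (nat_lit 76) (nat_lit 1965047542) (nat_lit 152) (nat_lit 685845015) (nat_lit 32) (nat_lit 5) (nat_lit 33) (nat_lit 5) (nat_lit 34) (nat_lit 4) (nat_lit 358) (nat_lit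 345) (nat_lit 317)))))) (XT.nd (nat_lit 468) (nat_lit 532) (nat_lit 0) (XT.nd (nat_lit 234) (nat_lit 228) (nat_lit 0) (XT.nd (nat_lit 78) (nat_lit 76) (nat_lit 0) (XT.lf (nat_lit 0) (nat_lit 5515543300) (nat_lit 228) (nat_lit 12335908606) (nat_lit 76) (nat_lit 7308983937) (nat_lit 29) (nat_lit 5) (nat_lit 32) (nat_lit 5) (nat_lit 30) (nat_lit 4) (nat_lit 359) (nat_lit 345) (nat_lit 316)) (XT.nd (nat_lit 78) (nat_lit 0) (nat_lit 0) (XT.lf (nat_lit 0) (nat_lit 3517406302) (nat_lit 76) (nat_lit 9397716049) (nat_lit 152) (nat_lit 14550809719) (nat_lit 28) (nat_lit 5) (nat_lit 29) (nat_lit 5) (nat_lit 30) (nat_lit 4) (nat_lit 360) (nat_lit 345) (nat_lit 315)) (XT.lf (nat_lit 0) (nat_lit 22068798243) (nat_lit 152) (nat_lit 7012263424) (nat_lit 0) (nat_lit 939571159) (nat_lit 28) (nat_lit 5) (nat_lit 30) (nat_lit 4) (nat_lit 28) (nat_lit 4) (nat_lit 361) (nat_lit 345) (nat_lit 314)))) (XT.nd (nat_lit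 78) (nat_lit 76) (nat_lit 0) (XT.lf (nat_lit 0) (nat_lit 666122225) (nat_lit 152) (nat_lit 19733740590) (nat_lit 76) (nat_lit 12411411098) (nat_lit 26) (nat_lit 5) (nat_lit 28) (nat_lit 5) (nat_lit 27) (nat_lit 4) (nat_lit 362) (nat_lit 345) (nat_lit 313)) (XT.nd (nat_lit 78) (nat_lit 0) (nat_lit 0) (XT.lf (nat_lit 0) (nat_lit 587087126) (nat_lit 76) (nat_lit 9545416559) (nat_lit 152) (nat_lit 25775734218) (nat_lit 25) (nat_lit 5) (nat_lit 26) (nat_lit 5) (nat_lit 27) (nat_lit 4) (nat_lit 363) (nat_lit 345) (nat_lit 312)) (XT.lf (nat_lit 0) (nat_lit 22183451475) (nat_lit 152) (nat_lit 13385135688) (nat_lit 0) (nat_lit 3726470306) (nat_lit 25) (nat_lit 5) (nat_lit 27) (nat_lit 4) (nat_lit 25) (nat_lit 4) (nat_lit 364) (nat_lit 345) (nat_lit 311))))) (XT.nd (nat_lit 234) (nat_lit 304) (nat_lit 0) (XT.nd (nat_lit 78) (nat_lit 152) (nat_lit 0) (XT.lf (nat_lit 0) (nat_lit 12429642796) (nat_lit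 76) (nat_lit 24548869748) (nat_lit 76) (nat_lit 6070918792) (nat_lit 24) (nat_lit 4) (nat_lit 25) (nat_lit 5) (nat_lit 25) (nat_lit 4) (nat_lit 365) (nat_lit 345) (nat_lit 310)) (XT.nd (nat_lit 78) (nat_lit 76) (nat_lit 0) (XT.lf (nat_lit 0) (nat_lit 6736506917) (nat_lit 152) (nat_lit 4012695680) (nat_lit 76) (nat_lit 36471528296) (nat_lit 23) (nat_lit 5) (nat_lit 25) (nat_lit 5) (nat_lit 24) (nat_lit 4) (nat_lit 366) (nat_lit 345) (nat_lit 309)) (XT.lf (nat_lit 0) (nat_lit 22289475877) (nat_lit 152) (nat_lit 23275942474) (nat_lit 0) (nat_lit 6192048289) (nat_lit 22) (nat_lit 5) (nat_lit 24) (nat_lit 4) (nat_lit 22) (nat_lit 4) (nat_lit 367) (nat_lit 345) (nat_lit 308)))) (XT.nd (nat_lit 156) (nat_lit 152) (nat_lit 0) (XT.nd (nat_lit 78) (nat_lit 76) (nat_lit 0) (XT.lf (nat_lit 0) (nat_lit 9637759166) (nat_lit 76) (nat_lit 31640472804) (nat_lit 76) (nat_lit 15531055672) (nat_lit 21) (nat_lit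 4) (nat_lit 22) (nat_lit 5) (nat_lit 22) (nat_lit 4) (nat_lit 368) (nat_lit 345) (nat_lit 307)) (XT.lf (nat_lit 0) (nat_lit 1699172140) (nat_lit 152) (nat_lit 12466622720) (nat_lit 76) (nat_lit 48262962388) (nat_lit 20) (nat_lit 5) (nat_lit 22) (nat_lit 5) (nat_lit 21) (nat_lit 4) (nat_lit 369) (nat_lit 345) (nat_lit 306))) (XT.nd (nat_lit 78) (nat_lit 76) (nat_lit 0) (XT.lf (nat_lit 0) (nat_lit 21448832578) (nat_lit 152) (nat_lit 39678937331) (nat_lit 0) (nat_lit 7423694630) (nat_lit 19) (nat_lit 5) (nat_lit 21) (nat_lit 4) (nat_lit 19) (nat_lit 4) (nat_lit 370) (nat_lit 345) (nat_lit 305)) (XT.lf (nat_lit 0) (nat_lit 1716998125) (nat_lit 76) (nat_lit 43848448867) (nat_lit 76) (nat_lit 29816455859) (nat_lit 18) (nat_lit 4) (nat_lit 19) (nat_lit 5) (nat_lit 19) (nat_lit 4) (nat_lit 371) (nat_lit 345) (nat_lit 304))))))) (XT.nd (nat_lit 1014) (nat_lit 380) (nat_lit 0) (XT.nd (nat_lit 468)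 (nat_lit 456) (nat_lit 0) (XT.nd (nat_lit 234) (nat_lit 228) (nat_lit 0) (XT.nd (nat_lit 78) (nat_lit 152) (nat_lit 0) (XT.lf (nat_lit 0) (nat_lit 53734858337) (nat_lit 76) (nat_lit 21616142962) (nat_lit 76) (nat_lit 7578189031) (nat_lit 18) (nat_lit 4) (nat_lit 19) (nat_lit 5) (nat_lit 19) (nat_lit 4) (nat_lit 372) (nat_lit 345) (nat_lit 303)) (XT.nd (nat_lit 78) (nat_lit 0) (nat_lit 0) (XT.lf (nat_lit 0) (nat_lit 17578785333) (nat_lit 152) (nat_lit 68372887261) (nat_lit 0) (nat_lit 5367361558) (nat_lit 16) (nat_lit 5) (nat_lit 18) (nat_lit 4) (nat_lit 16) (nat_lit 4) (nat_lit 373) (nat_lit 345) (nat_lit 302)) (XT.lf (nat_lit 0) (nat_lit 48340990424) (nat_lit 152) (nat_lit 16055455320) (nat_lit 0) (nat_lit 36125647245) (nat_lit 16) (nat_lit 5) (nat_lit 18) (nat_lit 4) (nat_lit 16) (nat_lit 4) (nat_lit 374) (nat_lit 345) (nat_lit 301)))) (XT.nd (nat_lit 78) (nat_lit 152) (nat_lit 0) (XT.lf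 (nat_lit 0) (nat_lit 48379373305) (nat_lit 76) (nat_lit 37323586968) (nat_lit 76) (nat_lit 25104835612) (nat_lit 15) (nat_lit 4) (nat_lit 16) (nat_lit 5) (nat_lit 16) (nat_lit 4) (nat_lit 375) (nat_lit 345) (nat_lit 300)) (XT.nd (nat_lit 78) (nat_lit 0) (nat_lit 0) (XT.lf (nat_lit 0) (nat_lit 1587612391) (nat_lit 76) (nat_lit 4835330575) (nat_lit 152) (nat_lit 116036866321) (nat_lit 13) (nat_lit 5) (nat_lit 14) (nat_lit 5) (nat_lit 15) (nat_lit 4) (nat_lit 376) (nat_lit 345) (nat_lit 299)) (XT.lf (nat_lit 0) (nat_lit 44857436330) (nat_lit 152) (nat_lit 55883080438) (nat_lit 0) (nat_lit 34227617148) (nat_lit 13) (nat_lit 5) (nat_lit 15) (nat_lit 4) (nat_lit 13) (nat_lit 4) (nat_lit 377) (nat_lit 345) (nat_lit 298))))) (XT.nd (nat_lit 234) (nat_lit 228) (nat_lit 0) (XT.nd (nat_lit 78) (nat_lit 152) (nat_lit 0) (XT.lf (nat_lit 0) (nat_lit 20408532756) (nat_lit 76) (nat_lit 69708478201) (nat_lit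 76) (nat_lit 59076710383) (nat_lit 12) (nat_lit 4) (nat_lit 13) (nat_lit 5) (nat_lit 13) (nat_lit 4) (nat_lit 378) (nat_lit 345) (nat_lit 297)) (XT.nd (nat_lit 78) (nat_lit 152) (nat_lit 0) (XT.lf (nat_lit 0) (nat_lit 114393336959) (nat_lit 76) (nat_lit 30678651204) (nat_lit 76) (nat_lit 20045188920) (nat_lit 12) (nat_lit 4) (nat_lit 13) (nat_lit 5) (nat_lit 13) (nat_lit 4) (nat_lit 379) (nat_lit 345) (nat_lit 296)) (XT.lf (nat_lit 0) (nat_lit 25061778363) (nat_lit 152) (nat_lit 142034236395) (nat_lit 0) (nat_lit 15814008161) (nat_lit 10) (nat_lit 5) (nat_lit 12) (nat_lit 4) (nat_lit 10) (nat_lit 4) (nat_lit 380) (nat_lit 345) (nat_lit 295)))) (XT.nd (nat_lit 156) (nat_lit 152) (nat_lit 0) (XT.nd (nat_lit 78) (nat_lit 76) (nat_lit 0) (XT.lf (nat_lit 0) (nat_lit 79107817698) (nat_lit 152) (nat_lit 53628073887) (nat_lit 0) (nat_lit 69858933357) (nat_lit 10) (nat_lit 5) (nat_lit 12) (nat_lit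 4) (nat_lit 10) (nat_lit 4) (nat_lit 381) (nat_lit 345) (nat_lit 294)) (XT.lf (nat_lit 0) (nat_lit 52706680239) (nat_lit 76) (nat_lit 90724945436) (nat_lit 76) (nat_lit 81475092279) (nat_lit 9) (nat_lit 4) (nat_lit 10) (nat_lit 5) (nat_lit 10) (nat_lit 4) (nat_lit 382) (nat_lit 345) (nat_lit 293))) (XT.nd (nat_lit 78) (nat_lit 152) (nat_lit 0) (XT.lf (nat_lit 0) (nat_lit 180995186062) (nat_lit 76) (nat_lit 39201035981) (nat_lit 76) (nat_lit 29950340375) (nat_lit 9) (nat_lit 4) (nat_lit 10) (nat_lit 5) (nat_lit 10) (nat_lit 4) (nat_lit 383) (nat_lit 345) (nat_lit 292)) (XT.lf (nat_lit 0) (nat_lit 29863289445) (nat_lit 152) (nat_lit 226833178107) (nat_lit 0) (nat_lit 21818569296) (nat_lit 7) (nat_lit 5) (nat_lit 9) (nat_lit 4) (nat_lit 7) (nat_lit 4) (nat_lit 384) (nat_lit 345) (nat_lit 291)))))) (XT.nd (nat_lit 546) (nat_lit 228) (nat_lit 0) (XT.nd (nat_lit 234) (nat_lit 76) (nat_lit 0) (XT.nd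 (nat_lit 78) (nat_lit 76) (nat_lit 0) (XT.lf (nat_lit 0) (nat_lit 101226131584) (nat_lit 152) (nat_lit 115671335565) (nat_lit 0) (nat_lit 93180857511) (nat_lit 7) (nat_lit 5) (nat_lit 9) (nat_lit 4) (nat_lit 7) (nat_lit 4) (nat_lit 385) (nat_lit 345) (nat_lit 290)) (XT.nd (nat_lit 78) (nat_lit 0) (nat_lit 0) (XT.lf (nat_lit 0) (nat_lit 13333129074) (nat_lit 76) (nat_lit 170503615352) (nat_lit 76) (nat_lit 162457859606) (nat_lit 6) (nat_lit 4) (nat_lit 7) (nat_lit 5) (nat_lit 7) (nat_lit 4) (nat_lit 386) (nat_lit 345) (nat_lit 289)) (XT.lf (nat_lit 0) (nat_lit 174670330813) (nat_lit 76) (nat_lit 110206726460) (nat_lit 76) (nat_lit 102160551868) (nat_lit 6) (nat_lit 4) (nat_lit 7) (nat_lit 5) (nat_lit 7) (nat_lit 4) (nat_lit 387) (nat_lit 345) (nat_lit 288)))) (XT.nd (nat_lit 156) (nat_lit 0) (nat_lit 0) (XT.nd (nat_lit 78) (nat_lit 76) (nat_lit 0) (XT.lf (nat_lit 0) (nat_lit 360192622920)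 (nat_lit 76) (nat_lit 40873534910) (nat_lit 76) (nat_lit 32826996104) (nat_lit 6) (nat_lit 4) (nat_lit 7) (nat_lit 5) (nat_lit 7) (nat_lit 4) (nat_lit 388) (nat_lit 345) (nat_lit 287)) (XT.lf (nat_lit 0) (nat_lit 48416248661) (nat_lit 76) (nat_lit 396797612778) (nat_lit 0) (nat_lit 41418982997) (nat_lit 5) (nat_lit 5) (nat_lit 6) (nat_lit 4) (nat_lit 5) (nat_lit 4) (nat_lit 389) (nat_lit 345) (nat_lit 286))) (XT.nd (nat_lit 78) (nat_lit 0) (nat_lit 0) (XT.lf (nat_lit 0) (nat_lit 144460856210) (nat_lit 76) (nat_lit 264228442436) (nat_lit 0) (nat_lit 137463351069) (nat_lit 5) (nat_lit 5) (nat_lit 6) (nat_lit 4) (nat_lit 5) (nat_lit 4) (nat_lit 390) (nat_lit 345) (nat_lit 285)) (XT.lf (nat_lit 0) (nat_lit 254906411349) (nat_lit 76) (nat_lit 111786178020) (nat_lit 0) (nat_lit 247908697968) (nat_lit 5) (nat_lit 5) (nat_lit 6) (nat_lit 4) (nat_lit 5) (nat_lit 4) (nat_lit 391) (nat_lit 345) (nat_lit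 284))))) (XT.nd (nat_lit 234) (nat_lit 152) (nat_lit 0) (XT.nd (nat_lit 78) (nat_lit 0) (nat_lit 0) (XT.lf (nat_lit 0) (nat_lit 69718576286) (nat_lit 76) (nat_lit 315082126658) (nat_lit 76) (nat_lit 308084232198) (nat_lit 4) (nat_lit 4) (nat_lit 5) (nat_lit 5) (nat_lit 5) (nat_lit 4) (nat_lit 392) (nat_lit 345) (nat_lit 283)) (XT.nd (nat_lit 78) (nat_lit 0) (nat_lit 0) (XT.lf (nat_lit 0) (nat_lit 291002091680) (nat_lit 76) (nat_lit 249015649937) (nat_lit 76) (nat_lit 242017598016) (nat_lit 4) (nat_lit 4) (nat_lit 5) (nat_lit 5) (nat_lit 5) (nat_lit 4) (nat_lit 393) (nat_lit 345) (nat_lit 282)) (XT.lf (nat_lit 0) (nat_lit 545469269938) (nat_lit 76) (nat_lit 173043922622) (nat_lit 76) (nat_lit 166045733780) (nat_lit 4) (nat_lit 4) (nat_lit 5) (nat_lit 5) (nat_lit 5) (nat_lit 4) (nat_lit 394) (nat_lit 345) (nat_lit 281)))) (XT.nd (nat_lit 156) (nat_lit 0) (nat_lit 0) (XT.nd (nat_lit 78) (nat_lit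 152) (nat_lit 0) (XT.lf (nat_lit 0) (nat_lit 838098816723) (nat_lit 76) (nat_lit 85680541353) (nat_lit 76) (nat_lit 78682233449) (nat_lit 4) (nat_lit 4) (nat_lit 5) (nat_lit 5) (nat_lit 5) (nat_lit 4) (nat_lit 395) (nat_lit 345) (nat_lit 280)) (XT.lf (nat_lit 0) (nat_lit 22196388959) (nat_lit 152) (nat_lit 1099254620431) (nat_lit 0) (nat_lit 16110813797) (nat_lit 2) (nat_lit 5) (nat_lit 4) (nat_lit 4) (nat_lit 2) (nat_lit 4) (nat_lit 396) (nat_lit 345) (nat_lit 279))) (XT.nd (nat_lit 78) (nat_lit 0) (nat_lit 0) (XT.lf (nat_lit 0) (nat_lit 143228807408) (nat_lit 152) (nat_lit 1010031477582) (nat_lit 0) (nat_lit 137143153961) (nat_lit 2) (nat_lit 5) (nat_lit 4) (nat_lit 4) (nat_lit 2) (nat_lit 4) (nat_lit 397) (nat_lit 345) (nat_lit 278)) (XT.lf (nat_lit 0) (nat_lit 282413236692) (nat_lit 152) (nat_lit 907430973014) (nat_lit 0) (nat_lit 276327515171) (nat_lit 2) (nat_lit 5) (nat_lit 4) (nat_lit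 4) (nat_lit 2) (nat_lit 4) (nat_lit 398) (nat_lit 345) (nat_lit 277))))))))
noncomputable def xc55 : XT := (XT.nd (nat_lit 2106) (nat_lit 0) (nat_lit 0) (XT.nd (nat_lit 1014) (nat_lit 0) (nat_lit 0) (XT.nd (nat_lit 468) (nat_lit 0) (nat_lit 0) (XT.nd (nat_lit 234) (nat_lit 76) (nat_lit 0) (XT.nd (nat_lit 78) (nat_lit 0) (nat_lit 0) (XT.lf (nat_lit 0) (nat_lit 442472850426) (nat_lit 152) (nat_lit 789445705553) (nat_lit 0) (nat_lit 436387069710) (nat_lit 2) (nat_lit 5) (nat_lit 4) (nat_lit 4) (nat_lit 2) (nat_lit 4) (nat_lit 399) (nat_lit 345) (nat_lit 276)) (XT.nd (nat_lit 78) (nat_lit 0) (nat_lit 0) (XT.lf (nat_lit 0) (nat_lit 626539249749) (nat_lit 152) (nat_lit 653767267790) (nat_lit 0) (nat_lit 620453417559) (nat_lit 2) (nat_lit 5) (nat_lit 4) (nat_lit 4) (nat_lit 2) (nat_lit 4) (nat_lit 400) (nat_lit 345) (nat_lit 275)) (XT.lf (nat_lit 0) (nat_lit 838213733778) (nat_lit 152) (nat_lit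 497741081595) (nat_lit 0) (nat_lit 832127856828) (nat_lit 2) (nat_lit 5) (nat_lit 4) (nat_lit 4) (nat_lit 2) (nat_lit 4) (nat_lit 401) (nat_lit 345) (nat_lit 274)))) (XT.nd (nat_lit 78) (nat_lit 76) (nat_lit 0) (XT.lf (nat_lit 0) (nat_lit 1081637759809) (nat_lit 152) (nat_lit 318314460718) (nat_lit 0) (nat_lit 1075551843937) (nat_lit 2) (nat_lit 5) (nat_lit 4) (nat_lit 4) (nat_lit 2) (nat_lit 4) (nat_lit 402) (nat_lit 345) (nat_lit 273)) (XT.nd (nat_lit 78) (nat_lit 76) (nat_lit 0) (XT.lf (nat_lit 0) (nat_lit 1361573971830) (nat_lit 152) (nat_lit 111976884314) (nat_lit 0) (nat_lit 1355488022113) (nat_lit 2) (nat_lit 5) (nat_lit 4) (nat_lit 4) (nat_lit 2) (nat_lit 4) (nat_lit 403) (nat_lit 345) (nat_lit 272)) (XT.lf (nat_lit 0) (nat_lit 137554763397) (nat_lit 76) (nat_lit 1551640468703) (nat_lit 76) (nat_lit 1545554489555) (nat_lit 1) (nat_lit 4) (nat_lit 2) (nat_lit 5) (nat_lit 2) (nat_lit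 4) (nat_lit 404) (nat_lit 345) (nat_lit 271))))) (XT.nd (nat_lit 234) (nat_lit 0) (nat_lit 0) (XT.nd (nat_lit 78) (nat_lit 0) (nat_lit 0) (XT.lf (nat_lit 0) (nat_lit 437098311774) (nat_lit 76) (nat_lit 1634713530221) (nat_lit 76) (nat_lit 1628627525483) (nat_lit 1) (nat_lit 4) (nat_lit 2) (nat_lit 5) (nat_lit 2) (nat_lit 4) (nat_lit 405) (nat_lit 345) (nat_lit 270)) (XT.nd (nat_lit 78) (nat_lit 0) (nat_lit 0) (XT.lf (nat_lit 0) (nat_lit 781571199944) (nat_lit 76) (nat_lit 1730248720344) (nat_lit 76) (nat_lit 1724162693351) (nat_lit 1) (nat_lit 4) (nat_lit 2) (nat_lit 5) (nat_lit 2) (nat_lit 4) (nat_lit 406) (nat_lit 345) (nat_lit 269)) (XT.lf (nat_lit 0) (nat_lit 1177713114850) (nat_lit 76) (nat_lit 1840115205833) (nat_lit 76) (nat_lit 1834029159490) (nat_lit 1) (nat_lit 4) (nat_lit 2) (nat_lit 5) (nat_lit 2) (nat_lit 4) (nat_lit 407) (nat_lit 345) (nat_lit 268)))) (XT.nd (nat_lit 156) (nat_lit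 0) (nat_lit 0) (XT.nd (nat_lit 78) (nat_lit 0) (nat_lit 0) (XT.lf (nat_lit 0) (nat_lit 1633274659175) (nat_lit 76) (nat_lit 1966462548362) (nat_lit 76) (nat_lit 1960376485192) (nat_lit 1) (nat_lit 4) (nat_lit 2) (nat_lit 5) (nat_lit 2) (nat_lit 4) (nat_lit 408) (nat_lit 345) (nat_lit 267)) (XT.lf (nat_lit 0) (nat_lit 2157168993568) (nat_lit 76) (nat_lit 2111762761153) (nat_lit 76) (nat_lit 2105676683351) (nat_lit 1) (nat_lit 4) (nat_lit 2) (nat_lit 5) (nat_lit 2) (nat_lit 4) (nat_lit 409) (nat_lit 345) (nat_lit 266))) (XT.nd (nat_lit 78) (nat_lit 0) (nat_lit 0) (XT.lf (nat_lit 0) (nat_lit 2759646224572) (nat_lit 76) (nat_lit 2278858674458) (nat_lit 76) (nat_lit 2272772583932) (nat_lit 1) (nat_lit 4) (nat_lit 2) (nat_lit 5) (nat_lit 2) (nat_lit 4) (nat_lit 410) (nat_lit 345) (nat_lit 265)) (XT.lf (nat_lit 0) (nat_lit 3452493950186) (nat_lit 76) (nat_lit 2471019556145) (nat_lit 76) (nat_lit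 2464933454555) (nat_lit 1) (nat_lit 4) (nat_lit 2) (nat_lit 5) (nat_lit 2) (nat_lit 4) (nat_lit 411) (nat_lit 345) (nat_lit 264)))))) (XT.nd (nat_lit 546) (nat_lit 0) (nat_lit 0) (XT.nd (nat_lit 234) (nat_lit 0) (nat_lit 0) (XT.nd (nat_lit 78) (nat_lit 0) (nat_lit 0) (XT.lf (nat_lit 0) (nat_lit 4249267886779) (nat_lit 76) (nat_lit 2692005075638) (nat_lit 76) (nat_lit 2685918964428) (nat_lit 1) (nat_lit 4) (nat_lit 2) (nat_lit 5) (nat_lit 2) (nat_lit 4) (nat_lit 412) (nat_lit 345) (nat_lit 263)) (XT.nd (nat_lit 78) (nat_lit 0) (nat_lit 0) (XT.lf (nat_lit 0) (nat_lit 5165557089634) (nat_lit 76) (nat_lit 2946138862667) (nat_lit 76) (nat_lit 2940052743091) (nat_lit 1) (nat_lit 4) (nat_lit 2) (nat_lit 5) (nat_lit 2) (nat_lit 4) (nat_lit 413) (nat_lit 345) (nat_lit 262)) (XT.lf (nat_lit 0) (nat_lit 6219288956196) (nat_lit 76) (nat_lit 3238393100021) (nat_lit 76) (nat_lit 3232306973170) (nat_lit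 1) (nat_lit 4) (nat_lit 2) (nat_lit 5) (nat_lit 2) (nat_lit 4) (nat_lit 414) (nat_lit 345) (nat_lit 261)))) (XT.nd (nat_lit 156) (nat_lit 0) (nat_lit 0) (XT.nd (nat_lit 78) (nat_lit 0) (nat_lit 0) (XT.lf (nat_lit 0) (nat_lit 7431079979508) (nat_lit 76) (nat_lit 3574485805388) (nat_lit 76) (nat_lit 3568399672211) (nat_lit 1) (nat_lit 4) (nat_lit 2) (nat_lit 5) (nat_lit 2) (nat_lit 4) (nat_lit 415) (nat_lit 345) (nat_lit 260)) (XT.lf (nat_lit 0) (nat_lit 8824639114373) (nat_lit 76) (nat_lit 3960992705612) (nat_lit 76) (nat_lit 3954906566934) (nat_lit 1) (nat_lit 4) (nat_lit 2) (nat_lit 5) (nat_lit 2) (nat_lit 4) (nat_lit 416) (nat_lit 345) (nat_lit 259))) (XT.nd (nat_lit 78) (nat_lit 0) (nat_lit 0) (XT.lf (nat_lit 0) (nat_lit 10427231648213) (nat_lit 76) (nat_lit 4405475892219) (nat_lit 76) (nat_lit 4399389748758) (nat_lit 1) (nat_lit 4) (nat_lit 2) (nat_lit 5) (nat_lit 2) (nat_lit 4) (nat_lit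 417) (nat_lit 345) (nat_lit 258)) (XT.lf (nat_lit 0) (nat_lit 12270212652342) (nat_lit 76) (nat_lit 4916631775381) (nat_lit 76) (nat_lit 4910545627761) (nat_lit 1) (nat_lit 4) (nat_lit 2) (nat_lit 5) (nat_lit 2) (nat_lit 4) (nat_lit 418) (nat_lit 345) (nat_lit 257))))) (XT.nd (nat_lit 234) (nat_lit 0) (nat_lit 0) (XT.nd (nat_lit 78) (nat_lit 0) (nat_lit 0) (XT.lf (nat_lit 0) (nat_lit 14389640450754) (nat_lit 76) (nat_lit 5504461231075) (nat_lit 76) (nat_lit 5498375079837) (nat_lit 1) (nat_lit 4) (nat_lit 2) (nat_lit 5) (nat_lit 2) (nat_lit 4) (nat_lit 419) (nat_lit 345) (nat_lit 256)) (XT.nd (nat_lit 78) (nat_lit 0) (nat_lit 0) (XT.lf (nat_lit 0) (nat_lit 16826982109069) (nat_lit 76) (nat_lit 6180465270388) (nat_lit 76) (nat_lit 6174379116006) (nat_lit 1) (nat_lit 4) (nat_lit 2) (nat_lit 5) (nat_lit 2) (nat_lit 4) (nat_lit 420) (nat_lit 345) (nat_lit 255)) (XT.lf (nat_lit 0) (nat_lit 19629924746691)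 (nat_lit 76) (nat_lit 6957870059308) (nat_lit 76) (nat_lit 6951783902191) (nat_lit 1) (nat_lit 4) (nat_lit 2) (nat_lit 5) (nat_lit 2) (nat_lit 4) (nat_lit 421) (nat_lit 345) (nat_lit 254)))) (XT.nd (nat_lit 156) (nat_lit 0) (nat_lit 0) (XT.nd (nat_lit 78) (nat_lit 0) (nat_lit 0) (XT.lf (nat_lit 0) (nat_lit 22853308545658) (nat_lit 76) (nat_lit 7851885691532) (nat_lit 76) (nat_lit 7845799532037) (nat_lit 1) (nat_lit 4) (nat_lit 2) (nat_lit 5) (nat_lit 2) (nat_lit 4) (nat_lit 422) (nat_lit 345) (nat_lit 253)) (XT.lf (nat_lit 0) (nat_lit 26560199710734) (nat_lit 76) (nat_lit 8880003777254) (nat_lit 76) (nat_lit 8873917615691) (nat_lit 1) (nat_lit 4) (nat_lit 2) (nat_lit 5) (nat_lit 2) (nat_lit 4) (nat_lit 423) (nat_lit 345) (nat_lit 252))) (XT.nd (nat_lit 78) (nat_lit 0) (nat_lit 0) (XT.lf (nat_lit 0) (nat_lit 30823124373410) (nat_lit 76) (nat_lit 10062339670326) (nat_lit 76) (nat_lit 10056253506965)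 (nat_lit 1) (nat_lit 4) (nat_lit 2) (nat_lit 5) (nat_lit 2) (nat_lit 4) (nat_lit 424) (nat_lit 345) (nat_lit 251)) (XT.lf (nat_lit 0) (nat_lit 35725487581432) (nat_lit 76) (nat_lit 11422026029525) (nat_lit 76) (nat_lit 11415939864600) (nat_lit 1) (nat_lit 4) (nat_lit 2) (nat_lit 5) (nat_lit 2) (nat_lit 4) (nat_lit 425) (nat_lit 345) (nat_lit 250))))))) (XT.nd (nat_lit 47034) (nat_lit 0) (nat_lit 2052) (XT.nd (nat_lit 468) (nat_lit 0) (nat_lit 0) (XT.nd (nat_lit 234) (nat_lit 0) (nat_lit 0) (XT.nd (nat_lit 78) (nat_lit 0) (nat_lit 0) (XT.lf (nat_lit 0) (nat_lit 41363205136698) (nat_lit 76) (nat_lit 12985665414054) (nat_lit 76) (nat_lit 12979579247769) (nat_lit 1) (nat_lit 4) (nat_lit 2) (nat_lit 5) (nat_lit 2) (nat_lit 4) (nat_lit 426) (nat_lit 345) (nat_lit 249)) (XT.nd (nat_lit 78) (nat_lit 0) (nat_lit 0) (XT.lf (nat_lit 0) (nat_lit 47846580208766) (nat_lit 76) (nat_lit 14783850768392)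 (nat_lit 76) (nat_lit 14777764600924) (nat_lit 1) (nat_lit 4) (nat_lit 2) (nat_lit 5) (nat_lit 2) (nat_lit 4) (nat_lit 427) (nat_lit 345) (nat_lit 248)) (XT.lf (nat_lit 0) (nat_lit 55302461440352) (nat_lit 76) (nat_lit 16851763979906) (nat_lit 76) (nat_lit 16845677811410) (nat_lit 1) (nat_lit 4) (nat_lit 2) (nat_lit 5) (nat_lit 2) (nat_lit 4) (nat_lit 428) (nat_lit 345) (nat_lit 247)))) (XT.nd (nat_lit 78) (nat_lit 0) (nat_lit 0) (XT.lf (nat_lit 0) (nat_lit 63876724768595) (nat_lit 76) (nat_lit 19229864220126) (nat_lit 76) (nat_lit 19223778050736) (nat_lit 1) (nat_lit 4) (nat_lit 2) (nat_lit 5) (nat_lit 2) (nat_lit 4) (nat_lit 429) (nat_lit 345) (nat_lit 246)) (XT.nd (nat_lit 78) (nat_lit 0) (nat_lit 0) (XT.lf (nat_lit 0) (nat_lit 73737127519482) (nat_lit 76) (nat_lit 21964679537230) (nat_lit 76) (nat_lit 21958593367064) (nat_lit 1) (nat_lit 4) (nat_lit 2) (nat_lit 5) (nat_lit 2) (nat_lit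 4) (nat_lit 430) (nat_lit 345) (nat_lit 245)) (XT.lf (nat_lit 0) (nat_lit 85076590616400) (nat_lit 76) (nat_lit 25109717187423) (nat_lit 76) (nat_lit 25103631016580) (nat_lit 1) (nat_lit 4) (nat_lit 2) (nat_lit 5) (nat_lit 2) (nat_lit 4) (nat_lit 431) (nat_lit 345) (nat_lit 244))))) (XT.nd (nat_lit 234) (nat_lit 0) (nat_lit 0) (XT.nd (nat_lit 78) (nat_lit 0) (nat_lit 0) (XT.lf (nat_lit 0) (nat_lit 98116973119941) (nat_lit 76) (nat_lit 28726510516035) (nat_lit 76) (nat_lit 28720424344604) (nat_lit 1) (nat_lit 4) (nat_lit 2) (nat_lit 5) (nat_lit 2) (nat_lit 4) (nat_lit 432) (nat_lit 345) (nat_lit 243)) (XT.nd (nat_lit 78) (nat_lit 0) (nat_lit 0) (XT.lf (nat_lit 0) (nat_lit 113113412948653) (nat_lit 76) (nat_lit 32885822870798) (nat_lit 76) (nat_lit 32879736698856) (nat_lit 1) (nat_lit 4) (nat_lit 2) (nat_lit 5) (nat_lit 2) (nat_lit 4) (nat_lit 433) (nat_lit 345) (nat_lit 242)) (XT.lf (nat_lit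 0) (nat_lit 130359318707880) (nat_lit 76) (nat_lit 37669032102133) (nat_lit 76) (nat_lit 37662945929747) (nat_lit 1) (nat_lit 4) (nat_lit 2) (nat_lit 5) (nat_lit 2) (nat_lit 4) (nat_lit 434) (nat_lit 345) (nat_lit 241)))) (XT.nd (nat_lit 46176) (nat_lit 0) (nat_lit 3116) (XT.nd (nat_lit 78) (nat_lit 0) (nat_lit 0) (XT.lf (nat_lit 0) (nat_lit 150192110292911) (nat_lit 76) (nat_lit 43169722738479) (nat_lit 76) (nat_lit 43163636565706) (nat_lit 1) (nat_lit 4) (nat_lit 2) (nat_lit 5) (nat_lit 2) (nat_lit 4) (nat_lit 435) (nat_lit 345) (nat_lit 240)) (XT.lf (nat_lit 0) (nat_lit 172999820582584) (nat_lit 76) (nat_lit 49495516987937) (nat_lit 76) (nat_lit 49489430814828) (nat_lit 1) (nat_lit 4) (nat_lit 2) (nat_lit 5) (nat_lit 2) (nat_lit 4) (nat_lit 436) (nat_lit 345) (nat_lit 239))) (XT.nd (nat_lit 78) (nat_lit 380) (nat_lit 0) (XT.lf (nat_lit 0) (nat_lit 2310163049) (nat_lit 0) (nat_lit 2310163049)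 (nat_lit 228) (nat_lit 315389777) (nat_lit 47) (nat_lit 5) (nat_lit 47) (nat_lit 3) (nat_lit 50) (nat_lit 3) (nat_lit 346) (nat_lit 346) (nat_lit 328)) (XT.lf (nat_lit 0) (nat_lit 73228161) (nat_lit 380) (nat_lit 307363438) (nat_lit 380) (nat_lit 10131604395) (nat_lit 42) (nat_lit 3) (nat_lit 47) (nat_lit 3) (nat_lit 47) (nat_lit 5) (nat_lit 347) (nat_lit 346) (nat_lit 327)))))) (XT.nd (nat_lit 546) (nat_lit 760) (nat_lit 0) (XT.nd (nat_lit 234) (nat_lit 380) (nat_lit 0) (XT.nd (nat_lit 78) (nat_lit 0) (nat_lit 0) (XT.lf (nat_lit 0) (nat_lit 1136251481) (nat_lit 304) (nat_lit 5635351504) (nat_lit 380) (nat_lit 4425296141) (nat_lit 43) (nat_lit 5) (nat_lit 47) (nat_lit 5) (nat_lit 48) (nat_lit 5) (nat_lit 348) (nat_lit 346) (nat_lit 326)) (XT.nd (nat_lit 78) (nat_lit 0) (nat_lit 76) (XT.lf (nat_lit 76) (nat_lit 284063051) (nat_lit 0) (nat_lit 2013356163) (nat_lit 380) (nat_lit 9696110060)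 (nat_lit 44) (nat_lit 5) (nat_lit 43) (nat_lit 5) (nat_lit 48) (nat_lit 5) (nat_lit 349) (nat_lit 346) (nat_lit 325)) (XT.lf (nat_lit 0) (nat_lit 3987891947) (nat_lit 304) (nat_lit 5395123300) (nat_lit 76) (nat_lit 3473391120) (nat_lit 44) (nat_lit 5) (nat_lit 48) (nat_lit 5) (nat_lit 45) (nat_lit 5) (nat_lit 350) (nat_lit 346) (nat_lit 324)))) (XT.nd (nat_lit 156) (nat_lit 152) (nat_lit 0) (XT.nd (nat_lit 78) (nat_lit 0) (nat_lit 0) (XT.lf (nat_lit 0) (nat_lit 1850797965) (nat_lit 304) (nat_lit 4169573550) (nat_lit 380) (nat_lit 7815097162) (nat_lit 40) (nat_lit 5) (nat_lit 44) (nat_lit 5) (nat_lit 45) (nat_lit 5) (nat_lit 351) (nat_lit 346) (nat_lit 323)) (XT.lf (nat_lit 0) (nat_lit 8652154953) (nat_lit 380) (nat_lit 4310118239) (nat_lit 76) (nat_lit 1954968909) (nat_lit 40) (nat_lit 5) (nat_lit 45) (nat_lit 5) (nat_lit 41) (nat_lit 5) (nat_lit 352) (nat_lit 346) (nat_lit 322))) (XT.nd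 (nat_lit 78) (nat_lit 0) (nat_lit 0) (XT.lf (nat_lit 0) (nat_lit 4651199312) (nat_lit 152) (nat_lit 7352026767) (nat_lit 228) (nat_lit 4109391834) (nat_lit 38) (nat_lit 5) (nat_lit 40) (nat_lit 5) (nat_lit 41) (nat_lit 5) (nat_lit 353) (nat_lit 346) (nat_lit 321)) (XT.lf (nat_lit 0) (nat_lit 15364798442) (nat_lit 152) (nat_lit 656364353) (nat_lit 228) (nat_lit 1441519082) (nat_lit 38) (nat_lit 5) (nat_lit 40) (nat_lit 5) (nat_lit 41) (nat_lit 5) (nat_lit 354) (nat_lit 346) (nat_lit 320))))) (XT.nd (nat_lit 234) (nat_lit 380) (nat_lit 0) (XT.nd (nat_lit 78) (nat_lit 152) (nat_lit 0) (XT.lf (nat_lit 0) (nat_lit 2126502102) (nat_lit 228) (nat_lit 9903279007) (nat_lit 76) (nat_lit 6878665166) (nat_lit 35) (nat_lit 5) (nat_lit 38) (nat_lit 5) (nat_lit 36) (nat_lit 5) (nat_lit 355) (nat_lit 346) (nat_lit 319)) (XT.nd (nat_lit 78) (nat_lit 0) (nat_lit 0) (XT.lf (nat_lit 0) (nat_lit 1398699080)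 (nat_lit 152) (nat_lit 4835538797) (nat_lit 228) (nat_lit 14303734795) (nat_lit 33) (nat_lit 5) (nat_lit 35) (nat_lit 5) (nat_lit 36) (nat_lit 5) (nat_lit 356) (nat_lit 346) (nat_lit 318)) (XT.lf (nat_lit 0) (nat_lit 11593650669) (nat_lit 228) (nat_lit 7070648125) (nat_lit 76) (nat_lit 3652308896) (nat_lit 33) (nat_lit 5) (nat_lit 36) (nat_lit 5) (nat_lit 34) (nat_lit 4) (nat_lit 357) (nat_lit 346) (nat_lit 317)))) (XT.nd (nat_lit 156) (nat_lit 304) (nat_lit 0) (XT.nd (nat_lit 78) (nat_lit 0) (nat_lit 0) (XT.lf (nat_lit 0) (nat_lit 7146085184) (nat_lit 76) (nat_lit 11094310800) (nat_lit 152) (nat_lit 6049135110) (nat_lit 32) (nat_lit 5) (nat_lit 33) (nat_lit 5) (nat_lit 34) (nat_lit 4) (nat_lit 358) (nat_lit 346) (nat_lit 316)) (XT.lf (nat_lit 0) (nat_lit 24224952967) (nat_lit 76) (nat_lit 1988938292) (nat_lit 152) (nat_lit 295046439) (nat_lit 32) (nat_lit 5) (nat_lit 33) (nat_lit 5) (nat_lit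 34) (nat_lit 4) (nat_lit 359) (nat_lit 346) (nat_lit 315))) (XT.nd (nat_lit 78) (nat_lit 76) (nat_lit 0) (XT.lf (nat_lit 0) (nat_lit 6775351042) (nat_lit 228) (nat_lit 13424902471) (nat_lit 76) (nat_lit 8669332199) (nat_lit 29) (nat_lit 5) (nat_lit 32) (nat_lit 5) (nat_lit 30) (nat_lit 4) (nat_lit 360) (nat_lit 346) (nat_lit 314)) (XT.lf (nat_lit 0) (nat_lit 4771800927) (nat_lit 76) (nat_lit 10486750640) (nat_lit 152) (nat_lit 16266307860) (nat_lit 28) (nat_lit 5) (nat_lit 29) (nat_lit 5) (nat_lit 30) (nat_lit 4) (nat_lit 361) (nat_lit 346) (nat_lit 313))))))))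
noncomputable def xc56 : XT := (XT.nd (nat_lit 2028) (nat_lit 380) (nat_lit 0) (XT.nd (nat_lit 1014) (nat_lit 760) (nat_lit 0) (XT.nd (nat_lit 468) (nat_lit 532) (nat_lit 0) (XT.nd (nat_lit 234) (nat_lit 152) (nat_lit 0) (XT.nd (nat_lit 78) (nat_lit 228) (nat_lit 0) (XT.lf (nat_lit 0) (nat_lit 25743845955) (nat_lit 152) (nat_lit 7390650916) (nat_lit 0) (nat_lit 1334488359) (nat_lit 28) (nat_lit 5) (nat_lit 30) (nat_lit 4) (nat_lit 28) (nat_lit 4) (nat_lit 362) (nat_lit 346) (nat_lit 312)) (XT.nd (nat_lit 78) (nat_lit 76) (nat_lit 0) (XT.lf (nat_lit 0) (nat_lit 1126210536) (nat_lit 152) (nat_lit 22015737484) (nat_lit 76) (nat_lit 14536966284) (nat_lit 26) (nat_lit 5) (nat_lit 28) (nat_lit 5) (nat_lit 27) (nat_lit 4) (nat_lit 363) (nat_lit 346) (nat_lit 311)) (XT.lf (nat_lit 0) (nat_lit 1322393289) (nat_lit 76) (nat_lit 10669978191) (nat_lit 152) (nat_lit 29251081362) (nat_lit 25) (nat_lit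 5) (nat_lit 26) (nat_lit 5) (nat_lit 27) (nat_lit 4) (nat_lit 364) (nat_lit 346) (nat_lit 310)))) (XT.nd (nat_lit 78) (nat_lit 152) (nat_lit 0) (XT.lf (nat_lit 0) (nat_lit 25817677756) (nat_lit 152) (nat_lit 14796783225) (nat_lit 0) (nat_lit 4528829771) (nat_lit 25) (nat_lit 5) (nat_lit 27) (nat_lit 4) (nat_lit 25) (nat_lit 4) (nat_lit 365) (nat_lit 346) (nat_lit 309)) (XT.nd (nat_lit 78) (nat_lit 76) (nat_lit 0) (XT.lf (nat_lit 0) (nat_lit 14863115540) (nat_lit 76) (nat_lit 27952439149) (nat_lit 76) (nat_lit 6647734992) (nat_lit 24) (nat_lit 4) (nat_lit 25) (nat_lit 5) (nat_lit 25) (nat_lit 4) (nat_lit 366) (nat_lit 346) (nat_lit 308)) (XT.lf (nat_lit 0) (nat_lit 8011419921) (nat_lit 152) (nat_lit 4093939301) (nat_lit 76) (nat_lit 42158803233) (nat_lit 23) (nat_lit 5) (nat_lit 25) (nat_lit 5) (nat_lit 24) (nat_lit 4) (nat_lit 367) (nat_lit 346) (nat_lit 307))))) (XT.nd (nat_lit 234) (nat_lit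 304) (nat_lit 0) (XT.nd (nat_lit 78) (nat_lit 152) (nat_lit 0) (XT.lf (nat_lit 0) (nat_lit 25893627705) (nat_lit 152) (nat_lit 26242955701) (nat_lit 0) (nat_lit 7345382769) (nat_lit 22) (nat_lit 5) (nat_lit 24) (nat_lit 4) (nat_lit 22) (nat_lit 4) (nat_lit 368) (nat_lit 346) (nat_lit 306)) (XT.nd (nat_lit 78) (nat_lit 76) (nat_lit 0) (XT.lf (nat_lit 0) (nat_lit 11583965814) (nat_lit 76) (nat_lit 36133449487) (nat_lit 76) (nat_lit 17576138733) (nat_lit 21) (nat_lit 4) (nat_lit 22) (nat_lit 5) (nat_lit 22) (nat_lit 4) (nat_lit 369) (nat_lit 346) (nat_lit 305)) (XT.lf (nat_lit 0) (nat_lit 2179474421) (nat_lit 152) (nat_lit 13879324066) (nat_lit 76) (nat_lit 55700451215) (nat_lit 20) (nat_lit 5) (nat_lit 22) (nat_lit 5) (nat_lit 21) (nat_lit 4) (nat_lit 370) (nat_lit 346) (nat_lit 304)))) (XT.nd (nat_lit 156) (nat_lit 152) (nat_lit 0) (XT.nd (nat_lit 78) (nat_lit 76) (nat_lit 0) (XT.lf (nat_lit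 0) (nat_lit 24889464710) (nat_lit 152) (nat_lit 45171360426) (nat_lit 0) (nat_lit 8739856767) (nat_lit 19) (nat_lit 5) (nat_lit 21) (nat_lit 4) (nat_lit 19) (nat_lit 4) (nat_lit 371) (nat_lit 346) (nat_lit 303)) (XT.lf (nat_lit 0) (nat_lit 2413082734) (nat_lit 76) (nat_lit 50199520316) (nat_lit 76) (nat_lit 34044728962) (nat_lit 18) (nat_lit 4) (nat_lit 19) (nat_lit 5) (nat_lit 19) (nat_lit 4) (nat_lit 372) (nat_lit 346) (nat_lit 302))) (XT.nd (nat_lit 78) (nat_lit 152) (nat_lit 0) (XT.lf (nat_lit 0) (nat_lit 62176421775) (nat_lit 76) (nat_lit 24661872335) (nat_lit 76) (nat_lit 8502573667) (nat_lit 18) (nat_lit 4) (nat_lit 19) (nat_lit 5) (nat_lit 19) (nat_lit 4) (nat_lit 373) (nat_lit 346) (nat_lit 301)) (XT.lf (nat_lit 0) (nat_lit 20407830878) (nat_lit 152) (nat_lit 78227362033) (nat_lit 0) (nat_lit 6352858642) (nat_lit 16) (nat_lit 5) (nat_lit 18) (nat_lit 4) (nat_lit 16) (nat_lit 4)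 (nat_lit 374) (nat_lit 346) (nat_lit 300)))))) (XT.nd (nat_lit 468) (nat_lit 456) (nat_lit 0) (XT.nd (nat_lit 234) (nat_lit 76) (nat_lit 0) (XT.nd (nat_lit 78) (nat_lit 228) (nat_lit 0) (XT.lf (nat_lit 0) (nat_lit 55759293548) (nat_lit 152) (nat_lit 18114679429) (nat_lit 0) (nat_lit 41701357681) (nat_lit 16) (nat_lit 5) (nat_lit 18) (nat_lit 4) (nat_lit 16) (nat_lit 4) (nat_lit 375) (nat_lit 346) (nat_lit 299)) (XT.nd (nat_lit 78) (nat_lit 152) (nat_lit 0) (XT.lf (nat_lit 0) (nat_lit 55969505573) (nat_lit 76) (nat_lit 42748048722) (nat_lit 76) (nat_lit 28687535784) (nat_lit 15) (nat_lit 4) (nat_lit 16) (nat_lit 5) (nat_lit 16) (nat_lit 4) (nat_lit 376) (nat_lit 346) (nat_lit 298)) (XT.lf (nat_lit 0) (nat_lit 2159389631) (nat_lit 76) (nat_lit 5385793392) (nat_lit 152) (nat_lit 133259775830) (nat_lit 13) (nat_lit 5) (nat_lit 14) (nat_lit 5) (nat_lit 15) (nat_lit 4) (nat_lit 377) (nat_lit 346)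 (nat_lit 297)))) (XT.nd (nat_lit 78) (nat_lit 76) (nat_lit 0) (XT.lf (nat_lit 0) (nat_lit 51730432848) (nat_lit 152) (nat_lit 63961005469) (nat_lit 0) (nat_lit 39500256756) (nat_lit 13) (nat_lit 5) (nat_lit 15) (nat_lit 4) (nat_lit 13) (nat_lit 4) (nat_lit 378) (nat_lit 346) (nat_lit 296)) (XT.nd (nat_lit 78) (nat_lit 0) (nat_lit 0) (XT.lf (nat_lit 0) (nat_lit 23760507112) (nat_lit 76) (nat_lit 80011641281) (nat_lit 76) (nat_lit 67779991739) (nat_lit 12) (nat_lit 4) (nat_lit 13) (nat_lit 5) (nat_lit 13) (nat_lit 4) (nat_lit 379) (nat_lit 346) (nat_lit 295)) (XT.lf (nat_lit 0) (nat_lit 131805115280) (nat_lit 76) (nat_lit 35147310928) (nat_lit 76) (nat_lit 22914380127) (nat_lit 12) (nat_lit 4) (nat_lit 13) (nat_lit 5) (nat_lit 13) (nat_lit 4) (nat_lit 380) (nat_lit 346) (nat_lit 294))))) (XT.nd (nat_lit 234) (nat_lit 228) (nat_lit 0) (XT.nd (nat_lit 78) (nat_lit 76) (nat_lit 0) (XT.lf (nat_lit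 0) (nat_lit 28946038859) (nat_lit 152) (nat_lit 163073998513) (nat_lit 0) (nat_lit 18307738911) (nat_lit 10) (nat_lit 5) (nat_lit 12) (nat_lit 4) (nat_lit 10) (nat_lit 4) (nat_lit 381) (nat_lit 346) (nat_lit 293)) (XT.nd (nat_lit 78) (nat_lit 76) (nat_lit 0) (XT.lf (nat_lit 0) (nat_lit 91082680564) (nat_lit 152) (nat_lit 61441525543) (nat_lit 0) (nat_lit 80443538167) (nat_lit 10) (nat_lit 5) (nat_lit 12) (nat_lit 4) (nat_lit 10) (nat_lit 4) (nat_lit 382) (nat_lit 346) (nat_lit 292)) (XT.lf (nat_lit 0) (nat_lit 60832952638) (nat_lit 76) (nat_lit 104217051041) (nat_lit 76) (nat_lit 93577176080) (nat_lit 9) (nat_lit 4) (nat_lit 10) (nat_lit 5) (nat_lit 10) (nat_lit 4) (nat_lit 383) (nat_lit 346) (nat_lit 291)))) (XT.nd (nat_lit 156) (nat_lit 76) (nat_lit 0) (XT.nd (nat_lit 78) (nat_lit 152) (nat_lit 0) (XT.lf (nat_lit 0) (nat_lit 208336003418) (nat_lit 76) (nat_lit 44979768587) (nat_lit 76)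 (nat_lit 34339256613) (nat_lit 9) (nat_lit 4) (nat_lit 10) (nat_lit 5) (nat_lit 10) (nat_lit 4) (nat_lit 384) (nat_lit 346) (nat_lit 290)) (XT.lf (nat_lit 0) (nat_lit 34437020148) (nat_lit 152) (nat_lit 260657216764) (nat_lit 0) (nat_lit 25183919367) (nat_lit 7) (nat_lit 5) (nat_lit 9) (nat_lit 4) (nat_lit 7) (nat_lit 4) (nat_lit 385) (nat_lit 346) (nat_lit 289))) (XT.nd (nat_lit 78) (nat_lit 76) (nat_lit 0) (XT.lf (nat_lit 0) (nat_lit 116491996788) (nat_lit 152) (nat_lit 132847307152) (nat_lit 0) (nat_lit 107238477161) (nat_lit 7) (nat_lit 5) (nat_lit 9) (nat_lit 4) (nat_lit 7) (nat_lit 4) (nat_lit 386) (nat_lit 346) (nat_lit 288)) (XT.lf (nat_lit 0) (nat_lit 15499884967) (nat_lit 76) (nat_lit 195990534325) (nat_lit 76) (nat_lit 186736650484) (nat_lit 6) (nat_lit 4) (nat_lit 7) (nat_lit 5) (nat_lit 7) (nat_lit 4) (nat_lit 387) (nat_lit 346) (nat_lit 287))))))) (XT.nd (nat_lit 1014) (nat_lit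 76) (nat_lit 0) (XT.nd (nat_lit 468) (nat_lit 152) (nat_lit 0) (XT.nd (nat_lit 234) (nat_lit 76) (nat_lit 0) (XT.nd (nat_lit 78) (nat_lit 76) (nat_lit 0) (XT.lf (nat_lit 0) (nat_lit 201015912202) (nat_lit 76) (nat_lit 126660671664) (nat_lit 76) (nat_lit 117406471115) (nat_lit 6) (nat_lit 4) (nat_lit 7) (nat_lit 5) (nat_lit 7) (nat_lit 4) (nat_lit 388) (nat_lit 346) (nat_lit 286)) (XT.nd (nat_lit 78) (nat_lit 76) (nat_lit 0) (XT.lf (nat_lit 0) (nat_lit 414347630938) (nat_lit 76) (nat_lit 46937553177) (nat_lit 76) (nat_lit 37683077230) (nat_lit 6) (nat_lit 4) (nat_lit 7) (nat_lit 5) (nat_lit 7) (nat_lit 4) (nat_lit 389) (nat_lit 346) (nat_lit 285)) (XT.lf (nat_lit 0) (nat_lit 55740529210) (nat_lit 76) (nat_lit 456185014607) (nat_lit 0) (nat_lit 47692950580) (nat_lit 5) (nat_lit 5) (nat_lit 6) (nat_lit 4) (nat_lit 5) (nat_lit 4) (nat_lit 390) (nat_lit 346) (nat_lit 284)))) (XT.nd (nat_lit 78)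 (nat_lit 76) (nat_lit 0) (XT.lf (nat_lit 0) (nat_lit 166183761380) (nat_lit 76) (nat_lit 303747717421) (nat_lit 0) (nat_lit 158136001672) (nat_lit 5) (nat_lit 5) (nat_lit 6) (nat_lit 4) (nat_lit 5) (nat_lit 4) (nat_lit 391) (nat_lit 346) (nat_lit 283)) (XT.nd (nat_lit 78) (nat_lit 76) (nat_lit 0) (XT.lf (nat_lit 0) (nat_lit 293189135433) (nat_lit 76) (nat_lit 128454112218) (nat_lit 0) (nat_lit 285141218265) (nat_lit 5) (nat_lit 5) (nat_lit 6) (nat_lit 4) (nat_lit 5) (nat_lit 4) (nat_lit 392) (nat_lit 346) (nat_lit 282)) (XT.lf (nat_lit 0) (nat_lit 80271810120) (nat_lit 76) (nat_lit 362293613479) (nat_lit 76) (nat_lit 354245559390) (nat_lit 4) (nat_lit 4) (nat_lit 5) (nat_lit 5) (nat_lit 5) (nat_lit 4) (nat_lit 393) (nat_lit 346) (nat_lit 281))))) (XT.nd (nat_lit 234) (nat_lit 152) (nat_lit 0) (XT.nd (nat_lit 78) (nat_lit 0) (nat_lit 0) (XT.lf (nat_lit 0) (nat_lit 334735403163) (nat_lit 76)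 (nat_lit 286323795533) (nat_lit 76) (nat_lit 278275622381) (nat_lit 4) (nat_lit 4) (nat_lit 5) (nat_lit 5) (nat_lit 5) (nat_lit 4) (nat_lit 394) (nat_lit 346) (nat_lit 280)) (XT.nd (nat_lit 78) (nat_lit 0) (nat_lit 0) (XT.lf (nat_lit 0) (nat_lit 627361832370) (nat_lit 76) (nat_lit 198962074585) (nat_lit 76) (nat_lit 190913797901) (nat_lit 4) (nat_lit 4) (nat_lit 5) (nat_lit 5) (nat_lit 5) (nat_lit 4) (nat_lit 395) (nat_lit 346) (nat_lit 279)) (XT.lf (nat_lit 0) (nat_lit 963876397441) (nat_lit 76) (nat_lit 98499199574) (nat_lit 76) (nat_lit 90450832861) (nat_lit 4) (nat_lit 4) (nat_lit 5) (nat_lit 5) (nat_lit 5) (nat_lit 4) (nat_lit 396) (nat_lit 346) (nat_lit 278)))) (XT.nd (nat_lit 156) (nat_lit 0) (nat_lit 0) (XT.nd (nat_lit 78) (nat_lit 0) (nat_lit 0) (XT.lf (nat_lit 0) (nat_lit 25556555329) (nat_lit 152) (nat_lit 1264077027555) (nat_lit 0) (nat_lit 18557907505) (nat_lit 2) (nat_lit 5)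 (nat_lit 4) (nat_lit 4) (nat_lit 2) (nat_lit 4) (nat_lit 397) (nat_lit 346) (nat_lit 277)) (XT.lf (nat_lit 0) (nat_lit 164739831151) (nat_lit 152) (nat_lit 1161478994054) (nat_lit 0) (nat_lit 157741124133) (nat_lit 2) (nat_lit 5) (nat_lit 4) (nat_lit 4) (nat_lit 2) (nat_lit 4) (nat_lit 398) (nat_lit 346) (nat_lit 276))) (XT.nd (nat_lit 78) (nat_lit 0) (nat_lit 0) (XT.lf (nat_lit 0) (nat_lit 324798441876) (nat_lit 152) (nat_lit 1043495875344) (nat_lit 0) (nat_lit 317799683383) (nat_lit 2) (nat_lit 5) (nat_lit 4) (nat_lit 4) (nat_lit 2) (nat_lit 4) (nat_lit 399) (nat_lit 346) (nat_lit 275)) (XT.lf (nat_lit 0) (nat_lit 508863969016) (nat_lit 152) (nat_lit 907819306062) (nat_lit 0) (nat_lit 501865165763) (nat_lit 2) (nat_lit 5) (nat_lit 4) (nat_lit 4) (nat_lit 2) (nat_lit 4) (nat_lit 400) (nat_lit 346) (nat_lit 274)))))) (XT.nd (nat_lit 546) (nat_lit 0) (nat_lit 0) (XT.nd (nat_lit 234) (nat_lit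 76) (nat_lit 0) (XT.nd (nat_lit 78) (nat_lit 0) (nat_lit 0) (XT.lf (nat_lit 0) (nat_lit 720537694625) (nat_lit 152) (nat_lit 751794744633) (nat_lit 0) (nat_lit 713538852451) (nat_lit 2) (nat_lit 5) (nat_lit 4) (nat_lit 4) (nat_lit 2) (nat_lit 4) (nat_lit 401) (nat_lit 346) (nat_lit 273)) (XT.nd (nat_lit 78) (nat_lit 0) (nat_lit 0) (XT.lf (nat_lit 0) (nat_lit 963961061161) (nat_lit 152) (nat_lit 572369536595) (nat_lit 0) (nat_lit 956962185142) (nat_lit 2) (nat_lit 5) (nat_lit 4) (nat_lit 4) (nat_lit 2) (nat_lit 4) (nat_lit 402) (nat_lit 346) (nat_lit 272)) (XT.lf (nat_lit 0) (nat_lit 1243896699708) (nat_lit 152) (nat_lit 366033188748) (nat_lit 0) (nat_lit 1236897794258) (nat_lit 2) (nat_lit 5) (nat_lit 4) (nat_lit 4) (nat_lit 2) (nat_lit 4) (nat_lit 403) (nat_lit 346) (nat_lit 271)))) (XT.nd (nat_lit 156) (nat_lit 0) (nat_lit 0) (XT.nd (nat_lit 78) (nat_lit 76) (nat_lit 0) (XT.lf (nat_lit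 0) (nat_lit 1565821611889) (nat_lit 152) (nat_lit 128748685590) (nat_lit 0) (nat_lit 1558822680848) (nat_lit 2) (nat_lit 5) (nat_lit 4) (nat_lit 4) (nat_lit 2) (nat_lit 4) (nat_lit 404) (nat_lit 346) (nat_lit 270)) (XT.lf (nat_lit 0) (nat_lit 158211585126) (nat_lit 76) (nat_lit 1784373947822) (nat_lit 76) (nat_lit 1777374994528) (nat_lit 1) (nat_lit 4) (nat_lit 2) (nat_lit 5) (nat_lit 2) (nat_lit 4) (nat_lit 405) (nat_lit 346) (nat_lit 269))) (XT.nd (nat_lit 78) (nat_lit 0) (nat_lit 0) (XT.lf (nat_lit 0) (nat_lit 502683586556) (nat_lit 76) (nat_lit 1879909610898) (nat_lit 76) (nat_lit 1872910638252) (nat_lit 1) (nat_lit 4) (nat_lit 2) (nat_lit 5) (nat_lit 2) (nat_lit 4) (nat_lit 406) (nat_lit 346) (nat_lit 268)) (XT.lf (nat_lit 0) (nat_lit 898824730384) (nat_lit 76) (nat_lit 1989776507650) (nat_lit 76) (nat_lit 1982777518178) (nat_lit 1) (nat_lit 4) (nat_lit 2) (nat_lit 5) (nat_lit 2) (nat_lit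 4) (nat_lit 407) (nat_lit 346) (nat_lit 267))))) (XT.nd (nat_lit 234) (nat_lit 0) (nat_lit 0) (XT.nd (nat_lit 78) (nat_lit 0) (nat_lit 0) (XT.lf (nat_lit 0) (nat_lit 1354385604207) (nat_lit 76) (nat_lit 2116124207799) (nat_lit 76) (nat_lit 2109125203695) (nat_lit 1) (nat_lit 4) (nat_lit 2) (nat_lit 5) (nat_lit 2) (nat_lit 4) (nat_lit 408) (nat_lit 346) (nat_lit 266)) (XT.nd (nat_lit 78) (nat_lit 0) (nat_lit 0) (XT.lf (nat_lit 0) (nat_lit 1878279355555) (nat_lit 76) (nat_lit 2261424731565) (nat_lit 76) (nat_lit 2254425714737) (nat_lit 1) (nat_lit 4) (nat_lit 2) (nat_lit 5) (nat_lit 2) (nat_lit 4) (nat_lit 409) (nat_lit 346) (nat_lit 265)) (XT.lf (nat_lit 0) (nat_lit 2480756079563) (nat_lit 76) (nat_lit 2428520915282) (nat_lit 76) (nat_lit 2421521887390) (nat_lit 1) (nat_lit 4) (nat_lit 2) (nat_lit 5) (nat_lit 2) (nat_lit 4) (nat_lit 410) (nat_lit 346) (nat_lit 264)))) (XT.nd (nat_lit 156)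 (nat_lit 0) (nat_lit 0) (XT.nd (nat_lit 78) (nat_lit 0) (nat_lit 0) (XT.lf (nat_lit 0) (nat_lit 3173603364310) (nat_lit 76) (nat_lit 2620682032110) (nat_lit 76) (nat_lit 2613682994597) (nat_lit 1) (nat_lit 4) (nat_lit 2) (nat_lit 5) (nat_lit 2) (nat_lit 4) (nat_lit 411) (nat_lit 346) (nat_lit 263)) (XT.lf (nat_lit 0) (nat_lit 3970376917542) (nat_lit 76) (nat_lit 2841667756074) (nat_lit 76) (nat_lit 2834668710195) (nat_lit 1) (nat_lit 4) (nat_lit 2) (nat_lit 5) (nat_lit 2) (nat_lit 4) (nat_lit 412) (nat_lit 346) (nat_lit 262))) (XT.nd (nat_lit 78) (nat_lit 0) (nat_lit 0) (XT.lf (nat_lit 0) (nat_lit 4886665787038) (nat_lit 76) (nat_lit 3095801720903) (nat_lit 76) (nat_lit 3088802667749) (nat_lit 1) (nat_lit 4) (nat_lit 2) (nat_lit 5) (nat_lit 2) (nat_lit 4) (nat_lit 413) (nat_lit 346) (nat_lit 261)) (XT.lf (nat_lit 0) (nat_lit 5940397363724) (nat_lit 76) (nat_lit 3388056112866) (nat_lit 76)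 (nat_lit 3381057053387) (nat_lit 1) (nat_lit 4) (nat_lit 2) (nat_lit 5) (nat_lit 2) (nat_lit 4) (nat_lit 414) (nat_lit 346) (nat_lit 260))))))))
noncomputable def xc57 : XT := (XT.nd (nat_lit 47892) (nat_lit 0) (nat_lit 1292) (XT.nd (nat_lit 1014) (nat_lit 0) (nat_lit 0) (XT.nd (nat_lit 468) (nat_lit 0) (nat_lit 0) (XT.nd (nat_lit 234) (nat_lit 0) (nat_lit 0) (XT.nd (nat_lit 78) (nat_lit 0) (nat_lit 0) (XT.lf (nat_lit 0) (nat_lit 7152188134969) (nat_lit 76) (nat_lit 3724148952676) (nat_lit 76) (nat_lit 3717149887696) (nat_lit 1) (nat_lit 4) (nat_lit 2) (nat_lit 5) (nat_lit 2) (nat_lit 4) (nat_lit 415) (nat_lit 346) (nat_lit 259)) (XT.nd (nat_lit 78) (nat_lit 0) (nat_lit 0) (XT.lf (nat_lit 0) (nat_lit 8545747050646) (nat_lit 76) (nat_lit 4110655969807) (nat_lit 76) (nat_lit 4103656900043) (nat_lit 1) (nat_lit 4) (nat_lit 2) (nat_lit 5) (nat_lit 2) (nat_lit 4) (nat_lit 416) (nat_lit 346) (nat_lit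 258)) (XT.lf (nat_lit 0) (nat_lit 10148339393887) (nat_lit 76) (nat_lit 4555139258071) (nat_lit 76) (nat_lit 4548140184149) (nat_lit 1) (nat_lit 4) (nat_lit 2) (nat_lit 5) (nat_lit 2) (nat_lit 4) (nat_lit 417) (nat_lit 346) (nat_lit 257)))) (XT.nd (nat_lit 78) (nat_lit 0) (nat_lit 0) (XT.lf (nat_lit 0) (nat_lit 11991320232278) (nat_lit 76) (nat_lit 5066295229632) (nat_lit 76) (nat_lit 5059296152093) (nat_lit 1) (nat_lit 4) (nat_lit 2) (nat_lit 5) (nat_lit 2) (nat_lit 4) (nat_lit 418) (nat_lit 346) (nat_lit 256)) (XT.nd (nat_lit 78) (nat_lit 0) (nat_lit 0) (XT.lf (nat_lit 0) (nat_lit 14110747886570) (nat_lit 76) (nat_lit 5654124762193) (nat_lit 76) (nat_lit 5647125681509) (nat_lit 1) (nat_lit 4) (nat_lit 2) (nat_lit 5) (nat_lit 2) (nat_lit 4) (nat_lit 419) (nat_lit 346) (nat_lit 255)) (XT.lf (nat_lit 0) (nat_lit 16548089419564) (nat_lit 76) (nat_lit 6330128868349) (nat_lit 76) (nat_lit 6323129784929)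 (nat_lit 1) (nat_lit 4) (nat_lit 2) (nat_lit 5) (nat_lit 2) (nat_lit 4) (nat_lit 420) (nat_lit 346) (nat_lit 254))))) (XT.nd (nat_lit 234) (nat_lit 0) (nat_lit 0) (XT.nd (nat_lit 78) (nat_lit 0) (nat_lit 0) (XT.lf (nat_lit 0) (nat_lit 19351031948210) (nat_lit 76) (nat_lit 7107533715392) (nat_lit 76) (nat_lit 7100534629595) (nat_lit 1) (nat_lit 4) (nat_lit 2) (nat_lit 5) (nat_lit 2) (nat_lit 4) (nat_lit 421) (nat_lit 346) (nat_lit 253)) (XT.nd (nat_lit 78) (nat_lit 0) (nat_lit 0) (XT.lf (nat_lit 0) (nat_lit 22574415652416) (nat_lit 76) (nat_lit 8001549398158) (nat_lit 76) (nat_lit 7994550310292) (nat_lit 1) (nat_lit 4) (nat_lit 2) (nat_lit 5) (nat_lit 2) (nat_lit 4) (nat_lit 422) (nat_lit 346) (nat_lit 252)) (XT.lf (nat_lit 0) (nat_lit 26281306735091) (nat_lit 76) (nat_lit 9029667527829) (nat_lit 76) (nat_lit 9022668438166) (nat_lit 1) (nat_lit 4) (nat_lit 2) (nat_lit 5) (nat_lit 2) (nat_lit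 4) (nat_lit 423) (nat_lit 346) (nat_lit 251)))) (XT.nd (nat_lit 156) (nat_lit 0) (nat_lit 0) (XT.nd (nat_lit 78) (nat_lit 0) (nat_lit 0) (XT.lf (nat_lit 0) (nat_lit 30544231326113) (nat_lit 76) (nat_lit 10212003459118) (nat_lit 76) (nat_lit 10205004367891) (nat_lit 1) (nat_lit 4) (nat_lit 2) (nat_lit 5) (nat_lit 2) (nat_lit 4) (nat_lit 424) (nat_lit 346) (nat_lit 250)) (XT.lf (nat_lit 0) (nat_lit 35446594471829) (nat_lit 76) (nat_lit 11571689851550) (nat_lit 76) (nat_lit 11564690758963) (nat_lit 1) (nat_lit 4) (nat_lit 2) (nat_lit 5) (nat_lit 2) (nat_lit 4) (nat_lit 425) (nat_lit 346) (nat_lit 249))) (XT.nd (nat_lit 78) (nat_lit 0) (nat_lit 0) (XT.lf (nat_lit 0) (nat_lit 41084311972915) (nat_lit 76) (nat_lit 13135329264976) (nat_lit 76) (nat_lit 13128330171207) (nat_lit 1) (nat_lit 4) (nat_lit 2) (nat_lit 5) (nat_lit 2) (nat_lit 4) (nat_lit 426) (nat_lit 346) (nat_lit 248)) (XT.lf (nat_lit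 0) (nat_lit 47567686997870) (nat_lit 76) (nat_lit 14933514644442) (nat_lit 76) (nat_lit 14926515549644) (nat_lit 1) (nat_lit 4) (nat_lit 2) (nat_lit 5) (nat_lit 2) (nat_lit 4) (nat_lit 427) (nat_lit 346) (nat_lit 247)))))) (XT.nd (nat_lit 468) (nat_lit 0) (nat_lit 0) (XT.nd (nat_lit 234) (nat_lit 0) (nat_lit 0) (XT.nd (nat_lit 78) (nat_lit 0) (nat_lit 0) (XT.lf (nat_lit 0) (nat_lit 55023568188488) (nat_lit 76) (nat_lit 17001427877807) (nat_lit 76) (nat_lit 16994428782115) (nat_lit 1) (nat_lit 4) (nat_lit 2) (nat_lit 5) (nat_lit 2) (nat_lit 4) (nat_lit 428) (nat_lit 346) (nat_lit 246)) (XT.nd (nat_lit 78) (nat_lit 0) (nat_lit 0) (XT.lf (nat_lit 0) (nat_lit 63597831481106) (nat_lit 76) (nat_lit 19379528137028) (nat_lit 76) (nat_lit 19372529040558) (nat_lit 1) (nat_lit 4) (nat_lit 2) (nat_lit 5) (nat_lit 2) (nat_lit 4) (nat_lit 429) (nat_lit 346) (nat_lit 245)) (XT.lf (nat_lit 0) (nat_lit 73458234201016)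 (nat_lit 76) (nat_lit 22114343470654) (nat_lit 76) (nat_lit 22107344373509) (nat_lit 1) (nat_lit 4) (nat_lit 2) (nat_lit 5) (nat_lit 2) (nat_lit 4) (nat_lit 430) (nat_lit 346) (nat_lit 244)))) (XT.nd (nat_lit 78) (nat_lit 0) (nat_lit 0) (XT.lf (nat_lit 0) (nat_lit 84797697270997) (nat_lit 76) (nat_lit 25259381135214) (nat_lit 76) (nat_lit 25252382037481) (nat_lit 1) (nat_lit 4) (nat_lit 2) (nat_lit 5) (nat_lit 2) (nat_lit 4) (nat_lit 431) (nat_lit 346) (nat_lit 243)) (XT.nd (nat_lit 78) (nat_lit 0) (nat_lit 0) (XT.lf (nat_lit 0) (nat_lit 97838079751114) (nat_lit 76) (nat_lit 28876174476319) (nat_lit 76) (nat_lit 28869175378075) (nat_lit 1) (nat_lit 4) (nat_lit 2) (nat_lit 5) (nat_lit 2) (nat_lit 4) (nat_lit 432) (nat_lit 346) (nat_lit 242)) (XT.lf (nat_lit 0) (nat_lit 112834519559458) (nat_lit 76) (nat_lit 33035486841946) (nat_lit 76) (nat_lit 33028487743258) (nat_lit 1) (nat_lit 4) (nat_lit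 2) (nat_lit 5) (nat_lit 2) (nat_lit 4) (nat_lit 433) (nat_lit 346) (nat_lit 241))))) (XT.nd (nat_lit 234) (nat_lit 0) (nat_lit 0) (XT.nd (nat_lit 78) (nat_lit 0) (nat_lit 0) (XT.lf (nat_lit 0) (nat_lit 130080425300973) (nat_lit 76) (nat_lit 37818696082728) (nat_lit 76) (nat_lit 37811696983653) (nat_lit 1) (nat_lit 4) (nat_lit 2) (nat_lit 5) (nat_lit 2) (nat_lit 4) (nat_lit 434) (nat_lit 346) (nat_lit 240)) (XT.nd (nat_lit 78) (nat_lit 0) (nat_lit 0) (XT.lf (nat_lit 0) (nat_lit 149913216870603) (nat_lit 76) (nat_lit 43319386727288) (nat_lit 76) (nat_lit 43312387627877) (nat_lit 1) (nat_lit 4) (nat_lit 2) (nat_lit 5) (nat_lit 2) (nat_lit 4) (nat_lit 435) (nat_lit 346) (nat_lit 239)) (XT.lf (nat_lit 0) (nat_lit 172720927146883) (nat_lit 76) (nat_lit 49645180983890) (nat_lit 76) (nat_lit 49638181884186) (nat_lit 1) (nat_lit 4) (nat_lit 2) (nat_lit 5) (nat_lit 2) (nat_lit 4) (nat_lit 436) (nat_lit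 346) (nat_lit 238)))) (XT.nd (nat_lit 156) (nat_lit 0) (nat_lit 0) (XT.nd (nat_lit 78) (nat_lit 0) (nat_lit 0) (XT.lf (nat_lit 0) (nat_lit 198949793939567) (nat_lit 76) (nat_lit 56919844392335) (nat_lit 76) (nat_lit 56912845292377) (nat_lit 1) (nat_lit 4) (nat_lit 2) (nat_lit 5) (nat_lit 2) (nat_lit 4) (nat_lit 437) (nat_lit 346) (nat_lit 237)) (XT.lf (nat_lit 0) (nat_lit 229112990729382) (nat_lit 76) (nat_lit 65285707323661) (nat_lit 76) (nat_lit 65278708223482) (nat_lit 1) (nat_lit 4) (nat_lit 2) (nat_lit 5) (nat_lit 2) (nat_lit 4) (nat_lit 438) (nat_lit 346) (nat_lit 236))) (XT.nd (nat_lit 45942) (nat_lit 0) (nat_lit 3116) (XT.lf (nat_lit 0) (nat_lit 263800667018736) (nat_lit 76) (nat_lit 74906449704783) (nat_lit 76) (nat_lit 74899450604412) (nat_lit 1) (nat_lit 4) (nat_lit 2) (nat_lit 5) (nat_lit 2) (nat_lit 4) (nat_lit 439) (nat_lit 346) (nat_lit 235)) (XT.lf (nat_lit 0) (nat_lit 331929071)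 (nat_lit 380) (nat_lit 2623445221) (nat_lit 380) (nat_lit 2623445221) (nat_lit 42) (nat_lit 3) (nat_lit 47) (nat_lit 3) (nat_lit 47) (nat_lit 5) (nat_lit 347) (nat_lit 347) (nat_lit 326))))))) (XT.nd (nat_lit 1014) (nat_lit 988) (nat_lit 0) (XT.nd (nat_lit 468) (nat_lit 684) (nat_lit 0) (XT.nd (nat_lit 234) (nat_lit 152) (nat_lit 0) (XT.nd (nat_lit 78) (nat_lit 0) (nat_lit 76) (XT.lf (nat_lit 76) (nat_lit 339203254) (nat_lit 0) (nat_lit 910945961) (nat_lit 380) (nat_lit 10663714494) (nat_lit 43) (nat_lit 5) (nat_lit 42) (nat_lit 3) (nat_lit 47) (nat_lit 5) (nat_lit 348) (nat_lit 347) (nat_lit 325)) (XT.nd (nat_lit 78) (nat_lit 0) (nat_lit 0) (XT.lf (nat_lit 0) (nat_lit 2318142871) (nat_lit 304) (nat_lit 5677507970) (nat_lit 380) (nat_lit 4728829313) (nat_lit 43) (nat_lit 5) (nat_lit 47) (nat_lit 5) (nat_lit 48) (nat_lit 5) (nat_lit 349) (nat_lit 347) (nat_lit 324)) (XT.lf (nat_lit 76) (nat_lit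 1093312120) (nat_lit 0) (nat_lit 2459989817) (nat_lit 380) (nat_lit 10102361218) (nat_lit 44) (nat_lit 5) (nat_lit 43) (nat_lit 5) (nat_lit 48) (nat_lit 5) (nat_lit 350) (nat_lit 347) (nat_lit 323)))) (XT.nd (nat_lit 78) (nat_lit 304) (nat_lit 0) (XT.lf (nat_lit 0) (nat_lit 5373276618) (nat_lit 304) (nat_lit 5413501402) (nat_lit 76) (nat_lit 3879830878) (nat_lit 44) (nat_lit 5) (nat_lit 48) (nat_lit 5) (nat_lit 45) (nat_lit 5) (nat_lit 351) (nat_lit 347) (nat_lit 322)) (XT.nd (nat_lit 78) (nat_lit 0) (nat_lit 0) (XT.lf (nat_lit 0) (nat_lit 2883358488) (nat_lit 304) (nat_lit 4755851747) (nat_lit 380) (nat_lit 8164056258) (nat_lit 40) (nat_lit 5) (nat_lit 44) (nat_lit 5) (nat_lit 45) (nat_lit 5) (nat_lit 352) (nat_lit 347) (nat_lit 321)) (XT.lf (nat_lit 0) (nat_lit 10573808140) (nat_lit 380) (nat_lit 4208077826) (nat_lit 76) (nat_lit 2279233145) (nat_lit 40) (nat_lit 5) (nat_lit 45) (nat_lit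 5) (nat_lit 41) (nat_lit 5) (nat_lit 353) (nat_lit 347) (nat_lit 320))))) (XT.nd (nat_lit 234) (nat_lit 304) (nat_lit 0) (XT.nd (nat_lit 78) (nat_lit 228) (nat_lit 0) (XT.lf (nat_lit 0) (nat_lit 6063411987) (nat_lit 152) (nat_lit 8312346103) (nat_lit 228) (nat_lit 4067828065) (nat_lit 38) (nat_lit 5) (nat_lit 40) (nat_lit 5) (nat_lit 41) (nat_lit 5) (nat_lit 354) (nat_lit 347) (nat_lit 319)) (XT.nd (nat_lit 78) (nat_lit 228) (nat_lit 0) (XT.lf (nat_lit 0) (nat_lit 18290851060) (nat_lit 152) (nat_lit 630919285) (nat_lit 228) (nat_lit 1085596907) (nat_lit 38) (nat_lit 5) (nat_lit 40) (nat_lit 5) (nat_lit 41) (nat_lit 5) (nat_lit 355) (nat_lit 347) (nat_lit 318)) (XT.lf (nat_lit 0) (nat_lit 2931989535) (nat_lit 228) (nat_lit 10681634364) (nat_lit 76) (nat_lit 8058035420) (nat_lit 35) (nat_lit 5) (nat_lit 38) (nat_lit 5) (nat_lit 36) (nat_lit 5) (nat_lit 356) (nat_lit 347) (nat_lit 317)))) (XT.nd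 (nat_lit 156) (nat_lit 152) (nat_lit 0) (XT.nd (nat_lit 78) (nat_lit 0) (nat_lit 0) (XT.lf (nat_lit 0) (nat_lit 2283497868) (nat_lit 152) (nat_lit 5336879765) (nat_lit 228) (nat_lit 15930573303) (nat_lit 33) (nat_lit 5) (nat_lit 35) (nat_lit 5) (nat_lit 36) (nat_lit 5) (nat_lit 357) (nat_lit 347) (nat_lit 316)) (XT.lf (nat_lit 0) (nat_lit 13732940892) (nat_lit 228) (nat_lit 7493474369) (nat_lit 76) (nat_lit 4377588905) (nat_lit 33) (nat_lit 5) (nat_lit 36) (nat_lit 5) (nat_lit 34) (nat_lit 4) (nat_lit 358) (nat_lit 347) (nat_lit 315))) (XT.nd (nat_lit 78) (nat_lit 76) (nat_lit 0) (XT.lf (nat_lit 0) (nat_lit 8826779348) (nat_lit 76) (nat_lit 12522921436) (nat_lit 152) (nat_lit 6527222483) (nat_lit 32) (nat_lit 5) (nat_lit 33) (nat_lit 5) (nat_lit 34) (nat_lit 4) (nat_lit 359) (nat_lit 347) (nat_lit 314)) (XT.lf (nat_lit 0) (nat_lit 30960393) (nat_lit 152) (nat_lit 2049886360) (nat_lit 76)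 (nat_lit 28355492252) (nat_lit 31) (nat_lit 5) (nat_lit 33) (nat_lit 5) (nat_lit 32) (nat_lit 5) (nat_lit 360) (nat_lit 347) (nat_lit 313)))))) (XT.nd (nat_lit 546) (nat_lit 456) (nat_lit 0) (XT.nd (nat_lit 234) (nat_lit 304) (nat_lit 0) (XT.nd (nat_lit 78) (nat_lit 76) (nat_lit 0) (XT.lf (nat_lit 0) (nat_lit 8118667874) (nat_lit 228) (nat_lit 14862915779) (nat_lit 76) (nat_lit 10169354465) (nat_lit 29) (nat_lit 5) (nat_lit 32) (nat_lit 5) (nat_lit 30) (nat_lit 4) (nat_lit 361) (nat_lit 347) (nat_lit 312)) (XT.nd (nat_lit 78) (nat_lit 0) (nat_lit 0) (XT.lf (nat_lit 0) (nat_lit 6037123944) (nat_lit 76) (nat_lit 11817326324) (nat_lit 152) (nat_lit 18353041702) (nat_lit 28) (nat_lit 5) (nat_lit 29) (nat_lit 5) (nat_lit 30) (nat_lit 4) (nat_lit 362) (nat_lit 347) (nat_lit 311)) (XT.lf (nat_lit 0) (nat_lit 29881209596) (nat_lit 152) (nat_lit 7990022072) (nat_lit 0) (nat_lit 1726708137) (nat_lit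 28) (nat_lit 5) (nat_lit 30) (nat_lit 4) (nat_lit 28) (nat_lit 4) (nat_lit 363) (nat_lit 347) (nat_lit 310)))) (XT.nd (nat_lit 156) (nat_lit 76) (nat_lit 0) (XT.nd (nat_lit 78) (nat_lit 76) (nat_lit 0) (XT.lf (nat_lit 0) (nat_lit 1567482365) (nat_lit 152) (nat_lit 24805384161) (nat_lit 76) (nat_lit 16917014834) (nat_lit 26) (nat_lit 5) (nat_lit 28) (nat_lit 5) (nat_lit 27) (nat_lit 4) (nat_lit 364) (nat_lit 347) (nat_lit 309)) (XT.lf (nat_lit 0) (nat_lit 2010161049) (nat_lit 76) (nat_lit 12038149133) (nat_lit 152) (nat_lit 33343081572) (nat_lit 25) (nat_lit 5) (nat_lit 26) (nat_lit 5) (nat_lit 27) (nat_lit 4) (nat_lit 365) (nat_lit 347) (nat_lit 308))) (XT.nd (nat_lit 78) (nat_lit 76) (nat_lit 0) (XT.lf (nat_lit 0) (nat_lit 29922245155) (nat_lit 152) (nat_lit 16565546217) (nat_lit 0) (nat_lit 5392191227) (nat_lit 25) (nat_lit 5) (nat_lit 27) (nat_lit 4) (nat_lit 25) (nat_lit 4) (nat_lit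 366) (nat_lit 347) (nat_lit 307)) (XT.lf (nat_lit 0) (nat_lit 17522848523) (nat_lit 76) (nat_lit 31934521609) (nat_lit 76) (nat_lit 7392478137) (nat_lit 24) (nat_lit 4) (nat_lit 25) (nat_lit 5) (nat_lit 25) (nat_lit 4) (nat_lit 367) (nat_lit 347) (nat_lit 306))))) (XT.nd (nat_lit 234) (nat_lit 228) (nat_lit 0) (XT.nd (nat_lit 78) (nat_lit 152) (nat_lit 0) (XT.lf (nat_lit 0) (nat_lit 9413085246) (nat_lit 152) (nat_lit 4314335882) (nat_lit 76) (nat_lit 48646363372) (nat_lit 23) (nat_lit 5) (nat_lit 25) (nat_lit 5) (nat_lit 24) (nat_lit 4) (nat_lit 368) (nat_lit 347) (nat_lit 305)) (XT.nd (nat_lit 78) (nat_lit 76) (nat_lit 0) (XT.lf (nat_lit 0) (nat_lit 29974821537) (nat_lit 152) (nat_lit 29782893844) (nat_lit 0) (nat_lit 8616965032) (nat_lit 22) (nat_lit 5) (nat_lit 24) (nat_lit 4) (nat_lit 22) (nat_lit 4) (nat_lit 369) (nat_lit 347) (nat_lit 304)) (XT.lf (nat_lit 0) (nat_lit 13700042935)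 (nat_lit 76) (nat_lit 41362091306) (nat_lit 76) (nat_lit 19997379741) (nat_lit 21) (nat_lit 4) (nat_lit 22) (nat_lit 5) (nat_lit 22) (nat_lit 4) (nat_lit 370) (nat_lit 347) (nat_lit 303)))) (XT.nd (nat_lit 156) (nat_lit 76) (nat_lit 0) (XT.nd (nat_lit 78) (nat_lit 76) (nat_lit 0) (XT.lf (nat_lit 0) (nat_lit 2676850375) (nat_lit 152) (nat_lit 15615444180) (nat_lit 76) (nat_lit 64205268969) (nat_lit 20) (nat_lit 5) (nat_lit 22) (nat_lit 5) (nat_lit 21) (nat_lit 4) (nat_lit 371) (nat_lit 347) (nat_lit 302)) (XT.lf (nat_lit 0) (nat_lit 28791736777) (nat_lit 152) (nat_lit 51599678853) (nat_lit 0) (nat_lit 10204035995) (nat_lit 19) (nat_lit 5) (nat_lit 21) (nat_lit 4) (nat_lit 19) (nat_lit 4) (nat_lit 372) (nat_lit 347) (nat_lit 301))) (XT.nd (nat_lit 78) (nat_lit 0) (nat_lit 0) (XT.lf (nat_lit 0) (nat_lit 3106640524) (nat_lit 76) (nat_lit 57558411779) (nat_lit 76) (nat_lit 38966791595) (nat_lit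 18) (nat_lit 4) (nat_lit 19) (nat_lit 5) (nat_lit 19) (nat_lit 4) (nat_lit 373) (nat_lit 347) (nat_lit 300)) (XT.lf (nat_lit 0) (nat_lit 71791228850) (nat_lit 76) (nat_lit 28212425721) (nat_lit 76) (nat_lit 9617397359) (nat_lit 18) (nat_lit 4) (nat_lit 19) (nat_lit 5) (nat_lit 19) (nat_lit 4) (nat_lit 374) (nat_lit 347) (nat_lit 299))))))))
noncomputable def xc58 : XT := (XT.nd (nat_lit 2028) (nat_lit 76) (nat_lit 0) (XT.nd (nat_lit 1014) (nat_lit 380) (nat_lit 0) (XT.nd (nat_lit 468) (nat_lit 380) (nat_lit 0) (XT.nd (nat_lit 234) (nat_lit 228) (nat_lit 0) (XT.nd (nat_lit 78) (nat_lit 76) (nat_lit 0) (XT.lf (nat_lit 0) (nat_lit 23614357301) (nat_lit 152) (nat_lit 89657906173) (nat_lit 0) (nat_lit 7442190350) (nat_lit 16) (nat_lit 5) (nat_lit 18) (nat_lit 4) (nat_lit 16) (nat_lit 4) (nat_lit 375) (nat_lit 347) (nat_lit 298)) (XT.nd (nat_lit 78) (nat_lit 76) (nat_lit 0) (XT.lf (nat_lit 0)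 (nat_lit 64249580443) (nat_lit 152) (nat_lit 20567915983) (nat_lit 0) (nat_lit 48075172560) (nat_lit 16) (nat_lit 5) (nat_lit 18) (nat_lit 4) (nat_lit 16) (nat_lit 4) (nat_lit 376) (nat_lit 347) (nat_lit 297)) (XT.lf (nat_lit 0) (nat_lit 64616898344) (nat_lit 76) (nat_lit 49028629346) (nat_lit 76) (nat_lit 32852272827) (nat_lit 15) (nat_lit 4) (nat_lit 16) (nat_lit 5) (nat_lit 16) (nat_lit 4) (nat_lit 377) (nat_lit 347) (nat_lit 296)))) (XT.nd (nat_lit 78) (nat_lit 76) (nat_lit 0) (XT.lf (nat_lit 0) (nat_lit 2735574355) (nat_lit 76) (nat_lit 6061460686) (nat_lit 152) (nat_lit 153110654916) (nat_lit 13) (nat_lit 5) (nat_lit 14) (nat_lit 5) (nat_lit 15) (nat_lit 4) (nat_lit 378) (nat_lit 347) (nat_lit 295)) (XT.nd (nat_lit 78) (nat_lit 76) (nat_lit 0) (XT.lf (nat_lit 0) (nat_lit 59599170607) (nat_lit 152) (nat_lit 73324882539) (nat_lit 0) (nat_lit 45530018926) (nat_lit 13) (nat_lit 5) (nat_lit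 15) (nat_lit 4) (nat_lit 13) (nat_lit 4) (nat_lit 379) (nat_lit 347) (nat_lit 294)) (XT.lf (nat_lit 0) (nat_lit 27544389941) (nat_lit 76) (nat_lit 91897615337) (nat_lit 76) (nat_lit 77827349517) (nat_lit 12) (nat_lit 4) (nat_lit 13) (nat_lit 5) (nat_lit 13) (nat_lit 4) (nat_lit 380) (nat_lit 347) (nat_lit 293))))) (XT.nd (nat_lit 234) (nat_lit 228) (nat_lit 0) (XT.nd (nat_lit 78) (nat_lit 152) (nat_lit 0) (XT.lf (nat_lit 0) (nat_lit 151767018886) (nat_lit 76) (nat_lit 40318736145) (nat_lit 76) (nat_lit 26247501508) (nat_lit 12) (nat_lit 4) (nat_lit 13) (nat_lit 5) (nat_lit 13) (nat_lit 4) (nat_lit 381) (nat_lit 347) (nat_lit 292)) (XT.nd (nat_lit 78) (nat_lit 0) (nat_lit 0) (XT.lf (nat_lit 0) (nat_lit 33382457915) (nat_lit 152) (nat_lit 187334437917) (nat_lit 0) (nat_lit 21145869145) (nat_lit 10) (nat_lit 5) (nat_lit 12) (nat_lit 4) (nat_lit 10) (nat_lit 4) (nat_lit 382) (nat_lit 347) (nat_lit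 291)) (XT.lf (nat_lit 0) (nat_lit 104827268063) (nat_lit 152) (nat_lit 70483267094) (nat_lit 0) (nat_lit 92590042280) (nat_lit 10) (nat_lit 5) (nat_lit 12) (nat_lit 4) (nat_lit 10) (nat_lit 4) (nat_lit 383) (nat_lit 347) (nat_lit 290)))) (XT.nd (nat_lit 156) (nat_lit 152) (nat_lit 0) (XT.nd (nat_lit 78) (nat_lit 0) (nat_lit 0) (XT.lf (nat_lit 0) (nat_lit 70124451574) (nat_lit 76) (nat_lit 119761414965) (nat_lit 76) (nat_lit 107523635259) (nat_lit 9) (nat_lit 4) (nat_lit 10) (nat_lit 5) (nat_lit 10) (nat_lit 4) (nat_lit 384) (nat_lit 347) (nat_lit 289)) (XT.lf (nat_lit 0) (nat_lit 239731235270) (nat_lit 76) (nat_lit 51650043673) (nat_lit 76) (nat_lit 39411782293) (nat_lit 9) (nat_lit 4) (nat_lit 10) (nat_lit 5) (nat_lit 10) (nat_lit 4) (nat_lit 385) (nat_lit 347) (nat_lit 288))) (XT.nd (nat_lit 78) (nat_lit 0) (nat_lit 0) (XT.lf (nat_lit 0) (nat_lit 39673830098) (nat_lit 152) (nat_lit 299603861237)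 (nat_lit 0) (nat_lit 29031499467) (nat_lit 7) (nat_lit 5) (nat_lit 9) (nat_lit 4) (nat_lit 7) (nat_lit 4) (nat_lit 386) (nat_lit 347) (nat_lit 287)) (XT.lf (nat_lit 0) (nat_lit 134027758852) (nat_lit 152) (nat_lit 152642283189) (nat_lit 0) (nat_lit 123385111513) (nat_lit 7) (nat_lit 5) (nat_lit 9) (nat_lit 4) (nat_lit 7) (nat_lit 4) (nat_lit 387) (nat_lit 347) (nat_lit 286)))))) (XT.nd (nat_lit 468) (nat_lit 228) (nat_lit 0) (XT.nd (nat_lit 234) (nat_lit 76) (nat_lit 0) (XT.nd (nat_lit 78) (nat_lit 0) (nat_lit 0) (XT.lf (nat_lit 0) (nat_lit 17950982292) (nat_lit 76) (nat_lit 225322102505) (nat_lit 76) (nat_lit 214679179768) (nat_lit 6) (nat_lit 4) (nat_lit 7) (nat_lit 5) (nat_lit 7) (nat_lit 4) (nat_lit 388) (nat_lit 347) (nat_lit 285)) (XT.nd (nat_lit 78) (nat_lit 0) (nat_lit 0) (XT.lf (nat_lit 0) (nat_lit 231277963885) (nat_lit 76) (nat_lit 145601501136) (nat_lit 76) (nat_lit 134958338922)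 (nat_lit 6) (nat_lit 4) (nat_lit 7) (nat_lit 5) (nat_lit 7) (nat_lit 4) (nat_lit 389) (nat_lit 347) (nat_lit 284)) (XT.lf (nat_lit 0) (nat_lit 476595136319) (nat_lit 76) (nat_lit 53927515477) (nat_lit 76) (nat_lit 43284145023) (nat_lit 6) (nat_lit 4) (nat_lit 7) (nat_lit 5) (nat_lit 7) (nat_lit 4) (nat_lit 390) (nat_lit 347) (nat_lit 283)))) (XT.nd (nat_lit 78) (nat_lit 0) (nat_lit 0) (XT.lf (nat_lit 0) (nat_lit 64148370972) (nat_lit 76) (nat_lit 524512774293) (nat_lit 0) (nat_lit 54893108770) (nat_lit 5) (nat_lit 5) (nat_lit 6) (nat_lit 4) (nat_lit 5) (nat_lit 4) (nat_lit 391) (nat_lit 347) (nat_lit 282)) (XT.nd (nat_lit 78) (nat_lit 0) (nat_lit 0) (XT.lf (nat_lit 0) (nat_lit 191151988527) (nat_lit 76) (nat_lit 349222925030) (nat_lit 0) (nat_lit 181896589403) (nat_lit 5) (nat_lit 5) (nat_lit 6) (nat_lit 4) (nat_lit 5) (nat_lit 4) (nat_lit 392) (nat_lit 347) (nat_lit 281)) (XT.lf (nat_lit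 0) (nat_lit 337202864827) (nat_lit 76) (nat_lit 147646620351) (nat_lit 0) (nat_lit 327947346640) (nat_lit 5) (nat_lit 5) (nat_lit 6) (nat_lit 4) (nat_lit 5) (nat_lit 4) (nat_lit 393) (nat_lit 347) (nat_lit 280))))) (XT.nd (nat_lit 234) (nat_lit 152) (nat_lit 0) (XT.nd (nat_lit 78) (nat_lit 0) (nat_lit 0) (XT.lf (nat_lit 0) (nat_lit 92384753579) (nat_lit 76) (nat_lit 416599219071) (nat_lit 76) (nat_lit 407343597352) (nat_lit 4) (nat_lit 4) (nat_lit 5) (nat_lit 5) (nat_lit 5) (nat_lit 4) (nat_lit 394) (nat_lit 347) (nat_lit 279)) (XT.nd (nat_lit 78) (nat_lit 0) (nat_lit 0) (XT.lf (nat_lit 0) (nat_lit 385008471847) (nat_lit 76) (nat_lit 329238941881) (nat_lit 76) (nat_lit 319983230134) (nat_lit 4) (nat_lit 4) (nat_lit 5) (nat_lit 5) (nat_lit 5) (nat_lit 4) (nat_lit 395) (nat_lit 347) (nat_lit 278)) (XT.lf (nat_lit 0) (nat_lit 721520679581) (nat_lit 76) (nat_lit 228777322310) (nat_lit 76) (nat_lit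 219521532278) (nat_lit 4) (nat_lit 4) (nat_lit 5) (nat_lit 5) (nat_lit 5) (nat_lit 4) (nat_lit 396) (nat_lit 347) (nat_lit 277)))) (XT.nd (nat_lit 156) (nat_lit 0) (nat_lit 0) (XT.nd (nat_lit 78) (nat_lit 152) (nat_lit 0) (XT.lf (nat_lit 0) (nat_lit 1108505311279) (nat_lit 76) (nat_lit 113248806933) (nat_lit 76) (nat_lit 103992948827) (nat_lit 4) (nat_lit 4) (nat_lit 5) (nat_lit 5) (nat_lit 5) (nat_lit 4) (nat_lit 397) (nat_lit 347) (nat_lit 276)) (XT.lf (nat_lit 0) (nat_lit 29413258308) (nat_lit 152) (nat_lit 1453638838067) (nat_lit 0) (nat_lit 21364634568) (nat_lit 2) (nat_lit 5) (nat_lit 4) (nat_lit 4) (nat_lit 2) (nat_lit 4) (nat_lit 398) (nat_lit 347) (nat_lit 275))) (XT.nd (nat_lit 78) (nat_lit 0) (nat_lit 0) (XT.lf (nat_lit 0) (nat_lit 189470996850) (nat_lit 152) (nat_lit 1335657587838) (nat_lit 0) (nat_lit 181422328350) (nat_lit 2) (nat_lit 5) (nat_lit 4) (nat_lit 4) (nat_lit 2)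 (nat_lit 4) (nat_lit 399) (nat_lit 347) (nat_lit 274)) (XT.lf (nat_lit 0) (nat_lit 373535765571) (nat_lit 152) (nat_lit 1199982643321) (nat_lit 0) (nat_lit 365487058149) (nat_lit 2) (nat_lit 5) (nat_lit 4) (nat_lit 4) (nat_lit 2) (nat_lit 4) (nat_lit 400) (nat_lit 347) (nat_lit 273))))))) (XT.nd (nat_lit 1014) (nat_lit 0) (nat_lit 0) (XT.nd (nat_lit 468) (nat_lit 0) (nat_lit 0) (XT.nd (nat_lit 234) (nat_lit 76) (nat_lit 0) (XT.nd (nat_lit 78) (nat_lit 0) (nat_lit 0) (XT.lf (nat_lit 0) (nat_lit 585208831685) (nat_lit 152) (nat_lit 1043959494732) (nat_lit 0) (nat_lit 577160090418) (nat_lit 2) (nat_lit 5) (nat_lit 4) (nat_lit 4) (nat_lit 2) (nat_lit 4) (nat_lit 401) (nat_lit 347) (nat_lit 272)) (XT.nd (nat_lit 78) (nat_lit 0) (nat_lit 0) (XT.lf (nat_lit 0) (nat_lit 828631624746) (nat_lit 152) (nat_lit 864535515251) (nat_lit 0) (nat_lit 820582854049) (nat_lit 2) (nat_lit 5) (nat_lit 4) (nat_lit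 4) (nat_lit 2) (nat_lit 4) (nat_lit 402) (nat_lit 347) (nat_lit 271)) (XT.lf (nat_lit 0) (nat_lit 1108566764620) (nat_lit 152) (nat_lit 658200235713) (nat_lit 0) (nat_lit 1100517968331) (nat_lit 2) (nat_lit 5) (nat_lit 4) (nat_lit 4) (nat_lit 2) (nat_lit 4) (nat_lit 403) (nat_lit 347) (nat_lit 270)))) (XT.nd (nat_lit 78) (nat_lit 76) (nat_lit 0) (XT.lf (nat_lit 0) (nat_lit 1430491243172) (nat_lit 152) (nat_lit 420916661520) (nat_lit 0) (nat_lit 1422442424630) (nat_lit 2) (nat_lit 5) (nat_lit 4) (nat_lit 4) (nat_lit 2) (nat_lit 4) (nat_lit 404) (nat_lit 347) (nat_lit 269)) (XT.nd (nat_lit 78) (nat_lit 76) (nat_lit 0) (XT.lf (nat_lit 0) (nat_lit 1800703582810) (nat_lit 152) (nat_lit 148042287958) (nat_lit 0) (nat_lit 1792654744917) (nat_lit 2) (nat_lit 5) (nat_lit 4) (nat_lit 4) (nat_lit 2) (nat_lit 4) (nat_lit 405) (nat_lit 347) (nat_lit 268)) (XT.lf (nat_lit 0) (nat_lit 181961173343) (nat_lit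 76) (nat_lit 2052020519251) (nat_lit 76) (nat_lit 2043971664530) (nat_lit 1) (nat_lit 4) (nat_lit 2) (nat_lit 5) (nat_lit 2) (nat_lit 4) (nat_lit 406) (nat_lit 347) (nat_lit 267))))) (XT.nd (nat_lit 234) (nat_lit 0) (nat_lit 0) (XT.nd (nat_lit 78) (nat_lit 0) (nat_lit 0) (XT.lf (nat_lit 0) (nat_lit 578101646669) (nat_lit 76) (nat_lit 2161887773623) (nat_lit 76) (nat_lit 2153838904271) (nat_lit 1) (nat_lit 4) (nat_lit 2) (nat_lit 5) (nat_lit 2) (nat_lit 4) (nat_lit 407) (nat_lit 347) (nat_lit 266)) (XT.nd (nat_lit 78) (nat_lit 0) (nat_lit 0) (XT.lf (nat_lit 0) (nat_lit 1033661937446) (nat_lit 76) (nat_lit 2288235784747) (nat_lit 76) (nat_lit 2280186902671) (nat_lit 1) (nat_lit 4) (nat_lit 2) (nat_lit 5) (nat_lit 2) (nat_lit 4) (nat_lit 408) (nat_lit 347) (nat_lit 265)) (XT.lf (nat_lit 0) (nat_lit 1557555181798) (nat_lit 76) (nat_lit 2433536578925) (nat_lit 76) (nat_lit 2425487685785) (nat_lit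 1) (nat_lit 4) (nat_lit 2) (nat_lit 5) (nat_lit 2) (nat_lit 4) (nat_lit 409) (nat_lit 347) (nat_lit 264)))) (XT.nd (nat_lit 156) (nat_lit 0) (nat_lit 0) (XT.nd (nat_lit 78) (nat_lit 0) (nat_lit 0) (XT.lf (nat_lit 0) (nat_lit 2160031464940) (nat_lit 76) (nat_lit 2600632997783) (nat_lit 76) (nat_lit 2592584095022) (nat_lit 1) (nat_lit 4) (nat_lit 2) (nat_lit 5) (nat_lit 2) (nat_lit 4) (nat_lit 410) (nat_lit 347) (nat_lit 263)) (XT.lf (nat_lit 0) (nat_lit 2852878366325) (nat_lit 76) (nat_lit 2792794319081) (nat_lit 76) (nat_lit 2784745407954) (nat_lit 1) (nat_lit 4) (nat_lit 2) (nat_lit 5) (nat_lit 2) (nat_lit 4) (nat_lit 411) (nat_lit 347) (nat_lit 262))) (XT.nd (nat_lit 78) (nat_lit 0) (nat_lit 0) (XT.lf (nat_lit 0) (nat_lit 3649651586199) (nat_lit 76) (nat_lit 3013780220845) (nat_lit 76) (nat_lit 3005731302444) (nat_lit 1) (nat_lit 4) (nat_lit 2) (nat_lit 5) (nat_lit 2) (nat_lit 4) (nat_lit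 412) (nat_lit 347) (nat_lit 261)) (XT.lf (nat_lit 0) (nat_lit 4565940165818) (nat_lit 76) (nat_lit 3267914340284) (nat_lit 76) (nat_lit 3259865415557) (nat_lit 1) (nat_lit 4) (nat_lit 2) (nat_lit 5) (nat_lit 2) (nat_lit 4) (nat_lit 413) (nat_lit 347) (nat_lit 260)))))) (XT.nd (nat_lit 546) (nat_lit 0) (nat_lit 0) (XT.nd (nat_lit 234) (nat_lit 0) (nat_lit 0) (XT.nd (nat_lit 78) (nat_lit 0) (nat_lit 0) (XT.lf (nat_lit 0) (nat_lit 5619671490437) (nat_lit 76) (nat_lit 3560168866690) (nat_lit 76) (nat_lit 3552119936462) (nat_lit 1) (nat_lit 4) (nat_lit 2) (nat_lit 5) (nat_lit 2) (nat_lit 4) (nat_lit 414) (nat_lit 347) (nat_lit 259)) (XT.nd (nat_lit 78) (nat_lit 0) (nat_lit 0) (XT.lf (nat_lit 0) (nat_lit 6831462042494) (nat_lit 76) (nat_lit 3896261823406) (nat_lit 76) (nat_lit 3888212888395) (nat_lit 1) (nat_lit 4) (nat_lit 2) (nat_lit 5) (nat_lit 2) (nat_lit 4) (nat_lit 415) (nat_lit 347) (nat_lit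 258)) (XT.lf (nat_lit 0) (nat_lit 8225020767572) (nat_lit 76) (nat_lit 4282768942195) (nat_lit 76) (nat_lit 4274720003024) (nat_lit 1) (nat_lit 4) (nat_lit 2) (nat_lit 5) (nat_lit 2) (nat_lit 4) (nat_lit 416) (nat_lit 347) (nat_lit 257)))) (XT.nd (nat_lit 156) (nat_lit 0) (nat_lit 0) (XT.nd (nat_lit 78) (nat_lit 0) (nat_lit 0) (XT.lf (nat_lit 0) (nat_lit 9827612945075) (nat_lit 76) (nat_lit 4727252318858) (nat_lit 76) (nat_lit 4719203376071) (nat_lit 1) (nat_lit 4) (nat_lit 2) (nat_lit 5) (nat_lit 2) (nat_lit 4) (nat_lit 417) (nat_lit 347) (nat_lit 256)) (XT.lf (nat_lit 0) (nat_lit 11670593639347) (nat_lit 76) (nat_lit 5238408367287) (nat_lit 76) (nat_lit 5230359421354) (nat_lit 1) (nat_lit 4) (nat_lit 2) (nat_lit 5) (nat_lit 2) (nat_lit 4) (nat_lit 418) (nat_lit 347) (nat_lit 255))) (XT.nd (nat_lit 78) (nat_lit 0) (nat_lit 0) (XT.lf (nat_lit 0) (nat_lit 13790021168317) (nat_lit 76) (nat_lit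 5826237966690) (nat_lit 76) (nat_lit 5818189018022) (nat_lit 1) (nat_lit 4) (nat_lit 2) (nat_lit 5) (nat_lit 2) (nat_lit 4) (nat_lit 419) (nat_lit 347) (nat_lit 254)) (XT.lf (nat_lit 0) (nat_lit 16227362592335) (nat_lit 76) (nat_lit 6502242130968) (nat_lit 76) (nat_lit 6494193179923) (nat_lit 1) (nat_lit 4) (nat_lit 2) (nat_lit 5) (nat_lit 2) (nat_lit 4) (nat_lit 420) (nat_lit 347) (nat_lit 253))))) (XT.nd (nat_lit 234) (nat_lit 0) (nat_lit 0) (XT.nd (nat_lit 78) (nat_lit 0) (nat_lit 0) (XT.lf (nat_lit 0) (nat_lit 19030305026220) (nat_lit 76) (nat_lit 7279647028554) (nat_lit 76) (nat_lit 7271598075441) (nat_lit 1) (nat_lit 4) (nat_lit 2) (nat_lit 5) (nat_lit 2) (nat_lit 4) (nat_lit 421) (nat_lit 347) (nat_lit 252)) (XT.nd (nat_lit 78) (nat_lit 0) (nat_lit 0) (XT.lf (nat_lit 0) (nat_lit 22253688648026) (nat_lit 76) (nat_lit 8173662755269) (nat_lit 76) (nat_lit 8165613800357) (nat_lit 1) (nat_lit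 4) (nat_lit 2) (nat_lit 5) (nat_lit 2) (nat_lit 4) (nat_lit 422) (nat_lit 347) (nat_lit 251)) (XT.lf (nat_lit 0) (nat_lit 25960579659047) (nat_lit 76) (nat_lit 9201780923158) (nat_lit 76) (nat_lit 9193731966682) (nat_lit 1) (nat_lit 4) (nat_lit 2) (nat_lit 5) (nat_lit 2) (nat_lit 4) (nat_lit 423) (nat_lit 347) (nat_lit 250)))) (XT.nd (nat_lit 156) (nat_lit 0) (nat_lit 0) (XT.nd (nat_lit 78) (nat_lit 0) (nat_lit 0) (XT.lf (nat_lit 0) (nat_lit 30223504187763) (nat_lit 76) (nat_lit 10384116887679) (nat_lit 76) (nat_lit 10376067929844) (nat_lit 1) (nat_lit 4) (nat_lit 2) (nat_lit 5) (nat_lit 2) (nat_lit 4) (nat_lit 424) (nat_lit 347) (nat_lit 249)) (XT.lf (nat_lit 0) (nat_lit 35125867279298) (nat_lit 76) (nat_lit 11743803309008) (nat_lit 76) (nat_lit 11735754349991) (nat_lit 1) (nat_lit 4) (nat_lit 2) (nat_lit 5) (nat_lit 2) (nat_lit 4) (nat_lit 425) (nat_lit 347) (nat_lit 248))) (XT.nd (nat_lit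 78) (nat_lit 0) (nat_lit 0) (XT.lf (nat_lit 0) (nat_lit 40763584733271) (nat_lit 76) (nat_lit 13307442747563) (nat_lit 76) (nat_lit 13299393787517) (nat_lit 1) (nat_lit 4) (nat_lit 2) (nat_lit 5) (nat_lit 2) (nat_lit 4) (nat_lit 426) (nat_lit 347) (nat_lit 247)) (XT.lf (nat_lit 0) (nat_lit 47246959717258) (nat_lit 76) (nat_lit 15105628148879) (nat_lit 76) (nat_lit 15097579187940) (nat_lit 1) (nat_lit 4) (nat_lit 2) (nat_lit 5) (nat_lit 2) (nat_lit 4) (nat_lit 427) (nat_lit 347) (nat_lit 246))))))))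
noncomputable def xc59 : XT := (XT.nd (nat_lit 47892) (nat_lit 0) (nat_lit 456) (XT.nd (nat_lit 1014) (nat_lit 0) (nat_lit 0) (XT.nd (nat_lit 468) (nat_lit 0) (nat_lit 0) (XT.nd (nat_lit 234) (nat_lit 0) (nat_lit 0) (XT.nd (nat_lit 78) (nat_lit 0) (nat_lit 0) (XT.lf (nat_lit 0) (nat_lit 54702840872252) (nat_lit 76) (nat_lit 17173541401244) (nat_lit 76) (nat_lit 17165492439527) (nat_lit 1) (nat_lit 4) (nat_lit 2) (nat_lit 5) (nat_lit 2) (nat_lit 4) (nat_lit 428) (nat_lit 347) (nat_lit 245)) (XT.nd (nat_lit 78) (nat_lit 0) (nat_lit 0) (XT.lf (nat_lit 0) (nat_lit 63277104133893) (nat_lit 76) (nat_lit 19551641676987) (nat_lit 76) (nat_lit 19543592714594) (nat_lit 1) (nat_lit 4) (nat_lit 2) (nat_lit 5) (nat_lit 2) (nat_lit 4) (nat_lit 429) (nat_lit 347) (nat_lit 244)) (XT.lf (nat_lit 0) (nat_lit 73137506826865) (nat_lit 76) (nat_lit 22286457024981) (nat_lit 76) (nat_lit 22278408062001) (nat_lit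 1) (nat_lit 4) (nat_lit 2) (nat_lit 5) (nat_lit 2) (nat_lit 4) (nat_lit 430) (nat_lit 347) (nat_lit 243)))) (XT.nd (nat_lit 78) (nat_lit 0) (nat_lit 0) (XT.lf (nat_lit 0) (nat_lit 84476969873423) (nat_lit 76) (nat_lit 25431494702035) (nat_lit 76) (nat_lit 25423445738543) (nat_lit 1) (nat_lit 4) (nat_lit 2) (nat_lit 5) (nat_lit 2) (nat_lit 4) (nat_lit 431) (nat_lit 347) (nat_lit 242)) (XT.nd (nat_lit 78) (nat_lit 0) (nat_lit 0) (XT.lf (nat_lit 0) (nat_lit 97517352333172) (nat_lit 76) (nat_lit 29048288054003) (nat_lit 76) (nat_lit 29040239090067) (nat_lit 1) (nat_lit 4) (nat_lit 2) (nat_lit 5) (nat_lit 2) (nat_lit 4) (nat_lit 432) (nat_lit 347) (nat_lit 241)) (XT.lf (nat_lit 0) (nat_lit 112513792123804) (nat_lit 76) (nat_lit 33207600429077) (nat_lit 76) (nat_lit 33199551464754) (nat_lit 1) (nat_lit 4) (nat_lit 2) (nat_lit 5) (nat_lit 2) (nat_lit 4) (nat_lit 433) (nat_lit 347) (nat_lit 240)))))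 (XT.nd (nat_lit 234) (nat_lit 0) (nat_lit 0) (XT.nd (nat_lit 78) (nat_lit 0) (nat_lit 0) (XT.lf (nat_lit 0) (nat_lit 129759697849918) (nat_lit 76) (nat_lit 37990809678073) (nat_lit 76) (nat_lit 37982760713414) (nat_lit 1) (nat_lit 4) (nat_lit 2) (nat_lit 5) (nat_lit 2) (nat_lit 4) (nat_lit 434) (nat_lit 347) (nat_lit 239)) (XT.nd (nat_lit 78) (nat_lit 0) (nat_lit 0) (XT.lf (nat_lit 0) (nat_lit 149592489406155) (nat_lit 76) (nat_lit 43491500329776) (nat_lit 76) (nat_lit 43483451364824) (nat_lit 1) (nat_lit 4) (nat_lit 2) (nat_lit 5) (nat_lit 2) (nat_lit 4) (nat_lit 435) (nat_lit 347) (nat_lit 238)) (XT.lf (nat_lit 0) (nat_lit 172400199670790) (nat_lit 76) (nat_lit 49817294592589) (nat_lit 76) (nat_lit 49809245627383) (nat_lit 1) (nat_lit 4) (nat_lit 2) (nat_lit 5) (nat_lit 2) (nat_lit 4) (nat_lit 436) (nat_lit 347) (nat_lit 237)))) (XT.nd (nat_lit 156) (nat_lit 0) (nat_lit 0) (XT.nd (nat_lit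 78) (nat_lit 0) (nat_lit 0) (XT.lf (nat_lit 0) (nat_lit 198629066453347) (nat_lit 76) (nat_lit 57091958006436) (nat_lit 76) (nat_lit 57083909041009) (nat_lit 1) (nat_lit 4) (nat_lit 2) (nat_lit 5) (nat_lit 2) (nat_lit 4) (nat_lit 437) (nat_lit 347) (nat_lit 236)) (XT.lf (nat_lit 0) (nat_lit 228792263234356) (nat_lit 76) (nat_lit 65457820942458) (nat_lit 76) (nat_lit 65449771976840) (nat_lit 1) (nat_lit 4) (nat_lit 2) (nat_lit 5) (nat_lit 2) (nat_lit 4) (nat_lit 438) (nat_lit 347) (nat_lit 235))) (XT.nd (nat_lit 78) (nat_lit 0) (nat_lit 0) (XT.lf (nat_lit 0) (nat_lit 263479939516053) (nat_lit 76) (nat_lit 75078563327664) (nat_lit 76) (nat_lit 75070514361878) (nat_lit 1) (nat_lit 4) (nat_lit 2) (nat_lit 5) (nat_lit 2) (nat_lit 4) (nat_lit 439) (nat_lit 347) (nat_lit 234)) (XT.lf (nat_lit 0) (nat_lit 303370767225689) (nat_lit 76) (nat_lit 86142417078287) (nat_lit 76) (nat_lit 86134368112356)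 (nat_lit 1) (nat_lit 4) (nat_lit 2) (nat_lit 5) (nat_lit 2) (nat_lit 4) (nat_lit 440) (nat_lit 347) (nat_lit 233)))))) (XT.nd (nat_lit 46332) (nat_lit 0) (nat_lit 2356) (XT.nd (nat_lit 46020) (nat_lit 0) (nat_lit 2964) (XT.nd (nat_lit 45864) (nat_lit 0) (nat_lit 3116) (XT.lf (nat_lit 0) (nat_lit 349245219079323) (nat_lit 76) (nat_lit 98865848898141) (nat_lit 76) (nat_lit 98857799932085) (nat_lit 1) (nat_lit 4) (nat_lit 2) (nat_lit 5) (nat_lit 2) (nat_lit 4) (nat_lit 441) (nat_lit 347) (nat_lit 232)) (XT.nd (nat_lit 78) (nat_lit 0) (nat_lit 0) (XT.lf (nat_lit 0) (nat_lit 882540670) (nat_lit 380) (nat_lit 2728930269) (nat_lit 380) (nat_lit 2728930269) (nat_lit 42) (nat_lit 3) (nat_lit 47) (nat_lit 3) (nat_lit 47) (nat_lit 5) (nat_lit 348) (nat_lit 348) (nat_lit 324)) (XT.lf (nat_lit 76) (nat_lit 939962508) (nat_lit 0) (nat_lit 1391473594) (nat_lit 380) (nat_lit 11235237454) (nat_lit 43) (nat_lit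 5) (nat_lit 42) (nat_lit 3) (nat_lit 47) (nat_lit 5) (nat_lit 349) (nat_lit 348) (nat_lit 323)))) (XT.nd (nat_lit 156) (nat_lit 228) (nat_lit 0) (XT.nd (nat_lit 78) (nat_lit 0) (nat_lit 0) (XT.lf (nat_lit 0) (nat_lit 3430668588) (nat_lit 304) (nat_lit 5921840208) (nat_lit 380) (nat_lit 5165744448) (nat_lit 43) (nat_lit 5) (nat_lit 47) (nat_lit 5) (nat_lit 48) (nat_lit 5) (nat_lit 350) (nat_lit 348) (nat_lit 322)) (XT.lf (nat_lit 76) (nat_lit 1836998625) (nat_lit 0) (nat_lit 2938349521) (nat_lit 380) (nat_lit 10825151808) (nat_lit 44) (nat_lit 5) (nat_lit 43) (nat_lit 5) (nat_lit 48) (nat_lit 5) (nat_lit 351) (nat_lit 348) (nat_lit 321))) (XT.nd (nat_lit 78) (nat_lit 304) (nat_lit 0) (XT.lf (nat_lit 0) (nat_lit 6774505070) (nat_lit 304) (nat_lit 5627499851) (nat_lit 76) (nat_lit 4375174955) (nat_lit 44) (nat_lit 5) (nat_lit 48) (nat_lit 5) (nat_lit 45) (nat_lit 5) (nat_lit 352) (nat_lit 348)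 (nat_lit 320)) (XT.lf (nat_lit 0) (nat_lit 3886705989) (nat_lit 304) (nat_lit 5439620559) (nat_lit 380) (nat_lit 8766127474) (nat_lit 40) (nat_lit 5) (nat_lit 44) (nat_lit 5) (nat_lit 45) (nat_lit 5) (nat_lit 353) (nat_lit 348) (nat_lit 319))))) (XT.nd (nat_lit 234) (nat_lit 456) (nat_lit 0) (XT.nd (nat_lit 78) (nat_lit 152) (nat_lit 0) (XT.lf (nat_lit 0) (nat_lit 12631584423) (nat_lit 380) (nat_lit 4273271996) (nat_lit 76) (nat_lit 2644572861) (nat_lit 40) (nat_lit 5) (nat_lit 45) (nat_lit 5) (nat_lit 41) (nat_lit 5) (nat_lit 354) (nat_lit 348) (nat_lit 318)) (XT.nd (nat_lit 78) (nat_lit 0) (nat_lit 0) (XT.lf (nat_lit 0) (nat_lit 7513213221) (nat_lit 152) (nat_lit 9451459131) (nat_lit 228) (nat_lit 4180480503) (nat_lit 38) (nat_lit 5) (nat_lit 40) (nat_lit 5) (nat_lit 41) (nat_lit 5) (nat_lit 355) (nat_lit 348) (nat_lit 317)) (XT.lf (nat_lit 0) (nat_lit 21504295619) (nat_lit 152) (nat_lit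 631871189) (nat_lit 228) (nat_lit 815808815) (nat_lit 38) (nat_lit 5) (nat_lit 40) (nat_lit 5) (nat_lit 41) (nat_lit 5) (nat_lit 356) (nat_lit 348) (nat_lit 316)))) (XT.nd (nat_lit 156) (nat_lit 76) (nat_lit 0) (XT.nd (nat_lit 78) (nat_lit 152) (nat_lit 0) (XT.lf (nat_lit 0) (nat_lit 3739661021) (nat_lit 228) (nat_lit 11749182736) (nat_lit 76) (nat_lit 9378325216) (nat_lit 35) (nat_lit 5) (nat_lit 38) (nat_lit 5) (nat_lit 36) (nat_lit 5) (nat_lit 357) (nat_lit 348) (nat_lit 315)) (XT.lf (nat_lit 0) (nat_lit 3136414931) (nat_lit 152) (nat_lit 5968043221) (nat_lit 228) (nat_lit 17927931161) (nat_lit 33) (nat_lit 5) (nat_lit 35) (nat_lit 5) (nat_lit 36) (nat_lit 5) (nat_lit 358) (nat_lit 348) (nat_lit 314))) (XT.nd (nat_lit 78) (nat_lit 76) (nat_lit 0) (XT.lf (nat_lit 0) (nat_lit 16095522951) (nat_lit 228) (nat_lit 8135249040) (nat_lit 76) (nat_lit 5168392591) (nat_lit 33) (nat_lit 5) (nat_lit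 36) (nat_lit 5) (nat_lit 34) (nat_lit 4) (nat_lit 359) (nat_lit 348) (nat_lit 313)) (XT.lf (nat_lit 0) (nat_lit 10611122439) (nat_lit 76) (nat_lit 14223260610) (nat_lit 152) (nat_lit 7181706313) (nat_lit 32) (nat_lit 5) (nat_lit 33) (nat_lit 5) (nat_lit 34) (nat_lit 4) (nat_lit 360) (nat_lit 348) (nat_lit 312))))))) (XT.nd (nat_lit 1014) (nat_lit 912) (nat_lit 0) (XT.nd (nat_lit 468) (nat_lit 456) (nat_lit 0) (XT.nd (nat_lit 234) (nat_lit 228) (nat_lit 0) (XT.nd (nat_lit 78) (nat_lit 228) (nat_lit 0) (XT.lf (nat_lit 0) (nat_lit 292736144) (nat_lit 152) (nat_lit 1931927915) (nat_lit 76) (nat_lit 32738527066) (nat_lit 31) (nat_lit 5) (nat_lit 33) (nat_lit 5) (nat_lit 32) (nat_lit 5) (nat_lit 361) (nat_lit 348) (nat_lit 311)) (XT.nd (nat_lit 78) (nat_lit 76) (nat_lit 0) (XT.lf (nat_lit 0) (nat_lit 9583737753) (nat_lit 228) (nat_lit 16657024555) (nat_lit 76) (nat_lit 11845700876) (nat_lit 29)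 (nat_lit 5) (nat_lit 32) (nat_lit 5) (nat_lit 30) (nat_lit 4) (nat_lit 362) (nat_lit 348) (nat_lit 310)) (XT.lf (nat_lit 0) (nat_lit 7358233464) (nat_lit 76) (nat_lit 13406608137) (nat_lit 152) (nat_lit 20838918685) (nat_lit 28) (nat_lit 5) (nat_lit 29) (nat_lit 5) (nat_lit 30) (nat_lit 4) (nat_lit 363) (nat_lit 348) (nat_lit 309)))) (XT.nd (nat_lit 78) (nat_lit 228) (nat_lit 0) (XT.lf (nat_lit 0) (nat_lit 34571925439) (nat_lit 152) (nat_lit 8803477003) (nat_lit 0) (nat_lit 2130929120) (nat_lit 28) (nat_lit 5) (nat_lit 30) (nat_lit 4) (nat_lit 28) (nat_lit 4) (nat_lit 364) (nat_lit 348) (nat_lit 308)) (XT.nd (nat_lit 78) (nat_lit 76) (nat_lit 0) (XT.lf (nat_lit 0) (nat_lit 2008533074) (nat_lit 152) (nat_lit 28138506382) (nat_lit 76) (nat_lit 19605420449) (nat_lit 26) (nat_lit 5) (nat_lit 28) (nat_lit 5) (nat_lit 27) (nat_lit 4) (nat_lit 365) (nat_lit 348) (nat_lit 307)) (XT.lf (nat_lit 0)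 (nat_lit 2681748547) (nat_lit 76) (nat_lit 13668199831) (nat_lit 152) (nat_lit 38120980862) (nat_lit 25) (nat_lit 5) (nat_lit 26) (nat_lit 5) (nat_lit 27) (nat_lit 4) (nat_lit 366) (nat_lit 348) (nat_lit 306))))) (XT.nd (nat_lit 234) (nat_lit 304) (nat_lit 0) (XT.nd (nat_lit 78) (nat_lit 152) (nat_lit 0) (XT.lf (nat_lit 0) (nat_lit 34585943543) (nat_lit 152) (nat_lit 18709542994) (nat_lit 0) (nat_lit 6340178315) (nat_lit 25) (nat_lit 5) (nat_lit 27) (nat_lit 4) (nat_lit 25) (nat_lit 4) (nat_lit 367) (nat_lit 348) (nat_lit 305)) (XT.nd (nat_lit 78) (nat_lit 76) (nat_lit 0) (XT.lf (nat_lit 0) (nat_lit 20476618449) (nat_lit 76) (nat_lit 36565317308) (nat_lit 76) (nat_lit 8310486263) (nat_lit 24) (nat_lit 4) (nat_lit 25) (nat_lit 5) (nat_lit 25) (nat_lit 4) (nat_lit 368) (nat_lit 348) (nat_lit 304)) (XT.lf (nat_lit 0) (nat_lit 10976240727) (nat_lit 152) (nat_lit 4663796801) (nat_lit 76) (nat_lit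 56067128580) (nat_lit 23) (nat_lit 5) (nat_lit 25) (nat_lit 5) (nat_lit 24) (nat_lit 4) (nat_lit 369) (nat_lit 348) (nat_lit 303)))) (XT.nd (nat_lit 156) (nat_lit 152) (nat_lit 0) (XT.nd (nat_lit 78) (nat_lit 76) (nat_lit 0) (XT.lf (nat_lit 0) (nat_lit 34620118246) (nat_lit 152) (nat_lit 33950513015) (nat_lit 0) (nat_lit 10037883963) (nat_lit 22) (nat_lit 5) (nat_lit 24) (nat_lit 4) (nat_lit 22) (nat_lit 4) (nat_lit 370) (nat_lit 348) (nat_lit 302)) (XT.lf (nat_lit 0) (nat_lit 16041236331) (nat_lit 76) (nat_lit 47421697550) (nat_lit 76) (nat_lit 22834279856) (nat_lit 21) (nat_lit 4) (nat_lit 22) (nat_lit 5) (nat_lit 22) (nat_lit 4) (nat_lit 371) (nat_lit 348) (nat_lit 301))) (XT.nd (nat_lit 78) (nat_lit 76) (nat_lit 0) (XT.lf (nat_lit 0) (nat_lit 3207266242) (nat_lit 152) (nat_lit 17696302587) (nat_lit 76) (nat_lit 73949291882) (nat_lit 20) (nat_lit 5) (nat_lit 22) (nat_lit 5) (nat_lit 21)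 (nat_lit 4) (nat_lit 372) (nat_lit 348) (nat_lit 300)) (XT.lf (nat_lit 0) (nat_lit 33238173936) (nat_lit 152) (nat_lit 59076957232) (nat_lit 0) (nat_lit 11850483144) (nat_lit 19) (nat_lit 5) (nat_lit 21) (nat_lit 4) (nat_lit 19) (nat_lit 4) (nat_lit 373) (nat_lit 348) (nat_lit 299)))))) (XT.nd (nat_lit 546) (nat_lit 456) (nat_lit 0) (XT.nd (nat_lit 234) (nat_lit 228) (nat_lit 0) (XT.nd (nat_lit 78) (nat_lit 152) (nat_lit 0) (XT.lf (nat_lit 0) (nat_lit 3823370350) (nat_lit 76) (nat_lit 66062845316) (nat_lit 76) (nat_lit 44672190892) (nat_lit 18) (nat_lit 4) (nat_lit 19) (nat_lit 5) (nat_lit 19) (nat_lit 4) (nat_lit 374) (nat_lit 348) (nat_lit 298)) (XT.nd (nat_lit 78) (nat_lit 152) (nat_lit 0) (XT.lf (nat_lit 0) (nat_lit 82777942523) (nat_lit 76) (nat_lit 32331830249) (nat_lit 76) (nat_lit 10938598753) (nat_lit 18) (nat_lit 4) (nat_lit 19) (nat_lit 5) (nat_lit 19) (nat_lit 4) (nat_lit 375)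 (nat_lit 348) (nat_lit 297)) (XT.lf (nat_lit 0) (nat_lit 27266417733) (nat_lit 152) (nat_lit 102877057003) (nat_lit 0) (nat_lit 8661659101) (nat_lit 16) (nat_lit 5) (nat_lit 18) (nat_lit 4) (nat_lit 16) (nat_lit 4) (nat_lit 376) (nat_lit 348) (nat_lit 296)))) (XT.nd (nat_lit 156) (nat_lit 152) (nat_lit 0) (XT.nd (nat_lit 78) (nat_lit 76) (nat_lit 0) (XT.lf (nat_lit 0) (nat_lit 73982588671) (nat_lit 152) (nat_lit 23453507645) (nat_lit 0) (nat_lit 55376135573) (nat_lit 16) (nat_lit 5) (nat_lit 18) (nat_lit 4) (nat_lit 16) (nat_lit 4) (nat_lit 377) (nat_lit 348) (nat_lit 295)) (XT.lf (nat_lit 0) (nat_lit 74499956298) (nat_lit 76) (nat_lit 56283395063) (nat_lit 76) (nat_lit 37675468516) (nat_lit 15) (nat_lit 4) (nat_lit 16) (nat_lit 5) (nat_lit 16) (nat_lit 4) (nat_lit 378) (nat_lit 348) (nat_lit 294))) (XT.nd (nat_lit 78) (nat_lit 0) (nat_lit 0) (XT.lf (nat_lit 0) (nat_lit 3336667620) (nat_lit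 76) (nat_lit 6870716299) (nat_lit 152) (nat_lit 175972839324) (nat_lit 13) (nat_lit 5) (nat_lit 14) (nat_lit 5) (nat_lit 15) (nat_lit 4) (nat_lit 379) (nat_lit 348) (nat_lit 293)) (XT.lf (nat_lit 0) (nat_lit 68621596543) (nat_lit 152) (nat_lit 84149494881) (nat_lit 0) (nat_lit 52438707894) (nat_lit 13) (nat_lit 5) (nat_lit 15) (nat_lit 4) (nat_lit 13) (nat_lit 4) (nat_lit 380) (nat_lit 348) (nat_lit 292))))) (XT.nd (nat_lit 234) (nat_lit 228) (nat_lit 0) (XT.nd (nat_lit 78) (nat_lit 152) (nat_lit 0) (XT.lf (nat_lit 0) (nat_lit 31842253924) (nat_lit 76) (nat_lit 105594717270) (nat_lit 76) (nat_lit 89410986172) (nat_lit 12) (nat_lit 4) (nat_lit 13) (nat_lit 5) (nat_lit 13) (nat_lit 4) (nat_lit 381) (nat_lit 348) (nat_lit 291)) (XT.nd (nat_lit 78) (nat_lit 152) (nat_lit 0) (XT.lf (nat_lit 0) (nat_lit 174676598233) (nat_lit 76) (nat_lit 46290424508) (nat_lit 76) (nat_lit 30105960845) (nat_lit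 12) (nat_lit 4) (nat_lit 13) (nat_lit 5) (nat_lit 13) (nat_lit 4) (nat_lit 382) (nat_lit 348) (nat_lit 290)) (XT.lf (nat_lit 0) (nat_lit 38461292180) (nat_lit 152) (nat_lit 215282875535) (nat_lit 0) (nat_lit 24387291593) (nat_lit 10) (nat_lit 5) (nat_lit 12) (nat_lit 4) (nat_lit 10) (nat_lit 4) (nat_lit 383) (nat_lit 348) (nat_lit 289)))) (XT.nd (nat_lit 156) (nat_lit 152) (nat_lit 0) (XT.nd (nat_lit 78) (nat_lit 76) (nat_lit 0) (XT.lf (nat_lit 0) (nat_lit 120613502253) (nat_lit 152) (nat_lit 80923819706) (nat_lit 0) (nat_lit 106539019993) (nat_lit 10) (nat_lit 5) (nat_lit 12) (nat_lit 4) (nat_lit 10) (nat_lit 4) (nat_lit 384) (nat_lit 348) (nat_lit 288)) (XT.lf (nat_lit 0) (nat_lit 80769059605) (nat_lit 76) (nat_lit 137658940078) (nat_lit 76) (nat_lit 123584038972) (nat_lit 9) (nat_lit 4) (nat_lit 10) (nat_lit 5) (nat_lit 10) (nat_lit 4) (nat_lit 385) (nat_lit 348) (nat_lit 287))) (XT.nd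 (nat_lit 78) (nat_lit 152) (nat_lit 0) (XT.lf (nat_lit 0) (nat_lit 275800433861) (nat_lit 76) (nat_lit 59339561414) (nat_lit 76) (nat_lit 45264296094) (nat_lit 9) (nat_lit 4) (nat_lit 10) (nat_lit 5) (nat_lit 10) (nat_lit 4) (nat_lit 386) (nat_lit 348) (nat_lit 286)) (XT.lf (nat_lit 0) (nat_lit 45678785087) (nat_lit 152) (nat_lit 344429553434) (nat_lit 0) (nat_lit 33439148541) (nat_lit 7) (nat_lit 5) (nat_lit 9) (nat_lit 4) (nat_lit 7) (nat_lit 4) (nat_lit 387) (nat_lit 348) (nat_lit 285))))))))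
noncomputable def xc60 : XT := (XT.nd (nat_lit 2028) (nat_lit 0) (nat_lit 0) (XT.nd (nat_lit 1014) (nat_lit 76) (nat_lit 0) (XT.nd (nat_lit 468) (nat_lit 228) (nat_lit 0) (XT.nd (nat_lit 234) (nat_lit 76) (nat_lit 0) (XT.nd (nat_lit 78) (nat_lit 76) (nat_lit 0) (XT.lf (nat_lit 0) (nat_lit 154178775267) (nat_lit 152) (nat_lit 175438723939) (nat_lit 0) (nat_lit 141938899244) (nat_lit 7) (nat_lit 5) (nat_lit 9) (nat_lit 4) (nat_lit 7) (nat_lit 4) (nat_lit 388) (nat_lit 348) (nat_lit 284)) (XT.nd (nat_lit 78) (nat_lit 0) (nat_lit 0) (XT.lf (nat_lit 0) (nat_lit 20738990377) (nat_lit 76) (nat_lit 259069747204) (nat_lit 76) (nat_lit 246829662941) (nat_lit 6) (nat_lit 4) (nat_lit 7) (nat_lit 5) (nat_lit 7) (nat_lit 4) (nat_lit 389) (nat_lit 348) (nat_lit 283)) (XT.lf (nat_lit 0) (nat_lit 266052580851) (nat_lit 76) (nat_lit 167397664848) (nat_lit 76) (nat_lit 155157399506) (nat_lit 6) (nat_lit 4)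 (nat_lit 7) (nat_lit 5) (nat_lit 7) (nat_lit 4) (nat_lit 390) (nat_lit 348) (nat_lit 282)))) (XT.nd (nat_lit 78) (nat_lit 76) (nat_lit 0) (XT.lf (nat_lit 0) (nat_lit 548156513187) (nat_lit 76) (nat_lit 61978328488) (nat_lit 76) (nat_lit 49737905686) (nat_lit 6) (nat_lit 4) (nat_lit 7) (nat_lit 5) (nat_lit 7) (nat_lit 4) (nat_lit 391) (nat_lit 348) (nat_lit 281)) (XT.nd (nat_lit 78) (nat_lit 0) (nat_lit 0) (XT.lf (nat_lit 0) (nat_lit 73805985697) (nat_lit 76) (nat_lit 603114081737) (nat_lit 0) (nat_lit 63162020720) (nat_lit 5) (nat_lit 5) (nat_lit 6) (nat_lit 4) (nat_lit 5) (nat_lit 4) (nat_lit 392) (nat_lit 348) (nat_lit 280)) (XT.lf (nat_lit 0) (nat_lit 219855533831) (nat_lit 76) (nat_lit 401540617089) (nat_lit 0) (nat_lit 209211465322) (nat_lit 5) (nat_lit 5) (nat_lit 6) (nat_lit 4) (nat_lit 5) (nat_lit 4) (nat_lit 393) (nat_lit 348) (nat_lit 279))))) (XT.nd (nat_lit 234) (nat_lit 152)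 (nat_lit 0) (XT.nd (nat_lit 78) (nat_lit 76) (nat_lit 0) (XT.lf (nat_lit 0) (nat_lit 387810031094) (nat_lit 76) (nat_lit 169736442364) (nat_lit 0) (nat_lit 377165872557) (nat_lit 5) (nat_lit 5) (nat_lit 6) (nat_lit 4) (nat_lit 5) (nat_lit 4) (nat_lit 394) (nat_lit 348) (nat_lit 278)) (XT.nd (nat_lit 78) (nat_lit 0) (nat_lit 0) (XT.lf (nat_lit 0) (nat_lit 106297038971) (nat_lit 76) (nat_lit 479060038469) (nat_lit 76) (nat_lit 468415801647) (nat_lit 4) (nat_lit 4) (nat_lit 5) (nat_lit 5) (nat_lit 5) (nat_lit 4) (nat_lit 395) (nat_lit 348) (nat_lit 277)) (XT.lf (nat_lit 0) (nat_lit 442807196847) (nat_lit 76) (nat_lit 378599510587) (nat_lit 76) (nat_lit 367955205690) (nat_lit 4) (nat_lit 4) (nat_lit 5) (nat_lit 5) (nat_lit 5) (nat_lit 4) (nat_lit 396) (nat_lit 348) (nat_lit 276)))) (XT.nd (nat_lit 156) (nat_lit 152) (nat_lit 0) (XT.nd (nat_lit 78) (nat_lit 0) (nat_lit 0) (XT.lf (nat_lit 0) (nat_lit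 829790046059) (nat_lit 76) (nat_lit 263071944504) (nat_lit 76) (nat_lit 252427580412) (nat_lit 4) (nat_lit 4) (nat_lit 5) (nat_lit 5) (nat_lit 5) (nat_lit 4) (nat_lit 397) (nat_lit 348) (nat_lit 275)) (XT.lf (nat_lit 0) (nat_lit 1274816990181) (nat_lit 76) (nat_lit 130217018275) (nat_lit 76) (nat_lit 119572602709) (nat_lit 4) (nat_lit 4) (nat_lit 5) (nat_lit 5) (nat_lit 5) (nat_lit 4) (nat_lit 398) (nat_lit 348) (nat_lit 274))) (XT.nd (nat_lit 78) (nat_lit 0) (nat_lit 0) (XT.lf (nat_lit 0) (nat_lit 33842804469) (nat_lit 152) (nat_lit 1671647050452) (nat_lit 0) (nat_lit 24586752012) (nat_lit 2) (nat_lit 5) (nat_lit 4) (nat_lit 4) (nat_lit 2) (nat_lit 4) (nat_lit 399) (nat_lit 348) (nat_lit 273)) (XT.lf (nat_lit 0) (nat_lit 217906913694) (nat_lit 152) (nat_lit 1535973518775) (nat_lit 0) (nat_lit 208650827392) (nat_lit 2) (nat_lit 5) (nat_lit 4) (nat_lit 4) (nat_lit 2) (nat_lit 4) (nat_lit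 400) (nat_lit 348) (nat_lit 272)))))) (XT.nd (nat_lit 468) (nat_lit 76) (nat_lit 0) (XT.nd (nat_lit 234) (nat_lit 0) (nat_lit 0) (XT.nd (nat_lit 78) (nat_lit 0) (nat_lit 0) (XT.lf (nat_lit 0) (nat_lit 429579406334) (nat_lit 152) (nat_lit 1379951598742) (nat_lit 0) (nat_lit 420323290602) (nat_lit 2) (nat_lit 5) (nat_lit 4) (nat_lit 4) (nat_lit 2) (nat_lit 4) (nat_lit 401) (nat_lit 348) (nat_lit 271)) (XT.nd (nat_lit 78) (nat_lit 0) (nat_lit 0) (XT.lf (nat_lit 0) (nat_lit 673001700722) (nat_lit 152) (nat_lit 1200528687570) (nat_lit 0) (nat_lit 663745559398) (nat_lit 2) (nat_lit 5) (nat_lit 4) (nat_lit 4) (nat_lit 2) (nat_lit 4) (nat_lit 402) (nat_lit 348) (nat_lit 270)) (XT.lf (nat_lit 0) (nat_lit 952936406967) (nat_lit 152) (nat_lit 994194336998) (nat_lit 0) (nat_lit 943680243389) (nat_lit 2) (nat_lit 5) (nat_lit 4) (nat_lit 4) (nat_lit 2) (nat_lit 4) (nat_lit 403) (nat_lit 348) (nat_lit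 269)))) (XT.nd (nat_lit 78) (nat_lit 0) (nat_lit 0) (XT.lf (nat_lit 0) (nat_lit 1274860508451) (nat_lit 152) (nat_lit 756911570600) (nat_lit 0) (nat_lit 1265604325522) (nat_lit 2) (nat_lit 5) (nat_lit 4) (nat_lit 4) (nat_lit 2) (nat_lit 4) (nat_lit 404) (nat_lit 348) (nat_lit 268)) (XT.nd (nat_lit 78) (nat_lit 0) (nat_lit 0) (XT.lf (nat_lit 0) (nat_lit 1645072520203) (nat_lit 152) (nat_lit 484037899470) (nat_lit 0) (nat_lit 1635816320448) (nat_lit 2) (nat_lit 5) (nat_lit 4) (nat_lit 4) (nat_lit 2) (nat_lit 4) (nat_lit 405) (nat_lit 348) (nat_lit 267)) (XT.lf (nat_lit 0) (nat_lit 2070815720714) (nat_lit 152) (nat_lit 170234490910) (nat_lit 0) (nat_lit 2061559506327) (nat_lit 2) (nat_lit 5) (nat_lit 4) (nat_lit 4) (nat_lit 2) (nat_lit 4) (nat_lit 406) (nat_lit 348) (nat_lit 266))))) (XT.nd (nat_lit 234) (nat_lit 0) (nat_lit 0) (XT.nd (nat_lit 78) (nat_lit 0) (nat_lit 0) (XT.lf (nat_lit 0)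 (nat_lit 209268846849) (nat_lit 76) (nat_lit 2359816398087) (nat_lit 76) (nat_lit 2350560170976) (nat_lit 1) (nat_lit 4) (nat_lit 2) (nat_lit 5) (nat_lit 2) (nat_lit 4) (nat_lit 407) (nat_lit 348) (nat_lit 265)) (XT.nd (nat_lit 78) (nat_lit 0) (nat_lit 0) (XT.lf (nat_lit 0) (nat_lit 664828630629) (nat_lit 76) (nat_lit 2486164679623) (nat_lit 76) (nat_lit 2476908441448) (nat_lit 1) (nat_lit 4) (nat_lit 2) (nat_lit 5) (nat_lit 2) (nat_lit 4) (nat_lit 408) (nat_lit 348) (nat_lit 264)) (XT.lf (nat_lit 0) (nat_lit 1188721434115) (nat_lit 76) (nat_lit 2631465708942) (nat_lit 76) (nat_lit 2622209461146) (nat_lit 1) (nat_lit 4) (nat_lit 2) (nat_lit 5) (nat_lit 2) (nat_lit 4) (nat_lit 409) (nat_lit 348) (nat_lit 263)))) (XT.nd (nat_lit 156) (nat_lit 0) (nat_lit 0) (XT.nd (nat_lit 78) (nat_lit 0) (nat_lit 0) (XT.lf (nat_lit 0) (nat_lit 1791197333895) (nat_lit 76) (nat_lit 2798562332270) (nat_lit 76)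 (nat_lit 2789306076109) (nat_lit 1) (nat_lit 4) (nat_lit 2) (nat_lit 5) (nat_lit 2) (nat_lit 4) (nat_lit 410) (nat_lit 348) (nat_lit 262)) (XT.lf (nat_lit 0) (nat_lit 2484043901923) (nat_lit 76) (nat_lit 2990723831369) (nat_lit 76) (nat_lit 2981467567933) (nat_lit 1) (nat_lit 4) (nat_lit 2) (nat_lit 5) (nat_lit 2) (nat_lit 4) (nat_lit 411) (nat_lit 348) (nat_lit 261))) (XT.nd (nat_lit 78) (nat_lit 0) (nat_lit 0) (XT.lf (nat_lit 0) (nat_lit 3280816831919) (nat_lit 76) (nat_lit 3211709887743) (nat_lit 76) (nat_lit 3202453617980) (nat_lit 1) (nat_lit 4) (nat_lit 2) (nat_lit 5) (nat_lit 2) (nat_lit 4) (nat_lit 412) (nat_lit 348) (nat_lit 260)) (XT.lf (nat_lit 0) (nat_lit 4197105159472) (nat_lit 76) (nat_lit 3465844141624) (nat_lit 76) (nat_lit 3456587866361) (nat_lit 1) (nat_lit 4) (nat_lit 2) (nat_lit 5) (nat_lit 2) (nat_lit 4) (nat_lit 413) (nat_lit 348) (nat_lit 259))))))) (XT.nd (nat_lit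 1014) (nat_lit 0) (nat_lit 0) (XT.nd (nat_lit 468) (nat_lit 0) (nat_lit 0) (XT.nd (nat_lit 234) (nat_lit 0) (nat_lit 0) (XT.nd (nat_lit 78) (nat_lit 0) (nat_lit 0) (XT.lf (nat_lit 0) (nat_lit 5250836264902) (nat_lit 76) (nat_lit 3758098784937) (nat_lit 76) (nat_lit 3748842504890) (nat_lit 1) (nat_lit 4) (nat_lit 2) (nat_lit 5) (nat_lit 2) (nat_lit 4) (nat_lit 414) (nat_lit 348) (nat_lit 258)) (XT.nd (nat_lit 78) (nat_lit 0) (nat_lit 0) (XT.lf (nat_lit 0) (nat_lit 6462626626361) (nat_lit 76) (nat_lit 4094191843311) (nat_lit 76) (nat_lit 4084935559105) (nat_lit 1) (nat_lit 4) (nat_lit 2) (nat_lit 5) (nat_lit 2) (nat_lit 4) (nat_lit 415) (nat_lit 348) (nat_lit 257)) (XT.lf (nat_lit 0) (nat_lit 7856185185701) (nat_lit 76) (nat_lit 4480699050498) (nat_lit 76) (nat_lit 4471442762675) (nat_lit 1) (nat_lit 4) (nat_lit 2) (nat_lit 5) (nat_lit 2) (nat_lit 4) (nat_lit 416) (nat_lit 348) (nat_lit 256))))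 (XT.nd (nat_lit 78) (nat_lit 0) (nat_lit 0) (XT.lf (nat_lit 0) (nat_lit 9458777219084) (nat_lit 76) (nat_lit 4925182504029) (nat_lit 76) (nat_lit 4915926213061) (nat_lit 1) (nat_lit 4) (nat_lit 2) (nat_lit 5) (nat_lit 2) (nat_lit 4) (nat_lit 417) (nat_lit 348) (nat_lit 255)) (XT.nd (nat_lit 78) (nat_lit 0) (nat_lit 0) (XT.lf (nat_lit 0) (nat_lit 11301757788034) (nat_lit 76) (nat_lit 5436338619300) (nat_lit 76) (nat_lit 5427082325597) (nat_lit 1) (nat_lit 4) (nat_lit 2) (nat_lit 5) (nat_lit 2) (nat_lit 4) (nat_lit 418) (nat_lit 348) (nat_lit 254)) (XT.lf (nat_lit 0) (nat_lit 13421185208029) (nat_lit 76) (nat_lit 6024168276826) (nat_lit 76) (nat_lit 6014911980745) (nat_lit 1) (nat_lit 4) (nat_lit 2) (nat_lit 5) (nat_lit 2) (nat_lit 4) (nat_lit 419) (nat_lit 348) (nat_lit 253))))) (XT.nd (nat_lit 234) (nat_lit 0) (nat_lit 0) (XT.nd (nat_lit 78) (nat_lit 0) (nat_lit 0) (XT.lf (nat_lit 0) (nat_lit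 15858526537286) (nat_lit 76) (nat_lit 6700172491646) (nat_lit 76) (nat_lit 6690916193498) (nat_lit 1) (nat_lit 4) (nat_lit 2) (nat_lit 5) (nat_lit 2) (nat_lit 4) (nat_lit 420) (nat_lit 348) (nat_lit 252)) (XT.nd (nat_lit 78) (nat_lit 0) (nat_lit 0) (XT.lf (nat_lit 0) (nat_lit 18661468888770) (nat_lit 76) (nat_lit 7477577433181) (nat_lit 76) (nat_lit 7468321133235) (nat_lit 1) (nat_lit 4) (nat_lit 2) (nat_lit 5) (nat_lit 2) (nat_lit 4) (nat_lit 421) (nat_lit 348) (nat_lit 251)) (XT.lf (nat_lit 0) (nat_lit 21884852438922) (nat_lit 76) (nat_lit 8371593198113) (nat_lit 76) (nat_lit 8362336896603) (nat_lit 1) (nat_lit 4) (nat_lit 2) (nat_lit 5) (nat_lit 2) (nat_lit 4) (nat_lit 422) (nat_lit 348) (nat_lit 250)))) (XT.nd (nat_lit 156) (nat_lit 0) (nat_lit 0) (XT.nd (nat_lit 78) (nat_lit 0) (nat_lit 0) (XT.lf (nat_lit 0) (nat_lit 25591743387637) (nat_lit 76) (nat_lit 9399711399234) (nat_lit 76)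 (nat_lit 9390455096364) (nat_lit 1) (nat_lit 4) (nat_lit 2) (nat_lit 5) (nat_lit 2) (nat_lit 4) (nat_lit 423) (nat_lit 348) (nat_lit 249)) (XT.lf (nat_lit 0) (nat_lit 29854667862172) (nat_lit 76) (nat_lit 10582047392653) (nat_lit 76) (nat_lit 10572791088601) (nat_lit 1) (nat_lit 4) (nat_lit 2) (nat_lit 5) (nat_lit 2) (nat_lit 4) (nat_lit 424) (nat_lit 348) (nat_lit 248))) (XT.nd (nat_lit 78) (nat_lit 0) (nat_lit 0) (XT.lf (nat_lit 0) (nat_lit 34757030906595) (nat_lit 76) (nat_lit 11941733839111) (nat_lit 76) (nat_lit 11932477534030) (nat_lit 1) (nat_lit 4) (nat_lit 2) (nat_lit 5) (nat_lit 2) (nat_lit 4) (nat_lit 425) (nat_lit 348) (nat_lit 247)) (XT.lf (nat_lit 0) (nat_lit 40394748319599) (nat_lit 76) (nat_lit 13505373299516) (nat_lit 76) (nat_lit 13496116993541) (nat_lit 1) (nat_lit 4) (nat_lit 2) (nat_lit 5) (nat_lit 2) (nat_lit 4) (nat_lit 426) (nat_lit 348) (nat_lit 246)))))) (XT.nd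 (nat_lit 546) (nat_lit 0) (nat_lit 0) (XT.nd (nat_lit 234) (nat_lit 0) (nat_lit 0) (XT.nd (nat_lit 78) (nat_lit 0) (nat_lit 0) (XT.lf (nat_lit 0) (nat_lit 46878123267963) (nat_lit 76) (nat_lit 15303558719833) (nat_lit 76) (nat_lit 15294302413081) (nat_lit 1) (nat_lit 4) (nat_lit 2) (nat_lit 5) (nat_lit 2) (nat_lit 4) (nat_lit 427) (nat_lit 348) (nat_lit 245)) (XT.nd (nat_lit 78) (nat_lit 0) (nat_lit 0) (XT.lf (nat_lit 0) (nat_lit 54334004391979) (nat_lit 76) (nat_lit 17371471988720) (nat_lit 76) (nat_lit 17362215681293) (nat_lit 1) (nat_lit 4) (nat_lit 2) (nat_lit 5) (nat_lit 2) (nat_lit 4) (nat_lit 428) (nat_lit 348) (nat_lit 244)) (XT.lf (nat_lit 0) (nat_lit 62908267626682) (nat_lit 76) (nat_lit 19749572278831) (nat_lit 76) (nat_lit 19740315970815) (nat_lit 1) (nat_lit 4) (nat_lit 2) (nat_lit 5) (nat_lit 2) (nat_lit 4) (nat_lit 429) (nat_lit 348) (nat_lit 243)))) (XT.nd (nat_lit 156) (nat_lit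 0) (nat_lit 0) (XT.nd (nat_lit 78) (nat_lit 0) (nat_lit 0) (XT.lf (nat_lit 0) (nat_lit 72768670296231) (nat_lit 76) (nat_lit 22484387639318) (nat_lit 76) (nat_lit 22475131330791) (nat_lit 1) (nat_lit 4) (nat_lit 2) (nat_lit 5) (nat_lit 2) (nat_lit 4) (nat_lit 430) (nat_lit 348) (nat_lit 242)) (XT.lf (nat_lit 0) (nat_lit 84108133322420) (nat_lit 76) (nat_lit 25629425327235) (nat_lit 76) (nat_lit 25620169018263) (nat_lit 1) (nat_lit 4) (nat_lit 2) (nat_lit 5) (nat_lit 2) (nat_lit 4) (nat_lit 431) (nat_lit 348) (nat_lit 241))) (XT.nd (nat_lit 78) (nat_lit 0) (nat_lit 0) (XT.lf (nat_lit 0) (nat_lit 97148515764458) (nat_lit 76) (nat_lit 29246218688650) (nat_lit 76) (nat_lit 29236962379292) (nat_lit 1) (nat_lit 4) (nat_lit 2) (nat_lit 5) (nat_lit 2) (nat_lit 4) (nat_lit 432) (nat_lit 348) (nat_lit 240)) (XT.lf (nat_lit 0) (nat_lit 112144955539689) (nat_lit 76) (nat_lit 33405531071938) (nat_lit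 76) (nat_lit 33396274762244) (nat_lit 1) (nat_lit 4) (nat_lit 2) (nat_lit 5) (nat_lit 2) (nat_lit 4) (nat_lit 433) (nat_lit 348) (nat_lit 239))))) (XT.nd (nat_lit 234) (nat_lit 0) (nat_lit 0) (XT.nd (nat_lit 78) (nat_lit 0) (nat_lit 0) (XT.lf (nat_lit 0) (nat_lit 129390861252410) (nat_lit 76) (nat_lit 38188740328077) (nat_lit 76) (nat_lit 38179484018091) (nat_lit 1) (nat_lit 4) (nat_lit 2) (nat_lit 5) (nat_lit 2) (nat_lit 4) (nat_lit 434) (nat_lit 348) (nat_lit 238)) (XT.nd (nat_lit 78) (nat_lit 0) (nat_lit 0) (XT.lf (nat_lit 0) (nat_lit 149223652797002) (nat_lit 76) (nat_lit 43689430985992) (nat_lit 76) (nat_lit 43680174675751) (nat_lit 1) (nat_lit 4) (nat_lit 2) (nat_lit 5) (nat_lit 2) (nat_lit 4) (nat_lit 435) (nat_lit 348) (nat_lit 237)) (XT.lf (nat_lit 0) (nat_lit 172031363051510) (nat_lit 76) (nat_lit 50015225254206) (nat_lit 76) (nat_lit 50005968943744) (nat_lit 1) (nat_lit 4) (nat_lit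 2) (nat_lit 5) (nat_lit 2) (nat_lit 4) (nat_lit 436) (nat_lit 348) (nat_lit 236)))) (XT.nd (nat_lit 156) (nat_lit 0) (nat_lit 0) (XT.nd (nat_lit 78) (nat_lit 0) (nat_lit 0) (XT.lf (nat_lit 0) (nat_lit 198260229825262) (nat_lit 76) (nat_lit 57289888672749) (nat_lit 76) (nat_lit 57280632362096) (nat_lit 1) (nat_lit 4) (nat_lit 2) (nat_lit 5) (nat_lit 2) (nat_lit 4) (nat_lit 437) (nat_lit 348) (nat_lit 235)) (XT.lf (nat_lit 0) (nat_lit 228423426598613) (nat_lit 76) (nat_lit 65655751612855) (nat_lit 76) (nat_lit 65646495302035) (nat_lit 1) (nat_lit 4) (nat_lit 2) (nat_lit 5) (nat_lit 2) (nat_lit 4) (nat_lit 438) (nat_lit 348) (nat_lit 234))) (XT.nd (nat_lit 78) (nat_lit 0) (nat_lit 0) (XT.lf (nat_lit 0) (nat_lit 263111102873652) (nat_lit 76) (nat_lit 75276494001613) (nat_lit 76) (nat_lit 75267237690647) (nat_lit 1) (nat_lit 4) (nat_lit 2) (nat_lit 5) (nat_lit 2) (nat_lit 4) (nat_lit 439) (nat_lit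 348) (nat_lit 233)) (XT.lf (nat_lit 0) (nat_lit 303001930577498) (nat_lit 76) (nat_lit 86340347755323) (nat_lit 76) (nat_lit 86331091444232) (nat_lit 1) (nat_lit 4) (nat_lit 2) (nat_lit 5) (nat_lit 2) (nat_lit 4) (nat_lit 440) (nat_lit 348) (nat_lit 232))))))))
noncomputable def xc61 : XT := (XT.nd (nat_lit 47892) (nat_lit 0) (nat_lit 76) (XT.nd (nat_lit 46800) (nat_lit 0) (nat_lit 1444) (XT.nd (nat_lit 46254) (nat_lit 0) (nat_lit 2432) (XT.nd (nat_lit 46020) (nat_lit 0) (nat_lit 3116) (XT.nd (nat_lit 78) (nat_lit 0) (nat_lit 0) (XT.lf (nat_lit 0) (nat_lit 348876382426097) (nat_lit 76) (nat_lit 99063779577864) (nat_lit 76) (nat_lit 99054523266662) (nat_lit 1) (nat_lit 4) (nat_lit 2) (nat_lit 5) (nat_lit 2) (nat_lit 4) (nat_lit 441) (nat_lit 348) (nat_lit 231)) (XT.nd (nat_lit 45864) (nat_lit 0) (nat_lit 3116) (XT.lf (nat_lit 0) (nat_lit 401632002042572) (nat_lit 76) (nat_lit 113695726178807)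 (nat_lit 76) (nat_lit 113686469867508) (nat_lit 1) (nat_lit 4) (nat_lit 2) (nat_lit 5) (nat_lit 2) (nat_lit 4) (nat_lit 442) (nat_lit 348) (nat_lit 230)) (XT.lf (nat_lit 0) (nat_lit 1393615335) (nat_lit 380) (nat_lit 2920476438) (nat_lit 380) (nat_lit 2920476438) (nat_lit 42) (nat_lit 3) (nat_lit 47) (nat_lit 3) (nat_lit 47) (nat_lit 5) (nat_lit 349) (nat_lit 349) (nat_lit 322)))) (XT.nd (nat_lit 78) (nat_lit 0) (nat_lit 76) (XT.lf (nat_lit 76) (nat_lit 1496744230) (nat_lit 0) (nat_lit 1860221656) (nat_lit 380) (nat_lit 12143181512) (nat_lit 43) (nat_lit 5) (nat_lit 42) (nat_lit 3) (nat_lit 47) (nat_lit 5) (nat_lit 350) (nat_lit 349) (nat_lit 321)) (XT.nd (nat_lit 78) (nat_lit 0) (nat_lit 0) (XT.lf (nat_lit 0) (nat_lit 4523570793) (nat_lit 304) (nat_lit 6350914759) (nat_lit 380) (nat_lit 5734625576) (nat_lit 43) (nat_lit 5) (nat_lit 47) (nat_lit 5) (nat_lit 48) (nat_lit 5) (nat_lit 351)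 (nat_lit 349) (nat_lit 320)) (XT.lf (nat_lit 76) (nat_lit 2550877104) (nat_lit 0) (nat_lit 3461794752) (nat_lit 380) (nat_lit 11849632638) (nat_lit 44) (nat_lit 5) (nat_lit 43) (nat_lit 5) (nat_lit 48) (nat_lit 5) (nat_lit 352) (nat_lit 349) (nat_lit 319))))) (XT.nd (nat_lit 234) (nat_lit 532) (nat_lit 0) (XT.nd (nat_lit 78) (nat_lit 304) (nat_lit 0) (XT.lf (nat_lit 0) (nat_lit 8240765489) (nat_lit 304) (nat_lit 6019430680) (nat_lit 76) (nat_lit 4965946052) (nat_lit 44) (nat_lit 5) (nat_lit 48) (nat_lit 5) (nat_lit 45) (nat_lit 5) (nat_lit 353) (nat_lit 349) (nat_lit 318)) (XT.nd (nat_lit 78) (nat_lit 0) (nat_lit 0) (XT.lf (nat_lit 0) (nat_lit 4901351756) (nat_lit 304) (nat_lit 6233175024) (nat_lit 380) (nat_lit 9610319016) (nat_lit 40) (nat_lit 5) (nat_lit 44) (nat_lit 5) (nat_lit 45) (nat_lit 5) (nat_lit 354) (nat_lit 349) (nat_lit 317)) (XT.lf (nat_lit 0) (nat_lit 14882998882) (nat_lit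 380) (nat_lit 4486272245) (nat_lit 76) (nat_lit 3058993947) (nat_lit 40) (nat_lit 5) (nat_lit 45) (nat_lit 5) (nat_lit 41) (nat_lit 5) (nat_lit 355) (nat_lit 349) (nat_lit 316)))) (XT.nd (nat_lit 156) (nat_lit 380) (nat_lit 0) (XT.nd (nat_lit 78) (nat_lit 0) (nat_lit 0) (XT.lf (nat_lit 0) (nat_lit 9048731639) (nat_lit 152) (nat_lit 10787711923) (nat_lit 228) (nat_lit 4431354641) (nat_lit 38) (nat_lit 5) (nat_lit 40) (nat_lit 5) (nat_lit 41) (nat_lit 5) (nat_lit 356) (nat_lit 349) (nat_lit 315)) (XT.lf (nat_lit 0) (nat_lit 25085189036) (nat_lit 152) (nat_lit 655811800) (nat_lit 228) (nat_lit 611051496) (nat_lit 38) (nat_lit 5) (nat_lit 40) (nat_lit 5) (nat_lit 41) (nat_lit 5) (nat_lit 357) (nat_lit 349) (nat_lit 314))) (XT.nd (nat_lit 78) (nat_lit 152) (nat_lit 0) (XT.lf (nat_lit 0) (nat_lit 4578775057) (nat_lit 228) (nat_lit 13107252561) (nat_lit 76) (nat_lit 10869447899) (nat_lit 35) (nat_lit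 5) (nat_lit 38) (nat_lit 5) (nat_lit 36) (nat_lit 5) (nat_lit 358) (nat_lit 349) (nat_lit 313)) (XT.lf (nat_lit 0) (nat_lit 3992807139) (nat_lit 152) (nat_lit 6735182780) (nat_lit 228) (nat_lit 20320540013) (nat_lit 33) (nat_lit 5) (nat_lit 35) (nat_lit 5) (nat_lit 36) (nat_lit 5) (nat_lit 359) (nat_lit 349) (nat_lit 312)))))) (XT.nd (nat_lit 546) (nat_lit 456) (nat_lit 0) (XT.nd (nat_lit 234) (nat_lit 380) (nat_lit 0) (XT.nd (nat_lit 78) (nat_lit 152) (nat_lit 0) (XT.lf (nat_lit 0) (nat_lit 18738691412) (nat_lit 228) (nat_lit 8990888771) (nat_lit 76) (nat_lit 6045099759) (nat_lit 33) (nat_lit 5) (nat_lit 36) (nat_lit 5) (nat_lit 34) (nat_lit 4) (nat_lit 360) (nat_lit 349) (nat_lit 311)) (XT.nd (nat_lit 78) (nat_lit 76) (nat_lit 0) (XT.lf (nat_lit 0) (nat_lit 12550863538) (nat_lit 76) (nat_lit 16222081239) (nat_lit 152) (nat_lit 8013518372) (nat_lit 32) (nat_lit 5) (nat_lit 33) (nat_lit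 5) (nat_lit 34) (nat_lit 4) (nat_lit 361) (nat_lit 349) (nat_lit 310)) (XT.lf (nat_lit 0) (nat_lit 531075067) (nat_lit 152) (nat_lit 1900022283) (nat_lit 76) (nat_lit 37747386259) (nat_lit 31) (nat_lit 5) (nat_lit 33) (nat_lit 5) (nat_lit 32) (nat_lit 5) (nat_lit 362) (nat_lit 349) (nat_lit 309)))) (XT.nd (nat_lit 156) (nat_lit 152) (nat_lit 0) (XT.nd (nat_lit 78) (nat_lit 76) (nat_lit 0) (XT.lf (nat_lit 0) (nat_lit 11208269832) (nat_lit 228) (nat_lit 18826407281) (nat_lit 76) (nat_lit 13736690784) (nat_lit 29) (nat_lit 5) (nat_lit 32) (nat_lit 5) (nat_lit 30) (nat_lit 4) (nat_lit 363) (nat_lit 349) (nat_lit 308)) (XT.lf (nat_lit 0) (nat_lit 8776177124) (nat_lit 76) (nat_lit 15278985267) (nat_lit 152) (nat_lit 23762806188) (nat_lit 28) (nat_lit 5) (nat_lit 29) (nat_lit 5) (nat_lit 30) (nat_lit 4) (nat_lit 364) (nat_lit 349) (nat_lit 307))) (XT.nd (nat_lit 78) (nat_lit 152) (nat_lit 0) (XT.lf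 (nat_lit 0) (nat_lit 39915396224) (nat_lit 152) (nat_lit 9832846660) (nat_lit 0) (nat_lit 2560371711) (nat_lit 28) (nat_lit 5) (nat_lit 30) (nat_lit 4) (nat_lit 28) (nat_lit 4) (nat_lit 365) (nat_lit 349) (nat_lit 306)) (XT.lf (nat_lit 0) (nat_lit 2465524456) (nat_lit 152) (nat_lit 32066136476) (nat_lit 76) (nat_lit 22660300352) (nat_lit 26) (nat_lit 5) (nat_lit 28) (nat_lit 5) (nat_lit 27) (nat_lit 4) (nat_lit 366) (nat_lit 349) (nat_lit 305))))) (XT.nd (nat_lit 234) (nat_lit 304) (nat_lit 0) (XT.nd (nat_lit 78) (nat_lit 76) (nat_lit 0) (XT.lf (nat_lit 0) (nat_lit 3363831880) (nat_lit 76) (nat_lit 15585596784) (nat_lit 152) (nat_lit 43670082286) (nat_lit 25) (nat_lit 5) (nat_lit 26) (nat_lit 5) (nat_lit 27) (nat_lit 4) (nat_lit 367) (nat_lit 349) (nat_lit 304)) (XT.nd (nat_lit 78) (nat_lit 76) (nat_lit 0) (XT.lf (nat_lit 0) (nat_lit 39906433649) (nat_lit 152) (nat_lit 21258254100) (nat_lit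 0) (nat_lit 7396428809) (nat_lit 25) (nat_lit 5) (nat_lit 27) (nat_lit 4) (nat_lit 25) (nat_lit 4) (nat_lit 368) (nat_lit 349) (nat_lit 303)) (XT.lf (nat_lit 0) (nat_lit 23794117000) (nat_lit 76) (nat_lit 41929598805) (nat_lit 76) (nat_lit 9412738904) (nat_lit 24) (nat_lit 4) (nat_lit 25) (nat_lit 5) (nat_lit 25) (nat_lit 4) (nat_lit 369) (nat_lit 349) (nat_lit 302)))) (XT.nd (nat_lit 156) (nat_lit 152) (nat_lit 0) (XT.nd (nat_lit 78) (nat_lit 76) (nat_lit 0) (XT.lf (nat_lit 0) (nat_lit 12737000233) (nat_lit 152) (nat_lit 5138270319) (nat_lit 76) (nat_lit 64570816546) (nat_lit 23) (nat_lit 5) (nat_lit 25) (nat_lit 5) (nat_lit 24) (nat_lit 4) (nat_lit 370) (nat_lit 349) (nat_lit 301)) (XT.lf (nat_lit 0) (nat_lit 39925856950) (nat_lit 152) (nat_lit 38816386825) (nat_lit 0) (nat_lit 11640635878) (nat_lit 22) (nat_lit 5) (nat_lit 24) (nat_lit 4) (nat_lit 22) (nat_lit 4) (nat_lit 371) (nat_lit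 349) (nat_lit 300))) (XT.nd (nat_lit 78) (nat_lit 76) (nat_lit 0) (XT.lf (nat_lit 0) (nat_lit 18663820234) (nat_lit 76) (nat_lit 54425532560) (nat_lit 76) (nat_lit 26136392084) (nat_lit 21) (nat_lit 4) (nat_lit 22) (nat_lit 5) (nat_lit 22) (nat_lit 4) (nat_lit 372) (nat_lit 349) (nat_lit 299)) (XT.lf (nat_lit 0) (nat_lit 3785814258) (nat_lit 152) (nat_lit 20153047997) (nat_lit 76) (nat_lit 85127305754) (nat_lit 20) (nat_lit 5) (nat_lit 22) (nat_lit 5) (nat_lit 21) (nat_lit 4) (nat_lit 373) (nat_lit 349) (nat_lit 298))))))) (XT.nd (nat_lit 1014) (nat_lit 532) (nat_lit 0) (XT.nd (nat_lit 468) (nat_lit 456) (nat_lit 0) (XT.nd (nat_lit 234) (nat_lit 228) (nat_lit 0) (XT.nd (nat_lit 78) (nat_lit 76) (nat_lit 0) (XT.lf (nat_lit 0) (nat_lit 38320441911) (nat_lit 152) (nat_lit 67739881952) (nat_lit 0) (nat_lit 13715648620) (nat_lit 19) (nat_lit 5) (nat_lit 21) (nat_lit 4) (nat_lit 19) (nat_lit 4)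 (nat_lit 374) (nat_lit 349) (nat_lit 297)) (XT.nd (nat_lit 78) (nat_lit 0) (nat_lit 0) (XT.lf (nat_lit 0) (nat_lit 4586466637) (nat_lit 76) (nat_lit 75874481392) (nat_lit 76) (nat_lit 51267447170) (nat_lit 18) (nat_lit 4) (nat_lit 19) (nat_lit 5) (nat_lit 19) (nat_lit 4) (nat_lit 375) (nat_lit 349) (nat_lit 296)) (XT.lf (nat_lit 0) (nat_lit 95359495410) (nat_lit 76) (nat_lit 37096569376) (nat_lit 76) (nat_lit 12487586517) (nat_lit 18) (nat_lit 4) (nat_lit 19) (nat_lit 5) (nat_lit 19) (nat_lit 4) (nat_lit 376) (nat_lit 349) (nat_lit 295)))) (XT.nd (nat_lit 78) (nat_lit 76) (nat_lit 0) (XT.lf (nat_lit 0) (nat_lit 31439485751) (nat_lit 152) (nat_lit 118135054044) (nat_lit 0) (nat_lit 10038896773) (nat_lit 16) (nat_lit 5) (nat_lit 18) (nat_lit 4) (nat_lit 16) (nat_lit 4) (nat_lit 377) (nat_lit 349) (nat_lit 294)) (XT.nd (nat_lit 78) (nat_lit 76) (nat_lit 0) (XT.lf (nat_lit 0) (nat_lit 85152242501)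 (nat_lit 152) (nat_lit 26820610740) (nat_lit 0) (nat_lit 63750372264) (nat_lit 16) (nat_lit 5) (nat_lit 18) (nat_lit 4) (nat_lit 16) (nat_lit 4) (nat_lit 378) (nat_lit 349) (nat_lit 293)) (XT.lf (nat_lit 0) (nat_lit 85819012655) (nat_lit 76) (nat_lit 64650646339) (nat_lit 76) (nat_lit 43247661962) (nat_lit 15) (nat_lit 4) (nat_lit 16) (nat_lit 5) (nat_lit 16) (nat_lit 4) (nat_lit 379) (nat_lit 349) (nat_lit 292))))) (XT.nd (nat_lit 234) (nat_lit 228) (nat_lit 0) (XT.nd (nat_lit 78) (nat_lit 76) (nat_lit 0) (XT.lf (nat_lit 0) (nat_lit 3981407545) (nat_lit 76) (nat_lit 7825736984) (nat_lit 152) (nat_lit 202289813367) (nat_lit 13) (nat_lit 5) (nat_lit 14) (nat_lit 5) (nat_lit 15) (nat_lit 4) (nat_lit 380) (nat_lit 349) (nat_lit 291)) (XT.nd (nat_lit 78) (nat_lit 76) (nat_lit 0) (XT.lf (nat_lit 0) (nat_lit 78977255945) (nat_lit 152) (nat_lit 96640259349) (nat_lit 0) (nat_lit 60364390168) (nat_lit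 13) (nat_lit 5) (nat_lit 15) (nat_lit 4) (nat_lit 13) (nat_lit 4) (nat_lit 381) (nat_lit 349) (nat_lit 290)) (XT.lf (nat_lit 0) (nat_lit 36744267242) (nat_lit 76) (nat_lit 121367731766) (nat_lit 76) (nat_lit 102754228977) (nat_lit 12) (nat_lit 4) (nat_lit 13) (nat_lit 5) (nat_lit 13) (nat_lit 4) (nat_lit 382) (nat_lit 349) (nat_lit 289)))) (XT.nd (nat_lit 156) (nat_lit 76) (nat_lit 0) (XT.nd (nat_lit 78) (nat_lit 152) (nat_lit 0) (XT.lf (nat_lit 0) (nat_lit 200987370777) (nat_lit 76) (nat_lit 53176428971) (nat_lit 76) (nat_lit 34562372258) (nat_lit 12) (nat_lit 4) (nat_lit 13) (nat_lit 5) (nat_lit 13) (nat_lit 4) (nat_lit 383) (nat_lit 349) (nat_lit 288)) (XT.lf (nat_lit 0) (nat_lit 44284524251) (nat_lit 152) (nat_lit 247460578647) (nat_lit 0) (nat_lit 28097969133) (nat_lit 10) (nat_lit 5) (nat_lit 12) (nat_lit 4) (nat_lit 10) (nat_lit 4) (nat_lit 384) (nat_lit 349) (nat_lit 287))) (XT.nd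 (nat_lit 78) (nat_lit 76) (nat_lit 0) (XT.lf (nat_lit 0) (nat_lit 138752517368) (nat_lit 152) (nat_lit 92962628994) (nat_lit 0) (nat_lit 122565598036) (nat_lit 10) (nat_lit 5) (nat_lit 12) (nat_lit 4) (nat_lit 10) (nat_lit 4) (nat_lit 385) (nat_lit 349) (nat_lit 286)) (XT.lf (nat_lit 0) (nat_lit 92979647502) (nat_lit 76) (nat_lit 158257356038) (nat_lit 76) (nat_lit 142070119998) (nat_lit 9) (nat_lit 4) (nat_lit 10) (nat_lit 5) (nat_lit 10) (nat_lit 4) (nat_lit 386) (nat_lit 349) (nat_lit 285)))))) (XT.nd (nat_lit 546) (nat_lit 228) (nat_lit 0) (XT.nd (nat_lit 234) (nat_lit 152) (nat_lit 0) (XT.nd (nat_lit 78) (nat_lit 152) (nat_lit 0) (XT.lf (nat_lit 0) (nat_lit 317253306728) (nat_lit 76) (nat_lit 68196647754) (nat_lit 76) (nat_lit 52009136316) (nat_lit 9) (nat_lit 4) (nat_lit 10) (nat_lit 5) (nat_lit 10) (nat_lit 4) (nat_lit 387) (nat_lit 349) (nat_lit 284)) (XT.nd (nat_lit 78) (nat_lit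 0) (nat_lit 0) (XT.lf (nat_lit 0) (nat_lit 52571344230) (nat_lit 152) (nat_lit 396007115381) (nat_lit 0) (nat_lit 38495039087) (nat_lit 7) (nat_lit 5) (nat_lit 9) (nat_lit 4) (nat_lit 7) (nat_lit 4) (nat_lit 388) (nat_lit 349) (nat_lit 283)) (XT.lf (nat_lit 0) (nat_lit 177341018843) (nat_lit 152) (nat_lit 201678992470) (nat_lit 0) (nat_lit 163264532621) (nat_lit 7) (nat_lit 5) (nat_lit 9) (nat_lit 4) (nat_lit 7) (nat_lit 4) (nat_lit 389) (nat_lit 349) (nat_lit 282)))) (XT.nd (nat_lit 156) (nat_lit 76) (nat_lit 0) (XT.nd (nat_lit 78) (nat_lit 0) (nat_lit 0) (XT.lf (nat_lit 0) (nat_lit 23921945354) (nat_lit 76) (nat_lit 297891894974) (nat_lit 76) (nat_lit 283815251292) (nat_lit 6) (nat_lit 4) (nat_lit 7) (nat_lit 5) (nat_lit 7) (nat_lit 4) (nat_lit 390) (nat_lit 349) (nat_lit 281)) (XT.lf (nat_lit 0) (nat_lit 306023169214) (nat_lit 76) (nat_lit 192473997783) (nat_lit 76) (nat_lit 178397217180)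 (nat_lit 6) (nat_lit 4) (nat_lit 7) (nat_lit 5) (nat_lit 7) (nat_lit 4) (nat_lit 391) (nat_lit 349) (nat_lit 280))) (XT.nd (nat_lit 78) (nat_lit 76) (nat_lit 0) (XT.lf (nat_lit 0) (nat_lit 630434512979) (nat_lit 76) (nat_lit 71246106637) (nat_lit 76) (nat_lit 57169206972) (nat_lit 6) (nat_lit 4) (nat_lit 7) (nat_lit 5) (nat_lit 7) (nat_lit 4) (nat_lit 392) (nat_lit 349) (nat_lit 279)) (XT.lf (nat_lit 0) (nat_lit 84903620095) (nat_lit 76) (nat_lit 693524022959) (nat_lit 0) (nat_lit 72662747749) (nat_lit 5) (nat_lit 5) (nat_lit 6) (nat_lit 4) (nat_lit 5) (nat_lit 4) (nat_lit 393) (nat_lit 349) (nat_lit 278))))) (XT.nd (nat_lit 234) (nat_lit 152) (nat_lit 0) (XT.nd (nat_lit 78) (nat_lit 76) (nat_lit 0) (XT.lf (nat_lit 0) (nat_lit 252857113074) (nat_lit 76) (nat_lit 461721995705) (nat_lit 0) (nat_lit 240616162442) (nat_lit 5) (nat_lit 5) (nat_lit 6) (nat_lit 4) (nat_lit 5) (nat_lit 4) (nat_lit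 394) (nat_lit 349) (nat_lit 277)) (XT.nd (nat_lit 78) (nat_lit 76) (nat_lit 0) (XT.lf (nat_lit 0) (nat_lit 446001752426) (nat_lit 76) (nat_lit 195153679200) (nat_lit 0) (nat_lit 433760733720) (nat_lit 5) (nat_lit 5) (nat_lit 6) (nat_lit 4) (nat_lit 5) (nat_lit 4) (nat_lit 395) (nat_lit 349) (nat_lit 276)) (XT.lf (nat_lit 0) (nat_lit 122282859358) (nat_lit 76) (nat_lit 550897068086) (nat_lit 76) (nat_lit 538655990186) (nat_lit 4) (nat_lit 4) (nat_lit 5) (nat_lit 5) (nat_lit 5) (nat_lit 4) (nat_lit 396) (nat_lit 349) (nat_lit 275)))) (XT.nd (nat_lit 156) (nat_lit 152) (nat_lit 0) (XT.nd (nat_lit 78) (nat_lit 0) (nat_lit 0) (XT.lf (nat_lit 0) (nat_lit 509264158583) (nat_lit 76) (nat_lit 435370327476) (nat_lit 76) (nat_lit 423129198102) (nat_lit 4) (nat_lit 4) (nat_lit 5) (nat_lit 5) (nat_lit 5) (nat_lit 4) (nat_lit 397) (nat_lit 349) (nat_lit 274)) (XT.lf (nat_lit 0) (nat_lit 954289754890)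 (nat_lit 76) (nat_lit 302516119050) (nat_lit 76) (nat_lit 290274944916) (nat_lit 4) (nat_lit 4) (nat_lit 5) (nat_lit 5) (nat_lit 5) (nat_lit 4) (nat_lit 398) (nat_lit 349) (nat_lit 273))) (XT.nd (nat_lit 78) (nat_lit 152) (nat_lit 0) (XT.lf (nat_lit 0) (nat_lit 1466066670814) (nat_lit 76) (nat_lit 149735121338) (nat_lit 76) (nat_lit 137493908283) (nat_lit 4) (nat_lit 4) (nat_lit 5) (nat_lit 5) (nat_lit 5) (nat_lit 4) (nat_lit 399) (nat_lit 349) (nat_lit 272)) (XT.lf (nat_lit 0) (nat_lit 38932501066) (nat_lit 152) (nat_lit 1922365666942) (nat_lit 0) (nat_lit 28287938544) (nat_lit 2) (nat_lit 5) (nat_lit 4) (nat_lit 4) (nat_lit 2) (nat_lit 4) (nat_lit 400) (nat_lit 349) (nat_lit 271))))))))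
noncomputable def xc62 : XT := (XT.nd (nat_lit 2028) (nat_lit 0) (nat_lit 0) (XT.nd (nat_lit 1014) (nat_lit 0) (nat_lit 0) (XT.nd (nat_lit 468) (nat_lit 76) (nat_lit 0) (XT.nd (nat_lit 234) (nat_lit 0) (nat_lit 0) (XT.nd (nat_lit 78) (nat_lit 0) (nat_lit 0) (XT.lf (nat_lit 0) (nat_lit 250604495033) (nat_lit 152) (nat_lit 1766344815219) (nat_lit 0) (nat_lit 239959906919) (nat_lit 2) (nat_lit 5) (nat_lit 4) (nat_lit 4) (nat_lit 2) (nat_lit 4) (nat_lit 401) (nat_lit 349) (nat_lit 270)) (XT.nd (nat_lit 78) (nat_lit 0) (nat_lit 0) (XT.lf (nat_lit 0) (nat_lit 494026355792) (nat_lit 152) (nat_lit 1586922833013) (nat_lit 0) (nat_lit 483381745425) (nat_lit 2) (nat_lit 5) (nat_lit 4) (nat_lit 4) (nat_lit 2) (nat_lit 4) (nat_lit 402) (nat_lit 349) (nat_lit 269)) (XT.lf (nat_lit 0) (nat_lit 773960684968) (nat_lit 152) (nat_lit 1380589290236) (nat_lit 0) (nat_lit 763316055250) (nat_lit 2) (nat_lit 5)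 (nat_lit 4) (nat_lit 4) (nat_lit 2) (nat_lit 4) (nat_lit 403) (nat_lit 349) (nat_lit 268)))) (XT.nd (nat_lit 78) (nat_lit 0) (nat_lit 0) (XT.lf (nat_lit 0) (nat_lit 1095884458566) (nat_lit 152) (nat_lit 1143307226269) (nat_lit 0) (nat_lit 1085239812021) (nat_lit 2) (nat_lit 5) (nat_lit 4) (nat_lit 4) (nat_lit 2) (nat_lit 4) (nat_lit 404) (nat_lit 349) (nat_lit 267)) (XT.nd (nat_lit 78) (nat_lit 0) (nat_lit 0) (XT.lf (nat_lit 0) (nat_lit 1466096185201) (nat_lit 152) (nat_lit 870434165948) (nat_lit 0) (nat_lit 1455451524023) (nat_lit 2) (nat_lit 5) (nat_lit 4) (nat_lit 4) (nat_lit 2) (nat_lit 4) (nat_lit 405) (nat_lit 349) (nat_lit 266)) (XT.lf (nat_lit 0) (nat_lit 1891839137783) (nat_lit 152) (nat_lit 556631288527) (nat_lit 0) (nat_lit 1881194463882) (nat_lit 2) (nat_lit 5) (nat_lit 4) (nat_lit 4) (nat_lit 2) (nat_lit 4) (nat_lit 406) (nat_lit 349) (nat_lit 265))))) (XT.nd (nat_lit 234) (nat_lit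 0) (nat_lit 0) (XT.nd (nat_lit 78) (nat_lit 76) (nat_lit 0) (XT.lf (nat_lit 0) (nat_lit 2381443069734) (nat_lit 152) (nat_lit 195758972492) (nat_lit 0) (nat_lit 2370798384769) (nat_lit 2) (nat_lit 5) (nat_lit 4) (nat_lit 4) (nat_lit 2) (nat_lit 4) (nat_lit 407) (nat_lit 349) (nat_lit 264)) (XT.nd (nat_lit 78) (nat_lit 0) (nat_lit 0) (XT.lf (nat_lit 0) (nat_lit 240669379928) (nat_lit 76) (nat_lit 2713783414283) (nat_lit 76) (nat_lit 2703138719697) (nat_lit 1) (nat_lit 4) (nat_lit 2) (nat_lit 5) (nat_lit 2) (nat_lit 4) (nat_lit 408) (nat_lit 349) (nat_lit 263)) (XT.lf (nat_lit 0) (nat_lit 764561800052) (nat_lit 76) (nat_lit 2859084648073) (nat_lit 76) (nat_lit 2848439945121) (nat_lit 1) (nat_lit 4) (nat_lit 2) (nat_lit 5) (nat_lit 2) (nat_lit 4) (nat_lit 409) (nat_lit 349) (nat_lit 262)))) (XT.nd (nat_lit 156) (nat_lit 0) (nat_lit 0) (XT.nd (nat_lit 78) (nat_lit 0) (nat_lit 0) (XT.lf (nat_lit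 0) (nat_lit 1367037366474) (nat_lit 76) (nat_lit 3026181449202) (nat_lit 76) (nat_lit 3015536738976) (nat_lit 1) (nat_lit 4) (nat_lit 2) (nat_lit 5) (nat_lit 2) (nat_lit 4) (nat_lit 410) (nat_lit 349) (nat_lit 261)) (XT.lf (nat_lit 0) (nat_lit 2059883644624) (nat_lit 76) (nat_lit 3218343102910) (nat_lit 76) (nat_lit 3207698386358) (nat_lit 1) (nat_lit 4) (nat_lit 2) (nat_lit 5) (nat_lit 2) (nat_lit 4) (nat_lit 411) (nat_lit 349) (nat_lit 260))) (XT.nd (nat_lit 78) (nat_lit 0) (nat_lit 0) (XT.lf (nat_lit 0) (nat_lit 2856656322554) (nat_lit 76) (nat_lit 3439329293726) (nat_lit 76) (nat_lit 3428684571673) (nat_lit 1) (nat_lit 4) (nat_lit 2) (nat_lit 5) (nat_lit 2) (nat_lit 4) (nat_lit 412) (nat_lit 349) (nat_lit 259)) (XT.lf (nat_lit 0) (nat_lit 3772944430919) (nat_lit 76) (nat_lit 3693463664514) (nat_lit 76) (nat_lit 3682818937678) (nat_lit 1) (nat_lit 4) (nat_lit 2) (nat_lit 5) (nat_lit 2)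 (nat_lit 4) (nat_lit 413) (nat_lit 349) (nat_lit 258)))))) (XT.nd (nat_lit 468) (nat_lit 0) (nat_lit 0) (XT.nd (nat_lit 234) (nat_lit 0) (nat_lit 0) (XT.nd (nat_lit 78) (nat_lit 0) (nat_lit 0) (XT.lf (nat_lit 0) (nat_lit 4826675345751) (nat_lit 76) (nat_lit 3985718409485) (nat_lit 76) (nat_lit 3975073678489) (nat_lit 1) (nat_lit 4) (nat_lit 2) (nat_lit 5) (nat_lit 2) (nat_lit 4) (nat_lit 414) (nat_lit 349) (nat_lit 257)) (XT.nd (nat_lit 78) (nat_lit 0) (nat_lit 0) (XT.lf (nat_lit 0) (nat_lit 6038465541471) (nat_lit 76) (nat_lit 4321811556258) (nat_lit 76) (nat_lit 4311166821645) (nat_lit 1) (nat_lit 4) (nat_lit 2) (nat_lit 5) (nat_lit 2) (nat_lit 4) (nat_lit 415) (nat_lit 349) (nat_lit 256)) (XT.lf (nat_lit 0) (nat_lit 7432023956691) (nat_lit 76) (nat_lit 4708318840312) (nat_lit 76) (nat_lit 4697674102555) (nat_lit 1) (nat_lit 4) (nat_lit 2) (nat_lit 5) (nat_lit 2) (nat_lit 4) (nat_lit 416)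 (nat_lit 349) (nat_lit 255)))) (XT.nd (nat_lit 78) (nat_lit 0) (nat_lit 0) (XT.lf (nat_lit 0) (nat_lit 9034615864753) (nat_lit 76) (nat_lit 5152802360685) (nat_lit 76) (nat_lit 5142157620193) (nat_lit 1) (nat_lit 4) (nat_lit 2) (nat_lit 5) (nat_lit 2) (nat_lit 4) (nat_lit 417) (nat_lit 349) (nat_lit 254)) (XT.nd (nat_lit 78) (nat_lit 0) (nat_lit 0) (XT.lf (nat_lit 0) (nat_lit 10877596324727) (nat_lit 76) (nat_lit 5663958534079) (nat_lit 76) (nat_lit 5653313791209) (nat_lit 1) (nat_lit 4) (nat_lit 2) (nat_lit 5) (nat_lit 2) (nat_lit 4) (nat_lit 418) (nat_lit 349) (nat_lit 253)) (XT.lf (nat_lit 0) (nat_lit 12997023649961) (nat_lit 76) (nat_lit 6251788242148) (nat_lit 76) (nat_lit 6241143497209) (nat_lit 1) (nat_lit 4) (nat_lit 2) (nat_lit 5) (nat_lit 2) (nat_lit 4) (nat_lit 419) (nat_lit 349) (nat_lit 252))))) (XT.nd (nat_lit 234) (nat_lit 0) (nat_lit 0) (XT.nd (nat_lit 78) (nat_lit 0) (nat_lit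 0) (XT.lf (nat_lit 0) (nat_lit 15434364896817) (nat_lit 76) (nat_lit 6927792500918) (nat_lit 76) (nat_lit 6917147754181) (nat_lit 1) (nat_lit 4) (nat_lit 2) (nat_lit 5) (nat_lit 2) (nat_lit 4) (nat_lit 420) (nat_lit 349) (nat_lit 251)) (XT.nd (nat_lit 78) (nat_lit 0) (nat_lit 0) (XT.lf (nat_lit 0) (nat_lit 18237307176648) (nat_lit 76) (nat_lit 7705197480670) (nat_lit 76) (nat_lit 7694552732369) (nat_lit 1) (nat_lit 4) (nat_lit 2) (nat_lit 5) (nat_lit 2) (nat_lit 4) (nat_lit 421) (nat_lit 349) (nat_lit 250)) (XT.lf (nat_lit 0) (nat_lit 21460690664493) (nat_lit 76) (nat_lit 8599213278834) (nat_lit 76) (nat_lit 8588568529174) (nat_lit 1) (nat_lit 4) (nat_lit 2) (nat_lit 5) (nat_lit 2) (nat_lit 4) (nat_lit 422) (nat_lit 349) (nat_lit 249)))) (XT.nd (nat_lit 156) (nat_lit 0) (nat_lit 0) (XT.nd (nat_lit 78) (nat_lit 0) (nat_lit 0) (XT.lf (nat_lit 0) (nat_lit 25167581559028) (nat_lit 76) (nat_lit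 9627331508852) (nat_lit 76) (nat_lit 9616686758010) (nat_lit 1) (nat_lit 4) (nat_lit 2) (nat_lit 5) (nat_lit 2) (nat_lit 4) (nat_lit 423) (nat_lit 349) (nat_lit 248)) (XT.lf (nat_lit 0) (nat_lit 29430505986450) (nat_lit 76) (nat_lit 10809667527399) (nat_lit 76) (nat_lit 10799022775529) (nat_lit 1) (nat_lit 4) (nat_lit 2) (nat_lit 5) (nat_lit 2) (nat_lit 4) (nat_lit 424) (nat_lit 349) (nat_lit 247))) (XT.nd (nat_lit 78) (nat_lit 0) (nat_lit 0) (XT.lf (nat_lit 0) (nat_lit 34332868989905) (nat_lit 76) (nat_lit 12169353995708) (nat_lit 76) (nat_lit 12158709242943) (nat_lit 1) (nat_lit 4) (nat_lit 2) (nat_lit 5) (nat_lit 2) (nat_lit 4) (nat_lit 425) (nat_lit 349) (nat_lit 246)) (XT.lf (nat_lit 0) (nat_lit 39970586367285) (nat_lit 76) (nat_lit 13732993475113) (nat_lit 76) (nat_lit 13722348721571) (nat_lit 1) (nat_lit 4) (nat_lit 2) (nat_lit 5) (nat_lit 2) (nat_lit 4) (nat_lit 426) (nat_lit 349)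 (nat_lit 245))))))) (XT.nd (nat_lit 1014) (nat_lit 0) (nat_lit 0) (XT.nd (nat_lit 468) (nat_lit 0) (nat_lit 0) (XT.nd (nat_lit 234) (nat_lit 0) (nat_lit 0) (XT.nd (nat_lit 78) (nat_lit 0) (nat_lit 0) (XT.lf (nat_lit 0) (nat_lit 46453961284671) (nat_lit 76) (nat_lit 15531178911953) (nat_lit 76) (nat_lit 15520534157735) (nat_lit 1) (nat_lit 4) (nat_lit 2) (nat_lit 5) (nat_lit 2) (nat_lit 4) (nat_lit 427) (nat_lit 349) (nat_lit 244)) (XT.nd (nat_lit 78) (nat_lit 0) (nat_lit 0) (XT.lf (nat_lit 0) (nat_lit 53909842381750) (nat_lit 76) (nat_lit 17599092195207) (nat_lit 76) (nat_lit 17588447440402) (nat_lit 1) (nat_lit 4) (nat_lit 2) (nat_lit 5) (nat_lit 2) (nat_lit 4) (nat_lit 428) (nat_lit 349) (nat_lit 243)) (XT.lf (nat_lit 0) (nat_lit 62484105593030) (nat_lit 76) (nat_lit 19977192497811) (nat_lit 76) (nat_lit 19966547742494) (nat_lit 1) (nat_lit 4) (nat_lit 2) (nat_lit 5) (nat_lit 2) (nat_lit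 4) (nat_lit 429) (nat_lit 349) (nat_lit 242)))) (XT.nd (nat_lit 78) (nat_lit 0) (nat_lit 0) (XT.lf (nat_lit 0) (nat_lit 72344508242211) (nat_lit 76) (nat_lit 22712007869162) (nat_lit 76) (nat_lit 22701363113400) (nat_lit 1) (nat_lit 4) (nat_lit 2) (nat_lit 5) (nat_lit 2) (nat_lit 4) (nat_lit 430) (nat_lit 349) (nat_lit 241)) (XT.nd (nat_lit 78) (nat_lit 0) (nat_lit 0) (XT.lf (nat_lit 0) (nat_lit 83683971250688) (nat_lit 76) (nat_lit 25857045566525) (nat_lit 76) (nat_lit 25846400810377) (nat_lit 1) (nat_lit 4) (nat_lit 2) (nat_lit 5) (nat_lit 2) (nat_lit 4) (nat_lit 431) (nat_lit 349) (nat_lit 240)) (XT.lf (nat_lit 0) (nat_lit 96724353677325) (nat_lit 76) (nat_lit 29473838936155) (nat_lit 76) (nat_lit 29463194179671) (nat_lit 1) (nat_lit 4) (nat_lit 2) (nat_lit 5) (nat_lit 2) (nat_lit 4) (nat_lit 432) (nat_lit 349) (nat_lit 239))))) (XT.nd (nat_lit 234) (nat_lit 0) (nat_lit 0) (XT.nd (nat_lit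 78) (nat_lit 0) (nat_lit 0) (XT.lf (nat_lit 0) (nat_lit 111720793439163) (nat_lit 76) (nat_lit 33633151326586) (nat_lit 76) (nat_lit 33622506569810) (nat_lit 1) (nat_lit 4) (nat_lit 2) (nat_lit 5) (nat_lit 2) (nat_lit 4) (nat_lit 433) (nat_lit 349) (nat_lit 238)) (XT.nd (nat_lit 78) (nat_lit 0) (nat_lit 0) (XT.lf (nat_lit 0) (nat_lit 128966699140239) (nat_lit 76) (nat_lit 38416360588937) (nat_lit 76) (nat_lit 38405715831906) (nat_lit 1) (nat_lit 4) (nat_lit 2) (nat_lit 5) (nat_lit 2) (nat_lit 4) (nat_lit 434) (nat_lit 349) (nat_lit 237)) (XT.lf (nat_lit 0) (nat_lit 148799490674704) (nat_lit 76) (nat_lit 43917051252252) (nat_lit 76) (nat_lit 43906406495001) (nat_lit 1) (nat_lit 4) (nat_lit 2) (nat_lit 5) (nat_lit 2) (nat_lit 4) (nat_lit 435) (nat_lit 349) (nat_lit 236)))) (XT.nd (nat_lit 156) (nat_lit 0) (nat_lit 0) (XT.nd (nat_lit 78) (nat_lit 0) (nat_lit 0) (XT.lf (nat_lit 0) (nat_lit 171607200920406)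 (nat_lit 76) (nat_lit 50242845525163) (nat_lit 76) (nat_lit 50232200767719) (nat_lit 1) (nat_lit 4) (nat_lit 2) (nat_lit 5) (nat_lit 2) (nat_lit 4) (nat_lit 436) (nat_lit 349) (nat_lit 235)) (XT.lf (nat_lit 0) (nat_lit 197836067686501) (nat_lit 76) (nat_lit 57517508947790) (nat_lit 76) (nat_lit 57506864190180) (nat_lit 1) (nat_lit 4) (nat_lit 2) (nat_lit 5) (nat_lit 2) (nat_lit 4) (nat_lit 437) (nat_lit 349) (nat_lit 234))) (XT.nd (nat_lit 78) (nat_lit 0) (nat_lit 0) (XT.lf (nat_lit 0) (nat_lit 227999264453194) (nat_lit 76) (nat_lit 65883371891448) (nat_lit 76) (nat_lit 65872727133692) (nat_lit 1) (nat_lit 4) (nat_lit 2) (nat_lit 5) (nat_lit 2) (nat_lit 4) (nat_lit 438) (nat_lit 349) (nat_lit 233)) (XT.lf (nat_lit 0) (nat_lit 262686940722443) (nat_lit 76) (nat_lit 75504114283293) (nat_lit 76) (nat_lit 75493469525411) (nat_lit 1) (nat_lit 4) (nat_lit 2) (nat_lit 5) (nat_lit 2) (nat_lit 4)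 (nat_lit 439) (nat_lit 349) (nat_lit 232)))))) (XT.nd (nat_lit 46410) (nat_lit 0) (nat_lit 2432) (XT.nd (nat_lit 46098) (nat_lit 0) (nat_lit 3116) (XT.nd (nat_lit 78) (nat_lit 0) (nat_lit 0) (XT.lf (nat_lit 0) (nat_lit 302577768421254) (nat_lit 76) (nat_lit 86567968039690) (nat_lit 76) (nat_lit 86557323281697) (nat_lit 1) (nat_lit 4) (nat_lit 2) (nat_lit 5) (nat_lit 2) (nat_lit 4) (nat_lit 440) (nat_lit 349) (nat_lit 231)) (XT.nd (nat_lit 78) (nat_lit 0) (nat_lit 0) (XT.lf (nat_lit 0) (nat_lit 348452220265475) (nat_lit 76) (nat_lit 99291399864565) (nat_lit 76) (nat_lit 99280755106477) (nat_lit 1) (nat_lit 4) (nat_lit 2) (nat_lit 5) (nat_lit 2) (nat_lit 4) (nat_lit 441) (nat_lit 349) (nat_lit 230)) (XT.lf (nat_lit 0) (nat_lit 401207839878142) (nat_lit 76) (nat_lit 113923346467538) (nat_lit 76) (nat_lit 113912701709367) (nat_lit 1) (nat_lit 4) (nat_lit 2) (nat_lit 5) (nat_lit 2) (nat_lit 4)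 (nat_lit 442) (nat_lit 349) (nat_lit 229)))) (XT.nd (nat_lit 156) (nat_lit 0) (nat_lit 76) (XT.nd (nat_lit 78) (nat_lit 0) (nat_lit 0) (XT.lf (nat_lit 0) (nat_lit 1889004375) (nat_lit 380) (nat_lit 3193864825) (nat_lit 380) (nat_lit 3193864825) (nat_lit 42) (nat_lit 3) (nat_lit 47) (nat_lit 3) (nat_lit 47) (nat_lit 5) (nat_lit 350) (nat_lit 350) (nat_lit 320)) (XT.lf (nat_lit 76) (nat_lit 2035650834) (nat_lit 0) (nat_lit 2335872691) (nat_lit 380) (nat_lit 13376876840) (nat_lit 43) (nat_lit 5) (nat_lit 42) (nat_lit 3) (nat_lit 47) (nat_lit 5) (nat_lit 351) (nat_lit 350) (nat_lit 319))) (XT.nd (nat_lit 78) (nat_lit 0) (nat_lit 0) (XT.lf (nat_lit 0) (nat_lit 5639385745) (nat_lit 304) (nat_lit 6956329682) (nat_lit 380) (nat_lit 6439068533) (nat_lit 43) (nat_lit 5) (nat_lit 47) (nat_lit 5) (nat_lit 48) (nat_lit 5) (nat_lit 352) (nat_lit 350) (nat_lit 318)) (XT.lf (nat_lit 76) (nat_lit 3264948130)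 (nat_lit 0) (nat_lit 4043591605) (nat_lit 380) (nat_lit 13173926727) (nat_lit 44) (nat_lit 5) (nat_lit 43) (nat_lit 5) (nat_lit 48) (nat_lit 5) (nat_lit 353) (nat_lit 350) (nat_lit 317))))) (XT.nd (nat_lit 234) (nat_lit 532) (nat_lit 0) (XT.nd (nat_lit 78) (nat_lit 304) (nat_lit 0) (XT.lf (nat_lit 0) (nat_lit 9817208975) (nat_lit 304) (nat_lit 6580421540) (nat_lit 76) (nat_lit 5661306659) (nat_lit 44) (nat_lit 5) (nat_lit 48) (nat_lit 5) (nat_lit 45) (nat_lit 5) (nat_lit 354) (nat_lit 350) (nat_lit 316)) (XT.nd (nat_lit 78) (nat_lit 0) (nat_lit 0) (XT.lf (nat_lit 0) (nat_lit 5962936274) (nat_lit 304) (nat_lit 7151222264) (nat_lit 380) (nat_lit 10695929190) (nat_lit 40) (nat_lit 5) (nat_lit 44) (nat_lit 5) (nat_lit 45) (nat_lit 5) (nat_lit 355) (nat_lit 350) (nat_lit 315)) (XT.lf (nat_lit 0) (nat_lit 17385147614) (nat_lit 380) (nat_lit 4835590737) (nat_lit 76) (nat_lit 3531253365) (nat_lit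 40) (nat_lit 5) (nat_lit 45) (nat_lit 5) (nat_lit 41) (nat_lit 5) (nat_lit 356) (nat_lit 350) (nat_lit 314)))) (XT.nd (nat_lit 156) (nat_lit 380) (nat_lit 0) (XT.nd (nat_lit 78) (nat_lit 0) (nat_lit 0) (XT.lf (nat_lit 0) (nat_lit 10714953624) (nat_lit 152) (nat_lit 12344268653) (nat_lit 228) (nat_lit 4811598149) (nat_lit 38) (nat_lit 5) (nat_lit 40) (nat_lit 5) (nat_lit 41) (nat_lit 5) (nat_lit 357) (nat_lit 350) (nat_lit 313)) (XT.lf (nat_lit 0) (nat_lit 29116586730) (nat_lit 152) (nat_lit 700618301) (nat_lit 228) (nat_lit 455352970) (nat_lit 38) (nat_lit 5) (nat_lit 40) (nat_lit 5) (nat_lit 41) (nat_lit 5) (nat_lit 358) (nat_lit 350) (nat_lit 312))) (XT.nd (nat_lit 78) (nat_lit 152) (nat_lit 0) (XT.lf (nat_lit 0) (nat_lit 5475923930) (nat_lit 228) (nat_lit 14767625825) (nat_lit 76) (nat_lit 12563663874) (nat_lit 35) (nat_lit 5) (nat_lit 38) (nat_lit 5) (nat_lit 36) (nat_lit 5) (nat_lit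 359) (nat_lit 350) (nat_lit 311)) (XT.lf (nat_lit 0) (nat_lit 4883546711) (nat_lit 152) (nat_lit 7648623203) (nat_lit 228) (nat_lit 23144363304) (nat_lit 33) (nat_lit 5) (nat_lit 35) (nat_lit 5) (nat_lit 36) (nat_lit 5) (nat_lit 360) (nat_lit 350) (nat_lit 310))))))))
noncomputable def xc63 : XT := (XT.nd (nat_lit 2106) (nat_lit 608) (nat_lit 0) (XT.nd (nat_lit 1014) (nat_lit 912) (nat_lit 0) (XT.nd (nat_lit 468) (nat_lit 532) (nat_lit 0) (XT.nd (nat_lit 234) (nat_lit 228) (nat_lit 0) (XT.nd (nat_lit 78) (nat_lit 152) (nat_lit 0) (XT.lf (nat_lit 0) (nat_lit 21722531055) (nat_lit 228) (nat_lit 10063796094) (nat_lit 76) (nat_lit 7028574197) (nat_lit 33) (nat_lit 5) (nat_lit 36) (nat_lit 5) (nat_lit 34) (nat_lit 4) (nat_lit 361) (nat_lit 350) (nat_lit 309)) (XT.nd (nat_lit 78) (nat_lit 76) (nat_lit 0) (XT.lf (nat_lit 0) (nat_lit 14696686061) (nat_lit 76) (nat_lit 18553564719) (nat_lit 152)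 (nat_lit 9029955286) (nat_lit 32) (nat_lit 5) (nat_lit 33) (nat_lit 5) (nat_lit 34) (nat_lit 4) (nat_lit 362) (nat_lit 350) (nat_lit 308)) (XT.lf (nat_lit 0) (nat_lit 757752206) (nat_lit 152) (nat_lit 1941778125) (nat_lit 76) (nat_lit 43483656869) (nat_lit 31) (nat_lit 5) (nat_lit 33) (nat_lit 5) (nat_lit 32) (nat_lit 5) (nat_lit 363) (nat_lit 350) (nat_lit 307)))) (XT.nd (nat_lit 78) (nat_lit 76) (nat_lit 0) (XT.lf (nat_lit 0) (nat_lit 13030887559) (nat_lit 228) (nat_lit 21401467838) (nat_lit 76) (nat_lit 15883496690) (nat_lit 29) (nat_lit 5) (nat_lit 32) (nat_lit 5) (nat_lit 30) (nat_lit 4) (nat_lit 364) (nat_lit 350) (nat_lit 306)) (XT.nd (nat_lit 78) (nat_lit 0) (nat_lit 0) (XT.lf (nat_lit 0) (nat_lit 10330190567) (nat_lit 76) (nat_lit 17466020889) (nat_lit 152) (nat_lit 27174523676) (nat_lit 28) (nat_lit 5) (nat_lit 29) (nat_lit 5) (nat_lit 30) (nat_lit 4) (nat_lit 365) (nat_lit 350)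 (nat_lit 305)) (XT.lf (nat_lit 0) (nat_lit 46021935879) (nat_lit 152) (nat_lit 11087620998) (nat_lit 0) (nat_lit 3027454479) (nat_lit 28) (nat_lit 5) (nat_lit 30) (nat_lit 4) (nat_lit 28) (nat_lit 4) (nat_lit 366) (nat_lit 350) (nat_lit 304))))) (XT.nd (nat_lit 234) (nat_lit 304) (nat_lit 0) (XT.nd (nat_lit 78) (nat_lit 76) (nat_lit 0) (XT.lf (nat_lit 0) (nat_lit 2953093329) (nat_lit 152) (nat_lit 36654396560) (nat_lit 76) (nat_lit 26145596320) (nat_lit 26) (nat_lit 5) (nat_lit 28) (nat_lit 5) (nat_lit 27) (nat_lit 4) (nat_lit 367) (nat_lit 350) (nat_lit 303)) (XT.nd (nat_lit 78) (nat_lit 0) (nat_lit 0) (XT.lf (nat_lit 0) (nat_lit 4079991577) (nat_lit 76) (nat_lit 17822995453) (nat_lit 152) (nat_lit 50092771789) (nat_lit 25) (nat_lit 5) (nat_lit 26) (nat_lit 5) (nat_lit 27) (nat_lit 4) (nat_lit 368) (nat_lit 350) (nat_lit 302)) (XT.lf (nat_lit 0) (nat_lit 45992662269) (nat_lit 152) (nat_lit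 24252118609) (nat_lit 0) (nat_lit 8585457400) (nat_lit 25) (nat_lit 5) (nat_lit 27) (nat_lit 4) (nat_lit 25) (nat_lit 4) (nat_lit 369) (nat_lit 350) (nat_lit 301)))) (XT.nd (nat_lit 156) (nat_lit 152) (nat_lit 0) (XT.nd (nat_lit 78) (nat_lit 76) (nat_lit 0) (XT.lf (nat_lit 0) (nat_lit 27549250265) (nat_lit 76) (nat_lit 48127911140) (nat_lit 76) (nat_lit 10715522860) (nat_lit 24) (nat_lit 4) (nat_lit 25) (nat_lit 5) (nat_lit 25) (nat_lit 4) (nat_lit 370) (nat_lit 350) (nat_lit 300)) (XT.lf (nat_lit 0) (nat_lit 14733995182) (nat_lit 152) (nat_lit 5738805951) (nat_lit 76) (nat_lit 74327228199) (nat_lit 23) (nat_lit 5) (nat_lit 25) (nat_lit 5) (nat_lit 24) (nat_lit 4) (nat_lit 371) (nat_lit 350) (nat_lit 299))) (XT.nd (nat_lit 78) (nat_lit 76) (nat_lit 0) (XT.lf (nat_lit 0) (nat_lit 45999968739) (nat_lit 152) (nat_lit 44467424704) (nat_lit 0) (nat_lit 13460129611) (nat_lit 22) (nat_lit 5) (nat_lit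 24) (nat_lit 4) (nat_lit 22) (nat_lit 4) (nat_lit 372) (nat_lit 350) (nat_lit 298)) (XT.lf (nat_lit 0) (nat_lit 21627021590) (nat_lit 76) (nat_lit 62506625489) (nat_lit 76) (nat_lit 29963822730) (nat_lit 21) (nat_lit 4) (nat_lit 22) (nat_lit 5) (nat_lit 22) (nat_lit 4) (nat_lit 373) (nat_lit 350) (nat_lit 297)))))) (XT.nd (nat_lit 546) (nat_lit 456) (nat_lit 0) (XT.nd (nat_lit 234) (nat_lit 228) (nat_lit 0) (XT.nd (nat_lit 78) (nat_lit 152) (nat_lit 0) (XT.lf (nat_lit 0) (nat_lit 4427378706) (nat_lit 152) (nat_lit 23026515611) (nat_lit 76) (nat_lit 97961142706) (nat_lit 20) (nat_lit 5) (nat_lit 22) (nat_lit 5) (nat_lit 21) (nat_lit 4) (nat_lit 374) (nat_lit 350) (nat_lit 296)) (XT.nd (nat_lit 78) (nat_lit 76) (nat_lit 0) (XT.lf (nat_lit 0) (nat_lit 44141507733) (nat_lit 152) (nat_lit 77750679848) (nat_lit 0) (nat_lit 15839228809) (nat_lit 19) (nat_lit 5) (nat_lit 21) (nat_lit 4) (nat_lit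 19) (nat_lit 4) (nat_lit 375) (nat_lit 350) (nat_lit 295)) (XT.lf (nat_lit 0) (nat_lit 5417794467) (nat_lit 76) (nat_lit 87181709766) (nat_lit 76) (nat_lit 58877736376) (nat_lit 18) (nat_lit 4) (nat_lit 19) (nat_lit 5) (nat_lit 19) (nat_lit 4) (nat_lit 376) (nat_lit 350) (nat_lit 294)))) (XT.nd (nat_lit 156) (nat_lit 76) (nat_lit 0) (XT.nd (nat_lit 78) (nat_lit 152) (nat_lit 0) (XT.lf (nat_lit 0) (nat_lit 109788078708) (nat_lit 76) (nat_lit 42596755795) (nat_lit 76) (nat_lit 14291308957) (nat_lit 18) (nat_lit 4) (nat_lit 19) (nat_lit 5) (nat_lit 19) (nat_lit 4) (nat_lit 377) (nat_lit 350) (nat_lit 293)) (XT.lf (nat_lit 0) (nat_lit 36218248205) (nat_lit 152) (nat_lit 135724074715) (nat_lit 0) (nat_lit 11603702032) (nat_lit 16) (nat_lit 5) (nat_lit 18) (nat_lit 4) (nat_lit 16) (nat_lit 4) (nat_lit 378) (nat_lit 350) (nat_lit 292))) (XT.nd (nat_lit 78) (nat_lit 76) (nat_lit 0) (XT.lf (nat_lit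 0) (nat_lit 97979721999) (nat_lit 152) (nat_lit 30729582842) (nat_lit 0) (nat_lit 73364207010) (nat_lit 16) (nat_lit 5) (nat_lit 18) (nat_lit 4) (nat_lit 16) (nat_lit 4) (nat_lit 379) (nat_lit 350) (nat_lit 291)) (XT.lf (nat_lit 0) (nat_lit 98800796813) (nat_lit 76) (nat_lit 74291337441) (nat_lit 76) (nat_lit 49674980003) (nat_lit 15) (nat_lit 4) (nat_lit 16) (nat_lit 5) (nat_lit 16) (nat_lit 4) (nat_lit 380) (nat_lit 350) (nat_lit 290))))) (XT.nd (nat_lit 234) (nat_lit 228) (nat_lit 0) (XT.nd (nat_lit 78) (nat_lit 76) (nat_lit 0) (XT.lf (nat_lit 0) (nat_lit 4687684675) (nat_lit 76) (nat_lit 8942443081) (nat_lit 152) (nat_lit 232573586427) (nat_lit 13) (nat_lit 5) (nat_lit 14) (nat_lit 5) (nat_lit 15) (nat_lit 4) (nat_lit 381) (nat_lit 350) (nat_lit 289)) (XT.nd (nat_lit 78) (nat_lit 76) (nat_lit 0) (XT.lf (nat_lit 0) (nat_lit 90871042764) (nat_lit 152) (nat_lit 111036744555) (nat_lit 0)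 (nat_lit 69464323620) (nat_lit 13) (nat_lit 5) (nat_lit 15) (nat_lit 4) (nat_lit 13) (nat_lit 4) (nat_lit 382) (nat_lit 350) (nat_lit 288)) (XT.lf (nat_lit 0) (nat_lit 42350935857) (nat_lit 76) (nat_lit 139522840041) (nat_lit 76) (nat_lit 118115639225) (nat_lit 12) (nat_lit 4) (nat_lit 13) (nat_lit 5) (nat_lit 13) (nat_lit 4) (nat_lit 383) (nat_lit 350) (nat_lit 287)))) (XT.nd (nat_lit 156) (nat_lit 76) (nat_lit 0) (XT.nd (nat_lit 78) (nat_lit 152) (nat_lit 0) (XT.lf (nat_lit 0) (nat_lit 231218109897) (nat_lit 76) (nat_lit 61109370283) (nat_lit 76) (nat_lit 39701750620) (nat_lit 12) (nat_lit 4) (nat_lit 13) (nat_lit 5) (nat_lit 13) (nat_lit 4) (nat_lit 384) (nat_lit 350) (nat_lit 286)) (XT.lf (nat_lit 0) (nat_lit 50968063564) (nat_lit 152) (nat_lit 284492914427) (nat_lit 0) (nat_lit 32352425411) (nat_lit 10) (nat_lit 5) (nat_lit 12) (nat_lit 4) (nat_lit 10) (nat_lit 4) (nat_lit 385) (nat_lit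 350) (nat_lit 285))) (XT.nd (nat_lit 78) (nat_lit 76) (nat_lit 0) (XT.lf (nat_lit 0) (nat_lit 159600925996) (nat_lit 152) (nat_lit 106831587676) (nat_lit 0) (nat_lit 140985012444) (nat_lit 10) (nat_lit 5) (nat_lit 12) (nat_lit 4) (nat_lit 10) (nat_lit 4) (nat_lit 386) (nat_lit 350) (nat_lit 284)) (XT.lf (nat_lit 0) (nat_lit 106998601400) (nat_lit 76) (nat_lit 181957830859) (nat_lit 76) (nat_lit 163341677831) (nat_lit 9) (nat_lit 4) (nat_lit 10) (nat_lit 5) (nat_lit 10) (nat_lit 4) (nat_lit 387) (nat_lit 350) (nat_lit 283))))))) (XT.nd (nat_lit 1014) (nat_lit 228) (nat_lit 0) (XT.nd (nat_lit 468) (nat_lit 152) (nat_lit 0) (XT.nd (nat_lit 234) (nat_lit 76) (nat_lit 0) (XT.nd (nat_lit 78) (nat_lit 152) (nat_lit 0) (XT.lf (nat_lit 0) (nat_lit 364903917322) (nat_lit 76) (nat_lit 78392989627) (nat_lit 76) (nat_lit 59776628358) (nat_lit 9) (nat_lit 4) (nat_lit 10) (nat_lit 5) (nat_lit 10) (nat_lit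 4) (nat_lit 388) (nat_lit 350) (nat_lit 282)) (XT.nd (nat_lit 78) (nat_lit 0) (nat_lit 0) (XT.lf (nat_lit 0) (nat_lit 60487852200) (nat_lit 152) (nat_lit 455342495681) (nat_lit 0) (nat_lit 44299554507) (nat_lit 7) (nat_lit 5) (nat_lit 9) (nat_lit 4) (nat_lit 7) (nat_lit 4) (nat_lit 389) (nat_lit 350) (nat_lit 281)) (XT.lf (nat_lit 0) (nat_lit 203968959788) (nat_lit 152) (nat_lit 231873722203) (nat_lit 0) (nat_lit 187780525173) (nat_lit 7) (nat_lit 5) (nat_lit 9) (nat_lit 4) (nat_lit 7) (nat_lit 4) (nat_lit 390) (nat_lit 350) (nat_lit 280)))) (XT.nd (nat_lit 78) (nat_lit 0) (nat_lit 0) (XT.lf (nat_lit 0) (nat_lit 27564759970) (nat_lit 76) (nat_lit 342546708096) (nat_lit 76) (nat_lit 326358154419) (nat_lit 6) (nat_lit 4) (nat_lit 7) (nat_lit 5) (nat_lit 7) (nat_lit 4) (nat_lit 391) (nat_lit 350) (nat_lit 279)) (XT.nd (nat_lit 78) (nat_lit 0) (nat_lit 0) (XT.lf (nat_lit 0) (nat_lit 351974055738)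 (nat_lit 76) (nat_lit 221319905170) (nat_lit 76) (nat_lit 205131247960) (nat_lit 6) (nat_lit 4) (nat_lit 7) (nat_lit 5) (nat_lit 7) (nat_lit 4) (nat_lit 392) (nat_lit 350) (nat_lit 278)) (XT.lf (nat_lit 0) (nat_lit 725040917005) (nat_lit 76) (nat_lit 81911116301) (nat_lit 76) (nat_lit 65722369063) (nat_lit 6) (nat_lit 4) (nat_lit 7) (nat_lit 5) (nat_lit 7) (nat_lit 4) (nat_lit 393) (nat_lit 350) (nat_lit 277))))) (XT.nd (nat_lit 234) (nat_lit 76) (nat_lit 0) (XT.nd (nat_lit 78) (nat_lit 0) (nat_lit 0) (XT.lf (nat_lit 0) (nat_lit 97659379777) (nat_lit 76) (nat_lit 797509396883) (nat_lit 0) (nat_lit 83582140191) (nat_lit 5) (nat_lit 5) (nat_lit 6) (nat_lit 4) (nat_lit 5) (nat_lit 4) (nat_lit 394) (nat_lit 350) (nat_lit 276)) (XT.nd (nat_lit 78) (nat_lit 0) (nat_lit 0) (XT.lf (nat_lit 0) (nat_lit 290803259746) (nat_lit 76) (nat_lit 530942704174) (nat_lit 0) (nat_lit 276725960966) (nat_lit 5)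 (nat_lit 5) (nat_lit 6) (nat_lit 4) (nat_lit 5) (nat_lit 4) (nat_lit 395) (nat_lit 350) (nat_lit 275)) (XT.lf (nat_lit 0) (nat_lit 512917301995) (nat_lit 76) (nat_lit 224394043352) (nat_lit 0) (nat_lit 498839951741) (nat_lit 5) (nat_lit 5) (nat_lit 6) (nat_lit 4) (nat_lit 5) (nat_lit 4) (nat_lit 396) (nat_lit 350) (nat_lit 274)))) (XT.nd (nat_lit 156) (nat_lit 0) (nat_lit 0) (XT.nd (nat_lit 78) (nat_lit 0) (nat_lit 0) (XT.lf (nat_lit 0) (nat_lit 140656490184) (nat_lit 76) (nat_lit 633515011170) (nat_lit 76) (nat_lit 619437616156) (nat_lit 4) (nat_lit 4) (nat_lit 5) (nat_lit 5) (nat_lit 5) (nat_lit 4) (nat_lit 397) (nat_lit 350) (nat_lit 273)) (XT.lf (nat_lit 0) (nat_lit 585680914477) (nat_lit 76) (nat_lit 500661426920) (nat_lit 76) (nat_lit 486583992984) (nat_lit 4) (nat_lit 4) (nat_lit 5) (nat_lit 5) (nat_lit 5) (nat_lit 4) (nat_lit 398) (nat_lit 350) (nat_lit 272))) (XT.nd (nat_lit 78)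 (nat_lit 0) (nat_lit 0) (XT.lf (nat_lit 0) (nat_lit 1097456811259) (nat_lit 76) (nat_lit 347880971971) (nat_lit 76) (nat_lit 333803504190) (nat_lit 4) (nat_lit 4) (nat_lit 5) (nat_lit 5) (nat_lit 5) (nat_lit 4) (nat_lit 399) (nat_lit 350) (nat_lit 271)) (XT.lf (nat_lit 0) (nat_lit 1685997187206) (nat_lit 76) (nat_lit 172184463507) (nat_lit 76) (nat_lit 158106966296) (nat_lit 4) (nat_lit 4) (nat_lit 5) (nat_lit 5) (nat_lit 5) (nat_lit 4) (nat_lit 400) (nat_lit 350) (nat_lit 270)))))) (XT.nd (nat_lit 546) (nat_lit 76) (nat_lit 0) (XT.nd (nat_lit 234) (nat_lit 0) (nat_lit 0) (XT.nd (nat_lit 78) (nat_lit 0) (nat_lit 0) (XT.lf (nat_lit 0) (nat_lit 44782414735) (nat_lit 152) (nat_lit 2210699011443) (nat_lit 0) (nat_lit 32541090558) (nat_lit 2) (nat_lit 5) (nat_lit 4) (nat_lit 4) (nat_lit 2) (nat_lit 4) (nat_lit 401) (nat_lit 350) (nat_lit 269)) (XT.nd (nat_lit 78) (nat_lit 0) (nat_lit 0) (XT.lf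 (nat_lit 0) (nat_lit 288203898425) (nat_lit 152) (nat_lit 2031277837032) (nat_lit 0) (nat_lit 275962554898) (nat_lit 2) (nat_lit 5) (nat_lit 4) (nat_lit 4) (nat_lit 2) (nat_lit 4) (nat_lit 402) (nat_lit 350) (nat_lit 268)) (XT.lf (nat_lit 0) (nat_lit 568137899716) (nat_lit 152) (nat_lit 1824944996686) (nat_lit 0) (nat_lit 555896539362) (nat_lit 2) (nat_lit 5) (nat_lit 4) (nat_lit 4) (nat_lit 2) (nat_lit 4) (nat_lit 403) (nat_lit 350) (nat_lit 267)))) (XT.nd (nat_lit 156) (nat_lit 0) (nat_lit 0) (XT.nd (nat_lit 78) (nat_lit 0) (nat_lit 0) (XT.lf (nat_lit 0) (nat_lit 890061388196) (nat_lit 152) (nat_lit 1587663543529) (nat_lit 0) (nat_lit 877820013210) (nat_lit 2) (nat_lit 5) (nat_lit 4) (nat_lit 4) (nat_lit 2) (nat_lit 4) (nat_lit 404) (nat_lit 350) (nat_lit 266)) (XT.lf (nat_lit 0) (nat_lit 1260272866901) (nat_lit 152) (nat_lit 1314791014347) (nat_lit 0) (nat_lit 1248031479191) (nat_lit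 2) (nat_lit 5) (nat_lit 4) (nat_lit 4) (nat_lit 2) (nat_lit 4) (nat_lit 405) (nat_lit 350) (nat_lit 265))) (XT.nd (nat_lit 78) (nat_lit 0) (nat_lit 0) (XT.lf (nat_lit 0) (nat_lit 1686015603894) (nat_lit 152) (nat_lit 1000988598786) (nat_lit 0) (nat_lit 1673774205120) (nat_lit 2) (nat_lit 5) (nat_lit 4) (nat_lit 4) (nat_lit 2) (nat_lit 4) (nat_lit 406) (nat_lit 350) (nat_lit 264)) (XT.lf (nat_lit 0) (nat_lit 2175619348375) (nat_lit 152) (nat_lit 640116684368) (nat_lit 0) (nat_lit 2163377939980) (nat_lit 2) (nat_lit 5) (nat_lit 4) (nat_lit 4) (nat_lit 2) (nat_lit 4) (nat_lit 407) (nat_lit 350) (nat_lit 263))))) (XT.nd (nat_lit 234) (nat_lit 0) (nat_lit 0) (XT.nd (nat_lit 78) (nat_lit 76) (nat_lit 0) (XT.lf (nat_lit 0) (nat_lit 2738663304041) (nat_lit 152) (nat_lit 225114733637) (nat_lit 0) (nat_lit 2726421887281) (nat_lit 2) (nat_lit 5) (nat_lit 4) (nat_lit 4) (nat_lit 2) (nat_lit 4) (nat_lit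 408) (nat_lit 350) (nat_lit 262)) (XT.nd (nat_lit 78) (nat_lit 0) (nat_lit 0) (XT.lf (nat_lit 0) (nat_lit 276777504159) (nat_lit 76) (nat_lit 3120846810345) (nat_lit 76) (nat_lit 3108605386310) (nat_lit 1) (nat_lit 4) (nat_lit 2) (nat_lit 5) (nat_lit 2) (nat_lit 4) (nat_lit 409) (nat_lit 350) (nat_lit 261)) (XT.lf (nat_lit 0) (nat_lit 879252780704) (nat_lit 76) (nat_lit 3287943766083) (nat_lit 76) (nat_lit 3275702335722) (nat_lit 1) (nat_lit 4) (nat_lit 2) (nat_lit 5) (nat_lit 2) (nat_lit 4) (nat_lit 410) (nat_lit 350) (nat_lit 260)))) (XT.nd (nat_lit 156) (nat_lit 0) (nat_lit 0) (XT.nd (nat_lit 78) (nat_lit 0) (nat_lit 0) (XT.lf (nat_lit 0) (nat_lit 1572098806788) (nat_lit 76) (nat_lit 3480105554234) (nat_lit 76) (nat_lit 3467864118372) (nat_lit 1) (nat_lit 4) (nat_lit 2) (nat_lit 5) (nat_lit 2) (nat_lit 4) (nat_lit 411) (nat_lit 350) (nat_lit 259)) (XT.lf (nat_lit 0) (nat_lit 2368871265530)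 (nat_lit 76) (nat_lit 3701091861957) (nat_lit 76) (nat_lit 3688850421312) (nat_lit 1) (nat_lit 4) (nat_lit 2) (nat_lit 5) (nat_lit 2) (nat_lit 4) (nat_lit 412) (nat_lit 350) (nat_lit 258))) (XT.nd (nat_lit 78) (nat_lit 0) (nat_lit 0) (XT.lf (nat_lit 0) (nat_lit 3285159183295) (nat_lit 76) (nat_lit 3955226334403) (nat_lit 76) (nat_lit 3942984889598) (nat_lit 1) (nat_lit 4) (nat_lit 2) (nat_lit 5) (nat_lit 2) (nat_lit 4) (nat_lit 413) (nat_lit 350) (nat_lit 257)) (XT.lf (nat_lit 0) (nat_lit 4338889932390) (nat_lit 76) (nat_lit 4247481167772) (nat_lit 76) (nat_lit 4235239719350) (nat_lit 1) (nat_lit 4) (nat_lit 2) (nat_lit 5) (nat_lit 2) (nat_lit 4) (nat_lit 414) (nat_lit 350) (nat_lit 256))))))))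
noncomputable def xc64 : XT := (XT.nd (nat_lit 2028) (nat_lit 0) (nat_lit 0) (XT.nd (nat_lit 1014) (nat_lit 0) (nat_lit 0) (XT.nd (nat_lit 468) (nat_lit 0) (nat_lit 0) (XT.nd (nat_lit 234) (nat_lit 0) (nat_lit 0) (XT.nd (nat_lit 78) (nat_lit 0) (nat_lit 0) (XT.lf (nat_lit 0) (nat_lit 5550679983990) (nat_lit 76) (nat_lit 4583574391412) (nat_lit 76) (nat_lit 4571332939846) (nat_lit 1) (nat_lit 4) (nat_lit 2) (nat_lit 5) (nat_lit 2) (nat_lit 4) (nat_lit 415) (nat_lit 350) (nat_lit 255)) (XT.nd (nat_lit 78) (nat_lit 0) (nat_lit 0) (XT.lf (nat_lit 0) (nat_lit 6944238273888) (nat_lit 76) (nat_lit 4970081742309) (nat_lit 76) (nat_lit 4957840288008) (nat_lit 1) (nat_lit 4) (nat_lit 2) (nat_lit 5) (nat_lit 2) (nat_lit 4) (nat_lit 416) (nat_lit 350) (nat_lit 254)) (XT.lf (nat_lit 0) (nat_lit 8546830072975) (nat_lit 76) (nat_lit 5414565320805) (nat_lit 76) (nat_lit 5402323864126) (nat_lit 1) (nat_lit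 4) (nat_lit 2) (nat_lit 5) (nat_lit 2) (nat_lit 4) (nat_lit 417) (nat_lit 350) (nat_lit 253)))) (XT.nd (nat_lit 78) (nat_lit 0) (nat_lit 0) (XT.lf (nat_lit 0) (nat_lit 10389810438188) (nat_lit 76) (nat_lit 5925721544741) (nat_lit 76) (nat_lit 5913480085994) (nat_lit 1) (nat_lit 4) (nat_lit 2) (nat_lit 5) (nat_lit 2) (nat_lit 4) (nat_lit 418) (nat_lit 350) (nat_lit 252)) (XT.nd (nat_lit 78) (nat_lit 0) (nat_lit 0) (XT.lf (nat_lit 0) (nat_lit 12509237681020) (nat_lit 76) (nat_lit 6513551296759) (nat_lit 76) (nat_lit 6501309836213) (nat_lit 1) (nat_lit 4) (nat_lit 2) (nat_lit 5) (nat_lit 2) (nat_lit 4) (nat_lit 419) (nat_lit 350) (nat_lit 251)) (XT.lf (nat_lit 0) (nat_lit 14946578856224) (nat_lit 76) (nat_lit 7189555593746) (nat_lit 76) (nat_lit 7177314131637) (nat_lit 1) (nat_lit 4) (nat_lit 2) (nat_lit 5) (nat_lit 2) (nat_lit 4) (nat_lit 420) (nat_lit 350) (nat_lit 250))))) (XT.nd (nat_lit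 234) (nat_lit 0) (nat_lit 0) (XT.nd (nat_lit 78) (nat_lit 0) (nat_lit 0) (XT.lf (nat_lit 0) (nat_lit 17749521073747) (nat_lit 76) (nat_lit 7966960606730) (nat_lit 76) (nat_lit 7954719143261) (nat_lit 1) (nat_lit 4) (nat_lit 2) (nat_lit 5) (nat_lit 2) (nat_lit 4) (nat_lit 421) (nat_lit 350) (nat_lit 249)) (XT.nd (nat_lit 78) (nat_lit 0) (nat_lit 0) (XT.lf (nat_lit 0) (nat_lit 20972904507413) (nat_lit 76) (nat_lit 8860976433792) (nat_lit 76) (nat_lit 8848734969141) (nat_lit 1) (nat_lit 4) (nat_lit 2) (nat_lit 5) (nat_lit 2) (nat_lit 4) (nat_lit 422) (nat_lit 350) (nat_lit 248)) (XT.lf (nat_lit 0) (nat_lit 24679795354834) (nat_lit 76) (nat_lit 9889094688939) (nat_lit 76) (nat_lit 9876853223259) (nat_lit 1) (nat_lit 4) (nat_lit 2) (nat_lit 5) (nat_lit 2) (nat_lit 4) (nat_lit 423) (nat_lit 350) (nat_lit 247)))) (XT.nd (nat_lit 156) (nat_lit 0) (nat_lit 0) (XT.nd (nat_lit 78) (nat_lit 0) (nat_lit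 0) (XT.lf (nat_lit 0) (nat_lit 28942719741289) (nat_lit 76) (nat_lit 11071430729337) (nat_lit 76) (nat_lit 11059189262763) (nat_lit 1) (nat_lit 4) (nat_lit 2) (nat_lit 5) (nat_lit 2) (nat_lit 4) (nat_lit 424) (nat_lit 350) (nat_lit 246)) (XT.lf (nat_lit 0) (nat_lit 33845082709119) (nat_lit 76) (nat_lit 12431117216645) (nat_lit 76) (nat_lit 12418875749294) (nat_lit 1) (nat_lit 4) (nat_lit 2) (nat_lit 5) (nat_lit 2) (nat_lit 4) (nat_lit 425) (nat_lit 350) (nat_lit 245))) (XT.nd (nat_lit 78) (nat_lit 0) (nat_lit 0) (XT.lf (nat_lit 0) (nat_lit 39482800055522) (nat_lit 76) (nat_lit 13994756712573) (nat_lit 76) (nat_lit 13982515244546) (nat_lit 1) (nat_lit 4) (nat_lit 2) (nat_lit 5) (nat_lit 2) (nat_lit 4) (nat_lit 426) (nat_lit 350) (nat_lit 244)) (XT.lf (nat_lit 0) (nat_lit 45966174945971) (nat_lit 76) (nat_lit 15792942163780) (nat_lit 76) (nat_lit 15780700695165) (nat_lit 1) (nat_lit 4) (nat_lit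 2) (nat_lit 5) (nat_lit 2) (nat_lit 4) (nat_lit 427) (nat_lit 350) (nat_lit 243)))))) (XT.nd (nat_lit 468) (nat_lit 0) (nat_lit 0) (XT.nd (nat_lit 234) (nat_lit 0) (nat_lit 0) (XT.nd (nat_lit 78) (nat_lit 0) (nat_lit 0) (XT.lf (nat_lit 0) (nat_lit 53422056019626) (nat_lit 76) (nat_lit 17860855459528) (nat_lit 76) (nat_lit 17848613990402) (nat_lit 1) (nat_lit 4) (nat_lit 2) (nat_lit 5) (nat_lit 2) (nat_lit 4) (nat_lit 428) (nat_lit 350) (nat_lit 242)) (XT.nd (nat_lit 78) (nat_lit 0) (nat_lit 0) (XT.lf (nat_lit 0) (nat_lit 61996319210538) (nat_lit 76) (nat_lit 20238955772995) (nat_lit 76) (nat_lit 20226714303425) (nat_lit 1) (nat_lit 4) (nat_lit 2) (nat_lit 5) (nat_lit 2) (nat_lit 4) (nat_lit 429) (nat_lit 350) (nat_lit 241)) (XT.lf (nat_lit 0) (nat_lit 71856721842007) (nat_lit 76) (nat_lit 22973771153792) (nat_lit 76) (nat_lit 22961529683836) (nat_lit 1) (nat_lit 4) (nat_lit 2) (nat_lit 5)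 (nat_lit 2) (nat_lit 4) (nat_lit 430) (nat_lit 350) (nat_lit 240)))) (XT.nd (nat_lit 78) (nat_lit 0) (nat_lit 0) (XT.lf (nat_lit 0) (nat_lit 83196184835083) (nat_lit 76) (nat_lit 26118808859371) (nat_lit 76) (nat_lit 26106567389078) (nat_lit 1) (nat_lit 4) (nat_lit 2) (nat_lit 5) (nat_lit 2) (nat_lit 4) (nat_lit 431) (nat_lit 350) (nat_lit 239)) (XT.nd (nat_lit 78) (nat_lit 0) (nat_lit 0) (XT.lf (nat_lit 0) (nat_lit 96236567248327) (nat_lit 76) (nat_lit 29735602236143) (nat_lit 76) (nat_lit 29723360765558) (nat_lit 1) (nat_lit 4) (nat_lit 2) (nat_lit 5) (nat_lit 2) (nat_lit 4) (nat_lit 432) (nat_lit 350) (nat_lit 238)) (XT.lf (nat_lit 0) (nat_lit 111233006998520) (nat_lit 76) (nat_lit 33894914632786) (nat_lit 76) (nat_lit 33882673161946) (nat_lit 1) (nat_lit 4) (nat_lit 2) (nat_lit 5) (nat_lit 2) (nat_lit 4) (nat_lit 433) (nat_lit 350) (nat_lit 237))))) (XT.nd (nat_lit 234) (nat_lit 0) (nat_lit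 0) (XT.nd (nat_lit 78) (nat_lit 0) (nat_lit 0) (XT.lf (nat_lit 0) (nat_lit 128478912689469) (nat_lit 76) (nat_lit 38678123900537) (nat_lit 76) (nat_lit 38665882429477) (nat_lit 1) (nat_lit 4) (nat_lit 2) (nat_lit 5) (nat_lit 2) (nat_lit 4) (nat_lit 434) (nat_lit 350) (nat_lit 236)) (XT.nd (nat_lit 78) (nat_lit 0) (nat_lit 0) (XT.lf (nat_lit 0) (nat_lit 148311704215128) (nat_lit 76) (nat_lit 44178814568549) (nat_lit 76) (nat_lit 44166573097297) (nat_lit 1) (nat_lit 4) (nat_lit 2) (nat_lit 5) (nat_lit 2) (nat_lit 4) (nat_lit 435) (nat_lit 350) (nat_lit 235)) (XT.lf (nat_lit 0) (nat_lit 171119414453173) (nat_lit 76) (nat_lit 50504608845544) (nat_lit 76) (nat_lit 50492367374125) (nat_lit 1) (nat_lit 4) (nat_lit 2) (nat_lit 5) (nat_lit 2) (nat_lit 4) (nat_lit 436) (nat_lit 350) (nat_lit 234)))) (XT.nd (nat_lit 156) (nat_lit 0) (nat_lit 0) (XT.nd (nat_lit 78) (nat_lit 0) (nat_lit 0) (XT.lf (nat_lit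 0) (nat_lit 197348281212609) (nat_lit 76) (nat_lit 57779272271723) (nat_lit 76) (nat_lit 57767030800159) (nat_lit 1) (nat_lit 4) (nat_lit 2) (nat_lit 5) (nat_lit 2) (nat_lit 4) (nat_lit 437) (nat_lit 350) (nat_lit 233)) (XT.lf (nat_lit 0) (nat_lit 227511477973513) (nat_lit 76) (nat_lit 66145135218469) (nat_lit 76) (nat_lit 66132893746778) (nat_lit 1) (nat_lit 4) (nat_lit 2) (nat_lit 5) (nat_lit 2) (nat_lit 4) (nat_lit 438) (nat_lit 350) (nat_lit 232))) (XT.nd (nat_lit 78) (nat_lit 0) (nat_lit 0) (XT.lf (nat_lit 0) (nat_lit 262199154237727) (nat_lit 76) (nat_lit 75765877613000) (nat_lit 76) (nat_lit 75753636141199) (nat_lit 1) (nat_lit 4) (nat_lit 2) (nat_lit 5) (nat_lit 2) (nat_lit 4) (nat_lit 439) (nat_lit 350) (nat_lit 231)) (XT.lf (nat_lit 0) (nat_lit 302089981932160) (nat_lit 76) (nat_lit 86829731371731) (nat_lit 76) (nat_lit 86817489899834) (nat_lit 1) (nat_lit 4) (nat_lit 2) (nat_lit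 5) (nat_lit 2) (nat_lit 4) (nat_lit 440) (nat_lit 350) (nat_lit 230))))))) (XT.nd (nat_lit 46878) (nat_lit 0) (nat_lit 1520) (XT.nd (nat_lit 46332) (nat_lit 0) (nat_lit 2584) (XT.nd (nat_lit 46098) (nat_lit 0) (nat_lit 3116) (XT.nd (nat_lit 78) (nat_lit 0) (nat_lit 0) (XT.lf (nat_lit 0) (nat_lit 347964433772574) (nat_lit 76) (nat_lit 99553163198637) (nat_lit 76) (nat_lit 99540921726657) (nat_lit 1) (nat_lit 4) (nat_lit 2) (nat_lit 5) (nat_lit 2) (nat_lit 4) (nat_lit 441) (nat_lit 350) (nat_lit 229)) (XT.nd (nat_lit 78) (nat_lit 0) (nat_lit 0) (XT.lf (nat_lit 0) (nat_lit 400720053381931) (nat_lit 76) (nat_lit 114185109803375) (nat_lit 76) (nat_lit 114172868331323) (nat_lit 1) (nat_lit 4) (nat_lit 2) (nat_lit 5) (nat_lit 2) (nat_lit 4) (nat_lit 442) (nat_lit 350) (nat_lit 228)) (XT.lf (nat_lit 0) (nat_lit 461389015926504) (nat_lit 76) (nat_lit 131011848402126) (nat_lit 76) (nat_lit 130999606930011)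 (nat_lit 1) (nat_lit 4) (nat_lit 2) (nat_lit 5) (nat_lit 2) (nat_lit 4) (nat_lit 443) (nat_lit 350) (nat_lit 227)))) (XT.nd (nat_lit 78) (nat_lit 0) (nat_lit 0) (XT.lf (nat_lit 0) (nat_lit 2388874306) (nat_lit 380) (nat_lit 3548420481) (nat_lit 380) (nat_lit 3548420481) (nat_lit 42) (nat_lit 3) (nat_lit 47) (nat_lit 3) (nat_lit 47) (nat_lit 5) (nat_lit 351) (nat_lit 351) (nat_lit 318)) (XT.nd (nat_lit 78) (nat_lit 0) (nat_lit 76) (XT.lf (nat_lit 76) (nat_lit 2578726224) (nat_lit 0) (nat_lit 2834924889) (nat_lit 380) (nat_lit 14938960806) (nat_lit 43) (nat_lit 5) (nat_lit 42) (nat_lit 3) (nat_lit 47) (nat_lit 5) (nat_lit 352) (nat_lit 351) (nat_lit 317)) (XT.lf (nat_lit 0) (nat_lit 6815939605) (nat_lit 304) (nat_lit 7737229198) (nat_lit 380) (nat_lit 7287158771) (nat_lit 43) (nat_lit 5) (nat_lit 47) (nat_lit 5) (nat_lit 48) (nat_lit 5) (nat_lit 353) (nat_lit 351) (nat_lit 316))))) (XT.nd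 (nat_lit 234) (nat_lit 380) (nat_lit 0) (XT.nd (nat_lit 78) (nat_lit 228) (nat_lit 0) (XT.lf (nat_lit 76) (nat_lit 4005306198) (nat_lit 0) (nat_lit 4697410224) (nat_lit 380) (nat_lit 14807368624) (nat_lit 44) (nat_lit 5) (nat_lit 43) (nat_lit 5) (nat_lit 48) (nat_lit 5) (nat_lit 354) (nat_lit 351) (nat_lit 315)) (XT.nd (nat_lit 78) (nat_lit 304) (nat_lit 0) (XT.lf (nat_lit 0) (nat_lit 11547127685) (nat_lit 304) (nat_lit 7308941299) (nat_lit 76) (nat_lit 6473049878) (nat_lit 44) (nat_lit 5) (nat_lit 48) (nat_lit 5) (nat_lit 45) (nat_lit 5) (nat_lit 355) (nat_lit 351) (nat_lit 314)) (XT.lf (nat_lit 0) (nat_lit 7104168211) (nat_lit 304) (nat_lit 8211104838) (nat_lit 380) (nat_lit 12031178548) (nat_lit 40) (nat_lit 5) (nat_lit 44) (nat_lit 5) (nat_lit 45) (nat_lit 5) (nat_lit 356) (nat_lit 351) (nat_lit 313)))) (XT.nd (nat_lit 156) (nat_lit 228) (nat_lit 0) (XT.nd (nat_lit 78) (nat_lit 152)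 (nat_lit 0) (XT.lf (nat_lit 0) (nat_lit 20196850872) (nat_lit 380) (nat_lit 5316224360) (nat_lit 76) (nat_lit 4071081504) (nat_lit 40) (nat_lit 5) (nat_lit 45) (nat_lit 5) (nat_lit 41) (nat_lit 5) (nat_lit 357) (nat_lit 351) (nat_lit 312)) (XT.lf (nat_lit 0) (nat_lit 12555778700) (nat_lit 152) (nat_lit 14149330457) (nat_lit 228) (nat_lit 5318245480) (nat_lit 38) (nat_lit 5) (nat_lit 40) (nat_lit 5) (nat_lit 41) (nat_lit 5) (nat_lit 358) (nat_lit 351) (nat_lit 311))) (XT.nd (nat_lit 78) (nat_lit 228) (nat_lit 0) (XT.lf (nat_lit 0) (nat_lit 33687189550) (nat_lit 152) (nat_lit 765208008) (nat_lit 228) (nat_lit 336619053) (nat_lit 38) (nat_lit 5) (nat_lit 40) (nat_lit 5) (nat_lit 41) (nat_lit 5) (nat_lit 359) (nat_lit 351) (nat_lit 310)) (XT.lf (nat_lit 0) (nat_lit 6456354193) (nat_lit 228) (nat_lit 16751605525) (nat_lit 76) (nat_lit 14496454506) (nat_lit 35) (nat_lit 5) (nat_lit 38) (nat_lit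 5) (nat_lit 36) (nat_lit 5) (nat_lit 360) (nat_lit 351) (nat_lit 309)))))) (XT.nd (nat_lit 546) (nat_lit 532) (nat_lit 0) (XT.nd (nat_lit 234) (nat_lit 304) (nat_lit 0) (XT.nd (nat_lit 78) (nat_lit 76) (nat_lit 0) (XT.lf (nat_lit 0) (nat_lit 5836735429) (nat_lit 152) (nat_lit 8722694003) (nat_lit 228) (nat_lit 26446446752) (nat_lit 33) (nat_lit 5) (nat_lit 35) (nat_lit 5) (nat_lit 36) (nat_lit 5) (nat_lit 361) (nat_lit 351) (nat_lit 308)) (XT.nd (nat_lit 78) (nat_lit 76) (nat_lit 0) (XT.lf (nat_lit 0) (nat_lit 25111750736) (nat_lit 228) (nat_lit 11364877045) (nat_lit 76) (nat_lit 8140863710) (nat_lit 33) (nat_lit 5) (nat_lit 36) (nat_lit 5) (nat_lit 34) (nat_lit 4) (nat_lit 362) (nat_lit 351) (nat_lit 307)) (XT.lf (nat_lit 0) (nat_lit 17100200686) (nat_lit 76) (nat_lit 21259602297) (nat_lit 152) (nat_lit 10244115240) (nat_lit 32) (nat_lit 5) (nat_lit 33) (nat_lit 5) (nat_lit 34) (nat_lit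 4) (nat_lit 363) (nat_lit 351) (nat_lit 306)))) (XT.nd (nat_lit 156) (nat_lit 76) (nat_lit 0) (XT.nd (nat_lit 78) (nat_lit 152) (nat_lit 0) (XT.lf (nat_lit 0) (nat_lit 982580163) (nat_lit 152) (nat_lit 2049114786) (nat_lit 76) (nat_lit 50062283034) (nat_lit 31) (nat_lit 5) (nat_lit 33) (nat_lit 5) (nat_lit 32) (nat_lit 5) (nat_lit 364) (nat_lit 351) (nat_lit 305)) (XT.lf (nat_lit 0) (nat_lit 15092422207) (nat_lit 228) (nat_lit 24423483451) (nat_lit 76) (nat_lit 18331278122) (nat_lit 29) (nat_lit 5) (nat_lit 32) (nat_lit 5) (nat_lit 30) (nat_lit 4) (nat_lit 365) (nat_lit 351) (nat_lit 304))) (XT.nd (nat_lit 78) (nat_lit 0) (nat_lit 0) (XT.lf (nat_lit 0) (nat_lit 12059368963) (nat_lit 76) (nat_lit 20006670966) (nat_lit 152) (nat_lit 31135236488) (nat_lit 28) (nat_lit 5) (nat_lit 29) (nat_lit 5) (nat_lit 30) (nat_lit 4) (nat_lit 366) (nat_lit 351) (nat_lit 303)) (XT.lf (nat_lit 0) (nat_lit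 53015381439) (nat_lit 152) (nat_lit 12584297108) (nat_lit 0) (nat_lit 3544353000) (nat_lit 28) (nat_lit 5) (nat_lit 30) (nat_lit 4) (nat_lit 28) (nat_lit 4) (nat_lit 367) (nat_lit 351) (nat_lit 302))))) (XT.nd (nat_lit 234) (nat_lit 304) (nat_lit 0) (XT.nd (nat_lit 78) (nat_lit 76) (nat_lit 0) (XT.lf (nat_lit 0) (nat_lit 3485085838) (nat_lit 152) (nat_lit 41984948946) (nat_lit 76) (nat_lit 30132653851) (nat_lit 26) (nat_lit 5) (nat_lit 28) (nat_lit 5) (nat_lit 27) (nat_lit 4) (nat_lit 368) (nat_lit 351) (nat_lit 301)) (XT.nd (nat_lit 78) (nat_lit 0) (nat_lit 0) (XT.lf (nat_lit 0) (nat_lit 4851978908) (nat_lit 76) (nat_lit 20420497059) (nat_lit 152) (nat_lit 57510035127) (nat_lit 25) (nat_lit 5) (nat_lit 26) (nat_lit 5) (nat_lit 27) (nat_lit 4) (nat_lit 369) (nat_lit 351) (nat_lit 300)) (XT.lf (nat_lit 0) (nat_lit 52967375274) (nat_lit 152) (nat_lit 27742583957) (nat_lit 0) (nat_lit 9933438028)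 (nat_lit 25) (nat_lit 5) (nat_lit 27) (nat_lit 4) (nat_lit 25) (nat_lit 4) (nat_lit 370) (nat_lit 351) (nat_lit 299)))) (XT.nd (nat_lit 156) (nat_lit 152) (nat_lit 0) (XT.nd (nat_lit 78) (nat_lit 76) (nat_lit 0) (XT.lf (nat_lit 0) (nat_lit 31822292409) (nat_lit 76) (nat_lit 55278192340) (nat_lit 76) (nat_lit 12240335691) (nat_lit 24) (nat_lit 4) (nat_lit 25) (nat_lit 5) (nat_lit 25) (nat_lit 4) (nat_lit 371) (nat_lit 351) (nat_lit 298)) (XT.lf (nat_lit 0) (nat_lit 17009459233) (nat_lit 152) (nat_lit 6470927474) (nat_lit 76) (nat_lit 85529839212) (nat_lit 23) (nat_lit 5) (nat_lit 25) (nat_lit 5) (nat_lit 24) (nat_lit 4) (nat_lit 372) (nat_lit 351) (nat_lit 297))) (XT.nd (nat_lit 78) (nat_lit 76) (nat_lit 0) (XT.lf (nat_lit 0) (nat_lit 52964412628) (nat_lit 152) (nat_lit 51007920152) (nat_lit 0) (nat_lit 15534648752) (nat_lit 22) (nat_lit 5) (nat_lit 24) (nat_lit 4) (nat_lit 22) (nat_lit 4)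 (nat_lit 373) (nat_lit 351) (nat_lit 296)) (XT.lf (nat_lit 0) (nat_lit 24994801347) (nat_lit 76) (nat_lit 71820058288) (nat_lit 76) (nat_lit 34388053480) (nat_lit 21) (nat_lit 4) (nat_lit 22) (nat_lit 5) (nat_lit 22) (nat_lit 4) (nat_lit 374) (nat_lit 351) (nat_lit 295))))))))
noncomputable def xc65 : XT := (XT.nd (nat_lit 2028) (nat_lit 228) (nat_lit 0) (XT.nd (nat_lit 1014) (nat_lit 456) (nat_lit 0) (XT.nd (nat_lit 468) (nat_lit 456) (nat_lit 0) (XT.nd (nat_lit 234) (nat_lit 152) (nat_lit 0) (XT.nd (nat_lit 78) (nat_lit 152) (nat_lit 0) (XT.lf (nat_lit 0) (nat_lit 5147207485) (nat_lit 152) (nat_lit 26367457349) (nat_lit 76) (nat_lit 112704267676) (nat_lit 20) (nat_lit 5) (nat_lit 22) (nat_lit 5) (nat_lit 21) (nat_lit 4) (nat_lit 375) (nat_lit 351) (nat_lit 294)) (XT.nd (nat_lit 78) (nat_lit 76) (nat_lit 0) (XT.lf (nat_lit 0) (nat_lit 50817932029) (nat_lit 152) (nat_lit 89299720844) (nat_lit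 0) (nat_lit 18265194716) (nat_lit 19) (nat_lit 5) (nat_lit 21) (nat_lit 4) (nat_lit 19) (nat_lit 4) (nat_lit 376) (nat_lit 351) (nat_lit 293)) (XT.lf (nat_lit 0) (nat_lit 6338862755) (nat_lit 76) (nat_lit 100203054068) (nat_lit 76) (nat_lit 67649035495) (nat_lit 18) (nat_lit 4) (nat_lit 19) (nat_lit 5) (nat_lit 19) (nat_lit 4) (nat_lit 377) (nat_lit 351) (nat_lit 292)))) (XT.nd (nat_lit 78) (nat_lit 152) (nat_lit 0) (XT.lf (nat_lit 0) (nat_lit 126350550617) (nat_lit 76) (nat_lit 48937649893) (nat_lit 76) (nat_lit 16382517181) (nat_lit 18) (nat_lit 4) (nat_lit 19) (nat_lit 5) (nat_lit 19) (nat_lit 4) (nat_lit 378) (nat_lit 351) (nat_lit 291)) (XT.nd (nat_lit 78) (nat_lit 0) (nat_lit 0) (XT.lf (nat_lit 0) (nat_lit 41698501194) (nat_lit 152) (nat_lit 155983451566) (nat_lit 0) (nat_lit 13388847691) (nat_lit 16) (nat_lit 5) (nat_lit 18) (nat_lit 4) (nat_lit 16) (nat_lit 4) (nat_lit 379) (nat_lit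 351) (nat_lit 290)) (XT.lf (nat_lit 0) (nat_lit 112717998350) (nat_lit 152) (nat_lit 35252729523) (nat_lit 0) (nat_lit 84407612282) (nat_lit 16) (nat_lit 5) (nat_lit 18) (nat_lit 4) (nat_lit 16) (nat_lit 4) (nat_lit 380) (nat_lit 351) (nat_lit 289))))) (XT.nd (nat_lit 234) (nat_lit 228) (nat_lit 0) (XT.nd (nat_lit 78) (nat_lit 152) (nat_lit 0) (XT.lf (nat_lit 0) (nat_lit 113703284773) (nat_lit 76) (nat_lit 85392009061) (nat_lit 76) (nat_lit 57080985981) (nat_lit 15) (nat_lit 4) (nat_lit 16) (nat_lit 5) (nat_lit 16) (nat_lit 4) (nat_lit 381) (nat_lit 351) (nat_lit 288)) (XT.nd (nat_lit 78) (nat_lit 0) (nat_lit 0) (XT.lf (nat_lit 0) (nat_lit 5473306940) (nat_lit 76) (nat_lit 10240592568) (nat_lit 152) (nat_lit 267414483411) (nat_lit 13) (nat_lit 5) (nat_lit 14) (nat_lit 5) (nat_lit 15) (nat_lit 4) (nat_lit 382) (nat_lit 351) (nat_lit 287)) (XT.lf (nat_lit 0) (nat_lit 104537387971) (nat_lit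 152) (nat_lit 127616979340) (nat_lit 0) (nat_lit 79918206512) (nat_lit 13) (nat_lit 5) (nat_lit 15) (nat_lit 4) (nat_lit 13) (nat_lit 4) (nat_lit 383) (nat_lit 351) (nat_lit 286)))) (XT.nd (nat_lit 156) (nat_lit 152) (nat_lit 0) (XT.nd (nat_lit 78) (nat_lit 0) (nat_lit 0) (XT.lf (nat_lit 0) (nat_lit 48775431456) (nat_lit 76) (nat_lit 160413419931) (nat_lit 76) (nat_lit 135793874258) (nat_lit 12) (nat_lit 4) (nat_lit 13) (nat_lit 5) (nat_lit 13) (nat_lit 4) (nat_lit 384) (nat_lit 351) (nat_lit 285)) (XT.lf (nat_lit 0) (nat_lit 265963309182) (nat_lit 76) (nat_lit 70242866159) (nat_lit 76) (nat_lit 45623003778) (nat_lit 12) (nat_lit 4) (nat_lit 13) (nat_lit 5) (nat_lit 13) (nat_lit 4) (nat_lit 385) (nat_lit 351) (nat_lit 284))) (XT.nd (nat_lit 78) (nat_lit 0) (nat_lit 0) (XT.lf (nat_lit 0) (nat_lit 58644169641) (nat_lit 152) (nat_lit 327101255360) (nat_lit 0) (nat_lit 37235354181) (nat_lit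 10) (nat_lit 5) (nat_lit 12) (nat_lit 4) (nat_lit 10) (nat_lit 4) (nat_lit 386) (nat_lit 351) (nat_lit 283)) (XT.lf (nat_lit 0) (nat_lit 183567931453) (nat_lit 152) (nat_lit 122799285626) (nat_lit 0) (nat_lit 162158907753) (nat_lit 10) (nat_lit 5) (nat_lit 12) (nat_lit 4) (nat_lit 10) (nat_lit 4) (nat_lit 387) (nat_lit 351) (nat_lit 282)))))) (XT.nd (nat_lit 468) (nat_lit 152) (nat_lit 0) (XT.nd (nat_lit 234) (nat_lit 76) (nat_lit 0) (XT.nd (nat_lit 78) (nat_lit 152) (nat_lit 0) (XT.lf (nat_lit 0) (nat_lit 123102839075) (nat_lit 76) (nat_lit 209222674801) (nat_lit 76) (nat_lit 187813470022) (nat_lit 9) (nat_lit 4) (nat_lit 10) (nat_lit 5) (nat_lit 10) (nat_lit 4) (nat_lit 388) (nat_lit 351) (nat_lit 281)) (XT.nd (nat_lit 78) (nat_lit 152) (nat_lit 0) (XT.lf (nat_lit 0) (nat_lit 419686850542) (nat_lit 76) (nat_lit 90126867908) (nat_lit 76) (nat_lit 68717505670) (nat_lit 9) (nat_lit 4) (nat_lit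 10) (nat_lit 5) (nat_lit 10) (nat_lit 4) (nat_lit 389) (nat_lit 351) (nat_lit 280)) (XT.lf (nat_lit 0) (nat_lit 69584324047) (nat_lit 152) (nat_lit 523594201217) (nat_lit 0) (nat_lit 50967368255) (nat_lit 7) (nat_lit 5) (nat_lit 9) (nat_lit 4) (nat_lit 7) (nat_lit 4) (nat_lit 390) (nat_lit 351) (nat_lit 279)))) (XT.nd (nat_lit 78) (nat_lit 76) (nat_lit 0) (XT.lf (nat_lit 0) (nat_lit 234584559422) (nat_lit 152) (nat_lit 266611590260) (nat_lit 0) (nat_lit 215967500099) (nat_lit 7) (nat_lit 5) (nat_lit 9) (nat_lit 4) (nat_lit 7) (nat_lit 4) (nat_lit 391) (nat_lit 351) (nat_lit 278)) (XT.nd (nat_lit 78) (nat_lit 0) (nat_lit 0) (XT.lf (nat_lit 0) (nat_lit 31740701046) (nat_lit 76) (nat_lit 393906807979) (nat_lit 76) (nat_lit 375289658627) (nat_lit 6) (nat_lit 4) (nat_lit 7) (nat_lit 5) (nat_lit 7) (nat_lit 4) (nat_lit 392) (nat_lit 351) (nat_lit 277)) (XT.lf (nat_lit 0) (nat_lit 404806013733)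 (nat_lit 76) (nat_lit 254498841961) (nat_lit 76) (nat_lit 235881614324) (nat_lit 6) (nat_lit 4) (nat_lit 7) (nat_lit 5) (nat_lit 7) (nat_lit 4) (nat_lit 393) (nat_lit 351) (nat_lit 276))))) (XT.nd (nat_lit 234) (nat_lit 76) (nat_lit 0) (XT.nd (nat_lit 78) (nat_lit 76) (nat_lit 0) (XT.lf (nat_lit 0) (nat_lit 833828228152) (nat_lit 76) (nat_lit 94181219412) (nat_lit 76) (nat_lit 75563923701) (nat_lit 6) (nat_lit 4) (nat_lit 7) (nat_lit 5) (nat_lit 7) (nat_lit 4) (nat_lit 394) (nat_lit 351) (nat_lit 275)) (XT.nd (nat_lit 78) (nat_lit 0) (nat_lit 0) (XT.lf (nat_lit 0) (nat_lit 112323573449) (nat_lit 76) (nat_lit 917103118689) (nat_lit 0) (nat_lit 96134569182) (nat_lit 5) (nat_lit 5) (nat_lit 6) (nat_lit 4) (nat_lit 5) (nat_lit 4) (nat_lit 395) (nat_lit 351) (nat_lit 274)) (XT.lf (nat_lit 0) (nat_lit 334437041495) (nat_lit 76) (nat_lit 610555685690) (nat_lit 0) (nat_lit 318247992469) (nat_lit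 5) (nat_lit 5) (nat_lit 6) (nat_lit 4) (nat_lit 5) (nat_lit 4) (nat_lit 396) (nat_lit 351) (nat_lit 273)))) (XT.nd (nat_lit 156) (nat_lit 0) (nat_lit 0) (XT.nd (nat_lit 78) (nat_lit 76) (nat_lit 0) (XT.lf (nat_lit 0) (nat_lit 589866456240) (nat_lit 76) (nat_lit 258028433237) (nat_lit 0) (nat_lit 573677368292) (nat_lit 5) (nat_lit 5) (nat_lit 6) (nat_lit 4) (nat_lit 5) (nat_lit 4) (nat_lit 397) (nat_lit 351) (nat_lit 272)) (XT.lf (nat_lit 0) (nat_lit 161778556847) (nat_lit 76) (nat_lit 728529697909) (nat_lit 76) (nat_lit 712340576116) (nat_lit 4) (nat_lit 4) (nat_lit 5) (nat_lit 5) (nat_lit 5) (nat_lit 4) (nat_lit 398) (nat_lit 351) (nat_lit 271))) (XT.nd (nat_lit 78) (nat_lit 0) (nat_lit 0) (XT.lf (nat_lit 0) (nat_lit 673553567418) (nat_lit 76) (nat_lit 575749714926) (nat_lit 76) (nat_lit 559560563703) (nat_lit 4) (nat_lit 4) (nat_lit 5) (nat_lit 5) (nat_lit 5) (nat_lit 4) (nat_lit 399)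 (nat_lit 351) (nat_lit 270)) (XT.lf (nat_lit 0) (nat_lit 1262093172748) (nat_lit 76) (nat_lit 400053616869) (nat_lit 76) (nat_lit 383864440054) (nat_lit 4) (nat_lit 4) (nat_lit 5) (nat_lit 5) (nat_lit 5) (nat_lit 4) (nat_lit 400) (nat_lit 351) (nat_lit 269))))))) (XT.nd (nat_lit 1014) (nat_lit 0) (nat_lit 0) (XT.nd (nat_lit 468) (nat_lit 76) (nat_lit 0) (XT.nd (nat_lit 234) (nat_lit 0) (nat_lit 0) (XT.nd (nat_lit 78) (nat_lit 152) (nat_lit 0) (XT.lf (nat_lit 0) (nat_lit 1938912278156) (nat_lit 76) (nat_lit 198003871383) (nat_lit 76) (nat_lit 181814672315) (nat_lit 4) (nat_lit 4) (nat_lit 5) (nat_lit 5) (nat_lit 5) (nat_lit 4) (nat_lit 401) (nat_lit 351) (nat_lit 268)) (XT.nd (nat_lit 78) (nat_lit 0) (nat_lit 0) (XT.lf (nat_lit 0) (nat_lit 51507367499) (nat_lit 152) (nat_lit 2542287601881) (nat_lit 0) (nat_lit 37429786265) (nat_lit 2) (nat_lit 5) (nat_lit 4) (nat_lit 4) (nat_lit 2) (nat_lit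 4) (nat_lit 402) (nat_lit 351) (nat_lit 267)) (XT.lf (nat_lit 0) (nat_lit 331441083672) (nat_lit 152) (nat_lit 2335955372345) (nat_lit 0) (nat_lit 317363487805) (nat_lit 2) (nat_lit 5) (nat_lit 4) (nat_lit 4) (nat_lit 2) (nat_lit 4) (nat_lit 403) (nat_lit 351) (nat_lit 266)))) (XT.nd (nat_lit 78) (nat_lit 0) (nat_lit 0) (XT.lf (nat_lit 0) (nat_lit 653364324223) (nat_lit 152) (nat_lit 2098674450327) (nat_lit 0) (nat_lit 639286715633) (nat_lit 2) (nat_lit 5) (nat_lit 4) (nat_lit 4) (nat_lit 2) (nat_lit 4) (nat_lit 404) (nat_lit 351) (nat_lit 265)) (XT.nd (nat_lit 78) (nat_lit 0) (nat_lit 0) (XT.lf (nat_lit 0) (nat_lit 1023575587338) (nat_lit 152) (nat_lit 1825802383004) (nat_lit 0) (nat_lit 1009497967684) (nat_lit 2) (nat_lit 5) (nat_lit 4) (nat_lit 4) (nat_lit 2) (nat_lit 4) (nat_lit 405) (nat_lit 351) (nat_lit 264)) (XT.lf (nat_lit 0) (nat_lit 1449318136861) (nat_lit 152) (nat_lit 1512000369060)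 (nat_lit 0) (nat_lit 1435240507586) (nat_lit 2) (nat_lit 5) (nat_lit 4) (nat_lit 4) (nat_lit 2) (nat_lit 4) (nat_lit 406) (nat_lit 351) (nat_lit 263))))) (XT.nd (nat_lit 234) (nat_lit 76) (nat_lit 0) (XT.nd (nat_lit 78) (nat_lit 0) (nat_lit 0) (XT.lf (nat_lit 0) (nat_lit 1938921718325) (nat_lit 152) (nat_lit 1151128803875) (nat_lit 0) (nat_lit 1924844080684) (nat_lit 2) (nat_lit 5) (nat_lit 4) (nat_lit 4) (nat_lit 2) (nat_lit 4) (nat_lit 407) (nat_lit 351) (nat_lit 262)) (XT.nd (nat_lit 78) (nat_lit 0) (nat_lit 0) (XT.lf (nat_lit 0) (nat_lit 2501965532237) (nat_lit 152) (nat_lit 736127156824) (nat_lit 0) (nat_lit 2487887887322) (nat_lit 2) (nat_lit 5) (nat_lit 4) (nat_lit 4) (nat_lit 2) (nat_lit 4) (nat_lit 408) (nat_lit 351) (nat_lit 261)) (XT.lf (nat_lit 0) (nat_lit 3149465653218) (nat_lit 152) (nat_lit 258875830465) (nat_lit 0) (nat_lit 3135388001977) (nat_lit 2) (nat_lit 5) (nat_lit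 4) (nat_lit 4) (nat_lit 2) (nat_lit 4) (nat_lit 409) (nat_lit 351) (nat_lit 260)))) (XT.nd (nat_lit 156) (nat_lit 0) (nat_lit 0) (XT.nd (nat_lit 78) (nat_lit 0) (nat_lit 0) (XT.lf (nat_lit 0) (nat_lit 318299965126) (nat_lit 76) (nat_lit 3588970719548) (nat_lit 76) (nat_lit 3574893062806) (nat_lit 1) (nat_lit 4) (nat_lit 2) (nat_lit 5) (nat_lit 2) (nat_lit 4) (nat_lit 410) (nat_lit 351) (nat_lit 259)) (XT.lf (nat_lit 0) (nat_lit 1011145772022) (nat_lit 76) (nat_lit 3781132624606) (nat_lit 76) (nat_lit 3767054963081) (nat_lit 1) (nat_lit 4) (nat_lit 2) (nat_lit 5) (nat_lit 2) (nat_lit 4) (nat_lit 411) (nat_lit 351) (nat_lit 258))) (XT.nd (nat_lit 78) (nat_lit 0) (nat_lit 0) (XT.lf (nat_lit 0) (nat_lit 1807918040164) (nat_lit 76) (nat_lit 4002119033987) (nat_lit 76) (nat_lit 3988041368302) (nat_lit 1) (nat_lit 4) (nat_lit 2) (nat_lit 5) (nat_lit 2) (nat_lit 4) (nat_lit 412) (nat_lit 351) (nat_lit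 257)) (XT.lf (nat_lit 0) (nat_lit 2724205792192) (nat_lit 76) (nat_lit 4256253594831) (nat_lit 76) (nat_lit 4242175925529) (nat_lit 1) (nat_lit 4) (nat_lit 2) (nat_lit 5) (nat_lit 2) (nat_lit 4) (nat_lit 413) (nat_lit 351) (nat_lit 256)))))) (XT.nd (nat_lit 546) (nat_lit 0) (nat_lit 0) (XT.nd (nat_lit 234) (nat_lit 0) (nat_lit 0) (XT.nd (nat_lit 78) (nat_lit 0) (nat_lit 0) (XT.lf (nat_lit 0) (nat_lit 3777936397166) (nat_lit 76) (nat_lit 4548508505068) (nat_lit 76) (nat_lit 4534430832621) (nat_lit 1) (nat_lit 4) (nat_lit 2) (nat_lit 5) (nat_lit 2) (nat_lit 4) (nat_lit 414) (nat_lit 351) (nat_lit 255)) (XT.nd (nat_lit 78) (nat_lit 0) (nat_lit 0) (XT.lf (nat_lit 0) (nat_lit 4989726323445) (nat_lit 76) (nat_lit 4884601795550) (nat_lit 76) (nat_lit 4870524120369) (nat_lit 1) (nat_lit 4) (nat_lit 2) (nat_lit 5) (nat_lit 2) (nat_lit 4) (nat_lit 415) (nat_lit 351) (nat_lit 254)) (XT.lf (nat_lit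 0) (nat_lit 6383284504368) (nat_lit 76) (nat_lit 5271109204570) (nat_lit 76) (nat_lit 5257031527011) (nat_lit 1) (nat_lit 4) (nat_lit 2) (nat_lit 5) (nat_lit 2) (nat_lit 4) (nat_lit 416) (nat_lit 351) (nat_lit 253)))) (XT.nd (nat_lit 156) (nat_lit 0) (nat_lit 0) (XT.nd (nat_lit 78) (nat_lit 0) (nat_lit 0) (XT.lf (nat_lit 0) (nat_lit 7985876208694) (nat_lit 76) (nat_lit 5715592833608) (nat_lit 76) (nat_lit 5701515153981) (nat_lit 1) (nat_lit 4) (nat_lit 2) (nat_lit 5) (nat_lit 2) (nat_lit 4) (nat_lit 417) (nat_lit 351) (nat_lit 252)) (XT.lf (nat_lit 0) (nat_lit 9828856491505) (nat_lit 76) (nat_lit 6226749101494) (nat_lit 76) (nat_lit 6212671420068) (nat_lit 1) (nat_lit 4) (nat_lit 2) (nat_lit 5) (nat_lit 2) (nat_lit 4) (nat_lit 418) (nat_lit 351) (nat_lit 251))) (XT.nd (nat_lit 78) (nat_lit 0) (nat_lit 0) (XT.lf (nat_lit 0) (nat_lit 11948283662685) (nat_lit 76) (nat_lit 6814578891729) (nat_lit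 76) (nat_lit 6800501208739) (nat_lit 1) (nat_lit 4) (nat_lit 2) (nat_lit 5) (nat_lit 2) (nat_lit 4) (nat_lit 419) (nat_lit 351) (nat_lit 250)) (XT.lf (nat_lit 0) (nat_lit 14385624775581) (nat_lit 76) (nat_lit 7490583221948) (nat_lit 76) (nat_lit 7476505537599) (nat_lit 1) (nat_lit 4) (nat_lit 2) (nat_lit 5) (nat_lit 2) (nat_lit 4) (nat_lit 420) (nat_lit 351) (nat_lit 249))))) (XT.nd (nat_lit 234) (nat_lit 0) (nat_lit 0) (XT.nd (nat_lit 78) (nat_lit 0) (nat_lit 0) (XT.lf (nat_lit 0) (nat_lit 17188566938925) (nat_lit 76) (nat_lit 8267988263830) (nat_lit 76) (nat_lit 8253910578299) (nat_lit 1) (nat_lit 4) (nat_lit 2) (nat_lit 5) (nat_lit 2) (nat_lit 4) (nat_lit 421) (nat_lit 351) (nat_lit 248)) (XT.nd (nat_lit 78) (nat_lit 0) (nat_lit 0) (XT.lf (nat_lit 0) (nat_lit 20411950325477) (nat_lit 76) (nat_lit 9162004116020) (nat_lit 76) (nat_lit 9147926429460) (nat_lit 1) (nat_lit 4) (nat_lit 2) (nat_lit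 5) (nat_lit 2) (nat_lit 4) (nat_lit 422) (nat_lit 351) (nat_lit 247)) (XT.lf (nat_lit 0) (nat_lit 24118841131931) (nat_lit 76) (nat_lit 10190122393017) (nat_lit 76) (nat_lit 10176044705564) (nat_lit 1) (nat_lit 4) (nat_lit 2) (nat_lit 5) (nat_lit 2) (nat_lit 4) (nat_lit 423) (nat_lit 351) (nat_lit 246)))) (XT.nd (nat_lit 156) (nat_lit 0) (nat_lit 0) (XT.nd (nat_lit 78) (nat_lit 0) (nat_lit 0) (XT.lf (nat_lit 0) (nat_lit 28381765482761) (nat_lit 76) (nat_lit 11372458452416) (nat_lit 76) (nat_lit 11358380764185) (nat_lit 1) (nat_lit 4) (nat_lit 2) (nat_lit 5) (nat_lit 2) (nat_lit 4) (nat_lit 424) (nat_lit 351) (nat_lit 245)) (XT.lf (nat_lit 0) (nat_lit 33284128419614) (nat_lit 76) (nat_lit 12732144956247) (nat_lit 76) (nat_lit 12718067267340) (nat_lit 1) (nat_lit 4) (nat_lit 2) (nat_lit 5) (nat_lit 2) (nat_lit 4) (nat_lit 425) (nat_lit 351) (nat_lit 244))) (XT.nd (nat_lit 78) (nat_lit 0) (nat_lit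 0) (XT.lf (nat_lit 0) (nat_lit 38921845739079) (nat_lit 76) (nat_lit 14295784466542) (nat_lit 76) (nat_lit 14281706777047) (nat_lit 1) (nat_lit 4) (nat_lit 2) (nat_lit 5) (nat_lit 2) (nat_lit 4) (nat_lit 426) (nat_lit 351) (nat_lit 243)) (XT.lf (nat_lit 0) (nat_lit 45405220606105) (nat_lit 76) (nat_lit 16093969930242) (nat_lit 76) (nat_lit 16079892240236) (nat_lit 1) (nat_lit 4) (nat_lit 2) (nat_lit 5) (nat_lit 2) (nat_lit 4) (nat_lit 427) (nat_lit 351) (nat_lit 242))))))))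
noncomputable def xc66 : XT := (XT.nd (nat_lit 47892) (nat_lit 0) (nat_lit 684) (XT.nd (nat_lit 1014) (nat_lit 0) (nat_lit 0) (XT.nd (nat_lit 468) (nat_lit 0) (nat_lit 0) (XT.nd (nat_lit 234) (nat_lit 0) (nat_lit 0) (XT.nd (nat_lit 78) (nat_lit 0) (nat_lit 0) (XT.lf (nat_lit 0) (nat_lit 52861101659392) (nat_lit 76) (nat_lit 18161883236853) (nat_lit 76) (nat_lit 18147805546403) (nat_lit 1) (nat_lit 4) (nat_lit 2) (nat_lit 5) (nat_lit 2) (nat_lit 4) (nat_lit 428) (nat_lit 351) (nat_lit 241)) (XT.nd (nat_lit 78) (nat_lit 0) (nat_lit 0) (XT.lf (nat_lit 0) (nat_lit 61435364832592) (nat_lit 76) (nat_lit 20539983559767) (nat_lit 76) (nat_lit 20525905868930) (nat_lit 1) (nat_lit 4) (nat_lit 2) (nat_lit 5) (nat_lit 2) (nat_lit 4) (nat_lit 429) (nat_lit 351) (nat_lit 240)) (XT.lf (nat_lit 0) (nat_lit 71295767448660) (nat_lit 76) (nat_lit 23274798948779) (nat_lit 76) (nat_lit 23260721257606) (nat_lit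 1) (nat_lit 4) (nat_lit 2) (nat_lit 5) (nat_lit 2) (nat_lit 4) (nat_lit 430) (nat_lit 351) (nat_lit 239)))) (XT.nd (nat_lit 78) (nat_lit 0) (nat_lit 0) (XT.lf (nat_lit 0) (nat_lit 82635230428344) (nat_lit 76) (nat_lit 26419836661500) (nat_lit 76) (nat_lit 26405758970035) (nat_lit 1) (nat_lit 4) (nat_lit 2) (nat_lit 5) (nat_lit 2) (nat_lit 4) (nat_lit 431) (nat_lit 351) (nat_lit 238)) (XT.nd (nat_lit 78) (nat_lit 0) (nat_lit 0) (XT.lf (nat_lit 0) (nat_lit 95675612829942) (nat_lit 76) (nat_lit 30036630044484) (nat_lit 76) (nat_lit 30022552352765) (nat_lit 1) (nat_lit 4) (nat_lit 2) (nat_lit 5) (nat_lit 2) (nat_lit 4) (nat_lit 432) (nat_lit 351) (nat_lit 237)) (XT.lf (nat_lit 0) (nat_lit 110672052570008) (nat_lit 76) (nat_lit 34195942446528) (nat_lit 76) (nat_lit 34181864754588) (nat_lit 1) (nat_lit 4) (nat_lit 2) (nat_lit 5) (nat_lit 2) (nat_lit 4) (nat_lit 433) (nat_lit 351) (nat_lit 236)))))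 (XT.nd (nat_lit 234) (nat_lit 0) (nat_lit 0) (XT.nd (nat_lit 78) (nat_lit 0) (nat_lit 0) (XT.lf (nat_lit 0) (nat_lit 127917958252151) (nat_lit 76) (nat_lit 38979151718976) (nat_lit 76) (nat_lit 38965074026844) (nat_lit 1) (nat_lit 4) (nat_lit 2) (nat_lit 5) (nat_lit 2) (nat_lit 4) (nat_lit 434) (nat_lit 351) (nat_lit 235)) (XT.nd (nat_lit 78) (nat_lit 0) (nat_lit 0) (XT.lf (nat_lit 0) (nat_lit 147750749770154) (nat_lit 76) (nat_lit 44479842391072) (nat_lit 76) (nat_lit 44465764698773) (nat_lit 1) (nat_lit 4) (nat_lit 2) (nat_lit 5) (nat_lit 2) (nat_lit 4) (nat_lit 435) (nat_lit 351) (nat_lit 234)) (XT.lf (nat_lit 0) (nat_lit 170558460001540) (nat_lit 76) (nat_lit 50805636671618) (nat_lit 76) (nat_lit 50791558979174) (nat_lit 1) (nat_lit 4) (nat_lit 2) (nat_lit 5) (nat_lit 2) (nat_lit 4) (nat_lit 436) (nat_lit 351) (nat_lit 233)))) (XT.nd (nat_lit 156) (nat_lit 0) (nat_lit 0) (XT.nd (nat_lit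 78) (nat_lit 0) (nat_lit 0) (XT.lf (nat_lit 0) (nat_lit 196787326755186) (nat_lit 76) (nat_lit 58080300100886) (nat_lit 76) (nat_lit 58066222408314) (nat_lit 1) (nat_lit 4) (nat_lit 2) (nat_lit 5) (nat_lit 2) (nat_lit 4) (nat_lit 437) (nat_lit 351) (nat_lit 232)) (XT.lf (nat_lit 0) (nat_lit 226950523511055) (nat_lit 76) (nat_lit 66446163050317) (nat_lit 76) (nat_lit 66432085357636) (nat_lit 1) (nat_lit 4) (nat_lit 2) (nat_lit 5) (nat_lit 2) (nat_lit 4) (nat_lit 438) (nat_lit 351) (nat_lit 231))) (XT.nd (nat_lit 78) (nat_lit 0) (nat_lit 0) (XT.lf (nat_lit 0) (nat_lit 261638199770891) (nat_lit 76) (nat_lit 76066905447183) (nat_lit 76) (nat_lit 76052827754406) (nat_lit 1) (nat_lit 4) (nat_lit 2) (nat_lit 5) (nat_lit 2) (nat_lit 4) (nat_lit 439) (nat_lit 351) (nat_lit 230)) (XT.lf (nat_lit 0) (nat_lit 301529027461517) (nat_lit 76) (nat_lit 87130759207944) (nat_lit 76) (nat_lit 87116681515085)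 (nat_lit 1) (nat_lit 4) (nat_lit 2) (nat_lit 5) (nat_lit 2) (nat_lit 4) (nat_lit 440) (nat_lit 351) (nat_lit 229)))))) (XT.nd (nat_lit 46332) (nat_lit 0) (nat_lit 2812) (XT.nd (nat_lit 312) (nat_lit 0) (nat_lit 0) (XT.nd (nat_lit 78) (nat_lit 0) (nat_lit 0) (XT.lf (nat_lit 0) (nat_lit 347403479298621) (nat_lit 76) (nat_lit 99854191036615) (nat_lit 76) (nat_lit 99840113343684) (nat_lit 1) (nat_lit 4) (nat_lit 2) (nat_lit 5) (nat_lit 2) (nat_lit 4) (nat_lit 441) (nat_lit 351) (nat_lit 228)) (XT.nd (nat_lit 78) (nat_lit 0) (nat_lit 0) (XT.lf (nat_lit 0) (nat_lit 400159098905099) (nat_lit 76) (nat_lit 114486137642890) (nat_lit 76) (nat_lit 114472059949895) (nat_lit 1) (nat_lit 4) (nat_lit 2) (nat_lit 5) (nat_lit 2) (nat_lit 4) (nat_lit 442) (nat_lit 351) (nat_lit 227)) (XT.lf (nat_lit 0) (nat_lit 460828061447169) (nat_lit 76) (nat_lit 131312876242974) (nat_lit 76) (nat_lit 131298798549926) (nat_lit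 1) (nat_lit 4) (nat_lit 2) (nat_lit 5) (nat_lit 2) (nat_lit 4) (nat_lit 443) (nat_lit 351) (nat_lit 226)))) (XT.nd (nat_lit 45864) (nat_lit 0) (nat_lit 3116) (XT.lf (nat_lit 0) (nat_lit 610832071318305) (nat_lit 76) (nat_lit 172916987439222) (nat_lit 76) (nat_lit 172902909746083) (nat_lit 1) (nat_lit 4) (nat_lit 2) (nat_lit 5) (nat_lit 2) (nat_lit 4) (nat_lit 445) (nat_lit 351) (nat_lit 224)) (XT.nd (nat_lit 78) (nat_lit 0) (nat_lit 0) (XT.lf (nat_lit 0) (nat_lit 2910925129) (nat_lit 380) (nat_lit 3986525468) (nat_lit 380) (nat_lit 3986525468) (nat_lit 42) (nat_lit 3) (nat_lit 47) (nat_lit 3) (nat_lit 47) (nat_lit 5) (nat_lit 352) (nat_lit 352) (nat_lit 316)) (XT.lf (nat_lit 76) (nat_lit 3145291502) (nat_lit 0) (nat_lit 3372580480) (nat_lit 380) (nat_lit 16843738718) (nat_lit 43) (nat_lit 5) (nat_lit 42) (nat_lit 3) (nat_lit 47) (nat_lit 5) (nat_lit 353) (nat_lit 352) (nat_lit 315))))) (XT.nd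 (nat_lit 234) (nat_lit 380) (nat_lit 0) (XT.nd (nat_lit 78) (nat_lit 0) (nat_lit 0) (XT.lf (nat_lit 0) (nat_lit 8088346424) (nat_lit 304) (nat_lit 8699288106) (nat_lit 380) (nat_lit 8291181516) (nat_lit 43) (nat_lit 5) (nat_lit 47) (nat_lit 5) (nat_lit 48) (nat_lit 5) (nat_lit 354) (nat_lit 352) (nat_lit 314)) (XT.nd (nat_lit 78) (nat_lit 0) (nat_lit 76) (XT.lf (nat_lit 76) (nat_lit 4795603715) (nat_lit 0) (nat_lit 5437772138) (nat_lit 380) (nat_lit 16769383473) (nat_lit 44) (nat_lit 5) (nat_lit 43) (nat_lit 5) (nat_lit 48) (nat_lit 5) (nat_lit 355) (nat_lit 352) (nat_lit 313)) (XT.lf (nat_lit 0) (nat_lit 13473780856) (nat_lit 304) (nat_lit 8209786485) (nat_lit 76) (nat_lit 7415687677) (nat_lit 44) (nat_lit 5) (nat_lit 48) (nat_lit 5) (nat_lit 45) (nat_lit 5) (nat_lit 356) (nat_lit 352) (nat_lit 312)))) (XT.nd (nat_lit 156) (nat_lit 152) (nat_lit 0) (XT.nd (nat_lit 78) (nat_lit 0) (nat_lit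 0) (XT.lf (nat_lit 0) (nat_lit 8356403270) (nat_lit 304) (nat_lit 9433091345) (nat_lit 380) (nat_lit 13632346807) (nat_lit 40) (nat_lit 5) (nat_lit 44) (nat_lit 5) (nat_lit 45) (nat_lit 5) (nat_lit 357) (nat_lit 352) (nat_lit 311)) (XT.lf (nat_lit 0) (nat_lit 23380579724) (nat_lit 380) (nat_lit 5928625888) (nat_lit 76) (nat_lit 4689411127) (nat_lit 40) (nat_lit 5) (nat_lit 45) (nat_lit 5) (nat_lit 41) (nat_lit 5) (nat_lit 358) (nat_lit 352) (nat_lit 310))) (XT.nd (nat_lit 78) (nat_lit 0) (nat_lit 0) (XT.lf (nat_lit 0) (nat_lit 14615767080) (nat_lit 152) (nat_lit 16236509992) (nat_lit 228) (nat_lit 5953341552) (nat_lit 38) (nat_lit 5) (nat_lit 40) (nat_lit 5) (nat_lit 41) (nat_lit 5) (nat_lit 359) (nat_lit 352) (nat_lit 309)) (XT.lf (nat_lit 0) (nat_lit 38893851961) (nat_lit 152) (nat_lit 849363093) (nat_lit 228) (nat_lit 245685172) (nat_lit 38) (nat_lit 5) (nat_lit 40) (nat_lit 5) (nat_lit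 41) (nat_lit 5) (nat_lit 360) (nat_lit 352) (nat_lit 308))))))) (XT.nd (nat_lit 1014) (nat_lit 988) (nat_lit 0) (XT.nd (nat_lit 468) (nat_lit 456) (nat_lit 0) (XT.nd (nat_lit 234) (nat_lit 304) (nat_lit 0) (XT.nd (nat_lit 78) (nat_lit 152) (nat_lit 0) (XT.lf (nat_lit 0) (nat_lit 7545065677) (nat_lit 228) (nat_lit 19089553027) (nat_lit 76) (nat_lit 16707399848) (nat_lit 35) (nat_lit 5) (nat_lit 38) (nat_lit 5) (nat_lit 36) (nat_lit 5) (nat_lit 361) (nat_lit 352) (nat_lit 307)) (XT.nd (nat_lit 78) (nat_lit 0) (nat_lit 0) (XT.lf (nat_lit 0) (nat_lit 6879093919) (nat_lit 152) (nat_lit 9975731238) (nat_lit 228) (nat_lit 30285193691) (nat_lit 33) (nat_lit 5) (nat_lit 35) (nat_lit 5) (nat_lit 36) (nat_lit 5) (nat_lit 362) (nat_lit 352) (nat_lit 306)) (XT.lf (nat_lit 0) (nat_lit 28977447202) (nat_lit 228) (nat_lit 12911961371) (nat_lit 76) (nat_lit 9405852158) (nat_lit 33) (nat_lit 5) (nat_lit 36)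 (nat_lit 5) (nat_lit 34) (nat_lit 4) (nat_lit 363) (nat_lit 352) (nat_lit 305)))) (XT.nd (nat_lit 78) (nat_lit 228) (nat_lit 0) (XT.lf (nat_lit 0) (nat_lit 19815712236) (nat_lit 76) (nat_lit 24390321749) (nat_lit 152) (nat_lit 11674620360) (nat_lit 32) (nat_lit 5) (nat_lit 33) (nat_lit 5) (nat_lit 34) (nat_lit 4) (nat_lit 364) (nat_lit 352) (nat_lit 304)) (XT.nd (nat_lit 78) (nat_lit 152) (nat_lit 0) (XT.lf (nat_lit 0) (nat_lit 1214023994) (nat_lit 152) (nat_lit 2217404456) (nat_lit 76) (nat_lit 57614028237) (nat_lit 31) (nat_lit 5) (nat_lit 33) (nat_lit 5) (nat_lit 32) (nat_lit 5) (nat_lit 365) (nat_lit 352) (nat_lit 303)) (XT.lf (nat_lit 0) (nat_lit 17437118440) (nat_lit 228) (nat_lit 27944696280) (nat_lit 76) (nat_lit 21130313453) (nat_lit 29) (nat_lit 5) (nat_lit 32) (nat_lit 5) (nat_lit 30) (nat_lit 4) (nat_lit 366) (nat_lit 352) (nat_lit 302))))) (XT.nd (nat_lit 234) (nat_lit 228)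 (nat_lit 0) (XT.nd (nat_lit 78) (nat_lit 152) (nat_lit 0) (XT.lf (nat_lit 0) (nat_lit 14004115374) (nat_lit 76) (nat_lit 22947744915) (nat_lit 152) (nat_lit 35718213273) (nat_lit 28) (nat_lit 5) (nat_lit 29) (nat_lit 5) (nat_lit 30) (nat_lit 4) (nat_lit 367) (nat_lit 352) (nat_lit 301)) (XT.nd (nat_lit 78) (nat_lit 152) (nat_lit 0) (XT.lf (nat_lit 0) (nat_lit 61035858921) (nat_lit 152) (nat_lit 14346068676) (nat_lit 0) (nat_lit 4123476913) (nat_lit 28) (nat_lit 5) (nat_lit 30) (nat_lit 4) (nat_lit 28) (nat_lit 4) (nat_lit 368) (nat_lit 352) (nat_lit 300)) (XT.lf (nat_lit 0) (nat_lit 4075167058) (nat_lit 152) (nat_lit 48155956242) (nat_lit 76) (nat_lit 34701866169) (nat_lit 26) (nat_lit 5) (nat_lit 28) (nat_lit 5) (nat_lit 27) (nat_lit 4) (nat_lit 369) (nat_lit 352) (nat_lit 299)))) (XT.nd (nat_lit 156) (nat_lit 152) (nat_lit 0) (XT.nd (nat_lit 78) (nat_lit 0) (nat_lit 0) (XT.lf (nat_lit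 0) (nat_lit 5700750106) (nat_lit 76) (nat_lit 23426144236) (nat_lit 152) (nat_lit 66063457273) (nat_lit 25) (nat_lit 5) (nat_lit 26) (nat_lit 5) (nat_lit 27) (nat_lit 4) (nat_lit 370) (nat_lit 352) (nat_lit 298)) (XT.lf (nat_lit 0) (nat_lit 60969807588) (nat_lit 152) (nat_lit 31792551934) (nat_lit 0) (nat_lit 11468944862) (nat_lit 25) (nat_lit 5) (nat_lit 27) (nat_lit 4) (nat_lit 25) (nat_lit 4) (nat_lit 371) (nat_lit 352) (nat_lit 297))) (XT.nd (nat_lit 78) (nat_lit 76) (nat_lit 0) (XT.lf (nat_lit 0) (nat_lit 36701991359) (nat_lit 76) (nat_lit 63517818755) (nat_lit 76) (nat_lit 14013992397) (nat_lit 24) (nat_lit 4) (nat_lit 25) (nat_lit 5) (nat_lit 25) (nat_lit 4) (nat_lit 372) (nat_lit 352) (nat_lit 296)) (XT.lf (nat_lit 0) (nat_lit 19610303277) (nat_lit 152) (nat_lit 7344251382) (nat_lit 76) (nat_lit 98399789033) (nat_lit 23) (nat_lit 5) (nat_lit 25) (nat_lit 5) (nat_lit 24) (nat_lit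 4) (nat_lit 373) (nat_lit 352) (nat_lit 295)))))) (XT.nd (nat_lit 546) (nat_lit 456) (nat_lit 0) (XT.nd (nat_lit 234) (nat_lit 304) (nat_lit 0) (XT.nd (nat_lit 78) (nat_lit 152) (nat_lit 0) (XT.lf (nat_lit 0) (nat_lit 60957806907) (nat_lit 152) (nat_lit 58561098150) (nat_lit 0) (nat_lit 17906811811) (nat_lit 22) (nat_lit 5) (nat_lit 24) (nat_lit 4) (nat_lit 22) (nat_lit 4) (nat_lit 374) (nat_lit 352) (nat_lit 294)) (XT.nd (nat_lit 78) (nat_lit 76) (nat_lit 0) (XT.lf (nat_lit 0) (nat_lit 28837576572) (nat_lit 76) (nat_lit 82545761908) (nat_lit 76) (nat_lit 39493072346) (nat_lit 21) (nat_lit 4) (nat_lit 22) (nat_lit 5) (nat_lit 22) (nat_lit 4) (nat_lit 375) (nat_lit 352) (nat_lit 293)) (XT.lf (nat_lit 0) (nat_lit 5961422425) (nat_lit 152) (nat_lit 30237104795) (nat_lit 76) (nat_lit 129646923754) (nat_lit 20) (nat_lit 5) (nat_lit 22) (nat_lit 5) (nat_lit 21) (nat_lit 4) (nat_lit 376) (nat_lit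 352) (nat_lit 292)))) (XT.nd (nat_lit 156) (nat_lit 152) (nat_lit 0) (XT.nd (nat_lit 78) (nat_lit 76) (nat_lit 0) (XT.lf (nat_lit 0) (nat_lit 58482359554) (nat_lit 152) (nat_lit 102608810554) (nat_lit 0) (nat_lit 21042842796) (nat_lit 19) (nat_lit 5) (nat_lit 21) (nat_lit 4) (nat_lit 19) (nat_lit 4) (nat_lit 377) (nat_lit 352) (nat_lit 291)) (XT.lf (nat_lit 0) (nat_lit 7371657475) (nat_lit 76) (nat_lit 115191234551) (nat_lit 76) (nat_lit 77750748977) (nat_lit 18) (nat_lit 4) (nat_lit 19) (nat_lit 5) (nat_lit 19) (nat_lit 4) (nat_lit 378) (nat_lit 352) (nat_lit 290))) (XT.nd (nat_lit 78) (nat_lit 152) (nat_lit 0) (XT.lf (nat_lit 0) (nat_lit 145374407389) (nat_lit 76) (nat_lit 56241534222) (nat_lit 76) (nat_lit 18800206199) (nat_lit 18) (nat_lit 4) (nat_lit 19) (nat_lit 5) (nat_lit 19) (nat_lit 4) (nat_lit 379) (nat_lit 352) (nat_lit 289)) (XT.lf (nat_lit 0) (nat_lit 47989205113) (nat_lit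 152) (nat_lit 179305933871) (nat_lit 0) (nat_lit 15430891558) (nat_lit 16) (nat_lit 5) (nat_lit 18) (nat_lit 4) (nat_lit 16) (nat_lit 4) (nat_lit 380) (nat_lit 352) (nat_lit 288))))) (XT.nd (nat_lit 234) (nat_lit 228) (nat_lit 0) (XT.nd (nat_lit 78) (nat_lit 228) (nat_lit 0) (XT.lf (nat_lit 0) (nat_lit 129656940485) (nat_lit 152) (nat_lit 40475390752) (nat_lit 0) (nat_lit 97098073006) (nat_lit 16) (nat_lit 5) (nat_lit 18) (nat_lit 4) (nat_lit 16) (nat_lit 4) (nat_lit 381) (nat_lit 352) (nat_lit 287)) (XT.nd (nat_lit 78) (nat_lit 152) (nat_lit 0) (XT.lf (nat_lit 0) (nat_lit 130821059862) (nat_lit 76) (nat_lit 98168274316) (nat_lit 76) (nat_lit 65608925165) (nat_lit 15) (nat_lit 4) (nat_lit 16) (nat_lit 5) (nat_lit 16) (nat_lit 4) (nat_lit 382) (nat_lit 352) (nat_lit 286)) (XT.lf (nat_lit 0) (nat_lit 6356661819) (nat_lit 76) (nat_lit 11744003211) (nat_lit 152) (nat_lit 307492522857) (nat_lit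 13) (nat_lit 5) (nat_lit 14) (nat_lit 5) (nat_lit 15) (nat_lit 4) (nat_lit 383) (nat_lit 352) (nat_lit 285)))) (XT.nd (nat_lit 156) (nat_lit 152) (nat_lit 0) (XT.nd (nat_lit 78) (nat_lit 76) (nat_lit 0) (XT.lf (nat_lit 0) (nat_lit 120244982021) (nat_lit 152) (nat_lit 146702606092) (nat_lit 0) (nat_lit 91931823575) (nat_lit 13) (nat_lit 5) (nat_lit 15) (nat_lit 4) (nat_lit 13) (nat_lit 4) (nat_lit 384) (nat_lit 352) (nat_lit 284)) (XT.lf (nat_lit 0) (nat_lit 56146079045) (nat_lit 76) (nat_lit 184446815819) (nat_lit 76) (nat_lit 156133381976) (nat_lit 12) (nat_lit 4) (nat_lit 13) (nat_lit 5) (nat_lit 13) (nat_lit 4) (nat_lit 385) (nat_lit 352) (nat_lit 283))) (XT.nd (nat_lit 78) (nat_lit 152) (nat_lit 0) (XT.lf (nat_lit 0) (nat_lit 305905051533) (nat_lit 76) (nat_lit 80754411646) (nat_lit 76) (nat_lit 52440738327) (nat_lit 12) (nat_lit 4) (nat_lit 13) (nat_lit 5) (nat_lit 13) (nat_lit 4) (nat_lit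 386) (nat_lit 352) (nat_lit 282)) (XT.lf (nat_lit 0) (nat_lit 67464157311) (nat_lit 152) (nat_lit 376116843489) (nat_lit 0) (nat_lit 42843390737) (nat_lit 10) (nat_lit 5) (nat_lit 12) (nat_lit 4) (nat_lit 10) (nat_lit 4) (nat_lit 387) (nat_lit 352) (nat_lit 281))))))))
noncomputable def xc67 : XT := (XT.nd (nat_lit 2106) (nat_lit 0) (nat_lit 0) (XT.nd (nat_lit 1014) (nat_lit 228) (nat_lit 0) (XT.nd (nat_lit 468) (nat_lit 152) (nat_lit 0) (XT.nd (nat_lit 234) (nat_lit 228) (nat_lit 0) (XT.nd (nat_lit 78) (nat_lit 76) (nat_lit 0) (XT.lf (nat_lit 0) (nat_lit 211123436149) (nat_lit 152) (nat_lit 141176047883) (nat_lit 0) (nat_lit 186502512115) (nat_lit 10) (nat_lit 5) (nat_lit 12) (nat_lit 4) (nat_lit 10) (nat_lit 4) (nat_lit 388) (nat_lit 352) (nat_lit 280)) (XT.nd (nat_lit 78) (nat_lit 0) (nat_lit 0) (XT.lf (nat_lit 0) (nat_lit 141609435042) (nat_lit 76) (nat_lit 240584275879) (nat_lit 76)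 (nat_lit 215963214924) (nat_lit 9) (nat_lit 4) (nat_lit 10) (nat_lit 5) (nat_lit 10) (nat_lit 4) (nat_lit 389) (nat_lit 352) (nat_lit 279)) (XT.lf (nat_lit 0) (nat_lit 482675678216) (nat_lit 76) (nat_lit 103626941449) (nat_lit 76) (nat_lit 79005761432) (nat_lit 9) (nat_lit 4) (nat_lit 10) (nat_lit 5) (nat_lit 10) (nat_lit 4) (nat_lit 390) (nat_lit 352) (nat_lit 278)))) (XT.nd (nat_lit 78) (nat_lit 76) (nat_lit 0) (XT.lf (nat_lit 0) (nat_lit 80039586276) (nat_lit 152) (nat_lit 602095774640) (nat_lit 0) (nat_lit 58629774494) (nat_lit 7) (nat_lit 5) (nat_lit 9) (nat_lit 4) (nat_lit 7) (nat_lit 4) (nat_lit 391) (nat_lit 352) (nat_lit 277)) (XT.nd (nat_lit 78) (nat_lit 76) (nat_lit 0) (XT.lf (nat_lit 0) (nat_lit 269787559530) (nat_lit 152) (nat_lit 306570670746) (nat_lit 0) (nat_lit 248377669461) (nat_lit 7) (nat_lit 5) (nat_lit 9) (nat_lit 4) (nat_lit 7) (nat_lit 4) (nat_lit 392) (nat_lit 352)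 (nat_lit 276)) (XT.lf (nat_lit 0) (nat_lit 36532979798) (nat_lit 76) (nat_lit 452976264842) (nat_lit 76) (nat_lit 431566306700) (nat_lit 6) (nat_lit 4) (nat_lit 7) (nat_lit 5) (nat_lit 7) (nat_lit 4) (nat_lit 393) (nat_lit 352) (nat_lit 275))))) (XT.nd (nat_lit 234) (nat_lit 76) (nat_lit 0) (XT.nd (nat_lit 78) (nat_lit 76) (nat_lit 0) (XT.lf (nat_lit 0) (nat_lit 465554023267) (nat_lit 76) (nat_lit 292659264486) (nat_lit 76) (nat_lit 271249247149) (nat_lit 6) (nat_lit 4) (nat_lit 7) (nat_lit 5) (nat_lit 7) (nat_lit 4) (nat_lit 394) (nat_lit 352) (nat_lit 274)) (XT.nd (nat_lit 78) (nat_lit 76) (nat_lit 0) (XT.lf (nat_lit 0) (nat_lit 958926034091) (nat_lit 76) (nat_lit 108295877308) (nat_lit 76) (nat_lit 86885808497) (nat_lit 6) (nat_lit 4) (nat_lit 7) (nat_lit 5) (nat_lit 7) (nat_lit 4) (nat_lit 395) (nat_lit 352) (nat_lit 273)) (XT.lf (nat_lit 0) (nat_lit 129183668411) (nat_lit 76) (nat_lit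 1054643869874) (nat_lit 0) (nat_lit 110566178350) (nat_lit 5) (nat_lit 5) (nat_lit 6) (nat_lit 4) (nat_lit 5) (nat_lit 4) (nat_lit 396) (nat_lit 352) (nat_lit 272)))) (XT.nd (nat_lit 156) (nat_lit 76) (nat_lit 0) (XT.nd (nat_lit 78) (nat_lit 0) (nat_lit 0) (XT.lf (nat_lit 0) (nat_lit 384612648977) (nat_lit 76) (nat_lit 702117545832) (nat_lit 0) (nat_lit 365995125070) (nat_lit 5) (nat_lit 5) (nat_lit 6) (nat_lit 4) (nat_lit 5) (nat_lit 4) (nat_lit 397) (nat_lit 352) (nat_lit 271)) (XT.lf (nat_lit 0) (nat_lit 678355164900) (nat_lit 76) (nat_lit 296714008909) (nat_lit 0) (nat_lit 659737611562) (nat_lit 5) (nat_lit 5) (nat_lit 6) (nat_lit 4) (nat_lit 5) (nat_lit 4) (nat_lit 398) (nat_lit 352) (nat_lit 270))) (XT.nd (nat_lit 78) (nat_lit 0) (nat_lit 0) (XT.lf (nat_lit 0) (nat_lit 186063180173) (nat_lit 76) (nat_lit 837799651698) (nat_lit 76) (nat_lit 819182072769) (nat_lit 4) (nat_lit 4) (nat_lit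 5) (nat_lit 5) (nat_lit 5) (nat_lit 4) (nat_lit 399) (nat_lit 352) (nat_lit 269)) (XT.lf (nat_lit 0) (nat_lit 774602115400) (nat_lit 76) (nat_lit 662103910515) (nat_lit 76) (nat_lit 643486309333) (nat_lit 4) (nat_lit 4) (nat_lit 5) (nat_lit 5) (nat_lit 5) (nat_lit 4) (nat_lit 400) (nat_lit 352) (nat_lit 268)))))) (XT.nd (nat_lit 546) (nat_lit 76) (nat_lit 0) (XT.nd (nat_lit 234) (nat_lit 0) (nat_lit 0) (XT.nd (nat_lit 78) (nat_lit 152) (nat_lit 0) (XT.lf (nat_lit 0) (nat_lit 1451420638111) (nat_lit 76) (nat_lit 460054475356) (nat_lit 76) (nat_lit 441436854822) (nat_lit 4) (nat_lit 4) (nat_lit 5) (nat_lit 5) (nat_lit 5) (nat_lit 4) (nat_lit 401) (nat_lit 352) (nat_lit 267)) (XT.nd (nat_lit 78) (nat_lit 152) (nat_lit 0) (XT.lf (nat_lit 0) (nat_lit 2229760849838) (nat_lit 76) (nat_lit 227698205096) (nat_lit 76) (nat_lit 209080567736) (nat_lit 4) (nat_lit 4) (nat_lit 5) (nat_lit 5) (nat_lit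 5) (nat_lit 4) (nat_lit 402) (nat_lit 352) (nat_lit 266)) (XT.lf (nat_lit 0) (nat_lit 59239212174) (nat_lit 152) (nat_lit 2923618446301) (nat_lit 0) (nat_lit 43049949572) (nat_lit 2) (nat_lit 5) (nat_lit 4) (nat_lit 4) (nat_lit 2) (nat_lit 4) (nat_lit 403) (nat_lit 352) (nat_lit 265)))) (XT.nd (nat_lit 156) (nat_lit 0) (nat_lit 0) (XT.nd (nat_lit 78) (nat_lit 0) (nat_lit 0) (XT.lf (nat_lit 0) (nat_lit 381162237135) (nat_lit 152) (nat_lit 2686337986142) (nat_lit 0) (nat_lit 364972963469) (nat_lit 2) (nat_lit 5) (nat_lit 4) (nat_lit 4) (nat_lit 2) (nat_lit 4) (nat_lit 404) (nat_lit 352) (nat_lit 264)) (XT.lf (nat_lit 0) (nat_lit 751373312781) (nat_lit 152) (nat_lit 2413466320437) (nat_lit 0) (nat_lit 735184029494) (nat_lit 2) (nat_lit 5) (nat_lit 4) (nat_lit 4) (nat_lit 2) (nat_lit 4) (nat_lit 405) (nat_lit 352) (nat_lit 263))) (XT.nd (nat_lit 78) (nat_lit 0) (nat_lit 0) (XT.lf (nat_lit 0)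 (nat_lit 1177115699286) (nat_lit 152) (nat_lit 2099664655726) (nat_lit 0) (nat_lit 1160926407633) (nat_lit 2) (nat_lit 5) (nat_lit 4) (nat_lit 4) (nat_lit 2) (nat_lit 4) (nat_lit 406) (nat_lit 352) (nat_lit 262)) (XT.lf (nat_lit 0) (nat_lit 1666719138996) (nat_lit 152) (nat_lit 1738793394220) (nat_lit 0) (nat_lit 1650529840069) (nat_lit 2) (nat_lit 5) (nat_lit 4) (nat_lit 4) (nat_lit 2) (nat_lit 4) (nat_lit 407) (nat_lit 352) (nat_lit 261))))) (XT.nd (nat_lit 234) (nat_lit 76) (nat_lit 0) (XT.nd (nat_lit 78) (nat_lit 0) (nat_lit 0) (XT.lf (nat_lit 0) (nat_lit 2229762829644) (nat_lit 152) (nat_lit 1323792011239) (nat_lit 0) (nat_lit 2213573524391) (nat_lit 2) (nat_lit 5) (nat_lit 4) (nat_lit 4) (nat_lit 2) (nat_lit 4) (nat_lit 408) (nat_lit 352) (nat_lit 260)) (XT.nd (nat_lit 78) (nat_lit 0) (nat_lit 0) (XT.lf (nat_lit 0) (nat_lit 2877262843439) (nat_lit 152) (nat_lit 846540914507) (nat_lit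 0) (nat_lit 2861073532685) (nat_lit 2) (nat_lit 5) (nat_lit 4) (nat_lit 4) (nat_lit 2) (nat_lit 4) (nat_lit 409) (nat_lit 352) (nat_lit 259)) (XT.lf (nat_lit 0) (nat_lit 3621887658910) (nat_lit 152) (nat_lit 297702582565) (nat_lit 0) (nat_lit 3605698343373) (nat_lit 2) (nat_lit 5) (nat_lit 4) (nat_lit 4) (nat_lit 2) (nat_lit 4) (nat_lit 410) (nat_lit 352) (nat_lit 258)))) (XT.nd (nat_lit 156) (nat_lit 0) (nat_lit 0) (XT.nd (nat_lit 78) (nat_lit 0) (nat_lit 0) (XT.lf (nat_lit 0) (nat_lit 366049372253) (nat_lit 76) (nat_lit 4127313974098) (nat_lit 76) (nat_lit 4111124654401) (nat_lit 1) (nat_lit 4) (nat_lit 2) (nat_lit 5) (nat_lit 2) (nat_lit 4) (nat_lit 411) (nat_lit 352) (nat_lit 257)) (XT.lf (nat_lit 0) (nat_lit 1162821474658) (nat_lit 76) (nat_lit 4348300471877) (nat_lit 76) (nat_lit 4332111148564) (nat_lit 1) (nat_lit 4) (nat_lit 2) (nat_lit 5) (nat_lit 2) (nat_lit 4) (nat_lit 412) (nat_lit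 352) (nat_lit 256))) (XT.nd (nat_lit 78) (nat_lit 0) (nat_lit 0) (XT.lf (nat_lit 0) (nat_lit 2079109082566) (nat_lit 76) (nat_lit 4602435109589) (nat_lit 76) (nat_lit 4586245783131) (nat_lit 1) (nat_lit 4) (nat_lit 2) (nat_lit 5) (nat_lit 2) (nat_lit 4) (nat_lit 413) (nat_lit 352) (nat_lit 255)) (XT.lf (nat_lit 0) (nat_lit 3132839562218) (nat_lit 76) (nat_lit 4894690086668) (nat_lit 76) (nat_lit 4878500757475) (nat_lit 1) (nat_lit 4) (nat_lit 2) (nat_lit 5) (nat_lit 2) (nat_lit 4) (nat_lit 414) (nat_lit 352) (nat_lit 254))))))) (XT.nd (nat_lit 1014) (nat_lit 0) (nat_lit 0) (XT.nd (nat_lit 468) (nat_lit 0) (nat_lit 0) (XT.nd (nat_lit 234) (nat_lit 0) (nat_lit 0) (XT.nd (nat_lit 78) (nat_lit 0) (nat_lit 0) (XT.lf (nat_lit 0) (nat_lit 4344629379521) (nat_lit 76) (nat_lit 5230783435274) (nat_lit 76) (nat_lit 5214594103702) (nat_lit 1) (nat_lit 4) (nat_lit 2) (nat_lit 5) (nat_lit 2) (nat_lit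 4) (nat_lit 415) (nat_lit 352) (nat_lit 253)) (XT.nd (nat_lit 78) (nat_lit 0) (nat_lit 0) (XT.lf (nat_lit 0) (nat_lit 5738187465684) (nat_lit 76) (nat_lit 5617290894836) (nat_lit 76) (nat_lit 5601101561196) (nat_lit 1) (nat_lit 4) (nat_lit 2) (nat_lit 5) (nat_lit 2) (nat_lit 4) (nat_lit 416) (nat_lit 352) (nat_lit 252)) (XT.lf (nat_lit 0) (nat_lit 7340779087608) (nat_lit 76) (nat_lit 6061774567824) (nat_lit 76) (nat_lit 6045585232386) (nat_lit 1) (nat_lit 4) (nat_lit 2) (nat_lit 5) (nat_lit 2) (nat_lit 4) (nat_lit 417) (nat_lit 352) (nat_lit 251)))) (XT.nd (nat_lit 78) (nat_lit 0) (nat_lit 0) (XT.lf (nat_lit 0) (nat_lit 9183759298766) (nat_lit 76) (nat_lit 6572930873926) (nat_lit 76) (nat_lit 6556741536925) (nat_lit 1) (nat_lit 4) (nat_lit 2) (nat_lit 5) (nat_lit 2) (nat_lit 4) (nat_lit 418) (nat_lit 352) (nat_lit 250)) (XT.nd (nat_lit 78) (nat_lit 0) (nat_lit 0) (XT.lf (nat_lit 0) (nat_lit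 11303186407639) (nat_lit 76) (nat_lit 7160760697393) (nat_lit 76) (nat_lit 7144571359032) (nat_lit 1) (nat_lit 4) (nat_lit 2) (nat_lit 5) (nat_lit 2) (nat_lit 4) (nat_lit 419) (nat_lit 352) (nat_lit 249)) (XT.lf (nat_lit 0) (nat_lit 13740527466355) (nat_lit 76) (nat_lit 7836765056510) (nat_lit 76) (nat_lit 7820575716967) (nat_lit 1) (nat_lit 4) (nat_lit 2) (nat_lit 5) (nat_lit 2) (nat_lit 4) (nat_lit 420) (nat_lit 352) (nat_lit 248))))) (XT.nd (nat_lit 234) (nat_lit 0) (nat_lit 0) (XT.nd (nat_lit 78) (nat_lit 0) (nat_lit 0) (XT.lf (nat_lit 0) (nat_lit 16543469582586) (nat_lit 76) (nat_lit 8614170123520) (nat_lit 76) (nat_lit 8597980782949) (nat_lit 1) (nat_lit 4) (nat_lit 2) (nat_lit 5) (nat_lit 2) (nat_lit 4) (nat_lit 421) (nat_lit 352) (nat_lit 247)) (XT.nd (nat_lit 78) (nat_lit 0) (nat_lit 0) (XT.lf (nat_lit 0) (nat_lit 19766852928170) (nat_lit 76) (nat_lit 9508185997561) (nat_lit 76)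 (nat_lit 9491996656095) (nat_lit 1) (nat_lit 4) (nat_lit 2) (nat_lit 5) (nat_lit 2) (nat_lit 4) (nat_lit 422) (nat_lit 352) (nat_lit 246)) (XT.lf (nat_lit 0) (nat_lit 23473743699000) (nat_lit 76) (nat_lit 10536304293559) (nat_lit 76) (nat_lit 10520114951316) (nat_lit 1) (nat_lit 4) (nat_lit 2) (nat_lit 5) (nat_lit 2) (nat_lit 4) (nat_lit 423) (nat_lit 352) (nat_lit 245)))) (XT.nd (nat_lit 156) (nat_lit 0) (nat_lit 0) (XT.nd (nat_lit 78) (nat_lit 0) (nat_lit 0) (XT.lf (nat_lit 0) (nat_lit 27736668018852) (nat_lit 76) (nat_lit 11718640369479) (nat_lit 76) (nat_lit 11702451026561) (nat_lit 1) (nat_lit 4) (nat_lit 2) (nat_lit 5) (nat_lit 2) (nat_lit 4) (nat_lit 424) (nat_lit 352) (nat_lit 244)) (XT.lf (nat_lit 0) (nat_lit 32639030928768) (nat_lit 76) (nat_lit 13078326887678) (nat_lit 76) (nat_lit 13062137544171) (nat_lit 1) (nat_lit 4) (nat_lit 2) (nat_lit 5) (nat_lit 2) (nat_lit 4) (nat_lit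 425) (nat_lit 352) (nat_lit 243))) (XT.nd (nat_lit 78) (nat_lit 0) (nat_lit 0) (XT.lf (nat_lit 0) (nat_lit 38276748224810) (nat_lit 76) (nat_lit 14641966410466) (nat_lit 76) (nat_lit 14625777066448) (nat_lit 1) (nat_lit 4) (nat_lit 2) (nat_lit 5) (nat_lit 2) (nat_lit 4) (nat_lit 426) (nat_lit 352) (nat_lit 242)) (XT.lf (nat_lit 0) (nat_lit 44760123071467) (nat_lit 76) (nat_lit 16440151885029) (nat_lit 76) (nat_lit 16423962540567) (nat_lit 1) (nat_lit 4) (nat_lit 2) (nat_lit 5) (nat_lit 2) (nat_lit 4) (nat_lit 427) (nat_lit 352) (nat_lit 241)))))) (XT.nd (nat_lit 546) (nat_lit 0) (nat_lit 0) (XT.nd (nat_lit 234) (nat_lit 0) (nat_lit 0) (XT.nd (nat_lit 78) (nat_lit 0) (nat_lit 0) (XT.lf (nat_lit 0) (nat_lit 52216004107043) (nat_lit 76) (nat_lit 18508065201088) (nat_lit 76) (nat_lit 18491875856239) (nat_lit 1) (nat_lit 4) (nat_lit 2) (nat_lit 5) (nat_lit 2) (nat_lit 4) (nat_lit 428) (nat_lit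 352) (nat_lit 240)) (XT.nd (nat_lit 78) (nat_lit 0) (nat_lit 0) (XT.lf (nat_lit 0) (nat_lit 60790267264842) (nat_lit 76) (nat_lit 20886165532216) (nat_lit 76) (nat_lit 20869976187031) (nat_lit 1) (nat_lit 4) (nat_lit 2) (nat_lit 5) (nat_lit 2) (nat_lit 4) (nat_lit 429) (nat_lit 352) (nat_lit 239)) (XT.lf (nat_lit 0) (nat_lit 70650669867517) (nat_lit 76) (nat_lit 23620980928371) (nat_lit 76) (nat_lit 23604791582894) (nat_lit 1) (nat_lit 4) (nat_lit 2) (nat_lit 5) (nat_lit 2) (nat_lit 4) (nat_lit 430) (nat_lit 352) (nat_lit 238)))) (XT.nd (nat_lit 156) (nat_lit 0) (nat_lit 0) (XT.nd (nat_lit 78) (nat_lit 0) (nat_lit 0) (XT.lf (nat_lit 0) (nat_lit 81990132835555) (nat_lit 76) (nat_lit 26766018647303) (nat_lit 76) (nat_lit 26749829301572) (nat_lit 1) (nat_lit 4) (nat_lit 2) (nat_lit 5) (nat_lit 2) (nat_lit 4) (nat_lit 431) (nat_lit 352) (nat_lit 237)) (XT.lf (nat_lit 0) (nat_lit 95030515227027)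 (nat_lit 76) (nat_lit 30382812035689) (nat_lit 76) (nat_lit 30366622689736) (nat_lit 1) (nat_lit 4) (nat_lit 2) (nat_lit 5) (nat_lit 2) (nat_lit 4) (nat_lit 432) (nat_lit 352) (nat_lit 236))) (XT.nd (nat_lit 78) (nat_lit 0) (nat_lit 0) (XT.lf (nat_lit 0) (nat_lit 110026954958287) (nat_lit 76) (nat_lit 34542124442429) (nat_lit 76) (nat_lit 34525935096284) (nat_lit 1) (nat_lit 4) (nat_lit 2) (nat_lit 5) (nat_lit 2) (nat_lit 4) (nat_lit 433) (nat_lit 352) (nat_lit 235)) (XT.lf (nat_lit 0) (nat_lit 127272860632773) (nat_lit 76) (nat_lit 39325333718961) (nat_lit 76) (nat_lit 39309144372649) (nat_lit 1) (nat_lit 4) (nat_lit 2) (nat_lit 5) (nat_lit 2) (nat_lit 4) (nat_lit 434) (nat_lit 352) (nat_lit 234))))) (XT.nd (nat_lit 234) (nat_lit 0) (nat_lit 0) (XT.nd (nat_lit 78) (nat_lit 0) (nat_lit 0) (XT.lf (nat_lit 0) (nat_lit 147105652144117) (nat_lit 76) (nat_lit 44826024394609) (nat_lit 76) (nat_lit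 44809835048152) (nat_lit 1) (nat_lit 4) (nat_lit 2) (nat_lit 5) (nat_lit 2) (nat_lit 4) (nat_lit 435) (nat_lit 352) (nat_lit 233)) (XT.nd (nat_lit 78) (nat_lit 0) (nat_lit 0) (XT.lf (nat_lit 0) (nat_lit 169913362369714) (nat_lit 76) (nat_lit 51151818678243) (nat_lit 76) (nat_lit 51135629331660) (nat_lit 1) (nat_lit 4) (nat_lit 2) (nat_lit 5) (nat_lit 2) (nat_lit 4) (nat_lit 436) (nat_lit 352) (nat_lit 232)) (XT.lf (nat_lit 0) (nat_lit 196142229118325) (nat_lit 76) (nat_lit 58426482110195) (nat_lit 76) (nat_lit 58410292763503) (nat_lit 1) (nat_lit 4) (nat_lit 2) (nat_lit 5) (nat_lit 2) (nat_lit 4) (nat_lit 437) (nat_lit 352) (nat_lit 231)))) (XT.nd (nat_lit 156) (nat_lit 0) (nat_lit 0) (XT.nd (nat_lit 78) (nat_lit 0) (nat_lit 0) (XT.lf (nat_lit 0) (nat_lit 226305425869815) (nat_lit 76) (nat_lit 66792345061962) (nat_lit 76) (nat_lit 66776155715173) (nat_lit 1) (nat_lit 4) (nat_lit 2) (nat_lit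 5) (nat_lit 2) (nat_lit 4) (nat_lit 438) (nat_lit 352) (nat_lit 230)) (XT.lf (nat_lit 0) (nat_lit 260993102125844) (nat_lit 76) (nat_lit 76413087460858) (nat_lit 76) (nat_lit 76396898113986) (nat_lit 1) (nat_lit 4) (nat_lit 2) (nat_lit 5) (nat_lit 2) (nat_lit 4) (nat_lit 439) (nat_lit 352) (nat_lit 229))) (XT.nd (nat_lit 78) (nat_lit 0) (nat_lit 0) (XT.lf (nat_lit 0) (nat_lit 300883929813160) (nat_lit 76) (nat_lit 87476941223385) (nat_lit 76) (nat_lit 87460751876442) (nat_lit 1) (nat_lit 4) (nat_lit 2) (nat_lit 5) (nat_lit 2) (nat_lit 4) (nat_lit 440) (nat_lit 352) (nat_lit 228)) (XT.lf (nat_lit 0) (nat_lit 346758381647385) (nat_lit 76) (nat_lit 100200373053593) (nat_lit 76) (nat_lit 100184183706585) (nat_lit 1) (nat_lit 4) (nat_lit 2) (nat_lit 5) (nat_lit 2) (nat_lit 4) (nat_lit 441) (nat_lit 352) (nat_lit 227))))))))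
noncomputable def xc68 : XT := (XT.nd (nat_lit 47892) (nat_lit 0) (nat_lit 228) (XT.nd (nat_lit 46878) (nat_lit 0) (nat_lit 1672) (XT.nd (nat_lit 46332) (nat_lit 0) (nat_lit 2812) (XT.nd (nat_lit 234) (nat_lit 0) (nat_lit 0) (XT.nd (nat_lit 78) (nat_lit 0) (nat_lit 0) (XT.lf (nat_lit 0) (nat_lit 399514001251361) (nat_lit 76) (nat_lit 114832319661202) (nat_lit 76) (nat_lit 114816130314140) (nat_lit 1) (nat_lit 4) (nat_lit 2) (nat_lit 5) (nat_lit 2) (nat_lit 4) (nat_lit 442) (nat_lit 352) (nat_lit 226)) (XT.nd (nat_lit 78) (nat_lit 0) (nat_lit 0) (XT.lf (nat_lit 0) (nat_lit 460182963791254) (nat_lit 76) (nat_lit 131659058262448) (nat_lit 76) (nat_lit 131642868915338) (nat_lit 1) (nat_lit 4) (nat_lit 2) (nat_lit 5) (nat_lit 2) (nat_lit 4) (nat_lit 443) (nat_lit 352) (nat_lit 225)) (XT.lf (nat_lit 0) (nat_lit 529952270708062) (nat_lit 76) (nat_lit 151009807656051) (nat_lit 76) (nat_lit 150993618308900)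 (nat_lit 1) (nat_lit 4) (nat_lit 2) (nat_lit 5) (nat_lit 2) (nat_lit 4) (nat_lit 444) (nat_lit 352) (nat_lit 224)))) (XT.nd (nat_lit 45942) (nat_lit 0) (nat_lit 3116) (XT.lf (nat_lit 0) (nat_lit 610186973658851) (nat_lit 76) (nat_lit 173263169460582) (nat_lit 76) (nat_lit 173246980113396) (nat_lit 1) (nat_lit 4) (nat_lit 2) (nat_lit 5) (nat_lit 2) (nat_lit 4) (nat_lit 445) (nat_lit 352) (nat_lit 223)) (XT.nd (nat_lit 78) (nat_lit 0) (nat_lit 0) (XT.lf (nat_lit 0) (nat_lit 3471359497) (nat_lit 380) (nat_lit 4513307249) (nat_lit 380) (nat_lit 4513307249) (nat_lit 42) (nat_lit 3) (nat_lit 47) (nat_lit 3) (nat_lit 47) (nat_lit 5) (nat_lit 353) (nat_lit 353) (nat_lit 314)) (XT.lf (nat_lit 76) (nat_lit 3753006848) (nat_lit 0) (nat_lit 3963470847) (nat_lit 380) (nat_lit 19116185191) (nat_lit 43) (nat_lit 5) (nat_lit 42) (nat_lit 3) (nat_lit 47) (nat_lit 5) (nat_lit 354) (nat_lit 353) (nat_lit 313)))))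 (XT.nd (nat_lit 234) (nat_lit 380) (nat_lit 0) (XT.nd (nat_lit 78) (nat_lit 0) (nat_lit 0) (XT.lf (nat_lit 0) (nat_lit 9490646310) (nat_lit 304) (nat_lit 9854067543) (nat_lit 380) (nat_lit 9467523340) (nat_lit 43) (nat_lit 5) (nat_lit 47) (nat_lit 5) (nat_lit 48) (nat_lit 5) (nat_lit 355) (nat_lit 353) (nat_lit 312)) (XT.nd (nat_lit 78) (nat_lit 0) (nat_lit 76) (XT.lf (nat_lit 76) (nat_lit 5658234697) (nat_lit 0) (nat_lit 6280470383) (nat_lit 380) (nat_lit 19088881396) (nat_lit 44) (nat_lit 5) (nat_lit 43) (nat_lit 5) (nat_lit 48) (nat_lit 5) (nat_lit 356) (nat_lit 353) (nat_lit 311)) (XT.lf (nat_lit 0) (nat_lit 15641981458) (nat_lit 304) (nat_lit 9293431389) (nat_lit 76) (nat_lit 8506627081) (nat_lit 44) (nat_lit 5) (nat_lit 48) (nat_lit 5) (nat_lit 45) (nat_lit 5) (nat_lit 357) (nat_lit 353) (nat_lit 310)))) (XT.nd (nat_lit 156) (nat_lit 152) (nat_lit 0) (XT.nd (nat_lit 78) (nat_lit 0)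 (nat_lit 0) (XT.lf (nat_lit 0) (nat_lit 9750967599) (nat_lit 304) (nat_lit 10840736168) (nat_lit 380) (nat_lit 15523317148) (nat_lit 40) (nat_lit 5) (nat_lit 44) (nat_lit 5) (nat_lit 45) (nat_lit 5) (nat_lit 358) (nat_lit 353) (nat_lit 309)) (XT.lf (nat_lit 0) (nat_lit 27004264960) (nat_lit 380) (nat_lit 6678008901) (nat_lit 76) (nat_lit 5398620450) (nat_lit 40) (nat_lit 5) (nat_lit 45) (nat_lit 5) (nat_lit 41) (nat_lit 5) (nat_lit 359) (nat_lit 353) (nat_lit 308))) (XT.nd (nat_lit 78) (nat_lit 0) (nat_lit 0) (XT.lf (nat_lit 0) (nat_lit 16941683427) (nat_lit 152) (nat_lit 18645355086) (nat_lit 228) (nat_lit 6723363011) (nat_lit 38) (nat_lit 5) (nat_lit 40) (nat_lit 5) (nat_lit 41) (nat_lit 5) (nat_lit 360) (nat_lit 353) (nat_lit 307)) (XT.lf (nat_lit 0) (nat_lit 44844061308) (nat_lit 152) (nat_lit 953609814) (nat_lit 228) (nat_lit 175599015) (nat_lit 38) (nat_lit 5) (nat_lit 40) (nat_lit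 5) (nat_lit 41) (nat_lit 5) (nat_lit 361) (nat_lit 353) (nat_lit 306)))))) (XT.nd (nat_lit 468) (nat_lit 456) (nat_lit 0) (XT.nd (nat_lit 234) (nat_lit 304) (nat_lit 0) (XT.nd (nat_lit 78) (nat_lit 152) (nat_lit 0) (XT.lf (nat_lit 0) (nat_lit 8767758122) (nat_lit 228) (nat_lit 21820817114) (nat_lit 76) (nat_lit 19241091803) (nat_lit 35) (nat_lit 5) (nat_lit 38) (nat_lit 5) (nat_lit 36) (nat_lit 5) (nat_lit 362) (nat_lit 353) (nat_lit 305)) (XT.nd (nat_lit 78) (nat_lit 0) (nat_lit 0) (XT.lf (nat_lit 0) (nat_lit 8037119198) (nat_lit 152) (nat_lit 11430225619) (nat_lit 228) (nat_lit 34731019948) (nat_lit 33) (nat_lit 5) (nat_lit 35) (nat_lit 5) (nat_lit 36) (nat_lit 5) (nat_lit 363) (nat_lit 353) (nat_lit 304)) (XT.lf (nat_lit 0) (nat_lit 33398872490) (nat_lit 228) (nat_lit 14729551621) (nat_lit 76) (nat_lit 10849893604) (nat_lit 33) (nat_lit 5) (nat_lit 36) (nat_lit 5) (nat_lit 34) (nat_lit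 4) (nat_lit 364) (nat_lit 353) (nat_lit 303)))) (XT.nd (nat_lit 78) (nat_lit 228) (nat_lit 0) (XT.lf (nat_lit 0) (nat_lit 22901854666) (nat_lit 76) (nat_lit 28004846652) (nat_lit 152) (nat_lit 13345577371) (nat_lit 32) (nat_lit 5) (nat_lit 33) (nat_lit 5) (nat_lit 34) (nat_lit 4) (nat_lit 365) (nat_lit 353) (nat_lit 302)) (XT.nd (nat_lit 78) (nat_lit 152) (nat_lit 0) (XT.lf (nat_lit 0) (nat_lit 1459686615) (nat_lit 152) (nat_lit 2444852517) (nat_lit 76) (nat_lit 66288195042) (nat_lit 31) (nat_lit 5) (nat_lit 33) (nat_lit 5) (nat_lit 32) (nat_lit 5) (nat_lit 366) (nat_lit 353) (nat_lit 301)) (XT.lf (nat_lit 0) (nat_lit 20113807494) (nat_lit 228) (nat_lit 32028794152) (nat_lit 76) (nat_lit 24337171332) (nat_lit 29) (nat_lit 5) (nat_lit 32) (nat_lit 5) (nat_lit 30) (nat_lit 4) (nat_lit 367) (nat_lit 353) (nat_lit 300))))) (XT.nd (nat_lit 234) (nat_lit 228) (nat_lit 0) (XT.nd (nat_lit 78) (nat_lit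 152) (nat_lit 0) (XT.lf (nat_lit 0) (nat_lit 16207448042) (nat_lit 76) (nat_lit 26344593459) (nat_lit 152) (nat_lit 41009927353) (nat_lit 28) (nat_lit 5) (nat_lit 29) (nat_lit 5) (nat_lit 30) (nat_lit 4) (nat_lit 368) (nat_lit 353) (nat_lit 299)) (XT.nd (nat_lit 78) (nat_lit 152) (nat_lit 0) (XT.lf (nat_lit 0) (nat_lit 70242784274) (nat_lit 152) (nat_lit 16402800907) (nat_lit 0) (nat_lit 4777893319) (nat_lit 28) (nat_lit 5) (nat_lit 30) (nat_lit 4) (nat_lit 28) (nat_lit 4) (nat_lit 369) (nat_lit 353) (nat_lit 298)) (XT.lf (nat_lit 0) (nat_lit 4737344457) (nat_lit 152) (nat_lit 55283519776) (nat_lit 76) (nat_lit 39944434745) (nat_lit 26) (nat_lit 5) (nat_lit 28) (nat_lit 5) (nat_lit 27) (nat_lit 4) (nat_lit 370) (nat_lit 353) (nat_lit 297)))) (XT.nd (nat_lit 156) (nat_lit 152) (nat_lit 0) (XT.nd (nat_lit 78) (nat_lit 0) (nat_lit 0) (XT.lf (nat_lit 0) (nat_lit 6647336620) (nat_lit 76) (nat_lit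 26896642521) (nat_lit 152) (nat_lit 75917714523) (nat_lit 25) (nat_lit 5) (nat_lit 26) (nat_lit 5) (nat_lit 27) (nat_lit 4) (nat_lit 371) (nat_lit 353) (nat_lit 296)) (XT.lf (nat_lit 0) (nat_lit 70158625436) (nat_lit 152) (nat_lit 36477185486) (nat_lit 0) (nat_lit 13223684421) (nat_lit 25) (nat_lit 5) (nat_lit 27) (nat_lit 4) (nat_lit 25) (nat_lit 4) (nat_lit 372) (nat_lit 353) (nat_lit 295))) (XT.nd (nat_lit 78) (nat_lit 76) (nat_lit 0) (XT.lf (nat_lit 0) (nat_lit 42287709790) (nat_lit 76) (nat_lit 73006094642) (nat_lit 76) (nat_lit 16068912695) (nat_lit 24) (nat_lit 4) (nat_lit 25) (nat_lit 5) (nat_lit 25) (nat_lit 4) (nat_lit 373) (nat_lit 353) (nat_lit 294)) (XT.lf (nat_lit 0) (nat_lit 22589221291) (nat_lit 152) (nat_lit 8372304807) (nat_lit 76) (nat_lit 113190361500) (nat_lit 23) (nat_lit 5) (nat_lit 25) (nat_lit 5) (nat_lit 24) (nat_lit 4) (nat_lit 374) (nat_lit 353) (nat_lit 293)))))))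 (XT.nd (nat_lit 1014) (nat_lit 608) (nat_lit 0) (XT.nd (nat_lit 468) (nat_lit 456) (nat_lit 0) (XT.nd (nat_lit 234) (nat_lit 152) (nat_lit 0) (XT.nd (nat_lit 78) (nat_lit 152) (nat_lit 0) (XT.lf (nat_lit 0) (nat_lit 70138326628) (nat_lit 152) (nat_lit 67271153214) (nat_lit 0) (nat_lit 20624565716) (nat_lit 22) (nat_lit 5) (nat_lit 24) (nat_lit 4) (nat_lit 22) (nat_lit 4) (nat_lit 375) (nat_lit 353) (nat_lit 292)) (XT.nd (nat_lit 78) (nat_lit 76) (nat_lit 0) (XT.lf (nat_lit 0) (nat_lit 33233954097) (nat_lit 76) (nat_lit 94891856726) (nat_lit 76) (nat_lit 45376814554) (nat_lit 21) (nat_lit 4) (nat_lit 22) (nat_lit 5) (nat_lit 22) (nat_lit 4) (nat_lit 376) (nat_lit 353) (nat_lit 291)) (XT.lf (nat_lit 0) (nat_lit 6887495008) (nat_lit 152) (nat_lit 34708042041) (nat_lit 76) (nat_lit 149121951677) (nat_lit 20) (nat_lit 5) (nat_lit 22) (nat_lit 5) (nat_lit 21) (nat_lit 4) (nat_lit 377) (nat_lit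 353) (nat_lit 290)))) (XT.nd (nat_lit 78) (nat_lit 76) (nat_lit 0) (XT.lf (nat_lit 0) (nat_lit 67286273201) (nat_lit 152) (nat_lit 117935203278) (nat_lit 0) (nat_lit 24227903525) (nat_lit 19) (nat_lit 5) (nat_lit 21) (nat_lit 4) (nat_lit 19) (nat_lit 4) (nat_lit 378) (nat_lit 353) (nat_lit 289)) (XT.nd (nat_lit 78) (nat_lit 0) (nat_lit 0) (XT.lf (nat_lit 0) (nat_lit 8539383644) (nat_lit 76) (nat_lit 132437951773) (nat_lit 76) (nat_lit 89378849533) (nat_lit 18) (nat_lit 4) (nat_lit 19) (nat_lit 5) (nat_lit 19) (nat_lit 4) (nat_lit 379) (nat_lit 353) (nat_lit 288)) (XT.lf (nat_lit 0) (nat_lit 167234462017) (nat_lit 76) (nat_lit 64649966129) (nat_lit 76) (nat_lit 21590226876) (nat_lit 18) (nat_lit 4) (nat_lit 19) (nat_lit 5) (nat_lit 19) (nat_lit 4) (nat_lit 380) (nat_lit 353) (nat_lit 287))))) (XT.nd (nat_lit 234) (nat_lit 228) (nat_lit 0) (XT.nd (nat_lit 78) (nat_lit 76) (nat_lit 0) (XT.lf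 (nat_lit 0) (nat_lit 55214753169) (nat_lit 152) (nat_lit 206145086386) (nat_lit 0) (nat_lit 17771019971) (nat_lit 16) (nat_lit 5) (nat_lit 18) (nat_lit 4) (nat_lit 16) (nat_lit 4) (nat_lit 381) (nat_lit 353) (nat_lit 286)) (XT.nd (nat_lit 78) (nat_lit 76) (nat_lit 0) (XT.lf (nat_lit 0) (nat_lit 149129105287) (nat_lit 152) (nat_lit 46497362351) (nat_lit 0) (nat_lit 111684953244) (nat_lit 16) (nat_lit 5) (nat_lit 18) (nat_lit 4) (nat_lit 16) (nat_lit 4) (nat_lit 382) (nat_lit 353) (nat_lit 285)) (XT.lf (nat_lit 0) (nat_lit 150491313263) (nat_lit 76) (nat_lit 112868913495) (nat_lit 76) (nat_lit 75424397238) (nat_lit 15) (nat_lit 4) (nat_lit 16) (nat_lit 5) (nat_lit 16) (nat_lit 4) (nat_lit 383) (nat_lit 353) (nat_lit 284)))) (XT.nd (nat_lit 156) (nat_lit 76) (nat_lit 0) (XT.nd (nat_lit 78) (nat_lit 0) (nat_lit 0) (XT.lf (nat_lit 0) (nat_lit 7357313332) (nat_lit 76) (nat_lit 13480894247) (nat_lit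 152) (nat_lit 353590591784) (nat_lit 13) (nat_lit 5) (nat_lit 14) (nat_lit 5) (nat_lit 15) (nat_lit 4) (nat_lit 384) (nat_lit 353) (nat_lit 283)) (XT.lf (nat_lit 0) (nat_lit 138302134506) (nat_lit 152) (nat_lit 168664957195) (nat_lit 0) (nat_lit 105741170712) (nat_lit 13) (nat_lit 5) (nat_lit 15) (nat_lit 4) (nat_lit 13) (nat_lit 4) (nat_lit 385) (nat_lit 353) (nat_lit 282))) (XT.nd (nat_lit 78) (nat_lit 0) (nat_lit 0) (XT.lf (nat_lit 0) (nat_lit 64609074357) (nat_lit 76) (nat_lit 212092199552) (nat_lit 76) (nat_lit 179531027517) (nat_lit 12) (nat_lit 4) (nat_lit 13) (nat_lit 5) (nat_lit 13) (nat_lit 4) (nat_lit 386) (nat_lit 353) (nat_lit 281)) (XT.lf (nat_lit 0) (nat_lit 351826534007) (nat_lit 76) (nat_lit 92848757185) (nat_lit 76) (nat_lit 60287404071) (nat_lit 12) (nat_lit 4) (nat_lit 13) (nat_lit 5) (nat_lit 13) (nat_lit 4) (nat_lit 387) (nat_lit 353) (nat_lit 280)))))) (XT.nd (nat_lit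 546) (nat_lit 152) (nat_lit 0) (XT.nd (nat_lit 234) (nat_lit 228) (nat_lit 0) (XT.nd (nat_lit 78) (nat_lit 76) (nat_lit 0) (XT.lf (nat_lit 0) (nat_lit 77601446105) (nat_lit 152) (nat_lit 432496865154) (nat_lit 0) (nat_lit 49287089085) (nat_lit 10) (nat_lit 5) (nat_lit 12) (nat_lit 4) (nat_lit 10) (nat_lit 4) (nat_lit 388) (nat_lit 353) (nat_lit 279)) (XT.nd (nat_lit 78) (nat_lit 76) (nat_lit 0) (XT.lf (nat_lit 0) (nat_lit 242807312613) (nat_lit 152) (nat_lit 162319842146) (nat_lit 0) (nat_lit 214492836530) (nat_lit 10) (nat_lit 5) (nat_lit 12) (nat_lit 4) (nat_lit 10) (nat_lit 4) (nat_lit 389) (nat_lit 353) (nat_lit 278)) (XT.lf (nat_lit 0) (nat_lit 162881980813) (nat_lit 76) (nat_lit 276655433222) (nat_lit 76) (nat_lit 248340853607) (nat_lit 9) (nat_lit 4) (nat_lit 10) (nat_lit 5) (nat_lit 10) (nat_lit 4) (nat_lit 390) (nat_lit 353) (nat_lit 277)))) (XT.nd (nat_lit 156) (nat_lit 76) (nat_lit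 0) (XT.nd (nat_lit 78) (nat_lit 152) (nat_lit 0) (XT.lf (nat_lit 0) (nat_lit 555104099961) (nat_lit 76) (nat_lit 119156648720) (nat_lit 76) (nat_lit 90841979077) (nat_lit 9) (nat_lit 4) (nat_lit 10) (nat_lit 5) (nat_lit 10) (nat_lit 4) (nat_lit 391) (nat_lit 353) (nat_lit 276)) (XT.lf (nat_lit 0) (nat_lit 92058842647) (nat_lit 152) (nat_lit 692381742530) (nat_lit 0) (nat_lit 67437322709) (nat_lit 7) (nat_lit 5) (nat_lit 9) (nat_lit 4) (nat_lit 7) (nat_lit 4) (nat_lit 392) (nat_lit 353) (nat_lit 275))) (XT.nd (nat_lit 78) (nat_lit 76) (nat_lit 0) (XT.lf (nat_lit 0) (nat_lit 310267274702) (nat_lit 152) (nat_lit 352531577179) (nat_lit 0) (nat_lit 285645695569) (nat_lit 7) (nat_lit 5) (nat_lit 9) (nat_lit 4) (nat_lit 7) (nat_lit 4) (nat_lit 393) (nat_lit 353) (nat_lit 274)) (XT.lf (nat_lit 0) (nat_lit 42036498485) (nat_lit 76) (nat_lit 520910179552) (nat_lit 76) (nat_lit 496288548945) (nat_lit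 6) (nat_lit 4) (nat_lit 7) (nat_lit 5) (nat_lit 7) (nat_lit 4) (nat_lit 394) (nat_lit 353) (nat_lit 273))))) (XT.nd (nat_lit 234) (nat_lit 76) (nat_lit 0) (XT.nd (nat_lit 78) (nat_lit 76) (nat_lit 0) (XT.lf (nat_lit 0) (nat_lit 535407623903) (nat_lit 76) (nat_lit 336547262841) (nat_lit 76) (nat_lit 311925587474) (nat_lit 6) (nat_lit 4) (nat_lit 7) (nat_lit 5) (nat_lit 7) (nat_lit 4) (nat_lit 395) (nat_lit 353) (nat_lit 272)) (XT.nd (nat_lit 78) (nat_lit 76) (nat_lit 0) (XT.lf (nat_lit 0) (nat_lit 1102782762809) (nat_lit 76) (nat_lit 124530788193) (nat_lit 76) (nat_lit 99909073904) (nat_lit 6) (nat_lit 4) (nat_lit 7) (nat_lit 5) (nat_lit 7) (nat_lit 4) (nat_lit 396) (nat_lit 353) (nat_lit 271)) (XT.lf (nat_lit 0) (nat_lit 148569958897) (nat_lit 76) (nat_lit 1212821761041) (nat_lit 0) (nat_lit 127159743129) (nat_lit 5) (nat_lit 5) (nat_lit 6) (nat_lit 4) (nat_lit 5) (nat_lit 4) (nat_lit 397)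 (nat_lit 353) (nat_lit 270)))) (XT.nd (nat_lit 156) (nat_lit 76) (nat_lit 0) (XT.nd (nat_lit 78) (nat_lit 0) (nat_lit 0) (XT.lf (nat_lit 0) (nat_lit 442312146517) (nat_lit 76) (nat_lit 807418926130) (nat_lit 0) (nat_lit 420901905158) (nat_lit 5) (nat_lit 5) (nat_lit 6) (nat_lit 4) (nat_lit 5) (nat_lit 4) (nat_lit 398) (nat_lit 353) (nat_lit 269)) (XT.lf (nat_lit 0) (nat_lit 780115048499) (nat_lit 76) (nat_lit 341206978439) (nat_lit 0) (nat_lit 758704784886) (nat_lit 5) (nat_lit 5) (nat_lit 6) (nat_lit 4) (nat_lit 5) (nat_lit 4) (nat_lit 399) (nat_lit 353) (nat_lit 268))) (XT.nd (nat_lit 78) (nat_lit 0) (nat_lit 0) (XT.lf (nat_lit 0) (nat_lit 213986146651) (nat_lit 76) (nat_lit 963462415409) (nat_lit 76) (nat_lit 942052132445) (nat_lit 4) (nat_lit 4) (nat_lit 5) (nat_lit 5) (nat_lit 5) (nat_lit 4) (nat_lit 400) (nat_lit 353) (nat_lit 267)) (XT.lf (nat_lit 0) (nat_lit 890804162669) (nat_lit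 76) (nat_lit 761413250098) (nat_lit 76) (nat_lit 740002950307) (nat_lit 4) (nat_lit 4) (nat_lit 5) (nat_lit 5) (nat_lit 5) (nat_lit 4) (nat_lit 401) (nat_lit 353) (nat_lit 266))))))))
noncomputable def xc69 : XT := (XT.nd (nat_lit 2106) (nat_lit 0) (nat_lit 0) (XT.nd (nat_lit 1014) (nat_lit 0) (nat_lit 0) (XT.nd (nat_lit 468) (nat_lit 76) (nat_lit 0) (XT.nd (nat_lit 234) (nat_lit 0) (nat_lit 0) (XT.nd (nat_lit 78) (nat_lit 152) (nat_lit 0) (XT.lf (nat_lit 0) (nat_lit 1669143933792) (nat_lit 76) (nat_lit 529057214490) (nat_lit 76) (nat_lit 507646900067) (nat_lit 4) (nat_lit 4) (nat_lit 5) (nat_lit 5) (nat_lit 5) (nat_lit 4) (nat_lit 402) (nat_lit 353) (nat_lit 265)) (XT.nd (nat_lit 78) (nat_lit 152) (nat_lit 0) (XT.lf (nat_lit 0) (nat_lit 2564233846847) (nat_lit 76) (nat_lit 261848212236) (nat_lit 76) (nat_lit 240437885089) (nat_lit 4) (nat_lit 4) (nat_lit 5) (nat_lit 5) (nat_lit 5) (nat_lit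 4) (nat_lit 403) (nat_lit 353) (nat_lit 264)) (XT.lf (nat_lit 0) (nat_lit 68129433924) (nat_lit 152) (nat_lit 3362151915807) (nat_lit 0) (nat_lit 49511748524) (nat_lit 2) (nat_lit 5) (nat_lit 4) (nat_lit 4) (nat_lit 2) (nat_lit 4) (nat_lit 404) (nat_lit 353) (nat_lit 263)))) (XT.nd (nat_lit 78) (nat_lit 0) (nat_lit 0) (XT.lf (nat_lit 0) (nat_lit 438340346553) (nat_lit 152) (nat_lit 3089280599334) (nat_lit 0) (nat_lit 419722652786) (nat_lit 2) (nat_lit 5) (nat_lit 4) (nat_lit 4) (nat_lit 2) (nat_lit 4) (nat_lit 405) (nat_lit 353) (nat_lit 262)) (XT.nd (nat_lit 78) (nat_lit 0) (nat_lit 0) (XT.lf (nat_lit 0) (nat_lit 864082591304) (nat_lit 152) (nat_lit 2775479238303) (nat_lit 0) (nat_lit 845464890263) (nat_lit 2) (nat_lit 5) (nat_lit 4) (nat_lit 4) (nat_lit 2) (nat_lit 4) (nat_lit 406) (nat_lit 353) (nat_lit 261)) (XT.lf (nat_lit 0) (nat_lit 1353685907750) (nat_lit 152) (nat_lit 2414608240868)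 (nat_lit 0) (nat_lit 1335068200383) (nat_lit 2) (nat_lit 5) (nat_lit 4) (nat_lit 4) (nat_lit 2) (nat_lit 4) (nat_lit 407) (nat_lit 353) (nat_lit 260))))) (XT.nd (nat_lit 234) (nat_lit 76) (nat_lit 0) (XT.nd (nat_lit 78) (nat_lit 0) (nat_lit 0) (XT.lf (nat_lit 0) (nat_lit 1916729491211) (nat_lit 152) (nat_lit 1999607087512) (nat_lit 0) (nat_lit 1898111778343) (nat_lit 2) (nat_lit 5) (nat_lit 4) (nat_lit 4) (nat_lit 2) (nat_lit 4) (nat_lit 408) (nat_lit 353) (nat_lit 259)) (XT.nd (nat_lit 78) (nat_lit 0) (nat_lit 0) (XT.lf (nat_lit 0) (nat_lit 2564229411800) (nat_lit 152) (nat_lit 1522356190455) (nat_lit 0) (nat_lit 2545611694149) (nat_lit 2) (nat_lit 5) (nat_lit 4) (nat_lit 4) (nat_lit 2) (nat_lit 4) (nat_lit 409) (nat_lit 353) (nat_lit 258)) (XT.lf (nat_lit 0) (nat_lit 3308854146223) (nat_lit 152) (nat_lit 973518032143) (nat_lit 0) (nat_lit 3290236424413) (nat_lit 2) (nat_lit 5) (nat_lit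 4) (nat_lit 4) (nat_lit 2) (nat_lit 4) (nat_lit 410) (nat_lit 353) (nat_lit 257)))) (XT.nd (nat_lit 156) (nat_lit 0) (nat_lit 0) (XT.nd (nat_lit 78) (nat_lit 76) (nat_lit 0) (XT.lf (nat_lit 0) (nat_lit 4165172439285) (nat_lit 152) (nat_lit 342354474698) (nat_lit 0) (nat_lit 4146554713858) (nat_lit 2) (nat_lit 5) (nat_lit 4) (nat_lit 4) (nat_lit 2) (nat_lit 4) (nat_lit 411) (nat_lit 353) (nat_lit 256)) (XT.lf (nat_lit 0) (nat_lit 420960114467) (nat_lit 76) (nat_lit 4746409290717) (nat_lit 76) (nat_lit 4727791562145) (nat_lit 1) (nat_lit 4) (nat_lit 2) (nat_lit 5) (nat_lit 2) (nat_lit 4) (nat_lit 412) (nat_lit 353) (nat_lit 255))) (XT.nd (nat_lit 78) (nat_lit 0) (nat_lit 0) (XT.lf (nat_lit 0) (nat_lit 1337247597054) (nat_lit 76) (nat_lit 5000543995271) (nat_lit 76) (nat_lit 4981926263964) (nat_lit 1) (nat_lit 4) (nat_lit 2) (nat_lit 5) (nat_lit 2) (nat_lit 4) (nat_lit 413) (nat_lit 353) (nat_lit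 254)) (XT.lf (nat_lit 0) (nat_lit 2390977967731) (nat_lit 76) (nat_lit 5292799030474) (nat_lit 76) (nat_lit 5274181296788) (nat_lit 1) (nat_lit 4) (nat_lit 2) (nat_lit 5) (nat_lit 2) (nat_lit 4) (nat_lit 414) (nat_lit 353) (nat_lit 253)))))) (XT.nd (nat_lit 546) (nat_lit 0) (nat_lit 0) (XT.nd (nat_lit 234) (nat_lit 0) (nat_lit 0) (XT.nd (nat_lit 78) (nat_lit 0) (nat_lit 0) (XT.lf (nat_lit 0) (nat_lit 3602767690273) (nat_lit 76) (nat_lit 5628892429621) (nat_lit 76) (nat_lit 5610274693868) (nat_lit 1) (nat_lit 4) (nat_lit 2) (nat_lit 5) (nat_lit 2) (nat_lit 4) (nat_lit 415) (nat_lit 353) (nat_lit 252)) (XT.nd (nat_lit 78) (nat_lit 0) (nat_lit 0) (XT.lf (nat_lit 0) (nat_lit 4996325694034) (nat_lit 76) (nat_lit 6015399933133) (nat_lit 76) (nat_lit 5996782195581) (nat_lit 1) (nat_lit 4) (nat_lit 2) (nat_lit 5) (nat_lit 2) (nat_lit 4) (nat_lit 416) (nat_lit 353) (nat_lit 251)) (XT.lf (nat_lit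 0) (nat_lit 6598917244305) (nat_lit 76) (nat_lit 6459883644338) (nat_lit 76) (nat_lit 6441265905222) (nat_lit 1) (nat_lit 4) (nat_lit 2) (nat_lit 5) (nat_lit 2) (nat_lit 4) (nat_lit 417) (nat_lit 353) (nat_lit 250)))) (XT.nd (nat_lit 156) (nat_lit 0) (nat_lit 0) (XT.nd (nat_lit 78) (nat_lit 0) (nat_lit 0) (XT.lf (nat_lit 0) (nat_lit 8441897393157) (nat_lit 76) (nat_lit 6971039983672) (nat_lit 76) (nat_lit 6952422243197) (nat_lit 1) (nat_lit 4) (nat_lit 2) (nat_lit 5) (nat_lit 2) (nat_lit 4) (nat_lit 418) (nat_lit 353) (nat_lit 249)) (XT.lf (nat_lit 0) (nat_lit 10561324447849) (nat_lit 76) (nat_lit 7558869836037) (nat_lit 76) (nat_lit 7540252094380) (nat_lit 1) (nat_lit 4) (nat_lit 2) (nat_lit 5) (nat_lit 2) (nat_lit 4) (nat_lit 419) (nat_lit 353) (nat_lit 248))) (XT.nd (nat_lit 78) (nat_lit 0) (nat_lit 0) (XT.lf (nat_lit 0) (nat_lit 12998665459452) (nat_lit 76) (nat_lit 8234874220282) (nat_lit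 76) (nat_lit 8216256477597) (nat_lit 1) (nat_lit 4) (nat_lit 2) (nat_lit 5) (nat_lit 2) (nat_lit 4) (nat_lit 420) (nat_lit 353) (nat_lit 247)) (XT.lf (nat_lit 0) (nat_lit 15801607534715) (nat_lit 76) (nat_lit 9012279309143) (nat_lit 76) (nat_lit 8993661565563) (nat_lit 1) (nat_lit 4) (nat_lit 2) (nat_lit 5) (nat_lit 2) (nat_lit 4) (nat_lit 421) (nat_lit 353) (nat_lit 246))))) (XT.nd (nat_lit 234) (nat_lit 0) (nat_lit 0) (XT.nd (nat_lit 78) (nat_lit 0) (nat_lit 0) (XT.lf (nat_lit 0) (nat_lit 19024990844675) (nat_lit 76) (nat_lit 9906295202184) (nat_lit 76) (nat_lit 9887677457827) (nat_lit 1) (nat_lit 4) (nat_lit 2) (nat_lit 5) (nat_lit 2) (nat_lit 4) (nat_lit 422) (nat_lit 353) (nat_lit 245)) (XT.nd (nat_lit 78) (nat_lit 0) (nat_lit 0) (XT.lf (nat_lit 0) (nat_lit 22731881584527) (nat_lit 76) (nat_lit 10934413514704) (nat_lit 76) (nat_lit 10915795769672) (nat_lit 1) (nat_lit 4) (nat_lit 2)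 (nat_lit 5) (nat_lit 2) (nat_lit 4) (nat_lit 423) (nat_lit 353) (nat_lit 244)) (XT.lf (nat_lit 0) (nat_lit 26994805877442) (nat_lit 76) (nat_lit 12116749604992) (nat_lit 76) (nat_lit 12098131859372) (nat_lit 1) (nat_lit 4) (nat_lit 2) (nat_lit 5) (nat_lit 2) (nat_lit 4) (nat_lit 424) (nat_lit 353) (nat_lit 243)))) (XT.nd (nat_lit 156) (nat_lit 0) (nat_lit 0) (XT.nd (nat_lit 78) (nat_lit 0) (nat_lit 0) (XT.lf (nat_lit 0) (nat_lit 31897168763934) (nat_lit 76) (nat_lit 13476436135684) (nat_lit 76) (nat_lit 13457818389552) (nat_lit 1) (nat_lit 4) (nat_lit 2) (nat_lit 5) (nat_lit 2) (nat_lit 4) (nat_lit 425) (nat_lit 353) (nat_lit 242)) (XT.lf (nat_lit 0) (nat_lit 37534886039609) (nat_lit 76) (nat_lit 15040075669336) (nat_lit 76) (nat_lit 15021457922759) (nat_lit 1) (nat_lit 4) (nat_lit 2) (nat_lit 5) (nat_lit 2) (nat_lit 4) (nat_lit 426) (nat_lit 353) (nat_lit 241))) (XT.nd (nat_lit 78) (nat_lit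 0) (nat_lit 0) (XT.lf (nat_lit 0) (nat_lit 44018260868554) (nat_lit 76) (nat_lit 16838261153346) (nat_lit 76) (nat_lit 16819643406383) (nat_lit 1) (nat_lit 4) (nat_lit 2) (nat_lit 5) (nat_lit 2) (nat_lit 4) (nat_lit 427) (nat_lit 353) (nat_lit 240)) (XT.lf (nat_lit 0) (nat_lit 51474141888728) (nat_lit 76) (nat_lit 18906174477619) (nat_lit 76) (nat_lit 18887556730320) (nat_lit 1) (nat_lit 4) (nat_lit 2) (nat_lit 5) (nat_lit 2) (nat_lit 4) (nat_lit 428) (nat_lit 353) (nat_lit 239))))))) (XT.nd (nat_lit 1014) (nat_lit 0) (nat_lit 0) (XT.nd (nat_lit 468) (nat_lit 0) (nat_lit 0) (XT.nd (nat_lit 234) (nat_lit 0) (nat_lit 0) (XT.nd (nat_lit 78) (nat_lit 0) (nat_lit 0) (XT.lf (nat_lit 0) (nat_lit 60048405033135) (nat_lit 76) (nat_lit 21284274815890) (nat_lit 76) (nat_lit 21265657068299) (nat_lit 1) (nat_lit 4) (nat_lit 2) (nat_lit 5) (nat_lit 2) (nat_lit 4) (nat_lit 429) (nat_lit 353) (nat_lit 238))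 (XT.nd (nat_lit 78) (nat_lit 0) (nat_lit 0) (XT.lf (nat_lit 0) (nat_lit 69908807624164) (nat_lit 76) (nat_lit 24019090218256) (nat_lit 76) (nat_lit 24000472470411) (nat_lit 1) (nat_lit 4) (nat_lit 2) (nat_lit 5) (nat_lit 2) (nat_lit 4) (nat_lit 430) (nat_lit 353) (nat_lit 237)) (XT.lf (nat_lit 0) (nat_lit 81248270582076) (nat_lit 76) (nat_lit 27164127942590) (nat_lit 76) (nat_lit 27145510194524) (nat_lit 1) (nat_lit 4) (nat_lit 2) (nat_lit 5) (nat_lit 2) (nat_lit 4) (nat_lit 431) (nat_lit 353) (nat_lit 236)))) (XT.nd (nat_lit 78) (nat_lit 0) (nat_lit 0) (XT.lf (nat_lit 0) (nat_lit 94288652964742) (nat_lit 76) (nat_lit 30780921335671) (nat_lit 76) (nat_lit 30762303587413) (nat_lit 1) (nat_lit 4) (nat_lit 2) (nat_lit 5) (nat_lit 2) (nat_lit 4) (nat_lit 432) (nat_lit 353) (nat_lit 235)) (XT.nd (nat_lit 78) (nat_lit 0) (nat_lit 0) (XT.lf (nat_lit 0) (nat_lit 109285092688345) (nat_lit 76) (nat_lit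 34940233746496) (nat_lit 76) (nat_lit 34921615998071) (nat_lit 1) (nat_lit 4) (nat_lit 2) (nat_lit 5) (nat_lit 2) (nat_lit 4) (nat_lit 433) (nat_lit 353) (nat_lit 234)) (XT.lf (nat_lit 0) (nat_lit 126530998356173) (nat_lit 76) (nat_lit 39723443026580) (nat_lit 76) (nat_lit 39704825278009) (nat_lit 1) (nat_lit 4) (nat_lit 2) (nat_lit 5) (nat_lit 2) (nat_lit 4) (nat_lit 434) (nat_lit 353) (nat_lit 233))))) (XT.nd (nat_lit 234) (nat_lit 0) (nat_lit 0) (XT.nd (nat_lit 78) (nat_lit 0) (nat_lit 0) (XT.lf (nat_lit 0) (nat_lit 146363789861726) (nat_lit 76) (nat_lit 45224133705315) (nat_lit 76) (nat_lit 45205515956618) (nat_lit 1) (nat_lit 4) (nat_lit 2) (nat_lit 5) (nat_lit 2) (nat_lit 4) (nat_lit 435) (nat_lit 353) (nat_lit 232)) (XT.nd (nat_lit 78) (nat_lit 0) (nat_lit 0) (XT.lf (nat_lit 0) (nat_lit 169171500082288) (nat_lit 76) (nat_lit 51549927991635) (nat_lit 76) (nat_lit 51531310242828) (nat_lit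 1) (nat_lit 4) (nat_lit 2) (nat_lit 5) (nat_lit 2) (nat_lit 4) (nat_lit 436) (nat_lit 353) (nat_lit 231)) (XT.lf (nat_lit 0) (nat_lit 195400366826522) (nat_lit 76) (nat_lit 58824591425923) (nat_lit 76) (nat_lit 58805973677020) (nat_lit 1) (nat_lit 4) (nat_lit 2) (nat_lit 5) (nat_lit 2) (nat_lit 4) (nat_lit 437) (nat_lit 353) (nat_lit 230)))) (XT.nd (nat_lit 156) (nat_lit 0) (nat_lit 0) (XT.nd (nat_lit 78) (nat_lit 0) (nat_lit 0) (XT.lf (nat_lit 0) (nat_lit 225563563574205) (nat_lit 76) (nat_lit 67190454379719) (nat_lit 76) (nat_lit 67171836630734) (nat_lit 1) (nat_lit 4) (nat_lit 2) (nat_lit 5) (nat_lit 2) (nat_lit 4) (nat_lit 438) (nat_lit 353) (nat_lit 229)) (XT.lf (nat_lit 0) (nat_lit 260251239826924) (nat_lit 76) (nat_lit 76811196780381) (nat_lit 76) (nat_lit 76792579031323) (nat_lit 1) (nat_lit 4) (nat_lit 2) (nat_lit 5) (nat_lit 2) (nat_lit 4) (nat_lit 439) (nat_lit 353) (nat_lit 228)))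 (XT.nd (nat_lit 78) (nat_lit 0) (nat_lit 0) (XT.lf (nat_lit 0) (nat_lit 300142067511361) (nat_lit 76) (nat_lit 87875050544444) (nat_lit 76) (nat_lit 87856432795323) (nat_lit 1) (nat_lit 4) (nat_lit 2) (nat_lit 5) (nat_lit 2) (nat_lit 4) (nat_lit 440) (nat_lit 353) (nat_lit 227)) (XT.lf (nat_lit 0) (nat_lit 346016519343083) (nat_lit 76) (nat_lit 100598482375986) (nat_lit 76) (nat_lit 100579864626811) (nat_lit 1) (nat_lit 4) (nat_lit 2) (nat_lit 5) (nat_lit 2) (nat_lit 4) (nat_lit 441) (nat_lit 353) (nat_lit 226)))))) (XT.nd (nat_lit 46488) (nat_lit 0) (nat_lit 2584) (XT.nd (nat_lit 234) (nat_lit 0) (nat_lit 0) (XT.nd (nat_lit 78) (nat_lit 0) (nat_lit 0) (XT.lf (nat_lit 0) (nat_lit 398772138944882) (nat_lit 76) (nat_lit 115230428984756) (nat_lit 76) (nat_lit 115211811235533) (nat_lit 1) (nat_lit 4) (nat_lit 2) (nat_lit 5) (nat_lit 2) (nat_lit 4) (nat_lit 442) (nat_lit 353) (nat_lit 225)) (XT.nd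 (nat_lit 78) (nat_lit 0) (nat_lit 0) (XT.lf (nat_lit 0) (nat_lit 459441101482883) (nat_lit 76) (nat_lit 132057167587011) (nat_lit 76) (nat_lit 132038549837747) (nat_lit 1) (nat_lit 4) (nat_lit 2) (nat_lit 5) (nat_lit 2) (nat_lit 4) (nat_lit 443) (nat_lit 353) (nat_lit 224)) (XT.lf (nat_lit 0) (nat_lit 529210408398044) (nat_lit 76) (nat_lit 151407916981493) (nat_lit 76) (nat_lit 151389299232192) (nat_lit 1) (nat_lit 4) (nat_lit 2) (nat_lit 5) (nat_lit 2) (nat_lit 4) (nat_lit 444) (nat_lit 353) (nat_lit 223)))) (XT.nd (nat_lit 46098) (nat_lit 0) (nat_lit 3116) (XT.nd (nat_lit 46020) (nat_lit 0) (nat_lit 3116) (XT.lf (nat_lit 0) (nat_lit 609445111347403) (nat_lit 76) (nat_lit 173661278786785) (nat_lit 76) (nat_lit 173642661037457) (nat_lit 1) (nat_lit 4) (nat_lit 2) (nat_lit 5) (nat_lit 2) (nat_lit 4) (nat_lit 445) (nat_lit 353) (nat_lit 222)) (XT.lf (nat_lit 0) (nat_lit 4085670679) (nat_lit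 380) (nat_lit 5136468146) (nat_lit 380) (nat_lit 5136468146) (nat_lit 42) (nat_lit 3) (nat_lit 47) (nat_lit 3) (nat_lit 47) (nat_lit 5) (nat_lit 354) (nat_lit 354) (nat_lit 312))) (XT.nd (nat_lit 78) (nat_lit 0) (nat_lit 76) (XT.lf (nat_lit 76) (nat_lit 4418734148) (nat_lit 0) (nat_lit 4622266178) (nat_lit 380) (nat_lit 21791466024) (nat_lit 43) (nat_lit 5) (nat_lit 42) (nat_lit 3) (nat_lit 47) (nat_lit 5) (nat_lit 355) (nat_lit 354) (nat_lit 311)) (XT.lf (nat_lit 0) (nat_lit 11057190646) (nat_lit 304) (nat_lit 11218670092) (nat_lit 380) (nat_lit 10836736603) (nat_lit 43) (nat_lit 5) (nat_lit 47) (nat_lit 5) (nat_lit 48) (nat_lit 5) (nat_lit 356) (nat_lit 354) (nat_lit 310))))) (XT.nd (nat_lit 234) (nat_lit 380) (nat_lit 0) (XT.nd (nat_lit 78) (nat_lit 228) (nat_lit 0) (XT.lf (nat_lit 76) (nat_lit 6615318049) (nat_lit 0) (nat_lit 7242981337) (nat_lit 380) (nat_lit 21804077803) (nat_lit 44)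 (nat_lit 5) (nat_lit 43) (nat_lit 5) (nat_lit 48) (nat_lit 5) (nat_lit 357) (nat_lit 354) (nat_lit 309)) (XT.nd (nat_lit 78) (nat_lit 304) (nat_lit 0) (XT.lf (nat_lit 0) (nat_lit 18099532720) (nat_lit 304) (nat_lit 10575670619) (nat_lit 76) (nat_lit 9766429273) (nat_lit 44) (nat_lit 5) (nat_lit 48) (nat_lit 5) (nat_lit 45) (nat_lit 5) (nat_lit 358) (nat_lit 354) (nat_lit 308)) (XT.lf (nat_lit 0) (nat_lit 11320307513) (nat_lit 304) (nat_lit 12461312469) (nat_lit 380) (nat_lit 17735458062) (nat_lit 40) (nat_lit 5) (nat_lit 44) (nat_lit 5) (nat_lit 45) (nat_lit 5) (nat_lit 359) (nat_lit 354) (nat_lit 307)))) (XT.nd (nat_lit 156) (nat_lit 228) (nat_lit 0) (XT.nd (nat_lit 78) (nat_lit 152) (nat_lit 0) (XT.lf (nat_lit 0) (nat_lit 31143069753) (nat_lit 380) (nat_lit 7573917518) (nat_lit 76) (nat_lit 6212797377) (nat_lit 40) (nat_lit 5) (nat_lit 45) (nat_lit 5) (nat_lit 41) (nat_lit 5) (nat_lit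 360) (nat_lit 354) (nat_lit 306)) (XT.lf (nat_lit 0) (nat_lit 19583919900) (nat_lit 152) (nat_lit 21422021180) (nat_lit 228) (nat_lit 7638877087) (nat_lit 38) (nat_lit 5) (nat_lit 40) (nat_lit 5) (nat_lit 41) (nat_lit 5) (nat_lit 361) (nat_lit 354) (nat_lit 305))) (XT.nd (nat_lit 78) (nat_lit 228) (nat_lit 0) (XT.lf (nat_lit 0) (nat_lit 51658482642) (nat_lit 152) (nat_lit 1079140704) (nat_lit 228) (nat_lit 121077670) (nat_lit 38) (nat_lit 5) (nat_lit 40) (nat_lit 5) (nat_lit 41) (nat_lit 5) (nat_lit 362) (nat_lit 354) (nat_lit 304)) (XT.lf (nat_lit 0) (nat_lit 10151679945) (nat_lit 228) (nat_lit 24994001029) (nat_lit 76) (nat_lit 22148111511) (nat_lit 35) (nat_lit 5) (nat_lit 38) (nat_lit 5) (nat_lit 36) (nat_lit 5) (nat_lit 363) (nat_lit 354) (nat_lit 303))))))))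
noncomputable def xc70 : XT := (XT.nd (nat_lit 2028) (nat_lit 684) (nat_lit 0) (XT.nd (nat_lit 1014) (nat_lit 912) (nat_lit 0) (XT.nd (nat_lit 468) (nat_lit 456) (nat_lit 0) (XT.nd (nat_lit 234) (nat_lit 304) (nat_lit 0) (XT.nd (nat_lit 78) (nat_lit 76) (nat_lit 0) (XT.lf (nat_lit 0) (nat_lit 9338083064) (nat_lit 152) (nat_lit 13113103277) (nat_lit 228) (nat_lit 39867362697) (nat_lit 33) (nat_lit 5) (nat_lit 35) (nat_lit 5) (nat_lit 36) (nat_lit 5) (nat_lit 364) (nat_lit 354) (nat_lit 302)) (XT.nd (nat_lit 78) (nat_lit 76) (nat_lit 0) (XT.lf (nat_lit 0) (nat_lit 38465269117) (nat_lit 228) (nat_lit 16848849049) (nat_lit 76) (nat_lit 12502454108) (nat_lit 33) (nat_lit 5) (nat_lit 36) (nat_lit 5) (nat_lit 34) (nat_lit 4) (nat_lit 365) (nat_lit 354) (nat_lit 301)) (XT.lf (nat_lit 0) (nat_lit 26423171122) (nat_lit 76) (nat_lit 32172285665) (nat_lit 152) (nat_lit 15286744002) (nat_lit 32) (nat_lit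 5) (nat_lit 33) (nat_lit 5) (nat_lit 34) (nat_lit 4) (nat_lit 366) (nat_lit 354) (nat_lit 300)))) (XT.nd (nat_lit 78) (nat_lit 228) (nat_lit 0) (XT.lf (nat_lit 0) (nat_lit 1726699360) (nat_lit 152) (nat_lit 2732062355) (nat_lit 76) (nat_lit 76255668208) (nat_lit 31) (nat_lit 5) (nat_lit 33) (nat_lit 5) (nat_lit 32) (nat_lit 5) (nat_lit 367) (nat_lit 354) (nat_lit 299)) (XT.nd (nat_lit 78) (nat_lit 76) (nat_lit 0) (XT.lf (nat_lit 0) (nat_lit 23177095093) (nat_lit 228) (nat_lit 36751747248) (nat_lit 76) (nat_lit 28015959403) (nat_lit 29) (nat_lit 5) (nat_lit 32) (nat_lit 5) (nat_lit 30) (nat_lit 4) (nat_lit 368) (nat_lit 354) (nat_lit 298)) (XT.lf (nat_lit 0) (nat_lit 18716232819) (nat_lit 76) (nat_lit 30262019195) (nat_lit 152) (nat_lit 47111497430) (nat_lit 28) (nat_lit 5) (nat_lit 29) (nat_lit 5) (nat_lit 30) (nat_lit 4) (nat_lit 369) (nat_lit 354) (nat_lit 297))))) (XT.nd (nat_lit 234)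 (nat_lit 228) (nat_lit 0) (XT.nd (nat_lit 78) (nat_lit 228) (nat_lit 0) (XT.lf (nat_lit 0) (nat_lit 80818178487) (nat_lit 152) (nat_lit 18791252748) (nat_lit 0) (nat_lit 5521718994) (nat_lit 28) (nat_lit 5) (nat_lit 30) (nat_lit 4) (nat_lit 28) (nat_lit 4) (nat_lit 370) (nat_lit 354) (nat_lit 296)) (XT.nd (nat_lit 78) (nat_lit 76) (nat_lit 0) (XT.lf (nat_lit 0) (nat_lit 5486435607) (nat_lit 152) (nat_lit 63503586568) (nat_lit 76) (nat_lit 45964295535) (nat_lit 26) (nat_lit 5) (nat_lit 28) (nat_lit 5) (nat_lit 27) (nat_lit 4) (nat_lit 371) (nat_lit 354) (nat_lit 295)) (XT.lf (nat_lit 0) (nat_lit 7713604597) (nat_lit 76) (nat_lit 30898304608) (nat_lit 152) (nat_lit 87263586188) (nat_lit 25) (nat_lit 5) (nat_lit 26) (nat_lit 5) (nat_lit 27) (nat_lit 4) (nat_lit 372) (nat_lit 354) (nat_lit 294)))) (XT.nd (nat_lit 156) (nat_lit 152) (nat_lit 0) (XT.nd (nat_lit 78) (nat_lit 76) (nat_lit 0) (XT.lf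 (nat_lit 0) (nat_lit 80715195591) (nat_lit 152) (nat_lit 41885058782) (nat_lit 0) (nat_lit 15233246785) (nat_lit 25) (nat_lit 5) (nat_lit 27) (nat_lit 4) (nat_lit 25) (nat_lit 4) (nat_lit 373) (nat_lit 354) (nat_lit 293)) (XT.lf (nat_lit 0) (nat_lit 48691675126) (nat_lit 76) (nat_lit 83927219101) (nat_lit 76) (nat_lit 18443575829) (nat_lit 24) (nat_lit 4) (nat_lit 25) (nat_lit 5) (nat_lit 25) (nat_lit 4) (nat_lit 374) (nat_lit 354) (nat_lit 292))) (XT.nd (nat_lit 78) (nat_lit 76) (nat_lit 0) (XT.lf (nat_lit 0) (nat_lit 26005863480) (nat_lit 152) (nat_lit 9572510238) (nat_lit 76) (nat_lit 130192056830) (nat_lit 23) (nat_lit 5) (nat_lit 25) (nat_lit 5) (nat_lit 24) (nat_lit 4) (nat_lit 375) (nat_lit 354) (nat_lit 291)) (XT.lf (nat_lit 0) (nat_lit 80686938521) (nat_lit 152) (nat_lit 77305788646) (nat_lit 0) (nat_lit 23742244624) (nat_lit 22) (nat_lit 5) (nat_lit 24) (nat_lit 4) (nat_lit 22)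 (nat_lit 4) (nat_lit 376) (nat_lit 354) (nat_lit 290)))))) (XT.nd (nat_lit 468) (nat_lit 456) (nat_lit 0) (XT.nd (nat_lit 234) (nat_lit 228) (nat_lit 0) (XT.nd (nat_lit 78) (nat_lit 152) (nat_lit 0) (XT.lf (nat_lit 0) (nat_lit 38272537600) (nat_lit 76) (nat_lit 109098588377) (nat_lit 76) (nat_lit 52152925664) (nat_lit 21) (nat_lit 4) (nat_lit 22) (nat_lit 5) (nat_lit 22) (nat_lit 4) (nat_lit 377) (nat_lit 354) (nat_lit 289)) (XT.nd (nat_lit 78) (nat_lit 76) (nat_lit 0) (XT.lf (nat_lit 0) (nat_lit 7944709407) (nat_lit 152) (nat_lit 39865379937) (nat_lit 76) (nat_lit 171511408405) (nat_lit 20) (nat_lit 5) (nat_lit 22) (nat_lit 5) (nat_lit 21) (nat_lit 4) (nat_lit 378) (nat_lit 354) (nat_lit 288)) (XT.lf (nat_lit 0) (nat_lit 77403077858) (nat_lit 152) (nat_lit 135576388224) (nat_lit 0) (nat_lit 27883740705) (nat_lit 19) (nat_lit 5) (nat_lit 21) (nat_lit 4) (nat_lit 19) (nat_lit 4) (nat_lit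 379) (nat_lit 354) (nat_lit 287)))) (XT.nd (nat_lit 78) (nat_lit 152) (nat_lit 0) (XT.lf (nat_lit 0) (nat_lit 9867155120) (nat_lit 76) (nat_lit 152279472169) (nat_lit 76) (nat_lit 102759581091) (nat_lit 18) (nat_lit 4) (nat_lit 19) (nat_lit 5) (nat_lit 19) (nat_lit 4) (nat_lit 380) (nat_lit 354) (nat_lit 286)) (XT.nd (nat_lit 78) (nat_lit 152) (nat_lit 0) (XT.lf (nat_lit 0) (nat_lit 192360382563) (nat_lit 76) (nat_lit 74326441596) (nat_lit 76) (nat_lit 24806068845) (nat_lit 18) (nat_lit 4) (nat_lit 19) (nat_lit 5) (nat_lit 19) (nat_lit 4) (nat_lit 381) (nat_lit 354) (nat_lit 285)) (XT.lf (nat_lit 0) (nat_lit 63517508518) (nat_lit 152) (nat_lit 237023947593) (nat_lit 0) (nat_lit 20455950607) (nat_lit 16) (nat_lit 5) (nat_lit 18) (nat_lit 4) (nat_lit 16) (nat_lit 4) (nat_lit 382) (nat_lit 354) (nat_lit 284))))) (XT.nd (nat_lit 234) (nat_lit 228) (nat_lit 0) (XT.nd (nat_lit 78) (nat_lit 228)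 (nat_lit 0) (XT.lf (nat_lit 0) (nat_lit 171516334014) (nat_lit 152) (nat_lit 53434660834) (nat_lit 0) (nat_lit 128454459396) (nat_lit 16) (nat_lit 5) (nat_lit 18) (nat_lit 4) (nat_lit 16) (nat_lit 4) (nat_lit 383) (nat_lit 354) (nat_lit 283)) (XT.nd (nat_lit 78) (nat_lit 152) (nat_lit 0) (XT.lf (nat_lit 0) (nat_lit 173100620402) (nat_lit 76) (nat_lit 129780647897) (nat_lit 76) (nat_lit 86718497881) (nat_lit 15) (nat_lit 4) (nat_lit 16) (nat_lit 5) (nat_lit 16) (nat_lit 4) (nat_lit 384) (nat_lit 354) (nat_lit 282)) (XT.lf (nat_lit 0) (nat_lit 8496564201) (nat_lit 76) (nat_lit 15484344493) (nat_lit 152) (nat_lit 406609664860) (nat_lit 13) (nat_lit 5) (nat_lit 14) (nat_lit 5) (nat_lit 15) (nat_lit 4) (nat_lit 385) (nat_lit 354) (nat_lit 281)))) (XT.nd (nat_lit 156) (nat_lit 152) (nat_lit 0) (XT.nd (nat_lit 78) (nat_lit 76) (nat_lit 0) (XT.lf (nat_lit 0) (nat_lit 159062883932) (nat_lit 152)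 (nat_lit 193932156495) (nat_lit 0) (nat_lit 121617146773) (nat_lit 13) (nat_lit 5) (nat_lit 15) (nat_lit 4) (nat_lit 13) (nat_lit 4) (nat_lit 386) (nat_lit 354) (nat_lit 280)) (XT.lf (nat_lit 0) (nat_lit 74331500505) (nat_lit 76) (nat_lit 243889667564) (nat_lit 76) (nat_lit 206443772945) (nat_lit 12) (nat_lit 4) (nat_lit 13) (nat_lit 5) (nat_lit 13) (nat_lit 4) (nat_lit 387) (nat_lit 354) (nat_lit 279))) (XT.nd (nat_lit 78) (nat_lit 152) (nat_lit 0) (XT.lf (nat_lit 0) (nat_lit 404627527147) (nat_lit 76) (nat_lit 106761843005) (nat_lit 76) (nat_lit 69315811465) (nat_lit 12) (nat_lit 4) (nat_lit 13) (nat_lit 5) (nat_lit 13) (nat_lit 4) (nat_lit 388) (nat_lit 354) (nat_lit 278)) (XT.lf (nat_lit 0) (nat_lit 89255020449) (nat_lit 152) (nat_lit 497343035866) (nat_lit 0) (nat_lit 56693150359) (nat_lit 10) (nat_lit 5) (nat_lit 12) (nat_lit 4) (nat_lit 10) (nat_lit 4) (nat_lit 389) (nat_lit 354)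 (nat_lit 277))))))) (XT.nd (nat_lit 1014) (nat_lit 228) (nat_lit 0) (XT.nd (nat_lit 468) (nat_lit 152) (nat_lit 0) (XT.nd (nat_lit 234) (nat_lit 228) (nat_lit 0) (XT.nd (nat_lit 78) (nat_lit 76) (nat_lit 0) (XT.lf (nat_lit 0) (nat_lit 279240024659) (nat_lit 152) (nat_lit 186643158415) (nat_lit 0) (nat_lit 246678064541) (nat_lit 10) (nat_lit 5) (nat_lit 12) (nat_lit 4) (nat_lit 10) (nat_lit 4) (nat_lit 390) (nat_lit 354) (nat_lit 276)) (XT.nd (nat_lit 78) (nat_lit 0) (nat_lit 0) (XT.lf (nat_lit 0) (nat_lit 187337817077) (nat_lit 76) (nat_lit 318141283904) (nat_lit 76) (nat_lit 285579245501) (nat_lit 9) (nat_lit 4) (nat_lit 10) (nat_lit 5) (nat_lit 10) (nat_lit 4) (nat_lit 391) (nat_lit 354) (nat_lit 275)) (XT.lf (nat_lit 0) (nat_lit 638390183774) (nat_lit 76) (nat_lit 137019307505) (nat_lit 76) (nat_lit 104457201027) (nat_lit 9) (nat_lit 4) (nat_lit 10) (nat_lit 5) (nat_lit 10) (nat_lit 4)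 (nat_lit 392) (nat_lit 354) (nat_lit 274)))) (XT.nd (nat_lit 78) (nat_lit 76) (nat_lit 0) (XT.lf (nat_lit 0) (nat_lit 105877739690) (nat_lit 152) (nat_lit 796217530710) (nat_lit 0) (nat_lit 77562813019) (nat_lit 7) (nat_lit 5) (nat_lit 9) (nat_lit 4) (nat_lit 7) (nat_lit 4) (nat_lit 393) (nat_lit 354) (nat_lit 273)) (XT.nd (nat_lit 78) (nat_lit 76) (nat_lit 0) (XT.lf (nat_lit 0) (nat_lit 356816122991) (nat_lit 152) (nat_lit 405392641408) (nat_lit 0) (nat_lit 328501151559) (nat_lit 7) (nat_lit 5) (nat_lit 9) (nat_lit 4) (nat_lit 7) (nat_lit 4) (nat_lit 394) (nat_lit 354) (nat_lit 272)) (XT.lf (nat_lit 0) (nat_lit 48359796862) (nat_lit 76) (nat_lit 599037235773) (nat_lit 76) (nat_lit 570722225420) (nat_lit 6) (nat_lit 4) (nat_lit 7) (nat_lit 5) (nat_lit 7) (nat_lit 4) (nat_lit 395) (nat_lit 354) (nat_lit 271))))) (XT.nd (nat_lit 234) (nat_lit 76) (nat_lit 0) (XT.nd (nat_lit 78) (nat_lit 76)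 (nat_lit 0) (XT.lf (nat_lit 0) (nat_lit 615734266274) (nat_lit 76) (nat_lit 387021116866) (nat_lit 76) (nat_lit 358706072668) (nat_lit 6) (nat_lit 4) (nat_lit 7) (nat_lit 5) (nat_lit 7) (nat_lit 4) (nat_lit 396) (nat_lit 354) (nat_lit 270)) (XT.nd (nat_lit 78) (nat_lit 76) (nat_lit 0) (XT.lf (nat_lit 0) (nat_lit 1268213654436) (nat_lit 76) (nat_lit 143203245203) (nat_lit 76) (nat_lit 114888171575) (nat_lit 6) (nat_lit 4) (nat_lit 7) (nat_lit 5) (nat_lit 7) (nat_lit 4) (nat_lit 397) (nat_lit 354) (nat_lit 269)) (XT.lf (nat_lit 0) (nat_lit 170862061596) (nat_lit 76) (nat_lit 1394730893391) (nat_lit 0) (nat_lit 146240236187) (nat_lit 5) (nat_lit 5) (nat_lit 6) (nat_lit 4) (nat_lit 5) (nat_lit 4) (nat_lit 398) (nat_lit 354) (nat_lit 268)))) (XT.nd (nat_lit 156) (nat_lit 76) (nat_lit 0) (XT.nd (nat_lit 78) (nat_lit 0) (nat_lit 0) (XT.lf (nat_lit 0) (nat_lit 508664715334) (nat_lit 76) (nat_lit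 928519476522) (nat_lit 0) (nat_lit 484042870574) (nat_lit 5) (nat_lit 5) (nat_lit 6) (nat_lit 4) (nat_lit 5) (nat_lit 4) (nat_lit 399) (nat_lit 354) (nat_lit 267)) (XT.lf (nat_lit 0) (nat_lit 897137303025) (nat_lit 76) (nat_lit 392377339528) (nat_lit 0) (nat_lit 872515441439) (nat_lit 5) (nat_lit 5) (nat_lit 6) (nat_lit 4) (nat_lit 5) (nat_lit 4) (nat_lit 400) (nat_lit 354) (nat_lit 266))) (XT.nd (nat_lit 78) (nat_lit 0) (nat_lit 0) (XT.lf (nat_lit 0) (nat_lit 246094268613) (nat_lit 76) (nat_lit 1107976345551) (nat_lit 76) (nat_lit 1083354469333) (nat_lit 4) (nat_lit 4) (nat_lit 5) (nat_lit 5) (nat_lit 5) (nat_lit 4) (nat_lit 401) (nat_lit 354) (nat_lit 265)) (XT.lf (nat_lit 0) (nat_lit 1024433656602) (nat_lit 76) (nat_lit 875620513988) (nat_lit 76) (nat_lit 850998625045) (nat_lit 4) (nat_lit 4) (nat_lit 5) (nat_lit 5) (nat_lit 5) (nat_lit 4) (nat_lit 402) (nat_lit 354) (nat_lit 264))))))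 (XT.nd (nat_lit 546) (nat_lit 76) (nat_lit 0) (XT.nd (nat_lit 234) (nat_lit 0) (nat_lit 0) (XT.nd (nat_lit 78) (nat_lit 152) (nat_lit 0) (XT.lf (nat_lit 0) (nat_lit 1919523236498) (nat_lit 76) (nat_lit 608411689163) (nat_lit 76) (nat_lit 583789789157) (nat_lit 4) (nat_lit 4) (nat_lit 5) (nat_lit 5) (nat_lit 5) (nat_lit 4) (nat_lit 403) (nat_lit 354) (nat_lit 263)) (XT.nd (nat_lit 78) (nat_lit 152) (nat_lit 0) (XT.lf (nat_lit 0) (nat_lit 2948875630516) (nat_lit 76) (nat_lit 301121872332) (nat_lit 76) (nat_lit 276499962705) (nat_lit 4) (nat_lit 4) (nat_lit 5) (nat_lit 5) (nat_lit 5) (nat_lit 4) (nat_lit 404) (nat_lit 354) (nat_lit 262)) (XT.lf (nat_lit 0) (nat_lit 78352130619) (nat_lit 152) (nat_lit 3866467672979) (nat_lit 0) (nat_lit 56941767147) (nat_lit 2) (nat_lit 5) (nat_lit 4) (nat_lit 4) (nat_lit 2) (nat_lit 4) (nat_lit 405) (nat_lit 354) (nat_lit 261)))) (XT.nd (nat_lit 156) (nat_lit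 0) (nat_lit 0) (XT.nd (nat_lit 78) (nat_lit 0) (nat_lit 0) (XT.lf (nat_lit 0) (nat_lit 504094252106) (nat_lit 152) (nat_lit 3552666576018) (nat_lit 0) (nat_lit 482683882308) (nat_lit 2) (nat_lit 5) (nat_lit 4) (nat_lit 4) (nat_lit 2) (nat_lit 4) (nat_lit 406) (nat_lit 354) (nat_lit 260)) (XT.lf (nat_lit 0) (nat_lit 993697461365) (nat_lit 152) (nat_lit 3191795808208) (nat_lit 0) (nat_lit 972287086067) (nat_lit 2) (nat_lit 5) (nat_lit 4) (nat_lit 4) (nat_lit 2) (nat_lit 4) (nat_lit 407) (nat_lit 354) (nat_lit 259))) (XT.nd (nat_lit 78) (nat_lit 0) (nat_lit 0) (XT.lf (nat_lit 0) (nat_lit 1556740951621) (nat_lit 152) (nat_lit 2776794854528) (nat_lit 0) (nat_lit 1535330571539) (nat_lit 2) (nat_lit 5) (nat_lit 4) (nat_lit 4) (nat_lit 2) (nat_lit 4) (nat_lit 408) (nat_lit 354) (nat_lit 258)) (XT.lf (nat_lit 0) (nat_lit 2204240791162) (nat_lit 152) (nat_lit 2299544131100) (nat_lit 0) (nat_lit 2182830406921)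 (nat_lit 2) (nat_lit 5) (nat_lit 4) (nat_lit 4) (nat_lit 2) (nat_lit 4) (nat_lit 409) (nat_lit 354) (nat_lit 257))))) (XT.nd (nat_lit 234) (nat_lit 76) (nat_lit 0) (XT.nd (nat_lit 78) (nat_lit 0) (nat_lit 0) (XT.lf (nat_lit 0) (nat_lit 2948865455108) (nat_lit 152) (nat_lit 1750706123772) (nat_lit 0) (nat_lit 2927455067250) (nat_lit 2) (nat_lit 5) (nat_lit 4) (nat_lit 4) (nat_lit 2) (nat_lit 4) (nat_lit 410) (nat_lit 354) (nat_lit 256)) (XT.nd (nat_lit 78) (nat_lit 0) (nat_lit 0) (XT.lf (nat_lit 0) (nat_lit 3805183686886) (nat_lit 152) (nat_lit 1119542697616) (nat_lit 0) (nat_lit 3783773295883) (nat_lit 2) (nat_lit 5) (nat_lit 4) (nat_lit 4) (nat_lit 2) (nat_lit 4) (nat_lit 411) (nat_lit 354) (nat_lit 255)) (XT.lf (nat_lit 0) (nat_lit 4789949538855) (nat_lit 152) (nat_lit 393705002991) (nat_lit 0) (nat_lit 4768539145117) (nat_lit 2) (nat_lit 5) (nat_lit 4) (nat_lit 4) (nat_lit 2) (nat_lit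 4) (nat_lit 412) (nat_lit 354) (nat_lit 254)))) (XT.nd (nat_lit 156) (nat_lit 0) (nat_lit 0) (XT.nd (nat_lit 78) (nat_lit 0) (nat_lit 0) (XT.lf (nat_lit 0) (nat_lit 484106654418) (nat_lit 76) (nat_lit 5458369338771) (nat_lit 76) (nat_lit 5436958942655) (nat_lit 1) (nat_lit 4) (nat_lit 2) (nat_lit 5) (nat_lit 2) (nat_lit 4) (nat_lit 413) (nat_lit 354) (nat_lit 253)) (XT.lf (nat_lit 0) (nat_lit 1537836930333) (nat_lit 76) (nat_lit 5750624424515) (nat_lit 76) (nat_lit 5729214026331) (nat_lit 1) (nat_lit 4) (nat_lit 2) (nat_lit 5) (nat_lit 2) (nat_lit 4) (nat_lit 414) (nat_lit 354) (nat_lit 252))) (XT.nd (nat_lit 78) (nat_lit 0) (nat_lit 0) (XT.lf (nat_lit 0) (nat_lit 2749626570474) (nat_lit 76) (nat_lit 6086717867612) (nat_lit 76) (nat_lit 6065307467630) (nat_lit 1) (nat_lit 4) (nat_lit 2) (nat_lit 5) (nat_lit 2) (nat_lit 4) (nat_lit 415) (nat_lit 354) (nat_lit 251)) (XT.lf (nat_lit 0) (nat_lit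 4143184502582) (nat_lit 76) (nat_lit 6473225409341) (nat_lit 76) (nat_lit 6451815007795) (nat_lit 1) (nat_lit 4) (nat_lit 2) (nat_lit 5) (nat_lit 2) (nat_lit 4) (nat_lit 416) (nat_lit 354) (nat_lit 250))))))))
noncomputable def xc71 : XT := (XT.nd (nat_lit 2106) (nat_lit 0) (nat_lit 0) (XT.nd (nat_lit 1014) (nat_lit 0) (nat_lit 0) (XT.nd (nat_lit 468) (nat_lit 0) (nat_lit 0) (XT.nd (nat_lit 234) (nat_lit 0) (nat_lit 0) (XT.nd (nat_lit 78) (nat_lit 0) (nat_lit 0) (XT.lf (nat_lit 0) (nat_lit 5745775990547) (nat_lit 76) (nat_lit 6917709153778) (nat_lit 76) (nat_lit 6896298750872) (nat_lit 1) (nat_lit 4) (nat_lit 2) (nat_lit 5) (nat_lit 2) (nat_lit 4) (nat_lit 417) (nat_lit 354) (nat_lit 249)) (XT.nd (nat_lit 78) (nat_lit 0) (nat_lit 0) (XT.lf (nat_lit 0) (nat_lit 7588756085218) (nat_lit 76) (nat_lit 7428865522010) (nat_lit 76) (nat_lit 7407455117922) (nat_lit 1) (nat_lit 4) (nat_lit 2) (nat_lit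 5) (nat_lit 2) (nat_lit 4) (nat_lit 418) (nat_lit 354) (nat_lit 248)) (XT.lf (nat_lit 0) (nat_lit 9708183092798) (nat_lit 76) (nat_lit 8016695399503) (nat_lit 76) (nat_lit 7995284994387) (nat_lit 1) (nat_lit 4) (nat_lit 2) (nat_lit 5) (nat_lit 2) (nat_lit 4) (nat_lit 419) (nat_lit 354) (nat_lit 247)))) (XT.nd (nat_lit 78) (nat_lit 0) (nat_lit 0) (XT.lf (nat_lit 0) (nat_lit 12145524063433) (nat_lit 76) (nat_lit 8692699805599) (nat_lit 76) (nat_lit 8671289399588) (nat_lit 1) (nat_lit 4) (nat_lit 2) (nat_lit 5) (nat_lit 2) (nat_lit 4) (nat_lit 420) (nat_lit 354) (nat_lit 246)) (XT.nd (nat_lit 78) (nat_lit 0) (nat_lit 0) (XT.lf (nat_lit 0) (nat_lit 14948466103071) (nat_lit 76) (nat_lit 9470104913460) (nat_lit 76) (nat_lit 9448694506673) (nat_lit 1) (nat_lit 4) (nat_lit 2) (nat_lit 5) (nat_lit 2) (nat_lit 4) (nat_lit 421) (nat_lit 354) (nat_lit 245)) (XT.lf (nat_lit 0) (nat_lit 18171849382054)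 (nat_lit 76) (nat_lit 10364120823024) (nat_lit 76) (nat_lit 10342710415560) (nat_lit 1) (nat_lit 4) (nat_lit 2) (nat_lit 5) (nat_lit 2) (nat_lit 4) (nat_lit 422) (nat_lit 354) (nat_lit 244))))) (XT.nd (nat_lit 234) (nat_lit 0) (nat_lit 0) (XT.nd (nat_lit 78) (nat_lit 0) (nat_lit 0) (XT.lf (nat_lit 0) (nat_lit 21878740094969) (nat_lit 76) (nat_lit 11392239149911) (nat_lit 76) (nat_lit 11370828741860) (nat_lit 1) (nat_lit 4) (nat_lit 2) (nat_lit 5) (nat_lit 2) (nat_lit 4) (nat_lit 423) (nat_lit 354) (nat_lit 243)) (XT.nd (nat_lit 78) (nat_lit 0) (nat_lit 0) (XT.lf (nat_lit 0) (nat_lit 26141664364461) (nat_lit 76) (nat_lit 12574575252692) (nat_lit 76) (nat_lit 12553164844130) (nat_lit 1) (nat_lit 4) (nat_lit 2) (nat_lit 5) (nat_lit 2) (nat_lit 4) (nat_lit 424) (nat_lit 354) (nat_lit 242)) (XT.lf (nat_lit 0) (nat_lit 31044027230584) (nat_lit 76) (nat_lit 13934261794247) (nat_lit 76) (nat_lit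 13912851385240) (nat_lit 1) (nat_lit 4) (nat_lit 2) (nat_lit 5) (nat_lit 2) (nat_lit 4) (nat_lit 425) (nat_lit 354) (nat_lit 241)))) (XT.nd (nat_lit 156) (nat_lit 0) (nat_lit 0) (XT.nd (nat_lit 78) (nat_lit 0) (nat_lit 0) (XT.lf (nat_lit 0) (nat_lit 36681744488547) (nat_lit 76) (nat_lit 15497901337346) (nat_lit 76) (nat_lit 15476490927952) (nat_lit 1) (nat_lit 4) (nat_lit 2) (nat_lit 5) (nat_lit 2) (nat_lit 4) (nat_lit 426) (nat_lit 354) (nat_lit 240)) (XT.lf (nat_lit 0) (nat_lit 43165119302091) (nat_lit 76) (nat_lit 17296086829571) (nat_lit 76) (nat_lit 17274676419841) (nat_lit 1) (nat_lit 4) (nat_lit 2) (nat_lit 5) (nat_lit 2) (nat_lit 4) (nat_lit 427) (nat_lit 354) (nat_lit 239))) (XT.nd (nat_lit 78) (nat_lit 0) (nat_lit 0) (XT.lf (nat_lit 0) (nat_lit 50621000308873) (nat_lit 76) (nat_lit 19364000160987) (nat_lit 76) (nat_lit 19342589750965) (nat_lit 1) (nat_lit 4) (nat_lit 2) (nat_lit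 5) (nat_lit 2) (nat_lit 4) (nat_lit 428) (nat_lit 354) (nat_lit 238)) (XT.lf (nat_lit 0) (nat_lit 59195263441634) (nat_lit 76) (nat_lit 21742100505469) (nat_lit 76) (nat_lit 21720690095193) (nat_lit 1) (nat_lit 4) (nat_lit 2) (nat_lit 5) (nat_lit 2) (nat_lit 4) (nat_lit 429) (nat_lit 354) (nat_lit 237)))))) (XT.nd (nat_lit 546) (nat_lit 0) (nat_lit 0) (XT.nd (nat_lit 234) (nat_lit 0) (nat_lit 0) (XT.nd (nat_lit 78) (nat_lit 0) (nat_lit 0) (XT.lf (nat_lit 0) (nat_lit 69055666022537) (nat_lit 76) (nat_lit 24476915913237) (nat_lit 76) (nat_lit 24455505502740) (nat_lit 1) (nat_lit 4) (nat_lit 2) (nat_lit 5) (nat_lit 2) (nat_lit 4) (nat_lit 430) (nat_lit 354) (nat_lit 236)) (XT.nd (nat_lit 78) (nat_lit 0) (nat_lit 0) (XT.lf (nat_lit 0) (nat_lit 80395128971643) (nat_lit 76) (nat_lit 27621953642267) (nat_lit 76) (nat_lit 27600543231578) (nat_lit 1) (nat_lit 4) (nat_lit 2) (nat_lit 5) (nat_lit 2)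 (nat_lit 4) (nat_lit 431) (nat_lit 354) (nat_lit 235)) (XT.lf (nat_lit 0) (nat_lit 93435511346651) (nat_lit 76) (nat_lit 31238747039433) (nat_lit 76) (nat_lit 31217336628576) (nat_lit 1) (nat_lit 4) (nat_lit 2) (nat_lit 5) (nat_lit 2) (nat_lit 4) (nat_lit 432) (nat_lit 354) (nat_lit 234)))) (XT.nd (nat_lit 156) (nat_lit 0) (nat_lit 0) (XT.nd (nat_lit 78) (nat_lit 0) (nat_lit 0) (XT.lf (nat_lit 0) (nat_lit 108431951063596) (nat_lit 76) (nat_lit 35398059453808) (nat_lit 76) (nat_lit 35376649042807) (nat_lit 1) (nat_lit 4) (nat_lit 2) (nat_lit 5) (nat_lit 2) (nat_lit 4) (nat_lit 433) (nat_lit 354) (nat_lit 233)) (XT.lf (nat_lit 0) (nat_lit 125677856725634) (nat_lit 76) (nat_lit 40181268736980) (nat_lit 76) (nat_lit 40159858325852) (nat_lit 1) (nat_lit 4) (nat_lit 2) (nat_lit 5) (nat_lit 2) (nat_lit 4) (nat_lit 434) (nat_lit 354) (nat_lit 232))) (XT.nd (nat_lit 78) (nat_lit 0) (nat_lit 0) (XT.lf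 (nat_lit 0) (nat_lit 145510648226153) (nat_lit 76) (nat_lit 45681959418401) (nat_lit 76) (nat_lit 45660549007163) (nat_lit 1) (nat_lit 4) (nat_lit 2) (nat_lit 5) (nat_lit 2) (nat_lit 4) (nat_lit 435) (nat_lit 354) (nat_lit 231)) (XT.lf (nat_lit 0) (nat_lit 168318358442337) (nat_lit 76) (nat_lit 52007753707056) (nat_lit 76) (nat_lit 51986343295722) (nat_lit 1) (nat_lit 4) (nat_lit 2) (nat_lit 5) (nat_lit 2) (nat_lit 4) (nat_lit 436) (nat_lit 354) (nat_lit 230))))) (XT.nd (nat_lit 234) (nat_lit 0) (nat_lit 0) (XT.nd (nat_lit 78) (nat_lit 0) (nat_lit 0) (XT.lf (nat_lit 0) (nat_lit 194547225182763) (nat_lit 76) (nat_lit 59282417143374) (nat_lit 76) (nat_lit 59261006731958) (nat_lit 1) (nat_lit 4) (nat_lit 2) (nat_lit 5) (nat_lit 2) (nat_lit 4) (nat_lit 437) (nat_lit 354) (nat_lit 229)) (XT.nd (nat_lit 78) (nat_lit 0) (nat_lit 0) (XT.lf (nat_lit 0) (nat_lit 224710421927136) (nat_lit 76) (nat_lit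 67648280098937) (nat_lit 76) (nat_lit 67626869687448) (nat_lit 1) (nat_lit 4) (nat_lit 2) (nat_lit 5) (nat_lit 2) (nat_lit 4) (nat_lit 438) (nat_lit 354) (nat_lit 228)) (XT.lf (nat_lit 0) (nat_lit 259398098176976) (nat_lit 76) (nat_lit 77269022501134) (nat_lit 76) (nat_lit 77247612089582) (nat_lit 1) (nat_lit 4) (nat_lit 2) (nat_lit 5) (nat_lit 2) (nat_lit 4) (nat_lit 439) (nat_lit 354) (nat_lit 227)))) (XT.nd (nat_lit 156) (nat_lit 0) (nat_lit 0) (XT.nd (nat_lit 78) (nat_lit 0) (nat_lit 0) (XT.lf (nat_lit 0) (nat_lit 299288925858911) (nat_lit 76) (nat_lit 88332876266531) (nat_lit 76) (nat_lit 88311465854925) (nat_lit 1) (nat_lit 4) (nat_lit 2) (nat_lit 5) (nat_lit 2) (nat_lit 4) (nat_lit 440) (nat_lit 354) (nat_lit 226)) (XT.lf (nat_lit 0) (nat_lit 345163377688455) (nat_lit 76) (nat_lit 101056308099235) (nat_lit 76) (nat_lit 101034897687580) (nat_lit 1) (nat_lit 4) (nat_lit 2) (nat_lit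 5) (nat_lit 2) (nat_lit 4) (nat_lit 441) (nat_lit 354) (nat_lit 225))) (XT.nd (nat_lit 78) (nat_lit 0) (nat_lit 0) (XT.lf (nat_lit 0) (nat_lit 397918997288362) (nat_lit 76) (nat_lit 115688254709013) (nat_lit 76) (nat_lit 115666844297319) (nat_lit 1) (nat_lit 4) (nat_lit 2) (nat_lit 5) (nat_lit 2) (nat_lit 4) (nat_lit 442) (nat_lit 354) (nat_lit 224)) (XT.lf (nat_lit 0) (nat_lit 458587959824717) (nat_lit 76) (nat_lit 132514993312147) (nat_lit 76) (nat_lit 132493582900416) (nat_lit 1) (nat_lit 4) (nat_lit 2) (nat_lit 5) (nat_lit 2) (nat_lit 4) (nat_lit 443) (nat_lit 354) (nat_lit 223))))))) (XT.nd (nat_lit 47034) (nat_lit 0) (nat_lit 1444) (XT.nd (nat_lit 46488) (nat_lit 0) (nat_lit 2432) (XT.nd (nat_lit 46254) (nat_lit 0) (nat_lit 3116) (XT.nd (nat_lit 78) (nat_lit 0) (nat_lit 0) (XT.lf (nat_lit 0) (nat_lit 528357266738448) (nat_lit 76) (nat_lit 151865742707392) (nat_lit 76) (nat_lit 151844332295629)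 (nat_lit 1) (nat_lit 4) (nat_lit 2) (nat_lit 5) (nat_lit 2) (nat_lit 4) (nat_lit 444) (nat_lit 354) (nat_lit 222)) (XT.nd (nat_lit 46098) (nat_lit 0) (nat_lit 3116) (XT.lf (nat_lit 0) (nat_lit 608591969686560) (nat_lit 76) (nat_lit 174119104513350) (nat_lit 76) (nat_lit 174097694101561) (nat_lit 1) (nat_lit 4) (nat_lit 2) (nat_lit 5) (nat_lit 2) (nat_lit 4) (nat_lit 445) (nat_lit 354) (nat_lit 221)) (XT.lf (nat_lit 0) (nat_lit 4769301815) (nat_lit 380) (nat_lit 5866231229) (nat_lit 380) (nat_lit 5866231229) (nat_lit 42) (nat_lit 3) (nat_lit 47) (nat_lit 3) (nat_lit 47) (nat_lit 5) (nat_lit 355) (nat_lit 355) (nat_lit 310)))) (XT.nd (nat_lit 78) (nat_lit 0) (nat_lit 76) (XT.lf (nat_lit 76) (nat_lit 5159257899) (nat_lit 0) (nat_lit 5364207015) (nat_lit 380) (nat_lit 24914895232) (nat_lit 43) (nat_lit 5) (nat_lit 42) (nat_lit 3) (nat_lit 47) (nat_lit 5) (nat_lit 356) (nat_lit 355) (nat_lit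 309)) (XT.nd (nat_lit 78) (nat_lit 0) (nat_lit 0) (XT.lf (nat_lit 0) (nat_lit 12823858006) (nat_lit 304) (nat_lit 12815642565) (nat_lit 380) (nat_lit 12423747858) (nat_lit 43) (nat_lit 5) (nat_lit 47) (nat_lit 5) (nat_lit 48) (nat_lit 5) (nat_lit 357) (nat_lit 355) (nat_lit 308)) (XT.lf (nat_lit 76) (nat_lit 7689542522) (nat_lit 0) (nat_lit 8344884413) (nat_lit 380) (nat_lit 24962677524) (nat_lit 44) (nat_lit 5) (nat_lit 43) (nat_lit 5) (nat_lit 48) (nat_lit 5) (nat_lit 358) (nat_lit 355) (nat_lit 307))))) (XT.nd (nat_lit 234) (nat_lit 532) (nat_lit 0) (XT.nd (nat_lit 78) (nat_lit 304) (nat_lit 0) (XT.lf (nat_lit 0) (nat_lit 20898586669) (nat_lit 304) (nat_lit 12077502892) (nat_lit 76) (nat_lit 11219150283) (nat_lit 44) (nat_lit 5) (nat_lit 48) (nat_lit 5) (nat_lit 45) (nat_lit 5) (nat_lit 359) (nat_lit 355) (nat_lit 306)) (XT.nd (nat_lit 78) (nat_lit 0) (nat_lit 0) (XT.lf (nat_lit 0) (nat_lit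 13099030218) (nat_lit 304) (nat_lit 14326324746) (nat_lit 380) (nat_lit 20307794421) (nat_lit 40) (nat_lit 5) (nat_lit 44) (nat_lit 5) (nat_lit 45) (nat_lit 5) (nat_lit 360) (nat_lit 355) (nat_lit 305)) (XT.lf (nat_lit 0) (nat_lit 35881195659) (nat_lit 380) (nat_lit 8630010652) (nat_lit 76) (nat_lit 7148031811) (nat_lit 40) (nat_lit 5) (nat_lit 45) (nat_lit 5) (nat_lit 41) (nat_lit 5) (nat_lit 361) (nat_lit 355) (nat_lit 304)))) (XT.nd (nat_lit 156) (nat_lit 380) (nat_lit 0) (XT.nd (nat_lit 78) (nat_lit 0) (nat_lit 0) (XT.lf (nat_lit 0) (nat_lit 22597866266) (nat_lit 152) (nat_lit 24620097765) (nat_lit 228) (nat_lit 8714394565) (nat_lit 38) (nat_lit 5) (nat_lit 40) (nat_lit 5) (nat_lit 41) (nat_lit 5) (nat_lit 362) (nat_lit 355) (nat_lit 303)) (XT.lf (nat_lit 0) (nat_lit 59473653630) (nat_lit 152) (nat_lit 1227771295) (nat_lit 228) (nat_lit 78096638) (nat_lit 38) (nat_lit 5) (nat_lit 40)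 (nat_lit 5) (nat_lit 41) (nat_lit 5) (nat_lit 363) (nat_lit 355) (nat_lit 302))) (XT.nd (nat_lit 78) (nat_lit 152) (nat_lit 0) (XT.lf (nat_lit 0) (nat_lit 11726422943) (nat_lit 228) (nat_lit 28667533205) (nat_lit 76) (nat_lit 25486098323) (nat_lit 35) (nat_lit 5) (nat_lit 38) (nat_lit 5) (nat_lit 36) (nat_lit 5) (nat_lit 364) (nat_lit 355) (nat_lit 301)) (XT.lf (nat_lit 0) (nat_lit 10810928594) (nat_lit 152) (nat_lit 15056132145) (nat_lit 228) (nat_lit 45792034025) (nat_lit 33) (nat_lit 5) (nat_lit 35) (nat_lit 5) (nat_lit 36) (nat_lit 5) (nat_lit 365) (nat_lit 355) (nat_lit 300)))))) (XT.nd (nat_lit 546) (nat_lit 456) (nat_lit 0) (XT.nd (nat_lit 234) (nat_lit 380) (nat_lit 0) (XT.nd (nat_lit 78) (nat_lit 152) (nat_lit 0) (XT.lf (nat_lit 0) (nat_lit 44277831320) (nat_lit 228) (nat_lit 19308021158) (nat_lit 76) (nat_lit 14396783633) (nat_lit 33) (nat_lit 5) (nat_lit 36) (nat_lit 5) (nat_lit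 34) (nat_lit 4) (nat_lit 366) (nat_lit 355) (nat_lit 299)) (XT.nd (nat_lit 78) (nat_lit 76) (nat_lit 0) (XT.lf (nat_lit 0) (nat_lit 30451704073) (nat_lit 76) (nat_lit 36972958016) (nat_lit 152) (nat_lit 17533880385) (nat_lit 32) (nat_lit 5) (nat_lit 33) (nat_lit 5) (nat_lit 34) (nat_lit 4) (nat_lit 367) (nat_lit 355) (nat_lit 298)) (XT.lf (nat_lit 0) (nat_lit 2022044341) (nat_lit 152) (nat_lit 3081744647) (nat_lit 76) (nat_lit 87712350317) (nat_lit 31) (nat_lit 5) (nat_lit 33) (nat_lit 5) (nat_lit 32) (nat_lit 5) (nat_lit 368) (nat_lit 355) (nat_lit 297)))) (XT.nd (nat_lit 156) (nat_lit 152) (nat_lit 0) (XT.nd (nat_lit 78) (nat_lit 76) (nat_lit 0) (XT.lf (nat_lit 0) (nat_lit 26688605652) (nat_lit 228) (nat_lit 42202984930) (nat_lit 76) (nat_lit 32239685919) (nat_lit 29) (nat_lit 5) (nat_lit 32) (nat_lit 5) (nat_lit 30) (nat_lit 4) (nat_lit 369) (nat_lit 355) (nat_lit 296)) (XT.lf (nat_lit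 0) (nat_lit 21582395584) (nat_lit 76) (nat_lit 34775414110) (nat_lit 152) (nat_lit 54140476089) (nat_lit 28) (nat_lit 5) (nat_lit 29) (nat_lit 5) (nat_lit 30) (nat_lit 4) (nat_lit 370) (nat_lit 355) (nat_lit 295))) (XT.nd (nat_lit 78) (nat_lit 152) (nat_lit 0) (XT.lf (nat_lit 0) (nat_lit 92970377147) (nat_lit 152) (nat_lit 21555522290) (nat_lit 0) (nat_lit 6370499851) (nat_lit 28) (nat_lit 5) (nat_lit 30) (nat_lit 4) (nat_lit 28) (nat_lit 4) (nat_lit 371) (nat_lit 355) (nat_lit 294)) (XT.lf (nat_lit 0) (nat_lit 6338504526) (nat_lit 152) (nat_lit 72974333495) (nat_lit 76) (nat_lit 52880259772) (nat_lit 26) (nat_lit 5) (nat_lit 28) (nat_lit 5) (nat_lit 27) (nat_lit 4) (nat_lit 372) (nat_lit 355) (nat_lit 293))))) (XT.nd (nat_lit 234) (nat_lit 304) (nat_lit 0) (XT.nd (nat_lit 78) (nat_lit 76) (nat_lit 0) (XT.lf (nat_lit 0) (nat_lit 8922945842) (nat_lit 76) (nat_lit 35508222858) (nat_lit 152)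 (nat_lit 100321528265) (nat_lit 25) (nat_lit 5) (nat_lit 26) (nat_lit 5) (nat_lit 27) (nat_lit 4) (nat_lit 373) (nat_lit 355) (nat_lit 292)) (XT.nd (nat_lit 78) (nat_lit 76) (nat_lit 0) (XT.lf (nat_lit 0) (nat_lit 92847258551) (nat_lit 152) (nat_lit 48119647824) (nat_lit 0) (nat_lit 17537900873) (nat_lit 25) (nat_lit 5) (nat_lit 27) (nat_lit 4) (nat_lit 25) (nat_lit 4) (nat_lit 374) (nat_lit 355) (nat_lit 291)) (XT.lf (nat_lit 0) (nat_lit 56041406635) (nat_lit 76) (nat_lit 96493776646) (nat_lit 76) (nat_lit 21183137707) (nat_lit 24) (nat_lit 4) (nat_lit 25) (nat_lit 5) (nat_lit 25) (nat_lit 4) (nat_lit 375) (nat_lit 355) (nat_lit 290)))) (XT.nd (nat_lit 156) (nat_lit 152) (nat_lit 0) (XT.nd (nat_lit 78) (nat_lit 76) (nat_lit 0) (XT.lf (nat_lit 0) (nat_lit 29928110862) (nat_lit 152) (nat_lit 10966314722) (nat_lit 76) (nat_lit 149738363355) (nat_lit 23) (nat_lit 5) (nat_lit 25) (nat_lit 5)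 (nat_lit 24) (nat_lit 4) (nat_lit 376) (nat_lit 355) (nat_lit 289)) (XT.lf (nat_lit 0) (nat_lit 92811047654) (nat_lit 152) (nat_lit 88859284505) (nat_lit 0) (nat_lit 27321724268) (nat_lit 22) (nat_lit 5) (nat_lit 24) (nat_lit 4) (nat_lit 22) (nat_lit 4) (nat_lit 377) (nat_lit 355) (nat_lit 288))) (XT.nd (nat_lit 78) (nat_lit 76) (nat_lit 0) (XT.lf (nat_lit 0) (nat_lit 44053864658) (nat_lit 76) (nat_lit 125442925324) (nat_lit 76) (nat_lit 59952869374) (nat_lit 21) (nat_lit 4) (nat_lit 22) (nat_lit 5) (nat_lit 22) (nat_lit 4) (nat_lit 378) (nat_lit 355) (nat_lit 287)) (XT.lf (nat_lit 0) (nat_lit 9154631430) (nat_lit 152) (nat_lit 45808235388) (nat_lit 76) (nat_lit 197254122673) (nat_lit 20) (nat_lit 5) (nat_lit 22) (nat_lit 5) (nat_lit 21) (nat_lit 4) (nat_lit 379) (nat_lit 355) (nat_lit 286))))))))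
noncomputable def xc72 : XT := (XT.nd (nat_lit 2028) (nat_lit 228) (nat_lit 0) (XT.nd (nat_lit 1014) (nat_lit 380) (nat_lit 0) (XT.nd (nat_lit 468) (nat_lit 456) (nat_lit 0) (XT.nd (nat_lit 234) (nat_lit 228) (nat_lit 0) (XT.nd (nat_lit 78) (nat_lit 76) (nat_lit 0) (XT.lf (nat_lit 0) (nat_lit 89031583906) (nat_lit 152) (nat_lit 155875723172) (nat_lit 0) (nat_lit 32082673569) (nat_lit 19) (nat_lit 5) (nat_lit 21) (nat_lit 4) (nat_lit 19) (nat_lit 4) (nat_lit 380) (nat_lit 355) (nat_lit 285)) (XT.nd (nat_lit 78) (nat_lit 0) (nat_lit 0) (XT.lf (nat_lit 0) (nat_lit 11382664253) (nat_lit 76) (nat_lit 175103115209) (nat_lit 76) (nat_lit 118153786026) (nat_lit 18) (nat_lit 4) (nat_lit 19) (nat_lit 5) (nat_lit 19) (nat_lit 4) (nat_lit 381) (nat_lit 355) (nat_lit 284)) (XT.lf (nat_lit 0) (nat_lit 221245253742) (nat_lit 76) (nat_lit 85459514109) (nat_lit 76) (nat_lit 28509820712) (nat_lit 18) (nat_lit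 4) (nat_lit 19) (nat_lit 5) (nat_lit 19) (nat_lit 4) (nat_lit 382) (nat_lit 355) (nat_lit 283)))) (XT.nd (nat_lit 78) (nat_lit 76) (nat_lit 0) (XT.lf (nat_lit 0) (nat_lit 73060667781) (nat_lit 152) (nat_lit 272545099845) (nat_lit 0) (nat_lit 23538919864) (nat_lit 16) (nat_lit 5) (nat_lit 18) (nat_lit 4) (nat_lit 16) (nat_lit 4) (nat_lit 383) (nat_lit 355) (nat_lit 282)) (XT.nd (nat_lit 78) (nat_lit 76) (nat_lit 0) (XT.lf (nat_lit 0) (nat_lit 197257291060) (nat_lit 152) (nat_lit 61421651362) (nat_lit 0) (nat_lit 147735303667) (nat_lit 16) (nat_lit 5) (nat_lit 18) (nat_lit 4) (nat_lit 16) (nat_lit 4) (nat_lit 384) (nat_lit 355) (nat_lit 281)) (XT.lf (nat_lit 0) (nat_lit 199092639850) (nat_lit 76) (nat_lit 149233678826) (nat_lit 76) (nat_lit 99711483192) (nat_lit 15) (nat_lit 4) (nat_lit 16) (nat_lit 5) (nat_lit 16) (nat_lit 4) (nat_lit 385) (nat_lit 355) (nat_lit 280))))) (XT.nd (nat_lit 234)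 (nat_lit 228) (nat_lit 0) (XT.nd (nat_lit 78) (nat_lit 76) (nat_lit 0) (XT.lf (nat_lit 0) (nat_lit 9798008277) (nat_lit 76) (nat_lit 17792868462) (nat_lit 152) (nat_lit 467586357923) (nat_lit 13) (nat_lit 5) (nat_lit 14) (nat_lit 5) (nat_lit 15) (nat_lit 4) (nat_lit 386) (nat_lit 355) (nat_lit 279)) (XT.nd (nat_lit 78) (nat_lit 76) (nat_lit 0) (XT.lf (nat_lit 0) (nat_lit 182933983252) (nat_lit 152) (nat_lit 222997371818) (nat_lit 0) (nat_lit 139870910058) (nat_lit 13) (nat_lit 5) (nat_lit 15) (nat_lit 4) (nat_lit 13) (nat_lit 4) (nat_lit 387) (nat_lit 355) (nat_lit 278)) (XT.lf (nat_lit 0) (nat_lit 85504715180) (nat_lit 76) (nat_lit 280460745736) (nat_lit 76) (nat_lit 237397553481) (nat_lit 12) (nat_lit 4) (nat_lit 13) (nat_lit 5) (nat_lit 13) (nat_lit 4) (nat_lit 388) (nat_lit 355) (nat_lit 277)))) (XT.nd (nat_lit 156) (nat_lit 76) (nat_lit 0) (XT.nd (nat_lit 78) (nat_lit 152) (nat_lit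 0) (XT.lf (nat_lit 0) (nat_lit 465342081957) (nat_lit 76) (nat_lit 122765361228) (nat_lit 76) (nat_lit 79702065440) (nat_lit 12) (nat_lit 4) (nat_lit 13) (nat_lit 5) (nat_lit 13) (nat_lit 4) (nat_lit 389) (nat_lit 355) (nat_lit 276)) (XT.lf (nat_lit 0) (nat_lit 102653373650) (nat_lit 152) (nat_lit 571923047722) (nat_lit 0) (nat_lit 65206951201) (nat_lit 10) (nat_lit 5) (nat_lit 12) (nat_lit 4) (nat_lit 10) (nat_lit 4) (nat_lit 390) (nat_lit 355) (nat_lit 275))) (XT.nd (nat_lit 78) (nat_lit 76) (nat_lit 0) (XT.lf (nat_lit 0) (nat_lit 321134811083) (nat_lit 152) (nat_lit 214620985634) (nat_lit 0) (nat_lit 283688320560) (nat_lit 10) (nat_lit 5) (nat_lit 12) (nat_lit 4) (nat_lit 10) (nat_lit 4) (nat_lit 391) (nat_lit 355) (nat_lit 274)) (XT.lf (nat_lit 0) (nat_lit 215456288612) (nat_lit 76) (nat_lit 365853051686) (nat_lit 76) (nat_lit 328406501968) (nat_lit 9) (nat_lit 4) (nat_lit 10) (nat_lit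 5) (nat_lit 10) (nat_lit 4) (nat_lit 392) (nat_lit 355) (nat_lit 273)))))) (XT.nd (nat_lit 468) (nat_lit 152) (nat_lit 0) (XT.nd (nat_lit 234) (nat_lit 76) (nat_lit 0) (XT.nd (nat_lit 78) (nat_lit 152) (nat_lit 0) (XT.lf (nat_lit 0) (nat_lit 734164188708) (nat_lit 76) (nat_lit 157564008150) (nat_lit 76) (nat_lit 120117406958) (nat_lit 9) (nat_lit 4) (nat_lit 10) (nat_lit 5) (nat_lit 10) (nat_lit 4) (nat_lit 393) (nat_lit 355) (nat_lit 272)) (XT.nd (nat_lit 78) (nat_lit 0) (nat_lit 0) (XT.lf (nat_lit 0) (nat_lit 121767015499) (nat_lit 152) (nat_lit 915633923493) (nat_lit 0) (nat_lit 89204714671) (nat_lit 7) (nat_lit 5) (nat_lit 9) (nat_lit 4) (nat_lit 7) (nat_lit 4) (nat_lit 394) (nat_lit 355) (nat_lit 271)) (XT.lf (nat_lit 0) (nat_lit 410345163052) (nat_lit 152) (nat_lit 466187418643) (nat_lit 0) (nat_lit 377782828380) (nat_lit 7) (nat_lit 5) (nat_lit 9) (nat_lit 4) (nat_lit 7) (nat_lit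 4) (nat_lit 395) (nat_lit 355) (nat_lit 270)))) (XT.nd (nat_lit 78) (nat_lit 0) (nat_lit 0) (XT.lf (nat_lit 0) (nat_lit 55627243597) (nat_lit 76) (nat_lit 688885659921) (nat_lit 76) (nat_lit 656323295818) (nat_lit 6) (nat_lit 4) (nat_lit 7) (nat_lit 5) (nat_lit 7) (nat_lit 4) (nat_lit 396) (nat_lit 355) (nat_lit 269)) (XT.nd (nat_lit 78) (nat_lit 0) (nat_lit 0) (XT.lf (nat_lit 0) (nat_lit 708106125525) (nat_lit 76) (nat_lit 445068057249) (nat_lit 76) (nat_lit 412505667554) (nat_lit 6) (nat_lit 4) (nat_lit 7) (nat_lit 5) (nat_lit 7) (nat_lit 4) (nat_lit 397) (nat_lit 355) (nat_lit 268)) (XT.lf (nat_lit 0) (nat_lit 1458455893305) (nat_lit 76) (nat_lit 164678317073) (nat_lit 76) (nat_lit 132115905125) (nat_lit 6) (nat_lit 4) (nat_lit 7) (nat_lit 5) (nat_lit 7) (nat_lit 4) (nat_lit 398) (nat_lit 355) (nat_lit 267))))) (XT.nd (nat_lit 234) (nat_lit 76) (nat_lit 0) (XT.nd (nat_lit 78) (nat_lit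 0) (nat_lit 0) (XT.lf (nat_lit 0) (nat_lit 196496368086) (nat_lit 76) (nat_lit 1603929841723) (nat_lit 0) (nat_lit 168181210435) (nat_lit 5) (nat_lit 5) (nat_lit 6) (nat_lit 4) (nat_lit 5) (nat_lit 4) (nat_lit 399) (nat_lit 355) (nat_lit 266)) (XT.nd (nat_lit 78) (nat_lit 0) (nat_lit 0) (XT.lf (nat_lit 0) (nat_lit 584968768070) (nat_lit 76) (nat_lit 1067788106108) (nat_lit 0) (nat_lit 556653595786) (nat_lit 5) (nat_lit 5) (nat_lit 6) (nat_lit 4) (nat_lit 5) (nat_lit 4) (nat_lit 400) (nat_lit 355) (nat_lit 265)) (XT.lf (nat_lit 0) (nat_lit 1031711677119) (nat_lit 76) (nat_lit 451225860552) (nat_lit 0) (nat_lit 1003396492112) (nat_lit 5) (nat_lit 5) (nat_lit 6) (nat_lit 4) (nat_lit 5) (nat_lit 4) (nat_lit 401) (nat_lit 355) (nat_lit 264)))) (XT.nd (nat_lit 156) (nat_lit 0) (nat_lit 0) (XT.nd (nat_lit 78) (nat_lit 0) (nat_lit 0) (XT.lf (nat_lit 0) (nat_lit 283016121542) (nat_lit 76) (nat_lit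 1274168689884) (nat_lit 76) (nat_lit 1245853493813) (nat_lit 4) (nat_lit 4) (nat_lit 5) (nat_lit 5) (nat_lit 5) (nat_lit 4) (nat_lit 402) (nat_lit 355) (nat_lit 263)) (XT.lf (nat_lit 0) (nat_lit 1178105411734) (nat_lit 76) (nat_lit 1006960019346) (nat_lit 76) (nat_lit 978644813655) (nat_lit 4) (nat_lit 4) (nat_lit 5) (nat_lit 5) (nat_lit 5) (nat_lit 4) (nat_lit 403) (nat_lit 355) (nat_lit 262))) (XT.nd (nat_lit 78) (nat_lit 0) (nat_lit 0) (XT.lf (nat_lit 0) (nat_lit 2207457553835) (nat_lit 76) (nat_lit 699670336678) (nat_lit 76) (nat_lit 671355122620) (nat_lit 4) (nat_lit 4) (nat_lit 5) (nat_lit 5) (nat_lit 5) (nat_lit 4) (nat_lit 404) (nat_lit 355) (nat_lit 261)) (XT.lf (nat_lit 0) (nat_lit 3391212046278) (nat_lit 76) (nat_lit 346287452434) (nat_lit 76) (nat_lit 317972231101) (nat_lit 4) (nat_lit 4) (nat_lit 5) (nat_lit 5) (nat_lit 5) (nat_lit 4) (nat_lit 405) (nat_lit 355) (nat_lit 260)))))))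 (XT.nd (nat_lit 1014) (nat_lit 0) (nat_lit 0) (XT.nd (nat_lit 468) (nat_lit 76) (nat_lit 0) (XT.nd (nat_lit 234) (nat_lit 0) (nat_lit 0) (XT.nd (nat_lit 78) (nat_lit 0) (nat_lit 0) (XT.lf (nat_lit 0) (nat_lit 90107431578) (nat_lit 152) (nat_lit 4446432508085) (nat_lit 0) (nat_lit 65485494484) (nat_lit 2) (nat_lit 5) (nat_lit 4) (nat_lit 4) (nat_lit 2) (nat_lit 4) (nat_lit 406) (nat_lit 355) (nat_lit 259)) (XT.nd (nat_lit 78) (nat_lit 0) (nat_lit 0) (XT.lf (nat_lit 0) (nat_lit 579710547632) (nat_lit 152) (nat_lit 4085561939950) (nat_lit 0) (nat_lit 555088605754) (nat_lit 2) (nat_lit 5) (nat_lit 4) (nat_lit 4) (nat_lit 2) (nat_lit 4) (nat_lit 407) (nat_lit 355) (nat_lit 258)) (XT.lf (nat_lit 0) (nat_lit 1142753956839) (nat_lit 152) (nat_lit 3670561159900) (nat_lit 0) (nat_lit 1118132010802) (nat_lit 2) (nat_lit 5) (nat_lit 4) (nat_lit 4) (nat_lit 2) (nat_lit 4) (nat_lit 408) (nat_lit 355)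 (nat_lit 257)))) (XT.nd (nat_lit 78) (nat_lit 0) (nat_lit 0) (XT.lf (nat_lit 0) (nat_lit 1790253725903) (nat_lit 152) (nat_lit 3193310587455) (nat_lit 0) (nat_lit 1765631776249) (nat_lit 2) (nat_lit 5) (nat_lit 4) (nat_lit 4) (nat_lit 2) (nat_lit 4) (nat_lit 409) (nat_lit 355) (nat_lit 256)) (XT.nd (nat_lit 78) (nat_lit 0) (nat_lit 0) (XT.lf (nat_lit 0) (nat_lit 2534878328565) (nat_lit 152) (nat_lit 2644472711416) (nat_lit 0) (nat_lit 2510256375767) (nat_lit 2) (nat_lit 5) (nat_lit 4) (nat_lit 4) (nat_lit 2) (nat_lit 4) (nat_lit 410) (nat_lit 355) (nat_lit 255)) (XT.lf (nat_lit 0) (nat_lit 3391196507052) (nat_lit 152) (nat_lit 2013309399425) (nat_lit 0) (nat_lit 3366574551518) (nat_lit 2) (nat_lit 5) (nat_lit 4) (nat_lit 4) (nat_lit 2) (nat_lit 4) (nat_lit 411) (nat_lit 355) (nat_lit 254))))) (XT.nd (nat_lit 234) (nat_lit 0) (nat_lit 0) (XT.nd (nat_lit 78) (nat_lit 76) (nat_lit 0) (XT.lf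 (nat_lit 0) (nat_lit 4375962312682) (nat_lit 152) (nat_lit 1287471804074) (nat_lit 0) (nat_lit 4351340354770) (nat_lit 2) (nat_lit 5) (nat_lit 4) (nat_lit 4) (nat_lit 2) (nat_lit 4) (nat_lit 412) (nat_lit 355) (nat_lit 253)) (XT.nd (nat_lit 78) (nat_lit 76) (nat_lit 0) (XT.lf (nat_lit 0) (nat_lit 5508442902521) (nat_lit 152) (nat_lit 452758755018) (nat_lit 0) (nat_lit 5483820942541) (nat_lit 2) (nat_lit 5) (nat_lit 4) (nat_lit 4) (nat_lit 2) (nat_lit 4) (nat_lit 413) (nat_lit 355) (nat_lit 252)) (XT.lf (nat_lit 0) (nat_lit 556724560164) (nat_lit 76) (nat_lit 6277123722154) (nat_lit 76) (nat_lit 6252501760377) (nat_lit 1) (nat_lit 4) (nat_lit 2) (nat_lit 5) (nat_lit 2) (nat_lit 4) (nat_lit 414) (nat_lit 355) (nat_lit 251)))) (XT.nd (nat_lit 156) (nat_lit 0) (nat_lit 0) (XT.nd (nat_lit 78) (nat_lit 0) (nat_lit 0) (XT.lf (nat_lit 0) (nat_lit 1768514128652) (nat_lit 76) (nat_lit 6613217203469)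 (nat_lit 76) (nat_lit 6588595240127) (nat_lit 1) (nat_lit 4) (nat_lit 2) (nat_lit 5) (nat_lit 2) (nat_lit 4) (nat_lit 415) (nat_lit 355) (nat_lit 250)) (XT.lf (nat_lit 0) (nat_lit 3162071998453) (nat_lit 76) (nat_lit 6999724778429) (nat_lit 76) (nat_lit 6975102813728) (nat_lit 1) (nat_lit 4) (nat_lit 2) (nat_lit 5) (nat_lit 2) (nat_lit 4) (nat_lit 416) (nat_lit 355) (nat_lit 249))) (XT.nd (nat_lit 78) (nat_lit 0) (nat_lit 0) (XT.lf (nat_lit 0) (nat_lit 4764663432237) (nat_lit 76) (nat_lit 7444208551764) (nat_lit 76) (nat_lit 7419586585880) (nat_lit 1) (nat_lit 4) (nat_lit 2) (nat_lit 5) (nat_lit 2) (nat_lit 4) (nat_lit 417) (nat_lit 355) (nat_lit 248)) (XT.lf (nat_lit 0) (nat_lit 6607643479796) (nat_lit 76) (nat_lit 7955364945124) (nat_lit 76) (nat_lit 7930742978213) (nat_lit 1) (nat_lit 4) (nat_lit 2) (nat_lit 5) (nat_lit 2) (nat_lit 4) (nat_lit 418) (nat_lit 355) (nat_lit 247)))))) (XT.nd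 (nat_lit 546) (nat_lit 0) (nat_lit 0) (XT.nd (nat_lit 234) (nat_lit 0) (nat_lit 0) (XT.nd (nat_lit 78) (nat_lit 0) (nat_lit 0) (XT.lf (nat_lit 0) (nat_lit 8727070446407) (nat_lit 76) (nat_lit 8543194844468) (nat_lit 76) (nat_lit 8518572876662) (nat_lit 1) (nat_lit 4) (nat_lit 2) (nat_lit 5) (nat_lit 2) (nat_lit 4) (nat_lit 419) (nat_lit 355) (nat_lit 246)) (XT.nd (nat_lit 78) (nat_lit 0) (nat_lit 0) (XT.lf (nat_lit 0) (nat_lit 11164411381418) (nat_lit 76) (nat_lit 9219199269564) (nat_lit 76) (nat_lit 9194577300981) (nat_lit 1) (nat_lit 4) (nat_lit 2) (nat_lit 5) (nat_lit 2) (nat_lit 4) (nat_lit 420) (nat_lit 355) (nat_lit 245)) (XT.lf (nat_lit 0) (nat_lit 13967353390079) (nat_lit 76) (nat_lit 9996604393948) (nat_lit 76) (nat_lit 9971982424689) (nat_lit 1) (nat_lit 4) (nat_lit 2) (nat_lit 5) (nat_lit 2) (nat_lit 4) (nat_lit 421) (nat_lit 355) (nat_lit 244)))) (XT.nd (nat_lit 156) (nat_lit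 0) (nat_lit 0) (XT.nd (nat_lit 78) (nat_lit 0) (nat_lit 0) (XT.lf (nat_lit 0) (nat_lit 17190736642125) (nat_lit 76) (nat_lit 10890620317879) (nat_lit 76) (nat_lit 10865998348032) (nat_lit 1) (nat_lit 4) (nat_lit 2) (nat_lit 5) (nat_lit 2) (nat_lit 4) (nat_lit 422) (nat_lit 355) (nat_lit 243)) (XT.lf (nat_lit 0) (nat_lit 20897627331616) (nat_lit 76) (nat_lit 11918738657260) (nat_lit 76) (nat_lit 11894116686901) (nat_lit 1) (nat_lit 4) (nat_lit 2) (nat_lit 5) (nat_lit 2) (nat_lit 4) (nat_lit 423) (nat_lit 355) (nat_lit 242))) (XT.nd (nat_lit 78) (nat_lit 0) (nat_lit 0) (XT.lf (nat_lit 0) (nat_lit 25160551580740) (nat_lit 76) (nat_lit 13101074770904) (nat_lit 76) (nat_lit 13076452800102) (nat_lit 1) (nat_lit 4) (nat_lit 2) (nat_lit 5) (nat_lit 2) (nat_lit 4) (nat_lit 424) (nat_lit 355) (nat_lit 241)) (XT.lf (nat_lit 0) (nat_lit 30062914429152) (nat_lit 76) (nat_lit 14460761321906) (nat_lit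 76) (nat_lit 14436139350717) (nat_lit 1) (nat_lit 4) (nat_lit 2) (nat_lit 5) (nat_lit 2) (nat_lit 4) (nat_lit 425) (nat_lit 355) (nat_lit 240))))) (XT.nd (nat_lit 234) (nat_lit 0) (nat_lit 0) (XT.nd (nat_lit 78) (nat_lit 0) (nat_lit 0) (XT.lf (nat_lit 0) (nat_lit 35700631671713) (nat_lit 76) (nat_lit 16024400873219) (nat_lit 76) (nat_lit 15999778901694) (nat_lit 1) (nat_lit 4) (nat_lit 2) (nat_lit 5) (nat_lit 2) (nat_lit 4) (nat_lit 426) (nat_lit 355) (nat_lit 239)) (XT.nd (nat_lit 78) (nat_lit 0) (nat_lit 0) (XT.lf (nat_lit 0) (nat_lit 42184006471865) (nat_lit 76) (nat_lit 17822586372587) (nat_lit 76) (nat_lit 17797964400769) (nat_lit 1) (nat_lit 4) (nat_lit 2) (nat_lit 5) (nat_lit 2) (nat_lit 4) (nat_lit 427) (nat_lit 355) (nat_lit 238)) (XT.lf (nat_lit 0) (nat_lit 49639887467001) (nat_lit 76) (nat_lit 19890499710214) (nat_lit 76) (nat_lit 19865877738142) (nat_lit 1) (nat_lit 4) (nat_lit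 2) (nat_lit 5) (nat_lit 2) (nat_lit 4) (nat_lit 428) (nat_lit 355) (nat_lit 237)))) (XT.nd (nat_lit 156) (nat_lit 0) (nat_lit 0) (XT.nd (nat_lit 78) (nat_lit 0) (nat_lit 0) (XT.lf (nat_lit 0) (nat_lit 58214150589635) (nat_lit 76) (nat_lit 22268600060098) (nat_lit 76) (nat_lit 22243978087805) (nat_lit 1) (nat_lit 4) (nat_lit 2) (nat_lit 5) (nat_lit 2) (nat_lit 4) (nat_lit 429) (nat_lit 355) (nat_lit 236)) (XT.lf (nat_lit 0) (nat_lit 68074553161733) (nat_lit 76) (nat_lit 25003415472562) (nat_lit 76) (nat_lit 24978793500077) (nat_lit 1) (nat_lit 4) (nat_lit 2) (nat_lit 5) (nat_lit 2) (nat_lit 4) (nat_lit 430) (nat_lit 355) (nat_lit 235))) (XT.nd (nat_lit 78) (nat_lit 0) (nat_lit 0) (XT.lf (nat_lit 0) (nat_lit 79414016103181) (nat_lit 76) (nat_lit 28148453205676) (nat_lit 76) (nat_lit 28123831233024) (nat_lit 1) (nat_lit 4) (nat_lit 2) (nat_lit 5) (nat_lit 2) (nat_lit 4) (nat_lit 431) (nat_lit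 355) (nat_lit 234)) (XT.lf (nat_lit 0) (nat_lit 92454398471531) (nat_lit 76) (nat_lit 31765246606393) (nat_lit 76) (nat_lit 31740624633596) (nat_lit 1) (nat_lit 4) (nat_lit 2) (nat_lit 5) (nat_lit 2) (nat_lit 4) (nat_lit 432) (nat_lit 355) (nat_lit 233))))))))
noncomputable def xc73 : XT := (XT.nd (nat_lit 48126) (nat_lit 0) (nat_lit 456) (XT.nd (nat_lit 47112) (nat_lit 0) (nat_lit 2356) (XT.nd (nat_lit 468) (nat_lit 0) (nat_lit 0) (XT.nd (nat_lit 234) (nat_lit 0) (nat_lit 0) (XT.nd (nat_lit 78) (nat_lit 0) (nat_lit 0) (XT.lf (nat_lit 0) (nat_lit 107450838182686) (nat_lit 76) (nat_lit 35924559023857) (nat_lit 76) (nat_lit 35899937050934) (nat_lit 1) (nat_lit 4) (nat_lit 2) (nat_lit 5) (nat_lit 2) (nat_lit 4) (nat_lit 433) (nat_lit 355) (nat_lit 232)) (XT.nd (nat_lit 78) (nat_lit 0) (nat_lit 0) (XT.lf (nat_lit 0) (nat_lit 124696743839689) (nat_lit 76) (nat_lit 40707768309714) (nat_lit 76)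 (nat_lit 40683146336681) (nat_lit 1) (nat_lit 4) (nat_lit 2) (nat_lit 5) (nat_lit 2) (nat_lit 4) (nat_lit 434) (nat_lit 355) (nat_lit 231)) (XT.lf (nat_lit 0) (nat_lit 144529535335830) (nat_lit 76) (nat_lit 46208458993471) (nat_lit 76) (nat_lit 46183837020341) (nat_lit 1) (nat_lit 4) (nat_lit 2) (nat_lit 5) (nat_lit 2) (nat_lit 4) (nat_lit 435) (nat_lit 355) (nat_lit 230)))) (XT.nd (nat_lit 78) (nat_lit 0) (nat_lit 0) (XT.lf (nat_lit 0) (nat_lit 167337245548207) (nat_lit 76) (nat_lit 52534253284156) (nat_lit 76) (nat_lit 52509631310943) (nat_lit 1) (nat_lit 4) (nat_lit 2) (nat_lit 5) (nat_lit 2) (nat_lit 4) (nat_lit 436) (nat_lit 355) (nat_lit 229)) (XT.nd (nat_lit 78) (nat_lit 0) (nat_lit 0) (XT.lf (nat_lit 0) (nat_lit 193566112285323) (nat_lit 76) (nat_lit 59808916722240) (nat_lit 76) (nat_lit 59784294748955) (nat_lit 1) (nat_lit 4) (nat_lit 2) (nat_lit 5) (nat_lit 2) (nat_lit 4) (nat_lit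 437) (nat_lit 355) (nat_lit 228)) (XT.lf (nat_lit 0) (nat_lit 223729309026818) (nat_lit 76) (nat_lit 68174779679337) (nat_lit 76) (nat_lit 68150157705990) (nat_lit 1) (nat_lit 4) (nat_lit 2) (nat_lit 5) (nat_lit 2) (nat_lit 4) (nat_lit 438) (nat_lit 355) (nat_lit 227))))) (XT.nd (nat_lit 234) (nat_lit 0) (nat_lit 0) (XT.nd (nat_lit 78) (nat_lit 0) (nat_lit 0) (XT.lf (nat_lit 0) (nat_lit 258416985274155) (nat_lit 76) (nat_lit 77795522082870) (nat_lit 76) (nat_lit 77770900109467) (nat_lit 1) (nat_lit 4) (nat_lit 2) (nat_lit 5) (nat_lit 2) (nat_lit 4) (nat_lit 439) (nat_lit 355) (nat_lit 226)) (XT.nd (nat_lit 78) (nat_lit 0) (nat_lit 0) (XT.lf (nat_lit 0) (nat_lit 298307812953912) (nat_lit 76) (nat_lit 88859375849428) (nat_lit 76) (nat_lit 88834753875979) (nat_lit 1) (nat_lit 4) (nat_lit 2) (nat_lit 5) (nat_lit 2) (nat_lit 4) (nat_lit 440) (nat_lit 355) (nat_lit 225)) (XT.lf (nat_lit 0) (nat_lit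 344182264781564) (nat_lit 76) (nat_lit 101582807683141) (nat_lit 76) (nat_lit 101558185709650) (nat_lit 1) (nat_lit 4) (nat_lit 2) (nat_lit 5) (nat_lit 2) (nat_lit 4) (nat_lit 441) (nat_lit 355) (nat_lit 224)))) (XT.nd (nat_lit 156) (nat_lit 0) (nat_lit 0) (XT.nd (nat_lit 78) (nat_lit 0) (nat_lit 0) (XT.lf (nat_lit 0) (nat_lit 396937884379825) (nat_lit 76) (nat_lit 116214754293798) (nat_lit 76) (nat_lit 116190132320272) (nat_lit 1) (nat_lit 4) (nat_lit 2) (nat_lit 5) (nat_lit 2) (nat_lit 4) (nat_lit 442) (nat_lit 355) (nat_lit 223)) (XT.lf (nat_lit 0) (nat_lit 457606846914749) (nat_lit 76) (nat_lit 133041492897694) (nat_lit 76) (nat_lit 133016870924136) (nat_lit 1) (nat_lit 4) (nat_lit 2) (nat_lit 5) (nat_lit 2) (nat_lit 4) (nat_lit 443) (nat_lit 355) (nat_lit 222))) (XT.nd (nat_lit 78) (nat_lit 0) (nat_lit 0) (XT.lf (nat_lit 0) (nat_lit 527376153827235) (nat_lit 76) (nat_lit 152392242293603)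 (nat_lit 76) (nat_lit 152367620320018) (nat_lit 1) (nat_lit 4) (nat_lit 2) (nat_lit 5) (nat_lit 2) (nat_lit 4) (nat_lit 444) (nat_lit 355) (nat_lit 221)) (XT.lf (nat_lit 0) (nat_lit 607610856774265) (nat_lit 76) (nat_lit 174645604100138) (nat_lit 76) (nat_lit 174620982126531) (nat_lit 1) (nat_lit 4) (nat_lit 2) (nat_lit 5) (nat_lit 2) (nat_lit 4) (nat_lit 445) (nat_lit 355) (nat_lit 220)))))) (XT.nd (nat_lit 468) (nat_lit 608) (nat_lit 0) (XT.nd (nat_lit 234) (nat_lit 152) (nat_lit 0) (XT.nd (nat_lit 78) (nat_lit 0) (nat_lit 0) (XT.lf (nat_lit 0) (nat_lit 5538217341) (nat_lit 380) (nat_lit 6715385469) (nat_lit 380) (nat_lit 6715385469) (nat_lit 42) (nat_lit 3) (nat_lit 47) (nat_lit 3) (nat_lit 47) (nat_lit 5) (nat_lit 356) (nat_lit 356) (nat_lit 308)) (XT.nd (nat_lit 78) (nat_lit 0) (nat_lit 76) (XT.lf (nat_lit 76) (nat_lit 5991909251) (nat_lit 0) (nat_lit 6205587337) (nat_lit 380) (nat_lit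 28542268878) (nat_lit 43) (nat_lit 5) (nat_lit 42) (nat_lit 3) (nat_lit 47) (nat_lit 5) (nat_lit 357) (nat_lit 356) (nat_lit 307)) (XT.lf (nat_lit 0) (nat_lit 14829167341) (nat_lit 304) (nat_lit 14673090621) (nat_lit 380) (nat_lit 14258199083) (nat_lit 43) (nat_lit 5) (nat_lit 47) (nat_lit 5) (nat_lit 48) (nat_lit 5) (nat_lit 358) (nat_lit 356) (nat_lit 306)))) (XT.nd (nat_lit 78) (nat_lit 228) (nat_lit 0) (XT.lf (nat_lit 76) (nat_lit 8904922305) (nat_lit 0) (nat_lit 9608303938) (nat_lit 380) (nat_lit 28622382027) (nat_lit 44) (nat_lit 5) (nat_lit 43) (nat_lit 5) (nat_lit 48) (nat_lit 5) (nat_lit 359) (nat_lit 356) (nat_lit 305)) (XT.nd (nat_lit 78) (nat_lit 304) (nat_lit 0) (XT.lf (nat_lit 0) (nat_lit 24096984530) (nat_lit 304) (nat_lit 13825220334) (nat_lit 76) (nat_lit 12892765072) (nat_lit 44) (nat_lit 5) (nat_lit 48) (nat_lit 5) (nat_lit 45) (nat_lit 5) (nat_lit 360) (nat_lit 356) (nat_lit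 304)) (XT.lf (nat_lit 0) (nat_lit 15124887834) (nat_lit 304) (nat_lit 16472109304) (nat_lit 380) (nat_lit 23287436287) (nat_lit 40) (nat_lit 5) (nat_lit 44) (nat_lit 5) (nat_lit 45) (nat_lit 5) (nat_lit 361) (nat_lit 356) (nat_lit 303))))) (XT.nd (nat_lit 234) (nat_lit 456) (nat_lit 0) (XT.nd (nat_lit 78) (nat_lit 152) (nat_lit 0) (XT.lf (nat_lit 0) (nat_lit 41313783661) (nat_lit 380) (nat_lit 9864024919) (nat_lit 76) (nat_lit 8222743069) (nat_lit 40) (nat_lit 5) (nat_lit 45) (nat_lit 5) (nat_lit 41) (nat_lit 5) (nat_lit 362) (nat_lit 356) (nat_lit 302)) (XT.nd (nat_lit 78) (nat_lit 0) (nat_lit 0) (XT.lf (nat_lit 0) (nat_lit 26045284112) (nat_lit 152) (nat_lit 28301598938) (nat_lit 228) (nat_lit 9968386201) (nat_lit 38) (nat_lit 5) (nat_lit 40) (nat_lit 5) (nat_lit 41) (nat_lit 5) (nat_lit 363) (nat_lit 356) (nat_lit 301)) (XT.lf (nat_lit 0) (nat_lit 68444908550) (nat_lit 152) (nat_lit 1401925258)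 (nat_lit 228) (nat_lit 43578482) (nat_lit 38) (nat_lit 5) (nat_lit 40) (nat_lit 5) (nat_lit 41) (nat_lit 5) (nat_lit 364) (nat_lit 356) (nat_lit 300)))) (XT.nd (nat_lit 156) (nat_lit 76) (nat_lit 0) (XT.nd (nat_lit 78) (nat_lit 152) (nat_lit 0) (XT.lf (nat_lit 0) (nat_lit 13524699054) (nat_lit 228) (nat_lit 32910522938) (nat_lit 76) (nat_lit 29320937522) (nat_lit 35) (nat_lit 5) (nat_lit 38) (nat_lit 5) (nat_lit 36) (nat_lit 5) (nat_lit 365) (nat_lit 356) (nat_lit 299)) (XT.lf (nat_lit 0) (nat_lit 12487110847) (nat_lit 152) (nat_lit 17296452440) (nat_lit 228) (nat_lit 52618923759) (nat_lit 33) (nat_lit 5) (nat_lit 35) (nat_lit 5) (nat_lit 36) (nat_lit 5) (nat_lit 366) (nat_lit 356) (nat_lit 298))) (XT.nd (nat_lit 78) (nat_lit 76) (nat_lit 0) (XT.lf (nat_lit 0) (nat_lit 50951847671) (nat_lit 228) (nat_lit 22152689172) (nat_lit 76) (nat_lit 16570638727) (nat_lit 33) (nat_lit 5) (nat_lit 36)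 (nat_lit 5) (nat_lit 34) (nat_lit 4) (nat_lit 367) (nat_lit 356) (nat_lit 297)) (XT.lf (nat_lit 0) (nat_lit 35068652336) (nat_lit 76) (nat_lit 42499869206) (nat_lit 152) (nat_lit 20129274187) (nat_lit 32) (nat_lit 5) (nat_lit 33) (nat_lit 5) (nat_lit 34) (nat_lit 4) (nat_lit 368) (nat_lit 356) (nat_lit 296))))))) (XT.nd (nat_lit 1014) (nat_lit 912) (nat_lit 0) (XT.nd (nat_lit 468) (nat_lit 456) (nat_lit 0) (XT.nd (nat_lit 234) (nat_lit 228) (nat_lit 0) (XT.nd (nat_lit 78) (nat_lit 228) (nat_lit 0) (XT.lf (nat_lit 0) (nat_lit 2352829311) (nat_lit 152) (nat_lit 3498541647) (nat_lit 76) (nat_lit 100883064398) (nat_lit 31) (nat_lit 5) (nat_lit 33) (nat_lit 5) (nat_lit 32) (nat_lit 5) (nat_lit 369) (nat_lit 356) (nat_lit 295)) (XT.nd (nat_lit 78) (nat_lit 76) (nat_lit 0) (XT.lf (nat_lit 0) (nat_lit 30718320919) (nat_lit 228) (nat_lit 48486911380) (nat_lit 76) (nat_lit 37091769322) (nat_lit 29)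 (nat_lit 5) (nat_lit 32) (nat_lit 5) (nat_lit 30) (nat_lit 4) (nat_lit 370) (nat_lit 356) (nat_lit 294)) (XT.lf (nat_lit 0) (nat_lit 24864161607) (nat_lit 76) (nat_lit 39972136083) (nat_lit 152) (nat_lit 62233006138) (nat_lit 28) (nat_lit 5) (nat_lit 29) (nat_lit 5) (nat_lit 30) (nat_lit 4) (nat_lit 371) (nat_lit 356) (nat_lit 293)))) (XT.nd (nat_lit 78) (nat_lit 228) (nat_lit 0) (XT.lf (nat_lit 0) (nat_lit 106938218700) (nat_lit 152) (nat_lit 24747702527) (nat_lit 0) (nat_lit 7341593171) (nat_lit 28) (nat_lit 5) (nat_lit 30) (nat_lit 4) (nat_lit 28) (nat_lit 4) (nat_lit 372) (nat_lit 356) (nat_lit 292)) (XT.nd (nat_lit 78) (nat_lit 76) (nat_lit 0) (XT.lf (nat_lit 0) (nat_lit 7311286691) (nat_lit 152) (nat_lit 83879053609) (nat_lit 76) (nat_lit 60828419651) (nat_lit 26) (nat_lit 5) (nat_lit 28) (nat_lit 5) (nat_lit 27) (nat_lit 4) (nat_lit 373) (nat_lit 356) (nat_lit 291)) (XT.lf (nat_lit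 0) (nat_lit 10300934452) (nat_lit 76) (nat_lit 40815683174) (nat_lit 152) (nat_lit 115345866503) (nat_lit 25) (nat_lit 5) (nat_lit 26) (nat_lit 5) (nat_lit 27) (nat_lit 4) (nat_lit 374) (nat_lit 356) (nat_lit 290))))) (XT.nd (nat_lit 234) (nat_lit 304) (nat_lit 0) (XT.nd (nat_lit 78) (nat_lit 152) (nat_lit 0) (XT.lf (nat_lit 0) (nat_lit 106793087313) (nat_lit 152) (nat_lit 55301171727) (nat_lit 0) (nat_lit 20183457135) (nat_lit 25) (nat_lit 5) (nat_lit 27) (nat_lit 4) (nat_lit 25) (nat_lit 4) (nat_lit 375) (nat_lit 356) (nat_lit 289)) (XT.nd (nat_lit 78) (nat_lit 76) (nat_lit 0) (XT.lf (nat_lit 0) (nat_lit 64482385297) (nat_lit 76) (nat_lit 110950810764) (nat_lit 76) (nat_lit 24340211769) (nat_lit 24) (nat_lit 4) (nat_lit 25) (nat_lit 5) (nat_lit 25) (nat_lit 4) (nat_lit 376) (nat_lit 356) (nat_lit 288)) (XT.lf (nat_lit 0) (nat_lit 34433484664) (nat_lit 152) (nat_lit 12579449415) (nat_lit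 76) (nat_lit 172212348861) (nat_lit 23) (nat_lit 5) (nat_lit 25) (nat_lit 5) (nat_lit 24) (nat_lit 4) (nat_lit 377) (nat_lit 356) (nat_lit 287)))) (XT.nd (nat_lit 156) (nat_lit 152) (nat_lit 0) (XT.nd (nat_lit 78) (nat_lit 76) (nat_lit 0) (XT.lf (nat_lit 0) (nat_lit 106748635505) (nat_lit 152) (nat_lit 102156137530) (nat_lit 0) (nat_lit 31433701585) (nat_lit 22) (nat_lit 5) (nat_lit 24) (nat_lit 4) (nat_lit 22) (nat_lit 4) (nat_lit 378) (nat_lit 356) (nat_lit 286)) (XT.lf (nat_lit 0) (nat_lit 50692527660) (nat_lit 76) (nat_lit 144243899994) (nat_lit 76) (nat_lit 68928412150) (nat_lit 21) (nat_lit 4) (nat_lit 22) (nat_lit 5) (nat_lit 22) (nat_lit 4) (nat_lit 379) (nat_lit 356) (nat_lit 285))) (XT.nd (nat_lit 78) (nat_lit 76) (nat_lit 0) (XT.lf (nat_lit 0) (nat_lit 10541599764) (nat_lit 152) (nat_lit 52651530024) (nat_lit 76) (nat_lit 226854341646) (nat_lit 20) (nat_lit 5) (nat_lit 22) (nat_lit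 5) (nat_lit 21) (nat_lit 4) (nat_lit 380) (nat_lit 356) (nat_lit 284)) (XT.lf (nat_lit 0) (nat_lit 102399965627) (nat_lit 152) (nat_lit 179229011110) (nat_lit 0) (nat_lit 36907454007) (nat_lit 19) (nat_lit 5) (nat_lit 21) (nat_lit 4) (nat_lit 19) (nat_lit 4) (nat_lit 381) (nat_lit 356) (nat_lit 283)))))) (XT.nd (nat_lit 546) (nat_lit 456) (nat_lit 0) (XT.nd (nat_lit 234) (nat_lit 228) (nat_lit 0) (XT.nd (nat_lit 78) (nat_lit 152) (nat_lit 0) (XT.lf (nat_lit 0) (nat_lit 13116858495) (nat_lit 76) (nat_lit 201354761859) (nat_lit 76) (nat_lit 135861933531) (nat_lit 18) (nat_lit 4) (nat_lit 19) (nat_lit 5) (nat_lit 19) (nat_lit 4) (nat_lit 382) (nat_lit 356) (nat_lit 282)) (XT.nd (nat_lit 78) (nat_lit 152) (nat_lit 0) (XT.lf (nat_lit 0) (nat_lit 254455341459) (nat_lit 76) (nat_lit 98266423285) (nat_lit 76) (nat_lit 32773319559) (nat_lit 18) (nat_lit 4) (nat_lit 19) (nat_lit 5) (nat_lit 19) (nat_lit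 4) (nat_lit 383) (nat_lit 356) (nat_lit 281)) (XT.lf (nat_lit 0) (nat_lit 84031513117) (nat_lit 152) (nat_lit 313402335607) (nat_lit 0) (nat_lit 27080779898) (nat_lit 16) (nat_lit 5) (nat_lit 18) (nat_lit 4) (nat_lit 16) (nat_lit 4) (nat_lit 384) (nat_lit 356) (nat_lit 280)))) (XT.nd (nat_lit 156) (nat_lit 152) (nat_lit 0) (XT.nd (nat_lit 78) (nat_lit 76) (nat_lit 0) (XT.lf (nat_lit 0) (nat_lit 226856097910) (nat_lit 152) (nat_lit 70613569314) (nat_lit 0) (nat_lit 169905183611) (nat_lit 16) (nat_lit 5) (nat_lit 18) (nat_lit 4) (nat_lit 16) (nat_lit 4) (nat_lit 385) (nat_lit 356) (nat_lit 279)) (XT.lf (nat_lit 0) (nat_lit 228976896046) (nat_lit 76) (nat_lit 171608094540) (nat_lit 76) (nat_lit 114657022782) (nat_lit 15) (nat_lit 4) (nat_lit 16) (nat_lit 5) (nat_lit 16) (nat_lit 4) (nat_lit 386) (nat_lit 356) (nat_lit 278))) (XT.nd (nat_lit 78) (nat_lit 0) (nat_lit 0) (XT.lf (nat_lit 0) (nat_lit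 11288094734) (nat_lit 76) (nat_lit 20451116156) (nat_lit 152) (nat_lit 537713153452) (nat_lit 13) (nat_lit 5) (nat_lit 14) (nat_lit 5) (nat_lit 15) (nat_lit 4) (nat_lit 387) (nat_lit 356) (nat_lit 277)) (XT.lf (nat_lit 0) (nat_lit 210382902463) (nat_lit 152) (nat_lit 256428370292) (nat_lit 0) (nat_lit 160860008774) (nat_lit 13) (nat_lit 5) (nat_lit 15) (nat_lit 4) (nat_lit 13) (nat_lit 4) (nat_lit 388) (nat_lit 356) (nat_lit 276))))) (XT.nd (nat_lit 234) (nat_lit 228) (nat_lit 0) (XT.nd (nat_lit 78) (nat_lit 152) (nat_lit 0) (XT.lf (nat_lit 0) (nat_lit 98348183969) (nat_lit 76) (nat_lit 322520502616) (nat_lit 76) (nat_lit 272997518899) (nat_lit 12) (nat_lit 4) (nat_lit 13) (nat_lit 5) (nat_lit 13) (nat_lit 4) (nat_lit 389) (nat_lit 356) (nat_lit 275)) (XT.nd (nat_lit 78) (nat_lit 152) (nat_lit 0) (XT.lf (nat_lit 0) (nat_lit 535158839043) (nat_lit 76) (nat_lit 141172030646) (nat_lit 76) (nat_lit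 91648968644) (nat_lit 12) (nat_lit 4) (nat_lit 13) (nat_lit 5) (nat_lit 13) (nat_lit 4) (nat_lit 390) (nat_lit 356) (nat_lit 274)) (XT.lf (nat_lit 0) (nat_lit 118059016850) (nat_lit 152) (nat_lit 657695290495) (nat_lit 0) (nat_lit 74995425480) (nat_lit 10) (nat_lit 5) (nat_lit 12) (nat_lit 4) (nat_lit 10) (nat_lit 4) (nat_lit 391) (nat_lit 356) (nat_lit 273)))) (XT.nd (nat_lit 156) (nat_lit 152) (nat_lit 0) (XT.nd (nat_lit 78) (nat_lit 76) (nat_lit 0) (XT.lf (nat_lit 0) (nat_lit 369311673748) (nat_lit 152) (nat_lit 246800034014) (nat_lit 0) (nat_lit 326248030903) (nat_lit 10) (nat_lit 5) (nat_lit 12) (nat_lit 4) (nat_lit 10) (nat_lit 4) (nat_lit 392) (nat_lit 356) (nat_lit 272)) (XT.lf (nat_lit 0) (nat_lit 247788190484) (nat_lit 76) (nat_lit 420723882934) (nat_lit 76) (nat_lit 377660195330) (nat_lit 9) (nat_lit 4) (nat_lit 10) (nat_lit 5) (nat_lit 10) (nat_lit 4) (nat_lit 393) (nat_lit 356)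 (nat_lit 271))) (XT.nd (nat_lit 78) (nat_lit 152) (nat_lit 0) (XT.lf (nat_lit 0) (nat_lit 844300520128) (nat_lit 76) (nat_lit 181192412411) (nat_lit 76) (nat_lit 138128685885) (nat_lit 9) (nat_lit 4) (nat_lit 10) (nat_lit 5) (nat_lit 10) (nat_lit 4) (nat_lit 394) (nat_lit 356) (nat_lit 270)) (XT.lf (nat_lit 0) (nat_lit 140037825748) (nat_lit 152) (nat_lit 1052966734645) (nat_lit 0) (nat_lit 102591077599) (nat_lit 7) (nat_lit 5) (nat_lit 9) (nat_lit 4) (nat_lit 7) (nat_lit 4) (nat_lit 395) (nat_lit 356) (nat_lit 269))))))))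
noncomputable def xc74 : XT := (XT.nd (nat_lit 2028) (nat_lit 0) (nat_lit 0) (XT.nd (nat_lit 1014) (nat_lit 76) (nat_lit 0) (XT.nd (nat_lit 468) (nat_lit 228) (nat_lit 0) (XT.nd (nat_lit 234) (nat_lit 76) (nat_lit 0) (XT.nd (nat_lit 78) (nat_lit 76) (nat_lit 0) (XT.lf (nat_lit 0) (nat_lit 471901944401) (nat_lit 152) (nat_lit 536104855464) (nat_lit 0) (nat_lit 434455170661) (nat_lit 7) (nat_lit 5) (nat_lit 9) (nat_lit 4) (nat_lit 7) (nat_lit 4) (nat_lit 396) (nat_lit 356) (nat_lit 268)) (XT.nd (nat_lit 78) (nat_lit 0) (nat_lit 0) (XT.lf (nat_lit 0) (nat_lit 63981520840) (nat_lit 76) (nat_lit 792213093999) (nat_lit 76) (nat_lit 754766298005) (nat_lit 6) (nat_lit 4) (nat_lit 7) (nat_lit 5) (nat_lit 7) (nat_lit 4) (nat_lit 397) (nat_lit 356) (nat_lit 267)) (XT.lf (nat_lit 0) (nat_lit 814330905835) (nat_lit 76) (nat_lit 511823557219) (nat_lit 76) (nat_lit 474376741874) (nat_lit 6) (nat_lit 4)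 (nat_lit 7) (nat_lit 5) (nat_lit 7) (nat_lit 4) (nat_lit 398) (nat_lit 356) (nat_lit 266)))) (XT.nd (nat_lit 78) (nat_lit 76) (nat_lit 0) (XT.lf (nat_lit 0) (nat_lit 1677231982937) (nat_lit 76) (nat_lit 189375970184) (nat_lit 76) (nat_lit 151929138012) (nat_lit 6) (nat_lit 4) (nat_lit 7) (nat_lit 5) (nat_lit 7) (nat_lit 4) (nat_lit 399) (nat_lit 356) (nat_lit 265)) (XT.nd (nat_lit 78) (nat_lit 0) (nat_lit 0) (XT.lf (nat_lit 0) (nat_lit 225974601939) (nat_lit 76) (nat_lit 1844511238076) (nat_lit 0) (nat_lit 193412126457) (nat_lit 5) (nat_lit 5) (nat_lit 6) (nat_lit 4) (nat_lit 5) (nat_lit 4) (nat_lit 400) (nat_lit 356) (nat_lit 264)) (XT.lf (nat_lit 0) (nat_lit 672717369054) (nat_lit 76) (nat_lit 1227949296019) (nat_lit 0) (nat_lit 640154882508) (nat_lit 5) (nat_lit 5) (nat_lit 6) (nat_lit 4) (nat_lit 5) (nat_lit 4) (nat_lit 401) (nat_lit 356) (nat_lit 263))))) (XT.nd (nat_lit 234) (nat_lit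 152) (nat_lit 0) (XT.nd (nat_lit 78) (nat_lit 76) (nat_lit 0) (XT.lf (nat_lit 0) (nat_lit 1186471285881) (nat_lit 76) (nat_lit 518903630064) (nat_lit 0) (nat_lit 1153908789715) (nat_lit 5) (nat_lit 5) (nat_lit 6) (nat_lit 4) (nat_lit 5) (nat_lit 4) (nat_lit 402) (nat_lit 356) (nat_lit 262)) (XT.nd (nat_lit 78) (nat_lit 0) (nat_lit 0) (XT.lf (nat_lit 0) (nat_lit 325474371636) (nat_lit 76) (nat_lit 1465290887506) (nat_lit 76) (nat_lit 1432728382974) (nat_lit 4) (nat_lit 4) (nat_lit 5) (nat_lit 5) (nat_lit 5) (nat_lit 4) (nat_lit 403) (nat_lit 356) (nat_lit 261)) (XT.lf (nat_lit 0) (nat_lit 1354826294679) (nat_lit 76) (nat_lit 1158001321500) (nat_lit 76) (nat_lit 1125438809693) (nat_lit 4) (nat_lit 4) (nat_lit 5) (nat_lit 5) (nat_lit 5) (nat_lit 4) (nat_lit 404) (nat_lit 356) (nat_lit 260)))) (XT.nd (nat_lit 156) (nat_lit 152) (nat_lit 0) (XT.nd (nat_lit 78) (nat_lit 0) (nat_lit 0) (XT.lf (nat_lit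 0) (nat_lit 2538580596637) (nat_lit 76) (nat_lit 804618538703) (nat_lit 76) (nat_lit 772056020570) (nat_lit 4) (nat_lit 4) (nat_lit 5) (nat_lit 5) (nat_lit 5) (nat_lit 4) (nat_lit 405) (nat_lit 356) (nat_lit 259)) (XT.lf (nat_lit 0) (nat_lit 3899897687763) (nat_lit 76) (nat_lit 398228528145) (nat_lit 76) (nat_lit 365666004512) (nat_lit 4) (nat_lit 4) (nat_lit 5) (nat_lit 5) (nat_lit 5) (nat_lit 4) (nat_lit 406) (nat_lit 356) (nat_lit 258))) (XT.nd (nat_lit 78) (nat_lit 0) (nat_lit 0) (XT.lf (nat_lit 0) (nat_lit 103625422584) (nat_lit 152) (nat_lit 5113393364758) (nat_lit 0) (nat_lit 75310180482) (nat_lit 2) (nat_lit 5) (nat_lit 4) (nat_lit 4) (nat_lit 2) (nat_lit 4) (nat_lit 407) (nat_lit 356) (nat_lit 257)) (XT.lf (nat_lit 0) (nat_lit 666668761315) (nat_lit 152) (nat_lit 4698392735691) (nat_lit 0) (nat_lit 638353515596) (nat_lit 2) (nat_lit 5) (nat_lit 4) (nat_lit 4) (nat_lit 2) (nat_lit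 4) (nat_lit 408) (nat_lit 356) (nat_lit 256)))))) (XT.nd (nat_lit 468) (nat_lit 76) (nat_lit 0) (XT.nd (nat_lit 234) (nat_lit 0) (nat_lit 0) (XT.nd (nat_lit 78) (nat_lit 0) (nat_lit 0) (XT.lf (nat_lit 0) (nat_lit 1314168469094) (nat_lit 152) (nat_lit 4221142294536) (nat_lit 0) (nat_lit 1285853220230) (nat_lit 2) (nat_lit 5) (nat_lit 4) (nat_lit 4) (nat_lit 2) (nat_lit 4) (nat_lit 409) (nat_lit 356) (nat_lit 255)) (XT.nd (nat_lit 78) (nat_lit 0) (nat_lit 0) (XT.lf (nat_lit 0) (nat_lit 2058793018466) (nat_lit 152) (nat_lit 3672304532661) (nat_lit 0) (nat_lit 2030477766867) (nat_lit 2) (nat_lit 5) (nat_lit 4) (nat_lit 4) (nat_lit 2) (nat_lit 4) (nat_lit 410) (nat_lit 356) (nat_lit 254)) (XT.lf (nat_lit 0) (nat_lit 2915111150613) (nat_lit 152) (nat_lit 3041141319944) (nat_lit 0) (nat_lit 2886795896636) (nat_lit 2) (nat_lit 5) (nat_lit 4) (nat_lit 4) (nat_lit 2) (nat_lit 4) (nat_lit 411) (nat_lit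 356) (nat_lit 253)))) (XT.nd (nat_lit 78) (nat_lit 0) (nat_lit 0) (XT.lf (nat_lit 0) (nat_lit 3899876915947) (nat_lit 152) (nat_lit 2315303810917) (nat_lit 0) (nat_lit 3871561659903) (nat_lit 2) (nat_lit 5) (nat_lit 4) (nat_lit 4) (nat_lit 2) (nat_lit 4) (nat_lit 412) (nat_lit 356) (nat_lit 252)) (XT.nd (nat_lit 78) (nat_lit 0) (nat_lit 0) (XT.lf (nat_lit 0) (nat_lit 5032357470747) (nat_lit 152) (nat_lit 1480590836927) (nat_lit 0) (nat_lit 5004042212904) (nat_lit 2) (nat_lit 5) (nat_lit 4) (nat_lit 4) (nat_lit 2) (nat_lit 4) (nat_lit 413) (nat_lit 356) (nat_lit 251)) (XT.lf (nat_lit 0) (nat_lit 6334710043258) (nat_lit 152) (nat_lit 520671057177) (nat_lit 0) (nat_lit 6306394783852) (nat_lit 2) (nat_lit 5) (nat_lit 4) (nat_lit 4) (nat_lit 2) (nat_lit 4) (nat_lit 414) (nat_lit 356) (nat_lit 250))))) (XT.nd (nat_lit 234) (nat_lit 0) (nat_lit 0) (XT.nd (nat_lit 78) (nat_lit 0) (nat_lit 0) (XT.lf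 (nat_lit 0) (nat_lit 640234686597) (nat_lit 76) (nat_lit 7218691511153) (nat_lit 76) (nat_lit 7190376250387) (nat_lit 1) (nat_lit 4) (nat_lit 2) (nat_lit 5) (nat_lit 2) (nat_lit 4) (nat_lit 415) (nat_lit 356) (nat_lit 249)) (XT.nd (nat_lit 78) (nat_lit 0) (nat_lit 0) (XT.lf (nat_lit 0) (nat_lit 2033792502218) (nat_lit 76) (nat_lit 7605199115011) (nat_lit 76) (nat_lit 7576883853063) (nat_lit 1) (nat_lit 4) (nat_lit 2) (nat_lit 5) (nat_lit 2) (nat_lit 4) (nat_lit 416) (nat_lit 356) (nat_lit 248)) (XT.lf (nat_lit 0) (nat_lit 3636383888889) (nat_lit 76) (nat_lit 8049682913474) (nat_lit 76) (nat_lit 8021367650497) (nat_lit 1) (nat_lit 4) (nat_lit 2) (nat_lit 5) (nat_lit 2) (nat_lit 4) (nat_lit 417) (nat_lit 356) (nat_lit 247)))) (XT.nd (nat_lit 156) (nat_lit 0) (nat_lit 0) (XT.nd (nat_lit 78) (nat_lit 0) (nat_lit 0) (XT.lf (nat_lit 0) (nat_lit 5479363895479) (nat_lit 76) (nat_lit 8560839328685)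 (nat_lit 76) (nat_lit 8532524064814) (nat_lit 1) (nat_lit 4) (nat_lit 2) (nat_lit 5) (nat_lit 2) (nat_lit 4) (nat_lit 418) (nat_lit 356) (nat_lit 246)) (XT.lf (nat_lit 0) (nat_lit 7598790826467) (nat_lit 76) (nat_lit 9148669247029) (nat_lit 76) (nat_lit 9120353982381) (nat_lit 1) (nat_lit 4) (nat_lit 2) (nat_lit 5) (nat_lit 2) (nat_lit 4) (nat_lit 419) (nat_lit 356) (nat_lit 245))) (XT.nd (nat_lit 78) (nat_lit 0) (nat_lit 0) (XT.lf (nat_lit 0) (nat_lit 10036131730500) (nat_lit 76) (nat_lit 9824673688648) (nat_lit 76) (nat_lit 9796358423324) (nat_lit 1) (nat_lit 4) (nat_lit 2) (nat_lit 5) (nat_lit 2) (nat_lit 4) (nat_lit 420) (nat_lit 356) (nat_lit 244)) (XT.lf (nat_lit 0) (nat_lit 12839073712224) (nat_lit 76) (nat_lit 10602078827399) (nat_lit 76) (nat_lit 10573763561487) (nat_lit 1) (nat_lit 4) (nat_lit 2) (nat_lit 5) (nat_lit 2) (nat_lit 4) (nat_lit 421) (nat_lit 356) (nat_lit 243)))))))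 (XT.nd (nat_lit 1014) (nat_lit 0) (nat_lit 0) (XT.nd (nat_lit 468) (nat_lit 0) (nat_lit 0) (XT.nd (nat_lit 234) (nat_lit 0) (nat_lit 0) (XT.nd (nat_lit 78) (nat_lit 0) (nat_lit 0) (XT.lf (nat_lit 0) (nat_lit 16062456940846) (nat_lit 76) (nat_lit 11496094763823) (nat_lit 76) (nat_lit 11467779497400) (nat_lit 1) (nat_lit 4) (nat_lit 2) (nat_lit 5) (nat_lit 2) (nat_lit 4) (nat_lit 422) (nat_lit 356) (nat_lit 242)) (XT.nd (nat_lit 78) (nat_lit 0) (nat_lit 0) (XT.lf (nat_lit 0) (nat_lit 19769347609969) (nat_lit 76) (nat_lit 12524213114067) (nat_lit 76) (nat_lit 12495897847200) (nat_lit 1) (nat_lit 4) (nat_lit 2) (nat_lit 5) (nat_lit 2) (nat_lit 4) (nat_lit 423) (nat_lit 356) (nat_lit 241)) (XT.lf (nat_lit 0) (nat_lit 24032271841381) (nat_lit 76) (nat_lit 13706549237158) (nat_lit 76) (nat_lit 13678233969904) (nat_lit 1) (nat_lit 4) (nat_lit 2) (nat_lit 5) (nat_lit 2) (nat_lit 4) (nat_lit 424)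 (nat_lit 356) (nat_lit 240)))) (XT.nd (nat_lit 78) (nat_lit 0) (nat_lit 0) (XT.lf (nat_lit 0) (nat_lit 28934634674392) (nat_lit 76) (nat_lit 15066235796375) (nat_lit 76) (nat_lit 15037920528784) (nat_lit 1) (nat_lit 4) (nat_lit 2) (nat_lit 5) (nat_lit 2) (nat_lit 4) (nat_lit 425) (nat_lit 356) (nat_lit 239)) (XT.nd (nat_lit 78) (nat_lit 0) (nat_lit 0) (XT.lf (nat_lit 0) (nat_lit 34572351903561) (nat_lit 76) (nat_lit 16629875354831) (nat_lit 76) (nat_lit 16601560086948) (nat_lit 1) (nat_lit 4) (nat_lit 2) (nat_lit 5) (nat_lit 2) (nat_lit 4) (nat_lit 426) (nat_lit 356) (nat_lit 238)) (XT.lf (nat_lit 0) (nat_lit 41055726692067) (nat_lit 76) (nat_lit 18428060860410) (nat_lit 76) (nat_lit 18399745592273) (nat_lit 1) (nat_lit 4) (nat_lit 2) (nat_lit 5) (nat_lit 2) (nat_lit 4) (nat_lit 427) (nat_lit 356) (nat_lit 237))))) (XT.nd (nat_lit 234) (nat_lit 0) (nat_lit 0) (XT.nd (nat_lit 78) (nat_lit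 0) (nat_lit 0) (XT.lf (nat_lit 0) (nat_lit 48511607677076) (nat_lit 76) (nat_lit 20495974203438) (nat_lit 76) (nat_lit 20467658935081) (nat_lit 1) (nat_lit 4) (nat_lit 2) (nat_lit 5) (nat_lit 2) (nat_lit 4) (nat_lit 428) (nat_lit 356) (nat_lit 236)) (XT.nd (nat_lit 78) (nat_lit 0) (nat_lit 0) (XT.lf (nat_lit 0) (nat_lit 57085870790905) (nat_lit 76) (nat_lit 22874074558019) (nat_lit 76) (nat_lit 22845759289469) (nat_lit 1) (nat_lit 4) (nat_lit 2) (nat_lit 5) (nat_lit 2) (nat_lit 4) (nat_lit 429) (nat_lit 356) (nat_lit 235)) (XT.lf (nat_lit 0) (nat_lit 66946273355345) (nat_lit 76) (nat_lit 25608889974567) (nat_lit 76) (nat_lit 25580574705850) (nat_lit 1) (nat_lit 4) (nat_lit 2) (nat_lit 5) (nat_lit 2) (nat_lit 4) (nat_lit 430) (nat_lit 356) (nat_lit 234)))) (XT.nd (nat_lit 156) (nat_lit 0) (nat_lit 0) (XT.nd (nat_lit 78) (nat_lit 0) (nat_lit 0) (XT.lf (nat_lit 0) (nat_lit 78285736290135) (nat_lit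 76) (nat_lit 28753927711233) (nat_lit 76) (nat_lit 28725612442370) (nat_lit 1) (nat_lit 4) (nat_lit 2) (nat_lit 5) (nat_lit 2) (nat_lit 4) (nat_lit 431) (nat_lit 356) (nat_lit 233)) (XT.lf (nat_lit 0) (nat_lit 91326118652696) (nat_lit 76) (nat_lit 32370721115038) (nat_lit 76) (nat_lit 32342405846049) (nat_lit 1) (nat_lit 4) (nat_lit 2) (nat_lit 5) (nat_lit 2) (nat_lit 4) (nat_lit 432) (nat_lit 356) (nat_lit 232))) (XT.nd (nat_lit 78) (nat_lit 0) (nat_lit 0) (XT.lf (nat_lit 0) (nat_lit 106322558358815) (nat_lit 76) (nat_lit 36530033535187) (nat_lit 76) (nat_lit 36501718266089) (nat_lit 1) (nat_lit 4) (nat_lit 2) (nat_lit 5) (nat_lit 2) (nat_lit 4) (nat_lit 433) (nat_lit 356) (nat_lit 231)) (XT.lf (nat_lit 0) (nat_lit 123568464011440) (nat_lit 76) (nat_lit 41313242823379) (nat_lit 76) (nat_lit 41284927554185) (nat_lit 1) (nat_lit 4) (nat_lit 2) (nat_lit 5) (nat_lit 2) (nat_lit 4) (nat_lit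 434) (nat_lit 356) (nat_lit 230)))))) (XT.nd (nat_lit 546) (nat_lit 0) (nat_lit 0) (XT.nd (nat_lit 234) (nat_lit 0) (nat_lit 0) (XT.nd (nat_lit 78) (nat_lit 0) (nat_lit 0) (XT.lf (nat_lit 0) (nat_lit 143401255503774) (nat_lit 76) (nat_lit 46813933509166) (nat_lit 76) (nat_lit 46785618239889) (nat_lit 1) (nat_lit 4) (nat_lit 2) (nat_lit 5) (nat_lit 2) (nat_lit 4) (nat_lit 435) (nat_lit 356) (nat_lit 229)) (XT.nd (nat_lit 78) (nat_lit 0) (nat_lit 0) (XT.lf (nat_lit 0) (nat_lit 166208965712841) (nat_lit 76) (nat_lit 53139727801617) (nat_lit 76) (nat_lit 53111412532267) (nat_lit 1) (nat_lit 4) (nat_lit 2) (nat_lit 5) (nat_lit 2) (nat_lit 4) (nat_lit 436) (nat_lit 356) (nat_lit 228)) (XT.lf (nat_lit 0) (nat_lit 192437832447078) (nat_lit 76) (nat_lit 60414391241236) (nat_lit 76) (nat_lit 60386075971824) (nat_lit 1) (nat_lit 4) (nat_lit 2) (nat_lit 5) (nat_lit 2) (nat_lit 4) (nat_lit 437) (nat_lit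 356) (nat_lit 227)))) (XT.nd (nat_lit 156) (nat_lit 0) (nat_lit 0) (XT.nd (nat_lit 78) (nat_lit 0) (nat_lit 0) (XT.lf (nat_lit 0) (nat_lit 222601029186070) (nat_lit 76) (nat_lit 68780254199668) (nat_lit 76) (nat_lit 68751938930202) (nat_lit 1) (nat_lit 4) (nat_lit 2) (nat_lit 5) (nat_lit 2) (nat_lit 4) (nat_lit 438) (nat_lit 356) (nat_lit 226)) (XT.lf (nat_lit 0) (nat_lit 257288705431230) (nat_lit 76) (nat_lit 78400996604362) (nat_lit 76) (nat_lit 78372681334848) (nat_lit 1) (nat_lit 4) (nat_lit 2) (nat_lit 5) (nat_lit 2) (nat_lit 4) (nat_lit 439) (nat_lit 356) (nat_lit 225))) (XT.nd (nat_lit 78) (nat_lit 0) (nat_lit 0) (XT.lf (nat_lit 0) (nat_lit 297179533109095) (nat_lit 76) (nat_lit 89464850371930) (nat_lit 76) (nat_lit 89436535102374) (nat_lit 1) (nat_lit 4) (nat_lit 2) (nat_lit 5) (nat_lit 2) (nat_lit 4) (nat_lit 440) (nat_lit 356) (nat_lit 224)) (XT.lf (nat_lit 0) (nat_lit 343053984935101)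 (nat_lit 76) (nat_lit 102188282206521) (nat_lit 76) (nat_lit 102159966936929) (nat_lit 1) (nat_lit 4) (nat_lit 2) (nat_lit 5) (nat_lit 2) (nat_lit 4) (nat_lit 441) (nat_lit 356) (nat_lit 223))))) (XT.nd (nat_lit 234) (nat_lit 0) (nat_lit 0) (XT.nd (nat_lit 78) (nat_lit 0) (nat_lit 0) (XT.lf (nat_lit 0) (nat_lit 395809604531930) (nat_lit 76) (nat_lit 116820228817940) (nat_lit 76) (nat_lit 116791913548318) (nat_lit 1) (nat_lit 4) (nat_lit 2) (nat_lit 5) (nat_lit 2) (nat_lit 4) (nat_lit 442) (nat_lit 356) (nat_lit 222)) (XT.nd (nat_lit 78) (nat_lit 0) (nat_lit 0) (XT.lf (nat_lit 0) (nat_lit 456478567065609) (nat_lit 76) (nat_lit 133646967422501) (nat_lit 76) (nat_lit 133618652152852) (nat_lit 1) (nat_lit 4) (nat_lit 2) (nat_lit 5) (nat_lit 2) (nat_lit 4) (nat_lit 443) (nat_lit 356) (nat_lit 221)) (XT.lf (nat_lit 0) (nat_lit 526247873977014) (nat_lit 76) (nat_lit 152997716818986) (nat_lit 76)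 (nat_lit 152969401549314) (nat_lit 1) (nat_lit 4) (nat_lit 2) (nat_lit 5) (nat_lit 2) (nat_lit 4) (nat_lit 444) (nat_lit 356) (nat_lit 220)))) (XT.nd (nat_lit 46332) (nat_lit 0) (nat_lit 3116) (XT.nd (nat_lit 46254) (nat_lit 0) (nat_lit 3116) (XT.lf (nat_lit 0) (nat_lit 606482576923103) (nat_lit 76) (nat_lit 175251078626023) (nat_lit 76) (nat_lit 175222763356331) (nat_lit 1) (nat_lit 4) (nat_lit 2) (nat_lit 5) (nat_lit 2) (nat_lit 4) (nat_lit 445) (nat_lit 356) (nat_lit 219)) (XT.lf (nat_lit 0) (nat_lit 6409418942) (nat_lit 380) (nat_lit 7699418851) (nat_lit 380) (nat_lit 7699418851) (nat_lit 42) (nat_lit 3) (nat_lit 47) (nat_lit 3) (nat_lit 47) (nat_lit 5) (nat_lit 357) (nat_lit 357) (nat_lit 306))) (XT.nd (nat_lit 78) (nat_lit 0) (nat_lit 76) (XT.lf (nat_lit 76) (nat_lit 6935128658) (nat_lit 0) (nat_lit 7164213166) (nat_lit 380) (nat_lit 32740538782) (nat_lit 43) (nat_lit 5) (nat_lit 42)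 (nat_lit 3) (nat_lit 47) (nat_lit 5) (nat_lit 358) (nat_lit 357) (nat_lit 305)) (XT.lf (nat_lit 0) (nat_lit 17115342544) (nat_lit 304) (nat_lit 16824981754) (nat_lit 380) (nat_lit 16374916883) (nat_lit 43) (nat_lit 5) (nat_lit 47) (nat_lit 5) (nat_lit 48) (nat_lit 5) (nat_lit 359) (nat_lit 357) (nat_lit 304))))))))
noncomputable def xc75 : XT := (XT.nd (nat_lit 2106) (nat_lit 1064) (nat_lit 0) (XT.nd (nat_lit 1014) (nat_lit 912) (nat_lit 0) (XT.nd (nat_lit 468) (nat_lit 760) (nat_lit 0) (XT.nd (nat_lit 234) (nat_lit 152) (nat_lit 0) (XT.nd (nat_lit 78) (nat_lit 228) (nat_lit 0) (XT.lf (nat_lit 76) (nat_lit 10287502545) (nat_lit 0) (nat_lit 11058386476) (nat_lit 380) (nat_lit 32851696136) (nat_lit 44) (nat_lit 5) (nat_lit 43) (nat_lit 5) (nat_lit 48) (nat_lit 5) (nat_lit 360) (nat_lit 357) (nat_lit 303)) (XT.nd (nat_lit 78) (nat_lit 304) (nat_lit 0) (XT.lf (nat_lit 0) (nat_lit 27759630403)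 (nat_lit 304) (nat_lit 15850679761) (nat_lit 76) (nat_lit 14819679640) (nat_lit 44) (nat_lit 5) (nat_lit 48) (nat_lit 5) (nat_lit 45) (nat_lit 5) (nat_lit 361) (nat_lit 357) (nat_lit 302)) (XT.lf (nat_lit 0) (nat_lit 17439748105) (nat_lit 304) (nat_lit 18940533145) (nat_lit 380) (nat_lit 26730247536) (nat_lit 40) (nat_lit 5) (nat_lit 44) (nat_lit 5) (nat_lit 45) (nat_lit 5) (nat_lit 362) (nat_lit 357) (nat_lit 301)))) (XT.nd (nat_lit 78) (nat_lit 152) (nat_lit 0) (XT.lf (nat_lit 0) (nat_lit 47548967393) (nat_lit 380) (nat_lit 11297891546) (nat_lit 76) (nat_lit 9458049793) (nat_lit 40) (nat_lit 5) (nat_lit 45) (nat_lit 5) (nat_lit 41) (nat_lit 5) (nat_lit 363) (nat_lit 357) (nat_lit 300)) (XT.nd (nat_lit 78) (nat_lit 0) (nat_lit 0) (XT.lf (nat_lit 0) (nat_lit 29995734881) (nat_lit 152) (nat_lit 32538132925) (nat_lit 228) (nat_lit 11423441825) (nat_lit 38) (nat_lit 5) (nat_lit 40) (nat_lit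 5) (nat_lit 41) (nat_lit 5) (nat_lit 364) (nat_lit 357) (nat_lit 299)) (XT.lf (nat_lit 0) (nat_lit 78749608443) (nat_lit 152) (nat_lit 1604643739) (nat_lit 228) (nat_lit 15156728) (nat_lit 38) (nat_lit 5) (nat_lit 40) (nat_lit 5) (nat_lit 41) (nat_lit 5) (nat_lit 365) (nat_lit 357) (nat_lit 298))))) (XT.nd (nat_lit 234) (nat_lit 380) (nat_lit 0) (XT.nd (nat_lit 78) (nat_lit 152) (nat_lit 0) (XT.lf (nat_lit 0) (nat_lit 15583129938) (nat_lit 228) (nat_lit 37803895141) (nat_lit 76) (nat_lit 33728094747) (nat_lit 35) (nat_lit 5) (nat_lit 38) (nat_lit 5) (nat_lit 36) (nat_lit 5) (nat_lit 366) (nat_lit 357) (nat_lit 297)) (XT.nd (nat_lit 78) (nat_lit 0) (nat_lit 0) (XT.lf (nat_lit 0) (nat_lit 14401419792) (nat_lit 152) (nat_lit 19877234463) (nat_lit 228) (nat_lit 60480068282) (nat_lit 33) (nat_lit 5) (nat_lit 35) (nat_lit 5) (nat_lit 36) (nat_lit 5) (nat_lit 367) (nat_lit 357) (nat_lit 296)) (XT.lf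 (nat_lit 0) (nat_lit 58619079758) (nat_lit 228) (nat_lit 25436624563) (nat_lit 76) (nat_lit 19067075784) (nat_lit 33) (nat_lit 5) (nat_lit 36) (nat_lit 5) (nat_lit 34) (nat_lit 4) (nat_lit 368) (nat_lit 357) (nat_lit 295)))) (XT.nd (nat_lit 156) (nat_lit 228) (nat_lit 0) (XT.nd (nat_lit 78) (nat_lit 76) (nat_lit 0) (XT.lf (nat_lit 0) (nat_lit 40366146899) (nat_lit 76) (nat_lit 48860458272) (nat_lit 152) (nat_lit 23122436011) (nat_lit 32) (nat_lit 5) (nat_lit 33) (nat_lit 5) (nat_lit 34) (nat_lit 4) (nat_lit 369) (nat_lit 357) (nat_lit 294)) (XT.lf (nat_lit 0) (nat_lit 2726531264) (nat_lit 152) (nat_lit 3988945051) (nat_lit 76) (nat_lit 116026005369) (nat_lit 31) (nat_lit 5) (nat_lit 33) (nat_lit 5) (nat_lit 32) (nat_lit 5) (nat_lit 370) (nat_lit 357) (nat_lit 293))) (XT.nd (nat_lit 78) (nat_lit 76) (nat_lit 0) (XT.lf (nat_lit 0) (nat_lit 35346049714) (nat_lit 228) (nat_lit 55724771308) (nat_lit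 76) (nat_lit 42667731706) (nat_lit 29) (nat_lit 5) (nat_lit 32) (nat_lit 5) (nat_lit 30) (nat_lit 4) (nat_lit 371) (nat_lit 357) (nat_lit 292)) (XT.lf (nat_lit 0) (nat_lit 28627363683) (nat_lit 76) (nat_lit 45953143532) (nat_lit 152) (nat_lit 71546375686) (nat_lit 28) (nat_lit 5) (nat_lit 29) (nat_lit 5) (nat_lit 30) (nat_lit 4) (nat_lit 372) (nat_lit 357) (nat_lit 291)))))) (XT.nd (nat_lit 546) (nat_lit 456) (nat_lit 0) (XT.nd (nat_lit 234) (nat_lit 228) (nat_lit 0) (XT.nd (nat_lit 78) (nat_lit 228) (nat_lit 0) (XT.lf (nat_lit 0) (nat_lit 122995802153) (nat_lit 152) (nat_lit 28428744026) (nat_lit 0) (nat_lit 8454566242) (nat_lit 28) (nat_lit 5) (nat_lit 30) (nat_lit 4) (nat_lit 28) (nat_lit 4) (nat_lit 373) (nat_lit 357) (nat_lit 290)) (XT.nd (nat_lit 78) (nat_lit 76) (nat_lit 0) (XT.lf (nat_lit 0) (nat_lit 8424619760) (nat_lit 152) (nat_lit 96429584685) (nat_lit 76) (nat_lit 69964872324)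 (nat_lit 26) (nat_lit 5) (nat_lit 28) (nat_lit 5) (nat_lit 27) (nat_lit 4) (nat_lit 374) (nat_lit 357) (nat_lit 289)) (XT.lf (nat_lit 0) (nat_lit 11875977632) (nat_lit 76) (nat_lit 46923840479) (nat_lit 152) (nat_lit 132629681448) (nat_lit 25) (nat_lit 5) (nat_lit 26) (nat_lit 5) (nat_lit 27) (nat_lit 4) (nat_lit 375) (nat_lit 357) (nat_lit 288)))) (XT.nd (nat_lit 156) (nat_lit 152) (nat_lit 0) (XT.nd (nat_lit 78) (nat_lit 76) (nat_lit 0) (XT.lf (nat_lit 0) (nat_lit 122826220526) (nat_lit 152) (nat_lit 63568806261) (nat_lit 0) (nat_lit 23222220416) (nat_lit 25) (nat_lit 5) (nat_lit 27) (nat_lit 4) (nat_lit 25) (nat_lit 4) (nat_lit 376) (nat_lit 357) (nat_lit 287)) (XT.lf (nat_lit 0) (nat_lit 74181032443) (nat_lit 76) (nat_lit 127580553453) (nat_lit 76) (nat_lit 27975820780) (nat_lit 24) (nat_lit 4) (nat_lit 25) (nat_lit 5) (nat_lit 25) (nat_lit 4) (nat_lit 377) (nat_lit 357) (nat_lit 286)))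 (XT.nd (nat_lit 78) (nat_lit 76) (nat_lit 0) (XT.lf (nat_lit 0) (nat_lit 39610724507) (nat_lit 152) (nat_lit 14442311994) (nat_lit 76) (nat_lit 198054205729) (nat_lit 23) (nat_lit 5) (nat_lit 25) (nat_lit 5) (nat_lit 24) (nat_lit 4) (nat_lit 378) (nat_lit 357) (nat_lit 285)) (XT.lf (nat_lit 0) (nat_lit 122772976731) (nat_lit 152) (nat_lit 117455331580) (nat_lit 0) (nat_lit 36159130114) (nat_lit 22) (nat_lit 5) (nat_lit 24) (nat_lit 4) (nat_lit 22) (nat_lit 4) (nat_lit 379) (nat_lit 357) (nat_lit 284))))) (XT.nd (nat_lit 234) (nat_lit 228) (nat_lit 0) (XT.nd (nat_lit 78) (nat_lit 152) (nat_lit 0) (XT.lf (nat_lit 0) (nat_lit 58319532180) (nat_lit 76) (nat_lit 165868791891) (nat_lit 76) (nat_lit 79254526427) (nat_lit 21) (nat_lit 4) (nat_lit 22) (nat_lit 5) (nat_lit 22) (nat_lit 4) (nat_lit 380) (nat_lit 357) (nat_lit 283)) (XT.nd (nat_lit 78) (nat_lit 76) (nat_lit 0) (XT.lf (nat_lit 0) (nat_lit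 12133254564) (nat_lit 152) (nat_lit 60528132365) (nat_lit 76) (nat_lit 260891642664) (nat_lit 20) (nat_lit 5) (nat_lit 22) (nat_lit 5) (nat_lit 21) (nat_lit 4) (nat_lit 381) (nat_lit 357) (nat_lit 282)) (XT.lf (nat_lit 0) (nat_lit 117770277397) (nat_lit 152) (nat_lit 206092137418) (nat_lit 0) (nat_lit 42452932714) (nat_lit 19) (nat_lit 5) (nat_lit 21) (nat_lit 4) (nat_lit 19) (nat_lit 4) (nat_lit 382) (nat_lit 357) (nat_lit 281)))) (XT.nd (nat_lit 156) (nat_lit 152) (nat_lit 0) (XT.nd (nat_lit 78) (nat_lit 0) (nat_lit 0) (XT.lf (nat_lit 0) (nat_lit 15104647839) (nat_lit 76) (nat_lit 231547525755) (nat_lit 76) (nat_lit 156229941595) (nat_lit 18) (nat_lit 4) (nat_lit 19) (nat_lit 5) (nat_lit 19) (nat_lit 4) (nat_lit 383) (nat_lit 357) (nat_lit 280)) (XT.lf (nat_lit 0) (nat_lit 292641260565) (nat_lit 76) (nat_lit 112997299488) (nat_lit 76) (nat_lit 37679507088) (nat_lit 18) (nat_lit 4) (nat_lit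 19) (nat_lit 5) (nat_lit 19) (nat_lit 4) (nat_lit 384) (nat_lit 357) (nat_lit 279))) (XT.nd (nat_lit 78) (nat_lit 0) (nat_lit 0) (XT.lf (nat_lit 0) (nat_lit 96645121120) (nat_lit 152) (nat_lit 360394138337) (nat_lit 0) (nat_lit 31151231138) (nat_lit 16) (nat_lit 5) (nat_lit 18) (nat_lit 4) (nat_lit 16) (nat_lit 4) (nat_lit 385) (nat_lit 357) (nat_lit 278)) (XT.lf (nat_lit 0) (nat_lit 260892235235) (nat_lit 152) (nat_lit 81189476353) (nat_lit 0) (nat_lit 195398208332) (nat_lit 16) (nat_lit 5) (nat_lit 18) (nat_lit 4) (nat_lit 16) (nat_lit 4) (nat_lit 386) (nat_lit 357) (nat_lit 277))))))) (XT.nd (nat_lit 1014) (nat_lit 304) (nat_lit 0) (XT.nd (nat_lit 468) (nat_lit 304) (nat_lit 0) (XT.nd (nat_lit 234) (nat_lit 228) (nat_lit 0) (XT.nd (nat_lit 78) (nat_lit 152) (nat_lit 0) (XT.lf (nat_lit 0) (nat_lit 263338825703) (nat_lit 76) (nat_lit 197341266294) (nat_lit 76) (nat_lit 131847120329) (nat_lit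 15) (nat_lit 4) (nat_lit 16) (nat_lit 5) (nat_lit 16) (nat_lit 4) (nat_lit 387) (nat_lit 357) (nat_lit 276)) (XT.nd (nat_lit 78) (nat_lit 0) (nat_lit 0) (XT.lf (nat_lit 0) (nat_lit 12996723095) (nat_lit 76) (nat_lit 23510706017) (nat_lit 152) (nat_lit 618361689298) (nat_lit 13) (nat_lit 5) (nat_lit 14) (nat_lit 5) (nat_lit 15) (nat_lit 4) (nat_lit 388) (nat_lit 357) (nat_lit 275)) (XT.lf (nat_lit 0) (nat_lit 241947008323) (nat_lit 152) (nat_lit 294878556046) (nat_lit 0) (nat_lit 184995408735) (nat_lit 13) (nat_lit 5) (nat_lit 15) (nat_lit 4) (nat_lit 13) (nat_lit 4) (nat_lit 389) (nat_lit 357) (nat_lit 274)))) (XT.nd (nat_lit 78) (nat_lit 152) (nat_lit 0) (XT.lf (nat_lit 0) (nat_lit 113113841819) (nat_lit 76) (nat_lit 370891504298) (nat_lit 76) (nat_lit 313939836636) (nat_lit 12) (nat_lit 4) (nat_lit 13) (nat_lit 5) (nat_lit 13) (nat_lit 4) (nat_lit 390) (nat_lit 357) (nat_lit 273)) (XT.nd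 (nat_lit 78) (nat_lit 152) (nat_lit 0) (XT.lf (nat_lit 0) (nat_lit 615444343382) (nat_lit 76) (nat_lit 162341684191) (nat_lit 76) (nat_lit 105389957334) (nat_lit 12) (nat_lit 4) (nat_lit 13) (nat_lit 5) (nat_lit 13) (nat_lit 4) (nat_lit 391) (nat_lit 357) (nat_lit 272)) (XT.lf (nat_lit 0) (nat_lit 135773644163) (nat_lit 152) (nat_lit 756337323665) (nat_lit 0) (nat_lit 86250358657) (nat_lit 10) (nat_lit 5) (nat_lit 12) (nat_lit 4) (nat_lit 10) (nat_lit 4) (nat_lit 392) (nat_lit 357) (nat_lit 271))))) (XT.nd (nat_lit 234) (nat_lit 228) (nat_lit 0) (XT.nd (nat_lit 78) (nat_lit 76) (nat_lit 0) (XT.lf (nat_lit 0) (nat_lit 424713446362) (nat_lit 152) (nat_lit 283809377894) (nat_lit 0) (nat_lit 375190121935) (nat_lit 10) (nat_lit 5) (nat_lit 12) (nat_lit 4) (nat_lit 10) (nat_lit 4) (nat_lit 393) (nat_lit 357) (nat_lit 270)) (XT.nd (nat_lit 78) (nat_lit 0) (nat_lit 0) (XT.lf (nat_lit 0) (nat_lit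 284966595677) (nat_lit 76) (nat_lit 483827076713) (nat_lit 76) (nat_lit 434303718441) (nat_lit 9) (nat_lit 4) (nat_lit 10) (nat_lit 5) (nat_lit 10) (nat_lit 4) (nat_lit 394) (nat_lit 357) (nat_lit 269)) (XT.lf (nat_lit 0) (nat_lit 970954447382) (nat_lit 76) (nat_lit 208366588480) (nat_lit 76) (nat_lit 158843200778) (nat_lit 9) (nat_lit 4) (nat_lit 10) (nat_lit 5) (nat_lit 10) (nat_lit 4) (nat_lit 395) (nat_lit 357) (nat_lit 268)))) (XT.nd (nat_lit 156) (nat_lit 76) (nat_lit 0) (XT.nd (nat_lit 78) (nat_lit 0) (nat_lit 0) (XT.lf (nat_lit 0) (nat_lit 161047853429) (nat_lit 152) (nat_lit 1210902461385) (nat_lit 0) (nat_lit 117984015782) (nat_lit 7) (nat_lit 5) (nat_lit 9) (nat_lit 4) (nat_lit 7) (nat_lit 4) (nat_lit 396) (nat_lit 357) (nat_lit 267)) (XT.lf (nat_lit 0) (nat_lit 542691021990) (nat_lit 152) (nat_lit 616512511212) (nat_lit 0) (nat_lit 499627164993) (nat_lit 7) (nat_lit 5) (nat_lit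 9) (nat_lit 4) (nat_lit 7) (nat_lit 4) (nat_lit 397) (nat_lit 357) (nat_lit 266))) (XT.nd (nat_lit 78) (nat_lit 0) (nat_lit 0) (XT.lf (nat_lit 0) (nat_lit 73586454602) (nat_lit 76) (nat_lit 911040963648) (nat_lit 76) (nat_lit 867977089824) (nat_lit 6) (nat_lit 4) (nat_lit 7) (nat_lit 5) (nat_lit 7) (nat_lit 4) (nat_lit 398) (nat_lit 357) (nat_lit 265)) (XT.lf (nat_lit 0) (nat_lit 936487242263) (nat_lit 76) (nat_lit 588593530411) (nat_lit 76) (nat_lit 545529641954) (nat_lit 6) (nat_lit 4) (nat_lit 7) (nat_lit 5) (nat_lit 7) (nat_lit 4) (nat_lit 399) (nat_lit 357) (nat_lit 264)))))) (XT.nd (nat_lit 546) (nat_lit 152) (nat_lit 0) (XT.nd (nat_lit 234) (nat_lit 76) (nat_lit 0) (XT.nd (nat_lit 78) (nat_lit 76) (nat_lit 0) (XT.lf (nat_lit 0) (nat_lit 1928822606946) (nat_lit 76) (nat_lit 217779269720) (nat_lit 76) (nat_lit 174715368539) (nat_lit 6) (nat_lit 4) (nat_lit 7) (nat_lit 5) (nat_lit 7)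 (nat_lit 4) (nat_lit 400) (nat_lit 357) (nat_lit 263)) (XT.nd (nat_lit 78) (nat_lit 0) (nat_lit 0) (XT.lf (nat_lit 0) (nat_lit 259873649425) (nat_lit 76) (nat_lit 2121181814217) (nat_lit 0) (nat_lit 222426769212) (nat_lit 5) (nat_lit 5) (nat_lit 6) (nat_lit 4) (nat_lit 5) (nat_lit 4) (nat_lit 401) (nat_lit 357) (nat_lit 262)) (XT.lf (nat_lit 0) (nat_lit 773627458929) (nat_lit 76) (nat_lit 1412136377752) (nat_lit 0) (nat_lit 736180570351) (nat_lit 5) (nat_lit 5) (nat_lit 6) (nat_lit 4) (nat_lit 5) (nat_lit 4) (nat_lit 402) (nat_lit 357) (nat_lit 261)))) (XT.nd (nat_lit 156) (nat_lit 0) (nat_lit 0) (XT.nd (nat_lit 78) (nat_lit 76) (nat_lit 0) (XT.lf (nat_lit 0) (nat_lit 1364444139213) (nat_lit 76) (nat_lit 596734554862) (nat_lit 0) (nat_lit 1326997243360) (nat_lit 5) (nat_lit 5) (nat_lit 6) (nat_lit 4) (nat_lit 5) (nat_lit 4) (nat_lit 403) (nat_lit 357) (nat_lit 260)) (XT.lf (nat_lit 0) (nat_lit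 374299937107) (nat_lit 76) (nat_lit 1685082172156) (nat_lit 76) (nat_lit 1647635269977) (nat_lit 4) (nat_lit 4) (nat_lit 5) (nat_lit 5) (nat_lit 5) (nat_lit 4) (nat_lit 404) (nat_lit 357) (nat_lit 259))) (XT.nd (nat_lit 78) (nat_lit 0) (nat_lit 0) (XT.lf (nat_lit 0) (nat_lit 1558054073425) (nat_lit 76) (nat_lit 1331699477572) (nat_lit 76) (nat_lit 1294252569892) (nat_lit 4) (nat_lit 4) (nat_lit 5) (nat_lit 5) (nat_lit 5) (nat_lit 4) (nat_lit 405) (nat_lit 357) (nat_lit 258)) (XT.lf (nat_lit 0) (nat_lit 2919371020518) (nat_lit 76) (nat_lit 925309543722) (nat_lit 76) (nat_lit 887862631260) (nat_lit 4) (nat_lit 4) (nat_lit 5) (nat_lit 5) (nat_lit 5) (nat_lit 4) (nat_lit 406) (nat_lit 357) (nat_lit 257))))) (XT.nd (nat_lit 234) (nat_lit 0) (nat_lit 0) (XT.nd (nat_lit 78) (nat_lit 152) (nat_lit 0) (XT.lf (nat_lit 0) (nat_lit 4484885240394) (nat_lit 76) (nat_lit 457961263206) (nat_lit 76) (nat_lit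 420514346584) (nat_lit 4) (nat_lit 4) (nat_lit 5) (nat_lit 5) (nat_lit 5) (nat_lit 4) (nat_lit 407) (nat_lit 357) (nat_lit 256)) (XT.nd (nat_lit 78) (nat_lit 0) (nat_lit 0) (XT.lf (nat_lit 0) (nat_lit 119170654700) (nat_lit 152) (nat_lit 5880399330123) (nat_lit 0) (nat_lit 86608115362) (nat_lit 2) (nat_lit 5) (nat_lit 4) (nat_lit 4) (nat_lit 2) (nat_lit 4) (nat_lit 408) (nat_lit 357) (nat_lit 255)) (XT.lf (nat_lit 0) (nat_lit 766670309189) (nat_lit 152) (nat_lit 5403149003132) (nat_lit 0) (nat_lit 734107767116) (nat_lit 2) (nat_lit 5) (nat_lit 4) (nat_lit 4) (nat_lit 2) (nat_lit 4) (nat_lit 409) (nat_lit 357) (nat_lit 254)))) (XT.nd (nat_lit 156) (nat_lit 0) (nat_lit 0) (XT.nd (nat_lit 78) (nat_lit 0) (nat_lit 0) (XT.lf (nat_lit 0) (nat_lit 1511294812221) (nat_lit 152) (nat_lit 4854311340532) (nat_lit 0) (nat_lit 1478732267770) (nat_lit 2) (nat_lit 5) (nat_lit 4) (nat_lit 4) (nat_lit 2)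 (nat_lit 4) (nat_lit 410) (nat_lit 357) (nat_lit 253)) (XT.lf (nat_lit 0) (nat_lit 2367612904073) (nat_lit 152) (nat_lit 4223148214139) (nat_lit 0) (nat_lit 2335050357554) (nat_lit 2) (nat_lit 5) (nat_lit 4) (nat_lit 4) (nat_lit 2) (nat_lit 4) (nat_lit 411) (nat_lit 357) (nat_lit 252))) (XT.nd (nat_lit 78) (nat_lit 0) (nat_lit 0) (XT.lf (nat_lit 0) (nat_lit 3352378634368) (nat_lit 152) (nat_lit 3497310780178) (nat_lit 0) (nat_lit 3319816086051) (nat_lit 2) (nat_lit 5) (nat_lit 4) (nat_lit 4) (nat_lit 2) (nat_lit 4) (nat_lit 412) (nat_lit 357) (nat_lit 251)) (XT.lf (nat_lit 0) (nat_lit 4484859158698) (nat_lit 152) (nat_lit 2662597871461) (nat_lit 0) (nat_lit 4452296608817) (nat_lit 2) (nat_lit 5) (nat_lit 4) (nat_lit 4) (nat_lit 2) (nat_lit 4) (nat_lit 413) (nat_lit 357) (nat_lit 250))))))))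
noncomputable def xc76 : XT := (XT.nd (nat_lit 2028) (nat_lit 0) (nat_lit 0) (XT.nd (nat_lit 1014) (nat_lit 0) (nat_lit 0) (XT.nd (nat_lit 468) (nat_lit 0) (nat_lit 0) (XT.nd (nat_lit 234) (nat_lit 0) (nat_lit 0) (XT.nd (nat_lit 78) (nat_lit 76) (nat_lit 0) (XT.lf (nat_lit 0) (nat_lit 5787211704715) (nat_lit 152) (nat_lit 1702678148472) (nat_lit 0) (nat_lit 5754649153474) (nat_lit 2) (nat_lit 5) (nat_lit 4) (nat_lit 4) (nat_lit 2) (nat_lit 4) (nat_lit 414) (nat_lit 357) (nat_lit 249)) (XT.nd (nat_lit 78) (nat_lit 76) (nat_lit 0) (XT.lf (nat_lit 0) (nat_lit 7284917083100) (nat_lit 152) (nat_lit 598770573150) (nat_lit 0) (nat_lit 7252354530676) (nat_lit 2) (nat_lit 5) (nat_lit 4) (nat_lit 4) (nat_lit 2) (nat_lit 4) (nat_lit 415) (nat_lit 357) (nat_lit 248)) (XT.lf (nat_lit 0) (nat_lit 736270980254) (nat_lit 76) (nat_lit 8301494656106) (nat_lit 76) (nat_lit 8268932102654) (nat_lit 1) (nat_lit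 4) (nat_lit 2) (nat_lit 5) (nat_lit 2) (nat_lit 4) (nat_lit 416) (nat_lit 357) (nat_lit 247)))) (XT.nd (nat_lit 78) (nat_lit 0) (nat_lit 0) (XT.lf (nat_lit 0) (nat_lit 2338862325957) (nat_lit 76) (nat_lit 8745978476419) (nat_lit 76) (nat_lit 8713415922074) (nat_lit 1) (nat_lit 4) (nat_lit 2) (nat_lit 5) (nat_lit 2) (nat_lit 4) (nat_lit 417) (nat_lit 357) (nat_lit 246)) (XT.nd (nat_lit 78) (nat_lit 0) (nat_lit 0) (XT.lf (nat_lit 0) (nat_lit 4181842296923) (nat_lit 76) (nat_lit 9257134910631) (nat_lit 76) (nat_lit 9224572355508) (nat_lit 1) (nat_lit 4) (nat_lit 2) (nat_lit 5) (nat_lit 2) (nat_lit 4) (nat_lit 418) (nat_lit 357) (nat_lit 245)) (XT.lf (nat_lit 0) (nat_lit 6301269196933) (nat_lit 76) (nat_lit 9844964845497) (nat_lit 76) (nat_lit 9812402289699) (nat_lit 1) (nat_lit 4) (nat_lit 2) (nat_lit 5) (nat_lit 2) (nat_lit 4) (nat_lit 419) (nat_lit 357) (nat_lit 244))))) (XT.nd (nat_lit 234)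 (nat_lit 0) (nat_lit 0) (XT.nd (nat_lit 78) (nat_lit 0) (nat_lit 0) (XT.lf (nat_lit 0) (nat_lit 8738610074029) (nat_lit 76) (nat_lit 10520969301483) (nat_lit 76) (nat_lit 10488406745097) (nat_lit 1) (nat_lit 4) (nat_lit 2) (nat_lit 5) (nat_lit 2) (nat_lit 4) (nat_lit 420) (nat_lit 357) (nat_lit 243)) (XT.nd (nat_lit 78) (nat_lit 0) (nat_lit 0) (XT.lf (nat_lit 0) (nat_lit 11541552032330) (nat_lit 76) (nat_lit 11298374452727) (nat_lit 76) (nat_lit 11265811895830) (nat_lit 1) (nat_lit 4) (nat_lit 2) (nat_lit 5) (nat_lit 2) (nat_lit 4) (nat_lit 421) (nat_lit 357) (nat_lit 242)) (XT.lf (nat_lit 0) (nat_lit 14764935240583) (nat_lit 76) (nat_lit 12192390400015) (nat_lit 76) (nat_lit 12159827842673) (nat_lit 1) (nat_lit 4) (nat_lit 2) (nat_lit 5) (nat_lit 2) (nat_lit 4) (nat_lit 422) (nat_lit 357) (nat_lit 241)))) (XT.nd (nat_lit 156) (nat_lit 0) (nat_lit 0) (XT.nd (nat_lit 78) (nat_lit 0) (nat_lit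 0) (XT.lf (nat_lit 0) (nat_lit 18471825891995) (nat_lit 76) (nat_lit 13220508759706) (nat_lit 76) (nat_lit 13187946201977) (nat_lit 1) (nat_lit 4) (nat_lit 2) (nat_lit 5) (nat_lit 2) (nat_lit 4) (nat_lit 423) (nat_lit 357) (nat_lit 240)) (XT.lf (nat_lit 0) (nat_lit 22734750108006) (nat_lit 76) (nat_lit 14402844891012) (nat_lit 76) (nat_lit 14370282332947) (nat_lit 1) (nat_lit 4) (nat_lit 2) (nat_lit 5) (nat_lit 2) (nat_lit 4) (nat_lit 424) (nat_lit 357) (nat_lit 239))) (XT.nd (nat_lit 78) (nat_lit 0) (nat_lit 0) (XT.lf (nat_lit 0) (nat_lit 27637112927624) (nat_lit 76) (nat_lit 15762531457371) (nat_lit 76) (nat_lit 15729968899014) (nat_lit 1) (nat_lit 4) (nat_lit 2) (nat_lit 5) (nat_lit 2) (nat_lit 4) (nat_lit 425) (nat_lit 357) (nat_lit 238)) (XT.lf (nat_lit 0) (nat_lit 33274830145147) (nat_lit 76) (nat_lit 17326171022039) (nat_lit 76) (nat_lit 17293608463427) (nat_lit 1) (nat_lit 4) (nat_lit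 2) (nat_lit 5) (nat_lit 2) (nat_lit 4) (nat_lit 426) (nat_lit 357) (nat_lit 237)))))) (XT.nd (nat_lit 468) (nat_lit 0) (nat_lit 0) (XT.nd (nat_lit 234) (nat_lit 0) (nat_lit 0) (XT.nd (nat_lit 78) (nat_lit 0) (nat_lit 0) (XT.lf (nat_lit 0) (nat_lit 39758204923526) (nat_lit 76) (nat_lit 19124356533019) (nat_lit 76) (nat_lit 19091793974187) (nat_lit 1) (nat_lit 4) (nat_lit 2) (nat_lit 5) (nat_lit 2) (nat_lit 4) (nat_lit 427) (nat_lit 357) (nat_lit 236)) (XT.nd (nat_lit 78) (nat_lit 0) (nat_lit 0) (XT.lf (nat_lit 0) (nat_lit 47214085899730) (nat_lit 76) (nat_lit 21192269880744) (nat_lit 76) (nat_lit 21159707321719) (nat_lit 1) (nat_lit 4) (nat_lit 2) (nat_lit 5) (nat_lit 2) (nat_lit 4) (nat_lit 428) (nat_lit 357) (nat_lit 235)) (XT.lf (nat_lit 0) (nat_lit 55788349005902) (nat_lit 76) (nat_lit 23570370239408) (nat_lit 76) (nat_lit 23537807680217) (nat_lit 1) (nat_lit 4) (nat_lit 2) (nat_lit 5)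 (nat_lit 2) (nat_lit 4) (nat_lit 429) (nat_lit 357) (nat_lit 234)))) (XT.nd (nat_lit 78) (nat_lit 0) (nat_lit 0) (XT.lf (nat_lit 0) (nat_lit 65648751563683) (nat_lit 76) (nat_lit 26305185659508) (nat_lit 76) (nat_lit 26272623100171) (nat_lit 1) (nat_lit 4) (nat_lit 2) (nat_lit 5) (nat_lit 2) (nat_lit 4) (nat_lit 430) (nat_lit 357) (nat_lit 233)) (XT.nd (nat_lit 78) (nat_lit 0) (nat_lit 0) (XT.lf (nat_lit 0) (nat_lit 76988214492683) (nat_lit 76) (nat_lit 29450223399262) (nat_lit 76) (nat_lit 29417660839798) (nat_lit 1) (nat_lit 4) (nat_lit 2) (nat_lit 5) (nat_lit 2) (nat_lit 4) (nat_lit 431) (nat_lit 357) (nat_lit 232)) (XT.lf (nat_lit 0) (nat_lit 90028596850209) (nat_lit 76) (nat_lit 33067016805752) (nat_lit 76) (nat_lit 33034454246179) (nat_lit 1) (nat_lit 4) (nat_lit 2) (nat_lit 5) (nat_lit 2) (nat_lit 4) (nat_lit 432) (nat_lit 357) (nat_lit 231))))) (XT.nd (nat_lit 234) (nat_lit 0) (nat_lit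 0) (XT.nd (nat_lit 78) (nat_lit 0) (nat_lit 0) (XT.lf (nat_lit 0) (nat_lit 105025036551951) (nat_lit 76) (nat_lit 37226329228237) (nat_lit 76) (nat_lit 37193766668568) (nat_lit 1) (nat_lit 4) (nat_lit 2) (nat_lit 5) (nat_lit 2) (nat_lit 4) (nat_lit 433) (nat_lit 357) (nat_lit 230)) (XT.nd (nat_lit 78) (nat_lit 0) (nat_lit 0) (XT.lf (nat_lit 0) (nat_lit 122270942200769) (nat_lit 76) (nat_lit 42009538518459) (nat_lit 76) (nat_lit 41976975958708) (nat_lit 1) (nat_lit 4) (nat_lit 2) (nat_lit 5) (nat_lit 2) (nat_lit 4) (nat_lit 434) (nat_lit 357) (nat_lit 229)) (XT.lf (nat_lit 0) (nat_lit 142103733689793) (nat_lit 76) (nat_lit 47510229206011) (nat_lit 76) (nat_lit 47477666646188) (nat_lit 1) (nat_lit 4) (nat_lit 2) (nat_lit 5) (nat_lit 2) (nat_lit 4) (nat_lit 435) (nat_lit 357) (nat_lit 228)))) (XT.nd (nat_lit 156) (nat_lit 0) (nat_lit 0) (XT.nd (nat_lit 78) (nat_lit 0) (nat_lit 0) (XT.lf (nat_lit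 0) (nat_lit 164911443895981) (nat_lit 76) (nat_lit 53836023499997) (nat_lit 76) (nat_lit 53803460940111) (nat_lit 1) (nat_lit 4) (nat_lit 2) (nat_lit 5) (nat_lit 2) (nat_lit 4) (nat_lit 436) (nat_lit 357) (nat_lit 227)) (XT.lf (nat_lit 0) (nat_lit 191140310627715) (nat_lit 76) (nat_lit 61110686940952) (nat_lit 76) (nat_lit 61078124381011) (nat_lit 1) (nat_lit 4) (nat_lit 2) (nat_lit 5) (nat_lit 2) (nat_lit 4) (nat_lit 437) (nat_lit 357) (nat_lit 226))) (XT.nd (nat_lit 78) (nat_lit 0) (nat_lit 0) (XT.lf (nat_lit 0) (nat_lit 221303507364530) (nat_lit 76) (nat_lit 69476549900545) (nat_lit 76) (nat_lit 69443987340557) (nat_lit 1) (nat_lit 4) (nat_lit 2) (nat_lit 5) (nat_lit 2) (nat_lit 4) (nat_lit 438) (nat_lit 357) (nat_lit 225)) (XT.lf (nat_lit 0) (nat_lit 255991183607797) (nat_lit 76) (nat_lit 79097292306248) (nat_lit 76) (nat_lit 79064729746218) (nat_lit 1) (nat_lit 4) (nat_lit 2) (nat_lit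 5) (nat_lit 2) (nat_lit 4) (nat_lit 439) (nat_lit 357) (nat_lit 224))))))) (XT.nd (nat_lit 47268) (nat_lit 0) (nat_lit 1748) (XT.nd (nat_lit 46722) (nat_lit 0) (nat_lit 2964) (XT.nd (nat_lit 234) (nat_lit 0) (nat_lit 0) (XT.nd (nat_lit 78) (nat_lit 0) (nat_lit 0) (XT.lf (nat_lit 0) (nat_lit 295882011284016) (nat_lit 76) (nat_lit 90161146074694) (nat_lit 76) (nat_lit 90128583514628) (nat_lit 1) (nat_lit 4) (nat_lit 2) (nat_lit 5) (nat_lit 2) (nat_lit 4) (nat_lit 440) (nat_lit 357) (nat_lit 223)) (XT.nd (nat_lit 78) (nat_lit 0) (nat_lit 0) (XT.lf (nat_lit 0) (nat_lit 341756463108591) (nat_lit 76) (nat_lit 102884577910048) (nat_lit 76) (nat_lit 102852015349951) (nat_lit 1) (nat_lit 4) (nat_lit 2) (nat_lit 5) (nat_lit 2) (nat_lit 4) (nat_lit 441) (nat_lit 357) (nat_lit 222)) (XT.lf (nat_lit 0) (nat_lit 394512082704176) (nat_lit 76) (nat_lit 117516524522132) (nat_lit 76) (nat_lit 117483961962008)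 (nat_lit 1) (nat_lit 4) (nat_lit 2) (nat_lit 5) (nat_lit 2) (nat_lit 4) (nat_lit 442) (nat_lit 357) (nat_lit 221)))) (XT.nd (nat_lit 78) (nat_lit 0) (nat_lit 0) (XT.lf (nat_lit 0) (nat_lit 455181045236773) (nat_lit 76) (nat_lit 134343263127270) (nat_lit 76) (nat_lit 134310700567122) (nat_lit 1) (nat_lit 4) (nat_lit 2) (nat_lit 5) (nat_lit 2) (nat_lit 4) (nat_lit 443) (nat_lit 357) (nat_lit 220)) (XT.nd (nat_lit 78) (nat_lit 0) (nat_lit 0) (XT.lf (nat_lit 0) (nat_lit 524950352147236) (nat_lit 76) (nat_lit 153694012524258) (nat_lit 76) (nat_lit 153661449964089) (nat_lit 1) (nat_lit 4) (nat_lit 2) (nat_lit 5) (nat_lit 2) (nat_lit 4) (nat_lit 444) (nat_lit 357) (nat_lit 219)) (XT.lf (nat_lit 0) (nat_lit 605185055092507) (nat_lit 76) (nat_lit 175947374331732) (nat_lit 76) (nat_lit 175914811771544) (nat_lit 1) (nat_lit 4) (nat_lit 2) (nat_lit 5) (nat_lit 2) (nat_lit 4) (nat_lit 445) (nat_lit 357)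 (nat_lit 218))))) (XT.nd (nat_lit 234) (nat_lit 152) (nat_lit 0) (XT.nd (nat_lit 78) (nat_lit 0) (nat_lit 0) (XT.lf (nat_lit 0) (nat_lit 7401432162) (nat_lit 380) (nat_lit 8836732859) (nat_lit 380) (nat_lit 8836732859) (nat_lit 42) (nat_lit 3) (nat_lit 47) (nat_lit 3) (nat_lit 47) (nat_lit 5) (nat_lit 358) (nat_lit 358) (nat_lit 304)) (XT.nd (nat_lit 78) (nat_lit 0) (nat_lit 76) (XT.lf (nat_lit 76) (nat_lit 8008995703) (nat_lit 0) (nat_lit 8259856655) (nat_lit 380) (nat_lit 37588806423) (nat_lit 43) (nat_lit 5) (nat_lit 42) (nat_lit 3) (nat_lit 47) (nat_lit 5) (nat_lit 359) (nat_lit 358) (nat_lit 303)) (XT.lf (nat_lit 0) (nat_lit 19729373681) (nat_lit 304) (nat_lit 19311623187) (nat_lit 380) (nat_lit 18814510133) (nat_lit 43) (nat_lit 5) (nat_lit 47) (nat_lit 5) (nat_lit 48) (nat_lit 5) (nat_lit 360) (nat_lit 358) (nat_lit 302)))) (XT.nd (nat_lit 156) (nat_lit 228) (nat_lit 0) (XT.nd (nat_lit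 78) (nat_lit 0) (nat_lit 76) (XT.lf (nat_lit 76) (nat_lit 11866047129) (nat_lit 0) (nat_lit 12723826450) (nat_lit 380) (nat_lit 37731024700) (nat_lit 44) (nat_lit 5) (nat_lit 43) (nat_lit 5) (nat_lit 48) (nat_lit 5) (nat_lit 361) (nat_lit 358) (nat_lit 301)) (XT.lf (nat_lit 0) (nat_lit 31959944107) (nat_lit 304) (nat_lit 18191742123) (nat_lit 76) (nat_lit 17037338435) (nat_lit 44) (nat_lit 5) (nat_lit 48) (nat_lit 5) (nat_lit 45) (nat_lit 5) (nat_lit 362) (nat_lit 358) (nat_lit 300))) (XT.nd (nat_lit 78) (nat_lit 0) (nat_lit 0) (XT.lf (nat_lit 0) (nat_lit 20090589031) (nat_lit 304) (nat_lit 21779804002) (nat_lit 380) (nat_lit 30701747469) (nat_lit 40) (nat_lit 5) (nat_lit 44) (nat_lit 5) (nat_lit 45) (nat_lit 5) (nat_lit 363) (nat_lit 358) (nat_lit 299)) (XT.lf (nat_lit 0) (nat_lit 54710133813) (nat_lit 380) (nat_lit 12957991450) (nat_lit 76) (nat_lit 10878190353) (nat_lit 40) (nat_lit 5)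 (nat_lit 45) (nat_lit 5) (nat_lit 41) (nat_lit 5) (nat_lit 364) (nat_lit 358) (nat_lit 298)))))) (XT.nd (nat_lit 546) (nat_lit 532) (nat_lit 0) (XT.nd (nat_lit 234) (nat_lit 304) (nat_lit 0) (XT.nd (nat_lit 78) (nat_lit 228) (nat_lit 0) (XT.lf (nat_lit 0) (nat_lit 34528106949) (nat_lit 152) (nat_lit 37412269988) (nat_lit 228) (nat_lit 13106559379) (nat_lit 38) (nat_lit 5) (nat_lit 40) (nat_lit 5) (nat_lit 41) (nat_lit 5) (nat_lit 365) (nat_lit 358) (nat_lit 297)) (XT.nd (nat_lit 78) (nat_lit 152) (nat_lit 0) (XT.lf (nat_lit 0) (nat_lit 8201883) (nat_lit 228) (nat_lit 1830985442) (nat_lit 76) (nat_lit 90582125035) (nat_lit 37) (nat_lit 5) (nat_lit 40) (nat_lit 5) (nat_lit 38) (nat_lit 5) (nat_lit 366) (nat_lit 358) (nat_lit 296)) (XT.lf (nat_lit 0) (nat_lit 17943076575) (nat_lit 228) (nat_lit 43441809290) (nat_lit 76) (nat_lit 38794126802) (nat_lit 35) (nat_lit 5) (nat_lit 38) (nat_lit 5)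 (nat_lit 36) (nat_lit 5) (nat_lit 367) (nat_lit 358) (nat_lit 295)))) (XT.nd (nat_lit 156) (nat_lit 152) (nat_lit 0) (XT.nd (nat_lit 78) (nat_lit 0) (nat_lit 0) (XT.lf (nat_lit 0) (nat_lit 16592817878) (nat_lit 152) (nat_lit 22848471170) (nat_lit 228) (nat_lit 69528113276) (nat_lit 33) (nat_lit 5) (nat_lit 35) (nat_lit 5) (nat_lit 36) (nat_lit 5) (nat_lit 368) (nat_lit 358) (nat_lit 294)) (XT.lf (nat_lit 0) (nat_lit 67430433166) (nat_lit 228) (nat_lit 29222652853) (nat_lit 76) (nat_lit 21935334691) (nat_lit 33) (nat_lit 5) (nat_lit 36) (nat_lit 5) (nat_lit 34) (nat_lit 4) (nat_lit 369) (nat_lit 358) (nat_lit 293))) (XT.nd (nat_lit 78) (nat_lit 76) (nat_lit 0) (XT.lf (nat_lit 0) (nat_lit 46449194992) (nat_lit 76) (nat_lit 56178645112) (nat_lit 152) (nat_lit 26570968290) (nat_lit 32) (nat_lit 5) (nat_lit 33) (nat_lit 5) (nat_lit 34) (nat_lit 4) (nat_lit 370) (nat_lit 358) (nat_lit 292)) (XT.lf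 (nat_lit 0) (nat_lit 3151221772) (nat_lit 152) (nat_lit 4561292220) (nat_lit 76) (nat_lit 133437831551) (nat_lit 31) (nat_lit 5) (nat_lit 33) (nat_lit 5) (nat_lit 32) (nat_lit 5) (nat_lit 371) (nat_lit 358) (nat_lit 291))))) (XT.nd (nat_lit 234) (nat_lit 304) (nat_lit 0) (XT.nd (nat_lit 78) (nat_lit 76) (nat_lit 0) (XT.lf (nat_lit 0) (nat_lit 40663065419) (nat_lit 228) (nat_lit 64056888306) (nat_lit 76) (nat_lit 49077114137) (nat_lit 29) (nat_lit 5) (nat_lit 32) (nat_lit 5) (nat_lit 30) (nat_lit 4) (nat_lit 372) (nat_lit 358) (nat_lit 290)) (XT.nd (nat_lit 78) (nat_lit 0) (nat_lit 0) (XT.lf (nat_lit 0) (nat_lit 32946857902) (nat_lit 76) (nat_lit 52834914334) (nat_lit 152) (nat_lit 82262013421) (nat_lit 28) (nat_lit 5) (nat_lit 29) (nat_lit 5) (nat_lit 30) (nat_lit 4) (nat_lit 373) (nat_lit 358) (nat_lit 289)) (XT.lf (nat_lit 0) (nat_lit 141457913986) (nat_lit 152) (nat_lit 32669529067) (nat_lit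 0) (nat_lit 9731623841) (nat_lit 28) (nat_lit 5) (nat_lit 30) (nat_lit 4) (nat_lit 28) (nat_lit 4) (nat_lit 374) (nat_lit 358) (nat_lit 288)))) (XT.nd (nat_lit 156) (nat_lit 76) (nat_lit 0) (XT.nd (nat_lit 78) (nat_lit 76) (nat_lit 0) (XT.lf (nat_lit 0) (nat_lit 9700895004) (nat_lit 152) (nat_lit 110870334701) (nat_lit 76) (nat_lit 80468820357) (nat_lit 26) (nat_lit 5) (nat_lit 28) (nat_lit 5) (nat_lit 27) (nat_lit 4) (nat_lit 375) (nat_lit 358) (nat_lit 287)) (XT.lf (nat_lit 0) (nat_lit 13679985250) (nat_lit 76) (nat_lit 53951682963) (nat_lit 152) (nat_lit 152510473907) (nat_lit 25) (nat_lit 5) (nat_lit 26) (nat_lit 5) (nat_lit 27) (nat_lit 4) (nat_lit 376) (nat_lit 358) (nat_lit 286))) (XT.nd (nat_lit 78) (nat_lit 76) (nat_lit 0) (XT.lf (nat_lit 0) (nat_lit 141260868248) (nat_lit 152) (nat_lit 73083302077) (nat_lit 0) (nat_lit 26714056096) (nat_lit 25) (nat_lit 5) (nat_lit 27) (nat_lit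 4) (nat_lit 25) (nat_lit 4) (nat_lit 377) (nat_lit 358) (nat_lit 285)) (XT.lf (nat_lit 0) (nat_lit 85328065836) (nat_lit 76) (nat_lit 146707898154) (nat_lit 76) (nat_lit 32160532078) (nat_lit 24) (nat_lit 4) (nat_lit 25) (nat_lit 5) (nat_lit 25) (nat_lit 4) (nat_lit 378) (nat_lit 358) (nat_lit 284))))))))
noncomputable def xc77 : XT := (XT.nd (nat_lit 2106) (nat_lit 228) (nat_lit 0) (XT.nd (nat_lit 1014) (nat_lit 608) (nat_lit 0) (XT.nd (nat_lit 468) (nat_lit 456) (nat_lit 0) (XT.nd (nat_lit 234) (nat_lit 228) (nat_lit 0) (XT.nd (nat_lit 78) (nat_lit 152) (nat_lit 0) (XT.lf (nat_lit 0) (nat_lit 45561571099) (nat_lit 152) (nat_lit 16590469884) (nat_lit 76) (nat_lit 227769901456) (nat_lit 23) (nat_lit 5) (nat_lit 25) (nat_lit 5) (nat_lit 24) (nat_lit 4) (nat_lit 379) (nat_lit 358) (nat_lit 283)) (XT.nd (nat_lit 78) (nat_lit 76) (nat_lit 0) (XT.lf (nat_lit 0) (nat_lit 141198031672) (nat_lit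 152) (nat_lit 135055312543) (nat_lit 0) (nat_lit 41590843329) (nat_lit 22) (nat_lit 5) (nat_lit 24) (nat_lit 4) (nat_lit 22) (nat_lit 4) (nat_lit 380) (nat_lit 358) (nat_lit 282)) (XT.lf (nat_lit 0) (nat_lit 67084948110) (nat_lit 76) (nat_lit 190740269009) (nat_lit 76) (nat_lit 91132763958) (nat_lit 21) (nat_lit 4) (nat_lit 22) (nat_lit 5) (nat_lit 22) (nat_lit 4) (nat_lit 381) (nat_lit 358) (nat_lit 281)))) (XT.nd (nat_lit 78) (nat_lit 152) (nat_lit 0) (XT.lf (nat_lit 0) (nat_lit 13961117860) (nat_lit 152) (nat_lit 69591377049) (nat_lit 76) (nat_lit 300032307605) (nat_lit 20) (nat_lit 5) (nat_lit 22) (nat_lit 5) (nat_lit 21) (nat_lit 4) (nat_lit 382) (nat_lit 358) (nat_lit 280)) (XT.nd (nat_lit 78) (nat_lit 76) (nat_lit 0) (XT.lf (nat_lit 0) (nat_lit 135443620085) (nat_lit 152) (nat_lit 236989908609) (nat_lit 0) (nat_lit 48827950584) (nat_lit 19) (nat_lit 5) (nat_lit 21) (nat_lit 4) (nat_lit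 19) (nat_lit 4) (nat_lit 383) (nat_lit 358) (nat_lit 279)) (XT.lf (nat_lit 0) (nat_lit 17385664917) (nat_lit 76) (nat_lit 266271752627) (nat_lit 76) (nat_lit 179655902047) (nat_lit 18) (nat_lit 4) (nat_lit 19) (nat_lit 5) (nat_lit 19) (nat_lit 4) (nat_lit 384) (nat_lit 358) (nat_lit 278))))) (XT.nd (nat_lit 234) (nat_lit 304) (nat_lit 0) (XT.nd (nat_lit 78) (nat_lit 152) (nat_lit 0) (XT.lf (nat_lit 0) (nat_lit 336550771304) (nat_lit 76) (nat_lit 129940023115) (nat_lit 76) (nat_lit 43324015076) (nat_lit 18) (nat_lit 4) (nat_lit 19) (nat_lit 5) (nat_lit 19) (nat_lit 4) (nat_lit 385) (nat_lit 358) (nat_lit 277)) (XT.nd (nat_lit 78) (nat_lit 0) (nat_lit 0) (XT.lf (nat_lit 0) (nat_lit 111148604627) (nat_lit 152) (nat_lit 414439234430) (nat_lit 0) (nat_lit 35830217704) (nat_lit 16) (nat_lit 5) (nat_lit 18) (nat_lit 4) (nat_lit 16) (nat_lit 4) (nat_lit 386) (nat_lit 358) (nat_lit 276)) (XT.lf (nat_lit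 0) (nat_lit 300031909945) (nat_lit 152) (nat_lit 93355702451) (nat_lit 0) (nat_lit 224713419490) (nat_lit 16) (nat_lit 5) (nat_lit 18) (nat_lit 4) (nat_lit 16) (nat_lit 4) (nat_lit 387) (nat_lit 358) (nat_lit 275)))) (XT.nd (nat_lit 156) (nat_lit 76) (nat_lit 0) (XT.nd (nat_lit 78) (nat_lit 152) (nat_lit 0) (XT.lf (nat_lit 0) (nat_lit 302851290579) (nat_lit 76) (nat_lit 226936375008) (nat_lit 76) (nat_lit 151617794525) (nat_lit 15) (nat_lit 4) (nat_lit 16) (nat_lit 5) (nat_lit 16) (nat_lit 4) (nat_lit 388) (nat_lit 358) (nat_lit 274)) (XT.lf (nat_lit 0) (nat_lit 14957886872) (nat_lit 76) (nat_lit 27031204123) (nat_lit 152) (nat_lit 711109562978) (nat_lit 13) (nat_lit 5) (nat_lit 14) (nat_lit 5) (nat_lit 15) (nat_lit 4) (nat_lit 389) (nat_lit 358) (nat_lit 273))) (XT.nd (nat_lit 78) (nat_lit 76) (nat_lit 0) (XT.lf (nat_lit 0) (nat_lit 278244103421) (nat_lit 152) (nat_lit 339099700670) (nat_lit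 0) (nat_lit 212749558340) (nat_lit 13) (nat_lit 5) (nat_lit 15) (nat_lit 4) (nat_lit 13) (nat_lit 4) (nat_lit 390) (nat_lit 358) (nat_lit 272)) (XT.lf (nat_lit 0) (nat_lit 130091073293) (nat_lit 76) (nat_lit 426519881202) (nat_lit 76) (nat_lit 361025284648) (nat_lit 12) (nat_lit 4) (nat_lit 13) (nat_lit 5) (nat_lit 13) (nat_lit 4) (nat_lit 391) (nat_lit 358) (nat_lit 271)))))) (XT.nd (nat_lit 546) (nat_lit 228) (nat_lit 0) (XT.nd (nat_lit 234) (nat_lit 228) (nat_lit 0) (XT.nd (nat_lit 78) (nat_lit 152) (nat_lit 0) (XT.lf (nat_lit 0) (nat_lit 707769825500) (nat_lit 76) (nat_lit 186688285741) (nat_lit 76) (nat_lit 121193644426) (nat_lit 12) (nat_lit 4) (nat_lit 13) (nat_lit 5) (nat_lit 13) (nat_lit 4) (nat_lit 392) (nat_lit 358) (nat_lit 270)) (XT.nd (nat_lit 78) (nat_lit 0) (nat_lit 0) (XT.lf (nat_lit 0) (nat_lit 156144057354) (nat_lit 152) (nat_lit 869778651587) (nat_lit 0) (nat_lit 99192161496)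 (nat_lit 10) (nat_lit 5) (nat_lit 12) (nat_lit 4) (nat_lit 10) (nat_lit 4) (nat_lit 393) (nat_lit 358) (nat_lit 269)) (XT.lf (nat_lit 0) (nat_lit 488424260331) (nat_lit 152) (nat_lit 326372723163) (nat_lit 0) (nat_lit 431472335043) (nat_lit 10) (nat_lit 5) (nat_lit 12) (nat_lit 4) (nat_lit 10) (nat_lit 4) (nat_lit 394) (nat_lit 358) (nat_lit 268)))) (XT.nd (nat_lit 156) (nat_lit 152) (nat_lit 0) (XT.nd (nat_lit 78) (nat_lit 0) (nat_lit 0) (XT.lf (nat_lit 0) (nat_lit 327719280016) (nat_lit 76) (nat_lit 556397063618) (nat_lit 76) (nat_lit 499445112738) (nat_lit 9) (nat_lit 4) (nat_lit 10) (nat_lit 5) (nat_lit 10) (nat_lit 4) (nat_lit 395) (nat_lit 358) (nat_lit 267)) (XT.lf (nat_lit 0) (nat_lit 1116604305783) (nat_lit 76) (nat_lit 239618033620) (nat_lit 76) (nat_lit 182666060487) (nat_lit 9) (nat_lit 4) (nat_lit 10) (nat_lit 5) (nat_lit 10) (nat_lit 4) (nat_lit 396) (nat_lit 358) (nat_lit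 266))) (XT.nd (nat_lit 78) (nat_lit 0) (nat_lit 0) (XT.lf (nat_lit 0) (nat_lit 185208323555) (nat_lit 152) (nat_lit 1392530810966) (nat_lit 0) (nat_lit 135684851830) (nat_lit 7) (nat_lit 5) (nat_lit 9) (nat_lit 4) (nat_lit 7) (nat_lit 4) (nat_lit 397) (nat_lit 358) (nat_lit 265)) (XT.lf (nat_lit 0) (nat_lit 624097537995) (nat_lit 152) (nat_lit 708983283871) (nat_lit 0) (nat_lit 574574051638) (nat_lit 7) (nat_lit 5) (nat_lit 9) (nat_lit 4) (nat_lit 7) (nat_lit 4) (nat_lit 398) (nat_lit 358) (nat_lit 264))))) (XT.nd (nat_lit 234) (nat_lit 152) (nat_lit 0) (XT.nd (nat_lit 78) (nat_lit 0) (nat_lit 0) (XT.lf (nat_lit 0) (nat_lit 84630249360) (nat_lit 76) (nat_lit 1047694012203) (nat_lit 76) (nat_lit 998170513123) (nat_lit 6) (nat_lit 4) (nat_lit 7) (nat_lit 5) (nat_lit 7) (nat_lit 4) (nat_lit 399) (nat_lit 358) (nat_lit 263)) (XT.nd (nat_lit 78) (nat_lit 0) (nat_lit 0) (XT.lf (nat_lit 0) (nat_lit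 1076965395184) (nat_lit 76) (nat_lit 676879867805) (nat_lit 76) (nat_lit 627356357660) (nat_lit 6) (nat_lit 4) (nat_lit 7) (nat_lit 5) (nat_lit 7) (nat_lit 4) (nat_lit 400) (nat_lit 358) (nat_lit 262)) (XT.lf (nat_lit 0) (nat_lit 2218150403710) (nat_lit 76) (nat_lit 250443819163) (nat_lit 76) (nat_lit 200920299397) (nat_lit 6) (nat_lit 4) (nat_lit 7) (nat_lit 5) (nat_lit 7) (nat_lit 4) (nat_lit 401) (nat_lit 358) (nat_lit 261)))) (XT.nd (nat_lit 156) (nat_lit 76) (nat_lit 0) (XT.nd (nat_lit 78) (nat_lit 0) (nat_lit 0) (XT.lf (nat_lit 0) (nat_lit 298856857288) (nat_lit 76) (nat_lit 2439354466637) (nat_lit 0) (nat_lit 255792919782) (nat_lit 5) (nat_lit 5) (nat_lit 6) (nat_lit 4) (nat_lit 5) (nat_lit 4) (nat_lit 402) (nat_lit 358) (nat_lit 260)) (XT.lf (nat_lit 0) (nat_lit 889673456420) (nat_lit 76) (nat_lit 1623952817273) (nat_lit 0) (nat_lit 846609512589) (nat_lit 5) (nat_lit 5) (nat_lit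 6) (nat_lit 4) (nat_lit 5) (nat_lit 4) (nat_lit 403) (nat_lit 358) (nat_lit 259))) (XT.nd (nat_lit 78) (nat_lit 76) (nat_lit 0) (XT.lf (nat_lit 0) (nat_lit 1569112393705) (nat_lit 76) (nat_lit 686241244924) (nat_lit 0) (nat_lit 1526048444373) (nat_lit 5) (nat_lit 5) (nat_lit 6) (nat_lit 4) (nat_lit 5) (nat_lit 4) (nat_lit 404) (nat_lit 358) (nat_lit 258)) (XT.lf (nat_lit 0) (nat_lit 430448262059) (nat_lit 76) (nat_lit 1937842722194) (nat_lit 76) (nat_lit 1894778768078) (nat_lit 4) (nat_lit 4) (nat_lit 5) (nat_lit 5) (nat_lit 5) (nat_lit 4) (nat_lit 405) (nat_lit 358) (nat_lit 257))))))) (XT.nd (nat_lit 1014) (nat_lit 0) (nat_lit 0) (XT.nd (nat_lit 468) (nat_lit 76) (nat_lit 0) (XT.nd (nat_lit 234) (nat_lit 152) (nat_lit 0) (XT.nd (nat_lit 78) (nat_lit 0) (nat_lit 0) (XT.lf (nat_lit 0) (nat_lit 1791765083905) (nat_lit 76) (nat_lit 1531452855046) (nat_lit 76) (nat_lit 1488388896772) (nat_lit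 4) (nat_lit 4) (nat_lit 5) (nat_lit 5) (nat_lit 5) (nat_lit 4) (nat_lit 406) (nat_lit 358) (nat_lit 256)) (XT.nd (nat_lit 78) (nat_lit 0) (nat_lit 0) (XT.lf (nat_lit 0) (nat_lit 3357279194871) (nat_lit 76) (nat_lit 1064104632532) (nat_lit 76) (nat_lit 1021040670640) (nat_lit 4) (nat_lit 4) (nat_lit 5) (nat_lit 5) (nat_lit 5) (nat_lit 4) (nat_lit 407) (nat_lit 358) (nat_lit 255)) (XT.lf (nat_lit 0) (nat_lit 5157620218866) (nat_lit 76) (nat_lit 526654285079) (nat_lit 76) (nat_lit 483590320042) (nat_lit 4) (nat_lit 4) (nat_lit 5) (nat_lit 5) (nat_lit 5) (nat_lit 4) (nat_lit 408) (nat_lit 358) (nat_lit 254)))) (XT.nd (nat_lit 78) (nat_lit 0) (nat_lit 0) (XT.lf (nat_lit 0) (nat_lit 137047325668) (nat_lit 152) (nat_lit 6762456931457) (nat_lit 0) (nat_lit 99600397171) (nat_lit 2) (nat_lit 5) (nat_lit 4) (nat_lit 4) (nat_lit 2) (nat_lit 4) (nat_lit 409) (nat_lit 358) (nat_lit 253)) (XT.nd (nat_lit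 78) (nat_lit 0) (nat_lit 0) (XT.lf (nat_lit 0) (nat_lit 881671788405) (nat_lit 152) (nat_lit 6213619355181) (nat_lit 0) (nat_lit 844224857840) (nat_lit 2) (nat_lit 5) (nat_lit 4) (nat_lit 4) (nat_lit 2) (nat_lit 4) (nat_lit 410) (nat_lit 358) (nat_lit 252)) (XT.lf (nat_lit 0) (nat_lit 1737989845217) (nat_lit 152) (nat_lit 5582456303854) (nat_lit 0) (nat_lit 1700542912854) (nat_lit 2) (nat_lit 5) (nat_lit 4) (nat_lit 4) (nat_lit 2) (nat_lit 4) (nat_lit 411) (nat_lit 358) (nat_lit 251))))) (XT.nd (nat_lit 234) (nat_lit 76) (nat_lit 0) (XT.nd (nat_lit 78) (nat_lit 0) (nat_lit 0) (XT.lf (nat_lit 0) (nat_lit 2722755545043) (nat_lit 152) (nat_lit 4856618935166) (nat_lit 0) (nat_lit 2685308611116) (nat_lit 2) (nat_lit 5) (nat_lit 4) (nat_lit 4) (nat_lit 2) (nat_lit 4) (nat_lit 412) (nat_lit 358) (nat_lit 250)) (XT.nd (nat_lit 78) (nat_lit 0) (nat_lit 0) (XT.lf (nat_lit 0) (nat_lit 3855236042879)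 (nat_lit 152) (nat_lit 4021906083210) (nat_lit 0) (nat_lit 3817789107592) (nat_lit 2) (nat_lit 5) (nat_lit 4) (nat_lit 4) (nat_lit 2) (nat_lit 4) (nat_lit 413) (nat_lit 358) (nat_lit 249)) (XT.lf (nat_lit 0) (nat_lit 5157588565856) (nat_lit 152) (nat_lit 3061986409577) (nat_lit 0) (nat_lit 5120141629387) (nat_lit 2) (nat_lit 5) (nat_lit 4) (nat_lit 4) (nat_lit 2) (nat_lit 4) (nat_lit 414) (nat_lit 358) (nat_lit 248)))) (XT.nd (nat_lit 156) (nat_lit 76) (nat_lit 0) (XT.nd (nat_lit 78) (nat_lit 0) (nat_lit 0) (XT.lf (nat_lit 0) (nat_lit 6655293924207) (nat_lit 152) (nat_lit 1958078877174) (nat_lit 0) (nat_lit 6617846986710) (nat_lit 2) (nat_lit 5) (nat_lit 4) (nat_lit 4) (nat_lit 2) (nat_lit 4) (nat_lit 415) (nat_lit 358) (nat_lit 247)) (XT.lf (nat_lit 0) (nat_lit 8377655048856) (nat_lit 152) (nat_lit 688585295150) (nat_lit 0) (nat_lit 8340208110465) (nat_lit 2) (nat_lit 5) (nat_lit 4) (nat_lit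 4) (nat_lit 2) (nat_lit 4) (nat_lit 416) (nat_lit 358) (nat_lit 246))) (XT.nd (nat_lit 78) (nat_lit 0) (nat_lit 0) (XT.lf (nat_lit 0) (nat_lit 846712451993) (nat_lit 76) (nat_lit 9546718414657) (nat_lit 76) (nat_lit 9509271475489) (nat_lit 1) (nat_lit 4) (nat_lit 2) (nat_lit 5) (nat_lit 2) (nat_lit 4) (nat_lit 417) (nat_lit 358) (nat_lit 245)) (XT.lf (nat_lit 0) (nat_lit 2689692391982) (nat_lit 76) (nat_lit 10057874865392) (nat_lit 76) (nat_lit 10020427925547) (nat_lit 1) (nat_lit 4) (nat_lit 2) (nat_lit 5) (nat_lit 2) (nat_lit 4) (nat_lit 418) (nat_lit 358) (nat_lit 244)))))) (XT.nd (nat_lit 546) (nat_lit 0) (nat_lit 0) (XT.nd (nat_lit 234) (nat_lit 0) (nat_lit 0) (XT.nd (nat_lit 78) (nat_lit 0) (nat_lit 0) (XT.lf (nat_lit 0) (nat_lit 4809119265055) (nat_lit 76) (nat_lit 10645704814625) (nat_lit 76) (nat_lit 10608257874193) (nat_lit 1) (nat_lit 4) (nat_lit 2) (nat_lit 5) (nat_lit 2) (nat_lit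 4) (nat_lit 419) (nat_lit 358) (nat_lit 243)) (XT.nd (nat_lit 78) (nat_lit 0) (nat_lit 0) (XT.lf (nat_lit 0) (nat_lit 7246460118727) (nat_lit 76) (nat_lit 11321709283104) (nat_lit 76) (nat_lit 11284262342161) (nat_lit 1) (nat_lit 4) (nat_lit 2) (nat_lit 5) (nat_lit 2) (nat_lit 4) (nat_lit 420) (nat_lit 358) (nat_lit 242)) (XT.lf (nat_lit 0) (nat_lit 10049402056659) (nat_lit 76) (nat_lit 12099114445212) (nat_lit 76) (nat_lit 12061667503824) (nat_lit 1) (nat_lit 4) (nat_lit 2) (nat_lit 5) (nat_lit 2) (nat_lit 4) (nat_lit 421) (nat_lit 358) (nat_lit 241)))) (XT.nd (nat_lit 156) (nat_lit 0) (nat_lit 0) (XT.nd (nat_lit 78) (nat_lit 0) (nat_lit 0) (XT.lf (nat_lit 0) (nat_lit 13272785247202) (nat_lit 76) (nat_lit 12993130401946) (nat_lit 76) (nat_lit 12955683460172) (nat_lit 1) (nat_lit 4) (nat_lit 2) (nat_lit 5) (nat_lit 2) (nat_lit 4) (nat_lit 422) (nat_lit 358) (nat_lit 240)) (XT.lf (nat_lit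 0) (nat_lit 16979675883212) (nat_lit 76) (nat_lit 14021248769852) (nat_lit 76) (nat_lit 13983801827741) (nat_lit 1) (nat_lit 4) (nat_lit 2) (nat_lit 5) (nat_lit 2) (nat_lit 4) (nat_lit 423) (nat_lit 358) (nat_lit 239))) (XT.nd (nat_lit 78) (nat_lit 0) (nat_lit 0) (XT.lf (nat_lit 0) (nat_lit 21242600085830) (nat_lit 76) (nat_lit 15203584908301) (nat_lit 76) (nat_lit 15166137965898) (nat_lit 1) (nat_lit 4) (nat_lit 2) (nat_lit 5) (nat_lit 2) (nat_lit 4) (nat_lit 424) (nat_lit 358) (nat_lit 238)) (XT.lf (nat_lit 0) (nat_lit 26144962893803) (nat_lit 76) (nat_lit 16563271480871) (nat_lit 76) (nat_lit 16525824538214) (nat_lit 1) (nat_lit 4) (nat_lit 2) (nat_lit 5) (nat_lit 2) (nat_lit 4) (nat_lit 425) (nat_lit 358) (nat_lit 237))))) (XT.nd (nat_lit 234) (nat_lit 0) (nat_lit 0) (XT.nd (nat_lit 78) (nat_lit 0) (nat_lit 0) (XT.lf (nat_lit 0) (nat_lit 31782680101199) (nat_lit 76) (nat_lit 18126911050940)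 (nat_lit 76) (nat_lit 18089464108062) (nat_lit 1) (nat_lit 4) (nat_lit 2) (nat_lit 5) (nat_lit 2) (nat_lit 4) (nat_lit 426) (nat_lit 358) (nat_lit 236)) (XT.nd (nat_lit 78) (nat_lit 0) (nat_lit 0) (XT.lf (nat_lit 0) (nat_lit 38266054870773) (nat_lit 76) (nat_lit 19925096566617) (nat_lit 76) (nat_lit 19887649623547) (nat_lit 1) (nat_lit 4) (nat_lit 2) (nat_lit 5) (nat_lit 2) (nat_lit 4) (nat_lit 427) (nat_lit 358) (nat_lit 235)) (XT.lf (nat_lit 0) (nat_lit 45721935839319) (nat_lit 76) (nat_lit 21993009918426) (nat_lit 76) (nat_lit 21955562975189) (nat_lit 1) (nat_lit 4) (nat_lit 2) (nat_lit 5) (nat_lit 2) (nat_lit 4) (nat_lit 428) (nat_lit 358) (nat_lit 234)))) (XT.nd (nat_lit 156) (nat_lit 0) (nat_lit 0) (XT.nd (nat_lit 78) (nat_lit 0) (nat_lit 0) (XT.lf (nat_lit 0) (nat_lit 54296198938832) (nat_lit 76) (nat_lit 24371110280642) (nat_lit 76) (nat_lit 24333663337259) (nat_lit 1) (nat_lit 4)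 (nat_lit 2) (nat_lit 5) (nat_lit 2) (nat_lit 4) (nat_lit 429) (nat_lit 358) (nat_lit 233)) (XT.lf (nat_lit 0) (nat_lit 64156601490824) (nat_lit 76) (nat_lit 27105925703830) (nat_lit 76) (nat_lit 27068478760320) (nat_lit 1) (nat_lit 4) (nat_lit 2) (nat_lit 5) (nat_lit 2) (nat_lit 4) (nat_lit 430) (nat_lit 358) (nat_lit 232))) (XT.nd (nat_lit 78) (nat_lit 0) (nat_lit 0) (XT.lf (nat_lit 0) (nat_lit 75496064414790) (nat_lit 76) (nat_lit 30250963446268) (nat_lit 76) (nat_lit 30213516502650) (nat_lit 1) (nat_lit 4) (nat_lit 2) (nat_lit 5) (nat_lit 2) (nat_lit 4) (nat_lit 431) (nat_lit 358) (nat_lit 231)) (XT.lf (nat_lit 0) (nat_lit 88536446767937) (nat_lit 76) (nat_lit 33867756855094) (nat_lit 76) (nat_lit 33830309911380) (nat_lit 1) (nat_lit 4) (nat_lit 2) (nat_lit 5) (nat_lit 2) (nat_lit 4) (nat_lit 432) (nat_lit 358) (nat_lit 230))))))))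
noncomputable def xc78 : XT := (XT.nd (nat_lit 48672) (nat_lit 0) (nat_lit 380) (XT.nd (nat_lit 47658) (nat_lit 0) (nat_lit 2052) (XT.nd (nat_lit 468) (nat_lit 0) (nat_lit 0) (XT.nd (nat_lit 234) (nat_lit 0) (nat_lit 0) (XT.nd (nat_lit 78) (nat_lit 0) (nat_lit 0) (XT.lf (nat_lit 0) (nat_lit 103532886465872) (nat_lit 76) (nat_lit 38027069279609) (nat_lit 76) (nat_lit 37989622335812) (nat_lit 1) (nat_lit 4) (nat_lit 2) (nat_lit 5) (nat_lit 2) (nat_lit 4) (nat_lit 433) (nat_lit 358) (nat_lit 229)) (XT.nd (nat_lit 78) (nat_lit 0) (nat_lit 0) (XT.lf (nat_lit 0) (nat_lit 120778792111380) (nat_lit 76) (nat_lit 42810278571597) (nat_lit 76) (nat_lit 42772831627728) (nat_lit 1) (nat_lit 4) (nat_lit 2) (nat_lit 5) (nat_lit 2) (nat_lit 4) (nat_lit 434) (nat_lit 358) (nat_lit 228)) (XT.lf (nat_lit 0) (nat_lit 140611583597525) (nat_lit 76) (nat_lit 48310969260685) (nat_lit 76) (nat_lit 48273522316753)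 (nat_lit 1) (nat_lit 4) (nat_lit 2) (nat_lit 5) (nat_lit 2) (nat_lit 4) (nat_lit 435) (nat_lit 358) (nat_lit 227)))) (XT.nd (nat_lit 78) (nat_lit 0) (nat_lit 0) (XT.lf (nat_lit 0) (nat_lit 163419293801210) (nat_lit 76) (nat_lit 54636763556006) (nat_lit 76) (nat_lit 54599316612019) (nat_lit 1) (nat_lit 4) (nat_lit 2) (nat_lit 5) (nat_lit 2) (nat_lit 4) (nat_lit 436) (nat_lit 358) (nat_lit 226)) (XT.nd (nat_lit 78) (nat_lit 0) (nat_lit 0) (XT.lf (nat_lit 0) (nat_lit 189648160530767) (nat_lit 76) (nat_lit 61911426998121) (nat_lit 76) (nat_lit 61873980054087) (nat_lit 1) (nat_lit 4) (nat_lit 2) (nat_lit 5) (nat_lit 2) (nat_lit 4) (nat_lit 437) (nat_lit 358) (nat_lit 225)) (XT.lf (nat_lit 0) (nat_lit 219811357265689) (nat_lit 76) (nat_lit 70277289958725) (nat_lit 76) (nat_lit 70239843014648) (nat_lit 1) (nat_lit 4) (nat_lit 2) (nat_lit 5) (nat_lit 2) (nat_lit 4) (nat_lit 438) (nat_lit 358) (nat_lit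 224))))) (XT.nd (nat_lit 46878) (nat_lit 0) (nat_lit 3116) (XT.nd (nat_lit 78) (nat_lit 0) (nat_lit 0) (XT.lf (nat_lit 0) (nat_lit 254499033507310) (nat_lit 76) (nat_lit 79898032365305) (nat_lit 76) (nat_lit 79860585421194) (nat_lit 1) (nat_lit 4) (nat_lit 2) (nat_lit 5) (nat_lit 2) (nat_lit 4) (nat_lit 439) (nat_lit 358) (nat_lit 223)) (XT.nd (nat_lit 78) (nat_lit 0) (nat_lit 0) (XT.lf (nat_lit 0) (nat_lit 294389861182099) (nat_lit 76) (nat_lit 90961886134514) (nat_lit 76) (nat_lit 90924439190371) (nat_lit 1) (nat_lit 4) (nat_lit 2) (nat_lit 5) (nat_lit 2) (nat_lit 4) (nat_lit 440) (nat_lit 358) (nat_lit 222)) (XT.lf (nat_lit 0) (nat_lit 340264313005429) (nat_lit 76) (nat_lit 103685317970532) (nat_lit 76) (nat_lit 103647871026362) (nat_lit 1) (nat_lit 4) (nat_lit 2) (nat_lit 5) (nat_lit 2) (nat_lit 4) (nat_lit 441) (nat_lit 358) (nat_lit 221)))) (XT.nd (nat_lit 156) (nat_lit 0) (nat_lit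 76) (XT.nd (nat_lit 78) (nat_lit 0) (nat_lit 0) (XT.lf (nat_lit 0) (nat_lit 8534785269) (nat_lit 380) (nat_lit 10148935552) (nat_lit 380) (nat_lit 10148935552) (nat_lit 42) (nat_lit 3) (nat_lit 47) (nat_lit 3) (nat_lit 47) (nat_lit 5) (nat_lit 359) (nat_lit 359) (nat_lit 302)) (XT.lf (nat_lit 76) (nat_lit 9235749781) (nat_lit 0) (nat_lit 9514722877) (nat_lit 380) (nat_lit 43179631600) (nat_lit 43) (nat_lit 5) (nat_lit 42) (nat_lit 3) (nat_lit 47) (nat_lit 5) (nat_lit 360) (nat_lit 359) (nat_lit 301))) (XT.nd (nat_lit 78) (nat_lit 0) (nat_lit 0) (XT.lf (nat_lit 0) (nat_lit 22724114141) (nat_lit 304) (nat_lit 22180309327) (nat_lit 380) (nat_lit 21624101185) (nat_lit 43) (nat_lit 5) (nat_lit 47) (nat_lit 5) (nat_lit 48) (nat_lit 5) (nat_lit 361) (nat_lit 359) (nat_lit 300)) (XT.lf (nat_lit 76) (nat_lit 13672736203) (nat_lit 0) (nat_lit 14637452971) (nat_lit 380) (nat_lit 43354061500) (nat_lit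 44) (nat_lit 5) (nat_lit 43) (nat_lit 5) (nat_lit 48) (nat_lit 5) (nat_lit 362) (nat_lit 359) (nat_lit 299)))))) (XT.nd (nat_lit 468) (nat_lit 532) (nat_lit 0) (XT.nd (nat_lit 234) (nat_lit 380) (nat_lit 0) (XT.nd (nat_lit 78) (nat_lit 304) (nat_lit 0) (XT.lf (nat_lit 0) (nat_lit 36781436022) (nat_lit 304) (nat_lit 20892874253) (nat_lit 76) (nat_lit 19588936818) (nat_lit 44) (nat_lit 5) (nat_lit 48) (nat_lit 5) (nat_lit 45) (nat_lit 5) (nat_lit 363) (nat_lit 359) (nat_lit 298)) (XT.nd (nat_lit 78) (nat_lit 0) (nat_lit 0) (XT.lf (nat_lit 0) (nat_lit 23130550703) (nat_lit 304) (nat_lit 25045406652) (nat_lit 380) (nat_lit 35278248002) (nat_lit 40) (nat_lit 5) (nat_lit 44) (nat_lit 5) (nat_lit 45) (nat_lit 5) (nat_lit 364) (nat_lit 359) (nat_lit 297)) (XT.lf (nat_lit 0) (nat_lit 62938446937) (nat_lit 380) (nat_lit 14875539826) (nat_lit 76) (nat_lit 12511002529) (nat_lit 40) (nat_lit 5) (nat_lit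 45) (nat_lit 5) (nat_lit 41) (nat_lit 5) (nat_lit 365) (nat_lit 359) (nat_lit 296)))) (XT.nd (nat_lit 78) (nat_lit 228) (nat_lit 0) (XT.lf (nat_lit 0) (nat_lit 39732284681) (nat_lit 152) (nat_lit 43019132886) (nat_lit 228) (nat_lit 15049557488) (nat_lit 38) (nat_lit 5) (nat_lit 40) (nat_lit 5) (nat_lit 41) (nat_lit 5) (nat_lit 366) (nat_lit 359) (nat_lit 295)) (XT.nd (nat_lit 78) (nat_lit 152) (nat_lit 0) (XT.lf (nat_lit 0) (nat_lit 27640378) (nat_lit 228) (nat_lit 2082144905) (nat_lit 76) (nat_lit 104171989603) (nat_lit 37) (nat_lit 5) (nat_lit 40) (nat_lit 5) (nat_lit 38) (nat_lit 5) (nat_lit 367) (nat_lit 359) (nat_lit 294)) (XT.lf (nat_lit 0) (nat_lit 20651534013) (nat_lit 228) (nat_lit 49933377378) (nat_lit 76) (nat_lit 44618401092) (nat_lit 35) (nat_lit 5) (nat_lit 38) (nat_lit 5) (nat_lit 36) (nat_lit 5) (nat_lit 368) (nat_lit 359) (nat_lit 293))))) (XT.nd (nat_lit 234) (nat_lit 304)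 (nat_lit 0) (XT.nd (nat_lit 78) (nat_lit 76) (nat_lit 0) (XT.lf (nat_lit 0) (nat_lit 19105320988) (nat_lit 152) (nat_lit 26267916920) (nat_lit 228) (nat_lit 79939209096) (nat_lit 33) (nat_lit 5) (nat_lit 35) (nat_lit 5) (nat_lit 36) (nat_lit 5) (nat_lit 369) (nat_lit 359) (nat_lit 292)) (XT.nd (nat_lit 78) (nat_lit 76) (nat_lit 0) (XT.lf (nat_lit 0) (nat_lit 77558980330) (nat_lit 228) (nat_lit 33583770710) (nat_lit 76) (nat_lit 25231833413) (nat_lit 33) (nat_lit 5) (nat_lit 36) (nat_lit 5) (nat_lit 34) (nat_lit 4) (nat_lit 370) (nat_lit 359) (nat_lit 291)) (XT.lf (nat_lit 0) (nat_lit 53437841582) (nat_lit 76) (nat_lit 64597213598) (nat_lit 152) (nat_lit 30541616843) (nat_lit 32) (nat_lit 5) (nat_lit 33) (nat_lit 5) (nat_lit 34) (nat_lit 4) (nat_lit 371) (nat_lit 359) (nat_lit 290)))) (XT.nd (nat_lit 156) (nat_lit 76) (nat_lit 0) (XT.nd (nat_lit 78) (nat_lit 152) (nat_lit 0) (XT.lf (nat_lit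 0) (nat_lit 3635784674) (nat_lit 152) (nat_lit 5225830410) (nat_lit 76) (nat_lit 153459499007) (nat_lit 31) (nat_lit 5) (nat_lit 33) (nat_lit 5) (nat_lit 32) (nat_lit 5) (nat_lit 372) (nat_lit 359) (nat_lit 289)) (XT.lf (nat_lit 0) (nat_lit 46773949237) (nat_lit 228) (nat_lit 73645309115) (nat_lit 76) (nat_lit 56445654924) (nat_lit 29) (nat_lit 5) (nat_lit 32) (nat_lit 5) (nat_lit 30) (nat_lit 4) (nat_lit 373) (nat_lit 359) (nat_lit 288))) (XT.nd (nat_lit 78) (nat_lit 0) (nat_lit 0) (XT.lf (nat_lit 0) (nat_lit 37908084823) (nat_lit 76) (nat_lit 60751682124) (nat_lit 152) (nat_lit 94588976215) (nat_lit 28) (nat_lit 5) (nat_lit 29) (nat_lit 5) (nat_lit 30) (nat_lit 4) (nat_lit 374) (nat_lit 359) (nat_lit 287)) (XT.lf (nat_lit 0) (nat_lit 162686235496) (nat_lit 152) (nat_lit 37552168965) (nat_lit 0) (nat_lit 11198076425) (nat_lit 28) (nat_lit 5) (nat_lit 30) (nat_lit 4) (nat_lit 28) (nat_lit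 4) (nat_lit 375) (nat_lit 359) (nat_lit 286))))))) (XT.nd (nat_lit 1014) (nat_lit 760) (nat_lit 0) (XT.nd (nat_lit 468) (nat_lit 456) (nat_lit 0) (XT.nd (nat_lit 234) (nat_lit 228) (nat_lit 0) (XT.nd (nat_lit 78) (nat_lit 76) (nat_lit 0) (XT.lf (nat_lit 0) (nat_lit 11165543266) (nat_lit 152) (nat_lit 127482973613) (nat_lit 76) (nat_lit 92546112926) (nat_lit 26) (nat_lit 5) (nat_lit 28) (nat_lit 5) (nat_lit 27) (nat_lit 4) (nat_lit 376) (nat_lit 359) (nat_lit 285)) (XT.nd (nat_lit 78) (nat_lit 0) (nat_lit 0) (XT.lf (nat_lit 0) (nat_lit 15749080182) (nat_lit 76) (nat_lit 62036319273) (nat_lit 152) (nat_lit 175376716253) (nat_lit 25) (nat_lit 5) (nat_lit 26) (nat_lit 5) (nat_lit 27) (nat_lit 4) (nat_lit 377) (nat_lit 359) (nat_lit 284)) (XT.lf (nat_lit 0) (nat_lit 162458100295) (nat_lit 152) (nat_lit 84030050604) (nat_lit 0) (nat_lit 30727593711) (nat_lit 25) (nat_lit 5) (nat_lit 27) (nat_lit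 4) (nat_lit 25) (nat_lit 4) (nat_lit 378) (nat_lit 359) (nat_lit 283)))) (XT.nd (nat_lit 78) (nat_lit 152) (nat_lit 0) (XT.lf (nat_lit 0) (nat_lit 98142306734) (nat_lit 76) (nat_lit 168706719309) (nat_lit 76) (nat_lit 36975793879) (nat_lit 24) (nat_lit 4) (nat_lit 25) (nat_lit 5) (nat_lit 25) (nat_lit 4) (nat_lit 379) (nat_lit 359) (nat_lit 282)) (XT.nd (nat_lit 78) (nat_lit 76) (nat_lit 0) (XT.lf (nat_lit 0) (nat_lit 52402791955) (nat_lit 152) (nat_lit 19065286939) (nat_lit 76) (nat_lit 261941106802) (nat_lit 23) (nat_lit 5) (nat_lit 25) (nat_lit 5) (nat_lit 24) (nat_lit 4) (nat_lit 380) (nat_lit 359) (nat_lit 281)) (XT.lf (nat_lit 0) (nat_lit 162384623706) (nat_lit 152) (nat_lit 155299757799) (nat_lit 0) (nat_lit 47835400791) (nat_lit 22) (nat_lit 5) (nat_lit 24) (nat_lit 4) (nat_lit 22) (nat_lit 4) (nat_lit 381) (nat_lit 359) (nat_lit 280))))) (XT.nd (nat_lit 234) (nat_lit 228) (nat_lit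 0) (XT.nd (nat_lit 78) (nat_lit 152) (nat_lit 0) (XT.lf (nat_lit 0) (nat_lit 77160912332) (nat_lit 76) (nat_lit 219344623791) (nat_lit 76) (nat_lit 104795161399) (nat_lit 21) (nat_lit 4) (nat_lit 22) (nat_lit 5) (nat_lit 22) (nat_lit 4) (nat_lit 382) (nat_lit 359) (nat_lit 279)) (XT.nd (nat_lit 78) (nat_lit 76) (nat_lit 0) (XT.lf (nat_lit 0) (nat_lit 16061240255) (nat_lit 152) (nat_lit 80018004083) (nat_lit 76) (nat_lit 345042385157) (nat_lit 20) (nat_lit 5) (nat_lit 22) (nat_lit 5) (nat_lit 21) (nat_lit 4) (nat_lit 383) (nat_lit 359) (nat_lit 278)) (XT.lf (nat_lit 0) (nat_lit 155766061834) (nat_lit 152) (nat_lit 272526259233) (nat_lit 0) (nat_lit 56157495129) (nat_lit 19) (nat_lit 5) (nat_lit 21) (nat_lit 4) (nat_lit 19) (nat_lit 4) (nat_lit 384) (nat_lit 359) (nat_lit 277)))) (XT.nd (nat_lit 156) (nat_lit 152) (nat_lit 0) (XT.nd (nat_lit 78) (nat_lit 0) (nat_lit 0) (XT.lf (nat_lit 0) (nat_lit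 20005098701) (nat_lit 76) (nat_lit 306206540481) (nat_lit 76) (nat_lit 206597836854) (nat_lit 18) (nat_lit 4) (nat_lit 19) (nat_lit 5) (nat_lit 19) (nat_lit 4) (nat_lit 385) (nat_lit 359) (nat_lit 276)) (XT.lf (nat_lit 0) (nat_lit 387043460084) (nat_lit 76) (nat_lit 149425830895) (nat_lit 76) (nat_lit 49817008206) (nat_lit 18) (nat_lit 4) (nat_lit 19) (nat_lit 5) (nat_lit 19) (nat_lit 4) (nat_lit 386) (nat_lit 359) (nat_lit 275))) (XT.nd (nat_lit 78) (nat_lit 0) (nat_lit 0) (XT.lf (nat_lit 0) (nat_lit 127825973081) (nat_lit 152) (nat_lit 476594514938) (nat_lit 0) (nat_lit 41209515498) (nat_lit 16) (nat_lit 5) (nat_lit 18) (nat_lit 4) (nat_lit 16) (nat_lit 4) (nat_lit 387) (nat_lit 359) (nat_lit 274)) (XT.lf (nat_lit 0) (nat_lit 345041111881) (nat_lit 152) (nat_lit 107349836379) (nat_lit 0) (nat_lit 258424576012) (nat_lit 16) (nat_lit 5) (nat_lit 18) (nat_lit 4) (nat_lit 16) (nat_lit 4) (nat_lit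 388) (nat_lit 359) (nat_lit 273)))))) (XT.nd (nat_lit 546) (nat_lit 304) (nat_lit 0) (XT.nd (nat_lit 234) (nat_lit 228) (nat_lit 0) (XT.nd (nat_lit 78) (nat_lit 152) (nat_lit 0) (XT.lf (nat_lit 0) (nat_lit 348287786451) (nat_lit 76) (nat_lit 260972232976) (nat_lit 76) (nat_lit 174355629032) (nat_lit 15) (nat_lit 4) (nat_lit 16) (nat_lit 5) (nat_lit 16) (nat_lit 4) (nat_lit 389) (nat_lit 359) (nat_lit 272)) (XT.nd (nat_lit 78) (nat_lit 0) (nat_lit 0) (XT.lf (nat_lit 0) (nat_lit 17210382994) (nat_lit 76) (nat_lit 31081266369) (nat_lit 152) (nat_lit 817771173445) (nat_lit 13) (nat_lit 5) (nat_lit 14) (nat_lit 5) (nat_lit 15) (nat_lit 4) (nat_lit 390) (nat_lit 359) (nat_lit 271)) (XT.lf (nat_lit 0) (nat_lit 319984532808) (nat_lit 152) (nat_lit 389956611322) (nat_lit 0) (nat_lit 244665650537) (nat_lit 13) (nat_lit 5) (nat_lit 15) (nat_lit 4) (nat_lit 13) (nat_lit 4) (nat_lit 391) (nat_lit 359)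 (nat_lit 270)))) (XT.nd (nat_lit 156) (nat_lit 152) (nat_lit 0) (XT.nd (nat_lit 78) (nat_lit 0) (nat_lit 0) (XT.lf (nat_lit 0) (nat_lit 149612413079) (nat_lit 76) (nat_lit 490493818966) (nat_lit 76) (nat_lit 415174897773) (nat_lit 12) (nat_lit 4) (nat_lit 13) (nat_lit 5) (nat_lit 13) (nat_lit 4) (nat_lit 392) (nat_lit 359) (nat_lit 269)) (XT.lf (nat_lit 0) (nat_lit 813941976535) (nat_lit 76) (nat_lit 214688011718) (nat_lit 76) (nat_lit 139369056680) (nat_lit 12) (nat_lit 4) (nat_lit 13) (nat_lit 5) (nat_lit 13) (nat_lit 4) (nat_lit 393) (nat_lit 359) (nat_lit 268))) (XT.nd (nat_lit 78) (nat_lit 0) (nat_lit 0) (XT.lf (nat_lit 0) (nat_lit 179568967709) (nat_lit 152) (nat_lit 1000238439399) (nat_lit 0) (nat_lit 114074198606) (nat_lit 10) (nat_lit 5) (nat_lit 12) (nat_lit 4) (nat_lit 10) (nat_lit 4) (nat_lit 394) (nat_lit 359) (nat_lit 267)) (XT.lf (nat_lit 0) (nat_lit 561690770469) (nat_lit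 152) (nat_lit 375322536050) (nat_lit 0) (nat_lit 496195979112) (nat_lit 10) (nat_lit 5) (nat_lit 12) (nat_lit 4) (nat_lit 10) (nat_lit 4) (nat_lit 395) (nat_lit 359) (nat_lit 266))))) (XT.nd (nat_lit 234) (nat_lit 76) (nat_lit 0) (XT.nd (nat_lit 78) (nat_lit 152) (nat_lit 0) (XT.lf (nat_lit 0) (nat_lit 376882990535) (nat_lit 76) (nat_lit 639853542176) (nat_lit 76) (nat_lit 574358731468) (nat_lit 9) (nat_lit 4) (nat_lit 10) (nat_lit 5) (nat_lit 10) (nat_lit 4) (nat_lit 396) (nat_lit 359) (nat_lit 265)) (XT.nd (nat_lit 78) (nat_lit 152) (nat_lit 0) (XT.lf (nat_lit 0) (nat_lit 1284100011229) (nat_lit 76) (nat_lit 275558059546) (nat_lit 76) (nat_lit 210063232012) (nat_lit 9) (nat_lit 4) (nat_lit 10) (nat_lit 5) (nat_lit 10) (nat_lit 4) (nat_lit 397) (nat_lit 359) (nat_lit 264)) (XT.lf (nat_lit 0) (nat_lit 212992061398) (nat_lit 152) (nat_lit 1601405124764) (nat_lit 0) (nat_lit 156040024732)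 (nat_lit 7) (nat_lit 5) (nat_lit 9) (nat_lit 4) (nat_lit 7) (nat_lit 4) (nat_lit 398) (nat_lit 359) (nat_lit 263)))) (XT.nd (nat_lit 156) (nat_lit 0) (nat_lit 0) (XT.nd (nat_lit 78) (nat_lit 76) (nat_lit 0) (XT.lf (nat_lit 0) (nat_lit 717714333311) (nat_lit 152) (nat_lit 815326160933) (nat_lit 0) (nat_lit 660762285581) (nat_lit 7) (nat_lit 5) (nat_lit 9) (nat_lit 4) (nat_lit 7) (nat_lit 4) (nat_lit 399) (nat_lit 359) (nat_lit 262)) (XT.lf (nat_lit 0) (nat_lit 97329192486) (nat_lit 76) (nat_lit 1204845773019) (nat_lit 76) (nat_lit 1147893715668) (nat_lit 6) (nat_lit 4) (nat_lit 7) (nat_lit 5) (nat_lit 7) (nat_lit 4) (nat_lit 400) (nat_lit 359) (nat_lit 261))) (XT.nd (nat_lit 78) (nat_lit 0) (nat_lit 0) (XT.lf (nat_lit 0) (nat_lit 1238514035524) (nat_lit 76) (nat_lit 778409812310) (nat_lit 76) (nat_lit 721457746593) (nat_lit 6) (nat_lit 4) (nat_lit 7) (nat_lit 5) (nat_lit 7) (nat_lit 4) (nat_lit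 401) (nat_lit 359) (nat_lit 260)) (XT.lf (nat_lit 0) (nat_lit 2550876295626) (nat_lit 76) (nat_lit 288008621893) (nat_lit 76) (nat_lit 231056548901) (nat_lit 6) (nat_lit 4) (nat_lit 7) (nat_lit 5) (nat_lit 7) (nat_lit 4) (nat_lit 402) (nat_lit 359) (nat_lit 259))))))))
noncomputable def xc79 : XT := (XT.nd (nat_lit 2106) (nat_lit 0) (nat_lit 0) (XT.nd (nat_lit 1014) (nat_lit 76) (nat_lit 0) (XT.nd (nat_lit 468) (nat_lit 152) (nat_lit 0) (XT.nd (nat_lit 234) (nat_lit 76) (nat_lit 0) (XT.nd (nat_lit 78) (nat_lit 0) (nat_lit 0) (XT.lf (nat_lit 0) (nat_lit 343687019491) (nat_lit 76) (nat_lit 2805254143466) (nat_lit 0) (nat_lit 294163472258) (nat_lit 5) (nat_lit 5) (nat_lit 6) (nat_lit 4) (nat_lit 5) (nat_lit 4) (nat_lit 403) (nat_lit 359) (nat_lit 258)) (XT.nd (nat_lit 78) (nat_lit 0) (nat_lit 0) (XT.lf (nat_lit 0) (nat_lit 1023125895414) (nat_lit 76) (nat_lit 1867542702328) (nat_lit 0) (nat_lit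 973602343398) (nat_lit 5) (nat_lit 5) (nat_lit 6) (nat_lit 4) (nat_lit 5) (nat_lit 4) (nat_lit 404) (nat_lit 359) (nat_lit 257)) (XT.lf (nat_lit 0) (nat_lit 1804480488005) (nat_lit 76) (nat_lit 789174790327) (nat_lit 0) (nat_lit 1754956931830) (nat_lit 5) (nat_lit 5) (nat_lit 6) (nat_lit 4) (nat_lit 5) (nat_lit 4) (nat_lit 405) (nat_lit 359) (nat_lit 256)))) (XT.nd (nat_lit 78) (nat_lit 0) (nat_lit 0) (XT.lf (nat_lit 0) (nat_lit 495018022643) (nat_lit 76) (nat_lit 2228517787774) (nat_lit 76) (nat_lit 2178994227981) (nat_lit 4) (nat_lit 4) (nat_lit 5) (nat_lit 5) (nat_lit 5) (nat_lit 4) (nat_lit 406) (nat_lit 359) (nat_lit 255)) (XT.nd (nat_lit 78) (nat_lit 0) (nat_lit 0) (XT.lf (nat_lit 0) (nat_lit 2060532038904) (nat_lit 76) (nat_lit 1761169615696) (nat_lit 76) (nat_lit 1711646052758) (nat_lit 4) (nat_lit 4) (nat_lit 5) (nat_lit 5) (nat_lit 5) (nat_lit 4) (nat_lit 407) (nat_lit 359) (nat_lit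 254)) (XT.lf (nat_lit 0) (nat_lit 3860872980548) (nat_lit 76) (nat_lit 1223719312100) (nat_lit 76) (nat_lit 1174195746428) (nat_lit 4) (nat_lit 4) (nat_lit 5) (nat_lit 5) (nat_lit 5) (nat_lit 4) (nat_lit 408) (nat_lit 359) (nat_lit 253))))) (XT.nd (nat_lit 234) (nat_lit 0) (nat_lit 0) (XT.nd (nat_lit 78) (nat_lit 152) (nat_lit 0) (XT.lf (nat_lit 0) (nat_lit 5931264909476) (nat_lit 76) (nat_lit 605651544961) (nat_lit 76) (nat_lit 556127976911) (nat_lit 4) (nat_lit 4) (nat_lit 5) (nat_lit 5) (nat_lit 5) (nat_lit 4) (nat_lit 409) (nat_lit 359) (nat_lit 252)) (XT.nd (nat_lit 78) (nat_lit 0) (nat_lit 0) (XT.lf (nat_lit 0) (nat_lit 157605235681) (nat_lit 152) (nat_lit 7776823733418) (nat_lit 0) (nat_lit 114541261666) (nat_lit 2) (nat_lit 5) (nat_lit 4) (nat_lit 4) (nat_lit 2) (nat_lit 4) (nat_lit 410) (nat_lit 359) (nat_lit 251)) (XT.lf (nat_lit 0) (nat_lit 1013923262025) (nat_lit 152) (nat_lit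 7145660747364) (nat_lit 0) (nat_lit 970859286445) (nat_lit 2) (nat_lit 5) (nat_lit 4) (nat_lit 4) (nat_lit 2) (nat_lit 4) (nat_lit 411) (nat_lit 359) (nat_lit 250)))) (XT.nd (nat_lit 156) (nat_lit 0) (nat_lit 0) (XT.nd (nat_lit 78) (nat_lit 0) (nat_lit 0) (XT.lf (nat_lit 0) (nat_lit 1998688935356) (nat_lit 152) (nat_lit 6419823435437) (nat_lit 0) (nat_lit 1955624958416) (nat_lit 2) (nat_lit 5) (nat_lit 4) (nat_lit 4) (nat_lit 2) (nat_lit 4) (nat_lit 412) (nat_lit 359) (nat_lit 249)) (XT.lf (nat_lit 0) (nat_lit 3131169410152) (nat_lit 152) (nat_lit 5585110632837) (nat_lit 0) (nat_lit 3088105432031) (nat_lit 2) (nat_lit 5) (nat_lit 4) (nat_lit 4) (nat_lit 2) (nat_lit 4) (nat_lit 413) (nat_lit 359) (nat_lit 248))) (XT.nd (nat_lit 78) (nat_lit 0) (nat_lit 0) (XT.lf (nat_lit 0) (nat_lit 4433521913096) (nat_lit 152) (nat_lit 4625191002123) (nat_lit 0) (nat_lit 4390457933946) (nat_lit 2) (nat_lit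 5) (nat_lit 4) (nat_lit 4) (nat_lit 2) (nat_lit 4) (nat_lit 414) (nat_lit 359) (nat_lit 247)) (XT.lf (nat_lit 0) (nat_lit 5931227254026) (nat_lit 152) (nat_lit 3521283507041) (nat_lit 0) (nat_lit 5888163273982) (nat_lit 2) (nat_lit 5) (nat_lit 4) (nat_lit 4) (nat_lit 2) (nat_lit 4) (nat_lit 415) (nat_lit 359) (nat_lit 246)))))) (XT.nd (nat_lit 546) (nat_lit 0) (nat_lit 0) (XT.nd (nat_lit 234) (nat_lit 0) (nat_lit 0) (XT.nd (nat_lit 78) (nat_lit 76) (nat_lit 0) (XT.lf (nat_lit 0) (nat_lit 7653588363526) (nat_lit 152) (nat_lit 2251789957469) (nat_lit 0) (nat_lit 7610524382705) (nat_lit 2) (nat_lit 5) (nat_lit 4) (nat_lit 4) (nat_lit 2) (nat_lit 4) (nat_lit 416) (nat_lit 359) (nat_lit 245)) (XT.nd (nat_lit 78) (nat_lit 76) (nat_lit 0) (XT.lf (nat_lit 0) (nat_lit 9634303611130) (nat_lit 152) (nat_lit 791872436135) (nat_lit 0) (nat_lit 9591239629633) (nat_lit 2) (nat_lit 5) (nat_lit 4) (nat_lit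 4) (nat_lit 2) (nat_lit 4) (nat_lit 417) (nat_lit 359) (nat_lit 244)) (XT.lf (nat_lit 0) (nat_lit 973719943385) (nat_lit 76) (nat_lit 10978725844256) (nat_lit 76) (nat_lit 10935661862171) (nat_lit 1) (nat_lit 4) (nat_lit 2) (nat_lit 5) (nat_lit 2) (nat_lit 4) (nat_lit 418) (nat_lit 359) (nat_lit 243)))) (XT.nd (nat_lit 156) (nat_lit 0) (nat_lit 0) (XT.nd (nat_lit 78) (nat_lit 0) (nat_lit 0) (XT.lf (nat_lit 0) (nat_lit 3093146793034) (nat_lit 76) (nat_lit 11566555805983) (nat_lit 76) (nat_lit 11523491823386) (nat_lit 1) (nat_lit 4) (nat_lit 2) (nat_lit 5) (nat_lit 2) (nat_lit 4) (nat_lit 419) (nat_lit 359) (nat_lit 242)) (XT.lf (nat_lit 0) (nat_lit 5530487626338) (nat_lit 76) (nat_lit 12242560285325) (nat_lit 76) (nat_lit 12199496302285) (nat_lit 1) (nat_lit 4) (nat_lit 2) (nat_lit 5) (nat_lit 2) (nat_lit 4) (nat_lit 420) (nat_lit 359) (nat_lit 241))) (XT.nd (nat_lit 78) (nat_lit 0) (nat_lit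 0) (XT.lf (nat_lit 0) (nat_lit 8333429546559) (nat_lit 76) (nat_lit 13019965456880) (nat_lit 76) (nat_lit 12976901473453) (nat_lit 1) (nat_lit 4) (nat_lit 2) (nat_lit 5) (nat_lit 2) (nat_lit 4) (nat_lit 421) (nat_lit 359) (nat_lit 240)) (XT.lf (nat_lit 0) (nat_lit 11556812721700) (nat_lit 76) (nat_lit 13913981421829) (nat_lit 76) (nat_lit 13870917438065) (nat_lit 1) (nat_lit 4) (nat_lit 2) (nat_lit 5) (nat_lit 2) (nat_lit 4) (nat_lit 422) (nat_lit 359) (nat_lit 239))))) (XT.nd (nat_lit 234) (nat_lit 0) (nat_lit 0) (XT.nd (nat_lit 78) (nat_lit 0) (nat_lit 0) (XT.lf (nat_lit 0) (nat_lit 15263703344318) (nat_lit 76) (nat_lit 14942099796877) (nat_lit 76) (nat_lit 14899035812822) (nat_lit 1) (nat_lit 4) (nat_lit 2) (nat_lit 5) (nat_lit 2) (nat_lit 4) (nat_lit 423) (nat_lit 359) (nat_lit 238)) (XT.nd (nat_lit 78) (nat_lit 0) (nat_lit 0) (XT.lf (nat_lit 0) (nat_lit 19526627535290) (nat_lit 76)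 (nat_lit 16124435941537) (nat_lit 76) (nat_lit 16081371957228) (nat_lit 1) (nat_lit 4) (nat_lit 2) (nat_lit 5) (nat_lit 2) (nat_lit 4) (nat_lit 424) (nat_lit 359) (nat_lit 237)) (XT.lf (nat_lit 0) (nat_lit 24428990333136) (nat_lit 76) (nat_lit 17484122519509) (nat_lit 76) (nat_lit 17441058534978) (nat_lit 1) (nat_lit 4) (nat_lit 2) (nat_lit 5) (nat_lit 2) (nat_lit 4) (nat_lit 425) (nat_lit 359) (nat_lit 236)))) (XT.nd (nat_lit 156) (nat_lit 0) (nat_lit 0) (XT.nd (nat_lit 78) (nat_lit 0) (nat_lit 0) (XT.lf (nat_lit 0) (nat_lit 30066707531727) (nat_lit 76) (nat_lit 19047762094274) (nat_lit 76) (nat_lit 19004698109552) (nat_lit 1) (nat_lit 4) (nat_lit 2) (nat_lit 5) (nat_lit 2) (nat_lit 4) (nat_lit 426) (nat_lit 359) (nat_lit 235)) (XT.lf (nat_lit 0) (nat_lit 36550082293643) (nat_lit 76) (nat_lit 20845947614035) (nat_lit 76) (nat_lit 20802883629146) (nat_lit 1) (nat_lit 4) (nat_lit 2) (nat_lit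 5) (nat_lit 2) (nat_lit 4) (nat_lit 427) (nat_lit 359) (nat_lit 234))) (XT.nd (nat_lit 78) (nat_lit 0) (nat_lit 0) (XT.lf (nat_lit 0) (nat_lit 44005963255531) (nat_lit 76) (nat_lit 22913860969396) (nat_lit 76) (nat_lit 22870796984361) (nat_lit 1) (nat_lit 4) (nat_lit 2) (nat_lit 5) (nat_lit 2) (nat_lit 4) (nat_lit 428) (nat_lit 359) (nat_lit 233)) (XT.lf (nat_lit 0) (nat_lit 52580226349254) (nat_lit 76) (nat_lit 25291961334700) (nat_lit 76) (nat_lit 25248897349538) (nat_lit 1) (nat_lit 4) (nat_lit 2) (nat_lit 5) (nat_lit 2) (nat_lit 4) (nat_lit 429) (nat_lit 359) (nat_lit 232))))))) (XT.nd (nat_lit 47814) (nat_lit 0) (nat_lit 2052) (XT.nd (nat_lit 468) (nat_lit 0) (nat_lit 0) (XT.nd (nat_lit 234) (nat_lit 0) (nat_lit 0) (XT.nd (nat_lit 78) (nat_lit 0) (nat_lit 0) (XT.lf (nat_lit 0) (nat_lit 62440628896211) (nat_lit 76) (nat_lit 28026776760573) (nat_lit 76) (nat_lit 27983712775301) (nat_lit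 1) (nat_lit 4) (nat_lit 2) (nat_lit 5) (nat_lit 2) (nat_lit 4) (nat_lit 430) (nat_lit 359) (nat_lit 231)) (XT.nd (nat_lit 78) (nat_lit 0) (nat_lit 0) (XT.lf (nat_lit 0) (nat_lit 73780091815799) (nat_lit 76) (nat_lit 31171814505347) (nat_lit 76) (nat_lit 31128750519980) (nat_lit 1) (nat_lit 4) (nat_lit 2) (nat_lit 5) (nat_lit 2) (nat_lit 4) (nat_lit 431) (nat_lit 359) (nat_lit 230)) (XT.lf (nat_lit 0) (nat_lit 86820474165140) (nat_lit 76) (nat_lit 34788607916203) (nat_lit 76) (nat_lit 34745543930753) (nat_lit 1) (nat_lit 4) (nat_lit 2) (nat_lit 5) (nat_lit 2) (nat_lit 4) (nat_lit 432) (nat_lit 359) (nat_lit 229)))) (XT.nd (nat_lit 78) (nat_lit 0) (nat_lit 0) (XT.lf (nat_lit 0) (nat_lit 101816913859764) (nat_lit 76) (nat_lit 38947920342484) (nat_lit 76) (nat_lit 38904856356961) (nat_lit 1) (nat_lit 4) (nat_lit 2) (nat_lit 5) (nat_lit 2) (nat_lit 4) (nat_lit 433) (nat_lit 359) (nat_lit 228))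 (XT.nd (nat_lit 78) (nat_lit 0) (nat_lit 0) (XT.lf (nat_lit 0) (nat_lit 119062819502393) (nat_lit 76) (nat_lit 43731129636007) (nat_lit 76) (nat_lit 43688065650422) (nat_lit 1) (nat_lit 4) (nat_lit 2) (nat_lit 5) (nat_lit 2) (nat_lit 4) (nat_lit 434) (nat_lit 359) (nat_lit 227)) (XT.lf (nat_lit 0) (nat_lit 138895610986035) (nat_lit 76) (nat_lit 49231820326430) (nat_lit 76) (nat_lit 49188756340790) (nat_lit 1) (nat_lit 4) (nat_lit 2) (nat_lit 5) (nat_lit 2) (nat_lit 4) (nat_lit 435) (nat_lit 359) (nat_lit 226))))) (XT.nd (nat_lit 234) (nat_lit 0) (nat_lit 0) (XT.nd (nat_lit 78) (nat_lit 0) (nat_lit 0) (XT.lf (nat_lit 0) (nat_lit 161703321187543) (nat_lit 76) (nat_lit 55557614622912) (nat_lit 76) (nat_lit 55514550637225) (nat_lit 1) (nat_lit 4) (nat_lit 2) (nat_lit 5) (nat_lit 2) (nat_lit 4) (nat_lit 436) (nat_lit 359) (nat_lit 225)) (XT.nd (nat_lit 78) (nat_lit 0) (nat_lit 0) (XT.lf (nat_lit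 0) (nat_lit 187932187915208) (nat_lit 76) (nat_lit 62832278066037) (nat_lit 76) (nat_lit 62789214080308) (nat_lit 1) (nat_lit 4) (nat_lit 2) (nat_lit 5) (nat_lit 2) (nat_lit 4) (nat_lit 437) (nat_lit 359) (nat_lit 224)) (XT.lf (nat_lit 0) (nat_lit 218095384648484) (nat_lit 76) (nat_lit 71198141027518) (nat_lit 76) (nat_lit 71155077041753) (nat_lit 1) (nat_lit 4) (nat_lit 2) (nat_lit 5) (nat_lit 2) (nat_lit 4) (nat_lit 438) (nat_lit 359) (nat_lit 223)))) (XT.nd (nat_lit 46956) (nat_lit 0) (nat_lit 3116) (XT.nd (nat_lit 78) (nat_lit 0) (nat_lit 0) (XT.lf (nat_lit 0) (nat_lit 252783060888674) (nat_lit 76) (nat_lit 80818883434862) (nat_lit 76) (nat_lit 80775819449066) (nat_lit 1) (nat_lit 4) (nat_lit 2) (nat_lit 5) (nat_lit 2) (nat_lit 4) (nat_lit 439) (nat_lit 359) (nat_lit 222)) (XT.lf (nat_lit 0) (nat_lit 292673888562218) (nat_lit 76) (nat_lit 91882737204735) (nat_lit 76) (nat_lit 91839673218912)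 (nat_lit 1) (nat_lit 4) (nat_lit 2) (nat_lit 5) (nat_lit 2) (nat_lit 4) (nat_lit 440) (nat_lit 359) (nat_lit 221))) (XT.nd (nat_lit 78) (nat_lit 0) (nat_lit 0) (XT.lf (nat_lit 0) (nat_lit 9832498925) (nat_lit 380) (nat_lit 11661213703) (nat_lit 380) (nat_lit 11661213703) (nat_lit 42) (nat_lit 3) (nat_lit 47) (nat_lit 3) (nat_lit 47) (nat_lit 5) (nat_lit 360) (nat_lit 360) (nat_lit 300)) (XT.lf (nat_lit 76) (nat_lit 10640321869) (nat_lit 0) (nat_lit 10953944710) (nat_lit 380) (nat_lit 49620662702) (nat_lit 43) (nat_lit 5) (nat_lit 42) (nat_lit 3) (nat_lit 47) (nat_lit 5) (nat_lit 361) (nat_lit 360) (nat_lit 299)))))) (XT.nd (nat_lit 546) (nat_lit 684) (nat_lit 0) (XT.nd (nat_lit 234) (nat_lit 456) (nat_lit 0) (XT.nd (nat_lit 78) (nat_lit 0) (nat_lit 0) (XT.lf (nat_lit 0) (nat_lit 26159449152) (nat_lit 304) (nat_lit 25486140347) (nat_lit 380) (nat_lit 24858199941) (nat_lit 43) (nat_lit 5)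 (nat_lit 47) (nat_lit 5) (nat_lit 48) (nat_lit 5) (nat_lit 362) (nat_lit 360) (nat_lit 298)) (XT.nd (nat_lit 78) (nat_lit 0) (nat_lit 76) (XT.lf (nat_lit 76) (nat_lit 15743897677) (nat_lit 0) (nat_lit 16836891373) (nat_lit 380) (nat_lit 49829483085) (nat_lit 44) (nat_lit 5) (nat_lit 43) (nat_lit 5) (nat_lit 48) (nat_lit 5) (nat_lit 363) (nat_lit 360) (nat_lit 297)) (XT.lf (nat_lit 0) (nat_lit 42319445601) (nat_lit 304) (nat_lit 24005913755) (nat_lit 76) (nat_lit 22524250964) (nat_lit 44) (nat_lit 5) (nat_lit 48) (nat_lit 5) (nat_lit 45) (nat_lit 5) (nat_lit 364) (nat_lit 360) (nat_lit 296)))) (XT.nd (nat_lit 156) (nat_lit 228) (nat_lit 0) (XT.nd (nat_lit 78) (nat_lit 0) (nat_lit 0) (XT.lf (nat_lit 0) (nat_lit 26620075324) (nat_lit 304) (nat_lit 28801183282) (nat_lit 380) (nat_lit 40548237312) (nat_lit 40) (nat_lit 5) (nat_lit 44) (nat_lit 5) (nat_lit 45) (nat_lit 5) (nat_lit 365) (nat_lit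 360) (nat_lit 295)) (XT.lf (nat_lit 0) (nat_lit 72395692656) (nat_lit 380) (nat_lit 17087097384) (nat_lit 76) (nat_lit 14388472283) (nat_lit 40) (nat_lit 5) (nat_lit 45) (nat_lit 5) (nat_lit 41) (nat_lit 5) (nat_lit 366) (nat_lit 360) (nat_lit 294))) (XT.nd (nat_lit 78) (nat_lit 76) (nat_lit 0) (XT.lf (nat_lit 0) (nat_lit 45711002008) (nat_lit 152) (nat_lit 49468239039) (nat_lit 228) (nat_lit 17289610544) (nat_lit 38) (nat_lit 5) (nat_lit 40) (nat_lit 5) (nat_lit 41) (nat_lit 5) (nat_lit 367) (nat_lit 360) (nat_lit 293)) (XT.lf (nat_lit 0) (nat_lit 45554459) (nat_lit 228) (nat_lit 2376706071) (nat_lit 76) (nat_lit 119799713043) (nat_lit 37) (nat_lit 5) (nat_lit 40) (nat_lit 5) (nat_lit 38) (nat_lit 5) (nat_lit 368) (nat_lit 360) (nat_lit 292))))) (XT.nd (nat_lit 234) (nat_lit 380) (nat_lit 0) (XT.nd (nat_lit 78) (nat_lit 152) (nat_lit 0) (XT.lf (nat_lit 0) (nat_lit 23762115497) (nat_lit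 228) (nat_lit 57404704736) (nat_lit 76) (nat_lit 51315059379) (nat_lit 35) (nat_lit 5) (nat_lit 38) (nat_lit 5) (nat_lit 36) (nat_lit 5) (nat_lit 369) (nat_lit 360) (nat_lit 291)) (XT.nd (nat_lit 78) (nat_lit 0) (nat_lit 0) (XT.lf (nat_lit 0) (nat_lit 21988949328) (nat_lit 152) (nat_lit 30202187691) (nat_lit 228) (nat_lit 91916388252) (nat_lit 33) (nat_lit 5) (nat_lit 35) (nat_lit 5) (nat_lit 36) (nat_lit 5) (nat_lit 370) (nat_lit 360) (nat_lit 290)) (XT.lf (nat_lit 0) (nat_lit 89203399924) (nat_lit 228) (nat_lit 38604489381) (nat_lit 76) (nat_lit 29021295396) (nat_lit 33) (nat_lit 5) (nat_lit 36) (nat_lit 5) (nat_lit 34) (nat_lit 4) (nat_lit 371) (nat_lit 360) (nat_lit 289)))) (XT.nd (nat_lit 156) (nat_lit 228) (nat_lit 0) (XT.nd (nat_lit 78) (nat_lit 76) (nat_lit 0) (XT.lf (nat_lit 0) (nat_lit 61469598985) (nat_lit 76) (nat_lit 74280573876) (nat_lit 152) (nat_lit 35111519718) (nat_lit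 32) (nat_lit 5) (nat_lit 33) (nat_lit 5) (nat_lit 34) (nat_lit 4) (nat_lit 372) (nat_lit 360) (nat_lit 288)) (XT.lf (nat_lit 0) (nat_lit 4190135086) (nat_lit 152) (nat_lit 5994842482) (nat_lit 76) (nat_lit 176482955218) (nat_lit 31) (nat_lit 5) (nat_lit 33) (nat_lit 5) (nat_lit 32) (nat_lit 5) (nat_lit 373) (nat_lit 360) (nat_lit 287))) (XT.nd (nat_lit 78) (nat_lit 76) (nat_lit 0) (XT.lf (nat_lit 0) (nat_lit 53798679812) (nat_lit 228) (nat_lit 84676897590) (nat_lit 76) (nat_lit 64917776256) (nat_lit 29) (nat_lit 5) (nat_lit 32) (nat_lit 5) (nat_lit 30) (nat_lit 4) (nat_lit 374) (nat_lit 360) (nat_lit 286)) (XT.lf (nat_lit 0) (nat_lit 43608814171) (nat_lit 76) (nat_lit 69858030390) (nat_lit 152) (nat_lit 108767992424) (nat_lit 28) (nat_lit 5) (nat_lit 29) (nat_lit 5) (nat_lit 30) (nat_lit 4) (nat_lit 375) (nat_lit 360) (nat_lit 285))))))))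
noncomputable def xc80 : XT := (XT.nd (nat_lit 2028) (nat_lit 380) (nat_lit 0) (XT.nd (nat_lit 1014) (nat_lit 760) (nat_lit 0) (XT.nd (nat_lit 468) (nat_lit 532) (nat_lit 0) (XT.nd (nat_lit 234) (nat_lit 152) (nat_lit 0) (XT.nd (nat_lit 78) (nat_lit 228) (nat_lit 0) (XT.lf (nat_lit 0) (nat_lit 187096455820) (nat_lit 152) (nat_lit 43171542920) (nat_lit 0) (nat_lit 12882860863) (nat_lit 28) (nat_lit 5) (nat_lit 30) (nat_lit 4) (nat_lit 28) (nat_lit 4) (nat_lit 376) (nat_lit 360) (nat_lit 284)) (XT.nd (nat_lit 78) (nat_lit 76) (nat_lit 0) (XT.lf (nat_lit 0) (nat_lit 12847568715) (nat_lit 152) (nat_lit 146591876143) (nat_lit 76) (nat_lit 106433299820) (nat_lit 26) (nat_lit 5) (nat_lit 28) (nat_lit 5) (nat_lit 27) (nat_lit 4) (nat_lit 377) (nat_lit 360) (nat_lit 283)) (XT.lf (nat_lit 0) (nat_lit 18124370107) (nat_lit 76) (nat_lit 71335630200) (nat_lit 152) (nat_lit 201675413680) (nat_lit 25)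 (nat_lit 5) (nat_lit 26) (nat_lit 5) (nat_lit 27) (nat_lit 4) (nat_lit 378) (nat_lit 360) (nat_lit 282)))) (XT.nd (nat_lit 78) (nat_lit 152) (nat_lit 0) (XT.lf (nat_lit 0) (nat_lit 186832941472) (nat_lit 152) (nat_lit 96622651363) (nat_lit 0) (nat_lit 35341594167) (nat_lit 25) (nat_lit 5) (nat_lit 27) (nat_lit 4) (nat_lit 25) (nat_lit 4) (nat_lit 379) (nat_lit 360) (nat_lit 281)) (XT.nd (nat_lit 78) (nat_lit 76) (nat_lit 0) (XT.lf (nat_lit 0) (nat_lit 112875018356) (nat_lit 76) (nat_lit 194007159291) (nat_lit 76) (nat_lit 42515495278) (nat_lit 24) (nat_lit 4) (nat_lit 25) (nat_lit 5) (nat_lit 25) (nat_lit 4) (nat_lit 380) (nat_lit 360) (nat_lit 280)) (XT.lf (nat_lit 0) (nat_lit 60268492557) (nat_lit 152) (nat_lit 21914680412) (nat_lit 76) (nat_lit 301236598061) (nat_lit 23) (nat_lit 5) (nat_lit 25) (nat_lit 5) (nat_lit 24) (nat_lit 4) (nat_lit 381) (nat_lit 360) (nat_lit 279))))) (XT.nd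 (nat_lit 234) (nat_lit 304) (nat_lit 0) (XT.nd (nat_lit 78) (nat_lit 152) (nat_lit 0) (XT.lf (nat_lit 0) (nat_lit 186747525037) (nat_lit 152) (nat_lit 178584247651) (nat_lit 0) (nat_lit 55015195569) (nat_lit 22) (nat_lit 5) (nat_lit 24) (nat_lit 4) (nat_lit 22) (nat_lit 4) (nat_lit 382) (nat_lit 360) (nat_lit 278)) (XT.nd (nat_lit 78) (nat_lit 76) (nat_lit 0) (XT.lf (nat_lit 0) (nat_lit 88745046918) (nat_lit 76) (nat_lit 252241262109) (nat_lit 76) (nat_lit 120508751562) (nat_lit 21) (nat_lit 4) (nat_lit 22) (nat_lit 5) (nat_lit 22) (nat_lit 4) (nat_lit 383) (nat_lit 360) (nat_lit 277)) (XT.lf (nat_lit 0) (nat_lit 18474928914) (nat_lit 152) (nat_lit 92011570840) (nat_lit 76) (nat_lit 396802698630) (nat_lit 20) (nat_lit 5) (nat_lit 22) (nat_lit 5) (nat_lit 21) (nat_lit 4) (nat_lit 384) (nat_lit 360) (nat_lit 276)))) (XT.nd (nat_lit 156) (nat_lit 152) (nat_lit 0) (XT.nd (nat_lit 78) (nat_lit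 76) (nat_lit 0) (XT.lf (nat_lit 0) (nat_lit 179135431401) (nat_lit 152) (nat_lit 313396021809) (nat_lit 0) (nat_lit 64585166247) (nat_lit 19) (nat_lit 5) (nat_lit 21) (nat_lit 4) (nat_lit 19) (nat_lit 4) (nat_lit 385) (nat_lit 360) (nat_lit 275)) (XT.lf (nat_lit 0) (nat_lit 23014622710) (nat_lit 76) (nat_lit 352133003564) (nat_lit 76) (nat_lit 237582634877) (nat_lit 18) (nat_lit 4) (nat_lit 19) (nat_lit 5) (nat_lit 19) (nat_lit 4) (nat_lit 386) (nat_lit 360) (nat_lit 274))) (XT.nd (nat_lit 78) (nat_lit 152) (nat_lit 0) (XT.lf (nat_lit 0) (nat_lit 445107595796) (nat_lit 76) (nat_lit 171835776844) (nat_lit 76) (nat_lit 57285318129) (nat_lit 18) (nat_lit 4) (nat_lit 19) (nat_lit 5) (nat_lit 19) (nat_lit 4) (nat_lit 387) (nat_lit 360) (nat_lit 273)) (XT.lf (nat_lit 0) (nat_lit 147003708560) (nat_lit 152) (nat_lit 548075673534) (nat_lit 0) (nat_lit 47394545951) (nat_lit 16) (nat_lit 5) (nat_lit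 18) (nat_lit 4) (nat_lit 16) (nat_lit 4) (nat_lit 388) (nat_lit 360) (nat_lit 272)))))) (XT.nd (nat_lit 468) (nat_lit 456) (nat_lit 0) (XT.nd (nat_lit 234) (nat_lit 76) (nat_lit 0) (XT.nd (nat_lit 78) (nat_lit 228) (nat_lit 0) (XT.lf (nat_lit 0) (nat_lit 396800617374) (nat_lit 152) (nat_lit 123445339102) (nat_lit 0) (nat_lit 297191395570) (nat_lit 16) (nat_lit 5) (nat_lit 18) (nat_lit 4) (nat_lit 16) (nat_lit 4) (nat_lit 389) (nat_lit 360) (nat_lit 271)) (XT.nd (nat_lit 78) (nat_lit 152) (nat_lit 0) (XT.lf (nat_lit 0) (nat_lit 400537610210) (nat_lit 76) (nat_lit 300114590959) (nat_lit 76) (nat_lit 200505317681) (nat_lit 15) (nat_lit 4) (nat_lit 16) (nat_lit 5) (nat_lit 16) (nat_lit 4) (nat_lit 390) (nat_lit 360) (nat_lit 270)) (XT.lf (nat_lit 0) (nat_lit 19798604406) (nat_lit 76) (nat_lit 35739964172) (nat_lit 152) (nat_lit 940433201840) (nat_lit 13) (nat_lit 5) (nat_lit 14) (nat_lit 5)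 (nat_lit 15) (nat_lit 4) (nat_lit 391) (nat_lit 360) (nat_lit 269)))) (XT.nd (nat_lit 78) (nat_lit 76) (nat_lit 0) (XT.lf (nat_lit 0) (nat_lit 367985096567) (nat_lit 152) (nat_lit 448444020262) (nat_lit 0) (nat_lit 281368264428) (nat_lit 13) (nat_lit 5) (nat_lit 15) (nat_lit 4) (nat_lit 13) (nat_lit 4) (nat_lit 392) (nat_lit 360) (nat_lit 268)) (XT.nd (nat_lit 78) (nat_lit 0) (nat_lit 0) (XT.lf (nat_lit 0) (nat_lit 172060081311) (nat_lit 76) (nat_lit 564064833651) (nat_lit 76) (nat_lit 477447972082) (nat_lit 12) (nat_lit 4) (nat_lit 13) (nat_lit 5) (nat_lit 13) (nat_lit 4) (nat_lit 393) (nat_lit 360) (nat_lit 267)) (XT.lf (nat_lit 0) (nat_lit 936038321945) (nat_lit 76) (nat_lit 246888554206) (nat_lit 76) (nat_lit 160271667045) (nat_lit 12) (nat_lit 4) (nat_lit 13) (nat_lit 5) (nat_lit 13) (nat_lit 4) (nat_lit 394) (nat_lit 360) (nat_lit 266))))) (XT.nd (nat_lit 234) (nat_lit 228) (nat_lit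 0) (XT.nd (nat_lit 78) (nat_lit 76) (nat_lit 0) (XT.lf (nat_lit 0) (nat_lit 206506809464) (nat_lit 152) (nat_lit 1150268904797) (nat_lit 0) (nat_lit 131187757799) (nat_lit 10) (nat_lit 5) (nat_lit 12) (nat_lit 4) (nat_lit 10) (nat_lit 4) (nat_lit 395) (nat_lit 360) (nat_lit 265)) (XT.nd (nat_lit 78) (nat_lit 76) (nat_lit 0) (XT.lf (nat_lit 0) (nat_lit 645946556995) (nat_lit 152) (nat_lit 431616307317) (nat_lit 0) (nat_lit 570627488503) (nat_lit 10) (nat_lit 5) (nat_lit 12) (nat_lit 4) (nat_lit 10) (nat_lit 4) (nat_lit 396) (nat_lit 360) (nat_lit 264)) (XT.lf (nat_lit 0) (nat_lit 433419838749) (nat_lit 76) (nat_lit 735829243835) (nat_lit 76) (nat_lit 660510160712) (nat_lit 9) (nat_lit 4) (nat_lit 10) (nat_lit 5) (nat_lit 10) (nat_lit 4) (nat_lit 397) (nat_lit 360) (nat_lit 263)))) (XT.nd (nat_lit 156) (nat_lit 76) (nat_lit 0) (XT.nd (nat_lit 78) (nat_lit 152) (nat_lit 0) (XT.lf (nat_lit 0)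 (nat_lit 1476718838682) (nat_lit 76) (nat_lit 316889742680) (nat_lit 76) (nat_lit 241570646833) (nat_lit 9) (nat_lit 4) (nat_lit 10) (nat_lit 5) (nat_lit 10) (nat_lit 4) (nat_lit 398) (nat_lit 360) (nat_lit 262)) (XT.lf (nat_lit 0) (nat_lit 244942752884) (nat_lit 152) (nat_lit 1841611879985) (nat_lit 0) (nat_lit 179447877309) (nat_lit 7) (nat_lit 5) (nat_lit 9) (nat_lit 4) (nat_lit 7) (nat_lit 4) (nat_lit 399) (nat_lit 360) (nat_lit 261))) (XT.nd (nat_lit 78) (nat_lit 76) (nat_lit 0) (XT.lf (nat_lit 0) (nat_lit 825373120070) (nat_lit 152) (nat_lit 937621595078) (nat_lit 0) (nat_lit 759878236129) (nat_lit 7) (nat_lit 5) (nat_lit 9) (nat_lit 4) (nat_lit 7) (nat_lit 4) (nat_lit 400) (nat_lit 360) (nat_lit 260)) (XT.lf (nat_lit 0) (nat_lit 111931902719) (nat_lit 76) (nat_lit 1385570868828) (nat_lit 76) (nat_lit 1320075977613) (nat_lit 6) (nat_lit 4) (nat_lit 7) (nat_lit 5) (nat_lit 7) (nat_lit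 4) (nat_lit 401) (nat_lit 360) (nat_lit 259))))))) (XT.nd (nat_lit 1014) (nat_lit 76) (nat_lit 0) (XT.nd (nat_lit 468) (nat_lit 152) (nat_lit 0) (XT.nd (nat_lit 234) (nat_lit 76) (nat_lit 0) (XT.nd (nat_lit 78) (nat_lit 76) (nat_lit 0) (XT.lf (nat_lit 0) (nat_lit 1424294037687) (nat_lit 76) (nat_lit 895169744901) (nat_lit 76) (nat_lit 829674847360) (nat_lit 6) (nat_lit 4) (nat_lit 7) (nat_lit 5) (nat_lit 7) (nat_lit 4) (nat_lit 402) (nat_lit 360) (nat_lit 258)) (XT.nd (nat_lit 78) (nat_lit 76) (nat_lit 0) (XT.lf (nat_lit 0) (nat_lit 2933510258956) (nat_lit 76) (nat_lit 331208576694) (nat_lit 76) (nat_lit 265713673652) (nat_lit 6) (nat_lit 4) (nat_lit 7) (nat_lit 5) (nat_lit 7) (nat_lit 4) (nat_lit 403) (nat_lit 360) (nat_lit 257)) (XT.lf (nat_lit 0) (nat_lit 395241307659) (nat_lit 76) (nat_lit 3226039623650) (nat_lit 0) (nat_lit 338289213898) (nat_lit 5) (nat_lit 5) (nat_lit 6) (nat_lit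 4) (nat_lit 5) (nat_lit 4) (nat_lit 404) (nat_lit 360) (nat_lit 256)))) (XT.nd (nat_lit 78) (nat_lit 76) (nat_lit 0) (XT.lf (nat_lit 0) (nat_lit 1176595853852) (nat_lit 76) (nat_lit 2147671810864) (nat_lit 0) (nat_lit 1119643756474) (nat_lit 5) (nat_lit 5) (nat_lit 6) (nat_lit 4) (nat_lit 5) (nat_lit 4) (nat_lit 405) (nat_lit 360) (nat_lit 255)) (XT.nd (nat_lit 78) (nat_lit 76) (nat_lit 0) (XT.lf (nat_lit 0) (nat_lit 2075153495228) (nat_lit 76) (nat_lit 907549011647) (nat_lit 0) (nat_lit 2018201394705) (nat_lit 5) (nat_lit 5) (nat_lit 6) (nat_lit 4) (nat_lit 5) (nat_lit 4) (nat_lit 406) (nat_lit 360) (nat_lit 254)) (XT.lf (nat_lit 0) (nat_lit 569272632486) (nat_lit 76) (nat_lit 2562794440628) (nat_lit 76) (nat_lit 2505842337371) (nat_lit 4) (nat_lit 4) (nat_lit 5) (nat_lit 5) (nat_lit 5) (nat_lit 4) (nat_lit 407) (nat_lit 360) (nat_lit 253))))) (XT.nd (nat_lit 234) (nat_lit 152) (nat_lit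 0) (XT.nd (nat_lit 78) (nat_lit 0) (nat_lit 0) (XT.lf (nat_lit 0) (nat_lit 2369613502519) (nat_lit 76) (nat_lit 2025344175171) (nat_lit 76) (nat_lit 1968392069535) (nat_lit 4) (nat_lit 4) (nat_lit 5) (nat_lit 5) (nat_lit 5) (nat_lit 4) (nat_lit 408) (nat_lit 360) (nat_lit 252)) (XT.nd (nat_lit 78) (nat_lit 0) (nat_lit 0) (XT.lf (nat_lit 0) (nat_lit 4440005369177) (nat_lit 76) (nat_lit 1407276441194) (nat_lit 76) (nat_lit 1350324333491) (nat_lit 4) (nat_lit 4) (nat_lit 5) (nat_lit 5) (nat_lit 5) (nat_lit 4) (nat_lit 409) (nat_lit 360) (nat_lit 251)) (XT.lf (nat_lit 0) (nat_lit 6820955899416) (nat_lit 76) (nat_lit 696498609122) (nat_lit 76) (nat_lit 639546499620) (nat_lit 4) (nat_lit 4) (nat_lit 5) (nat_lit 5) (nat_lit 5) (nat_lit 4) (nat_lit 410) (nat_lit 360) (nat_lit 250)))) (XT.nd (nat_lit 156) (nat_lit 0) (nat_lit 0) (XT.nd (nat_lit 78) (nat_lit 0) (nat_lit 0) (XT.lf (nat_lit 0) (nat_lit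 181246634389) (nat_lit 152) (nat_lit 8943345979436) (nat_lit 0) (nat_lit 131723059550) (nat_lit 2) (nat_lit 5) (nat_lit 4) (nat_lit 4) (nat_lit 2) (nat_lit 4) (nat_lit 411) (nat_lit 360) (nat_lit 249)) (XT.lf (nat_lit 0) (nat_lit 1166012284681) (nat_lit 152) (nat_lit 8217508716865) (nat_lit 0) (nat_lit 1116488708659) (nat_lit 2) (nat_lit 5) (nat_lit 4) (nat_lit 4) (nat_lit 2) (nat_lit 4) (nat_lit 412) (nat_lit 360) (nat_lit 248))) (XT.nd (nat_lit 78) (nat_lit 0) (nat_lit 0) (XT.lf (nat_lit 0) (nat_lit 2298492739444) (nat_lit 152) (nat_lit 7382795957184) (nat_lit 0) (nat_lit 2248969162394) (nat_lit 2) (nat_lit 5) (nat_lit 4) (nat_lit 4) (nat_lit 2) (nat_lit 4) (nat_lit 413) (nat_lit 360) (nat_lit 247)) (XT.lf (nat_lit 0) (nat_lit 3600845224967) (nat_lit 152) (nat_lit 6422876363790) (nat_lit 0) (nat_lit 3551321647022) (nat_lit 2) (nat_lit 5) (nat_lit 4) (nat_lit 4) (nat_lit 2) (nat_lit 4)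 (nat_lit 414) (nat_lit 360) (nat_lit 246)))))) (XT.nd (nat_lit 546) (nat_lit 0) (nat_lit 0) (XT.nd (nat_lit 234) (nat_lit 76) (nat_lit 0) (XT.nd (nat_lit 78) (nat_lit 0) (nat_lit 0) (XT.lf (nat_lit 0) (nat_lit 5098550550748) (nat_lit 152) (nat_lit 5318968901161) (nat_lit 0) (nat_lit 5049026972027) (nat_lit 2) (nat_lit 5) (nat_lit 4) (nat_lit 4) (nat_lit 2) (nat_lit 4) (nat_lit 415) (nat_lit 360) (nat_lit 245)) (XT.nd (nat_lit 78) (nat_lit 0) (nat_lit 0) (XT.lf (nat_lit 0) (nat_lit 6820911647076) (nat_lit 152) (nat_lit 4049475379809) (nat_lit 0) (nat_lit 6771388067678) (nat_lit 2) (nat_lit 5) (nat_lit 4) (nat_lit 4) (nat_lit 2) (nat_lit 4) (nat_lit 416) (nat_lit 360) (nat_lit 244)) (XT.lf (nat_lit 0) (nat_lit 8801626883226) (nat_lit 152) (nat_lit 2589557883014) (nat_lit 0) (nat_lit 8752103303240) (nat_lit 2) (nat_lit 5) (nat_lit 4) (nat_lit 4) (nat_lit 2) (nat_lit 4) (nat_lit 417) (nat_lit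 360) (nat_lit 243)))) (XT.nd (nat_lit 156) (nat_lit 0) (nat_lit 0) (XT.nd (nat_lit 78) (nat_lit 76) (nat_lit 0) (XT.lf (nat_lit 0) (nat_lit 11079449383383) (nat_lit 152) (nat_lit 910652807576) (nat_lit 0) (nat_lit 11029925802886) (nat_lit 2) (nat_lit 5) (nat_lit 4) (nat_lit 4) (nat_lit 2) (nat_lit 4) (nat_lit 418) (nat_lit 360) (nat_lit 242)) (XT.lf (nat_lit 0) (nat_lit 1119778406418) (nat_lit 76) (nat_lit 12625534469401) (nat_lit 76) (nat_lit 12576010888459) (nat_lit 1) (nat_lit 4) (nat_lit 2) (nat_lit 5) (nat_lit 2) (nat_lit 4) (nat_lit 419) (nat_lit 360) (nat_lit 241))) (XT.nd (nat_lit 78) (nat_lit 0) (nat_lit 0) (XT.lf (nat_lit 0) (nat_lit 3557119222011) (nat_lit 76) (nat_lit 13301538958190) (nat_lit 76) (nat_lit 13252015376862) (nat_lit 1) (nat_lit 4) (nat_lit 2) (nat_lit 5) (nat_lit 2) (nat_lit 4) (nat_lit 420) (nat_lit 360) (nat_lit 240)) (XT.lf (nat_lit 0) (nat_lit 6360061126830)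 (nat_lit 76) (nat_lit 14078944137959) (nat_lit 76) (nat_lit 14029420556295) (nat_lit 1) (nat_lit 4) (nat_lit 2) (nat_lit 5) (nat_lit 2) (nat_lit 4) (nat_lit 421) (nat_lit 360) (nat_lit 239))))) (XT.nd (nat_lit 234) (nat_lit 0) (nat_lit 0) (XT.nd (nat_lit 78) (nat_lit 0) (nat_lit 0) (XT.lf (nat_lit 0) (nat_lit 9583444288579) (nat_lit 76) (nat_lit 14972960110051) (nat_lit 76) (nat_lit 14923436528095) (nat_lit 1) (nat_lit 4) (nat_lit 2) (nat_lit 5) (nat_lit 2) (nat_lit 4) (nat_lit 422) (nat_lit 360) (nat_lit 238)) (XT.nd (nat_lit 78) (nat_lit 0) (nat_lit 0) (XT.lf (nat_lit 0) (nat_lit 13290334899551) (nat_lit 76) (nat_lit 16001078491311) (nat_lit 76) (nat_lit 15951554909100) (nat_lit 1) (nat_lit 4) (nat_lit 2) (nat_lit 5) (nat_lit 2) (nat_lit 4) (nat_lit 423) (nat_lit 360) (nat_lit 237)) (XT.lf (nat_lit 0) (nat_lit 17553259080397) (nat_lit 76) (nat_lit 17183414641372) (nat_lit 76) (nat_lit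 17133891058941) (nat_lit 1) (nat_lit 4) (nat_lit 2) (nat_lit 5) (nat_lit 2) (nat_lit 4) (nat_lit 424) (nat_lit 360) (nat_lit 236)))) (XT.nd (nat_lit 156) (nat_lit 0) (nat_lit 0) (XT.nd (nat_lit 78) (nat_lit 0) (nat_lit 0) (XT.lf (nat_lit 0) (nat_lit 22455621869437) (nat_lit 76) (nat_lit 18543101224040) (nat_lit 76) (nat_lit 18493577641417) (nat_lit 1) (nat_lit 4) (nat_lit 2) (nat_lit 5) (nat_lit 2) (nat_lit 4) (nat_lit 425) (nat_lit 360) (nat_lit 235)) (XT.lf (nat_lit 0) (nat_lit 28093339060371) (nat_lit 76) (nat_lit 20106740802890) (nat_lit 76) (nat_lit 20057217220099) (nat_lit 1) (nat_lit 4) (nat_lit 2) (nat_lit 5) (nat_lit 2) (nat_lit 4) (nat_lit 426) (nat_lit 360) (nat_lit 234))) (XT.nd (nat_lit 78) (nat_lit 0) (nat_lit 0) (XT.lf (nat_lit 0) (nat_lit 34576713815629) (nat_lit 76) (nat_lit 21904926326202) (nat_lit 76) (nat_lit 21855402743266) (nat_lit 1) (nat_lit 4) (nat_lit 2) (nat_lit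 5) (nat_lit 2) (nat_lit 4) (nat_lit 427) (nat_lit 360) (nat_lit 233)) (XT.lf (nat_lit 0) (nat_lit 42032594771727) (nat_lit 76) (nat_lit 23972839684650) (nat_lit 76) (nat_lit 23923316101588) (nat_lit 1) (nat_lit 4) (nat_lit 2) (nat_lit 5) (nat_lit 2) (nat_lit 4) (nat_lit 428) (nat_lit 360) (nat_lit 232))))))))
noncomputable def xc81 : XT := (XT.nd (nat_lit 48906) (nat_lit 0) (nat_lit 456) (XT.nd (nat_lit 47892) (nat_lit 0) (nat_lit 2280) (XT.nd (nat_lit 468) (nat_lit 0) (nat_lit 0) (XT.nd (nat_lit 234) (nat_lit 0) (nat_lit 0) (XT.nd (nat_lit 78) (nat_lit 0) (nat_lit 0) (XT.lf (nat_lit 0) (nat_lit 50606857860415) (nat_lit 76) (nat_lit 26350940052640) (nat_lit 76) (nat_lit 26301416469468) (nat_lit 1) (nat_lit 4) (nat_lit 2) (nat_lit 5) (nat_lit 2) (nat_lit 4) (nat_lit 429) (nat_lit 360) (nat_lit 231)) (XT.nd (nat_lit 78) (nat_lit 0) (nat_lit 0) (XT.lf (nat_lit 0) (nat_lit 60467260402994) (nat_lit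 76) (nat_lit 29085755480848) (nat_lit 76) (nat_lit 29036231897580) (nat_lit 1) (nat_lit 4) (nat_lit 2) (nat_lit 5) (nat_lit 2) (nat_lit 4) (nat_lit 430) (nat_lit 360) (nat_lit 230)) (XT.lf (nat_lit 0) (nat_lit 71806723318775) (nat_lit 76) (nat_lit 32230793227652) (nat_lit 76) (nat_lit 32181269644302) (nat_lit 1) (nat_lit 4) (nat_lit 2) (nat_lit 5) (nat_lit 2) (nat_lit 4) (nat_lit 431) (nat_lit 360) (nat_lit 229)))) (XT.nd (nat_lit 78) (nat_lit 0) (nat_lit 0) (XT.lf (nat_lit 0) (nat_lit 84847105664805) (nat_lit 76) (nat_lit 35847586640274) (nat_lit 76) (nat_lit 35798063056851) (nat_lit 1) (nat_lit 4) (nat_lit 2) (nat_lit 5) (nat_lit 2) (nat_lit 4) (nat_lit 432) (nat_lit 360) (nat_lit 228)) (XT.nd (nat_lit 78) (nat_lit 0) (nat_lit 0) (XT.lf (nat_lit 0) (nat_lit 99843545356551) (nat_lit 76) (nat_lit 40006899068090) (nat_lit 76) (nat_lit 39957375484605) (nat_lit 1) (nat_lit 4) (nat_lit 2) (nat_lit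 5) (nat_lit 2) (nat_lit 4) (nat_lit 433) (nat_lit 360) (nat_lit 227)) (XT.lf (nat_lit 0) (nat_lit 117089450996677) (nat_lit 76) (nat_lit 44790108362949) (nat_lit 76) (nat_lit 44740584779409) (nat_lit 1) (nat_lit 4) (nat_lit 2) (nat_lit 5) (nat_lit 2) (nat_lit 4) (nat_lit 434) (nat_lit 360) (nat_lit 226))))) (XT.nd (nat_lit 234) (nat_lit 0) (nat_lit 0) (XT.nd (nat_lit 78) (nat_lit 0) (nat_lit 0) (XT.lf (nat_lit 0) (nat_lit 136922242478142) (nat_lit 76) (nat_lit 50290799054533) (nat_lit 76) (nat_lit 50241275470945) (nat_lit 1) (nat_lit 4) (nat_lit 2) (nat_lit 5) (nat_lit 2) (nat_lit 4) (nat_lit 435) (nat_lit 360) (nat_lit 225)) (XT.nd (nat_lit 78) (nat_lit 0) (nat_lit 0) (XT.lf (nat_lit 0) (nat_lit 159729952677757) (nat_lit 76) (nat_lit 56616593352024) (nat_lit 76) (nat_lit 56567069768395) (nat_lit 1) (nat_lit 4) (nat_lit 2) (nat_lit 5) (nat_lit 2) (nat_lit 4) (nat_lit 436) (nat_lit 360) (nat_lit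 224)) (XT.lf (nat_lit 0) (nat_lit 185958819403776) (nat_lit 76) (nat_lit 63891256796026) (nat_lit 76) (nat_lit 63841733212362) (nat_lit 1) (nat_lit 4) (nat_lit 2) (nat_lit 5) (nat_lit 2) (nat_lit 4) (nat_lit 437) (nat_lit 360) (nat_lit 223)))) (XT.nd (nat_lit 156) (nat_lit 0) (nat_lit 0) (XT.nd (nat_lit 78) (nat_lit 0) (nat_lit 0) (XT.lf (nat_lit 0) (nat_lit 216122016135621) (nat_lit 76) (nat_lit 72257119758271) (nat_lit 76) (nat_lit 72207596174575) (nat_lit 1) (nat_lit 4) (nat_lit 2) (nat_lit 5) (nat_lit 2) (nat_lit 4) (nat_lit 438) (nat_lit 360) (nat_lit 222)) (XT.lf (nat_lit 0) (nat_lit 250809692374567) (nat_lit 76) (nat_lit 81877862166279) (nat_lit 76) (nat_lit 81828338582555) (nat_lit 1) (nat_lit 4) (nat_lit 2) (nat_lit 5) (nat_lit 2) (nat_lit 4) (nat_lit 439) (nat_lit 360) (nat_lit 221))) (XT.nd (nat_lit 46956) (nat_lit 0) (nat_lit 3116) (XT.lf (nat_lit 0) (nat_lit 290700520047028)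 (nat_lit 76) (nat_lit 92941715936729) (nat_lit 76) (nat_lit 92892192352982) (nat_lit 1) (nat_lit 4) (nat_lit 2) (nat_lit 5) (nat_lit 2) (nat_lit 4) (nat_lit 440) (nat_lit 360) (nat_lit 220)) (XT.lf (nat_lit 0) (nat_lit 11320603152) (nat_lit 380) (nat_lit 13402787303) (nat_lit 380) (nat_lit 13402787303) (nat_lit 42) (nat_lit 3) (nat_lit 47) (nat_lit 3) (nat_lit 47) (nat_lit 5) (nat_lit 361) (nat_lit 361) (nat_lit 298)))))) (XT.nd (nat_lit 468) (nat_lit 684) (nat_lit 0) (XT.nd (nat_lit 234) (nat_lit 152) (nat_lit 0) (XT.nd (nat_lit 78) (nat_lit 0) (nat_lit 76) (XT.lf (nat_lit 76) (nat_lit 12250895382) (nat_lit 0) (nat_lit 12606120274) (nat_lit 380) (nat_lit 57036606237) (nat_lit 43) (nat_lit 5) (nat_lit 42) (nat_lit 3) (nat_lit 47) (nat_lit 5) (nat_lit 362) (nat_lit 361) (nat_lit 297)) (XT.nd (nat_lit 78) (nat_lit 0) (nat_lit 0) (XT.lf (nat_lit 0) (nat_lit 30103569087) (nat_lit 304) (nat_lit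 29293019525) (nat_lit 380) (nat_lit 28579734150) (nat_lit 43) (nat_lit 5) (nat_lit 47) (nat_lit 5) (nat_lit 48) (nat_lit 5) (nat_lit 363) (nat_lit 361) (nat_lit 296)) (XT.lf (nat_lit 76) (nat_lit 18120795027) (nat_lit 0) (nat_lit 19365313892) (nat_lit 380) (nat_lit 57282969714) (nat_lit 44) (nat_lit 5) (nat_lit 43) (nat_lit 5) (nat_lit 48) (nat_lit 5) (nat_lit 364) (nat_lit 361) (nat_lit 295)))) (XT.nd (nat_lit 78) (nat_lit 304) (nat_lit 0) (XT.lf (nat_lit 0) (nat_lit 48683085826) (nat_lit 304) (nat_lit 27591003740) (nat_lit 76) (nat_lit 25900600233) (nat_lit 44) (nat_lit 5) (nat_lit 48) (nat_lit 5) (nat_lit 45) (nat_lit 5) (nat_lit 365) (nat_lit 361) (nat_lit 294)) (XT.nd (nat_lit 78) (nat_lit 0) (nat_lit 0) (XT.lf (nat_lit 0) (nat_lit 30628165652) (nat_lit 304) (nat_lit 33120578644) (nat_lit 380) (nat_lit 46614028378) (nat_lit 40) (nat_lit 5) (nat_lit 44) (nat_lit 5) (nat_lit 45) (nat_lit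 5) (nat_lit 366) (nat_lit 361) (nat_lit 293)) (XT.lf (nat_lit 0) (nat_lit 83267506802) (nat_lit 380) (nat_lit 19635210449) (nat_lit 76) (nat_lit 16547362691) (nat_lit 40) (nat_lit 5) (nat_lit 45) (nat_lit 5) (nat_lit 41) (nat_lit 5) (nat_lit 367) (nat_lit 361) (nat_lit 292))))) (XT.nd (nat_lit 234) (nat_lit 304) (nat_lit 0) (XT.nd (nat_lit 78) (nat_lit 228) (nat_lit 0) (XT.lf (nat_lit 0) (nat_lit 52581924236) (nat_lit 152) (nat_lit 56885628935) (nat_lit 228) (nat_lit 19869909921) (nat_lit 38) (nat_lit 5) (nat_lit 40) (nat_lit 5) (nat_lit 41) (nat_lit 5) (nat_lit 368) (nat_lit 361) (nat_lit 291)) (XT.nd (nat_lit 78) (nat_lit 152) (nat_lit 0) (XT.lf (nat_lit 0) (nat_lit 62798232) (nat_lit 228) (nat_lit 2719782440) (nat_lit 76) (nat_lit 137771125576) (nat_lit 37) (nat_lit 5) (nat_lit 40) (nat_lit 5) (nat_lit 38) (nat_lit 5) (nat_lit 369) (nat_lit 361) (nat_lit 290)) (XT.lf (nat_lit 0) (nat_lit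 27336150312) (nat_lit 228) (nat_lit 66001286251) (nat_lit 76) (nat_lit 59015265828) (nat_lit 35) (nat_lit 5) (nat_lit 38) (nat_lit 5) (nat_lit 36) (nat_lit 5) (nat_lit 370) (nat_lit 361) (nat_lit 289)))) (XT.nd (nat_lit 156) (nat_lit 152) (nat_lit 0) (XT.nd (nat_lit 78) (nat_lit 0) (nat_lit 0) (XT.lf (nat_lit 0) (nat_lit 25300773914) (nat_lit 152) (nat_lit 34728041919) (nat_lit 228) (nat_lit 105693485652) (nat_lit 33) (nat_lit 5) (nat_lit 35) (nat_lit 5) (nat_lit 36) (nat_lit 5) (nat_lit 371) (nat_lit 361) (nat_lit 288)) (XT.lf (nat_lit 0) (nat_lit 102591904274) (nat_lit 228) (nat_lit 44382424085) (nat_lit 76) (nat_lit 33378033728) (nat_lit 33) (nat_lit 5) (nat_lit 36) (nat_lit 5) (nat_lit 34) (nat_lit 4) (nat_lit 372) (nat_lit 361) (nat_lit 287))) (XT.nd (nat_lit 78) (nat_lit 76) (nat_lit 0) (XT.lf (nat_lit 0) (nat_lit 70702198504) (nat_lit 76) (nat_lit 85417955411) (nat_lit 152) (nat_lit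 40369673269) (nat_lit 32) (nat_lit 5) (nat_lit 33) (nat_lit 5) (nat_lit 34) (nat_lit 4) (nat_lit 373) (nat_lit 361) (nat_lit 286)) (XT.lf (nat_lit 0) (nat_lit 4825447570) (nat_lit 152) (nat_lit 6882830676) (nat_lit 76) (nat_lit 202958824860) (nat_lit 31) (nat_lit 5) (nat_lit 33) (nat_lit 5) (nat_lit 32) (nat_lit 5) (nat_lit 374) (nat_lit 361) (nat_lit 285))))))) (XT.nd (nat_lit 1014) (nat_lit 836) (nat_lit 0) (XT.nd (nat_lit 468) (nat_lit 532) (nat_lit 0) (XT.nd (nat_lit 234) (nat_lit 228) (nat_lit 0) (XT.nd (nat_lit 78) (nat_lit 76) (nat_lit 0) (XT.lf (nat_lit 0) (nat_lit 61875013497) (nat_lit 228) (nat_lit 97366932877) (nat_lit 76) (nat_lit 74659429911) (nat_lit 29) (nat_lit 5) (nat_lit 32) (nat_lit 5) (nat_lit 30) (nat_lit 4) (nat_lit 375) (nat_lit 361) (nat_lit 284)) (XT.nd (nat_lit 78) (nat_lit 0) (nat_lit 0) (XT.lf (nat_lit 0) (nat_lit 50161112950) (nat_lit 76) (nat_lit 80331892565)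 (nat_lit 152) (nat_lit 125076136299) (nat_lit 28) (nat_lit 5) (nat_lit 29) (nat_lit 5) (nat_lit 30) (nat_lit 4) (nat_lit 376) (nat_lit 361) (nat_lit 283)) (XT.lf (nat_lit 0) (nat_lit 215166432700) (nat_lit 152) (nat_lit 49637103176) (nat_lit 0) (nat_lit 14819125889) (nat_lit 28) (nat_lit 5) (nat_lit 30) (nat_lit 4) (nat_lit 28) (nat_lit 4) (nat_lit 377) (nat_lit 361) (nat_lit 282)))) (XT.nd (nat_lit 78) (nat_lit 76) (nat_lit 0) (XT.lf (nat_lit 0) (nat_lit 14780143689) (nat_lit 152) (nat_lit 168570416724) (nat_lit 76) (nat_lit 122402279636) (nat_lit 26) (nat_lit 5) (nat_lit 28) (nat_lit 5) (nat_lit 27) (nat_lit 4) (nat_lit 378) (nat_lit 361) (nat_lit 281)) (XT.nd (nat_lit 78) (nat_lit 0) (nat_lit 0) (XT.lf (nat_lit 0) (nat_lit 20852800971) (nat_lit 76) (nat_lit 82031334304) (nat_lit 152) (nat_lit 231920820241) (nat_lit 25) (nat_lit 5) (nat_lit 26) (nat_lit 5) (nat_lit 27) (nat_lit 4) (nat_lit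 379) (nat_lit 361) (nat_lit 280)) (XT.lf (nat_lit 0) (nat_lit 214862514929) (nat_lit 152) (nat_lit 111107045792) (nat_lit 0) (nat_lit 40646509208) (nat_lit 25) (nat_lit 5) (nat_lit 27) (nat_lit 4) (nat_lit 25) (nat_lit 4) (nat_lit 380) (nat_lit 361) (nat_lit 279))))) (XT.nd (nat_lit 234) (nat_lit 304) (nat_lit 0) (XT.nd (nat_lit 78) (nat_lit 152) (nat_lit 0) (XT.lf (nat_lit 0) (nat_lit 129814865145) (nat_lit 76) (nat_lit 223104023041) (nat_lit 76) (nat_lit 48887777844) (nat_lit 24) (nat_lit 4) (nat_lit 25) (nat_lit 5) (nat_lit 25) (nat_lit 4) (nat_lit 381) (nat_lit 361) (nat_lit 278)) (XT.nd (nat_lit 78) (nat_lit 76) (nat_lit 0) (XT.lf (nat_lit 0) (nat_lit 69312760247) (nat_lit 152) (nat_lit 25194018906) (nat_lit 76) (nat_lit 346425358272) (nat_lit 23) (nat_lit 5) (nat_lit 25) (nat_lit 5) (nat_lit 24) (nat_lit 4) (nat_lit 382) (nat_lit 361) (nat_lit 277)) (XT.lf (nat_lit 0) (nat_lit 214763591618)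 (nat_lit 152) (nat_lit 205363965087) (nat_lit 0) (nat_lit 63270865952) (nat_lit 22) (nat_lit 5) (nat_lit 24) (nat_lit 4) (nat_lit 22) (nat_lit 4) (nat_lit 383) (nat_lit 361) (nat_lit 276)))) (XT.nd (nat_lit 156) (nat_lit 152) (nat_lit 0) (XT.nd (nat_lit 78) (nat_lit 76) (nat_lit 0) (XT.lf (nat_lit 0) (nat_lit 102064363680) (nat_lit 76) (nat_lit 290073628929) (nat_lit 76) (nat_lit 138580766341) (nat_lit 21) (nat_lit 4) (nat_lit 22) (nat_lit 5) (nat_lit 22) (nat_lit 4) (nat_lit 384) (nat_lit 361) (nat_lit 275)) (XT.lf (nat_lit 0) (nat_lit 21249572879) (nat_lit 152) (nat_lit 105806399959) (nat_lit 76) (nat_lit 456326094500) (nat_lit 20) (nat_lit 5) (nat_lit 22) (nat_lit 5) (nat_lit 21) (nat_lit 4) (nat_lit 385) (nat_lit 361) (nat_lit 274))) (XT.nd (nat_lit 78) (nat_lit 76) (nat_lit 0) (XT.lf (nat_lit 0) (nat_lit 206009118733) (nat_lit 152) (nat_lit 360398486473) (nat_lit 0) (nat_lit 74276001183)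 (nat_lit 19) (nat_lit 5) (nat_lit 21) (nat_lit 4) (nat_lit 19) (nat_lit 4) (nat_lit 386) (nat_lit 361) (nat_lit 273)) (XT.lf (nat_lit 0) (nat_lit 26473439333) (nat_lit 76) (nat_lit 404949537850) (nat_lit 76) (nat_lit 273216342014) (nat_lit 18) (nat_lit 4) (nat_lit 19) (nat_lit 5) (nat_lit 19) (nat_lit 4) (nat_lit 387) (nat_lit 361) (nat_lit 272)))))) (XT.nd (nat_lit 546) (nat_lit 380) (nat_lit 0) (XT.nd (nat_lit 234) (nat_lit 304) (nat_lit 0) (XT.nd (nat_lit 78) (nat_lit 152) (nat_lit 0) (XT.lf (nat_lit 0) (nat_lit 511879494484) (nat_lit 76) (nat_lit 197608172719) (nat_lit 76) (nat_lit 65874908809) (nat_lit 18) (nat_lit 4) (nat_lit 19) (nat_lit 5) (nat_lit 19) (nat_lit 4) (nat_lit 388) (nat_lit 361) (nat_lit 271)) (XT.nd (nat_lit 78) (nat_lit 0) (nat_lit 0) (XT.lf (nat_lit 0) (nat_lit 169057168070) (nat_lit 152) (nat_lit 630280961318) (nat_lit 0) (nat_lit 54506452327) (nat_lit 16) (nat_lit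 5) (nat_lit 18) (nat_lit 4) (nat_lit 16) (nat_lit 4) (nat_lit 389) (nat_lit 361) (nat_lit 270)) (XT.lf (nat_lit 0) (nat_lit 456323234524) (nat_lit 152) (nat_lit 141956867578) (nat_lit 0) (nat_lit 341772474021) (nat_lit 16) (nat_lit 5) (nat_lit 18) (nat_lit 4) (nat_lit 16) (nat_lit 4) (nat_lit 390) (nat_lit 361) (nat_lit 269)))) (XT.nd (nat_lit 156) (nat_lit 76) (nat_lit 0) (XT.nd (nat_lit 78) (nat_lit 152) (nat_lit 0) (XT.lf (nat_lit 0) (nat_lit 460623284476) (nat_lit 76) (nat_lit 345129150519) (nat_lit 76) (nat_lit 230578351094) (nat_lit 15) (nat_lit 4) (nat_lit 16) (nat_lit 5) (nat_lit 16) (nat_lit 4) (nat_lit 391) (nat_lit 361) (nat_lit 268)) (XT.lf (nat_lit 0) (nat_lit 22773433980) (nat_lit 76) (nat_lit 41098318228) (nat_lit 152) (nat_lit 1081495423989) (nat_lit 13) (nat_lit 5) (nat_lit 14) (nat_lit 5) (nat_lit 15) (nat_lit 4) (nat_lit 392) (nat_lit 361) (nat_lit 267))) (XT.nd (nat_lit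 78) (nat_lit 76) (nat_lit 0) (XT.lf (nat_lit 0) (nat_lit 423185041647) (nat_lit 152) (nat_lit 515706023862) (nat_lit 0) (nat_lit 323575595821) (nat_lit 13) (nat_lit 5) (nat_lit 15) (nat_lit 4) (nat_lit 13) (nat_lit 4) (nat_lit 393) (nat_lit 361) (nat_lit 266)) (XT.lf (nat_lit 0) (nat_lit 197873483881) (nat_lit 76) (nat_lit 648672246291) (nat_lit 76) (nat_lit 549062778211) (nat_lit 12) (nat_lit 4) (nat_lit 13) (nat_lit 5) (nat_lit 13) (nat_lit 4) (nat_lit 394) (nat_lit 361) (nat_lit 265))))) (XT.nd (nat_lit 234) (nat_lit 228) (nat_lit 0) (XT.nd (nat_lit 78) (nat_lit 152) (nat_lit 0) (XT.lf (nat_lit 0) (nat_lit 1076447887954) (nat_lit 76) (nat_lit 283919826547) (nat_lit 76) (nat_lit 184310339116) (nat_lit 12) (nat_lit 4) (nat_lit 13) (nat_lit 5) (nat_lit 13) (nat_lit 4) (nat_lit 395) (nat_lit 361) (nat_lit 264)) (XT.nd (nat_lit 78) (nat_lit 0) (nat_lit 0) (XT.lf (nat_lit 0) (nat_lit 237484718671)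 (nat_lit 152) (nat_lit 1322805232569) (nat_lit 0) (nat_lit 150867758447) (nat_lit 10) (nat_lit 5) (nat_lit 12) (nat_lit 4) (nat_lit 10) (nat_lit 4) (nat_lit 396) (nat_lit 361) (nat_lit 263)) (XT.lf (nat_lit 0) (nat_lit 742840182098) (nat_lit 152) (nat_lit 496355268243) (nat_lit 0) (nat_lit 656223209151) (nat_lit 10) (nat_lit 5) (nat_lit 12) (nat_lit 4) (nat_lit 10) (nat_lit 4) (nat_lit 397) (nat_lit 361) (nat_lit 262)))) (XT.nd (nat_lit 156) (nat_lit 152) (nat_lit 0) (XT.nd (nat_lit 78) (nat_lit 0) (nat_lit 0) (XT.lf (nat_lit 0) (nat_lit 498436141316) (nat_lit 76) (nat_lit 846201868847) (nat_lit 76) (nat_lit 759584884836) (nat_lit 9) (nat_lit 4) (nat_lit 10) (nat_lit 5) (nat_lit 10) (nat_lit 4) (nat_lit 398) (nat_lit 361) (nat_lit 261)) (XT.lf (nat_lit 0) (nat_lit 1698229557315) (nat_lit 76) (nat_lit 364421672289) (nat_lit 76) (nat_lit 277804678656) (nat_lit 9) (nat_lit 4) (nat_lit 10) (nat_lit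 5) (nat_lit 10) (nat_lit 4) (nat_lit 399) (nat_lit 361) (nat_lit 260))) (XT.nd (nat_lit 78) (nat_lit 0) (nat_lit 0) (XT.lf (nat_lit 0) (nat_lit 281685589087) (nat_lit 152) (nat_lit 2117850627204) (nat_lit 0) (nat_lit 206366456915) (nat_lit 7) (nat_lit 5) (nat_lit 9) (nat_lit 4) (nat_lit 7) (nat_lit 4) (nat_lit 400) (nat_lit 361) (nat_lit 259)) (XT.lf (nat_lit 0) (nat_lit 949180325707) (nat_lit 152) (nat_lit 1078262195402) (nat_lit 0) (nat_lit 873861187209) (nat_lit 7) (nat_lit 5) (nat_lit 9) (nat_lit 4) (nat_lit 7) (nat_lit 4) (nat_lit 401) (nat_lit 361) (nat_lit 258))))))))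
noncomputable def xc82 : XT := (XT.nd (nat_lit 2028) (nat_lit 0) (nat_lit 0) (XT.nd (nat_lit 1014) (nat_lit 76) (nat_lit 0) (XT.nd (nat_lit 468) (nat_lit 228) (nat_lit 0) (XT.nd (nat_lit 234) (nat_lit 76) (nat_lit 0) (XT.nd (nat_lit 78) (nat_lit 0) (nat_lit 0) (XT.lf (nat_lit 0) (nat_lit 128724207113) (nat_lit 76) (nat_lit 1593405160669) (nat_lit 76) (nat_lit 1518086016670) (nat_lit 6) (nat_lit 4) (nat_lit 7) (nat_lit 5) (nat_lit 7) (nat_lit 4) (nat_lit 402) (nat_lit 361) (nat_lit 257)) (XT.nd (nat_lit 78) (nat_lit 0) (nat_lit 0) (XT.lf (nat_lit 0) (nat_lit 1637940333763) (nat_lit 76) (nat_lit 1029444042739) (nat_lit 76) (nat_lit 954124893956) (nat_lit 6) (nat_lit 4) (nat_lit 7) (nat_lit 5) (nat_lit 7) (nat_lit 4) (nat_lit 403) (nat_lit 361) (nat_lit 256)) (XT.lf (nat_lit 0) (nat_lit 3373538702514) (nat_lit 76) (nat_lit 380888851113) (nat_lit 76) (nat_lit 305569698171) (nat_lit 6) (nat_lit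 4) (nat_lit 7) (nat_lit 5) (nat_lit 7) (nat_lit 4) (nat_lit 404) (nat_lit 361) (nat_lit 255)))) (XT.nd (nat_lit 78) (nat_lit 0) (nat_lit 0) (XT.lf (nat_lit 0) (nat_lit 454528437830) (nat_lit 76) (nat_lit 3709943569969) (nat_lit 0) (nat_lit 389033519083) (nat_lit 5) (nat_lit 5) (nat_lit 6) (nat_lit 4) (nat_lit 5) (nat_lit 4) (nat_lit 405) (nat_lit 361) (nat_lit 254)) (XT.nd (nat_lit 78) (nat_lit 0) (nat_lit 0) (XT.lf (nat_lit 0) (nat_lit 1353086044123) (nat_lit 76) (nat_lit 2469820845773) (nat_lit 0) (nat_lit 1287591122641) (nat_lit 5) (nat_lit 5) (nat_lit 6) (nat_lit 4) (nat_lit 5) (nat_lit 4) (nat_lit 406) (nat_lit 361) (nat_lit 253)) (XT.lf (nat_lit 0) (nat_lit 2386427225767) (nat_lit 76) (nat_lit 1043679853202) (nat_lit 0) (nat_lit 2320932301908) (nat_lit 5) (nat_lit 5) (nat_lit 6) (nat_lit 4) (nat_lit 5) (nat_lit 4) (nat_lit 407) (nat_lit 361) (nat_lit 252))))) (XT.nd (nat_lit 234) (nat_lit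 152) (nat_lit 0) (XT.nd (nat_lit 78) (nat_lit 0) (nat_lit 0) (XT.lf (nat_lit 0) (nat_lit 654664968906) (nat_lit 76) (nat_lit 2947212839002) (nat_lit 76) (nat_lit 2881717913074) (nat_lit 4) (nat_lit 4) (nat_lit 5) (nat_lit 5) (nat_lit 5) (nat_lit 4) (nat_lit 408) (nat_lit 361) (nat_lit 251)) (XT.nd (nat_lit 78) (nat_lit 0) (nat_lit 0) (XT.lf (nat_lit 0) (nat_lit 2725056781416) (nat_lit 76) (nat_lit 2329145133863) (nat_lit 76) (nat_lit 2263650206137) (nat_lit 4) (nat_lit 4) (nat_lit 5) (nat_lit 5) (nat_lit 5) (nat_lit 4) (nat_lit 409) (nat_lit 361) (nat_lit 250)) (XT.lf (nat_lit 0) (nat_lit 5106007264571) (nat_lit 76) (nat_lit 1618367326866) (nat_lit 76) (nat_lit 1552872397577) (nat_lit 4) (nat_lit 4) (nat_lit 5) (nat_lit 5) (nat_lit 5) (nat_lit 4) (nat_lit 410) (nat_lit 361) (nat_lit 249)))) (XT.nd (nat_lit 156) (nat_lit 0) (nat_lit 0) (XT.nd (nat_lit 78) (nat_lit 152) (nat_lit 0) (XT.lf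 (nat_lit 0) (nat_lit 7844100232170) (nat_lit 76) (nat_lit 800972895701) (nat_lit 76) (nat_lit 735477965052) (nat_lit 4) (nat_lit 4) (nat_lit 5) (nat_lit 5) (nat_lit 5) (nat_lit 4) (nat_lit 411) (nat_lit 361) (nat_lit 248)) (XT.lf (nat_lit 0) (nat_lit 208434093333) (nat_lit 152) (nat_lit 10284846882783) (nat_lit 0) (nat_lit 151481978697) (nat_lit 2) (nat_lit 5) (nat_lit 4) (nat_lit 4) (nat_lit 2) (nat_lit 4) (nat_lit 412) (nat_lit 361) (nat_lit 247))) (XT.nd (nat_lit 78) (nat_lit 0) (nat_lit 0) (XT.lf (nat_lit 0) (nat_lit 1340914530675) (nat_lit 152) (nat_lit 9450134160422) (nat_lit 0) (nat_lit 1283962415145) (nat_lit 2) (nat_lit 5) (nat_lit 4) (nat_lit 4) (nat_lit 2) (nat_lit 4) (nat_lit 413) (nat_lit 361) (nat_lit 246)) (XT.lf (nat_lit 0) (nat_lit 2643267001049) (nat_lit 152) (nat_lit 8490214599481) (nat_lit 0) (nat_lit 2586314884741) (nat_lit 2) (nat_lit 5) (nat_lit 4) (nat_lit 4) (nat_lit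 2) (nat_lit 4) (nat_lit 414) (nat_lit 361) (nat_lit 245)))))) (XT.nd (nat_lit 468) (nat_lit 0) (nat_lit 0) (XT.nd (nat_lit 234) (nat_lit 76) (nat_lit 0) (XT.nd (nat_lit 78) (nat_lit 0) (nat_lit 0) (XT.lf (nat_lit 0) (nat_lit 4140972313658) (nat_lit 152) (nat_lit 7386307165071) (nat_lit 0) (nat_lit 4084020196674) (nat_lit 2) (nat_lit 5) (nat_lit 4) (nat_lit 4) (nat_lit 2) (nat_lit 4) (nat_lit 415) (nat_lit 361) (nat_lit 244)) (XT.nd (nat_lit 78) (nat_lit 0) (nat_lit 0) (XT.lf (nat_lit 0) (nat_lit 5863333398531) (nat_lit 152) (nat_lit 6116813668259) (nat_lit 0) (nat_lit 5806381280960) (nat_lit 2) (nat_lit 5) (nat_lit 4) (nat_lit 4) (nat_lit 2) (nat_lit 4) (nat_lit 416) (nat_lit 361) (nat_lit 243)) (XT.lf (nat_lit 0) (nat_lit 7844048624721) (nat_lit 152) (nat_lit 4656896192801) (nat_lit 0) (nat_lit 7787096506638) (nat_lit 2) (nat_lit 5) (nat_lit 4) (nat_lit 4) (nat_lit 2) (nat_lit 4) (nat_lit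 417) (nat_lit 361) (nat_lit 242)))) (XT.nd (nat_lit 78) (nat_lit 76) (nat_lit 0) (XT.lf (nat_lit 0) (nat_lit 10121871116217) (nat_lit 152) (nat_lit 2977991135919) (nat_lit 0) (nat_lit 10064918997690) (nat_lit 2) (nat_lit 5) (nat_lit 4) (nat_lit 4) (nat_lit 2) (nat_lit 4) (nat_lit 418) (nat_lit 361) (nat_lit 241)) (XT.nd (nat_lit 78) (nat_lit 76) (nat_lit 0) (XT.lf (nat_lit 0) (nat_lit 12741366965245) (nat_lit 152) (nat_lit 1047250355193) (nat_lit 0) (nat_lit 12684414846331) (nat_lit 2) (nat_lit 5) (nat_lit 4) (nat_lit 4) (nat_lit 2) (nat_lit 4) (nat_lit 419) (nat_lit 361) (nat_lit 240)) (XT.lf (nat_lit 0) (nat_lit 1287745523922) (nat_lit 76) (nat_lit 14519364449645) (nat_lit 76) (nat_lit 14462412330396) (nat_lit 1) (nat_lit 4) (nat_lit 2) (nat_lit 5) (nat_lit 2) (nat_lit 4) (nat_lit 420) (nat_lit 361) (nat_lit 239))))) (XT.nd (nat_lit 234) (nat_lit 0) (nat_lit 0) (XT.nd (nat_lit 78) (nat_lit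 0) (nat_lit 0) (XT.lf (nat_lit 0) (nat_lit 4090687415349) (nat_lit 76) (nat_lit 15296769636557) (nat_lit 76) (nat_lit 15239817517016) (nat_lit 1) (nat_lit 4) (nat_lit 2) (nat_lit 5) (nat_lit 2) (nat_lit 4) (nat_lit 421) (nat_lit 361) (nat_lit 238)) (XT.nd (nat_lit 78) (nat_lit 0) (nat_lit 0) (XT.lf (nat_lit 0) (nat_lit 7314070565451) (nat_lit 76) (nat_lit 16190785614860) (nat_lit 76) (nat_lit 16133833495065) (nat_lit 1) (nat_lit 4) (nat_lit 2) (nat_lit 5) (nat_lit 2) (nat_lit 4) (nat_lit 422) (nat_lit 361) (nat_lit 237)) (XT.lf (nat_lit 0) (nat_lit 11020961166297) (nat_lit 76) (nat_lit 17218904001521) (nat_lit 76) (nat_lit 17161951881505) (nat_lit 1) (nat_lit 4) (nat_lit 2) (nat_lit 5) (nat_lit 2) (nat_lit 4) (nat_lit 423) (nat_lit 361) (nat_lit 236)))) (XT.nd (nat_lit 156) (nat_lit 0) (nat_lit 0) (XT.nd (nat_lit 78) (nat_lit 0) (nat_lit 0) (XT.lf (nat_lit 0) (nat_lit 15283885338337) (nat_lit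 76) (nat_lit 18401240156280) (nat_lit 76) (nat_lit 18344288036070) (nat_lit 1) (nat_lit 4) (nat_lit 2) (nat_lit 5) (nat_lit 2) (nat_lit 4) (nat_lit 424) (nat_lit 361) (nat_lit 235)) (XT.lf (nat_lit 0) (nat_lit 20186248119720) (nat_lit 76) (nat_lit 19760926743032) (nat_lit 76) (nat_lit 19703974622656) (nat_lit 1) (nat_lit 4) (nat_lit 2) (nat_lit 5) (nat_lit 2) (nat_lit 4) (nat_lit 425) (nat_lit 361) (nat_lit 234))) (XT.nd (nat_lit 78) (nat_lit 0) (nat_lit 0) (XT.lf (nat_lit 0) (nat_lit 25823965303995) (nat_lit 76) (nat_lit 21324566325433) (nat_lit 76) (nat_lit 21267614204911) (nat_lit 1) (nat_lit 4) (nat_lit 2) (nat_lit 5) (nat_lit 2) (nat_lit 4) (nat_lit 426) (nat_lit 361) (nat_lit 233)) (XT.lf (nat_lit 0) (nat_lit 32307340053463) (nat_lit 76) (nat_lit 23122751851833) (nat_lit 76) (nat_lit 23065799731185) (nat_lit 1) (nat_lit 4) (nat_lit 2) (nat_lit 5) (nat_lit 2) (nat_lit 4) (nat_lit 427)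 (nat_lit 361) (nat_lit 232))))))) (XT.nd (nat_lit 48048) (nat_lit 0) (nat_lit 2128) (XT.nd (nat_lit 468) (nat_lit 0) (nat_lit 0) (XT.nd (nat_lit 234) (nat_lit 0) (nat_lit 0) (XT.nd (nat_lit 78) (nat_lit 0) (nat_lit 0) (XT.lf (nat_lit 0) (nat_lit 39763221004527) (nat_lit 76) (nat_lit 25190665212967) (nat_lit 76) (nat_lit 25133713092209) (nat_lit 1) (nat_lit 4) (nat_lit 2) (nat_lit 5) (nat_lit 2) (nat_lit 4) (nat_lit 428) (nat_lit 361) (nat_lit 231)) (XT.nd (nat_lit 78) (nat_lit 0) (nat_lit 0) (XT.lf (nat_lit 0) (nat_lit 48337484088837) (nat_lit 76) (nat_lit 27568765583291) (nat_lit 76) (nat_lit 27511813462438) (nat_lit 1) (nat_lit 4) (nat_lit 2) (nat_lit 5) (nat_lit 2) (nat_lit 4) (nat_lit 429) (nat_lit 361) (nat_lit 230)) (XT.lf (nat_lit 0) (nat_lit 58197886627609) (nat_lit 76) (nat_lit 30303581013530) (nat_lit 76) (nat_lit 30246628892594) (nat_lit 1) (nat_lit 4) (nat_lit 2) (nat_lit 5)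 (nat_lit 2) (nat_lit 4) (nat_lit 430) (nat_lit 361) (nat_lit 229)))) (XT.nd (nat_lit 78) (nat_lit 0) (nat_lit 0) (XT.lf (nat_lit 0) (nat_lit 69537349540079) (nat_lit 76) (nat_lit 33448618762100) (nat_lit 76) (nat_lit 33391666641092) (nat_lit 1) (nat_lit 4) (nat_lit 2) (nat_lit 5) (nat_lit 2) (nat_lit 4) (nat_lit 431) (nat_lit 361) (nat_lit 228)) (XT.nd (nat_lit 78) (nat_lit 0) (nat_lit 0) (XT.lf (nat_lit 0) (nat_lit 82577731883231) (nat_lit 76) (nat_lit 37065412176257) (nat_lit 76) (nat_lit 37008460055186) (nat_lit 1) (nat_lit 4) (nat_lit 2) (nat_lit 5) (nat_lit 2) (nat_lit 4) (nat_lit 432) (nat_lit 361) (nat_lit 227)) (XT.lf (nat_lit 0) (nat_lit 97574171572474) (nat_lit 76) (nat_lit 41224724605408) (nat_lit 76) (nat_lit 41167772484282) (nat_lit 1) (nat_lit 4) (nat_lit 2) (nat_lit 5) (nat_lit 2) (nat_lit 4) (nat_lit 433) (nat_lit 361) (nat_lit 226))))) (XT.nd (nat_lit 234) (nat_lit 0) (nat_lit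 0) (XT.nd (nat_lit 78) (nat_lit 0) (nat_lit 0) (XT.lf (nat_lit 0) (nat_lit 114820077210423) (nat_lit 76) (nat_lit 46007933901428) (nat_lit 76) (nat_lit 45950981780255) (nat_lit 1) (nat_lit 4) (nat_lit 2) (nat_lit 5) (nat_lit 2) (nat_lit 4) (nat_lit 434) (nat_lit 361) (nat_lit 225)) (XT.nd (nat_lit 78) (nat_lit 0) (nat_lit 0) (XT.lf (nat_lit 0) (nat_lit 134652868689995) (nat_lit 76) (nat_lit 51508624594021) (nat_lit 76) (nat_lit 51451672472806) (nat_lit 1) (nat_lit 4) (nat_lit 2) (nat_lit 5) (nat_lit 2) (nat_lit 4) (nat_lit 435) (nat_lit 361) (nat_lit 224)) (XT.lf (nat_lit 0) (nat_lit 157460578887965) (nat_lit 76) (nat_lit 57834418892390) (nat_lit 76) (nat_lit 57777466771140) (nat_lit 1) (nat_lit 4) (nat_lit 2) (nat_lit 5) (nat_lit 2) (nat_lit 4) (nat_lit 436) (nat_lit 361) (nat_lit 223)))) (XT.nd (nat_lit 156) (nat_lit 0) (nat_lit 0) (XT.nd (nat_lit 78) (nat_lit 0) (nat_lit 0) (XT.lf (nat_lit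 0) (nat_lit 183689445612553) (nat_lit 76) (nat_lit 65109082337156) (nat_lit 76) (nat_lit 65052130215875) (nat_lit 1) (nat_lit 4) (nat_lit 2) (nat_lit 5) (nat_lit 2) (nat_lit 4) (nat_lit 437) (nat_lit 361) (nat_lit 222)) (XT.lf (nat_lit 0) (nat_lit 213852642343153) (nat_lit 76) (nat_lit 73474945300065) (nat_lit 76) (nat_lit 73417993178755) (nat_lit 1) (nat_lit 4) (nat_lit 2) (nat_lit 5) (nat_lit 2) (nat_lit 4) (nat_lit 438) (nat_lit 361) (nat_lit 221))) (XT.nd (nat_lit 47112) (nat_lit 0) (nat_lit 3116) (XT.lf (nat_lit 0) (nat_lit 248540318581016) (nat_lit 76) (nat_lit 83095687708650) (nat_lit 76) (nat_lit 83038735587317) (nat_lit 1) (nat_lit 4) (nat_lit 2) (nat_lit 5) (nat_lit 2) (nat_lit 4) (nat_lit 439) (nat_lit 361) (nat_lit 220)) (XT.lf (nat_lit 0) (nat_lit 13028696943) (nat_lit 380) (nat_lit 15407452313) (nat_lit 380) (nat_lit 15407452313) (nat_lit 42) (nat_lit 3) (nat_lit 47) (nat_lit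 3) (nat_lit 47) (nat_lit 5) (nat_lit 362) (nat_lit 362) (nat_lit 296)))))) (XT.nd (nat_lit 546) (nat_lit 684) (nat_lit 0) (XT.nd (nat_lit 234) (nat_lit 304) (nat_lit 0) (XT.nd (nat_lit 78) (nat_lit 0) (nat_lit 76) (XT.lf (nat_lit 76) (nat_lit 14099512852) (nat_lit 0) (nat_lit 14503907017) (nat_lit 380) (nat_lit 65571563434) (nat_lit 43) (nat_lit 5) (nat_lit 42) (nat_lit 3) (nat_lit 47) (nat_lit 5) (nat_lit 363) (nat_lit 362) (nat_lit 295)) (XT.nd (nat_lit 78) (nat_lit 0) (nat_lit 0) (XT.lf (nat_lit 0) (nat_lit 34634380490) (nat_lit 304) (nat_lit 33674842492) (nat_lit 380) (nat_lit 32861253227) (nat_lit 43) (nat_lit 5) (nat_lit 47) (nat_lit 5) (nat_lit 48) (nat_lit 5) (nat_lit 364) (nat_lit 362) (nat_lit 294)) (XT.lf (nat_lit 76) (nat_lit 20850492881) (nat_lit 0) (nat_lit 22272295334) (nat_lit 380) (nat_lit 65859584672) (nat_lit 44) (nat_lit 5) (nat_lit 43) (nat_lit 5) (nat_lit 48) (nat_lit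 5) (nat_lit 365) (nat_lit 362) (nat_lit 293)))) (XT.nd (nat_lit 156) (nat_lit 152) (nat_lit 0) (XT.nd (nat_lit 78) (nat_lit 304) (nat_lit 0) (XT.lf (nat_lit 0) (nat_lit 55997437838) (nat_lit 304) (nat_lit 31717709440) (nat_lit 76) (nat_lit 29783959928) (nat_lit 44) (nat_lit 5) (nat_lit 48) (nat_lit 5) (nat_lit 45) (nat_lit 5) (nat_lit 366) (nat_lit 362) (nat_lit 292)) (XT.lf (nat_lit 0) (nat_lit 35233792413) (nat_lit 304) (nat_lit 38088074038) (nat_lit 380) (nat_lit 53593698207) (nat_lit 40) (nat_lit 5) (nat_lit 44) (nat_lit 5) (nat_lit 45) (nat_lit 5) (nat_lit 367) (nat_lit 362) (nat_lit 291))) (XT.nd (nat_lit 78) (nat_lit 152) (nat_lit 0) (XT.lf (nat_lit 0) (nat_lit 95767054560) (nat_lit 380) (nat_lit 22569186502) (nat_lit 76) (nat_lit 19029935574) (nat_lit 40) (nat_lit 5) (nat_lit 45) (nat_lit 5) (nat_lit 41) (nat_lit 5) (nat_lit 368) (nat_lit 362) (nat_lit 290)) (XT.lf (nat_lit 0) (nat_lit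 60480004499) (nat_lit 152) (nat_lit 65416321322) (nat_lit 228) (nat_lit 22840459014) (nat_lit 38) (nat_lit 5) (nat_lit 40) (nat_lit 5) (nat_lit 41) (nat_lit 5) (nat_lit 369) (nat_lit 362) (nat_lit 289))))) (XT.nd (nat_lit 234) (nat_lit 304) (nat_lit 0) (XT.nd (nat_lit 78) (nat_lit 304) (nat_lit 0) (XT.lf (nat_lit 0) (nat_lit 80089880) (nat_lit 228) (nat_lit 3117595142) (nat_lit 76) (nat_lit 158437895037) (nat_lit 37) (nat_lit 5) (nat_lit 40) (nat_lit 5) (nat_lit 38) (nat_lit 5) (nat_lit 370) (nat_lit 362) (nat_lit 288)) (XT.nd (nat_lit 78) (nat_lit 152) (nat_lit 0) (XT.lf (nat_lit 0) (nat_lit 31443920678) (nat_lit 228) (nat_lit 75890799267) (nat_lit 76) (nat_lit 67869784467) (nat_lit 35) (nat_lit 5) (nat_lit 38) (nat_lit 5) (nat_lit 36) (nat_lit 5) (nat_lit 371) (nat_lit 362) (nat_lit 287)) (XT.lf (nat_lit 0) (nat_lit 29106084471) (nat_lit 152) (nat_lit 39933865276) (nat_lit 228) (nat_lit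 121539674217) (nat_lit 33) (nat_lit 5) (nat_lit 35) (nat_lit 5) (nat_lit 36) (nat_lit 5) (nat_lit 372) (nat_lit 362) (nat_lit 286)))) (XT.nd (nat_lit 156) (nat_lit 228) (nat_lit 0) (XT.nd (nat_lit 78) (nat_lit 76) (nat_lit 0) (XT.lf (nat_lit 0) (nat_lit 117986734801) (nat_lit 228) (nat_lit 51030155408) (nat_lit 76) (nat_lit 38387418578) (nat_lit 33) (nat_lit 5) (nat_lit 36) (nat_lit 5) (nat_lit 34) (nat_lit 4) (nat_lit 373) (nat_lit 362) (nat_lit 285)) (XT.lf (nat_lit 0) (nat_lit 81316722738) (nat_lit 76) (nat_lit 98227091410) (nat_lit 152) (nat_lit 46418640777) (nat_lit 32) (nat_lit 5) (nat_lit 33) (nat_lit 5) (nat_lit 34) (nat_lit 4) (nat_lit 374) (nat_lit 362) (nat_lit 284))) (XT.nd (nat_lit 78) (nat_lit 152) (nat_lit 0) (XT.lf (nat_lit 0) (nat_lit 5554400599) (nat_lit 152) (nat_lit 7906757601) (nat_lit 76) (nat_lit 233405239409) (nat_lit 31) (nat_lit 5) (nat_lit 33) (nat_lit 5) (nat_lit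 32) (nat_lit 5) (nat_lit 375) (nat_lit 362) (nat_lit 283)) (XT.lf (nat_lit 0) (nat_lit 71161204434) (nat_lit 228) (nat_lit 111963277647) (nat_lit 76) (nat_lit 85861359307) (nat_lit 29) (nat_lit 5) (nat_lit 32) (nat_lit 5) (nat_lit 30) (nat_lit 4) (nat_lit 376) (nat_lit 362) (nat_lit 282))))))))
noncomputable def xc83 : XT := (XT.nd (nat_lit 2106) (nat_lit 380) (nat_lit 0) (XT.nd (nat_lit 1014) (nat_lit 912) (nat_lit 0) (XT.nd (nat_lit 468) (nat_lit 456) (nat_lit 0) (XT.nd (nat_lit 234) (nat_lit 152) (nat_lit 0) (XT.nd (nat_lit 78) (nat_lit 152) (nat_lit 0) (XT.lf (nat_lit 0) (nat_lit 57693579819) (nat_lit 76) (nat_lit 92378014912) (nat_lit 152) (nat_lit 143832222159) (nat_lit 28) (nat_lit 5) (nat_lit 29) (nat_lit 5) (nat_lit 30) (nat_lit 4) (nat_lit 377) (nat_lit 362) (nat_lit 281)) (XT.nd (nat_lit 78) (nat_lit 152) (nat_lit 0) (XT.lf (nat_lit 0) (nat_lit 247445562827) (nat_lit 152) (nat_lit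 57074977777) (nat_lit 0) (nat_lit 17044895261) (nat_lit 28) (nat_lit 5) (nat_lit 30) (nat_lit 4) (nat_lit 28) (nat_lit 4) (nat_lit 378) (nat_lit 362) (nat_lit 280)) (XT.lf (nat_lit 0) (nat_lit 17001278412) (nat_lit 152) (nat_lit 193848235686) (nat_lit 76) (nat_lit 140765634696) (nat_lit 26) (nat_lit 5) (nat_lit 28) (nat_lit 5) (nat_lit 27) (nat_lit 4) (nat_lit 379) (nat_lit 362) (nat_lit 279)))) (XT.nd (nat_lit 78) (nat_lit 76) (nat_lit 0) (XT.lf (nat_lit 0) (nat_lit 23988112684) (nat_lit 76) (nat_lit 94332525621) (nat_lit 152) (nat_lit 266704477878) (nat_lit 25) (nat_lit 5) (nat_lit 26) (nat_lit 5) (nat_lit 27) (nat_lit 4) (nat_lit 380) (nat_lit 362) (nat_lit 278)) (XT.nd (nat_lit 78) (nat_lit 76) (nat_lit 0) (XT.lf (nat_lit 0) (nat_lit 247095394804) (nat_lit 152) (nat_lit 127766294892) (nat_lit 0) (nat_lit 46746265110) (nat_lit 25) (nat_lit 5) (nat_lit 27) (nat_lit 4) (nat_lit 25) (nat_lit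 4) (nat_lit 381) (nat_lit 362) (nat_lit 277)) (XT.lf (nat_lit 0) (nat_lit 149293593243) (nat_lit 76) (nat_lit 256566443024) (nat_lit 76) (nat_lit 56217132251) (nat_lit 24) (nat_lit 4) (nat_lit 25) (nat_lit 5) (nat_lit 25) (nat_lit 4) (nat_lit 382) (nat_lit 362) (nat_lit 276))))) (XT.nd (nat_lit 234) (nat_lit 228) (nat_lit 0) (XT.nd (nat_lit 78) (nat_lit 152) (nat_lit 0) (XT.lf (nat_lit 0) (nat_lit 79712694175) (nat_lit 152) (nat_lit 28967175755) (nat_lit 76) (nat_lit 398391634981) (nat_lit 23) (nat_lit 5) (nat_lit 25) (nat_lit 5) (nat_lit 24) (nat_lit 4) (nat_lit 383) (nat_lit 362) (nat_lit 275)) (XT.nd (nat_lit 78) (nat_lit 76) (nat_lit 0) (XT.lf (nat_lit 0) (nat_lit 246981107924) (nat_lit 152) (nat_lit 236162571410) (nat_lit 0) (nat_lit 72764059963) (nat_lit 22) (nat_lit 5) (nat_lit 24) (nat_lit 4) (nat_lit 22) (nat_lit 4) (nat_lit 384) (nat_lit 362) (nat_lit 274)) (XT.lf (nat_lit 0) (nat_lit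 117379734471) (nat_lit 76) (nat_lit 333581782912) (nat_lit 76) (nat_lit 159364631419) (nat_lit 21) (nat_lit 4) (nat_lit 22) (nat_lit 5) (nat_lit 22) (nat_lit 4) (nat_lit 385) (nat_lit 362) (nat_lit 273)))) (XT.nd (nat_lit 156) (nat_lit 76) (nat_lit 0) (XT.nd (nat_lit 78) (nat_lit 76) (nat_lit 0) (XT.lf (nat_lit 0) (nat_lit 24439583199) (nat_lit 152) (nat_lit 121672137641) (nat_lit 76) (nat_lit 524777270359) (nat_lit 20) (nat_lit 5) (nat_lit 22) (nat_lit 5) (nat_lit 21) (nat_lit 4) (nat_lit 386) (nat_lit 362) (nat_lit 272)) (XT.lf (nat_lit 0) (nat_lit 236913036730) (nat_lit 152) (nat_lit 414453012860) (nat_lit 0) (nat_lit 85419715159) (nat_lit 19) (nat_lit 5) (nat_lit 21) (nat_lit 4) (nat_lit 19) (nat_lit 4) (nat_lit 387) (nat_lit 362) (nat_lit 271))) (XT.nd (nat_lit 78) (nat_lit 0) (nat_lit 0) (XT.lf (nat_lit 0) (nat_lit 30449463336) (nat_lit 76) (nat_lit 465689385352) (nat_lit 76) (nat_lit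 314196004587) (nat_lit 18) (nat_lit 4) (nat_lit 19) (nat_lit 5) (nat_lit 19) (nat_lit 4) (nat_lit 388) (nat_lit 362) (nat_lit 270)) (XT.lf (nat_lit 0) (nat_lit 588665773528) (nat_lit 76) (nat_lit 227247152388) (nat_lit 76) (nat_lit 75753720149) (nat_lit 18) (nat_lit 4) (nat_lit 19) (nat_lit 5) (nat_lit 19) (nat_lit 4) (nat_lit 389) (nat_lit 362) (nat_lit 269)))))) (XT.nd (nat_lit 546) (nat_lit 456) (nat_lit 0) (XT.nd (nat_lit 234) (nat_lit 228) (nat_lit 0) (XT.nd (nat_lit 78) (nat_lit 76) (nat_lit 0) (XT.lf (nat_lit 0) (nat_lit 194417938537) (nat_lit 152) (nat_lit 724818520830) (nat_lit 0) (nat_lit 62684480277) (nat_lit 16) (nat_lit 5) (nat_lit 18) (nat_lit 4) (nat_lit 16) (nat_lit 4) (nat_lit 390) (nat_lit 362) (nat_lit 268)) (XT.nd (nat_lit 78) (nat_lit 76) (nat_lit 0) (XT.lf (nat_lit 0) (nat_lit 524773628621) (nat_lit 152) (nat_lit 163246411032) (nat_lit 0) (nat_lit 393040136516) (nat_lit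 16) (nat_lit 5) (nat_lit 18) (nat_lit 4) (nat_lit 16) (nat_lit 4) (nat_lit 391) (nat_lit 362) (nat_lit 267)) (XT.lf (nat_lit 0) (nat_lit 529720582618) (nat_lit 76) (nat_lit 396896535132) (nat_lit 76) (nat_lit 265163013596) (nat_lit 15) (nat_lit 4) (nat_lit 16) (nat_lit 5) (nat_lit 16) (nat_lit 4) (nat_lit 392) (nat_lit 362) (nat_lit 266)))) (XT.nd (nat_lit 156) (nat_lit 76) (nat_lit 0) (XT.nd (nat_lit 78) (nat_lit 0) (nat_lit 0) (XT.lf (nat_lit 0) (nat_lit 26193259220) (nat_lit 76) (nat_lit 47261069313) (nat_lit 152) (nat_lit 1243717652048) (nat_lit 13) (nat_lit 5) (nat_lit 14) (nat_lit 5) (nat_lit 15) (nat_lit 4) (nat_lit 393) (nat_lit 362) (nat_lit 265)) (XT.lf (nat_lit 0) (nat_lit 486664446737) (nat_lit 152) (nat_lit 593058449604) (nat_lit 0) (nat_lit 372113516841) (nat_lit 13) (nat_lit 5) (nat_lit 15) (nat_lit 4) (nat_lit 13) (nat_lit 4) (nat_lit 394) (nat_lit 362) (nat_lit 264))) (XT.nd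 (nat_lit 78) (nat_lit 0) (nat_lit 0) (XT.lf (nat_lit 0) (nat_lit 227557826217) (nat_lit 76) (nat_lit 745971334721) (nat_lit 76) (nat_lit 631420387998) (nat_lit 12) (nat_lit 4) (nat_lit 13) (nat_lit 5) (nat_lit 13) (nat_lit 4) (nat_lit 395) (nat_lit 362) (nat_lit 263)) (XT.lf (nat_lit 0) (nat_lit 1237917957889) (nat_lit 76) (nat_lit 326506280083) (nat_lit 76) (nat_lit 211955318728) (nat_lit 12) (nat_lit 4) (nat_lit 13) (nat_lit 5) (nat_lit 13) (nat_lit 4) (nat_lit 396) (nat_lit 362) (nat_lit 262))))) (XT.nd (nat_lit 234) (nat_lit 228) (nat_lit 0) (XT.nd (nat_lit 78) (nat_lit 76) (nat_lit 0) (XT.lf (nat_lit 0) (nat_lit 273108853910) (nat_lit 152) (nat_lit 1521222986870) (nat_lit 0) (nat_lit 173499311232) (nat_lit 10) (nat_lit 5) (nat_lit 12) (nat_lit 4) (nat_lit 10) (nat_lit 4) (nat_lit 397) (nat_lit 362) (nat_lit 261)) (XT.nd (nat_lit 78) (nat_lit 76) (nat_lit 0) (XT.lf (nat_lit 0) (nat_lit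 854267450664) (nat_lit 152) (nat_lit 570805923188) (nat_lit 0) (nat_lit 754657898366) (nat_lit 10) (nat_lit 5) (nat_lit 12) (nat_lit 4) (nat_lit 10) (nat_lit 4) (nat_lit 398) (nat_lit 362) (nat_lit 260)) (XT.lf (nat_lit 0) (nat_lit 573204078019) (nat_lit 76) (nat_lit 973130817180) (nat_lit 76) (nat_lit 873521256516) (nat_lit 9) (nat_lit 4) (nat_lit 10) (nat_lit 5) (nat_lit 10) (nat_lit 4) (nat_lit 399) (nat_lit 362) (nat_lit 259)))) (XT.nd (nat_lit 156) (nat_lit 76) (nat_lit 0) (XT.nd (nat_lit 78) (nat_lit 152) (nat_lit 0) (XT.lf (nat_lit 0) (nat_lit 1952966178308) (nat_lit 76) (nat_lit 419083764876) (nat_lit 76) (nat_lit 319474196937) (nat_lit 9) (nat_lit 4) (nat_lit 10) (nat_lit 5) (nat_lit 10) (nat_lit 4) (nat_lit 400) (nat_lit 362) (nat_lit 258)) (XT.lf (nat_lit 0) (nat_lit 323939503648) (nat_lit 152) (nat_lit 2435525926556) (nat_lit 0) (nat_lit 237322482548) (nat_lit 7) (nat_lit 5)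 (nat_lit 9) (nat_lit 4) (nat_lit 7) (nat_lit 4) (nat_lit 401) (nat_lit 362) (nat_lit 257))) (XT.nd (nat_lit 78) (nat_lit 76) (nat_lit 0) (XT.lf (nat_lit 0) (nat_lit 1091558310387) (nat_lit 152) (nat_lit 1239999529296) (nat_lit 0) (nat_lit 1004941284504) (nat_lit 7) (nat_lit 5) (nat_lit 9) (nat_lit 4) (nat_lit 7) (nat_lit 4) (nat_lit 402) (nat_lit 362) (nat_lit 256)) (XT.lf (nat_lit 0) (nat_lit 148034742895) (nat_lit 76) (nat_lit 1832414922684) (nat_lit 76) (nat_lit 1745797892642) (nat_lit 6) (nat_lit 4) (nat_lit 7) (nat_lit 5) (nat_lit 7) (nat_lit 4) (nat_lit 403) (nat_lit 362) (nat_lit 255))))))) (XT.nd (nat_lit 1014) (nat_lit 76) (nat_lit 0) (XT.nd (nat_lit 468) (nat_lit 152) (nat_lit 0) (XT.nd (nat_lit 234) (nat_lit 76) (nat_lit 0) (XT.nd (nat_lit 78) (nat_lit 76) (nat_lit 0) (XT.lf (nat_lit 0) (nat_lit 1883633040101) (nat_lit 76) (nat_lit 1183859769075) (nat_lit 76) (nat_lit 1097242735416)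 (nat_lit 6) (nat_lit 4) (nat_lit 7) (nat_lit 5) (nat_lit 7) (nat_lit 4) (nat_lit 404) (nat_lit 362) (nat_lit 254)) (XT.nd (nat_lit 78) (nat_lit 76) (nat_lit 0) (XT.lf (nat_lit 0) (nat_lit 3879570948130) (nat_lit 76) (nat_lit 438021413498) (nat_lit 76) (nat_lit 351404376694) (nat_lit 6) (nat_lit 4) (nat_lit 7) (nat_lit 5) (nat_lit 7) (nat_lit 4) (nat_lit 405) (nat_lit 362) (nat_lit 253)) (XT.lf (nat_lit 0) (nat_lit 522708409759) (nat_lit 76) (nat_lit 4266433595272) (nat_lit 0) (nat_lit 447389244943) (nat_lit 5) (nat_lit 5) (nat_lit 6) (nat_lit 4) (nat_lit 5) (nat_lit 4) (nat_lit 406) (nat_lit 362) (nat_lit 252)))) (XT.nd (nat_lit 78) (nat_lit 76) (nat_lit 0) (XT.lf (nat_lit 0) (nat_lit 1556049564876) (nat_lit 76) (nat_lit 2840292659428) (nat_lit 0) (nat_lit 1480730397991) (nat_lit 5) (nat_lit 5) (nat_lit 6) (nat_lit 4) (nat_lit 5) (nat_lit 4) (nat_lit 407) (nat_lit 362) (nat_lit 251)) (XT.nd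 (nat_lit 78) (nat_lit 76) (nat_lit 0) (XT.lf (nat_lit 0) (nat_lit 2744391843662) (nat_lit 76) (nat_lit 1200230689260) (nat_lit 0) (nat_lit 2669072674980) (nat_lit 5) (nat_lit 5) (nat_lit 6) (nat_lit 4) (nat_lit 5) (nat_lit 4) (nat_lit 408) (nat_lit 362) (nat_lit 250)) (XT.lf (nat_lit 0) (nat_lit 752865804259) (nat_lit 76) (nat_lit 3389294184344) (nat_lit 76) (nat_lit 3313975014098) (nat_lit 4) (nat_lit 4) (nat_lit 5) (nat_lit 5) (nat_lit 5) (nat_lit 4) (nat_lit 409) (nat_lit 362) (nat_lit 249))))) (XT.nd (nat_lit 234) (nat_lit 152) (nat_lit 0) (XT.nd (nat_lit 78) (nat_lit 0) (nat_lit 0) (XT.lf (nat_lit 0) (nat_lit 3133816246470) (nat_lit 76) (nat_lit 2678516399153) (nat_lit 76) (nat_lit 2603197227547) (nat_lit 4) (nat_lit 4) (nat_lit 5) (nat_lit 5) (nat_lit 5) (nat_lit 4) (nat_lit 410) (nat_lit 362) (nat_lit 248)) (XT.nd (nat_lit 78) (nat_lit 0) (nat_lit 0) (XT.lf (nat_lit 0) (nat_lit 5871909178466)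 (nat_lit 76) (nat_lit 1861121986949) (nat_lit 76) (nat_lit 1785802814161) (nat_lit 4) (nat_lit 4) (nat_lit 5) (nat_lit 5) (nat_lit 5) (nat_lit 4) (nat_lit 411) (nat_lit 362) (nat_lit 247)) (XT.lf (nat_lit 0) (nat_lit 9020715983699) (nat_lit 76) (nat_lit 921118448363) (nat_lit 76) (nat_lit 845799274547) (nat_lit 4) (nat_lit 4) (nat_lit 5) (nat_lit 5) (nat_lit 5) (nat_lit 4) (nat_lit 412) (nat_lit 362) (nat_lit 246)))) (XT.nd (nat_lit 156) (nat_lit 0) (nat_lit 0) (XT.nd (nat_lit 78) (nat_lit 0) (nat_lit 0) (XT.lf (nat_lit 0) (nat_lit 239699558021) (nat_lit 152) (nat_lit 11827573163920) (nat_lit 0) (nat_lit 174204623490) (nat_lit 2) (nat_lit 5) (nat_lit 4) (nat_lit 4) (nat_lit 2) (nat_lit 4) (nat_lit 413) (nat_lit 362) (nat_lit 245)) (XT.lf (nat_lit 0) (nat_lit 1542052015222) (nat_lit 152) (nat_lit 10867653631198) (nat_lit 0) (nat_lit 1476557080015) (nat_lit 2) (nat_lit 5) (nat_lit 4) (nat_lit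 4) (nat_lit 2) (nat_lit 4) (nat_lit 414) (nat_lit 362) (nat_lit 244))) (XT.nd (nat_lit 78) (nat_lit 0) (nat_lit 0) (XT.lf (nat_lit 0) (nat_lit 3039757316377) (nat_lit 152) (nat_lit 9763746221327) (nat_lit 0) (nat_lit 2974262380582) (nat_lit 2) (nat_lit 5) (nat_lit 4) (nat_lit 4) (nat_lit 2) (nat_lit 4) (nat_lit 415) (nat_lit 362) (nat_lit 243)) (XT.lf (nat_lit 0) (nat_lit 4762118391290) (nat_lit 152) (nat_lit 8494252745853) (nat_lit 0) (nat_lit 4696623454984) (nat_lit 2) (nat_lit 5) (nat_lit 4) (nat_lit 4) (nat_lit 2) (nat_lit 4) (nat_lit 416) (nat_lit 362) (nat_lit 242)))))) (XT.nd (nat_lit 546) (nat_lit 0) (nat_lit 0) (XT.nd (nat_lit 234) (nat_lit 76) (nat_lit 0) (XT.nd (nat_lit 78) (nat_lit 0) (nat_lit 0) (XT.lf (nat_lit 0) (nat_lit 6742833608818) (nat_lit 152) (nat_lit 7034335288951) (nat_lit 0) (nat_lit 6677338672068) (nat_lit 2) (nat_lit 5) (nat_lit 4) (nat_lit 4) (nat_lit 2) (nat_lit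 4) (nat_lit 417) (nat_lit 362) (nat_lit 241)) (XT.nd (nat_lit 78) (nat_lit 0) (nat_lit 0) (XT.lf (nat_lit 0) (nat_lit 9020656092783) (nat_lit 152) (nat_lit 5355430248202) (nat_lit 0) (nat_lit 8955161155646) (nat_lit 2) (nat_lit 5) (nat_lit 4) (nat_lit 4) (nat_lit 2) (nat_lit 4) (nat_lit 418) (nat_lit 362) (nat_lit 240)) (XT.lf (nat_lit 0) (nat_lit 11640151935261) (nat_lit 152) (nat_lit 3424689481507) (nat_lit 0) (nat_lit 11574656997788) (nat_lit 2) (nat_lit 5) (nat_lit 4) (nat_lit 4) (nat_lit 2) (nat_lit 4) (nat_lit 419) (nat_lit 362) (nat_lit 239)))) (XT.nd (nat_lit 156) (nat_lit 0) (nat_lit 0) (XT.nd (nat_lit 78) (nat_lit 76) (nat_lit 0) (XT.lf (nat_lit 0) (nat_lit 14652572141868) (nat_lit 152) (nat_lit 1204337626038) (nat_lit 0) (nat_lit 14587077204103) (nat_lit 2) (nat_lit 5) (nat_lit 4) (nat_lit 4) (nat_lit 2) (nat_lit 4) (nat_lit 420) (nat_lit 362) (nat_lit 238)) (XT.lf (nat_lit 0)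 (nat_lit 1480907622107) (nat_lit 76) (nat_lit 16697268973300) (nat_lit 76) (nat_lit 16631774035280) (nat_lit 1) (nat_lit 4) (nat_lit 2) (nat_lit 5) (nat_lit 2) (nat_lit 4) (nat_lit 421) (nat_lit 362) (nat_lit 237))) (XT.nd (nat_lit 78) (nat_lit 0) (nat_lit 0) (XT.lf (nat_lit 0) (nat_lit 4704290762083) (nat_lit 76) (nat_lit 17591284957004) (nat_lit 76) (nat_lit 17525790018764) (nat_lit 1) (nat_lit 4) (nat_lit 2) (nat_lit 5) (nat_lit 2) (nat_lit 4) (nat_lit 422) (nat_lit 362) (nat_lit 236)) (XT.lf (nat_lit 0) (nat_lit 8411181354123) (nat_lit 76) (nat_lit 18619403348362) (nat_lit 76) (nat_lit 18553908409929) (nat_lit 1) (nat_lit 4) (nat_lit 2) (nat_lit 5) (nat_lit 2) (nat_lit 4) (nat_lit 423) (nat_lit 362) (nat_lit 235))))) (XT.nd (nat_lit 234) (nat_lit 0) (nat_lit 0) (XT.nd (nat_lit 78) (nat_lit 0) (nat_lit 0) (XT.lf (nat_lit 0) (nat_lit 12674105518506) (nat_lit 76) (nat_lit 19801739507204)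 (nat_lit 76) (nat_lit 19736244568604) (nat_lit 1) (nat_lit 4) (nat_lit 2) (nat_lit 5) (nat_lit 2) (nat_lit 4) (nat_lit 424) (nat_lit 362) (nat_lit 234)) (XT.nd (nat_lit 78) (nat_lit 0) (nat_lit 0) (XT.lf (nat_lit 0) (nat_lit 17576468293230) (nat_lit 76) (nat_lit 21161426097508) (nat_lit 76) (nat_lit 21095931158763) (nat_lit 1) (nat_lit 4) (nat_lit 2) (nat_lit 5) (nat_lit 2) (nat_lit 4) (nat_lit 425) (nat_lit 362) (nat_lit 233)) (XT.lf (nat_lit 0) (nat_lit 23214185471715) (nat_lit 76) (nat_lit 22725065682997) (nat_lit 76) (nat_lit 22659570744125) (nat_lit 1) (nat_lit 4) (nat_lit 2) (nat_lit 5) (nat_lit 2) (nat_lit 4) (nat_lit 426) (nat_lit 362) (nat_lit 232)))) (XT.nd (nat_lit 156) (nat_lit 0) (nat_lit 0) (XT.nd (nat_lit 78) (nat_lit 0) (nat_lit 0) (XT.lf (nat_lit 0) (nat_lit 29697560216149) (nat_lit 76) (nat_lit 24523251212082) (nat_lit 76) (nat_lit 24457756273101) (nat_lit 1) (nat_lit 4)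 (nat_lit 2) (nat_lit 5) (nat_lit 2) (nat_lit 4) (nat_lit 427) (nat_lit 362) (nat_lit 231)) (XT.lf (nat_lit 0) (nat_lit 37153441162834) (nat_lit 76) (nat_lit 26591164575551) (nat_lit 76) (nat_lit 26525669636475) (nat_lit 1) (nat_lit 4) (nat_lit 2) (nat_lit 5) (nat_lit 2) (nat_lit 4) (nat_lit 428) (nat_lit 362) (nat_lit 230))) (XT.nd (nat_lit 78) (nat_lit 0) (nat_lit 0) (XT.lf (nat_lit 0) (nat_lit 45727704243338) (nat_lit 76) (nat_lit 28969264947906) (nat_lit 76) (nat_lit 28903770008746) (nat_lit 1) (nat_lit 4) (nat_lit 2) (nat_lit 5) (nat_lit 2) (nat_lit 4) (nat_lit 429) (nat_lit 362) (nat_lit 229)) (XT.lf (nat_lit 0) (nat_lit 55588106778799) (nat_lit 76) (nat_lit 31704080379910) (nat_lit 76) (nat_lit 31638585440678) (nat_lit 1) (nat_lit 4) (nat_lit 2) (nat_lit 5) (nat_lit 2) (nat_lit 4) (nat_lit 430) (nat_lit 362) (nat_lit 228))))))))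
noncomputable def xc84 : XT := (XT.nd (nat_lit 49218) (nat_lit 0) (nat_lit 304) (XT.nd (nat_lit 48204) (nat_lit 0) (nat_lit 1900) (XT.nd (nat_lit 468) (nat_lit 0) (nat_lit 0) (XT.nd (nat_lit 234) (nat_lit 0) (nat_lit 0) (XT.nd (nat_lit 78) (nat_lit 0) (nat_lit 0) (XT.lf (nat_lit 0) (nat_lit 66927569688391) (nat_lit 76) (nat_lit 34849118130016) (nat_lit 76) (nat_lit 34783623190721) (nat_lit 1) (nat_lit 4) (nat_lit 2) (nat_lit 5) (nat_lit 2) (nat_lit 4) (nat_lit 431) (nat_lit 362) (nat_lit 227)) (XT.nd (nat_lit 78) (nat_lit 0) (nat_lit 0) (XT.lf (nat_lit 0) (nat_lit 79967952029039) (nat_lit 76) (nat_lit 38465911545508) (nat_lit 76) (nat_lit 38400416606159) (nat_lit 1) (nat_lit 4) (nat_lit 2) (nat_lit 5) (nat_lit 2) (nat_lit 4) (nat_lit 432) (nat_lit 362) (nat_lit 226)) (XT.lf (nat_lit 0) (nat_lit 94964391716105) (nat_lit 76) (nat_lit 42625223975820) (nat_lit 76) (nat_lit 42559729036423) (nat_lit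 1) (nat_lit 4) (nat_lit 2) (nat_lit 5) (nat_lit 2) (nat_lit 4) (nat_lit 433) (nat_lit 362) (nat_lit 225)))) (XT.nd (nat_lit 78) (nat_lit 0) (nat_lit 0) (XT.lf (nat_lit 0) (nat_lit 112210297352161) (nat_lit 76) (nat_lit 47408433272849) (nat_lit 76) (nat_lit 47342938333411) (nat_lit 1) (nat_lit 4) (nat_lit 2) (nat_lit 5) (nat_lit 2) (nat_lit 4) (nat_lit 434) (nat_lit 362) (nat_lit 224)) (XT.nd (nat_lit 78) (nat_lit 0) (nat_lit 0) (XT.lf (nat_lit 0) (nat_lit 132043088830088) (nat_lit 76) (nat_lit 52909123966320) (nat_lit 76) (nat_lit 52843629026846) (nat_lit 1) (nat_lit 4) (nat_lit 2) (nat_lit 5) (nat_lit 2) (nat_lit 4) (nat_lit 435) (nat_lit 362) (nat_lit 223)) (XT.lf (nat_lit 0) (nat_lit 154850799026626) (nat_lit 76) (nat_lit 59234918265453) (nat_lit 76) (nat_lit 59169423325948) (nat_lit 1) (nat_lit 4) (nat_lit 2) (nat_lit 5) (nat_lit 2) (nat_lit 4) (nat_lit 436) (nat_lit 362) (nat_lit 222)))))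 (XT.nd (nat_lit 47424) (nat_lit 0) (nat_lit 3116) (XT.nd (nat_lit 78) (nat_lit 0) (nat_lit 0) (XT.lf (nat_lit 0) (nat_lit 181079665749970) (nat_lit 76) (nat_lit 66509581710883) (nat_lit 76) (nat_lit 66444086771350) (nat_lit 1) (nat_lit 4) (nat_lit 2) (nat_lit 5) (nat_lit 2) (nat_lit 4) (nat_lit 437) (nat_lit 362) (nat_lit 221)) (XT.nd (nat_lit 47268) (nat_lit 0) (nat_lit 3116) (XT.lf (nat_lit 0) (nat_lit 211242862479488) (nat_lit 76) (nat_lit 74875444674368) (nat_lit 76) (nat_lit 74809949734812) (nat_lit 1) (nat_lit 4) (nat_lit 2) (nat_lit 5) (nat_lit 2) (nat_lit 4) (nat_lit 438) (nat_lit 362) (nat_lit 220)) (XT.lf (nat_lit 0) (nat_lit 14990565430) (nat_lit 380) (nat_lit 17714220002) (nat_lit 380) (nat_lit 17714220002) (nat_lit 42) (nat_lit 3) (nat_lit 47) (nat_lit 3) (nat_lit 47) (nat_lit 5) (nat_lit 363) (nat_lit 363) (nat_lit 294)))) (XT.nd (nat_lit 156) (nat_lit 0) (nat_lit 76) (XT.nd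 (nat_lit 78) (nat_lit 0) (nat_lit 76) (XT.lf (nat_lit 76) (nat_lit 16222744629) (nat_lit 0) (nat_lit 16684686795) (nat_lit 380) (nat_lit 75391771492) (nat_lit 43) (nat_lit 5) (nat_lit 42) (nat_lit 3) (nat_lit 47) (nat_lit 5) (nat_lit 364) (nat_lit 363) (nat_lit 293)) (XT.lf (nat_lit 0) (nat_lit 39841088445) (nat_lit 304) (nat_lit 38716896872) (nat_lit 380) (nat_lit 37786326999) (nat_lit 43) (nat_lit 5) (nat_lit 47) (nat_lit 5) (nat_lit 48) (nat_lit 5) (nat_lit 365) (nat_lit 363) (nat_lit 292))) (XT.nd (nat_lit 78) (nat_lit 0) (nat_lit 76) (XT.lf (nat_lit 76) (nat_lit 23986821898) (nat_lit 0) (nat_lit 25614791323) (nat_lit 380) (nat_lit 75726552242) (nat_lit 44) (nat_lit 5) (nat_lit 43) (nat_lit 5) (nat_lit 48) (nat_lit 5) (nat_lit 366) (nat_lit 363) (nat_lit 291)) (XT.lf (nat_lit 0) (nat_lit 64406043410) (nat_lit 304) (nat_lit 36466333826) (nat_lit 76) (nat_lit 34250245531) (nat_lit 44)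 (nat_lit 5) (nat_lit 48) (nat_lit 5) (nat_lit 45) (nat_lit 5) (nat_lit 367) (nat_lit 363) (nat_lit 290)))))) (XT.nd (nat_lit 468) (nat_lit 532) (nat_lit 0) (XT.nd (nat_lit 234) (nat_lit 380) (nat_lit 0) (XT.nd (nat_lit 78) (nat_lit 152) (nat_lit 0) (XT.lf (nat_lit 0) (nat_lit 40527482759) (nat_lit 304) (nat_lit 43800837958) (nat_lit 380) (nat_lit 61623350725) (nat_lit 40) (nat_lit 5) (nat_lit 44) (nat_lit 5) (nat_lit 45) (nat_lit 5) (nat_lit 368) (nat_lit 363) (nat_lit 289)) (XT.nd (nat_lit 78) (nat_lit 152) (nat_lit 0) (XT.lf (nat_lit 0) (nat_lit 110139236932) (nat_lit 380) (nat_lit 25946015884) (nat_lit 76) (nat_lit 21884780149) (nat_lit 40) (nat_lit 5) (nat_lit 45) (nat_lit 5) (nat_lit 41) (nat_lit 5) (nat_lit 369) (nat_lit 363) (nat_lit 288)) (XT.lf (nat_lit 0) (nat_lit 69560165195) (nat_lit 152) (nat_lit 75227142334) (nat_lit 228) (nat_lit 26259013768) (nat_lit 38) (nat_lit 5) (nat_lit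 40) (nat_lit 5) (nat_lit 41) (nat_lit 5) (nat_lit 370) (nat_lit 363) (nat_lit 287)))) (XT.nd (nat_lit 78) (nat_lit 304) (nat_lit 0) (XT.lf (nat_lit 0) (nat_lit 98055659) (nat_lit 228) (nat_lit 3577556030) (nat_lit 76) (nat_lit 182204411524) (nat_lit 37) (nat_lit 5) (nat_lit 40) (nat_lit 5) (nat_lit 38) (nat_lit 5) (nat_lit 371) (nat_lit 363) (nat_lit 286)) (XT.nd (nat_lit 78) (nat_lit 152) (nat_lit 0) (XT.lf (nat_lit 0) (nat_lit 36166064786) (nat_lit 228) (nat_lit 87266343603) (nat_lit 76) (nat_lit 78051937404) (nat_lit 35) (nat_lit 5) (nat_lit 38) (nat_lit 5) (nat_lit 36) (nat_lit 5) (nat_lit 372) (nat_lit 363) (nat_lit 285)) (XT.lf (nat_lit 0) (nat_lit 33479705626) (nat_lit 152) (nat_lit 45921387085) (nat_lit 228) (nat_lit 139764701507) (nat_lit 33) (nat_lit 5) (nat_lit 35) (nat_lit 5) (nat_lit 36) (nat_lit 5) (nat_lit 373) (nat_lit 363) (nat_lit 284))))) (XT.nd (nat_lit 234) (nat_lit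 380) (nat_lit 0) (XT.nd (nat_lit 78) (nat_lit 152) (nat_lit 0) (XT.lf (nat_lit 0) (nat_lit 135689315824) (nat_lit 228) (nat_lit 58677395324) (nat_lit 76) (nat_lit 44147557671) (nat_lit 33) (nat_lit 5) (nat_lit 36) (nat_lit 5) (nat_lit 34) (nat_lit 4) (nat_lit 374) (nat_lit 363) (nat_lit 283)) (XT.nd (nat_lit 78) (nat_lit 76) (nat_lit 0) (XT.lf (nat_lit 0) (nat_lit 93521183481) (nat_lit 76) (nat_lit 112958465282) (nat_lit 152) (nat_lit 53376534449) (nat_lit 32) (nat_lit 5) (nat_lit 33) (nat_lit 5) (nat_lit 34) (nat_lit 4) (nat_lit 375) (nat_lit 363) (nat_lit 282)) (XT.lf (nat_lit 0) (nat_lit 6391444163) (nat_lit 152) (nat_lit 9086345776) (nat_lit 76) (nat_lit 268417984352) (nat_lit 31) (nat_lit 5) (nat_lit 33) (nat_lit 5) (nat_lit 32) (nat_lit 5) (nat_lit 376) (nat_lit 363) (nat_lit 281)))) (XT.nd (nat_lit 156) (nat_lit 152) (nat_lit 0) (XT.nd (nat_lit 78) (nat_lit 76) (nat_lit 0) (XT.lf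 (nat_lit 0) (nat_lit 81839119627) (nat_lit 228) (nat_lit 128751194503) (nat_lit 76) (nat_lit 98742842907) (nat_lit 29) (nat_lit 5) (nat_lit 32) (nat_lit 5) (nat_lit 30) (nat_lit 4) (nat_lit 377) (nat_lit 363) (nat_lit 280)) (XT.lf (nat_lit 0) (nat_lit 66353892730) (nat_lit 76) (nat_lit 106231948500) (nat_lit 152) (nat_lit 165403021770) (nat_lit 28) (nat_lit 5) (nat_lit 29) (nat_lit 5) (nat_lit 30) (nat_lit 4) (nat_lit 378) (nat_lit 363) (nat_lit 279))) (XT.nd (nat_lit 78) (nat_lit 152) (nat_lit 0) (XT.lf (nat_lit 0) (nat_lit 284565546758) (nat_lit 152) (nat_lit 65630409037) (nat_lit 0) (nat_lit 19603822737) (nat_lit 28) (nat_lit 5) (nat_lit 30) (nat_lit 4) (nat_lit 28) (nat_lit 4) (nat_lit 379) (nat_lit 363) (nat_lit 278)) (XT.lf (nat_lit 0) (nat_lit 19554580321) (nat_lit 152) (nat_lit 222919615805) (nat_lit 76) (nat_lit 161882758247) (nat_lit 26) (nat_lit 5) (nat_lit 28) (nat_lit 5) (nat_lit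 27) (nat_lit 4) (nat_lit 380) (nat_lit 363) (nat_lit 277))))))) (XT.nd (nat_lit 1014) (nat_lit 760) (nat_lit 0) (XT.nd (nat_lit 468) (nat_lit 456) (nat_lit 0) (XT.nd (nat_lit 234) (nat_lit 228) (nat_lit 0) (XT.nd (nat_lit 78) (nat_lit 76) (nat_lit 0) (XT.lf (nat_lit 0) (nat_lit 27591918673) (nat_lit 76) (nat_lit 108479751285) (nat_lit 152) (nat_lit 306706773077) (nat_lit 25) (nat_lit 5) (nat_lit 26) (nat_lit 5) (nat_lit 27) (nat_lit 4) (nat_lit 381) (nat_lit 363) (nat_lit 276)) (XT.nd (nat_lit 78) (nat_lit 76) (nat_lit 0) (XT.lf (nat_lit 0) (nat_lit 284162352521) (nat_lit 152) (nat_lit 146926091474) (nat_lit 0) (nat_lit 53760306594) (nat_lit 25) (nat_lit 5) (nat_lit 27) (nat_lit 4) (nat_lit 25) (nat_lit 4) (nat_lit 382) (nat_lit 363) (nat_lit 275)) (XT.lf (nat_lit 0) (nat_lit 171692545897) (nat_lit 76) (nat_lit 295049002315) (nat_lit 76) (nat_lit 64646819465) (nat_lit 24) (nat_lit 4) (nat_lit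 25) (nat_lit 5) (nat_lit 25) (nat_lit 4) (nat_lit 383) (nat_lit 363) (nat_lit 274)))) (XT.nd (nat_lit 78) (nat_lit 152) (nat_lit 0) (XT.lf (nat_lit 0) (nat_lit 91671881773) (nat_lit 152) (nat_lit 33307756099) (nat_lit 76) (nat_lit 458152250148) (nat_lit 23) (nat_lit 5) (nat_lit 25) (nat_lit 5) (nat_lit 24) (nat_lit 4) (nat_lit 384) (nat_lit 363) (nat_lit 273)) (XT.nd (nat_lit 78) (nat_lit 76) (nat_lit 0) (XT.lf (nat_lit 0) (nat_lit 284030525577) (nat_lit 152) (nat_lit 271582429001) (nat_lit 0) (nat_lit 83680607800) (nat_lit 22) (nat_lit 5) (nat_lit 24) (nat_lit 4) (nat_lit 22) (nat_lit 4) (nat_lit 385) (nat_lit 363) (nat_lit 272)) (XT.lf (nat_lit 0) (nat_lit 134991016938) (nat_lit 76) (nat_lit 383616864824) (nat_lit 76) (nat_lit 183266868762) (nat_lit 21) (nat_lit 4) (nat_lit 22) (nat_lit 5) (nat_lit 22) (nat_lit 4) (nat_lit 386) (nat_lit 363) (nat_lit 271))))) (XT.nd (nat_lit 234) (nat_lit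 228) (nat_lit 0) (XT.nd (nat_lit 78) (nat_lit 152) (nat_lit 0) (XT.lf (nat_lit 0) (nat_lit 28107467286) (nat_lit 152) (nat_lit 139919009470) (nat_lit 76) (nat_lit 603495571071) (nat_lit 20) (nat_lit 5) (nat_lit 22) (nat_lit 5) (nat_lit 21) (nat_lit 4) (nat_lit 387) (nat_lit 363) (nat_lit 270)) (XT.nd (nat_lit 78) (nat_lit 76) (nat_lit 0) (XT.lf (nat_lit 0) (nat_lit 272451920546) (nat_lit 152) (nat_lit 476616997617) (nat_lit 0) (nat_lit 98234421997) (nat_lit 19) (nat_lit 5) (nat_lit 21) (nat_lit 4) (nat_lit 19) (nat_lit 4) (nat_lit 388) (nat_lit 363) (nat_lit 269)) (XT.lf (nat_lit 0) (nat_lit 35020669682) (nat_lit 76) (nat_lit 535540839904) (nat_lit 76) (nat_lit 361323296595) (nat_lit 18) (nat_lit 4) (nat_lit 19) (nat_lit 5) (nat_lit 19) (nat_lit 4) (nat_lit 389) (nat_lit 363) (nat_lit 268)))) (XT.nd (nat_lit 156) (nat_lit 76) (nat_lit 0) (XT.nd (nat_lit 78) (nat_lit 152) (nat_lit 0) (XT.lf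 (nat_lit 0) (nat_lit 676968932467) (nat_lit 76) (nat_lit 261332526767) (nat_lit 76) (nat_lit 87114944536) (nat_lit 18) (nat_lit 4) (nat_lit 19) (nat_lit 5) (nat_lit 19) (nat_lit 4) (nat_lit 390) (nat_lit 363) (nat_lit 267)) (XT.lf (nat_lit 0) (nat_lit 223582289247) (nat_lit 152) (nat_lit 833537832273) (nat_lit 0) (nat_lit 72088710050) (nat_lit 16) (nat_lit 5) (nat_lit 18) (nat_lit 4) (nat_lit 16) (nat_lit 4) (nat_lit 391) (nat_lit 363) (nat_lit 266))) (XT.nd (nat_lit 78) (nat_lit 76) (nat_lit 0) (XT.lf (nat_lit 0) (nat_lit 603491116331) (nat_lit 152) (nat_lit 187730358182) (nat_lit 0) (nat_lit 451997511543) (nat_lit 16) (nat_lit 5) (nat_lit 18) (nat_lit 4) (nat_lit 16) (nat_lit 4) (nat_lit 392) (nat_lit 363) (nat_lit 265)) (XT.lf (nat_lit 0) (nat_lit 609181547493) (nat_lit 76) (nat_lit 456429512215) (nat_lit 76) (nat_lit 304935885173) (nat_lit 15) (nat_lit 4) (nat_lit 16) (nat_lit 5) (nat_lit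 16) (nat_lit 4) (nat_lit 393) (nat_lit 363) (nat_lit 264)))))) (XT.nd (nat_lit 546) (nat_lit 304) (nat_lit 0) (XT.nd (nat_lit 234) (nat_lit 228) (nat_lit 0) (XT.nd (nat_lit 78) (nat_lit 76) (nat_lit 0) (XT.lf (nat_lit 0) (nat_lit 30125129118) (nat_lit 76) (nat_lit 54348719956) (nat_lit 152) (nat_lit 1430273722887) (nat_lit 13) (nat_lit 5) (nat_lit 14) (nat_lit 5) (nat_lit 15) (nat_lit 4) (nat_lit 394) (nat_lit 363) (nat_lit 263)) (XT.nd (nat_lit 78) (nat_lit 76) (nat_lit 0) (XT.lf (nat_lit 0) (nat_lit 559665360510) (nat_lit 152) (nat_lit 682014587301) (nat_lit 0) (nat_lit 427931740320) (nat_lit 13) (nat_lit 5) (nat_lit 15) (nat_lit 4) (nat_lit 13) (nat_lit 4) (nat_lit 395) (nat_lit 363) (nat_lit 262)) (XT.lf (nat_lit 0) (nat_lit 261694010360) (nat_lit 76) (nat_lit 857865712803) (nat_lit 76) (nat_lit 726132079888) (nat_lit 12) (nat_lit 4) (nat_lit 13) (nat_lit 5) (nat_lit 13) (nat_lit 4)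 (nat_lit 396) (nat_lit 363) (nat_lit 261)))) (XT.nd (nat_lit 156) (nat_lit 76) (nat_lit 0) (XT.nd (nat_lit 78) (nat_lit 152) (nat_lit 0) (XT.lf (nat_lit 0) (nat_lit 1423607834364) (nat_lit 76) (nat_lit 375481072420) (nat_lit 76) (nat_lit 243747428442) (nat_lit 12) (nat_lit 4) (nat_lit 13) (nat_lit 5) (nat_lit 13) (nat_lit 4) (nat_lit 397) (nat_lit 363) (nat_lit 260)) (XT.lf (nat_lit 0) (nat_lit 314076261345) (nat_lit 152) (nat_lit 1749404143343) (nat_lit 0) (nat_lit 199525258215) (nat_lit 10) (nat_lit 5) (nat_lit 12) (nat_lit 4) (nat_lit 10) (nat_lit 4) (nat_lit 398) (nat_lit 363) (nat_lit 259))) (XT.nd (nat_lit 78) (nat_lit 76) (nat_lit 0) (XT.lf (nat_lit 0) (nat_lit 982408506827) (nat_lit 152) (nat_lit 656424819008) (nat_lit 0) (nat_lit 867857496423) (nat_lit 10) (nat_lit 5) (nat_lit 12) (nat_lit 4) (nat_lit 10) (nat_lit 4) (nat_lit 399) (nat_lit 363) (nat_lit 258)) (XT.lf (nat_lit 0)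 (nat_lit 659186591805) (nat_lit 76) (nat_lit 1119099432577) (nat_lit 76) (nat_lit 1004548415847) (nat_lit 9) (nat_lit 4) (nat_lit 10) (nat_lit 5) (nat_lit 10) (nat_lit 4) (nat_lit 400) (nat_lit 363) (nat_lit 257))))) (XT.nd (nat_lit 234) (nat_lit 152) (nat_lit 0) (XT.nd (nat_lit 78) (nat_lit 152) (nat_lit 0) (XT.lf (nat_lit 0) (nat_lit 2245912759040) (nat_lit 76) (nat_lit 481945453799) (nat_lit 76) (nat_lit 367394431568) (nat_lit 9) (nat_lit 4) (nat_lit 10) (nat_lit 5) (nat_lit 10) (nat_lit 4) (nat_lit 401) (nat_lit 363) (nat_lit 256)) (XT.nd (nat_lit 78) (nat_lit 0) (nat_lit 0) (XT.lf (nat_lit 0) (nat_lit 372531242955) (nat_lit 152) (nat_lit 2800853080395) (nat_lit 0) (nat_lit 272921654247) (nat_lit 7) (nat_lit 5) (nat_lit 9) (nat_lit 4) (nat_lit 7) (nat_lit 4) (nat_lit 402) (nat_lit 363) (nat_lit 255)) (XT.lf (nat_lit 0) (nat_lit 1255292764562) (nat_lit 152) (nat_lit 1425997949869) (nat_lit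 0) (nat_lit 1155683172237) (nat_lit 7) (nat_lit 5) (nat_lit 9) (nat_lit 4) (nat_lit 7) (nat_lit 4) (nat_lit 403) (nat_lit 363) (nat_lit 254)))) (XT.nd (nat_lit 156) (nat_lit 76) (nat_lit 0) (XT.nd (nat_lit 78) (nat_lit 0) (nat_lit 0) (XT.lf (nat_lit 0) (nat_lit 170241394568) (nat_lit 76) (nat_lit 2107276395805) (nat_lit 76) (nat_lit 2007666800335) (nat_lit 6) (nat_lit 4) (nat_lit 7) (nat_lit 5) (nat_lit 7) (nat_lit 4) (nat_lit 404) (nat_lit 363) (nat_lit 253)) (XT.lf (nat_lit 0) (nat_lit 2166179248498) (nat_lit 76) (nat_lit 1361438068974) (nat_lit 76) (nat_lit 1261828470769) (nat_lit 6) (nat_lit 4) (nat_lit 7) (nat_lit 5) (nat_lit 7) (nat_lit 4) (nat_lit 405) (nat_lit 363) (nat_lit 252))) (XT.nd (nat_lit 78) (nat_lit 76) (nat_lit 0) (XT.lf (nat_lit 0) (nat_lit 4461507679377) (nat_lit 76) (nat_lit 503724046860) (nat_lit 76) (nat_lit 404114446277) (nat_lit 6) (nat_lit 4) (nat_lit 7) (nat_lit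 5) (nat_lit 7) (nat_lit 4) (nat_lit 406) (nat_lit 363) (nat_lit 251)) (XT.lf (nat_lit 0) (nat_lit 601115205253) (nat_lit 76) (nat_lit 4906397492641) (nat_lit 0) (nat_lit 514498159470) (nat_lit 5) (nat_lit 5) (nat_lit 6) (nat_lit 4) (nat_lit 5) (nat_lit 4) (nat_lit 407) (nat_lit 363) (nat_lit 250))))))))
noncomputable def xc85 : XT := (XT.nd (nat_lit 49764) (nat_lit 0) (nat_lit 1292) (XT.nd (nat_lit 1014) (nat_lit 76) (nat_lit 0) (XT.nd (nat_lit 468) (nat_lit 152) (nat_lit 0) (XT.nd (nat_lit 234) (nat_lit 0) (nat_lit 0) (XT.nd (nat_lit 78) (nat_lit 76) (nat_lit 0) (XT.lf (nat_lit 0) (nat_lit 1789457463981) (nat_lit 76) (nat_lit 3266335565366) (nat_lit 0) (nat_lit 1702840416634) (nat_lit 5) (nat_lit 5) (nat_lit 6) (nat_lit 4) (nat_lit 5) (nat_lit 4) (nat_lit 408) (nat_lit 363) (nat_lit 249)) (XT.nd (nat_lit 78) (nat_lit 76) (nat_lit 0) (XT.lf (nat_lit 0) (nat_lit 3156051024015) (nat_lit 76)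 (nat_lit 1380264429192) (nat_lit 0) (nat_lit 3069433975309) (nat_lit 5) (nat_lit 5) (nat_lit 6) (nat_lit 4) (nat_lit 5) (nat_lit 4) (nat_lit 409) (nat_lit 363) (nat_lit 248)) (XT.lf (nat_lit 0) (nat_lit 865796499107) (nat_lit 76) (nat_lit 3897687873049) (nat_lit 76) (nat_lit 3811070823160) (nat_lit 4) (nat_lit 4) (nat_lit 5) (nat_lit 5) (nat_lit 5) (nat_lit 4) (nat_lit 410) (nat_lit 363) (nat_lit 247)))) (XT.nd (nat_lit 78) (nat_lit 0) (nat_lit 0) (XT.lf (nat_lit 0) (nat_lit 3603889400144) (nat_lit 76) (nat_lit 3080293477333) (nat_lit 76) (nat_lit 2993676426416) (nat_lit 4) (nat_lit 4) (nat_lit 5) (nat_lit 5) (nat_lit 5) (nat_lit 4) (nat_lit 411) (nat_lit 363) (nat_lit 246)) (XT.nd (nat_lit 78) (nat_lit 0) (nat_lit 0) (XT.lf (nat_lit 0) (nat_lit 6752696178456) (nat_lit 76) (nat_lit 2140289953085) (nat_lit 76) (nat_lit 2053672901273) (nat_lit 4) (nat_lit 4) (nat_lit 5) (nat_lit 5) (nat_lit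 5) (nat_lit 4) (nat_lit 412) (nat_lit 363) (nat_lit 245)) (XT.lf (nat_lit 0) (nat_lit 10373823923185) (nat_lit 76) (nat_lit 1059285927003) (nat_lit 76) (nat_lit 972668874415) (nat_lit 4) (nat_lit 4) (nat_lit 5) (nat_lit 5) (nat_lit 5) (nat_lit 4) (nat_lit 413) (nat_lit 363) (nat_lit 244))))) (XT.nd (nat_lit 234) (nat_lit 0) (nat_lit 0) (XT.nd (nat_lit 78) (nat_lit 0) (nat_lit 0) (XT.lf (nat_lit 0) (nat_lit 275654756895) (nat_lit 152) (nat_lit 13601708570432) (nat_lit 0) (nat_lit 200335580143) (nat_lit 2) (nat_lit 5) (nat_lit 4) (nat_lit 4) (nat_lit 2) (nat_lit 4) (nat_lit 414) (nat_lit 363) (nat_lit 243)) (XT.nd (nat_lit 78) (nat_lit 0) (nat_lit 0) (XT.lf (nat_lit 0) (nat_lit 1773360048089) (nat_lit 152) (nat_lit 12497801181899) (nat_lit 0) (nat_lit 1698040870826) (nat_lit 2) (nat_lit 5) (nat_lit 4) (nat_lit 4) (nat_lit 2) (nat_lit 4) (nat_lit 415) (nat_lit 363) (nat_lit 242)) (XT.lf (nat_lit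 0) (nat_lit 3495721114341) (nat_lit 152) (nat_lit 11228307724979) (nat_lit 0) (nat_lit 3420401936633) (nat_lit 2) (nat_lit 5) (nat_lit 4) (nat_lit 4) (nat_lit 2) (nat_lit 4) (nat_lit 416) (nat_lit 363) (nat_lit 241)))) (XT.nd (nat_lit 156) (nat_lit 0) (nat_lit 0) (XT.nd (nat_lit 78) (nat_lit 0) (nat_lit 0) (XT.lf (nat_lit 0) (nat_lit 5476436324337) (nat_lit 152) (nat_lit 9768390284212) (nat_lit 0) (nat_lit 5401117146243) (nat_lit 2) (nat_lit 5) (nat_lit 4) (nat_lit 4) (nat_lit 2) (nat_lit 4) (nat_lit 417) (nat_lit 363) (nat_lit 240)) (XT.lf (nat_lit 0) (nat_lit 7754258801753) (nat_lit 152) (nat_lit 8089485257494) (nat_lit 0) (nat_lit 7678939623323) (nat_lit 2) (nat_lit 5) (nat_lit 4) (nat_lit 4) (nat_lit 2) (nat_lit 4) (nat_lit 418) (nat_lit 363) (nat_lit 239))) (XT.nd (nat_lit 78) (nat_lit 0) (nat_lit 0) (XT.lf (nat_lit 0) (nat_lit 10373754638537) (nat_lit 152) (nat_lit 6158744502999) (nat_lit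 0) (nat_lit 10298435459814) (nat_lit 2) (nat_lit 5) (nat_lit 4) (nat_lit 4) (nat_lit 2) (nat_lit 4) (nat_lit 419) (nat_lit 363) (nat_lit 238)) (XT.lf (nat_lit 0) (nat_lit 13386174840191) (nat_lit 152) (nat_lit 3938392658138) (nat_lit 0) (nat_lit 13310855661215) (nat_lit 2) (nat_lit 5) (nat_lit 4) (nat_lit 4) (nat_lit 2) (nat_lit 4) (nat_lit 420) (nat_lit 363) (nat_lit 237)))))) (XT.nd (nat_lit 546) (nat_lit 0) (nat_lit 0) (XT.nd (nat_lit 234) (nat_lit 0) (nat_lit 0) (XT.nd (nat_lit 78) (nat_lit 76) (nat_lit 0) (XT.lf (nat_lit 0) (nat_lit 16850458062836) (nat_lit 152) (nat_lit 1384988056383) (nat_lit 0) (nat_lit 16775138883638) (nat_lit 2) (nat_lit 5) (nat_lit 4) (nat_lit 4) (nat_lit 2) (nat_lit 4) (nat_lit 421) (nat_lit 363) (nat_lit 236)) (XT.nd (nat_lit 78) (nat_lit 0) (nat_lit 0) (XT.lf (nat_lit 0) (nat_lit 1703043969276) (nat_lit 76) (nat_lit 19201859210567) (nat_lit 76) (nat_lit 19126540031178)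 (nat_lit 1) (nat_lit 4) (nat_lit 2) (nat_lit 5) (nat_lit 2) (nat_lit 4) (nat_lit 422) (nat_lit 363) (nat_lit 235)) (XT.lf (nat_lit 0) (nat_lit 5409934553659) (nat_lit 76) (nat_lit 20229977606009) (nat_lit 76) (nat_lit 20154658426452) (nat_lit 1) (nat_lit 4) (nat_lit 2) (nat_lit 5) (nat_lit 2) (nat_lit 4) (nat_lit 423) (nat_lit 363) (nat_lit 234)))) (XT.nd (nat_lit 156) (nat_lit 0) (nat_lit 0) (XT.nd (nat_lit 78) (nat_lit 0) (nat_lit 0) (XT.lf (nat_lit 0) (nat_lit 9672858711384) (nat_lit 76) (nat_lit 21412313768402) (nat_lit 76) (nat_lit 21336994588700) (nat_lit 1) (nat_lit 4) (nat_lit 2) (nat_lit 5) (nat_lit 2) (nat_lit 4) (nat_lit 424) (nat_lit 363) (nat_lit 233)) (XT.lf (nat_lit 0) (nat_lit 14575221480318) (nat_lit 76) (nat_lit 22772000361794) (nat_lit 76) (nat_lit 22696681181966) (nat_lit 1) (nat_lit 4) (nat_lit 2) (nat_lit 5) (nat_lit 2) (nat_lit 4) (nat_lit 425) (nat_lit 363) (nat_lit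 232))) (XT.nd (nat_lit 78) (nat_lit 0) (nat_lit 0) (XT.lf (nat_lit 0) (nat_lit 20212938653769) (nat_lit 76) (nat_lit 24335639949969) (nat_lit 76) (nat_lit 24260320770030) (nat_lit 1) (nat_lit 4) (nat_lit 2) (nat_lit 5) (nat_lit 2) (nat_lit 4) (nat_lit 426) (nat_lit 363) (nat_lit 231)) (XT.lf (nat_lit 0) (nat_lit 26696313393824) (nat_lit 76) (nat_lit 26133825481389) (nat_lit 76) (nat_lit 26058506301356) (nat_lit 1) (nat_lit 4) (nat_lit 2) (nat_lit 5) (nat_lit 2) (nat_lit 4) (nat_lit 427) (nat_lit 363) (nat_lit 230))))) (XT.nd (nat_lit 234) (nat_lit 0) (nat_lit 0) (XT.nd (nat_lit 78) (nat_lit 0) (nat_lit 0) (XT.lf (nat_lit 0) (nat_lit 34152194336703) (nat_lit 76) (nat_lit 28201738846889) (nat_lit 76) (nat_lit 28126419666772) (nat_lit 1) (nat_lit 4) (nat_lit 2) (nat_lit 5) (nat_lit 2) (nat_lit 4) (nat_lit 428) (nat_lit 363) (nat_lit 229)) (XT.nd (nat_lit 78) (nat_lit 0) (nat_lit 0) (XT.lf (nat_lit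 0) (nat_lit 42726457413895) (nat_lit 76) (nat_lit 30579839221009) (nat_lit 76) (nat_lit 30504520040820) (nat_lit 1) (nat_lit 4) (nat_lit 2) (nat_lit 5) (nat_lit 2) (nat_lit 4) (nat_lit 429) (nat_lit 363) (nat_lit 228)) (XT.lf (nat_lit 0) (nat_lit 52586859946478) (nat_lit 76) (nat_lit 33314654654549) (nat_lit 76) (nat_lit 33239335474297) (nat_lit 1) (nat_lit 4) (nat_lit 2) (nat_lit 5) (nat_lit 2) (nat_lit 4) (nat_lit 430) (nat_lit 363) (nat_lit 227)))) (XT.nd (nat_lit 156) (nat_lit 0) (nat_lit 0) (XT.nd (nat_lit 78) (nat_lit 0) (nat_lit 0) (XT.lf (nat_lit 0) (nat_lit 63926322853567) (nat_lit 76) (nat_lit 36459692405990) (nat_lit 76) (nat_lit 36384373225683) (nat_lit 1) (nat_lit 4) (nat_lit 2) (nat_lit 5) (nat_lit 2) (nat_lit 4) (nat_lit 431) (nat_lit 363) (nat_lit 226)) (XT.lf (nat_lit 0) (nat_lit 76966705192038) (nat_lit 76) (nat_lit 40076485822643) (nat_lit 76) (nat_lit 40001166642289)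 (nat_lit 1) (nat_lit 4) (nat_lit 2) (nat_lit 5) (nat_lit 2) (nat_lit 4) (nat_lit 432) (nat_lit 363) (nat_lit 225))) (XT.nd (nat_lit 47736) (nat_lit 0) (nat_lit 3116) (XT.lf (nat_lit 0) (nat_lit 91963144877212) (nat_lit 76) (nat_lit 44235798253964) (nat_lit 76) (nat_lit 44160479073569) (nat_lit 1) (nat_lit 4) (nat_lit 2) (nat_lit 5) (nat_lit 2) (nat_lit 4) (nat_lit 433) (nat_lit 363) (nat_lit 224)) (XT.lf (nat_lit 0) (nat_lit 17244869674) (nat_lit 380) (nat_lit 20368063657) (nat_lit 380) (nat_lit 20368063657) (nat_lit 42) (nat_lit 3) (nat_lit 47) (nat_lit 3) (nat_lit 47) (nat_lit 5) (nat_lit 364) (nat_lit 364) (nat_lit 292))))))) (XT.nd (nat_lit 1014) (nat_lit 988) (nat_lit 0) (XT.nd (nat_lit 468) (nat_lit 684) (nat_lit 0) (XT.nd (nat_lit 234) (nat_lit 152) (nat_lit 0) (XT.nd (nat_lit 78) (nat_lit 0) (nat_lit 76) (XT.lf (nat_lit 76) (nat_lit 18662435983) (nat_lit 0) (nat_lit 19191317016)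 (nat_lit 380) (nat_lit 86688796984) (nat_lit 43) (nat_lit 5) (nat_lit 42) (nat_lit 3) (nat_lit 47) (nat_lit 5) (nat_lit 365) (nat_lit 364) (nat_lit 291)) (XT.nd (nat_lit 78) (nat_lit 0) (nat_lit 0) (XT.lf (nat_lit 0) (nat_lit 45825985837) (nat_lit 304) (nat_lit 44517496058) (nat_lit 380) (nat_lit 43451165114) (nat_lit 43) (nat_lit 5) (nat_lit 47) (nat_lit 5) (nat_lit 48) (nat_lit 5) (nat_lit 366) (nat_lit 364) (nat_lit 290)) (XT.lf (nat_lit 76) (nat_lit 27591465284) (nat_lit 0) (nat_lit 29458258936) (nat_lit 380) (nat_lit 87076483940) (nat_lit 44) (nat_lit 5) (nat_lit 43) (nat_lit 5) (nat_lit 48) (nat_lit 5) (nat_lit 367) (nat_lit 364) (nat_lit 289)))) (XT.nd (nat_lit 78) (nat_lit 304) (nat_lit 0) (XT.lf (nat_lit 0) (nat_lit 74073747574) (nat_lit 304) (nat_lit 41929454387) (nat_lit 76) (nat_lit 39386793033) (nat_lit 44) (nat_lit 5) (nat_lit 48) (nat_lit 5) (nat_lit 45) (nat_lit 5) (nat_lit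 368) (nat_lit 364) (nat_lit 288)) (XT.nd (nat_lit 78) (nat_lit 0) (nat_lit 0) (XT.lf (nat_lit 0) (nat_lit 46613124253) (nat_lit 304) (nat_lit 50370625516) (nat_lit 380) (nat_lit 70859743909) (nat_lit 40) (nat_lit 5) (nat_lit 44) (nat_lit 5) (nat_lit 45) (nat_lit 5) (nat_lit 369) (nat_lit 364) (nat_lit 287)) (XT.lf (nat_lit 0) (nat_lit 126665509380) (nat_lit 380) (nat_lit 29831454302) (nat_lit 76) (nat_lit 25167765026) (nat_lit 40) (nat_lit 5) (nat_lit 45) (nat_lit 5) (nat_lit 41) (nat_lit 5) (nat_lit 370) (nat_lit 364) (nat_lit 286))))) (XT.nd (nat_lit 234) (nat_lit 304) (nat_lit 0) (XT.nd (nat_lit 78) (nat_lit 228) (nat_lit 0) (XT.lf (nat_lit 0) (nat_lit 80000360122) (nat_lit 152) (nat_lit 86509983297) (nat_lit 228) (nat_lit 30192184095) (nat_lit 38) (nat_lit 5) (nat_lit 40) (nat_lit 5) (nat_lit 41) (nat_lit 5) (nat_lit 371) (nat_lit 364) (nat_lit 285)) (XT.nd (nat_lit 78) (nat_lit 152)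 (nat_lit 0) (XT.lf (nat_lit 0) (nat_lit 117264799) (nat_lit 228) (nat_lit 4108383472) (nat_lit 76) (nat_lit 209535702538) (nat_lit 37) (nat_lit 5) (nat_lit 40) (nat_lit 5) (nat_lit 38) (nat_lit 5) (nat_lit 372) (nat_lit 364) (nat_lit 284)) (XT.lf (nat_lit 0) (nat_lit 41595175644) (nat_lit 228) (nat_lit 100350188864) (nat_lit 76) (nat_lit 89761002318) (nat_lit 35) (nat_lit 5) (nat_lit 38) (nat_lit 5) (nat_lit 36) (nat_lit 5) (nat_lit 373) (nat_lit 364) (nat_lit 283)))) (XT.nd (nat_lit 156) (nat_lit 152) (nat_lit 0) (XT.nd (nat_lit 78) (nat_lit 0) (nat_lit 0) (XT.lf (nat_lit 0) (nat_lit 38507490191) (nat_lit 152) (nat_lit 52807660947) (nat_lit 228) (nat_lit 160724927457) (nat_lit 33) (nat_lit 5) (nat_lit 35) (nat_lit 5) (nat_lit 36) (nat_lit 5) (nat_lit 374) (nat_lit 364) (nat_lit 282)) (XT.lf (nat_lit 0) (nat_lit 156046169381) (nat_lit 228) (nat_lit 67473497330) (nat_lit 76) (nat_lit 50771223501)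 (nat_lit 33) (nat_lit 5) (nat_lit 36) (nat_lit 5) (nat_lit 34) (nat_lit 4) (nat_lit 375) (nat_lit 364) (nat_lit 281))) (XT.nd (nat_lit 78) (nat_lit 76) (nat_lit 0) (XT.lf (nat_lit 0) (nat_lit 107554617964) (nat_lit 76) (nat_lit 129900201169) (nat_lit 152) (nat_lit 61379307663) (nat_lit 32) (nat_lit 5) (nat_lit 33) (nat_lit 5) (nat_lit 34) (nat_lit 4) (nat_lit 376) (nat_lit 364) (nat_lit 280)) (XT.lf (nat_lit 0) (nat_lit 7353097252) (nat_lit 152) (nat_lit 10444439068) (nat_lit 76) (nat_lit 308682163315) (nat_lit 31) (nat_lit 5) (nat_lit 33) (nat_lit 5) (nat_lit 32) (nat_lit 5) (nat_lit 377) (nat_lit 364) (nat_lit 279)))))) (XT.nd (nat_lit 546) (nat_lit 456) (nat_lit 0) (XT.nd (nat_lit 234) (nat_lit 304) (nat_lit 0) (XT.nd (nat_lit 78) (nat_lit 76) (nat_lit 0) (XT.lf (nat_lit 0) (nat_lit 94117811410) (nat_lit 228) (nat_lit 148058902191) (nat_lit 76) (nat_lit 113555993126) (nat_lit 29) (nat_lit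 5) (nat_lit 32) (nat_lit 5) (nat_lit 30) (nat_lit 4) (nat_lit 378) (nat_lit 364) (nat_lit 278)) (XT.nd (nat_lit 78) (nat_lit 0) (nat_lit 0) (XT.lf (nat_lit 0) (nat_lit 76311722149) (nat_lit 76) (nat_lit 122164647279) (nat_lit 152) (nat_lit 190210424969) (nat_lit 28) (nat_lit 5) (nat_lit 29) (nat_lit 5) (nat_lit 30) (nat_lit 4) (nat_lit 379) (nat_lit 364) (nat_lit 277)) (XT.lf (nat_lit 0) (nat_lit 327252760251) (nat_lit 152) (nat_lit 75470573110) (nat_lit 0) (nat_lit 22546054512) (nat_lit 28) (nat_lit 5) (nat_lit 30) (nat_lit 4) (nat_lit 28) (nat_lit 4) (nat_lit 380) (nat_lit 364) (nat_lit 276)))) (XT.nd (nat_lit 156) (nat_lit 76) (nat_lit 0) (XT.nd (nat_lit 78) (nat_lit 76) (nat_lit 0) (XT.lf (nat_lit 0) (nat_lit 22490119088) (nat_lit 152) (nat_lit 256353130778) (nat_lit 76) (nat_lit 186166894742) (nat_lit 26) (nat_lit 5) (nat_lit 28) (nat_lit 5) (nat_lit 27) (nat_lit 4) (nat_lit 381) (nat_lit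 364) (nat_lit 275)) (XT.lf (nat_lit 0) (nat_lit 31734932627) (nat_lit 76) (nat_lit 124749707793) (nat_lit 152) (nat_lit 352710235932) (nat_lit 25) (nat_lit 5) (nat_lit 26) (nat_lit 5) (nat_lit 27) (nat_lit 4) (nat_lit 382) (nat_lit 364) (nat_lit 274))) (XT.nd (nat_lit 78) (nat_lit 76) (nat_lit 0) (XT.lf (nat_lit 0) (nat_lit 326788708043) (nat_lit 152) (nat_lit 168961112830) (nat_lit 0) (nat_lit 61825941783) (nat_lit 25) (nat_lit 5) (nat_lit 27) (nat_lit 4) (nat_lit 25) (nat_lit 4) (nat_lit 383) (nat_lit 364) (nat_lit 273)) (XT.lf (nat_lit 0) (nat_lit 197450143220) (nat_lit 76) (nat_lit 339304532501) (nat_lit 76) (nat_lit 74341662708) (nat_lit 24) (nat_lit 4) (nat_lit 25) (nat_lit 5) (nat_lit 25) (nat_lit 4) (nat_lit 384) (nat_lit 364) (nat_lit 272))))) (XT.nd (nat_lit 234) (nat_lit 228) (nat_lit 0) (XT.nd (nat_lit 78) (nat_lit 152) (nat_lit 0) (XT.lf (nat_lit 0) (nat_lit 105424390671) (nat_lit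 152) (nat_lit 38300519876) (nat_lit 76) (nat_lit 526876501599) (nat_lit 23) (nat_lit 5) (nat_lit 25) (nat_lit 5) (nat_lit 24) (nat_lit 4) (nat_lit 385) (nat_lit 364) (nat_lit 271)) (XT.nd (nat_lit 78) (nat_lit 76) (nat_lit 0) (XT.lf (nat_lit 0) (nat_lit 326636806845) (nat_lit 152) (nat_lit 312316369441) (nat_lit 0) (nat_lit 96234165013) (nat_lit 22) (nat_lit 5) (nat_lit 24) (nat_lit 4) (nat_lit 22) (nat_lit 4) (nat_lit 386) (nat_lit 364) (nat_lit 270)) (XT.lf (nat_lit 0) (nat_lit 155242937757) (nat_lit 76) (nat_lit 441157741978) (nat_lit 76) (nat_lit 210755040951) (nat_lit 21) (nat_lit 4) (nat_lit 22) (nat_lit 5) (nat_lit 22) (nat_lit 4) (nat_lit 387) (nat_lit 364) (nat_lit 269)))) (XT.nd (nat_lit 156) (nat_lit 76) (nat_lit 0) (XT.nd (nat_lit 78) (nat_lit 76) (nat_lit 0) (XT.lf (nat_lit 0) (nat_lit 32325059294) (nat_lit 152) (nat_lit 160903875017) (nat_lit 76) (nat_lit 694021199856) (nat_lit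 20) (nat_lit 5) (nat_lit 22) (nat_lit 5) (nat_lit 21) (nat_lit 4) (nat_lit 388) (nat_lit 364) (nat_lit 268)) (XT.lf (nat_lit 0) (nat_lit 313321166706) (nat_lit 152) (nat_lit 548106547509) (nat_lit 0) (nat_lit 112970908219) (nat_lit 19) (nat_lit 5) (nat_lit 21) (nat_lit 4) (nat_lit 19) (nat_lit 4) (nat_lit 389) (nat_lit 364) (nat_lit 267))) (XT.nd (nat_lit 78) (nat_lit 0) (nat_lit 0) (XT.lf (nat_lit 0) (nat_lit 40276633534) (nat_lit 76) (nat_lit 615870488951) (nat_lit 76) (nat_lit 415520196619) (nat_lit 18) (nat_lit 4) (nat_lit 19) (nat_lit 5) (nat_lit 19) (nat_lit 4) (nat_lit 390) (nat_lit 364) (nat_lit 266)) (XT.lf (nat_lit 0) (nat_lit 778516762249) (nat_lit 76) (nat_lit 300531121488) (nat_lit 76) (nat_lit 100180799726) (nat_lit 18) (nat_lit 4) (nat_lit 19) (nat_lit 5) (nat_lit 19) (nat_lit 4) (nat_lit 391) (nat_lit 364) (nat_lit 265))))))))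
noncomputable def xc86 : XT := (XT.nd (nat_lit 2028) (nat_lit 76) (nat_lit 0) (XT.nd (nat_lit 1014) (nat_lit 380) (nat_lit 0) (XT.nd (nat_lit 468) (nat_lit 380) (nat_lit 0) (XT.nd (nat_lit 234) (nat_lit 228) (nat_lit 0) (XT.nd (nat_lit 78) (nat_lit 76) (nat_lit 0) (XT.lf (nat_lit 0) (nat_lit 257120887778) (nat_lit 152) (nat_lit 958565885805) (nat_lit 0) (nat_lit 82903194427) (nat_lit 16) (nat_lit 5) (nat_lit 18) (nat_lit 4) (nat_lit 16) (nat_lit 4) (nat_lit 392) (nat_lit 364) (nat_lit 264)) (XT.nd (nat_lit 78) (nat_lit 76) (nat_lit 0) (XT.lf (nat_lit 0) (nat_lit 694015875211) (nat_lit 152) (nat_lit 215887632510) (nat_lit 0) (nat_lit 519798162508) (nat_lit 16) (nat_lit 5) (nat_lit 18) (nat_lit 4) (nat_lit 16) (nat_lit 4) (nat_lit 393) (nat_lit 364) (nat_lit 263)) (XT.lf (nat_lit 0) (nat_lit 700560955407) (nat_lit 76) (nat_lit 524892802422) (nat_lit 76) (nat_lit 350675072892) (nat_lit 15)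 (nat_lit 4) (nat_lit 16) (nat_lit 5) (nat_lit 16) (nat_lit 4) (nat_lit 394) (nat_lit 364) (nat_lit 262)))) (XT.nd (nat_lit 78) (nat_lit 76) (nat_lit 0) (XT.lf (nat_lit 0) (nat_lit 34646076947) (nat_lit 76) (nat_lit 62499886359) (nat_lit 152) (nat_lit 1644813588906) (nat_lit 13) (nat_lit 5) (nat_lit 14) (nat_lit 5) (nat_lit 15) (nat_lit 4) (nat_lit 395) (nat_lit 364) (nat_lit 261)) (XT.nd (nat_lit 78) (nat_lit 76) (nat_lit 0) (XT.lf (nat_lit 0) (nat_lit 643616107318) (nat_lit 152) (nat_lit 784314786931) (nat_lit 0) (nat_lit 492122405679) (nat_lit 13) (nat_lit 5) (nat_lit 15) (nat_lit 4) (nat_lit 13) (nat_lit 4) (nat_lit 396) (nat_lit 364) (nat_lit 260)) (XT.lf (nat_lit 0) (nat_lit 300950009994) (nat_lit 76) (nat_lit 986544570005) (nat_lit 76) (nat_lit 835050858745) (nat_lit 12) (nat_lit 4) (nat_lit 13) (nat_lit 5) (nat_lit 13) (nat_lit 4) (nat_lit 397) (nat_lit 364) (nat_lit 259))))) (XT.nd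 (nat_lit 234) (nat_lit 228) (nat_lit 0) (XT.nd (nat_lit 78) (nat_lit 152) (nat_lit 0) (XT.lf (nat_lit 0) (nat_lit 1637150660023) (nat_lit 76) (nat_lit 431802363963) (nat_lit 76) (nat_lit 280308644338) (nat_lit 12) (nat_lit 4) (nat_lit 13) (nat_lit 5) (nat_lit 13) (nat_lit 4) (nat_lit 398) (nat_lit 364) (nat_lit 258)) (XT.nd (nat_lit 78) (nat_lit 0) (nat_lit 0) (XT.lf (nat_lit 0) (nat_lit 361188516689) (nat_lit 152) (nat_lit 2011813032098) (nat_lit 0) (nat_lit 229454841123) (nat_lit 10) (nat_lit 5) (nat_lit 12) (nat_lit 4) (nat_lit 10) (nat_lit 4) (nat_lit 399) (nat_lit 364) (nat_lit 257)) (XT.lf (nat_lit 0) (nat_lit 1129770492541) (nat_lit 152) (nat_lit 754887035123) (nat_lit 0) (nat_lit 998036811474) (nat_lit 10) (nat_lit 5) (nat_lit 12) (nat_lit 4) (nat_lit 10) (nat_lit 4) (nat_lit 400) (nat_lit 364) (nat_lit 256)))) (XT.nd (nat_lit 156) (nat_lit 152) (nat_lit 0) (XT.nd (nat_lit 78) (nat_lit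 0) (nat_lit 0) (XT.lf (nat_lit 0) (nat_lit 758066018824) (nat_lit 76) (nat_lit 1286963585892) (nat_lit 76) (nat_lit 1155229900042) (nat_lit 9) (nat_lit 4) (nat_lit 10) (nat_lit 5) (nat_lit 10) (nat_lit 4) (nat_lit 401) (nat_lit 364) (nat_lit 255)) (XT.lf (nat_lit 0) (nat_lit 2582800923547) (nat_lit 76) (nat_lit 554236609632) (nat_lit 76) (nat_lit 422502919623) (nat_lit 9) (nat_lit 4) (nat_lit 10) (nat_lit 5) (nat_lit 10) (nat_lit 4) (nat_lit 402) (nat_lit 364) (nat_lit 254))) (XT.nd (nat_lit 78) (nat_lit 0) (nat_lit 0) (XT.lf (nat_lit 0) (nat_lit 428411544717) (nat_lit 152) (nat_lit 3220979730436) (nat_lit 0) (nat_lit 313860506782) (nat_lit 7) (nat_lit 5) (nat_lit 9) (nat_lit 4) (nat_lit 7) (nat_lit 4) (nat_lit 403) (nat_lit 364) (nat_lit 253)) (XT.lf (nat_lit 0) (nat_lit 1443587214307) (nat_lit 152) (nat_lit 1639896501464) (nat_lit 0) (nat_lit 1329036173637) (nat_lit 7) (nat_lit 5) (nat_lit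 9) (nat_lit 4) (nat_lit 7) (nat_lit 4) (nat_lit 404) (nat_lit 364) (nat_lit 252)))))) (XT.nd (nat_lit 468) (nat_lit 228) (nat_lit 0) (XT.nd (nat_lit 234) (nat_lit 76) (nat_lit 0) (XT.nd (nat_lit 78) (nat_lit 0) (nat_lit 0) (XT.lf (nat_lit 0) (nat_lit 195778692780) (nat_lit 76) (nat_lit 2423367276513) (nat_lit 76) (nat_lit 2308816233464) (nat_lit 6) (nat_lit 4) (nat_lit 7) (nat_lit 5) (nat_lit 7) (nat_lit 4) (nat_lit 405) (nat_lit 364) (nat_lit 251)) (XT.nd (nat_lit 78) (nat_lit 0) (nat_lit 0) (XT.lf (nat_lit 0) (nat_lit 2491107082753) (nat_lit 76) (nat_lit 1565653276135) (nat_lit 76) (nat_lit 1451102231018) (nat_lit 6) (nat_lit 4) (nat_lit 7) (nat_lit 5) (nat_lit 7) (nat_lit 4) (nat_lit 406) (nat_lit 364) (nat_lit 250)) (XT.lf (nat_lit 0) (nat_lit 5130734654745) (nat_lit 76) (nat_lit 579282216336) (nat_lit 76) (nat_lit 464731169422) (nat_lit 6) (nat_lit 4) (nat_lit 7) (nat_lit 5) (nat_lit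 7) (nat_lit 4) (nat_lit 407) (nat_lit 364) (nat_lit 249)))) (XT.nd (nat_lit 78) (nat_lit 0) (nat_lit 0) (XT.lf (nat_lit 0) (nat_lit 691282889845) (nat_lit 76) (nat_lit 5642356253079) (nat_lit 0) (nat_lit 591673282473) (nat_lit 5) (nat_lit 5) (nat_lit 6) (nat_lit 4) (nat_lit 5) (nat_lit 4) (nat_lit 408) (nat_lit 364) (nat_lit 248)) (XT.nd (nat_lit 78) (nat_lit 0) (nat_lit 0) (XT.lf (nat_lit 0) (nat_lit 2057876434712) (nat_lit 76) (nat_lit 3756285149339) (nat_lit 0) (nat_lit 1958266826157) (nat_lit 5) (nat_lit 5) (nat_lit 6) (nat_lit 4) (nat_lit 5) (nat_lit 4) (nat_lit 409) (nat_lit 364) (nat_lit 247)) (XT.lf (nat_lit 0) (nat_lit 3629458982951) (nat_lit 76) (nat_lit 1587303440673) (nat_lit 0) (nat_lit 3529849373368) (nat_lit 5) (nat_lit 5) (nat_lit 6) (nat_lit 4) (nat_lit 5) (nat_lit 4) (nat_lit 410) (nat_lit 364) (nat_lit 246))))) (XT.nd (nat_lit 234) (nat_lit 152) (nat_lit 0) (XT.nd (nat_lit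 78) (nat_lit 0) (nat_lit 0) (XT.lf (nat_lit 0) (nat_lit 995666597194) (nat_lit 76) (nat_lit 4482340722099) (nat_lit 76) (nat_lit 4382731111623) (nat_lit 4) (nat_lit 4) (nat_lit 5) (nat_lit 5) (nat_lit 5) (nat_lit 4) (nat_lit 411) (nat_lit 364) (nat_lit 245)) (XT.nd (nat_lit 78) (nat_lit 0) (nat_lit 0) (XT.lf (nat_lit 0) (nat_lit 4144473352097) (nat_lit 76) (nat_lit 3542337210318) (nat_lit 76) (nat_lit 3442727599064) (nat_lit 4) (nat_lit 4) (nat_lit 5) (nat_lit 5) (nat_lit 5) (nat_lit 4) (nat_lit 412) (nat_lit 364) (nat_lit 244)) (XT.lf (nat_lit 0) (nat_lit 7765601076469) (nat_lit 76) (nat_lit 2461333195078) (nat_lit 76) (nat_lit 2361723583148) (nat_lit 4) (nat_lit 4) (nat_lit 5) (nat_lit 5) (nat_lit 5) (nat_lit 4) (nat_lit 413) (nat_lit 364) (nat_lit 243)))) (XT.nd (nat_lit 156) (nat_lit 0) (nat_lit 0) (XT.nd (nat_lit 78) (nat_lit 152) (nat_lit 0) (XT.lf (nat_lit 0) (nat_lit 11929897921440)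 (nat_lit 76) (nat_lit 1218178597820) (nat_lit 76) (nat_lit 1118568985301) (nat_lit 4) (nat_lit 4) (nat_lit 5) (nat_lit 5) (nat_lit 5) (nat_lit 4) (nat_lit 414) (nat_lit 364) (nat_lit 242)) (XT.lf (nat_lit 0) (nat_lit 317003170936) (nat_lit 152) (nat_lit 15641964426449) (nat_lit 0) (nat_lit 230386116128) (nat_lit 2) (nat_lit 5) (nat_lit 4) (nat_lit 4) (nat_lit 2) (nat_lit 4) (nat_lit 415) (nat_lit 364) (nat_lit 241))) (XT.nd (nat_lit 78) (nat_lit 0) (nat_lit 0) (XT.lf (nat_lit 0) (nat_lit 2039364229656) (nat_lit 152) (nat_lit 14372470985665) (nat_lit 0) (nat_lit 1952747174462) (nat_lit 2) (nat_lit 5) (nat_lit 4) (nat_lit 4) (nat_lit 2) (nat_lit 4) (nat_lit 416) (nat_lit 364) (nat_lit 240)) (XT.lf (nat_lit 0) (nat_lit 4020079433104) (nat_lit 152) (nat_lit 12912553558927) (nat_lit 0) (nat_lit 3933462377573) (nat_lit 2) (nat_lit 5) (nat_lit 4) (nat_lit 4) (nat_lit 2) (nat_lit 4) (nat_lit 417)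 (nat_lit 364) (nat_lit 239))))))) (XT.nd (nat_lit 49140) (nat_lit 0) (nat_lit 2052) (XT.nd (nat_lit 468) (nat_lit 0) (nat_lit 0) (XT.nd (nat_lit 234) (nat_lit 76) (nat_lit 0) (XT.nd (nat_lit 78) (nat_lit 0) (nat_lit 0) (XT.lf (nat_lit 0) (nat_lit 6297901904825) (nat_lit 152) (nat_lit 11233648544409) (nat_lit 0) (nat_lit 6211284849002) (nat_lit 2) (nat_lit 5) (nat_lit 4) (nat_lit 4) (nat_lit 2) (nat_lit 4) (nat_lit 418) (nat_lit 364) (nat_lit 238)) (XT.nd (nat_lit 78) (nat_lit 0) (nat_lit 0) (XT.lf (nat_lit 0) (nat_lit 8917397736656) (nat_lit 152) (nat_lit 9302907800523) (nat_lit 0) (nat_lit 8830780680579) (nat_lit 2) (nat_lit 5) (nat_lit 4) (nat_lit 4) (nat_lit 2) (nat_lit 4) (nat_lit 419) (nat_lit 364) (nat_lit 237)) (XT.lf (nat_lit 0) (nat_lit 11929817934005) (nat_lit 152) (nat_lit 7082555964888) (nat_lit 0) (nat_lit 11843200877707) (nat_lit 2) (nat_lit 5) (nat_lit 4) (nat_lit 4) (nat_lit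 2) (nat_lit 4) (nat_lit 420) (nat_lit 364) (nat_lit 236)))) (XT.nd (nat_lit 78) (nat_lit 76) (nat_lit 0) (XT.lf (nat_lit 0) (nat_lit 15394101152905) (nat_lit 152) (nat_lit 4529151371154) (nat_lit 0) (nat_lit 15307484096415) (nat_lit 2) (nat_lit 5) (nat_lit 4) (nat_lit 4) (nat_lit 2) (nat_lit 4) (nat_lit 421) (nat_lit 364) (nat_lit 235)) (XT.nd (nat_lit 78) (nat_lit 76) (nat_lit 0) (XT.lf (nat_lit 0) (nat_lit 19378026847639) (nat_lit 152) (nat_lit 1592736103357) (nat_lit 0) (nat_lit 19291409790982) (nat_lit 2) (nat_lit 5) (nat_lit 4) (nat_lit 4) (nat_lit 2) (nat_lit 4) (nat_lit 422) (nat_lit 364) (nat_lit 234)) (XT.lf (nat_lit 0) (nat_lit 1958500718810) (nat_lit 76) (nat_lit 22082138009939) (nat_lit 76) (nat_lit 21995520953136) (nat_lit 1) (nat_lit 4) (nat_lit 2) (nat_lit 5) (nat_lit 2) (nat_lit 4) (nat_lit 423) (nat_lit 364) (nat_lit 233))))) (XT.nd (nat_lit 234) (nat_lit 0) (nat_lit 0)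 (XT.nd (nat_lit 78) (nat_lit 0) (nat_lit 0) (XT.lf (nat_lit 0) (nat_lit 6221424870745) (nat_lit 76) (nat_lit 23264474175420) (nat_lit 76) (nat_lit 23177857118491) (nat_lit 1) (nat_lit 4) (nat_lit 2) (nat_lit 5) (nat_lit 2) (nat_lit 4) (nat_lit 424) (nat_lit 364) (nat_lit 232)) (XT.nd (nat_lit 78) (nat_lit 0) (nat_lit 0) (XT.lf (nat_lit 0) (nat_lit 11123787634645) (nat_lit 76) (nat_lit 24624160771498) (nat_lit 76) (nat_lit 24537543714459) (nat_lit 1) (nat_lit 4) (nat_lit 2) (nat_lit 5) (nat_lit 2) (nat_lit 4) (nat_lit 425) (nat_lit 364) (nat_lit 231)) (XT.lf (nat_lit 0) (nat_lit 16761504803717) (nat_lit 76) (nat_lit 26187800362007) (nat_lit 76) (nat_lit 26101183304872) (nat_lit 1) (nat_lit 4) (nat_lit 2) (nat_lit 5) (nat_lit 2) (nat_lit 4) (nat_lit 426) (nat_lit 364) (nat_lit 230)))) (XT.nd (nat_lit 48282) (nat_lit 0) (nat_lit 3116) (XT.nd (nat_lit 78) (nat_lit 0) (nat_lit 0) (XT.lf (nat_lit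 0) (nat_lit 23244879539966) (nat_lit 76) (nat_lit 27985985895458) (nat_lit 76) (nat_lit 27899368838241) (nat_lit 1) (nat_lit 4) (nat_lit 2) (nat_lit 5) (nat_lit 2) (nat_lit 4) (nat_lit 427) (nat_lit 364) (nat_lit 229)) (XT.lf (nat_lit 0) (nat_lit 30700760479534) (nat_lit 76) (nat_lit 30053899262723) (nat_lit 76) (nat_lit 29967282205433) (nat_lit 1) (nat_lit 4) (nat_lit 2) (nat_lit 5) (nat_lit 2) (nat_lit 4) (nat_lit 428) (nat_lit 364) (nat_lit 228))) (XT.nd (nat_lit 78) (nat_lit 0) (nat_lit 0) (XT.lf (nat_lit 0) (nat_lit 19835924836) (nat_lit 380) (nat_lit 23420785988) (nat_lit 380) (nat_lit 23420785988) (nat_lit 42) (nat_lit 3) (nat_lit 47) (nat_lit 3) (nat_lit 47) (nat_lit 5) (nat_lit 365) (nat_lit 365) (nat_lit 290)) (XT.lf (nat_lit 76) (nat_lit 21466549704) (nat_lit 0) (nat_lit 22072984098) (nat_lit 380) (nat_lit 99683239230) (nat_lit 43) (nat_lit 5) (nat_lit 42) (nat_lit 3) (nat_lit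 47) (nat_lit 5) (nat_lit 366) (nat_lit 365) (nat_lit 289)))))) (XT.nd (nat_lit 546) (nat_lit 684) (nat_lit 0) (XT.nd (nat_lit 234) (nat_lit 456) (nat_lit 0) (XT.nd (nat_lit 78) (nat_lit 0) (nat_lit 0) (XT.lf (nat_lit 0) (nat_lit 52706487966) (nat_lit 304) (nat_lit 51189876350) (nat_lit 380) (nat_lit 49966487567) (nat_lit 43) (nat_lit 5) (nat_lit 47) (nat_lit 5) (nat_lit 48) (nat_lit 5) (nat_lit 367) (nat_lit 365) (nat_lit 288)) (XT.nd (nat_lit 78) (nat_lit 0) (nat_lit 76) (XT.lf (nat_lit 76) (nat_lit 31735190825) (nat_lit 0) (nat_lit 33877942135) (nat_lit 380) (nat_lit 100131112569) (nat_lit 44) (nat_lit 5) (nat_lit 43) (nat_lit 5) (nat_lit 48) (nat_lit 5) (nat_lit 368) (nat_lit 365) (nat_lit 287)) (XT.lf (nat_lit 0) (nat_lit 85189949713) (nat_lit 304) (nat_lit 48213708452) (nat_lit 76) (nat_lit 45294063914) (nat_lit 44) (nat_lit 5) (nat_lit 48) (nat_lit 5) (nat_lit 45) (nat_lit 5) (nat_lit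 369) (nat_lit 365) (nat_lit 286)))) (XT.nd (nat_lit 156) (nat_lit 228) (nat_lit 0) (XT.nd (nat_lit 78) (nat_lit 0) (nat_lit 0) (XT.lf (nat_lit 0) (nat_lit 53610022252) (nat_lit 304) (nat_lit 57925963663) (nat_lit 380) (nat_lit 81483329750) (nat_lit 40) (nat_lit 5) (nat_lit 44) (nat_lit 5) (nat_lit 45) (nat_lit 5) (nat_lit 370) (nat_lit 365) (nat_lit 285)) (XT.lf (nat_lit 0) (nat_lit 145669409065) (nat_lit 380) (nat_lit 34301284761) (nat_lit 76) (nat_lit 28943132317) (nat_lit 40) (nat_lit 5) (nat_lit 45) (nat_lit 5) (nat_lit 41) (nat_lit 5) (nat_lit 371) (nat_lit 365) (nat_lit 284))) (XT.nd (nat_lit 78) (nat_lit 76) (nat_lit 0) (XT.lf (nat_lit 0) (nat_lit 92005079659) (nat_lit 152) (nat_lit 99485550443) (nat_lit 228) (nat_lit 34716715499) (nat_lit 38) (nat_lit 5) (nat_lit 40) (nat_lit 5) (nat_lit 41) (nat_lit 5) (nat_lit 372) (nat_lit 365) (nat_lit 283)) (XT.lf (nat_lit 0) (nat_lit 138257764)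 (nat_lit 228) (nat_lit 4720250852) (nat_lit 76) (nat_lit 240966533750) (nat_lit 37) (nat_lit 5) (nat_lit 40) (nat_lit 5) (nat_lit 38) (nat_lit 5) (nat_lit 373) (nat_lit 365) (nat_lit 282))))) (XT.nd (nat_lit 234) (nat_lit 380) (nat_lit 0) (XT.nd (nat_lit 78) (nat_lit 152) (nat_lit 0) (XT.lf (nat_lit 0) (nat_lit 47837628655) (nat_lit 228) (nat_lit 115398099969) (nat_lit 76) (nat_lit 103226116223) (nat_lit 35) (nat_lit 5) (nat_lit 38) (nat_lit 5) (nat_lit 36) (nat_lit 5) (nat_lit 374) (nat_lit 365) (nat_lit 281)) (XT.nd (nat_lit 78) (nat_lit 0) (nat_lit 0) (XT.lf (nat_lit 0) (nat_lit 44288021071) (nat_lit 152) (nat_lit 60727347554) (nat_lit 228) (nat_lit 184830279599) (nat_lit 33) (nat_lit 5) (nat_lit 35) (nat_lit 5) (nat_lit 36) (nat_lit 5) (nat_lit 375) (nat_lit 365) (nat_lit 280)) (XT.lf (nat_lit 0) (nat_lit 179455708159) (nat_lit 228) (nat_lit 77590357625) (nat_lit 76) (nat_lit 58388065573)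 (nat_lit 33) (nat_lit 5) (nat_lit 36) (nat_lit 5) (nat_lit 34) (nat_lit 4) (nat_lit 376) (nat_lit 365) (nat_lit 279)))) (XT.nd (nat_lit 156) (nat_lit 228) (nat_lit 0) (XT.nd (nat_lit 78) (nat_lit 76) (nat_lit 0) (XT.lf (nat_lit 0) (nat_lit 123691785677) (nat_lit 76) (nat_lit 149383693420) (nat_lit 152) (nat_lit 70583400824) (nat_lit 32) (nat_lit 5) (nat_lit 33) (nat_lit 5) (nat_lit 34) (nat_lit 4) (nat_lit 377) (nat_lit 365) (nat_lit 278)) (XT.lf (nat_lit 0) (nat_lit 8458282229) (nat_lit 152) (nat_lit 12007431148) (nat_lit 76) (nat_lit 354985607895) (nat_lit 31) (nat_lit 5) (nat_lit 33) (nat_lit 5) (nat_lit 32) (nat_lit 5) (nat_lit 378) (nat_lit 365) (nat_lit 277))) (XT.nd (nat_lit 78) (nat_lit 76) (nat_lit 0) (XT.lf (nat_lit 0) (nat_lit 108237618350) (nat_lit 228) (nat_lit 170263978362) (nat_lit 76) (nat_lit 130590695524) (nat_lit 29) (nat_lit 5) (nat_lit 32) (nat_lit 5) (nat_lit 30) (nat_lit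 4) (nat_lit 379) (nat_lit 365) (nat_lit 276)) (XT.lf (nat_lit 0) (nat_lit 87762068759) (nat_lit 76) (nat_lit 140487761387) (nat_lit 152) (nat_lit 218739682427) (nat_lit 28) (nat_lit 5) (nat_lit 29) (nat_lit 5) (nat_lit 30) (nat_lit 4) (nat_lit 380) (nat_lit 365) (nat_lit 275))))))))
noncomputable def xc87 : XT := (XT.nd (nat_lit 2106) (nat_lit 380) (nat_lit 0) (XT.nd (nat_lit 1014) (nat_lit 760) (nat_lit 0) (XT.nd (nat_lit 468) (nat_lit 532) (nat_lit 0) (XT.nd (nat_lit 234) (nat_lit 152) (nat_lit 0) (XT.nd (nat_lit 78) (nat_lit 228) (nat_lit 0) (XT.lf (nat_lit 0) (nat_lit 376342475030) (nat_lit 152) (nat_lit 86787834099) (nat_lit 0) (nat_lit 25929216650) (nat_lit 28) (nat_lit 5) (nat_lit 30) (nat_lit 4) (nat_lit 28) (nat_lit 4) (nat_lit 381) (nat_lit 365) (nat_lit 274)) (XT.nd (nat_lit 78) (nat_lit 76) (nat_lit 0) (XT.lf (nat_lit 0) (nat_lit 25865415188) (nat_lit 152) (nat_lit 294802752646)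 (nat_lit 76) (nat_lit 214093231606) (nat_lit 26) (nat_lit 5) (nat_lit 28) (nat_lit 5) (nat_lit 27) (nat_lit 4) (nat_lit 382) (nat_lit 365) (nat_lit 273)) (XT.lf (nat_lit 0) (nat_lit 36498368099) (nat_lit 76) (nat_lit 143460646999) (nat_lit 152) (nat_lit 405614840807) (nat_lit 25) (nat_lit 5) (nat_lit 26) (nat_lit 5) (nat_lit 27) (nat_lit 4) (nat_lit 383) (nat_lit 365) (nat_lit 272)))) (XT.nd (nat_lit 78) (nat_lit 152) (nat_lit 0) (XT.lf (nat_lit 0) (nat_lit 375808528536) (nat_lit 152) (nat_lit 194302336568) (nat_lit 0) (nat_lit 71101034714) (nat_lit 25) (nat_lit 5) (nat_lit 27) (nat_lit 4) (nat_lit 25) (nat_lit 4) (nat_lit 384) (nat_lit 365) (nat_lit 271)) (XT.nd (nat_lit 78) (nat_lit 76) (nat_lit 0) (XT.lf (nat_lit 0) (nat_lit 227070474109) (nat_lit 76) (nat_lit 390198836072) (nat_lit 76) (nat_lit 85491263965) (nat_lit 24) (nat_lit 4) (nat_lit 25) (nat_lit 5) (nat_lit 25) (nat_lit 4) (nat_lit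 385) (nat_lit 365) (nat_lit 270)) (XT.lf (nat_lit 0) (nat_lit 121239354854) (nat_lit 152) (nat_lit 44043027244) (nat_lit 76) (nat_lit 605909045971) (nat_lit 23) (nat_lit 5) (nat_lit 25) (nat_lit 5) (nat_lit 24) (nat_lit 4) (nat_lit 386) (nat_lit 365) (nat_lit 269))))) (XT.nd (nat_lit 234) (nat_lit 304) (nat_lit 0) (XT.nd (nat_lit 78) (nat_lit 152) (nat_lit 0) (XT.lf (nat_lit 0) (nat_lit 375633615154) (nat_lit 152) (nat_lit 359161235889) (nat_lit 0) (nat_lit 110670398304) (nat_lit 22) (nat_lit 5) (nat_lit 24) (nat_lit 4) (nat_lit 22) (nat_lit 4) (nat_lit 387) (nat_lit 365) (nat_lit 268)) (XT.nd (nat_lit 78) (nat_lit 76) (nat_lit 0) (XT.lf (nat_lit 0) (nat_lit 178531849708) (nat_lit 76) (nat_lit 507330153694) (nat_lit 76) (nat_lit 242366892085) (nat_lit 21) (nat_lit 4) (nat_lit 22) (nat_lit 5) (nat_lit 22) (nat_lit 4) (nat_lit 388) (nat_lit 365) (nat_lit 267)) (XT.lf (nat_lit 0) (nat_lit 37174931167)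 (nat_lit 152) (nat_lit 185037198520) (nat_lit 76) (nat_lit 798125357623) (nat_lit 20) (nat_lit 5) (nat_lit 22) (nat_lit 5) (nat_lit 21) (nat_lit 4) (nat_lit 389) (nat_lit 365) (nat_lit 266)))) (XT.nd (nat_lit 156) (nat_lit 152) (nat_lit 0) (XT.nd (nat_lit 78) (nat_lit 76) (nat_lit 0) (XT.lf (nat_lit 0) (nat_lit 360320444228) (nat_lit 152) (nat_lit 630320261392) (nat_lit 0) (nat_lit 129917544771) (nat_lit 19) (nat_lit 5) (nat_lit 21) (nat_lit 4) (nat_lit 19) (nat_lit 4) (nat_lit 390) (nat_lit 365) (nat_lit 265)) (XT.lf (nat_lit 0) (nat_lit 46320293705) (nat_lit 76) (nat_lit 708249945516) (nat_lit 76) (nat_lit 477847020467) (nat_lit 18) (nat_lit 4) (nat_lit 19) (nat_lit 5) (nat_lit 19) (nat_lit 4) (nat_lit 391) (nat_lit 365) (nat_lit 264))) (XT.nd (nat_lit 78) (nat_lit 152) (nat_lit 0) (XT.lf (nat_lit 0) (nat_lit 895296159318) (nat_lit 76) (nat_lit 345609818600) (nat_lit 76) (nat_lit 115206871298)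 (nat_lit 18) (nat_lit 4) (nat_lit 19) (nat_lit 5) (nat_lit 19) (nat_lit 4) (nat_lit 392) (nat_lit 365) (nat_lit 263)) (XT.lf (nat_lit 0) (nat_lit 295689970015) (nat_lit 152) (nat_lit 1102348786590) (nat_lit 0) (nat_lit 95339564230) (nat_lit 16) (nat_lit 5) (nat_lit 18) (nat_lit 4) (nat_lit 16) (nat_lit 4) (nat_lit 393) (nat_lit 365) (nat_lit 262)))))) (XT.nd (nat_lit 546) (nat_lit 304) (nat_lit 0) (XT.nd (nat_lit 234) (nat_lit 228) (nat_lit 0) (XT.nd (nat_lit 78) (nat_lit 228) (nat_lit 0) (XT.lf (nat_lit 0) (nat_lit 798119081770) (nat_lit 152) (nat_lit 248269053833) (nat_lit 0) (nat_lit 597768661353) (nat_lit 16) (nat_lit 5) (nat_lit 18) (nat_lit 4) (nat_lit 16) (nat_lit 4) (nat_lit 394) (nat_lit 365) (nat_lit 261)) (XT.nd (nat_lit 78) (nat_lit 152) (nat_lit 0) (XT.lf (nat_lit 0) (nat_lit 805646743928) (nat_lit 76) (nat_lit 603625863333) (nat_lit 76) (nat_lit 403275430192) (nat_lit 15) (nat_lit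 4) (nat_lit 16) (nat_lit 5) (nat_lit 16) (nat_lit 4) (nat_lit 395) (nat_lit 365) (nat_lit 260)) (XT.lf (nat_lit 0) (nat_lit 39844635718) (nat_lit 76) (nat_lit 71874006106) (nat_lit 152) (nat_lit 1891534725606) (nat_lit 13) (nat_lit 5) (nat_lit 14) (nat_lit 5) (nat_lit 15) (nat_lit 4) (nat_lit 396) (nat_lit 365) (nat_lit 259)))) (XT.nd (nat_lit 156) (nat_lit 152) (nat_lit 0) (XT.nd (nat_lit 78) (nat_lit 76) (nat_lit 0) (XT.lf (nat_lit 0) (nat_lit 740159236257) (nat_lit 152) (nat_lit 901960501406) (nat_lit 0) (nat_lit 565941450321) (nat_lit 13) (nat_lit 5) (nat_lit 15) (nat_lit 4) (nat_lit 13) (nat_lit 4) (nat_lit 397) (nat_lit 365) (nat_lit 258)) (XT.lf (nat_lit 0) (nat_lit 346093946715) (nat_lit 76) (nat_lit 1134525499576) (nat_lit 76) (nat_lit 960307706366) (nat_lit 12) (nat_lit 4) (nat_lit 13) (nat_lit 5) (nat_lit 13) (nat_lit 4) (nat_lit 398) (nat_lit 365) (nat_lit 257))) (XT.nd (nat_lit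 78) (nat_lit 152) (nat_lit 0) (XT.lf (nat_lit 0) (nat_lit 1882724507045) (nat_lit 76) (nat_lit 496572061227) (nat_lit 76) (nat_lit 322354261691) (nat_lit 12) (nat_lit 4) (nat_lit 13) (nat_lit 5) (nat_lit 13) (nat_lit 4) (nat_lit 399) (nat_lit 365) (nat_lit 256)) (XT.lf (nat_lit 0) (nat_lit 415367411314) (nat_lit 152) (nat_lit 2313583676708) (nat_lit 0) (nat_lit 263873667803) (nat_lit 10) (nat_lit 5) (nat_lit 12) (nat_lit 4) (nat_lit 10) (nat_lit 4) (nat_lit 400) (nat_lit 365) (nat_lit 255))))) (XT.nd (nat_lit 234) (nat_lit 228) (nat_lit 0) (XT.nd (nat_lit 78) (nat_lit 76) (nat_lit 0) (XT.lf (nat_lit 0) (nat_lit 1299236603049) (nat_lit 152) (nat_lit 868118951083) (nat_lit 0) (nat_lit 1147742855379) (nat_lit 10) (nat_lit 5) (nat_lit 12) (nat_lit 4) (nat_lit 10) (nat_lit 4) (nat_lit 401) (nat_lit 365) (nat_lit 254)) (XT.nd (nat_lit 78) (nat_lit 0) (nat_lit 0) (XT.lf (nat_lit 0) (nat_lit 871777009170)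 (nat_lit 76) (nat_lit 1480007547917) (nat_lit 76) (nat_lit 1328513796631) (nat_lit 9) (nat_lit 4) (nat_lit 10) (nat_lit 5) (nat_lit 10) (nat_lit 4) (nat_lit 402) (nat_lit 365) (nat_lit 253)) (XT.lf (nat_lit 0) (nat_lit 2970222007750) (nat_lit 76) (nat_lit 637371600331) (nat_lit 76) (nat_lit 485877845899) (nat_lit 9) (nat_lit 4) (nat_lit 10) (nat_lit 5) (nat_lit 10) (nat_lit 4) (nat_lit 403) (nat_lit 365) (nat_lit 252)))) (XT.nd (nat_lit 156) (nat_lit 76) (nat_lit 0) (XT.nd (nat_lit 78) (nat_lit 0) (nat_lit 0) (XT.lf (nat_lit 0) (nat_lit 492673741695) (nat_lit 152) (nat_lit 3704125697927) (nat_lit 0) (nat_lit 360940039811) (nat_lit 7) (nat_lit 5) (nat_lit 9) (nat_lit 4) (nat_lit 7) (nat_lit 4) (nat_lit 404) (nat_lit 365) (nat_lit 251)) (XT.lf (nat_lit 0) (nat_lit 1660125701036) (nat_lit 152) (nat_lit 1885880114010) (nat_lit 0) (nat_lit 1528391997084) (nat_lit 7) (nat_lit 5) (nat_lit 9) (nat_lit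 4) (nat_lit 7) (nat_lit 4) (nat_lit 405) (nat_lit 365) (nat_lit 250))) (XT.nd (nat_lit 78) (nat_lit 0) (nat_lit 0) (XT.lf (nat_lit 0) (nat_lit 225146320158) (nat_lit 76) (nat_lit 2786871930437) (nat_lit 76) (nat_lit 2655138224687) (nat_lit 6) (nat_lit 4) (nat_lit 7) (nat_lit 5) (nat_lit 7) (nat_lit 4) (nat_lit 406) (nat_lit 365) (nat_lit 249)) (XT.lf (nat_lit 0) (nat_lit 2864773861219) (nat_lit 76) (nat_lit 1800500887075) (nat_lit 76) (nat_lit 1668767179761) (nat_lit 6) (nat_lit 4) (nat_lit 7) (nat_lit 5) (nat_lit 7) (nat_lit 4) (nat_lit 407) (nat_lit 365) (nat_lit 248))))))) (XT.nd (nat_lit 1014) (nat_lit 76) (nat_lit 0) (XT.nd (nat_lit 468) (nat_lit 152) (nat_lit 0) (XT.nd (nat_lit 234) (nat_lit 76) (nat_lit 0) (XT.nd (nat_lit 78) (nat_lit 76) (nat_lit 0) (XT.lf (nat_lit 0) (nat_lit 5900345475611) (nat_lit 76) (nat_lit 666174217934) (nat_lit 76) (nat_lit 534440509261) (nat_lit 6) (nat_lit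 4) (nat_lit 7) (nat_lit 5) (nat_lit 7) (nat_lit 4) (nat_lit 408) (nat_lit 365) (nat_lit 247)) (XT.nd (nat_lit 78) (nat_lit 0) (nat_lit 0) (XT.lf (nat_lit 0) (nat_lit 794975628655) (nat_lit 76) (nat_lit 6488709038144) (nat_lit 0) (nat_lit 680424576607) (nat_lit 5) (nat_lit 5) (nat_lit 6) (nat_lit 4) (nat_lit 5) (nat_lit 4) (nat_lit 409) (nat_lit 365) (nat_lit 246)) (XT.lf (nat_lit 0) (nat_lit 2366558165426) (nat_lit 76) (nat_lit 4319727354002) (nat_lit 0) (nat_lit 2252007112483) (nat_lit 5) (nat_lit 5) (nat_lit 6) (nat_lit 4) (nat_lit 5) (nat_lit 4) (nat_lit 410) (nat_lit 365) (nat_lit 245)))) (XT.nd (nat_lit 78) (nat_lit 76) (nat_lit 0) (XT.lf (nat_lit 0) (nat_lit 4173878061270) (nat_lit 76) (nat_lit 1825398463090) (nat_lit 0) (nat_lit 4059327007550) (nat_lit 5) (nat_lit 5) (nat_lit 6) (nat_lit 4) (nat_lit 5) (nat_lit 4) (nat_lit 411) (nat_lit 365) (nat_lit 244)) (XT.nd (nat_lit 78) (nat_lit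 0) (nat_lit 0) (XT.lf (nat_lit 0) (nat_lit 1145017058017) (nat_lit 76) (nat_lit 5154691579445) (nat_lit 76) (nat_lit 5040140525049) (nat_lit 4) (nat_lit 4) (nat_lit 5) (nat_lit 5) (nat_lit 5) (nat_lit 4) (nat_lit 412) (nat_lit 365) (nat_lit 243)) (XT.lf (nat_lit 0) (nat_lit 4766144764689) (nat_lit 76) (nat_lit 4073687573632) (nat_lit 76) (nat_lit 3959136518648) (nat_lit 4) (nat_lit 4) (nat_lit 5) (nat_lit 5) (nat_lit 5) (nat_lit 4) (nat_lit 413) (nat_lit 365) (nat_lit 242))))) (XT.nd (nat_lit 234) (nat_lit 0) (nat_lit 0) (XT.nd (nat_lit 78) (nat_lit 152) (nat_lit 0) (XT.lf (nat_lit 0) (nat_lit 8930441594268) (nat_lit 76) (nat_lit 2830532984571) (nat_lit 76) (nat_lit 2715981929076) (nat_lit 4) (nat_lit 4) (nat_lit 5) (nat_lit 5) (nat_lit 5) (nat_lit 4) (nat_lit 414) (nat_lit 365) (nat_lit 241)) (XT.nd (nat_lit 78) (nat_lit 152) (nat_lit 0) (XT.lf (nat_lit 0) (nat_lit 13719382919507) (nat_lit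 76) (nat_lit 1400905222476) (nat_lit 76) (nat_lit 1286354166537) (nat_lit 4) (nat_lit 4) (nat_lit 5) (nat_lit 5) (nat_lit 5) (nat_lit 4) (nat_lit 415) (nat_lit 365) (nat_lit 240)) (XT.lf (nat_lit 0) (nat_lit 364553798189) (nat_lit 152) (nat_lit 17988258765617) (nat_lit 0) (nat_lit 264944183992) (nat_lit 2) (nat_lit 5) (nat_lit 4) (nat_lit 4) (nat_lit 2) (nat_lit 4) (nat_lit 416) (nat_lit 365) (nat_lit 239)))) (XT.nd (nat_lit 156) (nat_lit 0) (nat_lit 0) (XT.nd (nat_lit 78) (nat_lit 0) (nat_lit 0) (XT.lf (nat_lit 0) (nat_lit 2345268995941) (nat_lit 152) (nat_lit 16528341351080) (nat_lit 0) (nat_lit 2245659381453) (nat_lit 2) (nat_lit 5) (nat_lit 4) (nat_lit 4) (nat_lit 2) (nat_lit 4) (nat_lit 417) (nat_lit 365) (nat_lit 238)) (XT.lf (nat_lit 0) (nat_lit 4623091462710) (nat_lit 152) (nat_lit 14849436347171) (nat_lit 0) (nat_lit 4523481847967) (nat_lit 2) (nat_lit 5) (nat_lit 4) (nat_lit 4)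 (nat_lit 2) (nat_lit 4) (nat_lit 418) (nat_lit 365) (nat_lit 237))) (XT.nd (nat_lit 78) (nat_lit 0) (nat_lit 0) (XT.lf (nat_lit 0) (nat_lit 7242587290236) (nat_lit 152) (nat_lit 12918695612510) (nat_lit 0) (nat_lit 7142977675272) (nat_lit 2) (nat_lit 5) (nat_lit 4) (nat_lit 4) (nat_lit 2) (nat_lit 4) (nat_lit 419) (nat_lit 365) (nat_lit 236)) (XT.lf (nat_lit 0) (nat_lit 10255007483840) (nat_lit 152) (nat_lit 10698343784897) (nat_lit 0) (nat_lit 10155397868684) (nat_lit 2) (nat_lit 5) (nat_lit 4) (nat_lit 4) (nat_lit 2) (nat_lit 4) (nat_lit 420) (nat_lit 365) (nat_lit 235)))))) (XT.nd (nat_lit 546) (nat_lit 0) (nat_lit 0) (XT.nd (nat_lit 234) (nat_lit 76) (nat_lit 0) (XT.nd (nat_lit 78) (nat_lit 0) (nat_lit 0) (XT.lf (nat_lit 0) (nat_lit 13719290699484) (nat_lit 152) (nat_lit 8144939198138) (nat_lit 0) (nat_lit 13619681084161) (nat_lit 2) (nat_lit 5) (nat_lit 4) (nat_lit 4) (nat_lit 2) (nat_lit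 4) (nat_lit 421) (nat_lit 365) (nat_lit 234)) (XT.nd (nat_lit 78) (nat_lit 0) (nat_lit 0) (XT.lf (nat_lit 0) (nat_lit 17703216391387) (nat_lit 152) (nat_lit 5208523936407) (nat_lit 0) (nat_lit 17603606775918) (nat_lit 2) (nat_lit 5) (nat_lit 4) (nat_lit 4) (nat_lit 2) (nat_lit 4) (nat_lit 422) (nat_lit 365) (nat_lit 233)) (XT.lf (nat_lit 0) (nat_lit 22284730931782) (nat_lit 152) (nat_lit 1831646396757) (nat_lit 0) (nat_lit 22185121316187) (nat_lit 2) (nat_lit 5) (nat_lit 4) (nat_lit 4) (nat_lit 2) (nat_lit 4) (nat_lit 423) (nat_lit 365) (nat_lit 232)))) (XT.nd (nat_lit 156) (nat_lit 0) (nat_lit 0) (XT.nd (nat_lit 78) (nat_lit 0) (nat_lit 0) (XT.lf (nat_lit 0) (nat_lit 2252275943186) (nat_lit 76) (nat_lit 25394458649264) (nat_lit 76) (nat_lit 25294849033560) (nat_lit 1) (nat_lit 4) (nat_lit 2) (nat_lit 5) (nat_lit 2) (nat_lit 4) (nat_lit 424) (nat_lit 365) (nat_lit 231)) (XT.lf (nat_lit 0)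 (nat_lit 7154638702708) (nat_lit 76) (nat_lit 26754145247676) (nat_lit 76) (nat_lit 26654535631876) (nat_lit 1) (nat_lit 4) (nat_lit 2) (nat_lit 5) (nat_lit 2) (nat_lit 4) (nat_lit 425) (nat_lit 365) (nat_lit 230))) (XT.nd (nat_lit 78) (nat_lit 0) (nat_lit 0) (XT.lf (nat_lit 0) (nat_lit 12792355867974) (nat_lit 76) (nat_lit 28317784840216) (nat_lit 76) (nat_lit 28218175224333) (nat_lit 1) (nat_lit 4) (nat_lit 2) (nat_lit 5) (nat_lit 2) (nat_lit 4) (nat_lit 426) (nat_lit 365) (nat_lit 229)) (XT.lf (nat_lit 0) (nat_lit 19275730600911) (nat_lit 76) (nat_lit 30115970375433) (nat_lit 76) (nat_lit 30016360759478) (nat_lit 1) (nat_lit 4) (nat_lit 2) (nat_lit 5) (nat_lit 2) (nat_lit 4) (nat_lit 427) (nat_lit 365) (nat_lit 228))))) (XT.nd (nat_lit 48438) (nat_lit 0) (nat_lit 2964) (XT.nd (nat_lit 48282) (nat_lit 0) (nat_lit 3116) (XT.lf (nat_lit 0) (nat_lit 26731611537601) (nat_lit 76) (nat_lit 32183883744234)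 (nat_lit 76) (nat_lit 32084274128215) (nat_lit 1) (nat_lit 4) (nat_lit 2) (nat_lit 5) (nat_lit 2) (nat_lit 4) (nat_lit 428) (nat_lit 365) (nat_lit 227)) (XT.nd (nat_lit 78) (nat_lit 0) (nat_lit 0) (XT.lf (nat_lit 0) (nat_lit 22814583664) (nat_lit 380) (nat_lit 26932023192) (nat_lit 380) (nat_lit 26932023192) (nat_lit 42) (nat_lit 3) (nat_lit 47) (nat_lit 3) (nat_lit 47) (nat_lit 5) (nat_lit 366) (nat_lit 366) (nat_lit 288)) (XT.lf (nat_lit 76) (nat_lit 24690122576) (nat_lit 0) (nat_lit 25386177103) (nat_lit 380) (nat_lit 114629012599) (nat_lit 43) (nat_lit 5) (nat_lit 42) (nat_lit 3) (nat_lit 47) (nat_lit 5) (nat_lit 367) (nat_lit 366) (nat_lit 287)))) (XT.nd (nat_lit 156) (nat_lit 228) (nat_lit 0) (XT.nd (nat_lit 78) (nat_lit 0) (nat_lit 0) (XT.lf (nat_lit 0) (nat_lit 60617454926) (nat_lit 304) (nat_lit 58864392496) (nat_lit 380) (nat_lit 57459682015) (nat_lit 43) (nat_lit 5) (nat_lit 47)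 (nat_lit 5) (nat_lit 48) (nat_lit 5) (nat_lit 368) (nat_lit 366) (nat_lit 286)) (XT.lf (nat_lit 76) (nat_lit 36499254514) (nat_lit 0) (nat_lit 38960347525) (nat_lit 380) (nat_lit 115145604437) (nat_lit 44) (nat_lit 5) (nat_lit 43) (nat_lit 5) (nat_lit 48) (nat_lit 5) (nat_lit 369) (nat_lit 366) (nat_lit 285))) (XT.nd (nat_lit 78) (nat_lit 304) (nat_lit 0) (XT.lf (nat_lit 0) (nat_lit 97972328750) (nat_lit 304) (nat_lit 55441859924) (nat_lit 76) (nat_lit 52087607850) (nat_lit 44) (nat_lit 5) (nat_lit 48) (nat_lit 5) (nat_lit 45) (nat_lit 5) (nat_lit 370) (nat_lit 366) (nat_lit 284)) (XT.lf (nat_lit 0) (nat_lit 61655252896) (nat_lit 304) (nat_lit 66614664882) (nat_lit 380) (nat_lit 93701764376) (nat_lit 40) (nat_lit 5) (nat_lit 44) (nat_lit 5) (nat_lit 45) (nat_lit 5) (nat_lit 371) (nat_lit 366) (nat_lit 283))))))))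
noncomputable def xc88 : XT := (XT.nd (nat_lit 2028) (nat_lit 836) (nat_lit 0) (XT.nd (nat_lit 1014) (nat_lit 912) (nat_lit 0) (XT.nd (nat_lit 468) (nat_lit 608) (nat_lit 0) (XT.nd (nat_lit 234) (nat_lit 304) (nat_lit 0) (XT.nd (nat_lit 78) (nat_lit 228) (nat_lit 0) (XT.lf (nat_lit 0) (nat_lit 167522900407) (nat_lit 380) (nat_lit 39442781683) (nat_lit 76) (nat_lit 33284755312) (nat_lit 40) (nat_lit 5) (nat_lit 45) (nat_lit 5) (nat_lit 41) (nat_lit 5) (nat_lit 372) (nat_lit 366) (nat_lit 282)) (XT.nd (nat_lit 78) (nat_lit 76) (nat_lit 0) (XT.lf (nat_lit 0) (nat_lit 105809369410) (nat_lit 152) (nat_lit 114407679532) (nat_lit 228) (nat_lit 39920974272) (nat_lit 38) (nat_lit 5) (nat_lit 40) (nat_lit 5) (nat_lit 41) (nat_lit 5) (nat_lit 373) (nat_lit 366) (nat_lit 281)) (XT.lf (nat_lit 0) (nat_lit 161569771) (nat_lit 228) (nat_lit 5424968903) (nat_lit 76) (nat_lit 277111873608) (nat_lit 37) (nat_lit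 5) (nat_lit 40) (nat_lit 5) (nat_lit 38) (nat_lit 5) (nat_lit 374) (nat_lit 366) (nat_lit 280)))) (XT.nd (nat_lit 78) (nat_lit 152) (nat_lit 0) (XT.lf (nat_lit 0) (nat_lit 55015674969) (nat_lit 228) (nat_lit 132704323679) (nat_lit 76) (nat_lit 118710762244) (nat_lit 35) (nat_lit 5) (nat_lit 38) (nat_lit 5) (nat_lit 36) (nat_lit 5) (nat_lit 375) (nat_lit 366) (nat_lit 279)) (XT.nd (nat_lit 78) (nat_lit 0) (nat_lit 0) (XT.lf (nat_lit 0) (nat_lit 50934556822) (nat_lit 152) (nat_lit 69835343801) (nat_lit 228) (nat_lit 212552260499) (nat_lit 33) (nat_lit 5) (nat_lit 35) (nat_lit 5) (nat_lit 36) (nat_lit 5) (nat_lit 376) (nat_lit 366) (nat_lit 278)) (XT.lf (nat_lit 0) (nat_lit 206376040467) (nat_lit 228) (nat_lit 89225762456) (nat_lit 76) (nat_lit 67147151438) (nat_lit 33) (nat_lit 5) (nat_lit 36) (nat_lit 5) (nat_lit 34) (nat_lit 4) (nat_lit 377) (nat_lit 366) (nat_lit 277))))) (XT.nd (nat_lit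 234) (nat_lit 304) (nat_lit 0) (XT.nd (nat_lit 78) (nat_lit 228) (nat_lit 0) (XT.lf (nat_lit 0) (nat_lit 142248559213) (nat_lit 76) (nat_lit 171790084541) (nat_lit 152) (nat_lit 81168791486) (nat_lit 32) (nat_lit 5) (nat_lit 33) (nat_lit 5) (nat_lit 34) (nat_lit 4) (nat_lit 378) (nat_lit 366) (nat_lit 276)) (XT.nd (nat_lit 78) (nat_lit 152) (nat_lit 0) (XT.lf (nat_lit 0) (nat_lit 9728703496) (nat_lit 152) (nat_lit 13805767915) (nat_lit 76) (nat_lit 408234296023) (nat_lit 31) (nat_lit 5) (nat_lit 33) (nat_lit 5) (nat_lit 32) (nat_lit 5) (nat_lit 379) (nat_lit 366) (nat_lit 275)) (XT.lf (nat_lit 0) (nat_lit 124474875642) (nat_lit 228) (nat_lit 195800732652) (nat_lit 76) (nat_lit 150180285431) (nat_lit 29) (nat_lit 5) (nat_lit 32) (nat_lit 5) (nat_lit 30) (nat_lit 4) (nat_lit 380) (nat_lit 366) (nat_lit 274)))) (XT.nd (nat_lit 156) (nat_lit 228) (nat_lit 0) (XT.nd (nat_lit 78) (nat_lit 0) (nat_lit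 0) (XT.lf (nat_lit 0) (nat_lit 100929092334) (nat_lit 76) (nat_lit 161559728632) (nat_lit 152) (nat_lit 251548890905) (nat_lit 28) (nat_lit 5) (nat_lit 29) (nat_lit 5) (nat_lit 30) (nat_lit 4) (nat_lit 381) (nat_lit 366) (nat_lit 273)) (XT.lf (nat_lit 0) (nat_lit 432795207903) (nat_lit 152) (nat_lit 99803495053) (nat_lit 0) (nat_lit 29819547323) (nat_lit 28) (nat_lit 5) (nat_lit 30) (nat_lit 4) (nat_lit 28) (nat_lit 4) (nat_lit 382) (nat_lit 366) (nat_lit 272))) (XT.nd (nat_lit 78) (nat_lit 76) (nat_lit 0) (XT.lf (nat_lit 0) (nat_lit 29746572068) (nat_lit 152) (nat_lit 339020634164) (nat_lit 76) (nat_lit 246208201339) (nat_lit 26) (nat_lit 5) (nat_lit 28) (nat_lit 5) (nat_lit 27) (nat_lit 4) (nat_lit 383) (nat_lit 366) (nat_lit 271)) (XT.lf (nat_lit 0) (nat_lit 41975539631) (nat_lit 76) (nat_lit 164978597006) (nat_lit 152) (nat_lit 466455607181) (nat_lit 25) (nat_lit 5) (nat_lit 26) (nat_lit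 5) (nat_lit 27) (nat_lit 4) (nat_lit 384) (nat_lit 366) (nat_lit 270)))))) (XT.nd (nat_lit 468) (nat_lit 532) (nat_lit 0) (XT.nd (nat_lit 234) (nat_lit 228) (nat_lit 0) (XT.nd (nat_lit 78) (nat_lit 152) (nat_lit 0) (XT.lf (nat_lit 0) (nat_lit 432180952834) (nat_lit 152) (nat_lit 223445461581) (nat_lit 0) (nat_lit 81767098551) (nat_lit 25) (nat_lit 5) (nat_lit 27) (nat_lit 4) (nat_lit 25) (nat_lit 4) (nat_lit 385) (nat_lit 366) (nat_lit 269)) (XT.nd (nat_lit 78) (nat_lit 76) (nat_lit 0) (XT.lf (nat_lit 0) (nat_lit 261133169539) (nat_lit 76) (nat_lit 448727620800) (nat_lit 76) (nat_lit 98313707322) (nat_lit 24) (nat_lit 4) (nat_lit 25) (nat_lit 5) (nat_lit 25) (nat_lit 4) (nat_lit 386) (nat_lit 366) (nat_lit 268)) (XT.lf (nat_lit 0) (nat_lit 139426245290) (nat_lit 152) (nat_lit 50647537577) (nat_lit 76) (nat_lit 696796211285) (nat_lit 23) (nat_lit 5) (nat_lit 25) (nat_lit 5) (nat_lit 24) (nat_lit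 4) (nat_lit 387) (nat_lit 366) (nat_lit 267)))) (XT.nd (nat_lit 78) (nat_lit 152) (nat_lit 0) (XT.lf (nat_lit 0) (nat_lit 431979630797) (nat_lit 152) (nat_lit 413033463641) (nat_lit 0) (nat_lit 127271796265) (nat_lit 22) (nat_lit 5) (nat_lit 24) (nat_lit 4) (nat_lit 22) (nat_lit 4) (nat_lit 388) (nat_lit 366) (nat_lit 266)) (XT.nd (nat_lit 78) (nat_lit 76) (nat_lit 0) (XT.lf (nat_lit 0) (nat_lit 205313495813) (nat_lit 76) (nat_lit 583428731885) (nat_lit 76) (nat_lit 278720863508) (nat_lit 21) (nat_lit 4) (nat_lit 22) (nat_lit 5) (nat_lit 22) (nat_lit 4) (nat_lit 389) (nat_lit 366) (nat_lit 265)) (XT.lf (nat_lit 0) (nat_lit 42752012414) (nat_lit 152) (nat_lit 212791071115) (nat_lit 76) (nat_lit 917844900615) (nat_lit 20) (nat_lit 5) (nat_lit 22) (nat_lit 5) (nat_lit 21) (nat_lit 4) (nat_lit 390) (nat_lit 366) (nat_lit 264))))) (XT.nd (nat_lit 234) (nat_lit 380) (nat_lit 0) (XT.nd (nat_lit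 78) (nat_lit 76) (nat_lit 0) (XT.lf (nat_lit 0) (nat_lit 414369344522) (nat_lit 152) (nat_lit 724866585483) (nat_lit 0) (nat_lit 149405932871) (nat_lit 19) (nat_lit 5) (nat_lit 21) (nat_lit 4) (nat_lit 19) (nat_lit 4) (nat_lit 391) (nat_lit 366) (nat_lit 263)) (XT.nd (nat_lit 78) (nat_lit 0) (nat_lit 0) (XT.lf (nat_lit 0) (nat_lit 53269974919) (nat_lit 76) (nat_lit 814486592899) (nat_lit 76) (nat_lit 549523161897) (nat_lit 18) (nat_lit 4) (nat_lit 19) (nat_lit 5) (nat_lit 19) (nat_lit 4) (nat_lit 392) (nat_lit 366) (nat_lit 262)) (XT.lf (nat_lit 0) (nat_lit 1029592006831) (nat_lit 76) (nat_lit 397450557091) (nat_lit 76) (nat_lit 132487109262) (nat_lit 18) (nat_lit 4) (nat_lit 19) (nat_lit 5) (nat_lit 19) (nat_lit 4) (nat_lit 393) (nat_lit 366) (nat_lit 261)))) (XT.nd (nat_lit 156) (nat_lit 228) (nat_lit 0) (XT.nd (nat_lit 78) (nat_lit 0) (nat_lit 0) (XT.lf (nat_lit 0) (nat_lit 340044183150)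 (nat_lit 152) (nat_lit 1267699605837) (nat_lit 0) (nat_lit 109641172315) (nat_lit 16) (nat_lit 5) (nat_lit 18) (nat_lit 4) (nat_lit 16) (nat_lit 4) (nat_lit 394) (nat_lit 366) (nat_lit 260)) (XT.lf (nat_lit 0) (nat_lit 917837568065) (nat_lit 152) (nat_lit 285508108655) (nat_lit 0) (nat_lit 687434546165) (nat_lit 16) (nat_lit 5) (nat_lit 18) (nat_lit 4) (nat_lit 16) (nat_lit 4) (nat_lit 395) (nat_lit 366) (nat_lit 259))) (XT.nd (nat_lit 78) (nat_lit 152) (nat_lit 0) (XT.lf (nat_lit 0) (nat_lit 926494999532) (nat_lit 76) (nat_lit 694169092963) (nat_lit 76) (nat_lit 463766061443) (nat_lit 15) (nat_lit 4) (nat_lit 16) (nat_lit 5) (nat_lit 16) (nat_lit 4) (nat_lit 396) (nat_lit 366) (nat_lit 258)) (XT.lf (nat_lit 0) (nat_lit 45822576619) (nat_lit 76) (nat_lit 82654454313) (nat_lit 152) (nat_lit 2175264252680) (nat_lit 13) (nat_lit 5) (nat_lit 14) (nat_lit 5) (nat_lit 15) (nat_lit 4) (nat_lit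 397) (nat_lit 366) (nat_lit 257))))))) (XT.nd (nat_lit 1014) (nat_lit 228) (nat_lit 0) (XT.nd (nat_lit 468) (nat_lit 304) (nat_lit 0) (XT.nd (nat_lit 234) (nat_lit 228) (nat_lit 0) (XT.nd (nat_lit 78) (nat_lit 76) (nat_lit 0) (XT.lf (nat_lit 0) (nat_lit 851183660705) (nat_lit 152) (nat_lit 1037253439706) (nat_lit 0) (nat_lit 650833184913) (nat_lit 13) (nat_lit 5) (nat_lit 15) (nat_lit 4) (nat_lit 13) (nat_lit 4) (nat_lit 398) (nat_lit 366) (nat_lit 256)) (XT.nd (nat_lit 78) (nat_lit 0) (nat_lit 0) (XT.lf (nat_lit 0) (nat_lit 398009123955) (nat_lit 76) (nat_lit 1304703752920) (nat_lit 76) (nat_lit 1104353271627) (nat_lit 12) (nat_lit 4) (nat_lit 13) (nat_lit 5) (nat_lit 13) (nat_lit 4) (nat_lit 399) (nat_lit 366) (nat_lit 255)) (XT.lf (nat_lit 0) (nat_lit 2165134126783) (nat_lit 76) (nat_lit 571057373375) (nat_lit 76) (nat_lit 370706887299) (nat_lit 12) (nat_lit 4) (nat_lit 13) (nat_lit 5)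 (nat_lit 13) (nat_lit 4) (nat_lit 400) (nat_lit 366) (nat_lit 254)))) (XT.nd (nat_lit 78) (nat_lit 76) (nat_lit 0) (XT.lf (nat_lit 0) (nat_lit 477672989643) (nat_lit 152) (nat_lit 2660620237511) (nat_lit 0) (nat_lit 303455172047) (nat_lit 10) (nat_lit 5) (nat_lit 12) (nat_lit 4) (nat_lit 10) (nat_lit 4) (nat_lit 401) (nat_lit 366) (nat_lit 253)) (XT.nd (nat_lit 78) (nat_lit 76) (nat_lit 0) (XT.lf (nat_lit 0) (nat_lit 1494122499273) (nat_lit 152) (nat_lit 998335932264) (nat_lit 0) (nat_lit 1319904678532) (nat_lit 10) (nat_lit 5) (nat_lit 12) (nat_lit 4) (nat_lit 10) (nat_lit 4) (nat_lit 402) (nat_lit 366) (nat_lit 252)) (XT.lf (nat_lit 0) (nat_lit 1002544382868) (nat_lit 76) (nat_lit 1702008244674) (nat_lit 76) (nat_lit 1527790421198) (nat_lit 9) (nat_lit 4) (nat_lit 10) (nat_lit 5) (nat_lit 10) (nat_lit 4) (nat_lit 403) (nat_lit 366) (nat_lit 251))))) (XT.nd (nat_lit 234) (nat_lit 152) (nat_lit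 0) (XT.nd (nat_lit 78) (nat_lit 152) (nat_lit 0) (XT.lf (nat_lit 0) (nat_lit 3415756023976) (nat_lit 76) (nat_lit 732976961744) (nat_lit 76) (nat_lit 558759135890) (nat_lit 9) (nat_lit 4) (nat_lit 10) (nat_lit 5) (nat_lit 10) (nat_lit 4) (nat_lit 404) (nat_lit 366) (nat_lit 250)) (XT.nd (nat_lit 78) (nat_lit 0) (nat_lit 0) (XT.lf (nat_lit 0) (nat_lit 566575154760) (nat_lit 152) (nat_lit 4259743802465) (nat_lit 0) (nat_lit 415081391349) (nat_lit 7) (nat_lit 5) (nat_lit 9) (nat_lit 4) (nat_lit 7) (nat_lit 4) (nat_lit 405) (nat_lit 366) (nat_lit 249)) (XT.lf (nat_lit 0) (nat_lit 1909144862113) (nat_lit 152) (nat_lit 2168761478807) (nat_lit 0) (nat_lit 1757651097139) (nat_lit 7) (nat_lit 5) (nat_lit 9) (nat_lit 4) (nat_lit 7) (nat_lit 4) (nat_lit 406) (nat_lit 366) (nat_lit 248)))) (XT.nd (nat_lit 156) (nat_lit 76) (nat_lit 0) (XT.nd (nat_lit 78) (nat_lit 0) (nat_lit 0) (XT.lf (nat_lit 0) (nat_lit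 258918890837) (nat_lit 76) (nat_lit 3204902389150) (nat_lit 76) (nat_lit 3053408622817) (nat_lit 6) (nat_lit 4) (nat_lit 7) (nat_lit 5) (nat_lit 7) (nat_lit 4) (nat_lit 407) (nat_lit 366) (nat_lit 247)) (XT.lf (nat_lit 0) (nat_lit 3294490481841) (nat_lit 76) (nat_lit 2070575732438) (nat_lit 76) (nat_lit 1919081964922) (nat_lit 6) (nat_lit 4) (nat_lit 7) (nat_lit 5) (nat_lit 7) (nat_lit 4) (nat_lit 408) (nat_lit 366) (nat_lit 246))) (XT.nd (nat_lit 78) (nat_lit 76) (nat_lit 0) (XT.lf (nat_lit 0) (nat_lit 6785397767769) (nat_lit 76) (nat_lit 766100100453) (nat_lit 76) (nat_lit 614606331908) (nat_lit 6) (nat_lit 4) (nat_lit 7) (nat_lit 5) (nat_lit 7) (nat_lit 4) (nat_lit 409) (nat_lit 366) (nat_lit 245)) (XT.lf (nat_lit 0) (nat_lit 914222203830) (nat_lit 76) (nat_lit 7462014900181) (nat_lit 0) (nat_lit 782488491274) (nat_lit 5) (nat_lit 5) (nat_lit 6) (nat_lit 4) (nat_lit 5) (nat_lit 4) (nat_lit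 410) (nat_lit 366) (nat_lit 244)))))) (XT.nd (nat_lit 546) (nat_lit 0) (nat_lit 0) (XT.nd (nat_lit 234) (nat_lit 152) (nat_lit 0) (XT.nd (nat_lit 78) (nat_lit 76) (nat_lit 0) (XT.lf (nat_lit 0) (nat_lit 2721542091001) (nat_lit 76) (nat_lit 4967686027812) (nat_lit 0) (nat_lit 2589808377770) (nat_lit 5) (nat_lit 5) (nat_lit 6) (nat_lit 4) (nat_lit 5) (nat_lit 4) (nat_lit 411) (nat_lit 366) (nat_lit 243)) (XT.nd (nat_lit 78) (nat_lit 76) (nat_lit 0) (XT.lf (nat_lit 0) (nat_lit 4799959945036) (nat_lit 76) (nat_lit 2099207859257) (nat_lit 0) (nat_lit 4668226231217) (nat_lit 5) (nat_lit 5) (nat_lit 6) (nat_lit 4) (nat_lit 5) (nat_lit 4) (nat_lit 412) (nat_lit 366) (nat_lit 242)) (XT.lf (nat_lit 0) (nat_lit 1316769973048) (nat_lit 76) (nat_lit 5927895126593) (nat_lit 76) (nat_lit 5796161412263) (nat_lit 4) (nat_lit 4) (nat_lit 5) (nat_lit 5) (nat_lit 5) (nat_lit 4) (nat_lit 413) (nat_lit 366) (nat_lit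 241)))) (XT.nd (nat_lit 156) (nat_lit 152) (nat_lit 0) (XT.nd (nat_lit 78) (nat_lit 0) (nat_lit 0) (XT.lf (nat_lit 0) (nat_lit 5481066789243) (nat_lit 76) (nat_lit 4684740544660) (nat_lit 76) (nat_lit 4553006829885) (nat_lit 4) (nat_lit 4) (nat_lit 5) (nat_lit 5) (nat_lit 5) (nat_lit 4) (nat_lit 414) (nat_lit 366) (nat_lit 240)) (XT.lf (nat_lit 0) (nat_lit 10270008102843) (nat_lit 76) (nat_lit 3255112788764) (nat_lit 76) (nat_lit 3123379073603) (nat_lit 4) (nat_lit 4) (nat_lit 5) (nat_lit 5) (nat_lit 5) (nat_lit 4) (nat_lit 415) (nat_lit 366) (nat_lit 239))) (XT.nd (nat_lit 78) (nat_lit 152) (nat_lit 0) (XT.lf (nat_lit 0) (nat_lit 15777290591725) (nat_lit 76) (nat_lit 1611040881071) (nat_lit 76) (nat_lit 1479307165574) (nat_lit 4) (nat_lit 4) (nat_lit 5) (nat_lit 5) (nat_lit 5) (nat_lit 4) (nat_lit 416) (nat_lit 366) (nat_lit 238)) (XT.lf (nat_lit 0) (nat_lit 419236982558) (nat_lit 152)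 (nat_lit 20686497334865) (nat_lit 0) (nat_lit 304685925349) (nat_lit 2) (nat_lit 5) (nat_lit 4) (nat_lit 4) (nat_lit 2) (nat_lit 4) (nat_lit 417) (nat_lit 366) (nat_lit 237))))) (XT.nd (nat_lit 234) (nat_lit 0) (nat_lit 0) (XT.nd (nat_lit 78) (nat_lit 0) (nat_lit 0) (XT.lf (nat_lit 0) (nat_lit 2697059445020) (nat_lit 152) (nat_lit 19007592340181) (nat_lit 0) (nat_lit 2582508387591) (nat_lit 2) (nat_lit 5) (nat_lit 4) (nat_lit 4) (nat_lit 2) (nat_lit 4) (nat_lit 418) (nat_lit 366) (nat_lit 236)) (XT.nd (nat_lit 78) (nat_lit 0) (nat_lit 0) (XT.lf (nat_lit 0) (nat_lit 5316555268801) (nat_lit 152) (nat_lit 17076851613542) (nat_lit 0) (nat_lit 5202004211180) (nat_lit 2) (nat_lit 5) (nat_lit 4) (nat_lit 4) (nat_lit 2) (nat_lit 4) (nat_lit 419) (nat_lit 366) (nat_lit 235)) (XT.lf (nat_lit 0) (nat_lit 8328975459149) (nat_lit 152) (nat_lit 14856499792904) (nat_lit 0) (nat_lit 8214424401361) (nat_lit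 2) (nat_lit 5) (nat_lit 4) (nat_lit 4) (nat_lit 2) (nat_lit 4) (nat_lit 420) (nat_lit 366) (nat_lit 234)))) (XT.nd (nat_lit 156) (nat_lit 0) (nat_lit 0) (XT.nd (nat_lit 78) (nat_lit 0) (nat_lit 0) (XT.lf (nat_lit 0) (nat_lit 11793258671962) (nat_lit 152) (nat_lit 12303095212211) (nat_lit 0) (nat_lit 11678707614028) (nat_lit 2) (nat_lit 5) (nat_lit 4) (nat_lit 4) (nat_lit 2) (nat_lit 4) (nat_lit 421) (nat_lit 366) (nat_lit 233)) (XT.lf (nat_lit 0) (nat_lit 15777184361403) (nat_lit 152) (nat_lit 9366679955755) (nat_lit 0) (nat_lit 15662633303343) (nat_lit 2) (nat_lit 5) (nat_lit 4) (nat_lit 4) (nat_lit 2) (nat_lit 4) (nat_lit 422) (nat_lit 366) (nat_lit 232))) (XT.nd (nat_lit 78) (nat_lit 0) (nat_lit 0) (XT.lf (nat_lit 0) (nat_lit 20358698899657) (nat_lit 152) (nat_lit 5989802420691) (nat_lit 0) (nat_lit 20244147841487) (nat_lit 2) (nat_lit 5) (nat_lit 4) (nat_lit 4) (nat_lit 2) (nat_lit 4)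 (nat_lit 423) (nat_lit 366) (nat_lit 231)) (XT.lf (nat_lit 0) (nat_lit 25627440614647) (nat_lit 152) (nat_lit 2106393263942) (nat_lit 0) (nat_lit 25512889556381) (nat_lit 2) (nat_lit 5) (nat_lit 4) (nat_lit 4) (nat_lit 2) (nat_lit 4) (nat_lit 424) (nat_lit 366) (nat_lit 230))))))))
noncomputable def xc89 : XT := (XT.nd (nat_lit 50310) (nat_lit 0) (nat_lit 228) (XT.nd (nat_lit 49296) (nat_lit 0) (nat_lit 1672) (XT.nd (nat_lit 48750) (nat_lit 0) (nat_lit 2736) (XT.nd (nat_lit 234) (nat_lit 0) (nat_lit 0) (XT.nd (nat_lit 78) (nat_lit 0) (nat_lit 0) (XT.lf (nat_lit 0) (nat_lit 2590117422796) (nat_lit 76) (nat_lit 29203627399648) (nat_lit 76) (nat_lit 29089076341299) (nat_lit 1) (nat_lit 4) (nat_lit 2) (nat_lit 5) (nat_lit 2) (nat_lit 4) (nat_lit 425) (nat_lit 366) (nat_lit 229)) (XT.nd (nat_lit 78) (nat_lit 0) (nat_lit 0) (XT.lf (nat_lit 0) (nat_lit 8227834584751) (nat_lit 76) (nat_lit 30767266993953)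 (nat_lit 76) (nat_lit 30652715935532) (nat_lit 1) (nat_lit 4) (nat_lit 2) (nat_lit 5) (nat_lit 2) (nat_lit 4) (nat_lit 426) (nat_lit 366) (nat_lit 228)) (XT.lf (nat_lit 0) (nat_lit 14711209314810) (nat_lit 76) (nat_lit 32565452530706) (nat_lit 76) (nat_lit 32450901472222) (nat_lit 1) (nat_lit 4) (nat_lit 2) (nat_lit 5) (nat_lit 2) (nat_lit 4) (nat_lit 427) (nat_lit 366) (nat_lit 227)))) (XT.nd (nat_lit 48360) (nat_lit 0) (nat_lit 3116) (XT.lf (nat_lit 0) (nat_lit 22167090248996) (nat_lit 76) (nat_lit 34633365900841) (nat_lit 76) (nat_lit 34518814842303) (nat_lit 1) (nat_lit 4) (nat_lit 2) (nat_lit 5) (nat_lit 2) (nat_lit 4) (nat_lit 428) (nat_lit 366) (nat_lit 226)) (XT.nd (nat_lit 78) (nat_lit 0) (nat_lit 0) (XT.lf (nat_lit 0) (nat_lit 26239243881) (nat_lit 380) (nat_lit 30970404597) (nat_lit 380) (nat_lit 30970404597) (nat_lit 42) (nat_lit 3) (nat_lit 47) (nat_lit 3) (nat_lit 47) (nat_lit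 5) (nat_lit 367) (nat_lit 367) (nat_lit 286)) (XT.lf (nat_lit 76) (nat_lit 28396355832) (nat_lit 0) (nat_lit 29195801507) (nat_lit 380) (nat_lit 131818288863) (nat_lit 43) (nat_lit 5) (nat_lit 42) (nat_lit 3) (nat_lit 47) (nat_lit 5) (nat_lit 368) (nat_lit 367) (nat_lit 285))))) (XT.nd (nat_lit 234) (nat_lit 456) (nat_lit 0) (XT.nd (nat_lit 78) (nat_lit 0) (nat_lit 0) (XT.lf (nat_lit 0) (nat_lit 69713849168) (nat_lit 304) (nat_lit 67691053030) (nat_lit 380) (nat_lit 66077289374) (nat_lit 43) (nat_lit 5) (nat_lit 47) (nat_lit 5) (nat_lit 48) (nat_lit 5) (nat_lit 369) (nat_lit 367) (nat_lit 284)) (XT.nd (nat_lit 78) (nat_lit 0) (nat_lit 76) (XT.lf (nat_lit 76) (nat_lit 41977004744) (nat_lit 0) (nat_lit 44804939594) (nat_lit 380) (nat_lit 132413532045) (nat_lit 44) (nat_lit 5) (nat_lit 43) (nat_lit 5) (nat_lit 48) (nat_lit 5) (nat_lit 370) (nat_lit 367) (nat_lit 283)) (XT.lf (nat_lit 0) (nat_lit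 112671116876) (nat_lit 304) (nat_lit 63755186325) (nat_lit 76) (nat_lit 59900321314) (nat_lit 44) (nat_lit 5) (nat_lit 48) (nat_lit 5) (nat_lit 45) (nat_lit 5) (nat_lit 371) (nat_lit 367) (nat_lit 282)))) (XT.nd (nat_lit 156) (nat_lit 228) (nat_lit 0) (XT.nd (nat_lit 78) (nat_lit 0) (nat_lit 0) (XT.lf (nat_lit 0) (nat_lit 70906359208) (nat_lit 304) (nat_lit 76606718429) (nat_lit 380) (nat_lit 107753955432) (nat_lit 40) (nat_lit 5) (nat_lit 44) (nat_lit 5) (nat_lit 45) (nat_lit 5) (nat_lit 372) (nat_lit 367) (nat_lit 281)) (XT.lf (nat_lit 0) (nat_lit 192653664378) (nat_lit 380) (nat_lit 45356404385) (nat_lit 76) (nat_lit 38277584410) (nat_lit 40) (nat_lit 5) (nat_lit 45) (nat_lit 5) (nat_lit 41) (nat_lit 5) (nat_lit 373) (nat_lit 367) (nat_lit 280))) (XT.nd (nat_lit 78) (nat_lit 76) (nat_lit 0) (XT.lf (nat_lit 0) (nat_lit 121683442347) (nat_lit 152) (nat_lit 131568299532) (nat_lit 228) (nat_lit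 45906664041) (nat_lit 38) (nat_lit 5) (nat_lit 40) (nat_lit 5) (nat_lit 41) (nat_lit 5) (nat_lit 374) (nat_lit 367) (nat_lit 279)) (XT.lf (nat_lit 0) (nat_lit 187751053) (nat_lit 228) (nat_lit 6236204161) (nat_lit 76) (nat_lit 318678926707) (nat_lit 37) (nat_lit 5) (nat_lit 40) (nat_lit 5) (nat_lit 38) (nat_lit 5) (nat_lit 375) (nat_lit 367) (nat_lit 278)))))) (XT.nd (nat_lit 468) (nat_lit 456) (nat_lit 0) (XT.nd (nat_lit 234) (nat_lit 304) (nat_lit 0) (XT.nd (nat_lit 78) (nat_lit 152) (nat_lit 0) (XT.lf (nat_lit 0) (nat_lit 63269842482) (nat_lit 228) (nat_lit 152607332318) (nat_lit 76) (nat_lit 136517927497) (nat_lit 35) (nat_lit 5) (nat_lit 38) (nat_lit 5) (nat_lit 36) (nat_lit 5) (nat_lit 376) (nat_lit 367) (nat_lit 277)) (XT.nd (nat_lit 78) (nat_lit 0) (nat_lit 0) (XT.lf (nat_lit 0) (nat_lit 58577260262) (nat_lit 152) (nat_lit 80309809163) (nat_lit 228) (nat_lit 244433163059) (nat_lit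 33) (nat_lit 5) (nat_lit 35) (nat_lit 5) (nat_lit 36) (nat_lit 5) (nat_lit 377) (nat_lit 367) (nat_lit 276)) (XT.lf (nat_lit 0) (nat_lit 237333940741) (nat_lit 228) (nat_lit 102607245870) (nat_lit 76) (nat_lit 77219886557) (nat_lit 33) (nat_lit 5) (nat_lit 36) (nat_lit 5) (nat_lit 34) (nat_lit 4) (nat_lit 378) (nat_lit 367) (nat_lit 275)))) (XT.nd (nat_lit 78) (nat_lit 228) (nat_lit 0) (XT.lf (nat_lit 0) (nat_lit 163588115825) (nat_lit 76) (nat_lit 197557717909) (nat_lit 152) (nat_lit 93342507591) (nat_lit 32) (nat_lit 5) (nat_lit 33) (nat_lit 5) (nat_lit 34) (nat_lit 4) (nat_lit 379) (nat_lit 367) (nat_lit 274)) (XT.nd (nat_lit 78) (nat_lit 152) (nat_lit 0) (XT.lf (nat_lit 0) (nat_lit 11189278535) (nat_lit 152) (nat_lit 15874532606) (nat_lit 76) (nat_lit 469470080838) (nat_lit 31) (nat_lit 5) (nat_lit 33) (nat_lit 5) (nat_lit 32) (nat_lit 5) (nat_lit 380) (nat_lit 367) (nat_lit 273)) (XT.lf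 (nat_lit 0) (nat_lit 143147327813) (nat_lit 228) (nat_lit 225168693239) (nat_lit 76) (nat_lit 172708073485) (nat_lit 29) (nat_lit 5) (nat_lit 32) (nat_lit 5) (nat_lit 30) (nat_lit 4) (nat_lit 381) (nat_lit 367) (nat_lit 272))))) (XT.nd (nat_lit 234) (nat_lit 228) (nat_lit 0) (XT.nd (nat_lit 78) (nat_lit 152) (nat_lit 0) (XT.lf (nat_lit 0) (nat_lit 116070507800) (nat_lit 76) (nat_lit 185792782851) (nat_lit 152) (nat_lit 289279905913) (nat_lit 28) (nat_lit 5) (nat_lit 29) (nat_lit 5) (nat_lit 30) (nat_lit 4) (nat_lit 382) (nat_lit 367) (nat_lit 271)) (XT.nd (nat_lit 78) (nat_lit 152) (nat_lit 0) (XT.lf (nat_lit 0) (nat_lit 497715518667) (nat_lit 152) (nat_lit 114772118244) (nat_lit 0) (nat_lit 34293196378) (nat_lit 28) (nat_lit 5) (nat_lit 30) (nat_lit 4) (nat_lit 28) (nat_lit 4) (nat_lit 383) (nat_lit 367) (nat_lit 270)) (XT.lf (nat_lit 0) (nat_lit 34209574591) (nat_lit 152) (nat_lit 389871815202)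 (nat_lit 76) (nat_lit 283140176335) (nat_lit 26) (nat_lit 5) (nat_lit 28) (nat_lit 5) (nat_lit 27) (nat_lit 4) (nat_lit 384) (nat_lit 367) (nat_lit 269)))) (XT.nd (nat_lit 156) (nat_lit 152) (nat_lit 0) (XT.nd (nat_lit 78) (nat_lit 0) (nat_lit 0) (XT.lf (nat_lit 0) (nat_lit 48273697658) (nat_lit 76) (nat_lit 189724519228) (nat_lit 152) (nat_lit 536422844480) (nat_lit 25) (nat_lit 5) (nat_lit 26) (nat_lit 5) (nat_lit 27) (nat_lit 4) (nat_lit 385) (nat_lit 367) (nat_lit 268)) (XT.lf (nat_lit 0) (nat_lit 497008961557) (nat_lit 152) (nat_lit 256960598042) (nat_lit 0) (nat_lit 94032850389) (nat_lit 25) (nat_lit 5) (nat_lit 27) (nat_lit 4) (nat_lit 25) (nat_lit 4) (nat_lit 386) (nat_lit 367) (nat_lit 267))) (XT.nd (nat_lit 78) (nat_lit 76) (nat_lit 0) (XT.lf (nat_lit 0) (nat_lit 300304751257) (nat_lit 76) (nat_lit 516035977015) (nat_lit 76) (nat_lit 113059821086) (nat_lit 24) (nat_lit 4) (nat_lit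 25) (nat_lit 5) (nat_lit 25) (nat_lit 4) (nat_lit 387) (nat_lit 367) (nat_lit 266)) (XT.lf (nat_lit 0) (nat_lit 160340928555) (nat_lit 152) (nat_lit 58243198456) (nat_lit 76) (nat_lit 801316254258) (nat_lit 23) (nat_lit 5) (nat_lit 25) (nat_lit 5) (nat_lit 24) (nat_lit 4) (nat_lit 388) (nat_lit 367) (nat_lit 265))))))) (XT.nd (nat_lit 1014) (nat_lit 608) (nat_lit 0) (XT.nd (nat_lit 468) (nat_lit 456) (nat_lit 0) (XT.nd (nat_lit 234) (nat_lit 152) (nat_lit 0) (XT.nd (nat_lit 78) (nat_lit 152) (nat_lit 0) (XT.lf (nat_lit 0) (nat_lit 496777311425) (nat_lit 152) (nat_lit 474987002937) (nat_lit 0) (nat_lit 146363199516) (nat_lit 22) (nat_lit 5) (nat_lit 24) (nat_lit 4) (nat_lit 22) (nat_lit 4) (nat_lit 389) (nat_lit 367) (nat_lit 264)) (XT.nd (nat_lit 78) (nat_lit 76) (nat_lit 0) (XT.lf (nat_lit 0) (nat_lit 236111933151) (nat_lit 76) (nat_lit 670942327216) (nat_lit 76) (nat_lit 320528189716)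 (nat_lit 21) (nat_lit 4) (nat_lit 22) (nat_lit 5) (nat_lit 22) (nat_lit 4) (nat_lit 390) (nat_lit 367) (nat_lit 263)) (XT.lf (nat_lit 0) (nat_lit 49165450626) (nat_lit 152) (nat_lit 244708440907) (nat_lit 76) (nat_lit 1055522194761) (nat_lit 20) (nat_lit 5) (nat_lit 22) (nat_lit 5) (nat_lit 21) (nat_lit 4) (nat_lit 391) (nat_lit 367) (nat_lit 262)))) (XT.nd (nat_lit 78) (nat_lit 76) (nat_lit 0) (XT.lf (nat_lit 0) (nat_lit 476525376568) (nat_lit 152) (nat_lit 833595276430) (nat_lit 0) (nat_lit 171817394738) (nat_lit 19) (nat_lit 5) (nat_lit 21) (nat_lit 4) (nat_lit 19) (nat_lit 4) (nat_lit 392) (nat_lit 367) (nat_lit 261)) (XT.nd (nat_lit 78) (nat_lit 0) (nat_lit 0) (XT.lf (nat_lit 0) (nat_lit 61261709083) (nat_lit 76) (nat_lit 936658943313) (nat_lit 76) (nat_lit 631950946850) (nat_lit 18) (nat_lit 4) (nat_lit 19) (nat_lit 5) (nat_lit 19) (nat_lit 4) (nat_lit 393) (nat_lit 367) (nat_lit 260))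 (XT.lf (nat_lit 0) (nat_lit 1184031884314) (nat_lit 76) (nat_lit 457067585419) (nat_lit 76) (nat_lit 152359576233) (nat_lit 18) (nat_lit 4) (nat_lit 19) (nat_lit 5) (nat_lit 19) (nat_lit 4) (nat_lit 394) (nat_lit 367) (nat_lit 259))))) (XT.nd (nat_lit 234) (nat_lit 228) (nat_lit 0) (XT.nd (nat_lit 78) (nat_lit 76) (nat_lit 0) (XT.lf (nat_lit 0) (nat_lit 391051353257) (nat_lit 152) (nat_lit 1457853413448) (nat_lit 0) (nat_lit 126087857387) (nat_lit 16) (nat_lit 5) (nat_lit 18) (nat_lit 4) (nat_lit 16) (nat_lit 4) (nat_lit 395) (nat_lit 367) (nat_lit 258)) (XT.nd (nat_lit 78) (nat_lit 76) (nat_lit 0) (XT.lf (nat_lit 0) (nat_lit 1055513675130) (nat_lit 152) (nat_lit 328333339506) (nat_lit 0) (nat_lit 790550170895) (nat_lit 16) (nat_lit 5) (nat_lit 18) (nat_lit 4) (nat_lit 16) (nat_lit 4) (nat_lit 396) (nat_lit 367) (nat_lit 257)) (XT.lf (nat_lit 0) (nat_lit 1065470190116) (nat_lit 76) (nat_lit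 798293965514) (nat_lit 76) (nat_lit 533330454003) (nat_lit 15) (nat_lit 4) (nat_lit 16) (nat_lit 5) (nat_lit 16) (nat_lit 4) (nat_lit 397) (nat_lit 367) (nat_lit 256)))) (XT.nd (nat_lit 156) (nat_lit 76) (nat_lit 0) (XT.nd (nat_lit 78) (nat_lit 0) (nat_lit 0) (XT.lf (nat_lit 0) (nat_lit 52696904920) (nat_lit 76) (nat_lit 95052128919) (nat_lit 152) (nat_lit 2501553375068) (nat_lit 13) (nat_lit 5) (nat_lit 14) (nat_lit 5) (nat_lit 15) (nat_lit 4) (nat_lit 398) (nat_lit 367) (nat_lit 255)) (XT.lf (nat_lit 0) (nat_lit 978861617380) (nat_lit 152) (nat_lit 1192840595994) (nat_lit 0) (nat_lit 748458553609) (nat_lit 13) (nat_lit 5) (nat_lit 15) (nat_lit 4) (nat_lit 13) (nat_lit 4) (nat_lit 399) (nat_lit 367) (nat_lit 254))) (XT.nd (nat_lit 78) (nat_lit 0) (nat_lit 0) (XT.lf (nat_lit 0) (nat_lit 457711313141) (nat_lit 76) (nat_lit 1500408883653) (nat_lit 76) (nat_lit 1270005815722) (nat_lit 12) (nat_lit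 4) (nat_lit 13) (nat_lit 5) (nat_lit 13) (nat_lit 4) (nat_lit 400) (nat_lit 367) (nat_lit 253)) (XT.lf (nat_lit 0) (nat_lit 2489904959359) (nat_lit 76) (nat_lit 656715603550) (nat_lit 76) (nat_lit 426312532003) (nat_lit 12) (nat_lit 4) (nat_lit 13) (nat_lit 5) (nat_lit 13) (nat_lit 4) (nat_lit 401) (nat_lit 367) (nat_lit 252)))))) (XT.nd (nat_lit 546) (nat_lit 152) (nat_lit 0) (XT.nd (nat_lit 234) (nat_lit 228) (nat_lit 0) (XT.nd (nat_lit 78) (nat_lit 76) (nat_lit 0) (XT.lf (nat_lit 0) (nat_lit 549324290930) (nat_lit 152) (nat_lit 3059712524023) (nat_lit 0) (nat_lit 348973791198) (nat_lit 10) (nat_lit 5) (nat_lit 12) (nat_lit 4) (nat_lit 10) (nat_lit 4) (nat_lit 402) (nat_lit 367) (nat_lit 251)) (XT.nd (nat_lit 78) (nat_lit 76) (nat_lit 0) (XT.lf (nat_lit 0) (nat_lit 1718241180982) (nat_lit 152) (nat_lit 1148085670700) (nat_lit 0) (nat_lit 1517890678872) (nat_lit 10) (nat_lit 5) (nat_lit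 12) (nat_lit 4) (nat_lit 10) (nat_lit 4) (nat_lit 403) (nat_lit 367) (nat_lit 250)) (XT.lf (nat_lit 0) (nat_lit 1152926662093) (nat_lit 76) (nat_lit 1957309152126) (nat_lit 76) (nat_lit 1756958647948) (nat_lit 9) (nat_lit 4) (nat_lit 10) (nat_lit 5) (nat_lit 10) (nat_lit 4) (nat_lit 404) (nat_lit 367) (nat_lit 249)))) (XT.nd (nat_lit 156) (nat_lit 76) (nat_lit 0) (XT.nd (nat_lit 78) (nat_lit 152) (nat_lit 0) (XT.lf (nat_lit 0) (nat_lit 3928119968263) (nat_lit 76) (nat_lit 842923219703) (nat_lit 76) (nat_lit 642572713726) (nat_lit 9) (nat_lit 4) (nat_lit 10) (nat_lit 5) (nat_lit 10) (nat_lit 4) (nat_lit 405) (nat_lit 367) (nat_lit 248)) (XT.lf (nat_lit 0) (nat_lit 651561693993) (nat_lit 152) (nat_lit 4898704805614) (nat_lit 0) (nat_lit 477343861349) (nat_lit 7) (nat_lit 5) (nat_lit 9) (nat_lit 4) (nat_lit 7) (nat_lit 4) (nat_lit 406) (nat_lit 367) (nat_lit 247))) (XT.nd (nat_lit 78) (nat_lit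 76) (nat_lit 0) (XT.lf (nat_lit 0) (nat_lit 2195516822752) (nat_lit 152) (nat_lit 2494075207391) (nat_lit 0) (nat_lit 2021298988926) (nat_lit 7) (nat_lit 5) (nat_lit 9) (nat_lit 4) (nat_lit 7) (nat_lit 4) (nat_lit 407) (nat_lit 367) (nat_lit 246)) (XT.lf (nat_lit 0) (nat_lit 297757195279) (nat_lit 76) (nat_lit 3685637497351) (nat_lit 76) (nat_lit 3511419662497) (nat_lit 6) (nat_lit 4) (nat_lit 7) (nat_lit 5) (nat_lit 7) (nat_lit 4) (nat_lit 408) (nat_lit 367) (nat_lit 245))))) (XT.nd (nat_lit 234) (nat_lit 76) (nat_lit 0) (XT.nd (nat_lit 78) (nat_lit 76) (nat_lit 0) (XT.lf (nat_lit 0) (nat_lit 3788664463523) (nat_lit 76) (nat_lit 2381161874763) (nat_lit 76) (nat_lit 2206944039015) (nat_lit 6) (nat_lit 4) (nat_lit 7) (nat_lit 5) (nat_lit 7) (nat_lit 4) (nat_lit 409) (nat_lit 367) (nat_lit 244)) (XT.nd (nat_lit 78) (nat_lit 76) (nat_lit 0) (XT.lf (nat_lit 0) (nat_lit 7803207788940) (nat_lit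 76) (nat_lit 881014926355) (nat_lit 76) (nat_lit 706797089829) (nat_lit 6) (nat_lit 4) (nat_lit 7) (nat_lit 5) (nat_lit 7) (nat_lit 4) (nat_lit 410) (nat_lit 367) (nat_lit 243)) (XT.lf (nat_lit 0) (nat_lit 1051355708980) (nat_lit 76) (nat_lit 8581316761911) (nat_lit 0) (nat_lit 899861937500) (nat_lit 5) (nat_lit 5) (nat_lit 6) (nat_lit 4) (nat_lit 5) (nat_lit 4) (nat_lit 411) (nat_lit 367) (nat_lit 242)))) (XT.nd (nat_lit 156) (nat_lit 76) (nat_lit 0) (XT.nd (nat_lit 78) (nat_lit 0) (nat_lit 0) (XT.lf (nat_lit 0) (nat_lit 3129773556456) (nat_lit 76) (nat_lit 5712838607378) (nat_lit 0) (nat_lit 2978279784465) (nat_lit 5) (nat_lit 5) (nat_lit 6) (nat_lit 4) (nat_lit 5) (nat_lit 4) (nat_lit 412) (nat_lit 367) (nat_lit 241)) (XT.lf (nat_lit 0) (nat_lit 5519954068795) (nat_lit 76) (nat_lit 2414088755880) (nat_lit 0) (nat_lit 5368460296360) (nat_lit 5) (nat_lit 5) (nat_lit 6) (nat_lit 4) (nat_lit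 5) (nat_lit 4) (nat_lit 413) (nat_lit 367) (nat_lit 240))) (XT.nd (nat_lit 78) (nat_lit 0) (nat_lit 0) (XT.lf (nat_lit 0) (nat_lit 1514285738441) (nat_lit 76) (nat_lit 6817079252089) (nat_lit 76) (nat_lit 6665585479268) (nat_lit 4) (nat_lit 4) (nat_lit 5) (nat_lit 5) (nat_lit 5) (nat_lit 4) (nat_lit 414) (nat_lit 367) (nat_lit 239)) (XT.lf (nat_lit 0) (nat_lit 6303227041921) (nat_lit 76) (nat_lit 5387451501583) (nat_lit 76) (nat_lit 5235957728425) (nat_lit 4) (nat_lit 4) (nat_lit 5) (nat_lit 5) (nat_lit 5) (nat_lit 4) (nat_lit 415) (nat_lit 367) (nat_lit 238))))))))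
noncomputable def xc90 : XT := (XT.nd (nat_lit 50388) (nat_lit 0) (nat_lit 456) (XT.nd (nat_lit 49374) (nat_lit 0) (nat_lit 2356) (XT.nd (nat_lit 468) (nat_lit 76) (nat_lit 0) (XT.nd (nat_lit 234) (nat_lit 0) (nat_lit 0) (XT.nd (nat_lit 78) (nat_lit 152) (nat_lit 0) (XT.lf (nat_lit 0) (nat_lit 11810509522002) (nat_lit 76) (nat_lit 3743379598578) (nat_lit 76) (nat_lit 3591885825127) (nat_lit 4) (nat_lit 4) (nat_lit 5) (nat_lit 5) (nat_lit 5) (nat_lit 4) (nat_lit 416) (nat_lit 367) (nat_lit 237)) (XT.nd (nat_lit 78) (nat_lit 152) (nat_lit 0) (XT.lf (nat_lit 0) (nat_lit 18143884357642) (nat_lit 76) (nat_lit 1852696918884) (nat_lit 76) (nat_lit 1701203145179) (nat_lit 4) (nat_lit 4) (nat_lit 5) (nat_lit 5) (nat_lit 5) (nat_lit 4) (nat_lit 417) (nat_lit 367) (nat_lit 236)) (XT.lf (nat_lit 0) (nat_lit 482122616626) (nat_lit 152) (nat_lit 23789471749390) (nat_lit 0) (nat_lit 350388900169) (nat_lit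 2) (nat_lit 5) (nat_lit 4) (nat_lit 4) (nat_lit 2) (nat_lit 4) (nat_lit 418) (nat_lit 367) (nat_lit 235)))) (XT.nd (nat_lit 78) (nat_lit 0) (nat_lit 0) (XT.lf (nat_lit 0) (nat_lit 3101618437151) (nat_lit 152) (nat_lit 21858731029726) (nat_lit 0) (nat_lit 2969884720527) (nat_lit 2) (nat_lit 5) (nat_lit 4) (nat_lit 4) (nat_lit 2) (nat_lit 4) (nat_lit 419) (nat_lit 367) (nat_lit 234)) (XT.nd (nat_lit 78) (nat_lit 0) (nat_lit 0) (XT.lf (nat_lit 0) (nat_lit 6114038624668) (nat_lit 152) (nat_lit 19638379215154) (nat_lit 0) (nat_lit 5982304907898) (nat_lit 2) (nat_lit 5) (nat_lit 4) (nat_lit 4) (nat_lit 2) (nat_lit 4) (nat_lit 420) (nat_lit 367) (nat_lit 233)) (XT.lf (nat_lit 0) (nat_lit 9578321835018) (nat_lit 152) (nat_lit 17084974639735) (nat_lit 0) (nat_lit 9446588118123) (nat_lit 2) (nat_lit 5) (nat_lit 4) (nat_lit 4) (nat_lit 2) (nat_lit 4) (nat_lit 421) (nat_lit 367) (nat_lit 232))))) (XT.nd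 (nat_lit 234) (nat_lit 76) (nat_lit 0) (XT.nd (nat_lit 78) (nat_lit 0) (nat_lit 0) (XT.lf (nat_lit 0) (nat_lit 13562247522318) (nat_lit 152) (nat_lit 14148559387866) (nat_lit 0) (nat_lit 13430513805313) (nat_lit 2) (nat_lit 5) (nat_lit 4) (nat_lit 4) (nat_lit 2) (nat_lit 4) (nat_lit 422) (nat_lit 367) (nat_lit 231)) (XT.nd (nat_lit 78) (nat_lit 0) (nat_lit 0) (XT.lf (nat_lit 0) (nat_lit 18143762058711) (nat_lit 152) (nat_lit 10771681856790) (nat_lit 0) (nat_lit 18012028341610) (nat_lit 2) (nat_lit 5) (nat_lit 4) (nat_lit 4) (nat_lit 2) (nat_lit 4) (nat_lit 423) (nat_lit 367) (nat_lit 230)) (XT.lf (nat_lit 0) (nat_lit 23412503772082) (nat_lit 152) (nat_lit 6888272703509) (nat_lit 0) (nat_lit 23280770054898) (nat_lit 2) (nat_lit 5) (nat_lit 4) (nat_lit 4) (nat_lit 2) (nat_lit 4) (nat_lit 424) (nat_lit 367) (nat_lit 229)))) (XT.nd (nat_lit 156) (nat_lit 0) (nat_lit 0) (XT.nd (nat_lit 78) (nat_lit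 76) (nat_lit 0) (XT.lf (nat_lit 0) (nat_lit 29471556739432) (nat_lit 152) (nat_lit 2422352183720) (nat_lit 0) (nat_lit 29339823022176) (nat_lit 2) (nat_lit 5) (nat_lit 4) (nat_lit 4) (nat_lit 2) (nat_lit 4) (nat_lit 425) (nat_lit 367) (nat_lit 228)) (XT.lf (nat_lit 0) (nat_lit 2978635102855) (nat_lit 76) (nat_lit 33584171474052) (nat_lit 76) (nat_lit 33452437756733) (nat_lit 1) (nat_lit 4) (nat_lit 2) (nat_lit 5) (nat_lit 2) (nat_lit 4) (nat_lit 426) (nat_lit 367) (nat_lit 227))) (XT.nd (nat_lit 78) (nat_lit 0) (nat_lit 0) (XT.lf (nat_lit 0) (nat_lit 9462009830411) (nat_lit 76) (nat_lit 35382357012139) (nat_lit 76) (nat_lit 35250623294765) (nat_lit 1) (nat_lit 4) (nat_lit 2) (nat_lit 5) (nat_lit 2) (nat_lit 4) (nat_lit 427) (nat_lit 367) (nat_lit 226)) (XT.lf (nat_lit 0) (nat_lit 16917890762421) (nat_lit 76) (nat_lit 37450270383436) (nat_lit 76) (nat_lit 37318536666014) (nat_lit 1) (nat_lit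 4) (nat_lit 2) (nat_lit 5) (nat_lit 2) (nat_lit 4) (nat_lit 428) (nat_lit 367) (nat_lit 225)))))) (XT.nd (nat_lit 468) (nat_lit 608) (nat_lit 0) (XT.nd (nat_lit 234) (nat_lit 152) (nat_lit 0) (XT.nd (nat_lit 78) (nat_lit 0) (nat_lit 0) (XT.lf (nat_lit 0) (nat_lit 30177000154) (nat_lit 380) (nat_lit 35614889993) (nat_lit 380) (nat_lit 35614889993) (nat_lit 42) (nat_lit 3) (nat_lit 47) (nat_lit 3) (nat_lit 47) (nat_lit 5) (nat_lit 368) (nat_lit 368) (nat_lit 284)) (XT.nd (nat_lit 78) (nat_lit 0) (nat_lit 76) (XT.lf (nat_lit 76) (nat_lit 32657862038) (nat_lit 0) (nat_lit 33576455542) (nat_lit 380) (nat_lit 151587194289) (nat_lit 43) (nat_lit 5) (nat_lit 42) (nat_lit 3) (nat_lit 47) (nat_lit 5) (nat_lit 369) (nat_lit 368) (nat_lit 283)) (XT.lf (nat_lit 0) (nat_lit 80173781745) (nat_lit 304) (nat_lit 77842443808) (nat_lit 380) (nat_lit 75987865809) (nat_lit 43) (nat_lit 5) (nat_lit 47) (nat_lit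 5) (nat_lit 48) (nat_lit 5) (nat_lit 370) (nat_lit 368) (nat_lit 282)))) (XT.nd (nat_lit 78) (nat_lit 228) (nat_lit 0) (XT.lf (nat_lit 76) (nat_lit 48275719579) (nat_lit 0) (nat_lit 51526088806) (nat_lit 380) (nat_lit 152272603019) (nat_lit 44) (nat_lit 5) (nat_lit 43) (nat_lit 5) (nat_lit 48) (nat_lit 5) (nat_lit 371) (nat_lit 368) (nat_lit 281)) (XT.nd (nat_lit 78) (nat_lit 304) (nat_lit 0) (XT.lf (nat_lit 0) (nat_lit 129574006572) (nat_lit 304) (nat_lit 73316231694) (nat_lit 76) (nat_lit 68885046098) (nat_lit 44) (nat_lit 5) (nat_lit 48) (nat_lit 5) (nat_lit 45) (nat_lit 5) (nat_lit 372) (nat_lit 368) (nat_lit 280)) (XT.lf (nat_lit 0) (nat_lit 81544444189) (nat_lit 304) (nat_lit 88097615656) (nat_lit 380) (nat_lit 123914724663) (nat_lit 40) (nat_lit 5) (nat_lit 44) (nat_lit 5) (nat_lit 45) (nat_lit 5) (nat_lit 373) (nat_lit 368) (nat_lit 279))))) (XT.nd (nat_lit 234) (nat_lit 380) (nat_lit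 0) (XT.nd (nat_lit 78) (nat_lit 228) (nat_lit 0) (XT.lf (nat_lit 0) (nat_lit 221553475025) (nat_lit 380) (nat_lit 52157751961) (nat_lit 76) (nat_lit 44019309634) (nat_lit 40) (nat_lit 5) (nat_lit 45) (nat_lit 5) (nat_lit 41) (nat_lit 5) (nat_lit 374) (nat_lit 368) (nat_lit 278)) (XT.nd (nat_lit 78) (nat_lit 76) (nat_lit 0) (XT.lf (nat_lit 0) (nat_lit 139937975732) (nat_lit 152) (nat_lit 151303142246) (nat_lit 228) (nat_lit 52790806277) (nat_lit 38) (nat_lit 5) (nat_lit 40) (nat_lit 5) (nat_lit 41) (nat_lit 5) (nat_lit 375) (nat_lit 368) (nat_lit 277)) (XT.lf (nat_lit 0) (nat_lit 217385028) (nat_lit 228) (nat_lit 7169736806) (nat_lit 76) (nat_lit 366480971428) (nat_lit 37) (nat_lit 5) (nat_lit 40) (nat_lit 5) (nat_lit 38) (nat_lit 5) (nat_lit 376) (nat_lit 368) (nat_lit 276)))) (XT.nd (nat_lit 156) (nat_lit 76) (nat_lit 0) (XT.nd (nat_lit 78) (nat_lit 152) (nat_lit 0) (XT.lf (nat_lit 0) (nat_lit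 72761692215) (nat_lit 228) (nat_lit 175496436012) (nat_lit 76) (nat_lit 156996033194) (nat_lit 35) (nat_lit 5) (nat_lit 38) (nat_lit 5) (nat_lit 36) (nat_lit 5) (nat_lit 377) (nat_lit 368) (nat_lit 275)) (XT.lf (nat_lit 0) (nat_lit 67365754721) (nat_lit 152) (nat_lit 92355648243) (nat_lit 228) (nat_lit 281096673234) (nat_lit 33) (nat_lit 5) (nat_lit 35) (nat_lit 5) (nat_lit 36) (nat_lit 5) (nat_lit 378) (nat_lit 368) (nat_lit 274))) (XT.nd (nat_lit 78) (nat_lit 76) (nat_lit 0) (XT.lf (nat_lit 0) (nat_lit 272935161685) (nat_lit 228) (nat_lit 117996532407) (nat_lit 76) (nat_lit 88803370412) (nat_lit 33) (nat_lit 5) (nat_lit 36) (nat_lit 5) (nat_lit 34) (nat_lit 4) (nat_lit 379) (nat_lit 368) (nat_lit 273)) (XT.lf (nat_lit 0) (nat_lit 188128051709) (nat_lit 76) (nat_lit 227190710709) (nat_lit 152) (nat_lit 107342671921) (nat_lit 32) (nat_lit 5) (nat_lit 33) (nat_lit 5) (nat_lit 34) (nat_lit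 4) (nat_lit 380) (nat_lit 368) (nat_lit 272))))))) (XT.nd (nat_lit 1014) (nat_lit 912) (nat_lit 0) (XT.nd (nat_lit 468) (nat_lit 456) (nat_lit 0) (XT.nd (nat_lit 234) (nat_lit 228) (nat_lit 0) (XT.nd (nat_lit 78) (nat_lit 228) (nat_lit 0) (XT.lf (nat_lit 0) (nat_lit 12868630251) (nat_lit 152) (nat_lit 18254124221) (nat_lit 76) (nat_lit 539891077206) (nat_lit 31) (nat_lit 5) (nat_lit 33) (nat_lit 5) (nat_lit 32) (nat_lit 5) (nat_lit 381) (nat_lit 368) (nat_lit 271)) (XT.nd (nat_lit 78) (nat_lit 76) (nat_lit 0) (XT.lf (nat_lit 0) (nat_lit 164620350103) (nat_lit 228) (nat_lit 258942372037) (nat_lit 76) (nat_lit 198614848016) (nat_lit 29) (nat_lit 5) (nat_lit 32) (nat_lit 5) (nat_lit 30) (nat_lit 4) (nat_lit 382) (nat_lit 368) (nat_lit 270)) (XT.lf (nat_lit 0) (nat_lit 133482635285) (nat_lit 76) (nat_lit 213661015911) (nat_lit 152) (nat_lit 332670894728) (nat_lit 28) (nat_lit 5) (nat_lit 29)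 (nat_lit 5) (nat_lit 30) (nat_lit 4) (nat_lit 383) (nat_lit 368) (nat_lit 269)))) (XT.nd (nat_lit 78) (nat_lit 228) (nat_lit 0) (XT.lf (nat_lit 0) (nat_lit 572373624977) (nat_lit 152) (nat_lit 131986498501) (nat_lit 0) (nat_lit 39437717957) (nat_lit 28) (nat_lit 5) (nat_lit 30) (nat_lit 4) (nat_lit 28) (nat_lit 4) (nat_lit 384) (nat_lit 368) (nat_lit 268)) (XT.nd (nat_lit 78) (nat_lit 76) (nat_lit 0) (XT.lf (nat_lit 0) (nat_lit 39341779561) (nat_lit 152) (nat_lit 448351140158) (nat_lit 76) (nat_lit 325611765958) (nat_lit 26) (nat_lit 5) (nat_lit 28) (nat_lit 5) (nat_lit 27) (nat_lit 4) (nat_lit 385) (nat_lit 368) (nat_lit 267)) (XT.lf (nat_lit 0) (nat_lit 55516133843) (nat_lit 76) (nat_lit 218182541287) (nat_lit 152) (nat_lit 616885436537) (nat_lit 25) (nat_lit 5) (nat_lit 26) (nat_lit 5) (nat_lit 27) (nat_lit 4) (nat_lit 386) (nat_lit 368) (nat_lit 266))))) (XT.nd (nat_lit 234) (nat_lit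 304) (nat_lit 0) (XT.nd (nat_lit 78) (nat_lit 152) (nat_lit 0) (XT.lf (nat_lit 0) (nat_lit 571560960459) (nat_lit 152) (nat_lit 295503415328) (nat_lit 0) (nat_lit 108138297459) (nat_lit 25) (nat_lit 5) (nat_lit 27) (nat_lit 4) (nat_lit 25) (nat_lit 4) (nat_lit 387) (nat_lit 368) (nat_lit 265)) (XT.nd (nat_lit 78) (nat_lit 76) (nat_lit 0) (XT.lf (nat_lit 0) (nat_lit 345351678529) (nat_lit 76) (nat_lit 593440778553) (nat_lit 76) (nat_lit 130018081709) (nat_lit 24) (nat_lit 4) (nat_lit 25) (nat_lit 5) (nat_lit 25) (nat_lit 4) (nat_lit 388) (nat_lit 368) (nat_lit 264)) (XT.lf (nat_lit 0) (nat_lit 184392632277) (nat_lit 152) (nat_lit 66978566877) (nat_lit 76) (nat_lit 921514154612) (nat_lit 23) (nat_lit 5) (nat_lit 25) (nat_lit 5) (nat_lit 24) (nat_lit 4) (nat_lit 389) (nat_lit 368) (nat_lit 263)))) (XT.nd (nat_lit 156) (nat_lit 152) (nat_lit 0) (XT.nd (nat_lit 78) (nat_lit 76) (nat_lit 0) (XT.lf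 (nat_lit 0) (nat_lit 571294464666) (nat_lit 152) (nat_lit 546233934095) (nat_lit 0) (nat_lit 168318158696) (nat_lit 22) (nat_lit 5) (nat_lit 24) (nat_lit 4) (nat_lit 22) (nat_lit 4) (nat_lit 390) (nat_lit 368) (nat_lit 262)) (XT.lf (nat_lit 0) (nat_lit 271529791530) (nat_lit 76) (nat_lit 771583136071) (nat_lit 76) (nat_lit 368606810749) (nat_lit 21) (nat_lit 4) (nat_lit 22) (nat_lit 5) (nat_lit 22) (nat_lit 4) (nat_lit 391) (nat_lit 368) (nat_lit 261))) (XT.nd (nat_lit 78) (nat_lit 76) (nat_lit 0) (XT.lf (nat_lit 0) (nat_lit 56540749391) (nat_lit 152) (nat_lit 281413730956) (nat_lit 76) (nat_lit 1213850946700) (nat_lit 20) (nat_lit 5) (nat_lit 22) (nat_lit 5) (nat_lit 21) (nat_lit 4) (nat_lit 392) (nat_lit 368) (nat_lit 260)) (XT.lf (nat_lit 0) (nat_lit 548004659701) (nat_lit 152) (nat_lit 958633587271) (nat_lit 0) (nat_lit 197590436414) (nat_lit 19) (nat_lit 5) (nat_lit 21) (nat_lit 4)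 (nat_lit 19) (nat_lit 4) (nat_lit 393) (nat_lit 368) (nat_lit 259)))))) (XT.nd (nat_lit 546) (nat_lit 456) (nat_lit 0) (XT.nd (nat_lit 234) (nat_lit 228) (nat_lit 0) (XT.nd (nat_lit 78) (nat_lit 152) (nat_lit 0) (XT.lf (nat_lit 0) (nat_lit 70451901496) (nat_lit 76) (nat_lit 1077157301996) (nat_lit 76) (nat_lit 726743067645) (nat_lit 18) (nat_lit 4) (nat_lit 19) (nat_lit 5) (nat_lit 19) (nat_lit 4) (nat_lit 394) (nat_lit 368) (nat_lit 258)) (XT.nd (nat_lit 78) (nat_lit 152) (nat_lit 0) (XT.lf (nat_lit 0) (nat_lit 1361637480918) (nat_lit 76) (nat_lit 525627303393) (nat_lit 76) (nat_lit 175213059421) (nat_lit 18) (nat_lit 4) (nat_lit 19) (nat_lit 5) (nat_lit 19) (nat_lit 4) (nat_lit 395) (nat_lit 368) (nat_lit 257)) (XT.lf (nat_lit 0) (nat_lit 449709466554) (nat_lit 152) (nat_lit 1676530568555) (nat_lit 0) (nat_lit 145001421043) (nat_lit 16) (nat_lit 5) (nat_lit 18) (nat_lit 4) (nat_lit 16)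 (nat_lit 4) (nat_lit 396) (nat_lit 368) (nat_lit 256)))) (XT.nd (nat_lit 156) (nat_lit 152) (nat_lit 0) (XT.nd (nat_lit 78) (nat_lit 76) (nat_lit 0) (XT.lf (nat_lit 0) (nat_lit 1213841083190) (nat_lit 152) (nat_lit 377582595292) (nat_lit 0) (nat_lit 909133031353) (nat_lit 16) (nat_lit 5) (nat_lit 18) (nat_lit 4) (nat_lit 16) (nat_lit 4) (nat_lit 397) (nat_lit 368) (nat_lit 255)) (XT.lf (nat_lit 0) (nat_lit 1225291429903) (nat_lit 76) (nat_lit 918037688776) (nat_lit 76) (nat_lit 613329631438) (nat_lit 15) (nat_lit 4) (nat_lit 16) (nat_lit 5) (nat_lit 16) (nat_lit 4) (nat_lit 398) (nat_lit 368) (nat_lit 254))) (XT.nd (nat_lit 78) (nat_lit 0) (nat_lit 0) (XT.lf (nat_lit 0) (nat_lit 60602152801) (nat_lit 76) (nat_lit 109309575069) (nat_lit 152) (nat_lit 2876785991526) (nat_lit 13) (nat_lit 5) (nat_lit 14) (nat_lit 5) (nat_lit 15) (nat_lit 4) (nat_lit 399) (nat_lit 368) (nat_lit 253)) (XT.lf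 (nat_lit 0) (nat_lit 1125691168167) (nat_lit 152) (nat_lit 1371766035360) (nat_lit 0) (nat_lit 860727632271) (nat_lit 13) (nat_lit 5) (nat_lit 15) (nat_lit 4) (nat_lit 13) (nat_lit 4) (nat_lit 400) (nat_lit 368) (nat_lit 252))))) (XT.nd (nat_lit 234) (nat_lit 228) (nat_lit 0) (XT.nd (nat_lit 78) (nat_lit 152) (nat_lit 0) (XT.lf (nat_lit 0) (nat_lit 526368630598) (nat_lit 76) (nat_lit 1725469889391) (nat_lit 76) (nat_lit 1460506350350) (nat_lit 12) (nat_lit 4) (nat_lit 13) (nat_lit 5) (nat_lit 13) (nat_lit 4) (nat_lit 401) (nat_lit 368) (nat_lit 251)) (XT.nd (nat_lit 78) (nat_lit 152) (nat_lit 0) (XT.lf (nat_lit 0) (nat_lit 2863391242816) (nat_lit 76) (nat_lit 755222659901) (nat_lit 76) (nat_lit 490259118125) (nat_lit 12) (nat_lit 4) (nat_lit 13) (nat_lit 5) (nat_lit 13) (nat_lit 4) (nat_lit 402) (nat_lit 368) (nat_lit 250)) (XT.lf (nat_lit 0) (nat_lit 631723201368) (nat_lit 152) (nat_lit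 3518668836189) (nat_lit 0) (nat_lit 401320119495) (nat_lit 10) (nat_lit 5) (nat_lit 12) (nat_lit 4) (nat_lit 10) (nat_lit 4) (nat_lit 403) (nat_lit 368) (nat_lit 249)))) (XT.nd (nat_lit 156) (nat_lit 152) (nat_lit 0) (XT.nd (nat_lit 78) (nat_lit 76) (nat_lit 0) (XT.lf (nat_lit 0) (nat_lit 1975977590129) (nat_lit 152) (nat_lit 1320298028750) (nat_lit 0) (nat_lit 1745574506457) (nat_lit 10) (nat_lit 5) (nat_lit 12) (nat_lit 4) (nat_lit 10) (nat_lit 4) (nat_lit 404) (nat_lit 368) (nat_lit 248)) (XT.lf (nat_lit 0) (nat_lit 1325866131573) (nat_lit 76) (nat_lit 2250905275986) (nat_lit 76) (nat_lit 2020502190751) (nat_lit 9) (nat_lit 4) (nat_lit 10) (nat_lit 5) (nat_lit 10) (nat_lit 4) (nat_lit 405) (nat_lit 368) (nat_lit 247))) (XT.nd (nat_lit 78) (nat_lit 152) (nat_lit 0) (XT.lf (nat_lit 0) (nat_lit 4517338372343) (nat_lit 76) (nat_lit 969361486172) (nat_lit 76) (nat_lit 738958399577) (nat_lit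 9) (nat_lit 4) (nat_lit 10) (nat_lit 5) (nat_lit 10) (nat_lit 4) (nat_lit 406) (nat_lit 368) (nat_lit 246)) (XT.lf (nat_lit 0) (nat_lit 749296149241) (nat_lit 152) (nat_lit 5633510097554) (nat_lit 0) (nat_lit 548945638131) (nat_lit 7) (nat_lit 5) (nat_lit 9) (nat_lit 4) (nat_lit 7) (nat_lit 4) (nat_lit 407) (nat_lit 368) (nat_lit 245))))))))
noncomputable def xc91 : XT := (XT.nd (nat_lit 50310) (nat_lit 0) (nat_lit 1140) (XT.nd (nat_lit 1014) (nat_lit 76) (nat_lit 0) (XT.nd (nat_lit 468) (nat_lit 228) (nat_lit 0) (XT.nd (nat_lit 234) (nat_lit 76) (nat_lit 0) (XT.nd (nat_lit 78) (nat_lit 76) (nat_lit 0) (XT.lf (nat_lit 0) (nat_lit 2524844521077) (nat_lit 152) (nat_lit 2868186115542) (nat_lit 0) (nat_lit 2324494009072) (nat_lit 7) (nat_lit 5) (nat_lit 9) (nat_lit 4) (nat_lit 7) (nat_lit 4) (nat_lit 408) (nat_lit 368) (nat_lit 244)) (XT.nd (nat_lit 78) (nat_lit 0) (nat_lit 0) (XT.lf (nat_lit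 0) (nat_lit 342421130576) (nat_lit 76) (nat_lit 4238482932788) (nat_lit 76) (nat_lit 4038132420006) (nat_lit 6) (nat_lit 4) (nat_lit 7) (nat_lit 5) (nat_lit 7) (nat_lit 4) (nat_lit 409) (nat_lit 368) (nat_lit 243)) (XT.lf (nat_lit 0) (nat_lit 4356964442621) (nat_lit 76) (nat_lit 2738335991485) (nat_lit 76) (nat_lit 2537985478027) (nat_lit 6) (nat_lit 4) (nat_lit 7) (nat_lit 5) (nat_lit 7) (nat_lit 4) (nat_lit 410) (nat_lit 368) (nat_lit 242)))) (XT.nd (nat_lit 78) (nat_lit 76) (nat_lit 0) (XT.lf (nat_lit 0) (nat_lit 8973689226472) (nat_lit 76) (nat_lit 1013167022271) (nat_lit 76) (nat_lit 812816508225) (nat_lit 6) (nat_lit 4) (nat_lit 7) (nat_lit 5) (nat_lit 7) (nat_lit 4) (nat_lit 411) (nat_lit 368) (nat_lit 241)) (XT.nd (nat_lit 78) (nat_lit 0) (nat_lit 0) (XT.lf (nat_lit 0) (nat_lit 1209059197331) (nat_lit 76) (nat_lit 9868513993932) (nat_lit 0) (nat_lit 1034841358585) (nat_lit 5) (nat_lit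 5) (nat_lit 6) (nat_lit 4) (nat_lit 5) (nat_lit 4) (nat_lit 412) (nat_lit 368) (nat_lit 240)) (XT.lf (nat_lit 0) (nat_lit 3599239704711) (nat_lit 76) (nat_lit 6569764153037) (nat_lit 0) (nat_lit 3425021865579) (nat_lit 5) (nat_lit 5) (nat_lit 6) (nat_lit 4) (nat_lit 5) (nat_lit 4) (nat_lit 413) (nat_lit 368) (nat_lit 239))))) (XT.nd (nat_lit 234) (nat_lit 152) (nat_lit 0) (XT.nd (nat_lit 78) (nat_lit 76) (nat_lit 0) (XT.lf (nat_lit 0) (nat_lit 6347947278929) (nat_lit 76) (nat_lit 2776201855828) (nat_lit 0) (nat_lit 6173729439461) (nat_lit 5) (nat_lit 5) (nat_lit 6) (nat_lit 4) (nat_lit 5) (nat_lit 4) (nat_lit 414) (nat_lit 368) (nat_lit 238)) (XT.nd (nat_lit 78) (nat_lit 0) (nat_lit 0) (XT.lf (nat_lit 0) (nat_lit 1741428802939) (nat_lit 76) (nat_lit 7839641031402) (nat_lit 76) (nat_lit 7665423191642) (nat_lit 4) (nat_lit 4) (nat_lit 5) (nat_lit 5) (nat_lit 5) (nat_lit 4) (nat_lit 415) (nat_lit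 368) (nat_lit 237)) (XT.lf (nat_lit 0) (nat_lit 7248711275368) (nat_lit 76) (nat_lit 6195569132472) (nat_lit 76) (nat_lit 6021351292458) (nat_lit 4) (nat_lit 4) (nat_lit 5) (nat_lit 5) (nat_lit 5) (nat_lit 4) (nat_lit 416) (nat_lit 368) (nat_lit 236)))) (XT.nd (nat_lit 156) (nat_lit 152) (nat_lit 0) (XT.nd (nat_lit 78) (nat_lit 0) (nat_lit 0) (XT.lf (nat_lit 0) (nat_lit 13582086104353) (nat_lit 76) (nat_lit 4304886456322) (nat_lit 76) (nat_lit 4130668616087) (nat_lit 4) (nat_lit 4) (nat_lit 5) (nat_lit 5) (nat_lit 5) (nat_lit 4) (nat_lit 417) (nat_lit 368) (nat_lit 235)) (XT.lf (nat_lit 0) (nat_lit 20865467145245) (nat_lit 76) (nat_lit 2130601385375) (nat_lit 76) (nat_lit 1956383544948) (nat_lit 4) (nat_lit 4) (nat_lit 5) (nat_lit 5) (nat_lit 5) (nat_lit 4) (nat_lit 418) (nat_lit 368) (nat_lit 234))) (XT.nd (nat_lit 78) (nat_lit 0) (nat_lit 0) (XT.lf (nat_lit 0) (nat_lit 554441074666) (nat_lit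 152) (nat_lit 27357892371379) (nat_lit 0) (nat_lit 402947300236) (nat_lit 2) (nat_lit 5) (nat_lit 4) (nat_lit 4) (nat_lit 2) (nat_lit 4) (nat_lit 419) (nat_lit 368) (nat_lit 233)) (XT.lf (nat_lit 0) (nat_lit 3566861259721) (nat_lit 152) (nat_lit 25137540562081) (nat_lit 0) (nat_lit 3415367485164) (nat_lit 2) (nat_lit 5) (nat_lit 4) (nat_lit 4) (nat_lit 2) (nat_lit 4) (nat_lit 420) (nat_lit 368) (nat_lit 232)))))) (XT.nd (nat_lit 546) (nat_lit 0) (nat_lit 0) (XT.nd (nat_lit 234) (nat_lit 76) (nat_lit 0) (XT.nd (nat_lit 78) (nat_lit 0) (nat_lit 0) (XT.lf (nat_lit 0) (nat_lit 7031144467930) (nat_lit 152) (nat_lit 22584135991249) (nat_lit 0) (nat_lit 6879650693264) (nat_lit 2) (nat_lit 5) (nat_lit 4) (nat_lit 4) (nat_lit 2) (nat_lit 4) (nat_lit 421) (nat_lit 368) (nat_lit 231)) (XT.nd (nat_lit 78) (nat_lit 0) (nat_lit 0) (XT.lf (nat_lit 0) (nat_lit 11015070153369) (nat_lit 152) (nat_lit 19647720743368)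 (nat_lit 0) (nat_lit 10863576378607) (nat_lit 2) (nat_lit 5) (nat_lit 4) (nat_lit 4) (nat_lit 2) (nat_lit 4) (nat_lit 422) (nat_lit 368) (nat_lit 230)) (XT.lf (nat_lit 0) (nat_lit 15596584688142) (nat_lit 152) (nat_lit 16270843215760) (nat_lit 0) (nat_lit 15445090913298) (nat_lit 2) (nat_lit 5) (nat_lit 4) (nat_lit 4) (nat_lit 2) (nat_lit 4) (nat_lit 423) (nat_lit 368) (nat_lit 229)))) (XT.nd (nat_lit 156) (nat_lit 76) (nat_lit 0) (XT.nd (nat_lit 78) (nat_lit 0) (nat_lit 0) (XT.lf (nat_lit 0) (nat_lit 20865326400106) (nat_lit 152) (nat_lit 12387434065495) (nat_lit 0) (nat_lit 20713832625189) (nat_lit 2) (nat_lit 5) (nat_lit 4) (nat_lit 4) (nat_lit 2) (nat_lit 4) (nat_lit 424) (nat_lit 368) (nat_lit 228)) (XT.lf (nat_lit 0) (nat_lit 26924379366232) (nat_lit 152) (nat_lit 7921513548329) (nat_lit 0) (nat_lit 26772885591252) (nat_lit 2) (nat_lit 5) (nat_lit 4) (nat_lit 4) (nat_lit 2) (nat_lit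 4) (nat_lit 425) (nat_lit 368) (nat_lit 227))) (XT.nd (nat_lit 78) (nat_lit 76) (nat_lit 0) (XT.lf (nat_lit 0) (nat_lit 33892290274988) (nat_lit 152) (nat_lit 2785704958490) (nat_lit 0) (nat_lit 33740796499954) (nat_lit 2) (nat_lit 5) (nat_lit 4) (nat_lit 4) (nat_lit 2) (nat_lit 4) (nat_lit 426) (nat_lit 368) (nat_lit 226)) (XT.lf (nat_lit 0) (nat_lit 3425430418673) (nat_lit 76) (nat_lit 38621797168284) (nat_lit 76) (nat_lit 38470303393202) (nat_lit 1) (nat_lit 4) (nat_lit 2) (nat_lit 5) (nat_lit 2) (nat_lit 4) (nat_lit 427) (nat_lit 368) (nat_lit 225))))) (XT.nd (nat_lit 2496) (nat_lit 0) (nat_lit 0) (XT.nd (nat_lit 2340) (nat_lit 0) (nat_lit 0) (XT.lf (nat_lit 0) (nat_lit 10881311348790) (nat_lit 76) (nat_lit 40689710540590) (nat_lit 76) (nat_lit 40538216765467) (nat_lit 1) (nat_lit 4) (nat_lit 2) (nat_lit 5) (nat_lit 2) (nat_lit 4) (nat_lit 428) (nat_lit 368) (nat_lit 224)) (XT.nd (nat_lit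 78) (nat_lit 0) (nat_lit 0) (XT.lf (nat_lit 0) (nat_lit 3738500558419682) (nat_lit 76) (nat_lit 1074557310863718) (nat_lit 76) (nat_lit 1074405817088323) (nat_lit 1) (nat_lit 4) (nat_lit 2) (nat_lit 5) (nat_lit 2) (nat_lit 4) (nat_lit 458) (nat_lit 368) (nat_lit 194)) (XT.lf (nat_lit 0) (nat_lit 4306217708523175) (nat_lit 76) (nat_lit 1232015551304620) (nat_lit 76) (nat_lit 1231864057529227) (nat_lit 1) (nat_lit 4) (nat_lit 2) (nat_lit 5) (nat_lit 2) (nat_lit 4) (nat_lit 459) (nat_lit 368) (nat_lit 193)))) (XT.nd (nat_lit 46098) (nat_lit 0) (nat_lit 3116) (XT.nd (nat_lit 46020) (nat_lit 0) (nat_lit 3116) (XT.lf (nat_lit 0) (nat_lit 4959092431142128) (nat_lit 76) (nat_lit 1413092527811687) (nat_lit 76) (nat_lit 1412941034036277) (nat_lit 1) (nat_lit 4) (nat_lit 2) (nat_lit 5) (nat_lit 2) (nat_lit 4) (nat_lit 460) (nat_lit 368) (nat_lit 192)) (XT.lf (nat_lit 0) (nat_lit 34704963933) (nat_lit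 380) (nat_lit 40956310417) (nat_lit 380) (nat_lit 40956310417) (nat_lit 42) (nat_lit 3) (nat_lit 47) (nat_lit 3) (nat_lit 47) (nat_lit 5) (nat_lit 369) (nat_lit 369) (nat_lit 282))) (XT.nd (nat_lit 78) (nat_lit 0) (nat_lit 76) (XT.lf (nat_lit 76) (nat_lit 37558093580) (nat_lit 0) (nat_lit 38613894618) (nat_lit 380) (nat_lit 174322371427) (nat_lit 43) (nat_lit 5) (nat_lit 42) (nat_lit 3) (nat_lit 47) (nat_lit 5) (nat_lit 370) (nat_lit 369) (nat_lit 281)) (XT.lf (nat_lit 0) (nat_lit 92202007949) (nat_lit 304) (nat_lit 89517096068) (nat_lit 380) (nat_lit 87385276705) (nat_lit 43) (nat_lit 5) (nat_lit 47) (nat_lit 5) (nat_lit 48) (nat_lit 5) (nat_lit 371) (nat_lit 369) (nat_lit 280))))))) (XT.nd (nat_lit 1014) (nat_lit 912) (nat_lit 0) (XT.nd (nat_lit 468) (nat_lit 684) (nat_lit 0) (XT.nd (nat_lit 234) (nat_lit 228) (nat_lit 0) (XT.nd (nat_lit 78) (nat_lit 228) (nat_lit 0) (XT.lf (nat_lit 76)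 (nat_lit 55518713904) (nat_lit 0) (nat_lit 59255310839) (nat_lit 380) (nat_lit 175111256169) (nat_lit 44) (nat_lit 5) (nat_lit 43) (nat_lit 5) (nat_lit 48) (nat_lit 5) (nat_lit 372) (nat_lit 369) (nat_lit 279)) (XT.nd (nat_lit 78) (nat_lit 304) (nat_lit 0) (XT.lf (nat_lit 0) (nat_lit 149011787834) (nat_lit 304) (nat_lit 84311978297) (nat_lit 76) (nat_lit 79217558466) (nat_lit 44) (nat_lit 5) (nat_lit 48) (nat_lit 5) (nat_lit 45) (nat_lit 5) (nat_lit 373) (nat_lit 369) (nat_lit 278)) (XT.lf (nat_lit 0) (nat_lit 93777722234) (nat_lit 304) (nat_lit 101312174422) (nat_lit 380) (nat_lit 142500176022) (nat_lit 40) (nat_lit 5) (nat_lit 44) (nat_lit 5) (nat_lit 45) (nat_lit 5) (nat_lit 374) (nat_lit 369) (nat_lit 277)))) (XT.nd (nat_lit 78) (nat_lit 228) (nat_lit 0) (XT.lf (nat_lit 0) (nat_lit 254787827840) (nat_lit 380) (nat_lit 59979816962) (nat_lit 76) (nat_lit 50622272288) (nat_lit 40) (nat_lit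 5) (nat_lit 45) (nat_lit 5) (nat_lit 41) (nat_lit 5) (nat_lit 375) (nat_lit 369) (nat_lit 276)) (XT.nd (nat_lit 78) (nat_lit 76) (nat_lit 0) (XT.lf (nat_lit 0) (nat_lit 160930197258) (nat_lit 152) (nat_lit 173998309451) (nat_lit 228) (nat_lit 60708022780) (nat_lit 38) (nat_lit 5) (nat_lit 40) (nat_lit 5) (nat_lit 41) (nat_lit 5) (nat_lit 376) (nat_lit 369) (nat_lit 275)) (XT.lf (nat_lit 0) (nat_lit 251105309) (nat_lit 228) (nat_lit 8243762182) (nat_lit 76) (nat_lit 421453272692) (nat_lit 37) (nat_lit 5) (nat_lit 40) (nat_lit 5) (nat_lit 38) (nat_lit 5) (nat_lit 377) (nat_lit 369) (nat_lit 274))))) (XT.nd (nat_lit 234) (nat_lit 380) (nat_lit 0) (XT.nd (nat_lit 78) (nat_lit 152) (nat_lit 0) (XT.lf (nat_lit 0) (nat_lit 83676984504) (nat_lit 228) (nat_lit 201819392035) (nat_lit 76) (nat_lit 180545753161) (nat_lit 35) (nat_lit 5) (nat_lit 38) (nat_lit 5) (nat_lit 36) (nat_lit 5) (nat_lit 378)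 (nat_lit 369) (nat_lit 273)) (XT.nd (nat_lit 78) (nat_lit 0) (nat_lit 0) (XT.lf (nat_lit 0) (nat_lit 77472058700) (nat_lit 152) (nat_lit 106208517375) (nat_lit 228) (nat_lit 323260067011) (nat_lit 33) (nat_lit 5) (nat_lit 35) (nat_lit 5) (nat_lit 36) (nat_lit 5) (nat_lit 379) (nat_lit 369) (nat_lit 272)) (XT.lf (nat_lit 0) (nat_lit 313876290253) (nat_lit 228) (nat_lit 135694650949) (nat_lit 76) (nat_lit 102124254706) (nat_lit 33) (nat_lit 5) (nat_lit 36) (nat_lit 5) (nat_lit 34) (nat_lit 4) (nat_lit 380) (nat_lit 369) (nat_lit 271)))) (XT.nd (nat_lit 156) (nat_lit 228) (nat_lit 0) (XT.nd (nat_lit 78) (nat_lit 76) (nat_lit 0) (XT.lf (nat_lit 0) (nat_lit 216348558906) (nat_lit 76) (nat_lit 261268814565) (nat_lit 152) (nat_lit 123443156407) (nat_lit 32) (nat_lit 5) (nat_lit 33) (nat_lit 5) (nat_lit 34) (nat_lit 4) (nat_lit 381) (nat_lit 369) (nat_lit 270)) (XT.lf (nat_lit 0) (nat_lit 14799650638)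 (nat_lit 152) (nat_lit 20991041889) (nat_lit 76) (nat_lit 620875104944) (nat_lit 31) (nat_lit 5) (nat_lit 33) (nat_lit 5) (nat_lit 32) (nat_lit 5) (nat_lit 382) (nat_lit 369) (nat_lit 269))) (XT.nd (nat_lit 78) (nat_lit 76) (nat_lit 0) (XT.lf (nat_lit 0) (nat_lit 189314100628) (nat_lit 228) (nat_lit 297782498968) (nat_lit 76) (nat_lit 228407501312) (nat_lit 29) (nat_lit 5) (nat_lit 32) (nat_lit 5) (nat_lit 30) (nat_lit 4) (nat_lit 383) (nat_lit 369) (nat_lit 268)) (XT.lf (nat_lit 0) (nat_lit 153506203596) (nat_lit 76) (nat_lit 245709650817) (nat_lit 152) (nat_lit 382570775008) (nat_lit 28) (nat_lit 5) (nat_lit 29) (nat_lit 5) (nat_lit 30) (nat_lit 4) (nat_lit 384) (nat_lit 369) (nat_lit 267)))))) (XT.nd (nat_lit 546) (nat_lit 456) (nat_lit 0) (XT.nd (nat_lit 234) (nat_lit 228) (nat_lit 0) (XT.nd (nat_lit 78) (nat_lit 228) (nat_lit 0) (XT.lf (nat_lit 0) (nat_lit 658230257389) (nat_lit 152)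 (nat_lit 151783386336) (nat_lit 0) (nat_lit 45353785573) (nat_lit 28) (nat_lit 5) (nat_lit 30) (nat_lit 4) (nat_lit 28) (nat_lit 4) (nat_lit 385) (nat_lit 369) (nat_lit 266)) (XT.nd (nat_lit 78) (nat_lit 76) (nat_lit 0) (XT.lf (nat_lit 0) (nat_lit 45243627804) (nat_lit 152) (nat_lit 515602716797) (nat_lit 76) (nat_lit 374453956692) (nat_lit 26) (nat_lit 5) (nat_lit 28) (nat_lit 5) (nat_lit 27) (nat_lit 4) (nat_lit 386) (nat_lit 369) (nat_lit 265)) (XT.lf (nat_lit 0) (nat_lit 63844598560) (nat_lit 76) (nat_lit 250909426582) (nat_lit 152) (nat_lit 709417620928) (nat_lit 25) (nat_lit 5) (nat_lit 26) (nat_lit 5) (nat_lit 27) (nat_lit 4) (nat_lit 387) (nat_lit 369) (nat_lit 264)))) (XT.nd (nat_lit 156) (nat_lit 152) (nat_lit 0) (XT.nd (nat_lit 78) (nat_lit 76) (nat_lit 0) (XT.lf (nat_lit 0) (nat_lit 657295599550) (nat_lit 152) (nat_lit 339827965494) (nat_lit 0) (nat_lit 124359434904) (nat_lit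 25) (nat_lit 5) (nat_lit 27) (nat_lit 4) (nat_lit 25) (nat_lit 4) (nat_lit 388) (nat_lit 369) (nat_lit 263)) (XT.lf (nat_lit 0) (nat_lit 397155348708) (nat_lit 76) (nat_lit 682456445420) (nat_lit 76) (nat_lit 149520255182) (nat_lit 24) (nat_lit 4) (nat_lit 25) (nat_lit 5) (nat_lit 25) (nat_lit 4) (nat_lit 389) (nat_lit 369) (nat_lit 262))) (XT.nd (nat_lit 78) (nat_lit 76) (nat_lit 0) (XT.lf (nat_lit 0) (nat_lit 212051953916) (nat_lit 152) (nat_lit 77024511571) (nat_lit 76) (nat_lit 1059741627305) (nat_lit 23) (nat_lit 5) (nat_lit 25) (nat_lit 5) (nat_lit 24) (nat_lit 4) (nat_lit 390) (nat_lit 369) (nat_lit 261)) (XT.lf (nat_lit 0) (nat_lit 656989055181) (nat_lit 152) (nat_lit 628168177871) (nat_lit 0) (nat_lit 193566244883) (nat_lit 22) (nat_lit 5) (nat_lit 24) (nat_lit 4) (nat_lit 22) (nat_lit 4) (nat_lit 391) (nat_lit 369) (nat_lit 260))))) (XT.nd (nat_lit 234) (nat_lit 228) (nat_lit 0)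 (XT.nd (nat_lit 78) (nat_lit 152) (nat_lit 0) (XT.lf (nat_lit 0) (nat_lit 312260068127) (nat_lit 76) (nat_lit 887320197991) (nat_lit 76) (nat_lit 423897373061) (nat_lit 21) (nat_lit 4) (nat_lit 22) (nat_lit 5) (nat_lit 22) (nat_lit 4) (nat_lit 392) (nat_lit 369) (nat_lit 259)) (XT.nd (nat_lit 78) (nat_lit 76) (nat_lit 0) (XT.lf (nat_lit 0) (nat_lit 65022225635) (nat_lit 152) (nat_lit 323625052537) (nat_lit 76) (nat_lit 1395928908345) (nat_lit 20) (nat_lit 5) (nat_lit 22) (nat_lit 5) (nat_lit 21) (nat_lit 4) (nat_lit 393) (nat_lit 369) (nat_lit 258)) (XT.lf (nat_lit 0) (nat_lit 630205719071) (nat_lit 152) (nat_lit 1102427883869) (nat_lit 0) (nat_lit 227229328882) (nat_lit 19) (nat_lit 5) (nat_lit 21) (nat_lit 4) (nat_lit 19) (nat_lit 4) (nat_lit 394) (nat_lit 369) (nat_lit 257)))) (XT.nd (nat_lit 156) (nat_lit 152) (nat_lit 0) (XT.nd (nat_lit 78) (nat_lit 0) (nat_lit 0) (XT.lf (nat_lit 0)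 (nat_lit 81020394509) (nat_lit 76) (nat_lit 1238730532219) (nat_lit 76) (nat_lit 835754133664) (nat_lit 18) (nat_lit 4) (nat_lit 19) (nat_lit 5) (nat_lit 19) (nat_lit 4) (nat_lit 395) (nat_lit 369) (nat_lit 256)) (XT.lf (nat_lit 0) (nat_lit 1565883718524) (nat_lit 76) (nat_lit 604471081444) (nat_lit 76) (nat_lit 201494675615) (nat_lit 18) (nat_lit 4) (nat_lit 19) (nat_lit 5) (nat_lit 19) (nat_lit 4) (nat_lit 396) (nat_lit 369) (nat_lit 255))) (XT.nd (nat_lit 78) (nat_lit 0) (nat_lit 0) (XT.lf (nat_lit 0) (nat_lit 517166196790) (nat_lit 152) (nat_lit 1928009505891) (nat_lit 0) (nat_lit 166751925351) (nat_lit 16) (nat_lit 5) (nat_lit 18) (nat_lit 4) (nat_lit 16) (nat_lit 4) (nat_lit 397) (nat_lit 369) (nat_lit 254)) (XT.lf (nat_lit 0) (nat_lit 1395917515453) (nat_lit 152) (nat_lit 434219421153) (nat_lit 0) (nat_lit 1045503239231) (nat_lit 16) (nat_lit 5) (nat_lit 18) (nat_lit 4) (nat_lit 16)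 (nat_lit 4) (nat_lit 398) (nat_lit 369) (nat_lit 253))))))))
noncomputable def xc92 : XT := (XT.nd (nat_lit 2028) (nat_lit 76) (nat_lit 0) (XT.nd (nat_lit 1014) (nat_lit 304) (nat_lit 0) (XT.nd (nat_lit 468) (nat_lit 304) (nat_lit 0) (XT.nd (nat_lit 234) (nat_lit 228) (nat_lit 0) (XT.nd (nat_lit 78) (nat_lit 152) (nat_lit 0) (XT.lf (nat_lit 0) (nat_lit 1409085682210) (nat_lit 76) (nat_lit 1055743061136) (nat_lit 76) (nat_lit 705328780754) (nat_lit 15) (nat_lit 4) (nat_lit 16) (nat_lit 5) (nat_lit 16) (nat_lit 4) (nat_lit 399) (nat_lit 369) (nat_lit 252)) (XT.nd (nat_lit 78) (nat_lit 0) (nat_lit 0) (XT.lf (nat_lit 0) (nat_lit 69693014204) (nat_lit 76) (nat_lit 125705729145) (nat_lit 152) (nat_lit 3308303595509) (nat_lit 13) (nat_lit 5) (nat_lit 14) (nat_lit 5) (nat_lit 15) (nat_lit 4) (nat_lit 400) (nat_lit 369) (nat_lit 251)) (XT.lf (nat_lit 0) (nat_lit 1294545076421) (nat_lit 152) (nat_lit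 1577530449146) (nat_lit 0) (nat_lit 989837000644) (nat_lit 13) (nat_lit 5) (nat_lit 15) (nat_lit 4) (nat_lit 13) (nat_lit 4) (nat_lit 401) (nat_lit 369) (nat_lit 250)))) (XT.nd (nat_lit 78) (nat_lit 152) (nat_lit 0) (XT.lf (nat_lit 0) (nat_lit 605324394364) (nat_lit 76) (nat_lit 1984290125685) (nat_lit 76) (nat_lit 1679582047529) (nat_lit 12) (nat_lit 4) (nat_lit 13) (nat_lit 5) (nat_lit 13) (nat_lit 4) (nat_lit 402) (nat_lit 369) (nat_lit 249)) (XT.nd (nat_lit 78) (nat_lit 152) (nat_lit 0) (XT.lf (nat_lit 0) (nat_lit 3292900337217) (nat_lit 76) (nat_lit 868505844003) (nat_lit 76) (nat_lit 563797763780) (nat_lit 12) (nat_lit 4) (nat_lit 13) (nat_lit 5) (nat_lit 13) (nat_lit 4) (nat_lit 403) (nat_lit 369) (nat_lit 248)) (XT.lf (nat_lit 0) (nat_lit 726481883312) (nat_lit 152) (nat_lit 4046468733309) (nat_lit 0) (nat_lit 461518333728) (nat_lit 10) (nat_lit 5) (nat_lit 12) (nat_lit 4) (nat_lit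 10) (nat_lit 4) (nat_lit 404) (nat_lit 369) (nat_lit 247))))) (XT.nd (nat_lit 234) (nat_lit 228) (nat_lit 0) (XT.nd (nat_lit 78) (nat_lit 76) (nat_lit 0) (XT.lf (nat_lit 0) (nat_lit 2272374404072) (nat_lit 152) (nat_lit 1518342360621) (nat_lit 0) (nat_lit 2007410853129) (nat_lit 10) (nat_lit 5) (nat_lit 12) (nat_lit 4) (nat_lit 10) (nat_lit 4) (nat_lit 405) (nat_lit 369) (nat_lit 246)) (XT.nd (nat_lit 78) (nat_lit 0) (nat_lit 0) (XT.lf (nat_lit 0) (nat_lit 1524746406822) (nat_lit 76) (nat_lit 2588540879135) (nat_lit 76) (nat_lit 2323577327009) (nat_lit 9) (nat_lit 4) (nat_lit 10) (nat_lit 5) (nat_lit 10) (nat_lit 4) (nat_lit 406) (nat_lit 369) (nat_lit 245)) (XT.lf (nat_lit 0) (nat_lit 5194939437336) (nat_lit 76) (nat_lit 1114765545403) (nat_lit 76) (nat_lit 849801992249) (nat_lit 9) (nat_lit 4) (nat_lit 10) (nat_lit 5) (nat_lit 10) (nat_lit 4) (nat_lit 407) (nat_lit 369) (nat_lit 244))))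 (XT.nd (nat_lit 156) (nat_lit 76) (nat_lit 0) (XT.nd (nat_lit 78) (nat_lit 0) (nat_lit 0) (XT.lf (nat_lit 0) (nat_lit 861690723725) (nat_lit 152) (nat_lit 6478536287877) (nat_lit 0) (nat_lit 631287633248) (nat_lit 7) (nat_lit 5) (nat_lit 9) (nat_lit 4) (nat_lit 7) (nat_lit 4) (nat_lit 408) (nat_lit 369) (nat_lit 243)) (XT.lf (nat_lit 0) (nat_lit 2903571331497) (nat_lit 152) (nat_lit 3298413750864) (nat_lit 0) (nat_lit 2673168240344) (nat_lit 7) (nat_lit 5) (nat_lit 9) (nat_lit 4) (nat_lit 7) (nat_lit 4) (nat_lit 409) (nat_lit 369) (nat_lit 242))) (XT.nd (nat_lit 78) (nat_lit 0) (nat_lit 0) (XT.lf (nat_lit 0) (nat_lit 393784569353) (nat_lit 76) (nat_lit 4874255229669) (nat_lit 76) (nat_lit 4643852137929) (nat_lit 6) (nat_lit 4) (nat_lit 7) (nat_lit 5) (nat_lit 7) (nat_lit 4) (nat_lit 410) (nat_lit 369) (nat_lit 241)) (XT.lf (nat_lit 0) (nat_lit 5010509343093) (nat_lit 76) (nat_lit 3149086265828)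 (nat_lit 76) (nat_lit 2918683173577) (nat_lit 6) (nat_lit 4) (nat_lit 7) (nat_lit 5) (nat_lit 7) (nat_lit 4) (nat_lit 411) (nat_lit 369) (nat_lit 240)))))) (XT.nd (nat_lit 468) (nat_lit 152) (nat_lit 0) (XT.nd (nat_lit 234) (nat_lit 76) (nat_lit 0) (XT.nd (nat_lit 78) (nat_lit 76) (nat_lit 0) (XT.lf (nat_lit 0) (nat_lit 10319742813989) (nat_lit 76) (nat_lit 1165141967456) (nat_lit 76) (nat_lit 934738874760) (nat_lit 6) (nat_lit 4) (nat_lit 7) (nat_lit 5) (nat_lit 7) (nat_lit 4) (nat_lit 412) (nat_lit 369) (nat_lit 239)) (XT.nd (nat_lit 78) (nat_lit 0) (nat_lit 0) (XT.lf (nat_lit 0) (nat_lit 1390418176744) (nat_lit 76) (nat_lit 11348790879589) (nat_lit 0) (nat_lit 1190067661020) (nat_lit 5) (nat_lit 5) (nat_lit 6) (nat_lit 4) (nat_lit 5) (nat_lit 4) (nat_lit 413) (nat_lit 369) (nat_lit 238)) (XT.lf (nat_lit 0) (nat_lit 4139125747213) (nat_lit 76) (nat_lit 7555228590398) (nat_lit 0) (nat_lit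 3938775231196) (nat_lit 5) (nat_lit 5) (nat_lit 6) (nat_lit 4) (nat_lit 5) (nat_lit 4) (nat_lit 414) (nat_lit 369) (nat_lit 237)))) (XT.nd (nat_lit 78) (nat_lit 76) (nat_lit 0) (XT.lf (nat_lit 0) (nat_lit 7300139446242) (nat_lit 76) (nat_lit 3192631972816) (nat_lit 0) (nat_lit 7099788929971) (nat_lit 5) (nat_lit 5) (nat_lit 6) (nat_lit 4) (nat_lit 5) (nat_lit 4) (nat_lit 415) (nat_lit 369) (nat_lit 236)) (XT.nd (nat_lit 78) (nat_lit 0) (nat_lit 0) (XT.lf (nat_lit 0) (nat_lit 2002643277431) (nat_lit 76) (nat_lit 9015587104070) (nat_lit 76) (nat_lit 8815236587578) (nat_lit 4) (nat_lit 4) (nat_lit 5) (nat_lit 5) (nat_lit 5) (nat_lit 4) (nat_lit 416) (nat_lit 369) (nat_lit 235)) (XT.lf (nat_lit 0) (nat_lit 8336018100630) (nat_lit 76) (nat_lit 7124904431002) (nat_lit 76) (nat_lit 6924553914318) (nat_lit 4) (nat_lit 4) (nat_lit 5) (nat_lit 5) (nat_lit 5) (nat_lit 4) (nat_lit 417) (nat_lit 369)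 (nat_lit 234))))) (XT.nd (nat_lit 234) (nat_lit 0) (nat_lit 0) (XT.nd (nat_lit 78) (nat_lit 152) (nat_lit 0) (XT.lf (nat_lit 0) (nat_lit 15619399136490) (nat_lit 76) (nat_lit 4950619362734) (nat_lit 76) (nat_lit 4750268845884) (nat_lit 4) (nat_lit 4) (nat_lit 5) (nat_lit 5) (nat_lit 5) (nat_lit 4) (nat_lit 418) (nat_lit 369) (nat_lit 233)) (XT.nd (nat_lit 78) (nat_lit 152) (nat_lit 0) (XT.lf (nat_lit 0) (nat_lit 23995287318323) (nat_lit 76) (nat_lit 2450191539237) (nat_lit 76) (nat_lit 2249841022241) (nat_lit 4) (nat_lit 4) (nat_lit 5) (nat_lit 5) (nat_lit 5) (nat_lit 4) (nat_lit 419) (nat_lit 369) (nat_lit 232)) (XT.lf (nat_lit 0) (nat_lit 637607285428) (nat_lit 152) (nat_lit 31461576120908) (nat_lit 0) (nat_lit 463389444452) (nat_lit 2) (nat_lit 5) (nat_lit 4) (nat_lit 4) (nat_lit 2) (nat_lit 4) (nat_lit 420) (nat_lit 369) (nat_lit 231)))) (XT.nd (nat_lit 156) (nat_lit 0) (nat_lit 0) (XT.nd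 (nat_lit 78) (nat_lit 0) (nat_lit 0) (XT.lf (nat_lit 0) (nat_lit 4101890491776) (nat_lit 152) (nat_lit 28908171554065) (nat_lit 0) (nat_lit 3927672650705) (nat_lit 2) (nat_lit 5) (nat_lit 4) (nat_lit 4) (nat_lit 2) (nat_lit 4) (nat_lit 421) (nat_lit 369) (nat_lit 230)) (XT.lf (nat_lit 0) (nat_lit 8085816175596) (nat_lit 152) (nat_lit 25971756309651) (nat_lit 0) (nat_lit 7911598334441) (nat_lit 2) (nat_lit 5) (nat_lit 4) (nat_lit 4) (nat_lit 2) (nat_lit 4) (nat_lit 422) (nat_lit 369) (nat_lit 229))) (XT.nd (nat_lit 78) (nat_lit 0) (nat_lit 0) (XT.lf (nat_lit 0) (nat_lit 12667330708962) (nat_lit 152) (nat_lit 22594878785059) (nat_lit 0) (nat_lit 12493112867735) (nat_lit 2) (nat_lit 5) (nat_lit 4) (nat_lit 4) (nat_lit 2) (nat_lit 4) (nat_lit 423) (nat_lit 369) (nat_lit 228)) (XT.lf (nat_lit 0) (nat_lit 17936072419701) (nat_lit 152) (nat_lit 18711469637417) (nat_lit 0) (nat_lit 17761854578412)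 (nat_lit 2) (nat_lit 5) (nat_lit 4) (nat_lit 4) (nat_lit 2) (nat_lit 4) (nat_lit 424) (nat_lit 369) (nat_lit 227))))))) (XT.nd (nat_lit 49140) (nat_lit 0) (nat_lit 1900) (XT.nd (nat_lit 2574) (nat_lit 0) (nat_lit 0) (XT.nd (nat_lit 234) (nat_lit 76) (nat_lit 0) (XT.nd (nat_lit 78) (nat_lit 0) (nat_lit 0) (XT.lf (nat_lit 0) (nat_lit 23995125384763) (nat_lit 152) (nat_lit 14245549122531) (nat_lit 0) (nat_lit 23820907543419) (nat_lit 2) (nat_lit 5) (nat_lit 4) (nat_lit 4) (nat_lit 2) (nat_lit 4) (nat_lit 425) (nat_lit 369) (nat_lit 226)) (XT.nd (nat_lit 78) (nat_lit 0) (nat_lit 0) (XT.lf (nat_lit 0) (nat_lit 30963036292594) (nat_lit 152) (nat_lit 9109740534674) (nat_lit 0) (nat_lit 30788818451202) (nat_lit 2) (nat_lit 5) (nat_lit 4) (nat_lit 4) (nat_lit 2) (nat_lit 4) (nat_lit 426) (nat_lit 369) (nat_lit 225)) (XT.lf (nat_lit 0) (nat_lit 38976133834869) (nat_lit 152) (nat_lit 3203560662347)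 (nat_lit 0) (nat_lit 38801915993436) (nat_lit 2) (nat_lit 5) (nat_lit 4) (nat_lit 4) (nat_lit 2) (nat_lit 4) (nat_lit 427) (nat_lit 369) (nat_lit 224)))) (XT.nd (nat_lit 78) (nat_lit 0) (nat_lit 0) (XT.lf (nat_lit 0) (nat_lit 3939245019575) (nat_lit 76) (nat_lit 44415066723205) (nat_lit 76) (nat_lit 44240848881735) (nat_lit 1) (nat_lit 4) (nat_lit 2) (nat_lit 5) (nat_lit 2) (nat_lit 4) (nat_lit 428) (nat_lit 369) (nat_lit 223)) (XT.nd (nat_lit 2184) (nat_lit 0) (nat_lit 0) (XT.lf (nat_lit 0) (nat_lit 12513508084240) (nat_lit 76) (nat_lit 46793167104007) (nat_lit 76) (nat_lit 46618949262507) (nat_lit 1) (nat_lit 4) (nat_lit 2) (nat_lit 5) (nat_lit 2) (nat_lit 4) (nat_lit 429) (nat_lit 369) (nat_lit 222)) (XT.lf (nat_lit 0) (nat_lit 3237891405033113) (nat_lit 76) (nat_lit 941362457973064) (nat_lit 76) (nat_lit 941188240131364) (nat_lit 1) (nat_lit 4) (nat_lit 2) (nat_lit 5) (nat_lit 2) (nat_lit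 4) (nat_lit 457) (nat_lit 369) (nat_lit 194))))) (XT.nd (nat_lit 46254) (nat_lit 0) (nat_lit 3116) (XT.nd (nat_lit 78) (nat_lit 0) (nat_lit 0) (XT.lf (nat_lit 0) (nat_lit 3731558492079660) (nat_lit 76) (nat_lit 1078282667052095) (nat_lit 76) (nat_lit 1078108449210393) (nat_lit 1) (nat_lit 4) (nat_lit 2) (nat_lit 5) (nat_lit 2) (nat_lit 4) (nat_lit 458) (nat_lit 369) (nat_lit 193)) (XT.nd (nat_lit 78) (nat_lit 0) (nat_lit 0) (XT.lf (nat_lit 0) (nat_lit 4299275642183128) (nat_lit 76) (nat_lit 1235740907493014) (nat_lit 76) (nat_lit 1235566689651308) (nat_lit 1) (nat_lit 4) (nat_lit 2) (nat_lit 5) (nat_lit 2) (nat_lit 4) (nat_lit 459) (nat_lit 369) (nat_lit 192)) (XT.lf (nat_lit 0) (nat_lit 4952150364802058) (nat_lit 76) (nat_lit 1416817884000086) (nat_lit 76) (nat_lit 1416643666158376) (nat_lit 1) (nat_lit 4) (nat_lit 2) (nat_lit 5) (nat_lit 2) (nat_lit 4) (nat_lit 460) (nat_lit 369) (nat_lit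 191)))) (XT.nd (nat_lit 156) (nat_lit 0) (nat_lit 76) (XT.nd (nat_lit 78) (nat_lit 0) (nat_lit 0) (XT.lf (nat_lit 0) (nat_lit 39911777525) (nat_lit 380) (nat_lit 47099142177) (nat_lit 380) (nat_lit 47099142177) (nat_lit 42) (nat_lit 3) (nat_lit 47) (nat_lit 3) (nat_lit 47) (nat_lit 5) (nat_lit 370) (nat_lit 370) (nat_lit 280)) (XT.lf (nat_lit 76) (nat_lit 43192981330) (nat_lit 0) (nat_lit 44406712833) (nat_lit 380) (nat_lit 200468532808) (nat_lit 43) (nat_lit 5) (nat_lit 42) (nat_lit 3) (nat_lit 47) (nat_lit 5) (nat_lit 371) (nat_lit 370) (nat_lit 279))) (XT.nd (nat_lit 78) (nat_lit 0) (nat_lit 0) (XT.lf (nat_lit 0) (nat_lit 106033941611) (nat_lit 304) (nat_lit 102943364212) (nat_lit 380) (nat_lit 100492486755) (nat_lit 43) (nat_lit 5) (nat_lit 47) (nat_lit 5) (nat_lit 48) (nat_lit 5) (nat_lit 372) (nat_lit 370) (nat_lit 278)) (XT.lf (nat_lit 76) (nat_lit 63847758334) (nat_lit 0) (nat_lit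 68143840896) (nat_lit 380) (nat_lit 201376252871) (nat_lit 44) (nat_lit 5) (nat_lit 43) (nat_lit 5) (nat_lit 48) (nat_lit 5) (nat_lit 373) (nat_lit 370) (nat_lit 277)))))) (XT.nd (nat_lit 546) (nat_lit 532) (nat_lit 0) (XT.nd (nat_lit 234) (nat_lit 532) (nat_lit 0) (XT.nd (nat_lit 78) (nat_lit 304) (nat_lit 0) (XT.lf (nat_lit 0) (nat_lit 171364826539) (nat_lit 304) (nat_lit 96957498557) (nat_lit 76) (nat_lit 91100007324) (nat_lit 44) (nat_lit 5) (nat_lit 48) (nat_lit 5) (nat_lit 45) (nat_lit 5) (nat_lit 374) (nat_lit 370) (nat_lit 276)) (XT.nd (nat_lit 78) (nat_lit 0) (nat_lit 0) (XT.lf (nat_lit 0) (nat_lit 107845599032) (nat_lit 304) (nat_lit 116508937385) (nat_lit 380) (nat_lit 163873873623) (nat_lit 40) (nat_lit 5) (nat_lit 44) (nat_lit 5) (nat_lit 45) (nat_lit 5) (nat_lit 375) (nat_lit 370) (nat_lit 275)) (XT.lf (nat_lit 0) (nat_lit 293007008868) (nat_lit 380) (nat_lit 68975581345) (nat_lit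 76) (nat_lit 58215663196) (nat_lit 40) (nat_lit 5) (nat_lit 45) (nat_lit 5) (nat_lit 41) (nat_lit 5) (nat_lit 376) (nat_lit 370) (nat_lit 274)))) (XT.nd (nat_lit 156) (nat_lit 304) (nat_lit 0) (XT.nd (nat_lit 78) (nat_lit 76) (nat_lit 0) (XT.lf (nat_lit 0) (nat_lit 185070880091) (nat_lit 152) (nat_lit 200097825900) (nat_lit 228) (nat_lit 69813164240) (nat_lit 38) (nat_lit 5) (nat_lit 40) (nat_lit 5) (nat_lit 41) (nat_lit 5) (nat_lit 377) (nat_lit 370) (nat_lit 273)) (XT.lf (nat_lit 0) (nat_lit 289612336) (nat_lit 228) (nat_lit 9479241333) (nat_lit 76) (nat_lit 484671381214) (nat_lit 37) (nat_lit 5) (nat_lit 40) (nat_lit 5) (nat_lit 38) (nat_lit 5) (nat_lit 378) (nat_lit 370) (nat_lit 272))) (XT.nd (nat_lit 78) (nat_lit 152) (nat_lit 0) (XT.lf (nat_lit 0) (nat_lit 96229317403) (nat_lit 228) (nat_lit 232091159533) (nat_lit 76) (nat_lit 207627854312) (nat_lit 35) (nat_lit 5) (nat_lit 38) (nat_lit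 5) (nat_lit 36) (nat_lit 5) (nat_lit 379) (nat_lit 370) (nat_lit 271)) (XT.lf (nat_lit 0) (nat_lit 89093956934) (nat_lit 152) (nat_lit 122139433465) (nat_lit 228) (nat_lit 371748239854) (nat_lit 33) (nat_lit 5) (nat_lit 35) (nat_lit 5) (nat_lit 36) (nat_lit 5) (nat_lit 380) (nat_lit 370) (nat_lit 270))))) (XT.nd (nat_lit 234) (nat_lit 380) (nat_lit 0) (XT.nd (nat_lit 78) (nat_lit 152) (nat_lit 0) (XT.lf (nat_lit 0) (nat_lit 360958379776) (nat_lit 228) (nat_lit 156047819239) (nat_lit 76) (nat_lit 117443179287) (nat_lit 33) (nat_lit 5) (nat_lit 36) (nat_lit 5) (nat_lit 34) (nat_lit 4) (nat_lit 381) (nat_lit 370) (nat_lit 269)) (XT.nd (nat_lit 78) (nat_lit 76) (nat_lit 0) (XT.lf (nat_lit 0) (nat_lit 248801825305) (nat_lit 76) (nat_lit 300458756598) (nat_lit 152) (nat_lit 141958937012) (nat_lit 32) (nat_lit 5) (nat_lit 33) (nat_lit 5) (nat_lit 34) (nat_lit 4) (nat_lit 382) (nat_lit 370) (nat_lit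 268)) (XT.lf (nat_lit 0) (nat_lit 17020147080) (nat_lit 152) (nat_lit 24138790070) (nat_lit 76) (nat_lit 714006647553) (nat_lit 31) (nat_lit 5) (nat_lit 33) (nat_lit 5) (nat_lit 32) (nat_lit 5) (nat_lit 383) (nat_lit 370) (nat_lit 267)))) (XT.nd (nat_lit 156) (nat_lit 152) (nat_lit 0) (XT.nd (nat_lit 78) (nat_lit 76) (nat_lit 0) (XT.lf (nat_lit 0) (nat_lit 217711743518) (nat_lit 228) (nat_lit 342448944606) (nat_lit 76) (nat_lit 262668948696) (nat_lit 29) (nat_lit 5) (nat_lit 32) (nat_lit 5) (nat_lit 30) (nat_lit 4) (nat_lit 384) (nat_lit 370) (nat_lit 266)) (XT.lf (nat_lit 0) (nat_lit 176533021105) (nat_lit 76) (nat_lit 282565707151) (nat_lit 152) (nat_lit 439955821180) (nat_lit 28) (nat_lit 5) (nat_lit 29) (nat_lit 5) (nat_lit 30) (nat_lit 4) (nat_lit 385) (nat_lit 370) (nat_lit 265))) (XT.nd (nat_lit 78) (nat_lit 152) (nat_lit 0) (XT.lf (nat_lit 0) (nat_lit 756965241113) (nat_lit 152)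 (nat_lit 174550072402) (nat_lit 0) (nat_lit 52157163369) (nat_lit 28) (nat_lit 5) (nat_lit 30) (nat_lit 4) (nat_lit 28) (nat_lit 4) (nat_lit 386) (nat_lit 370) (nat_lit 264)) (XT.lf (nat_lit 0) (nat_lit 52030611527) (nat_lit 152) (nat_lit 592942296804) (nat_lit 76) (nat_lit 430622372191) (nat_lit 26) (nat_lit 5) (nat_lit 28) (nat_lit 5) (nat_lit 27) (nat_lit 4) (nat_lit 387) (nat_lit 370) (nat_lit 263))))))))
noncomputable def xc93 : XT := (XT.nd (nat_lit 2106) (nat_lit 304) (nat_lit 0) (XT.nd (nat_lit 1014) (nat_lit 760) (nat_lit 0) (XT.nd (nat_lit 468) (nat_lit 456) (nat_lit 0) (XT.nd (nat_lit 234) (nat_lit 228) (nat_lit 0) (XT.nd (nat_lit 78) (nat_lit 76) (nat_lit 0) (XT.lf (nat_lit 0) (nat_lit 73422078242) (nat_lit 76) (nat_lit 288545465600) (nat_lit 152) (nat_lit 815829786874) (nat_lit 25) (nat_lit 5) (nat_lit 26) (nat_lit 5) (nat_lit 27) (nat_lit 4) (nat_lit 388) (nat_lit 370) (nat_lit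 262)) (XT.nd (nat_lit 78) (nat_lit 76) (nat_lit 0) (XT.lf (nat_lit 0) (nat_lit 755890313791) (nat_lit 152) (nat_lit 390801432808) (nat_lit 0) (nat_lit 143013647173) (nat_lit 25) (nat_lit 5) (nat_lit 27) (nat_lit 4) (nat_lit 25) (nat_lit 4) (nat_lit 389) (nat_lit 370) (nat_lit 261)) (XT.lf (nat_lit 0) (nat_lit 456729345456) (nat_lit 76) (nat_lit 784824572032) (nat_lit 76) (nat_lit 171947886062) (nat_lit 24) (nat_lit 4) (nat_lit 25) (nat_lit 5) (nat_lit 25) (nat_lit 4) (nat_lit 390) (nat_lit 370) (nat_lit 260)))) (XT.nd (nat_lit 78) (nat_lit 152) (nat_lit 0) (XT.lf (nat_lit 0) (nat_lit 243860069723) (nat_lit 152) (nat_lit 88577552890) (nat_lit 76) (nat_lit 1218703135674) (nat_lit 23) (nat_lit 5) (nat_lit 25) (nat_lit 5) (nat_lit 24) (nat_lit 4) (nat_lit 391) (nat_lit 370) (nat_lit 259)) (XT.nd (nat_lit 78) (nat_lit 76) (nat_lit 0) (XT.lf (nat_lit 0) (nat_lit 755537731655) (nat_lit 152) (nat_lit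 722392764599) (nat_lit 0) (nat_lit 222601455630) (nat_lit 22) (nat_lit 5) (nat_lit 24) (nat_lit 4) (nat_lit 22) (nat_lit 4) (nat_lit 392) (nat_lit 370) (nat_lit 258)) (XT.lf (nat_lit 0) (nat_lit 359099689211) (nat_lit 76) (nat_lit 1020417918813) (nat_lit 76) (nat_lit 487481631724) (nat_lit 21) (nat_lit 4) (nat_lit 22) (nat_lit 5) (nat_lit 22) (nat_lit 4) (nat_lit 393) (nat_lit 370) (nat_lit 257))))) (XT.nd (nat_lit 234) (nat_lit 228) (nat_lit 0) (XT.nd (nat_lit 78) (nat_lit 152) (nat_lit 0) (XT.lf (nat_lit 0) (nat_lit 74775834591) (nat_lit 152) (nat_lit 372168252337) (nat_lit 76) (nat_lit 1605318486291) (nat_lit 20) (nat_lit 5) (nat_lit 22) (nat_lit 5) (nat_lit 21) (nat_lit 4) (nat_lit 394) (nat_lit 370) (nat_lit 256)) (XT.nd (nat_lit 78) (nat_lit 76) (nat_lit 0) (XT.lf (nat_lit 0) (nat_lit 724736849457) (nat_lit 152) (nat_lit 1267791505774) (nat_lit 0) (nat_lit 261313975478) (nat_lit 19)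 (nat_lit 5) (nat_lit 21) (nat_lit 4) (nat_lit 19) (nat_lit 4) (nat_lit 395) (nat_lit 370) (nat_lit 255)) (XT.lf (nat_lit 0) (nat_lit 93173988875) (nat_lit 76) (nat_lit 1424539836001) (nat_lit 76) (nat_lit 961116955697) (nat_lit 18) (nat_lit 4) (nat_lit 19) (nat_lit 5) (nat_lit 19) (nat_lit 4) (nat_lit 396) (nat_lit 370) (nat_lit 254)))) (XT.nd (nat_lit 156) (nat_lit 76) (nat_lit 0) (XT.nd (nat_lit 78) (nat_lit 152) (nat_lit 0) (XT.lf (nat_lit 0) (nat_lit 1800766741685) (nat_lit 76) (nat_lit 695141503617) (nat_lit 76) (nat_lit 231718617812) (nat_lit 18) (nat_lit 4) (nat_lit 19) (nat_lit 5) (nat_lit 19) (nat_lit 4) (nat_lit 397) (nat_lit 370) (nat_lit 253)) (XT.lf (nat_lit 0) (nat_lit 594741360904) (nat_lit 152) (nat_lit 2217210441833) (nat_lit 0) (nat_lit 191764934306) (nat_lit 16) (nat_lit 5) (nat_lit 18) (nat_lit 4) (nat_lit 16) (nat_lit 4) (nat_lit 398) (nat_lit 370) (nat_lit 252))) (XT.nd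 (nat_lit 78) (nat_lit 76) (nat_lit 0) (XT.lf (nat_lit 0) (nat_lit 1605305346768) (nat_lit 152) (nat_lit 499351908290) (nat_lit 0) (nat_lit 1202328916552) (nat_lit 16) (nat_lit 5) (nat_lit 18) (nat_lit 4) (nat_lit 16) (nat_lit 4) (nat_lit 399) (nat_lit 370) (nat_lit 251)) (XT.lf (nat_lit 0) (nat_lit 1620448941212) (nat_lit 76) (nat_lit 1214104307863) (nat_lit 76) (nat_lit 811127874502) (nat_lit 15) (nat_lit 4) (nat_lit 16) (nat_lit 5) (nat_lit 16) (nat_lit 4) (nat_lit 400) (nat_lit 370) (nat_lit 250)))))) (XT.nd (nat_lit 546) (nat_lit 304) (nat_lit 0) (XT.nd (nat_lit 234) (nat_lit 228) (nat_lit 0) (XT.nd (nat_lit 78) (nat_lit 76) (nat_lit 0) (XT.lf (nat_lit 0) (nat_lit 80147373505) (nat_lit 76) (nat_lit 144561375146) (nat_lit 152) (nat_lit 3804548911965) (nat_lit 13) (nat_lit 5) (nat_lit 14) (nat_lit 5) (nat_lit 15) (nat_lit 4) (nat_lit 401) (nat_lit 370) (nat_lit 249)) (XT.nd (nat_lit 78)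 (nat_lit 76) (nat_lit 0) (XT.lf (nat_lit 0) (nat_lit 1488727014088) (nat_lit 152) (nat_lit 1814159644860) (nat_lit 0) (nat_lit 1138312719763) (nat_lit 13) (nat_lit 5) (nat_lit 15) (nat_lit 4) (nat_lit 13) (nat_lit 4) (nat_lit 402) (nat_lit 370) (nat_lit 248)) (XT.lf (nat_lit 0) (nat_lit 696123408283) (nat_lit 76) (nat_lit 2281933457683) (nat_lit 76) (nat_lit 1931519161560) (nat_lit 12) (nat_lit 4) (nat_lit 13) (nat_lit 5) (nat_lit 13) (nat_lit 4) (nat_lit 403) (nat_lit 370) (nat_lit 247)))) (XT.nd (nat_lit 156) (nat_lit 76) (nat_lit 0) (XT.nd (nat_lit 78) (nat_lit 152) (nat_lit 0) (XT.lf (nat_lit 0) (nat_lit 3786835696291) (nat_lit 76) (nat_lit 998781558122) (nat_lit 76) (nat_lit 648367260435) (nat_lit 12) (nat_lit 4) (nat_lit 13) (nat_lit 5) (nat_lit 13) (nat_lit 4) (nat_lit 404) (nat_lit 370) (nat_lit 246)) (XT.lf (nat_lit 0) (nat_lit 835454318351) (nat_lit 152) (nat_lit 4653438719442)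 (nat_lit 0) (nat_lit 530746232224) (nat_lit 10) (nat_lit 5) (nat_lit 12) (nat_lit 4) (nat_lit 10) (nat_lit 4) (nat_lit 405) (nat_lit 370) (nat_lit 245))) (XT.nd (nat_lit 78) (nat_lit 76) (nat_lit 0) (XT.lf (nat_lit 0) (nat_lit 2613230697329) (nat_lit 152) (nat_lit 1746093433094) (nat_lit 0) (nat_lit 2308522610174) (nat_lit 10) (nat_lit 5) (nat_lit 12) (nat_lit 4) (nat_lit 10) (nat_lit 4) (nat_lit 406) (nat_lit 370) (nat_lit 244)) (XT.lf (nat_lit 0) (nat_lit 1753458636664) (nat_lit 76) (nat_lit 2976821868662) (nat_lit 76) (nat_lit 2672113780612) (nat_lit 9) (nat_lit 4) (nat_lit 10) (nat_lit 5) (nat_lit 10) (nat_lit 4) (nat_lit 407) (nat_lit 370) (nat_lit 243))))) (XT.nd (nat_lit 234) (nat_lit 152) (nat_lit 0) (XT.nd (nat_lit 78) (nat_lit 152) (nat_lit 0) (XT.lf (nat_lit 0) (nat_lit 5974180586692) (nat_lit 76) (nat_lit 1281980253437) (nat_lit 76) (nat_lit 977272164610) (nat_lit 9) (nat_lit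 4) (nat_lit 10) (nat_lit 5) (nat_lit 10) (nat_lit 4) (nat_lit 408) (nat_lit 370) (nat_lit 242)) (XT.nd (nat_lit 78) (nat_lit 0) (nat_lit 0) (XT.lf (nat_lit 0) (nat_lit 990944447291) (nat_lit 152) (nat_lit 7450316485833) (nat_lit 0) (nat_lit 725980891202) (nat_lit 7) (nat_lit 5) (nat_lit 9) (nat_lit 4) (nat_lit 7) (nat_lit 4) (nat_lit 409) (nat_lit 370) (nat_lit 241)) (XT.lf (nat_lit 0) (nat_lit 3339107131228) (nat_lit 152) (nat_lit 3793175600254) (nat_lit 0) (nat_lit 3074143574628) (nat_lit 7) (nat_lit 5) (nat_lit 9) (nat_lit 4) (nat_lit 7) (nat_lit 4) (nat_lit 410) (nat_lit 370) (nat_lit 240)))) (XT.nd (nat_lit 156) (nat_lit 76) (nat_lit 0) (XT.nd (nat_lit 78) (nat_lit 0) (nat_lit 0) (XT.lf (nat_lit 0) (nat_lit 452852458303) (nat_lit 76) (nat_lit 5605393405964) (nat_lit 76) (nat_lit 5340429848919) (nat_lit 6) (nat_lit 4) (nat_lit 7) (nat_lit 5) (nat_lit 7) (nat_lit 4) (nat_lit 411) (nat_lit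 370) (nat_lit 239)) (XT.lf (nat_lit 0) (nat_lit 5762085921554) (nat_lit 76) (nat_lit 3621449111654) (nat_lit 76) (nat_lit 3356485554222) (nat_lit 6) (nat_lit 4) (nat_lit 7) (nat_lit 5) (nat_lit 7) (nat_lit 4) (nat_lit 412) (nat_lit 370) (nat_lit 238))) (XT.nd (nat_lit 78) (nat_lit 76) (nat_lit 0) (XT.lf (nat_lit 0) (nat_lit 11867704389999) (nat_lit 76) (nat_lit 1339913180792) (nat_lit 76) (nat_lit 1074949623025) (nat_lit 6) (nat_lit 4) (nat_lit 7) (nat_lit 5) (nat_lit 7) (nat_lit 4) (nat_lit 413) (nat_lit 370) (nat_lit 237)) (XT.lf (nat_lit 0) (nat_lit 1598980978730) (nat_lit 76) (nat_lit 13051109350141) (nat_lit 0) (nat_lit 1368577884765) (nat_lit 5) (nat_lit 5) (nat_lit 6) (nat_lit 4) (nat_lit 5) (nat_lit 4) (nat_lit 414) (nat_lit 370) (nat_lit 236))))))) (XT.nd (nat_lit 1014) (nat_lit 76) (nat_lit 0) (XT.nd (nat_lit 468) (nat_lit 152) (nat_lit 0) (XT.nd (nat_lit 234) (nat_lit 0) (nat_lit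 0) (XT.nd (nat_lit 78) (nat_lit 76) (nat_lit 0) (XT.lf (nat_lit 0) (nat_lit 4759994674924) (nat_lit 76) (nat_lit 8688512738622) (nat_lit 0) (nat_lit 4529591580738) (nat_lit 5) (nat_lit 5) (nat_lit 6) (nat_lit 4) (nat_lit 5) (nat_lit 4) (nat_lit 415) (nat_lit 370) (nat_lit 235)) (XT.nd (nat_lit 78) (nat_lit 76) (nat_lit 0) (XT.lf (nat_lit 0) (nat_lit 8395160420247) (nat_lit 76) (nat_lit 3671526646708) (nat_lit 0) (nat_lit 8164757325869) (nat_lit 5) (nat_lit 5) (nat_lit 6) (nat_lit 4) (nat_lit 5) (nat_lit 4) (nat_lit 416) (nat_lit 370) (nat_lit 234)) (XT.lf (nat_lit 0) (nat_lit 2303039885530) (nat_lit 76) (nat_lit 10367925107645) (nat_lit 76) (nat_lit 10137522013099) (nat_lit 4) (nat_lit 4) (nat_lit 5) (nat_lit 5) (nat_lit 5) (nat_lit 4) (nat_lit 417) (nat_lit 370) (nat_lit 233)))) (XT.nd (nat_lit 78) (nat_lit 0) (nat_lit 0) (XT.lf (nat_lit 0) (nat_lit 9586420917015) (nat_lit 76) (nat_lit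 8193640041708) (nat_lit 76) (nat_lit 7963236947017) (nat_lit 4) (nat_lit 4) (nat_lit 5) (nat_lit 5) (nat_lit 5) (nat_lit 4) (nat_lit 418) (nat_lit 370) (nat_lit 232)) (XT.nd (nat_lit 78) (nat_lit 0) (nat_lit 0) (XT.lf (nat_lit 0) (nat_lit 17962309095043) (nat_lit 76) (nat_lit 5693212220237) (nat_lit 76) (nat_lit 5462809125420) (nat_lit 4) (nat_lit 4) (nat_lit 5) (nat_lit 5) (nat_lit 5) (nat_lit 4) (nat_lit 419) (nat_lit 370) (nat_lit 231)) (XT.lf (nat_lit 0) (nat_lit 27594580492662) (nat_lit 76) (nat_lit 2817720229333) (nat_lit 76) (nat_lit 2587317134406) (nat_lit 4) (nat_lit 4) (nat_lit 5) (nat_lit 5) (nat_lit 5) (nat_lit 4) (nat_lit 420) (nat_lit 370) (nat_lit 230))))) (XT.nd (nat_lit 234) (nat_lit 0) (nat_lit 0) (XT.nd (nat_lit 78) (nat_lit 0) (nat_lit 0) (XT.lf (nat_lit 0) (nat_lit 733248415719) (nat_lit 152) (nat_lit 36180812458759) (nat_lit 0) (nat_lit 532897898308) (nat_lit 2) (nat_lit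 5) (nat_lit 4) (nat_lit 4) (nat_lit 2) (nat_lit 4) (nat_lit 421) (nat_lit 370) (nat_lit 229)) (XT.nd (nat_lit 78) (nat_lit 0) (nat_lit 0) (XT.lf (nat_lit 0) (nat_lit 4717174098131) (nat_lit 152) (nat_lit 33244397217361) (nat_lit 0) (nat_lit 4516823580648) (nat_lit 2) (nat_lit 5) (nat_lit 4) (nat_lit 4) (nat_lit 2) (nat_lit 4) (nat_lit 422) (nat_lit 370) (nat_lit 228)) (XT.lf (nat_lit 0) (nat_lit 9298688630273) (nat_lit 152) (nat_lit 29867519695392) (nat_lit 0) (nat_lit 9098338112727) (nat_lit 2) (nat_lit 5) (nat_lit 4) (nat_lit 4) (nat_lit 2) (nat_lit 4) (nat_lit 423) (nat_lit 370) (nat_lit 227)))) (XT.nd (nat_lit 156) (nat_lit 0) (nat_lit 0) (XT.nd (nat_lit 78) (nat_lit 0) (nat_lit 0) (XT.lf (nat_lit 0) (nat_lit 14567430339948) (nat_lit 152) (nat_lit 25984110550029) (nat_lit 0) (nat_lit 14367079822347) (nat_lit 2) (nat_lit 5) (nat_lit 4) (nat_lit 4) (nat_lit 2) (nat_lit 4) (nat_lit 424)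 (nat_lit 370) (nat_lit 226)) (XT.lf (nat_lit 0) (nat_lit 20626483304084) (nat_lit 152) (nat_lit 21518190037126) (nat_lit 0) (nat_lit 20426132786436) (nat_lit 2) (nat_lit 5) (nat_lit 4) (nat_lit 4) (nat_lit 2) (nat_lit 4) (nat_lit 425) (nat_lit 370) (nat_lit 225))) (XT.nd (nat_lit 78) (nat_lit 0) (nat_lit 0) (XT.lf (nat_lit 0) (nat_lit 27594394211110) (nat_lit 152) (nat_lit 16382381450994) (nat_lit 0) (nat_lit 27394043693420) (nat_lit 2) (nat_lit 5) (nat_lit 4) (nat_lit 4) (nat_lit 2) (nat_lit 4) (nat_lit 426) (nat_lit 370) (nat_lit 224)) (XT.lf (nat_lit 0) (nat_lit 35607491752685) (nat_lit 152) (nat_lit 10476201580166) (nat_lit 0) (nat_lit 35407141234960) (nat_lit 2) (nat_lit 5) (nat_lit 4) (nat_lit 4) (nat_lit 2) (nat_lit 4) (nat_lit 427) (nat_lit 370) (nat_lit 223)))))) (XT.nd (nat_lit 48750) (nat_lit 0) (nat_lit 2812) (XT.nd (nat_lit 2340) (nat_lit 0) (nat_lit 0) (XT.nd (nat_lit 78) (nat_lit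 76) (nat_lit 0) (XT.lf (nat_lit 0) (nat_lit 44822553924188) (nat_lit 152) (nat_lit 3684094731517) (nat_lit 0) (nat_lit 44622203406431) (nat_lit 2) (nat_lit 5) (nat_lit 4) (nat_lit 4) (nat_lit 2) (nat_lit 4) (nat_lit 428) (nat_lit 370) (nat_lit 222)) (XT.nd (nat_lit 2184) (nat_lit 0) (nat_lit 0) (XT.lf (nat_lit 0) (nat_lit 4530131801322) (nat_lit 76) (nat_lit 51077326716319) (nat_lit 76) (nat_lit 50876976198535) (nat_lit 1) (nat_lit 4) (nat_lit 2) (nat_lit 5) (nat_lit 2) (nat_lit 4) (nat_lit 429) (nat_lit 370) (nat_lit 221)) (XT.lf (nat_lit 0) (nat_lit 3229908028742068) (nat_lit 76) (nat_lit 945646617589716) (nat_lit 76) (nat_lit 945446267071749) (nat_lit 1) (nat_lit 4) (nat_lit 2) (nat_lit 5) (nat_lit 2) (nat_lit 4) (nat_lit 457) (nat_lit 370) (nat_lit 193)))) (XT.nd (nat_lit 156) (nat_lit 0) (nat_lit 0) (XT.nd (nat_lit 78) (nat_lit 0) (nat_lit 0) (XT.lf (nat_lit 0) (nat_lit 3723575115788586)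 (nat_lit 76) (nat_lit 1082566826668755) (nat_lit 76) (nat_lit 1082366476150801) (nat_lit 1) (nat_lit 4) (nat_lit 2) (nat_lit 5) (nat_lit 2) (nat_lit 4) (nat_lit 458) (nat_lit 370) (nat_lit 192)) (XT.lf (nat_lit 0) (nat_lit 4291292265892038) (nat_lit 76) (nat_lit 1240025067109687) (nat_lit 76) (nat_lit 1239824716591718) (nat_lit 1) (nat_lit 4) (nat_lit 2) (nat_lit 5) (nat_lit 2) (nat_lit 4) (nat_lit 459) (nat_lit 370) (nat_lit 191))) (XT.nd (nat_lit 46176) (nat_lit 0) (nat_lit 3116) (XT.lf (nat_lit 0) (nat_lit 4944166988510957) (nat_lit 76) (nat_lit 1421102043616767) (nat_lit 76) (nat_lit 1420901693098792) (nat_lit 1) (nat_lit 4) (nat_lit 2) (nat_lit 5) (nat_lit 2) (nat_lit 4) (nat_lit 460) (nat_lit 370) (nat_lit 190)) (XT.lf (nat_lit 0) (nat_lit 45899352474) (nat_lit 380) (nat_lit 54163548625) (nat_lit 380) (nat_lit 54163548625) (nat_lit 42) (nat_lit 3) (nat_lit 47) (nat_lit 3) (nat_lit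 47) (nat_lit 5) (nat_lit 371) (nat_lit 371) (nat_lit 278))))) (XT.nd (nat_lit 234) (nat_lit 304) (nat_lit 0) (XT.nd (nat_lit 78) (nat_lit 0) (nat_lit 76) (XT.lf (nat_lit 76) (nat_lit 49672816025) (nat_lit 0) (nat_lit 51068274784) (nat_lit 380) (nat_lit 230537153498) (nat_lit 43) (nat_lit 5) (nat_lit 42) (nat_lit 3) (nat_lit 47) (nat_lit 5) (nat_lit 372) (nat_lit 371) (nat_lit 277)) (XT.nd (nat_lit 78) (nat_lit 0) (nat_lit 0) (XT.lf (nat_lit 0) (nat_lit 121940267235) (nat_lit 304) (nat_lit 118383888681) (nat_lit 380) (nat_lit 115565920104) (nat_lit 43) (nat_lit 5) (nat_lit 47) (nat_lit 5) (nat_lit 48) (nat_lit 5) (nat_lit 373) (nat_lit 371) (nat_lit 276)) (XT.lf (nat_lit 76) (nat_lit 73425857694) (nat_lit 0) (nat_lit 78365593538) (nat_lit 380) (nat_lit 231581411617) (nat_lit 44) (nat_lit 5) (nat_lit 43) (nat_lit 5) (nat_lit 48) (nat_lit 5) (nat_lit 374) (nat_lit 371) (nat_lit 275)))) (XT.nd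 (nat_lit 156) (nat_lit 152) (nat_lit 0) (XT.nd (nat_lit 78) (nat_lit 304) (nat_lit 0) (XT.lf (nat_lit 0) (nat_lit 197070511223) (nat_lit 304) (nat_lit 111500158135) (nat_lit 76) (nat_lit 104764868602) (nat_lit 44) (nat_lit 5) (nat_lit 48) (nat_lit 5) (nat_lit 45) (nat_lit 5) (nat_lit 375) (nat_lit 371) (nat_lit 274)) (XT.lf (nat_lit 0) (nat_lit 124023360220) (nat_lit 304) (nat_lit 133985230204) (nat_lit 380) (nat_lit 188453949901) (nat_lit 40) (nat_lit 5) (nat_lit 44) (nat_lit 5) (nat_lit 45) (nat_lit 5) (nat_lit 376) (nat_lit 371) (nat_lit 273))) (XT.nd (nat_lit 78) (nat_lit 152) (nat_lit 0) (XT.lf (nat_lit 0) (nat_lit 336958821523) (nat_lit 380) (nat_lit 79321005004) (nat_lit 76) (nat_lit 66948050531) (nat_lit 40) (nat_lit 5) (nat_lit 45) (nat_lit 5) (nat_lit 41) (nat_lit 5) (nat_lit 377) (nat_lit 371) (nat_lit 272)) (XT.lf (nat_lit 0) (nat_lit 212832384124) (nat_lit 152) (nat_lit 230112325896)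 (nat_lit 228) (nat_lit 80284335883) (nat_lit 38) (nat_lit 5) (nat_lit 40) (nat_lit 5) (nat_lit 41) (nat_lit 5) (nat_lit 378) (nat_lit 371) (nat_lit 271))))))))
noncomputable def xc94 : XT := (XT.nd (nat_lit 2028) (nat_lit 836) (nat_lit 0) (XT.nd (nat_lit 1014) (nat_lit 912) (nat_lit 0) (XT.nd (nat_lit 468) (nat_lit 532) (nat_lit 0) (XT.nd (nat_lit 234) (nat_lit 152) (nat_lit 0) (XT.nd (nat_lit 78) (nat_lit 304) (nat_lit 0) (XT.lf (nat_lit 0) (nat_lit 333690277) (nat_lit 228) (nat_lit 10900306985) (nat_lit 76) (nat_lit 557372177332) (nat_lit 37) (nat_lit 5) (nat_lit 40) (nat_lit 5) (nat_lit 38) (nat_lit 5) (nat_lit 379) (nat_lit 371) (nat_lit 270)) (XT.nd (nat_lit 78) (nat_lit 152) (nat_lit 0) (XT.lf (nat_lit 0) (nat_lit 110664308755) (nat_lit 228) (nat_lit 266903970471) (nat_lit 76) (nat_lit 238772212554) (nat_lit 35) (nat_lit 5) (nat_lit 38) (nat_lit 5) (nat_lit 36) (nat_lit 5) (nat_lit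 380) (nat_lit 371) (nat_lit 269)) (XT.lf (nat_lit 0) (nat_lit 102458874240) (nat_lit 152) (nat_lit 140460075127) (nat_lit 228) (nat_lit 427509842782) (nat_lit 33) (nat_lit 5) (nat_lit 35) (nat_lit 5) (nat_lit 36) (nat_lit 5) (nat_lit 381) (nat_lit 371) (nat_lit 268)))) (XT.nd (nat_lit 78) (nat_lit 152) (nat_lit 0) (XT.lf (nat_lit 0) (nat_lit 415102625201) (nat_lit 228) (nat_lit 179454213787) (nat_lit 76) (nat_lit 135059872720) (nat_lit 33) (nat_lit 5) (nat_lit 36) (nat_lit 5) (nat_lit 34) (nat_lit 4) (nat_lit 382) (nat_lit 371) (nat_lit 267)) (XT.nd (nat_lit 78) (nat_lit 76) (nat_lit 0) (XT.lf (nat_lit 0) (nat_lit 286122842060) (nat_lit 76) (nat_lit 345527282639) (nat_lit 152) (nat_lit 163252253665) (nat_lit 32) (nat_lit 5) (nat_lit 33) (nat_lit 5) (nat_lit 34) (nat_lit 4) (nat_lit 383) (nat_lit 371) (nat_lit 266)) (XT.lf (nat_lit 0) (nat_lit 19573584148) (nat_lit 152) (nat_lit 27758921925)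 (nat_lit 76) (nat_lit 821107854038) (nat_lit 31) (nat_lit 5) (nat_lit 33) (nat_lit 5) (nat_lit 32) (nat_lit 5) (nat_lit 384) (nat_lit 371) (nat_lit 265))))) (XT.nd (nat_lit 234) (nat_lit 304) (nat_lit 0) (XT.nd (nat_lit 78) (nat_lit 76) (nat_lit 0) (XT.lf (nat_lit 0) (nat_lit 250368904136) (nat_lit 228) (nat_lit 393815583684) (nat_lit 76) (nat_lit 302069534620) (nat_lit 29) (nat_lit 5) (nat_lit 32) (nat_lit 5) (nat_lit 30) (nat_lit 4) (nat_lit 385) (nat_lit 371) (nat_lit 264)) (XT.nd (nat_lit 78) (nat_lit 0) (nat_lit 0) (XT.lf (nat_lit 0) (nat_lit 203013644947) (nat_lit 76) (nat_lit 324950267352) (nat_lit 152) (nat_lit 505948763295) (nat_lit 28) (nat_lit 5) (nat_lit 29) (nat_lit 5) (nat_lit 30) (nat_lit 4) (nat_lit 386) (nat_lit 371) (nat_lit 263)) (XT.lf (nat_lit 0) (nat_lit 870510363852) (nat_lit 152) (nat_lit 200731961801) (nat_lit 0) (nat_lit 59980972249) (nat_lit 28) (nat_lit 5) (nat_lit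 30) (nat_lit 4) (nat_lit 28) (nat_lit 4) (nat_lit 387) (nat_lit 371) (nat_lit 262)))) (XT.nd (nat_lit 156) (nat_lit 76) (nat_lit 0) (XT.nd (nat_lit 78) (nat_lit 76) (nat_lit 0) (XT.lf (nat_lit 0) (nat_lit 59835535621) (nat_lit 152) (nat_lit 681883015607) (nat_lit 76) (nat_lit 495215971495) (nat_lit 26) (nat_lit 5) (nat_lit 28) (nat_lit 5) (nat_lit 27) (nat_lit 4) (nat_lit 388) (nat_lit 371) (nat_lit 261)) (XT.lf (nat_lit 0) (nat_lit 84435987255) (nat_lit 76) (nat_lit 331827001908) (nat_lit 152) (nat_lit 938203894078) (nat_lit 25) (nat_lit 5) (nat_lit 26) (nat_lit 5) (nat_lit 27) (nat_lit 4) (nat_lit 389) (nat_lit 371) (nat_lit 260))) (XT.nd (nat_lit 78) (nat_lit 76) (nat_lit 0) (XT.lf (nat_lit 0) (nat_lit 869274143891) (nat_lit 152) (nat_lit 449421097626) (nat_lit 0) (nat_lit 164465918849) (nat_lit 25) (nat_lit 5) (nat_lit 27) (nat_lit 4) (nat_lit 25) (nat_lit 4) (nat_lit 390) (nat_lit 371)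 (nat_lit 259)) (XT.lf (nat_lit 0) (nat_lit 525239272373) (nat_lit 76) (nat_lit 902548000596) (nat_lit 76) (nat_lit 197739760921) (nat_lit 24) (nat_lit 4) (nat_lit 25) (nat_lit 5) (nat_lit 25) (nat_lit 4) (nat_lit 391) (nat_lit 371) (nat_lit 258)))))) (XT.nd (nat_lit 468) (nat_lit 456) (nat_lit 0) (XT.nd (nat_lit 234) (nat_lit 228) (nat_lit 0) (XT.nd (nat_lit 78) (nat_lit 152) (nat_lit 0) (XT.lf (nat_lit 0) (nat_lit 280439324204) (nat_lit 152) (nat_lit 101863705357) (nat_lit 76) (nat_lit 1401508805854) (nat_lit 23) (nat_lit 5) (nat_lit 25) (nat_lit 5) (nat_lit 24) (nat_lit 4) (nat_lit 392) (nat_lit 371) (nat_lit 257)) (XT.nd (nat_lit 78) (nat_lit 76) (nat_lit 0) (XT.lf (nat_lit 0) (nat_lit 868868632005) (nat_lit 152) (nat_lit 830751195392) (nat_lit 0) (nat_lit 255991881169) (nat_lit 22) (nat_lit 5) (nat_lit 24) (nat_lit 4) (nat_lit 22) (nat_lit 4) (nat_lit 393) (nat_lit 371) (nat_lit 256))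 (XT.lf (nat_lit 0) (nat_lit 412965104494) (nat_lit 76) (nat_lit 1173480373079) (nat_lit 76) (nat_lit 560603613876) (nat_lit 21) (nat_lit 4) (nat_lit 22) (nat_lit 5) (nat_lit 22) (nat_lit 4) (nat_lit 394) (nat_lit 371) (nat_lit 255)))) (XT.nd (nat_lit 78) (nat_lit 152) (nat_lit 0) (XT.lf (nat_lit 0) (nat_lit 85992417804) (nat_lit 152) (nat_lit 427993068198) (nat_lit 76) (nat_lit 1846116441991) (nat_lit 20) (nat_lit 5) (nat_lit 22) (nat_lit 5) (nat_lit 21) (nat_lit 4) (nat_lit 395) (nat_lit 371) (nat_lit 254)) (XT.nd (nat_lit 78) (nat_lit 76) (nat_lit 0) (XT.lf (nat_lit 0) (nat_lit 833447582943) (nat_lit 152) (nat_lit 1457959807689) (nat_lit 0) (nat_lit 300511258767) (nat_lit 19) (nat_lit 5) (nat_lit 21) (nat_lit 4) (nat_lit 19) (nat_lit 4) (nat_lit 396) (nat_lit 371) (nat_lit 253)) (XT.lf (nat_lit 0) (nat_lit 107150491887) (nat_lit 76) (nat_lit 1638220602668) (nat_lit 76) (nat_lit 1105284273708)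 (nat_lit 18) (nat_lit 4) (nat_lit 19) (nat_lit 5) (nat_lit 19) (nat_lit 4) (nat_lit 397) (nat_lit 371) (nat_lit 252))))) (XT.nd (nat_lit 234) (nat_lit 304) (nat_lit 0) (XT.nd (nat_lit 78) (nat_lit 152) (nat_lit 0) (XT.lf (nat_lit 0) (nat_lit 2070882104834) (nat_lit 76) (nat_lit 799412547652) (nat_lit 76) (nat_lit 266476214533) (nat_lit 18) (nat_lit 4) (nat_lit 19) (nat_lit 5) (nat_lit 19) (nat_lit 4) (nat_lit 398) (nat_lit 371) (nat_lit 251)) (XT.nd (nat_lit 78) (nat_lit 0) (nat_lit 0) (XT.lf (nat_lit 0) (nat_lit 683952742428) (nat_lit 152) (nat_lit 2549791637642) (nat_lit 0) (nat_lit 220529840918) (nat_lit 16) (nat_lit 5) (nat_lit 18) (nat_lit 4) (nat_lit 16) (nat_lit 4) (nat_lit 399) (nat_lit 371) (nat_lit 250)) (XT.lf (nat_lit 0) (nat_lit 1846101303033) (nat_lit 152) (nat_lit 574254372390) (nat_lit 0) (nat_lit 1382678398789) (nat_lit 16) (nat_lit 5) (nat_lit 18) (nat_lit 4) (nat_lit 16)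 (nat_lit 4) (nat_lit 400) (nat_lit 371) (nat_lit 249)))) (XT.nd (nat_lit 156) (nat_lit 76) (nat_lit 0) (XT.nd (nat_lit 78) (nat_lit 152) (nat_lit 0) (XT.lf (nat_lit 0) (nat_lit 1863516589896) (nat_lit 76) (nat_lit 1396219793405) (nat_lit 76) (nat_lit 932796886782) (nat_lit 15) (nat_lit 4) (nat_lit 16) (nat_lit 5) (nat_lit 16) (nat_lit 4) (nat_lit 401) (nat_lit 371) (nat_lit 248)) (XT.lf (nat_lit 0) (nat_lit 92169787409) (nat_lit 76) (nat_lit 166245420078) (nat_lit 152) (nat_lit 4375231080237) (nat_lit 13) (nat_lit 5) (nat_lit 14) (nat_lit 5) (nat_lit 15) (nat_lit 4) (nat_lit 402) (nat_lit 371) (nat_lit 247))) (XT.nd (nat_lit 78) (nat_lit 76) (nat_lit 0) (XT.lf (nat_lit 0) (nat_lit 1712036199436) (nat_lit 152) (nat_lit 2086283310562) (nat_lit 0) (nat_lit 1309059755532) (nat_lit 13) (nat_lit 5) (nat_lit 15) (nat_lit 4) (nat_lit 13) (nat_lit 4) (nat_lit 403) (nat_lit 371) (nat_lit 246)) (XT.lf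 (nat_lit 0) (nat_lit 800542187779) (nat_lit 76) (nat_lit 2624223335047) (nat_lit 76) (nat_lit 2221246889784) (nat_lit 12) (nat_lit 4) (nat_lit 13) (nat_lit 5) (nat_lit 13) (nat_lit 4) (nat_lit 404) (nat_lit 371) (nat_lit 245))))))) (XT.nd (nat_lit 1014) (nat_lit 304) (nat_lit 0) (XT.nd (nat_lit 468) (nat_lit 152) (nat_lit 0) (XT.nd (nat_lit 234) (nat_lit 228) (nat_lit 0) (XT.nd (nat_lit 78) (nat_lit 152) (nat_lit 0) (XT.lf (nat_lit 0) (nat_lit 4354861283998) (nat_lit 76) (nat_lit 1148598668980) (nat_lit 76) (nat_lit 745622222535) (nat_lit 12) (nat_lit 4) (nat_lit 13) (nat_lit 5) (nat_lit 13) (nat_lit 4) (nat_lit 405) (nat_lit 371) (nat_lit 244)) (XT.nd (nat_lit 78) (nat_lit 0) (nat_lit 0) (XT.lf (nat_lit 0) (nat_lit 960772581448) (nat_lit 152) (nat_lit 5351454282472) (nat_lit 0) (nat_lit 610358279297) (nat_lit 10) (nat_lit 5) (nat_lit 12) (nat_lit 4) (nat_lit 10) (nat_lit 4) (nat_lit 406)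 (nat_lit 371) (nat_lit 243)) (XT.lf (nat_lit 0) (nat_lit 3005215402228) (nat_lit 152) (nat_lit 2008007235113) (nat_lit 0) (nat_lit 2654801099300) (nat_lit 10) (nat_lit 5) (nat_lit 12) (nat_lit 4) (nat_lit 10) (nat_lit 4) (nat_lit 407) (nat_lit 371) (nat_lit 242)))) (XT.nd (nat_lit 78) (nat_lit 152) (nat_lit 0) (XT.lf (nat_lit 0) (nat_lit 2016477635429) (nat_lit 76) (nat_lit 3423345041329) (nat_lit 76) (nat_lit 3072930737725) (nat_lit 9) (nat_lit 4) (nat_lit 10) (nat_lit 5) (nat_lit 10) (nat_lit 4) (nat_lit 408) (nat_lit 371) (nat_lit 241)) (XT.nd (nat_lit 78) (nat_lit 152) (nat_lit 0) (XT.lf (nat_lit 0) (nat_lit 6870307851449) (nat_lit 76) (nat_lit 1474277197859) (nat_lit 76) (nat_lit 1123862893667) (nat_lit 9) (nat_lit 4) (nat_lit 10) (nat_lit 5) (nat_lit 10) (nat_lit 4) (nat_lit 409) (nat_lit 371) (nat_lit 240)) (XT.lf (nat_lit 0) (nat_lit 1139586201347) (nat_lit 152) (nat_lit 8567863773282)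 (nat_lit 0) (nat_lit 834878110301) (nat_lit 7) (nat_lit 5) (nat_lit 9) (nat_lit 4) (nat_lit 7) (nat_lit 4) (nat_lit 410) (nat_lit 371) (nat_lit 239))))) (XT.nd (nat_lit 234) (nat_lit 76) (nat_lit 0) (XT.nd (nat_lit 78) (nat_lit 76) (nat_lit 0) (XT.lf (nat_lit 0) (nat_lit 3839973276532) (nat_lit 152) (nat_lit 4362151779053) (nat_lit 0) (nat_lit 3535265185099) (nat_lit 7) (nat_lit 5) (nat_lit 9) (nat_lit 4) (nat_lit 7) (nat_lit 4) (nat_lit 411) (nat_lit 371) (nat_lit 238)) (XT.nd (nat_lit 78) (nat_lit 0) (nat_lit 0) (XT.lf (nat_lit 0) (nat_lit 520780480959) (nat_lit 76) (nat_lit 6446202335077) (nat_lit 76) (nat_lit 6141494243308) (nat_lit 6) (nat_lit 4) (nat_lit 7) (nat_lit 5) (nat_lit 7) (nat_lit 4) (nat_lit 412) (nat_lit 371) (nat_lit 237)) (XT.lf (nat_lit 0) (nat_lit 6626398943623) (nat_lit 76) (nat_lit 4164666407287) (nat_lit 76) (nat_lit 3859958315226) (nat_lit 6) (nat_lit 4) (nat_lit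 7) (nat_lit 5) (nat_lit 7) (nat_lit 4) (nat_lit 413) (nat_lit 371) (nat_lit 236)))) (XT.nd (nat_lit 156) (nat_lit 0) (nat_lit 0) (XT.nd (nat_lit 78) (nat_lit 76) (nat_lit 0) (XT.lf (nat_lit 0) (nat_lit 13647860164877) (nat_lit 76) (nat_lit 1540900096073) (nat_lit 76) (nat_lit 1236192003757) (nat_lit 6) (nat_lit 4) (nat_lit 7) (nat_lit 5) (nat_lit 7) (nat_lit 4) (nat_lit 414) (nat_lit 371) (nat_lit 235)) (XT.lf (nat_lit 0) (nat_lit 1838828182608) (nat_lit 76) (nat_lit 15008775630631) (nat_lit 0) (nat_lit 1573864623881) (nat_lit 5) (nat_lit 5) (nat_lit 6) (nat_lit 4) (nat_lit 5) (nat_lit 4) (nat_lit 415) (nat_lit 371) (nat_lit 234))) (XT.nd (nat_lit 78) (nat_lit 0) (nat_lit 0) (XT.lf (nat_lit 0) (nat_lit 5473993925788) (nat_lit 76) (nat_lit 9991789543301) (nat_lit 0) (nat_lit 5209030366894) (nat_lit 5) (nat_lit 5) (nat_lit 6) (nat_lit 4) (nat_lit 5) (nat_lit 4) (nat_lit 416) (nat_lit 371)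 (nat_lit 233)) (XT.lf (nat_lit 0) (nat_lit 9654434526437) (nat_lit 76) (nat_lit 4222255551441) (nat_lit 0) (nat_lit 9389470967397) (nat_lit 5) (nat_lit 5) (nat_lit 6) (nat_lit 4) (nat_lit 5) (nat_lit 4) (nat_lit 417) (nat_lit 371) (nat_lit 232)))))) (XT.nd (nat_lit 546) (nat_lit 76) (nat_lit 0) (XT.nd (nat_lit 234) (nat_lit 152) (nat_lit 0) (XT.nd (nat_lit 78) (nat_lit 0) (nat_lit 0) (XT.lf (nat_lit 0) (nat_lit 2648495956439) (nat_lit 76) (nat_lit 11923113826884) (nat_lit 76) (nat_lit 11658150267718) (nat_lit 4) (nat_lit 4) (nat_lit 5) (nat_lit 5) (nat_lit 5) (nat_lit 4) (nat_lit 418) (nat_lit 371) (nat_lit 231)) (XT.nd (nat_lit 78) (nat_lit 0) (nat_lit 0) (XT.lf (nat_lit 0) (nat_lit 11024384131158) (nat_lit 76) (nat_lit 9422686007174) (nat_lit 76) (nat_lit 9157722447899) (nat_lit 4) (nat_lit 4) (nat_lit 5) (nat_lit 5) (nat_lit 5) (nat_lit 4) (nat_lit 419) (nat_lit 371) (nat_lit 230)) (XT.lf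 (nat_lit 0) (nat_lit 20656655525900) (nat_lit 76) (nat_lit 6547194017803) (nat_lit 76) (nat_lit 6282230458432) (nat_lit 4) (nat_lit 4) (nat_lit 5) (nat_lit 5) (nat_lit 5) (nat_lit 4) (nat_lit 420) (nat_lit 371) (nat_lit 229)))) (XT.nd (nat_lit 156) (nat_lit 0) (nat_lit 0) (XT.nd (nat_lit 78) (nat_lit 152) (nat_lit 0) (XT.lf (nat_lit 0) (nat_lit 31733767624474) (nat_lit 76) (nat_lit 3240378232890) (nat_lit 76) (nat_lit 2975414673436) (nat_lit 4) (nat_lit 4) (nat_lit 5) (nat_lit 5) (nat_lit 5) (nat_lit 4) (nat_lit 421) (nat_lit 371) (nat_lit 228)) (XT.lf (nat_lit 0) (nat_lit 843235706414) (nat_lit 152) (nat_lit 41607934266866) (nat_lit 0) (nat_lit 612832611174) (nat_lit 2) (nat_lit 5) (nat_lit 4) (nat_lit 4) (nat_lit 2) (nat_lit 4) (nat_lit 422) (nat_lit 371) (nat_lit 227))) (XT.nd (nat_lit 78) (nat_lit 0) (nat_lit 0) (XT.lf (nat_lit 0) (nat_lit 5424750237492) (nat_lit 152) (nat_lit 38231056747177)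 (nat_lit 0) (nat_lit 5194347142197) (nat_lit 2) (nat_lit 5) (nat_lit 4) (nat_lit 4) (nat_lit 2) (nat_lit 4) (nat_lit 423) (nat_lit 371) (nat_lit 226)) (XT.lf (nat_lit 0) (nat_lit 10693491946241) (nat_lit 152) (nat_lit 34347647603797) (nat_lit 0) (nat_lit 10463088850898) (nat_lit 2) (nat_lit 5) (nat_lit 4) (nat_lit 4) (nat_lit 2) (nat_lit 4) (nat_lit 424) (nat_lit 371) (nat_lit 225))))) (XT.nd (nat_lit 234) (nat_lit 76) (nat_lit 0) (XT.nd (nat_lit 78) (nat_lit 0) (nat_lit 0) (XT.lf (nat_lit 0) (nat_lit 16752544909572) (nat_lit 152) (nat_lit 29881727092618) (nat_lit 0) (nat_lit 16522141814188) (nat_lit 2) (nat_lit 5) (nat_lit 4) (nat_lit 4) (nat_lit 2) (nat_lit 4) (nat_lit 425) (nat_lit 371) (nat_lit 224)) (XT.nd (nat_lit 78) (nat_lit 0) (nat_lit 0) (XT.lf (nat_lit 0) (nat_lit 23720455815898) (nat_lit 152) (nat_lit 24745918507985) (nat_lit 0) (nat_lit 23490052720478) (nat_lit 2) (nat_lit 5)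 (nat_lit 4) (nat_lit 4) (nat_lit 2) (nat_lit 4) (nat_lit 426) (nat_lit 371) (nat_lit 223)) (XT.lf (nat_lit 0) (nat_lit 31733553356865) (nat_lit 152) (nat_lit 18839738638461) (nat_lit 0) (nat_lit 31503150261414) (nat_lit 2) (nat_lit 5) (nat_lit 4) (nat_lit 4) (nat_lit 2) (nat_lit 4) (nat_lit 427) (nat_lit 371) (nat_lit 222)))) (XT.nd (nat_lit 156) (nat_lit 76) (nat_lit 0) (XT.nd (nat_lit 78) (nat_lit 0) (nat_lit 0) (XT.lf (nat_lit 0) (nat_lit 40948615527839) (nat_lit 152) (nat_lit 12047631790946) (nat_lit 0) (nat_lit 40718212432360) (nat_lit 2) (nat_lit 5) (nat_lit 4) (nat_lit 4) (nat_lit 2) (nat_lit 4) (nat_lit 428) (nat_lit 371) (nat_lit 221)) (XT.lf (nat_lit 0) (nat_lit 51545937023469) (nat_lit 152) (nat_lit 4236708918422) (nat_lit 0) (nat_lit 51315533927967) (nat_lit 2) (nat_lit 5) (nat_lit 4) (nat_lit 4) (nat_lit 2) (nat_lit 4) (nat_lit 429) (nat_lit 371) (nat_lit 220))) (XT.nd (nat_lit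 2106) (nat_lit 0) (nat_lit 0) (XT.lf (nat_lit 0) (nat_lit 5209651593305) (nat_lit 76) (nat_lit 58738925712148) (nat_lit 76) (nat_lit 58508522616625) (nat_lit 1) (nat_lit 4) (nat_lit 2) (nat_lit 5) (nat_lit 2) (nat_lit 4) (nat_lit 430) (nat_lit 371) (nat_lit 219)) (XT.lf (nat_lit 0) (nat_lit 3220727146007313) (nat_lit 76) (nat_lit 950573401148886) (nat_lit 76) (nat_lit 950342998053227) (nat_lit 1) (nat_lit 4) (nat_lit 2) (nat_lit 5) (nat_lit 2) (nat_lit 4) (nat_lit 457) (nat_lit 371) (nat_lit 192))))))))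
noncomputable def xc95 : XT := (XT.nd (nat_lit 48282) (nat_lit 0) (nat_lit 228) (XT.nd (nat_lit 47190) (nat_lit 0) (nat_lit 1520) (XT.nd (nat_lit 46644) (nat_lit 0) (nat_lit 2584) (XT.nd (nat_lit 46410) (nat_lit 0) (nat_lit 3116) (XT.nd (nat_lit 78) (nat_lit 0) (nat_lit 0) (XT.lf (nat_lit 0) (nat_lit 3714394233053812) (nat_lit 76) (nat_lit 1087493610227939) (nat_lit 76) (nat_lit 1087263207132286) (nat_lit 1) (nat_lit 4) (nat_lit 2) (nat_lit 5) (nat_lit 2) (nat_lit 4) (nat_lit 458) (nat_lit 371) (nat_lit 191)) (XT.nd (nat_lit 78) (nat_lit 0) (nat_lit 0) (XT.lf (nat_lit 0) (nat_lit 4282111383157251) (nat_lit 76) (nat_lit 1244951850668876) (nat_lit 76) (nat_lit 1244721447573212) (nat_lit 1) (nat_lit 4) (nat_lit 2) (nat_lit 5) (nat_lit 2) (nat_lit 4) (nat_lit 459) (nat_lit 371) (nat_lit 190)) (XT.lf (nat_lit 0) (nat_lit 4934986105776161) (nat_lit 76) (nat_lit 1426028827175955) (nat_lit 76) (nat_lit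 1425798424080298) (nat_lit 1) (nat_lit 4) (nat_lit 2) (nat_lit 5) (nat_lit 2) (nat_lit 4) (nat_lit 460) (nat_lit 371) (nat_lit 189)))) (XT.nd (nat_lit 78) (nat_lit 0) (nat_lit 0) (XT.lf (nat_lit 0) (nat_lit 52784866550) (nat_lit 380) (nat_lit 62287729404) (nat_lit 380) (nat_lit 62287729404) (nat_lit 42) (nat_lit 3) (nat_lit 47) (nat_lit 3) (nat_lit 47) (nat_lit 5) (nat_lit 372) (nat_lit 372) (nat_lit 276)) (XT.nd (nat_lit 78) (nat_lit 0) (nat_lit 76) (XT.lf (nat_lit 76) (nat_lit 57124409504) (nat_lit 0) (nat_lit 58728935682) (nat_lit 380) (nat_lit 265116471906) (nat_lit 43) (nat_lit 5) (nat_lit 42) (nat_lit 3) (nat_lit 47) (nat_lit 5) (nat_lit 373) (nat_lit 372) (nat_lit 275)) (XT.lf (nat_lit 0) (nat_lit 140232240691) (nat_lit 304) (nat_lit 136140730840) (nat_lit 380) (nat_lit 132900475671) (nat_lit 43) (nat_lit 5) (nat_lit 47) (nat_lit 5) (nat_lit 48) (nat_lit 5) (nat_lit 374) (nat_lit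 372) (nat_lit 274))))) (XT.nd (nat_lit 234) (nat_lit 380) (nat_lit 0) (XT.nd (nat_lit 78) (nat_lit 228) (nat_lit 0) (XT.lf (nat_lit 76) (nat_lit 84440443804) (nat_lit 0) (nat_lit 90120566033) (nat_lit 380) (nat_lit 266317656112) (nat_lit 44) (nat_lit 5) (nat_lit 43) (nat_lit 5) (nat_lit 48) (nat_lit 5) (nat_lit 375) (nat_lit 372) (nat_lit 273)) (XT.nd (nat_lit 78) (nat_lit 304) (nat_lit 0) (XT.lf (nat_lit 0) (nat_lit 226631814337) (nat_lit 304) (nat_lit 128224452021) (nat_lit 76) (nat_lit 120479493168) (nat_lit 44) (nat_lit 5) (nat_lit 48) (nat_lit 5) (nat_lit 45) (nat_lit 5) (nat_lit 376) (nat_lit 372) (nat_lit 272)) (XT.lf (nat_lit 0) (nat_lit 142627560913) (nat_lit 304) (nat_lit 154082978600) (nat_lit 380) (nat_lit 216721282639) (nat_lit 40) (nat_lit 5) (nat_lit 44) (nat_lit 5) (nat_lit 45) (nat_lit 5) (nat_lit 377) (nat_lit 372) (nat_lit 271)))) (XT.nd (nat_lit 156) (nat_lit 228) (nat_lit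 0) (XT.nd (nat_lit 78) (nat_lit 152) (nat_lit 0) (XT.lf (nat_lit 0) (nat_lit 387503220422) (nat_lit 380) (nat_lit 91218464984) (nat_lit 76) (nat_lit 76990286735) (nat_lit 40) (nat_lit 5) (nat_lit 45) (nat_lit 5) (nat_lit 41) (nat_lit 5) (nat_lit 378) (nat_lit 372) (nat_lit 270)) (XT.lf (nat_lit 0) (nat_lit 244757901114) (nat_lit 152) (nat_lit 264629043296) (nat_lit 228) (nat_lit 92326379088) (nat_lit 38) (nat_lit 5) (nat_lit 40) (nat_lit 5) (nat_lit 41) (nat_lit 5) (nat_lit 379) (nat_lit 372) (nat_lit 269))) (XT.nd (nat_lit 78) (nat_lit 152) (nat_lit 0) (XT.lf (nat_lit 0) (nat_lit 384224794) (nat_lit 228) (nat_lit 12534732580) (nat_lit 76) (nat_lit 640978071181) (nat_lit 37) (nat_lit 5) (nat_lit 40) (nat_lit 5) (nat_lit 38) (nat_lit 5) (nat_lit 380) (nat_lit 372) (nat_lit 268)) (XT.lf (nat_lit 0) (nat_lit 127264404022) (nat_lit 228) (nat_lit 306938913496) (nat_lit 76) (nat_lit 274588180616)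 (nat_lit 35) (nat_lit 5) (nat_lit 38) (nat_lit 5) (nat_lit 36) (nat_lit 5) (nat_lit 381) (nat_lit 372) (nat_lit 267)))))) (XT.nd (nat_lit 546) (nat_lit 532) (nat_lit 0) (XT.nd (nat_lit 234) (nat_lit 304) (nat_lit 0) (XT.nd (nat_lit 78) (nat_lit 76) (nat_lit 0) (XT.lf (nat_lit 0) (nat_lit 117828328261) (nat_lit 152) (nat_lit 161528879698) (nat_lit 228) (nat_lit 491635840522) (nat_lit 33) (nat_lit 5) (nat_lit 35) (nat_lit 5) (nat_lit 36) (nat_lit 5) (nat_lit 382) (nat_lit 372) (nat_lit 266)) (XT.nd (nat_lit 78) (nat_lit 76) (nat_lit 0) (XT.lf (nat_lit 0) (nat_lit 477368388325) (nat_lit 228) (nat_lit 206371757320) (nat_lit 76) (nat_lit 155319017365) (nat_lit 33) (nat_lit 5) (nat_lit 36) (nat_lit 5) (nat_lit 34) (nat_lit 4) (nat_lit 383) (nat_lit 372) (nat_lit 265)) (XT.lf (nat_lit 0) (nat_lit 329041830154) (nat_lit 76) (nat_lit 397356157682) (nat_lit 152) (nat_lit 187739695573) (nat_lit 32)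 (nat_lit 5) (nat_lit 33) (nat_lit 5) (nat_lit 34) (nat_lit 4) (nat_lit 384) (nat_lit 372) (nat_lit 264)))) (XT.nd (nat_lit 156) (nat_lit 76) (nat_lit 0) (XT.nd (nat_lit 78) (nat_lit 152) (nat_lit 0) (XT.lf (nat_lit 0) (nat_lit 22509935575) (nat_lit 152) (nat_lit 31922241003) (nat_lit 76) (nat_lit 944274190443) (nat_lit 31) (nat_lit 5) (nat_lit 33) (nat_lit 5) (nat_lit 32) (nat_lit 5) (nat_lit 385) (nat_lit 372) (nat_lit 263)) (XT.lf (nat_lit 0) (nat_lit 287924541525) (nat_lit 228) (nat_lit 452887389960) (nat_lit 76) (nat_lit 347380149025) (nat_lit 29) (nat_lit 5) (nat_lit 32) (nat_lit 5) (nat_lit 30) (nat_lit 4) (nat_lit 386) (nat_lit 372) (nat_lit 262))) (XT.nd (nat_lit 78) (nat_lit 0) (nat_lit 0) (XT.lf (nat_lit 0) (nat_lit 233466198817) (nat_lit 76) (nat_lit 373692583734) (nat_lit 152) (nat_lit 581840751845) (nat_lit 28) (nat_lit 5) (nat_lit 29) (nat_lit 5) (nat_lit 30) (nat_lit 4) (nat_lit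 387) (nat_lit 372) (nat_lit 261)) (XT.lf (nat_lit 0) (nat_lit 1001087172926) (nat_lit 152) (nat_lit 230841286156) (nat_lit 0) (nat_lit 68978295307) (nat_lit 28) (nat_lit 5) (nat_lit 30) (nat_lit 4) (nat_lit 28) (nat_lit 4) (nat_lit 388) (nat_lit 372) (nat_lit 260))))) (XT.nd (nat_lit 234) (nat_lit 304) (nat_lit 0) (XT.nd (nat_lit 78) (nat_lit 76) (nat_lit 0) (XT.lf (nat_lit 0) (nat_lit 68811117281) (nat_lit 152) (nat_lit 784164994815) (nat_lit 76) (nat_lit 569498551321) (nat_lit 26) (nat_lit 5) (nat_lit 28) (nat_lit 5) (nat_lit 27) (nat_lit 4) (nat_lit 389) (nat_lit 372) (nat_lit 259)) (XT.nd (nat_lit 78) (nat_lit 0) (nat_lit 0) (XT.lf (nat_lit 0) (nat_lit 97101836970) (nat_lit 76) (nat_lit 381600837804) (nat_lit 152) (nat_lit 1078934205352) (nat_lit 25) (nat_lit 5) (nat_lit 26) (nat_lit 5) (nat_lit 27) (nat_lit 4) (nat_lit 390) (nat_lit 372) (nat_lit 258)) (XT.lf (nat_lit 0) (nat_lit 999665479487)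 (nat_lit 152) (nat_lit 516833846314) (nat_lit 0) (nat_lit 189135976505) (nat_lit 25) (nat_lit 5) (nat_lit 27) (nat_lit 4) (nat_lit 25) (nat_lit 4) (nat_lit 391) (nat_lit 372) (nat_lit 257)))) (XT.nd (nat_lit 156) (nat_lit 152) (nat_lit 0) (XT.nd (nat_lit 78) (nat_lit 76) (nat_lit 0) (XT.lf (nat_lit 0) (nat_lit 604025560278) (nat_lit 76) (nat_lit 1037930006174) (nat_lit 76) (nat_lit 227400492128) (nat_lit 24) (nat_lit 4) (nat_lit 25) (nat_lit 5) (nat_lit 25) (nat_lit 4) (nat_lit 392) (nat_lit 372) (nat_lit 256)) (XT.lf (nat_lit 0) (nat_lit 322505407351) (nat_lit 152) (nat_lit 117142897859) (nat_lit 76) (nat_lit 1611735277832) (nat_lit 23) (nat_lit 5) (nat_lit 25) (nat_lit 5) (nat_lit 24) (nat_lit 4) (nat_lit 393) (nat_lit 372) (nat_lit 255))) (XT.nd (nat_lit 78) (nat_lit 76) (nat_lit 0) (XT.lf (nat_lit 0) (nat_lit 999199108736) (nat_lit 152) (nat_lit 955363508805) (nat_lit 0) (nat_lit 294390820012)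 (nat_lit 22) (nat_lit 5) (nat_lit 24) (nat_lit 4) (nat_lit 22) (nat_lit 4) (nat_lit 394) (nat_lit 372) (nat_lit 254)) (XT.lf (nat_lit 0) (nat_lit 474910219432) (nat_lit 76) (nat_lit 1349502252439) (nat_lit 76) (nat_lit 644693957390) (nat_lit 21) (nat_lit 4) (nat_lit 22) (nat_lit 5) (nat_lit 22) (nat_lit 4) (nat_lit 395) (nat_lit 372) (nat_lit 253))))))) (XT.nd (nat_lit 1014) (nat_lit 456) (nat_lit 0) (XT.nd (nat_lit 468) (nat_lit 456) (nat_lit 0) (XT.nd (nat_lit 234) (nat_lit 152) (nat_lit 0) (XT.nd (nat_lit 78) (nat_lit 152) (nat_lit 0) (XT.lf (nat_lit 0) (nat_lit 98891437770) (nat_lit 152) (nat_lit 492191709343) (nat_lit 76) (nat_lit 2123034046479) (nat_lit 20) (nat_lit 5) (nat_lit 22) (nat_lit 5) (nat_lit 21) (nat_lit 4) (nat_lit 396) (nat_lit 372) (nat_lit 252)) (XT.nd (nat_lit 78) (nat_lit 76) (nat_lit 0) (XT.lf (nat_lit 0) (nat_lit 958464876202) (nat_lit 152) (nat_lit 1676653458275)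 (nat_lit 0) (nat_lit 345588088956) (nat_lit 19) (nat_lit 5) (nat_lit 21) (nat_lit 4) (nat_lit 19) (nat_lit 4) (nat_lit 397) (nat_lit 372) (nat_lit 251)) (XT.lf (nat_lit 0) (nat_lit 123223371667) (nat_lit 76) (nat_lit 1883953535235) (nat_lit 76) (nat_lit 1271076744372) (nat_lit 18) (nat_lit 4) (nat_lit 19) (nat_lit 5) (nat_lit 19) (nat_lit 4) (nat_lit 398) (nat_lit 372) (nat_lit 250)))) (XT.nd (nat_lit 78) (nat_lit 152) (nat_lit 0) (XT.lf (nat_lit 0) (nat_lit 2381514686643) (nat_lit 76) (nat_lit 919324292554) (nat_lit 76) (nat_lit 306447498546) (nat_lit 18) (nat_lit 4) (nat_lit 19) (nat_lit 5) (nat_lit 19) (nat_lit 4) (nat_lit 399) (nat_lit 372) (nat_lit 249)) (XT.nd (nat_lit 78) (nat_lit 0) (nat_lit 0) (XT.lf (nat_lit 0) (nat_lit 786545787923) (nat_lit 152) (nat_lit 2932260103163) (nat_lit 0) (nat_lit 253609442929) (nat_lit 16) (nat_lit 5) (nat_lit 18) (nat_lit 4) (nat_lit 16) (nat_lit 4)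 (nat_lit 400) (nat_lit 372) (nat_lit 248)) (XT.lf (nat_lit 0) (nat_lit 2123016615124) (nat_lit 152) (nat_lit 660392284661) (nat_lit 0) (nat_lit 1590080268061) (nat_lit 16) (nat_lit 5) (nat_lit 18) (nat_lit 4) (nat_lit 16) (nat_lit 4) (nat_lit 401) (nat_lit 372) (nat_lit 247))))) (XT.nd (nat_lit 234) (nat_lit 228) (nat_lit 0) (XT.nd (nat_lit 78) (nat_lit 152) (nat_lit 0) (XT.lf (nat_lit 0) (nat_lit 2143044310896) (nat_lit 76) (nat_lit 1605652640950) (nat_lit 76) (nat_lit 1072716292090) (nat_lit 15) (nat_lit 4) (nat_lit 16) (nat_lit 5) (nat_lit 16) (nat_lit 4) (nat_lit 402) (nat_lit 372) (nat_lit 246)) (XT.nd (nat_lit 78) (nat_lit 0) (nat_lit 0) (XT.lf (nat_lit 0) (nat_lit 105995488322) (nat_lit 76) (nat_lit 191182111094) (nat_lit 152) (nat_lit 5031515614846) (nat_lit 13) (nat_lit 5) (nat_lit 14) (nat_lit 5) (nat_lit 15) (nat_lit 4) (nat_lit 403) (nat_lit 372) (nat_lit 245)) (XT.lf (nat_lit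 0) (nat_lit 1968841730096) (nat_lit 152) (nat_lit 2399225594650) (nat_lit 0) (nat_lit 1505418815501) (nat_lit 13) (nat_lit 5) (nat_lit 15) (nat_lit 4) (nat_lit 13) (nat_lit 4) (nat_lit 404) (nat_lit 372) (nat_lit 244)))) (XT.nd (nat_lit 156) (nat_lit 152) (nat_lit 0) (XT.nd (nat_lit 78) (nat_lit 0) (nat_lit 0) (XT.lf (nat_lit 0) (nat_lit 920623718784) (nat_lit 76) (nat_lit 3017856728469) (nat_lit 76) (nat_lit 2554433812847) (nat_lit 12) (nat_lit 4) (nat_lit 13) (nat_lit 5) (nat_lit 13) (nat_lit 4) (nat_lit 405) (nat_lit 372) (nat_lit 243)) (XT.lf (nat_lit 0) (nat_lit 5008090652979) (nat_lit 76) (nat_lit 1320888376428) (nat_lit 76) (nat_lit 857465459911) (nat_lit 12) (nat_lit 4) (nat_lit 13) (nat_lit 5) (nat_lit 13) (nat_lit 4) (nat_lit 406) (nat_lit 372) (nat_lit 242))) (XT.nd (nat_lit 78) (nat_lit 0) (nat_lit 0) (XT.lf (nat_lit 0) (nat_lit 1104888555883) (nat_lit 152) (nat_lit 6154172239673)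 (nat_lit 0) (nat_lit 701912106062) (nat_lit 10) (nat_lit 5) (nat_lit 12) (nat_lit 4) (nat_lit 10) (nat_lit 4) (nat_lit 407) (nat_lit 372) (nat_lit 241)) (XT.lf (nat_lit 0) (nat_lit 3455997788403) (nat_lit 152) (nat_lit 2309208159363) (nat_lit 0) (nat_lit 3053021337994) (nat_lit 10) (nat_lit 5) (nat_lit 12) (nat_lit 4) (nat_lit 10) (nat_lit 4) (nat_lit 408) (nat_lit 372) (nat_lit 240)))))) (XT.nd (nat_lit 546) (nat_lit 152) (nat_lit 0) (XT.nd (nat_lit 234) (nat_lit 76) (nat_lit 0) (XT.nd (nat_lit 78) (nat_lit 152) (nat_lit 0) (XT.lf (nat_lit 0) (nat_lit 2318949434442) (nat_lit 76) (nat_lit 3936846716143) (nat_lit 76) (nat_lit 3533870265223) (nat_lit 9) (nat_lit 4) (nat_lit 10) (nat_lit 5) (nat_lit 10) (nat_lit 4) (nat_lit 409) (nat_lit 372) (nat_lit 239)) (XT.nd (nat_lit 78) (nat_lit 152) (nat_lit 0) (XT.lf (nat_lit 0) (nat_lit 7900854162817) (nat_lit 76) (nat_lit 1695418706769) (nat_lit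 76) (nat_lit 1292442255404) (nat_lit 9) (nat_lit 4) (nat_lit 10) (nat_lit 5) (nat_lit 10) (nat_lit 4) (nat_lit 410) (nat_lit 372) (nat_lit 238)) (XT.lf (nat_lit 0) (nat_lit 1310524197305) (nat_lit 152) (nat_lit 9853043199066) (nat_lit 0) (nat_lit 960109891435) (nat_lit 7) (nat_lit 5) (nat_lit 9) (nat_lit 4) (nat_lit 7) (nat_lit 4) (nat_lit 411) (nat_lit 372) (nat_lit 237)))) (XT.nd (nat_lit 156) (nat_lit 0) (nat_lit 0) (XT.nd (nat_lit 78) (nat_lit 76) (nat_lit 0) (XT.lf (nat_lit 0) (nat_lit 4415969325191) (nat_lit 152) (nat_lit 5016474423990) (nat_lit 0) (nat_lit 4065555019028) (nat_lit 7) (nat_lit 5) (nat_lit 9) (nat_lit 4) (nat_lit 7) (nat_lit 4) (nat_lit 412) (nat_lit 372) (nat_lit 236)) (XT.lf (nat_lit 0) (nat_lit 598897669482) (nat_lit 76) (nat_lit 7413132623499) (nat_lit 76) (nat_lit 7062718317083) (nat_lit 6) (nat_lit 4) (nat_lit 7) (nat_lit 5) (nat_lit 7) (nat_lit 4) (nat_lit 413)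 (nat_lit 372) (nat_lit 235))) (XT.nd (nat_lit 78) (nat_lit 0) (nat_lit 0) (XT.lf (nat_lit 0) (nat_lit 7620358886365) (nat_lit 76) (nat_lit 4789366314608) (nat_lit 76) (nat_lit 4438952007970) (nat_lit 6) (nat_lit 4) (nat_lit 7) (nat_lit 5) (nat_lit 7) (nat_lit 4) (nat_lit 414) (nat_lit 372) (nat_lit 234)) (XT.lf (nat_lit 0) (nat_lit 15695039277608) (nat_lit 76) (nat_lit 1772035063725) (nat_lit 76) (nat_lit 1421620756895) (nat_lit 6) (nat_lit 4) (nat_lit 7) (nat_lit 5) (nat_lit 7) (nat_lit 4) (nat_lit 415) (nat_lit 372) (nat_lit 233))))) (XT.nd (nat_lit 234) (nat_lit 76) (nat_lit 0) (XT.nd (nat_lit 78) (nat_lit 0) (nat_lit 0) (XT.lf (nat_lit 0) (nat_lit 2114652453152) (nat_lit 76) (nat_lit 17260091882952) (nat_lit 0) (nat_lit 1809944360111) (nat_lit 5) (nat_lit 5) (nat_lit 6) (nat_lit 4) (nat_lit 5) (nat_lit 4) (nat_lit 416) (nat_lit 372) (nat_lit 232)) (XT.nd (nat_lit 78) (nat_lit 0) (nat_lit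 0) (XT.lf (nat_lit 0) (nat_lit 6295093052180) (nat_lit 76) (nat_lit 11490557894559) (nat_lit 0) (nat_lit 5990384959013) (nat_lit 5) (nat_lit 5) (nat_lit 6) (nat_lit 4) (nat_lit 5) (nat_lit 4) (nat_lit 417) (nat_lit 372) (nat_lit 231)) (XT.lf (nat_lit 0) (nat_lit 11102599738032) (nat_lit 76) (nat_lit 4855593814385) (nat_lit 0) (nat_lit 10797891644754) (nat_lit 5) (nat_lit 5) (nat_lit 6) (nat_lit 4) (nat_lit 5) (nat_lit 4) (nat_lit 418) (nat_lit 372) (nat_lit 230)))) (XT.nd (nat_lit 156) (nat_lit 0) (nat_lit 0) (XT.nd (nat_lit 78) (nat_lit 0) (nat_lit 0) (XT.lf (nat_lit 0) (nat_lit 3045770416505) (nat_lit 76) (nat_lit 13711580865447) (nat_lit 76) (nat_lit 13406872772074) (nat_lit 4) (nat_lit 4) (nat_lit 5) (nat_lit 5) (nat_lit 5) (nat_lit 4) (nat_lit 419) (nat_lit 372) (nat_lit 229)) (XT.lf (nat_lit 0) (nat_lit 12678041808745) (nat_lit 76) (nat_lit 10836088877408) (nat_lit 76) (nat_lit 10531380783952)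 (nat_lit 4) (nat_lit 4) (nat_lit 5) (nat_lit 5) (nat_lit 5) (nat_lit 4) (nat_lit 420) (nat_lit 372) (nat_lit 228))) (XT.nd (nat_lit 78) (nat_lit 0) (nat_lit 0) (XT.lf (nat_lit 0) (nat_lit 23755153905144) (nat_lit 76) (nat_lit 7529273093654) (nat_lit 76) (nat_lit 7224565000126) (nat_lit 4) (nat_lit 4) (nat_lit 5) (nat_lit 5) (nat_lit 5) (nat_lit 4) (nat_lit 421) (nat_lit 372) (nat_lit 227)) (XT.lf (nat_lit 0) (nat_lit 36493832811936) (nat_lit 76) (nat_lit 3726434944503) (nat_lit 76) (nat_lit 3421726850912) (nat_lit 4) (nat_lit 4) (nat_lit 5) (nat_lit 5) (nat_lit 5) (nat_lit 4) (nat_lit 422) (nat_lit 372) (nat_lit 226))))))))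
noncomputable def xc96 : XT := (XT.nd (nat_lit 50622) (nat_lit 0) (nat_lit 228) (XT.nd (nat_lit 49608) (nat_lit 0) (nat_lit 1824) (XT.nd (nat_lit 468) (nat_lit 0) (nat_lit 0) (XT.nd (nat_lit 234) (nat_lit 0) (nat_lit 0) (XT.nd (nat_lit 78) (nat_lit 0) (nat_lit 0) (XT.lf (nat_lit 0) (nat_lit 969721083804) (nat_lit 152) (nat_lit 47849124360992) (nat_lit 0) (nat_lit 704757524112) (nat_lit 2) (nat_lit 5) (nat_lit 4) (nat_lit 4) (nat_lit 2) (nat_lit 4) (nat_lit 423) (nat_lit 372) (nat_lit 225)) (XT.nd (nat_lit 78) (nat_lit 0) (nat_lit 0) (XT.lf (nat_lit 0) (nat_lit 6238462791748) (nat_lit 152) (nat_lit 43965715219337) (nat_lit 0) (nat_lit 5973499232015) (nat_lit 2) (nat_lit 5) (nat_lit 4) (nat_lit 4) (nat_lit 2) (nat_lit 4) (nat_lit 424) (nat_lit 372) (nat_lit 224)) (XT.lf (nat_lit 0) (nat_lit 12297515754379) (nat_lit 152) (nat_lit 39499794709657) (nat_lit 0) (nat_lit 12032552194610) (nat_lit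 2) (nat_lit 5) (nat_lit 4) (nat_lit 4) (nat_lit 2) (nat_lit 4) (nat_lit 425) (nat_lit 372) (nat_lit 223)))) (XT.nd (nat_lit 78) (nat_lit 0) (nat_lit 0) (XT.lf (nat_lit 0) (nat_lit 19265426660097) (nat_lit 152) (nat_lit 34363986126328) (nat_lit 0) (nat_lit 19000463100297) (nat_lit 2) (nat_lit 5) (nat_lit 4) (nat_lit 4) (nat_lit 2) (nat_lit 4) (nat_lit 426) (nat_lit 372) (nat_lit 222)) (XT.nd (nat_lit 78) (nat_lit 0) (nat_lit 0) (XT.lf (nat_lit 0) (nat_lit 27278524200534) (nat_lit 152) (nat_lit 28457806257938) (nat_lit 0) (nat_lit 27013560640707) (nat_lit 2) (nat_lit 5) (nat_lit 4) (nat_lit 4) (nat_lit 2) (nat_lit 4) (nat_lit 427) (nat_lit 372) (nat_lit 221)) (XT.lf (nat_lit 0) (nat_lit 36493586371048) (nat_lit 152) (nat_lit 21665699411408) (nat_lit 0) (nat_lit 36228622811197) (nat_lit 2) (nat_lit 5) (nat_lit 4) (nat_lit 4) (nat_lit 2) (nat_lit 4) (nat_lit 428) (nat_lit 372) (nat_lit 220)))))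 (XT.nd (nat_lit 48828) (nat_lit 0) (nat_lit 3040) (XT.nd (nat_lit 78) (nat_lit 0) (nat_lit 0) (XT.lf (nat_lit 0) (nat_lit 47090907866278) (nat_lit 152) (nat_lit 13854776539742) (nat_lit 0) (nat_lit 46825944306407) (nat_lit 2) (nat_lit 5) (nat_lit 4) (nat_lit 4) (nat_lit 2) (nat_lit 4) (nat_lit 429) (nat_lit 372) (nat_lit 219)) (XT.nd (nat_lit 48672) (nat_lit 0) (nat_lit 3040) (XT.lf (nat_lit 0) (nat_lit 59277827585045) (nat_lit 152) (nat_lit 4872215238929) (nat_lit 0) (nat_lit 59012864025156) (nat_lit 2) (nat_lit 5) (nat_lit 4) (nat_lit 4) (nat_lit 2) (nat_lit 4) (nat_lit 430) (nat_lit 372) (nat_lit 218)) (XT.lf (nat_lit 0) (nat_lit 60703058692) (nat_lit 380) (nat_lit 71630623018) (nat_lit 380) (nat_lit 71630623018) (nat_lit 42) (nat_lit 3) (nat_lit 47) (nat_lit 3) (nat_lit 47) (nat_lit 5) (nat_lit 373) (nat_lit 373) (nat_lit 274)))) (XT.nd (nat_lit 156) (nat_lit 0) (nat_lit 76) (XT.nd (nat_lit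 78) (nat_lit 0) (nat_lit 76) (XT.lf (nat_lit 76) (nat_lit 65693578358) (nat_lit 0) (nat_lit 67538593372) (nat_lit 380) (nat_lit 304882994021) (nat_lit 43) (nat_lit 5) (nat_lit 42) (nat_lit 3) (nat_lit 47) (nat_lit 5) (nat_lit 374) (nat_lit 373) (nat_lit 273)) (XT.lf (nat_lit 0) (nat_lit 161267782557) (nat_lit 304) (nat_lit 156561280054) (nat_lit 380) (nat_lit 152835295642) (nat_lit 43) (nat_lit 5) (nat_lit 47) (nat_lit 5) (nat_lit 48) (nat_lit 5) (nat_lit 375) (nat_lit 373) (nat_lit 272))) (XT.nd (nat_lit 78) (nat_lit 0) (nat_lit 76) (XT.lf (nat_lit 76) (nat_lit 97107045313) (nat_lit 0) (nat_lit 103638751857) (nat_lit 380) (nat_lit 306264573150) (nat_lit 44) (nat_lit 5) (nat_lit 43) (nat_lit 5) (nat_lit 48) (nat_lit 5) (nat_lit 376) (nat_lit 373) (nat_lit 271)) (XT.lf (nat_lit 0) (nat_lit 260627135772) (nat_lit 304) (nat_lit 147457567965) (nat_lit 76) (nat_lit 138551337201) (nat_lit 44)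 (nat_lit 5) (nat_lit 48) (nat_lit 5) (nat_lit 45) (nat_lit 5) (nat_lit 377) (nat_lit 373) (nat_lit 270)))))) (XT.nd (nat_lit 468) (nat_lit 532) (nat_lit 0) (XT.nd (nat_lit 234) (nat_lit 380) (nat_lit 0) (XT.nd (nat_lit 78) (nat_lit 152) (nat_lit 0) (XT.lf (nat_lit 0) (nat_lit 164022221825) (nat_lit 304) (nat_lit 177195398067) (nat_lit 380) (nat_lit 249228900557) (nat_lit 40) (nat_lit 5) (nat_lit 44) (nat_lit 5) (nat_lit 45) (nat_lit 5) (nat_lit 378) (nat_lit 373) (nat_lit 269)) (XT.nd (nat_lit 78) (nat_lit 152) (nat_lit 0) (XT.lf (nat_lit 0) (nat_lit 445629138776) (nat_lit 380) (nat_lit 104900712411) (nat_lit 76) (nat_lit 88538851389) (nat_lit 40) (nat_lit 5) (nat_lit 45) (nat_lit 5) (nat_lit 41) (nat_lit 5) (nat_lit 379) (nat_lit 373) (nat_lit 268)) (XT.lf (nat_lit 0) (nat_lit 281472084860) (nat_lit 152) (nat_lit 304323300369) (nat_lit 228) (nat_lit 106174876838) (nat_lit 38) (nat_lit 5)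 (nat_lit 40) (nat_lit 5) (nat_lit 41) (nat_lit 5) (nat_lit 380) (nat_lit 373) (nat_lit 267)))) (XT.nd (nat_lit 78) (nat_lit 304) (nat_lit 0) (XT.lf (nat_lit 0) (nat_lit 442222201) (nat_lit 228) (nat_lit 14414473315) (nat_lit 76) (nat_lit 737124832708) (nat_lit 37) (nat_lit 5) (nat_lit 40) (nat_lit 5) (nat_lit 38) (nat_lit 5) (nat_lit 381) (nat_lit 373) (nat_lit 266)) (XT.nd (nat_lit 78) (nat_lit 152) (nat_lit 0) (XT.lf (nat_lit 0) (nat_lit 146354404099) (nat_lit 228) (nat_lit 352979257101) (nat_lit 76) (nat_lit 315776510678) (nat_lit 35) (nat_lit 5) (nat_lit 38) (nat_lit 5) (nat_lit 36) (nat_lit 5) (nat_lit 382) (nat_lit 373) (nat_lit 265)) (XT.lf (nat_lit 0) (nat_lit 135503048491) (nat_lit 152) (nat_lit 185758055359) (nat_lit 228) (nat_lit 565380854652) (nat_lit 33) (nat_lit 5) (nat_lit 35) (nat_lit 5) (nat_lit 36) (nat_lit 5) (nat_lit 383) (nat_lit 373) (nat_lit 264))))) (XT.nd (nat_lit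 234) (nat_lit 380) (nat_lit 0) (XT.nd (nat_lit 78) (nat_lit 152) (nat_lit 0) (XT.lf (nat_lit 0) (nat_lit 548973925851) (nat_lit 228) (nat_lit 237327075900) (nat_lit 76) (nat_lit 178616993777) (nat_lit 33) (nat_lit 5) (nat_lit 36) (nat_lit 5) (nat_lit 34) (nat_lit 4) (nat_lit 384) (nat_lit 373) (nat_lit 263)) (XT.nd (nat_lit 78) (nat_lit 76) (nat_lit 0) (XT.lf (nat_lit 0) (nat_lit 378398529466) (nat_lit 76) (nat_lit 456959416984) (nat_lit 152) (nat_lit 215900350368) (nat_lit 32) (nat_lit 5) (nat_lit 33) (nat_lit 5) (nat_lit 34) (nat_lit 4) (nat_lit 385) (nat_lit 373) (nat_lit 262)) (XT.lf (nat_lit 0) (nat_lit 25886663193) (nat_lit 152) (nat_lit 36710184556) (nat_lit 76) (nat_lit 1085915438707) (nat_lit 31) (nat_lit 5) (nat_lit 33) (nat_lit 5) (nat_lit 32) (nat_lit 5) (nat_lit 386) (nat_lit 373) (nat_lit 261)))) (XT.nd (nat_lit 156) (nat_lit 152) (nat_lit 0) (XT.nd (nat_lit 78) (nat_lit 76)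 (nat_lit 0) (XT.lf (nat_lit 0) (nat_lit 331113450934) (nat_lit 228) (nat_lit 520820096732) (nat_lit 76) (nat_lit 399487310670) (nat_lit 29) (nat_lit 5) (nat_lit 32) (nat_lit 5) (nat_lit 30) (nat_lit 4) (nat_lit 387) (nat_lit 373) (nat_lit 260)) (XT.lf (nat_lit 0) (nat_lit 268486512102) (nat_lit 76) (nat_lit 429746302129) (nat_lit 152) (nat_lit 669116618160) (nat_lit 28) (nat_lit 5) (nat_lit 29) (nat_lit 5) (nat_lit 30) (nat_lit 4) (nat_lit 388) (nat_lit 373) (nat_lit 259))) (XT.nd (nat_lit 78) (nat_lit 152) (nat_lit 0) (XT.lf (nat_lit 0) (nat_lit 1151250441300) (nat_lit 152) (nat_lit 265467123757) (nat_lit 0) (nat_lit 79325173607) (nat_lit 28) (nat_lit 5) (nat_lit 30) (nat_lit 4) (nat_lit 28) (nat_lit 4) (nat_lit 389) (nat_lit 373) (nat_lit 258)) (XT.lf (nat_lit 0) (nat_lit 79132974904) (nat_lit 152) (nat_lit 901789386281) (nat_lit 76) (nat_lit 654923473227) (nat_lit 26) (nat_lit 5) (nat_lit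 28) (nat_lit 5) (nat_lit 27) (nat_lit 4) (nat_lit 390) (nat_lit 373) (nat_lit 257))))))) (XT.nd (nat_lit 1014) (nat_lit 760) (nat_lit 0) (XT.nd (nat_lit 468) (nat_lit 456) (nat_lit 0) (XT.nd (nat_lit 234) (nat_lit 228) (nat_lit 0) (XT.nd (nat_lit 78) (nat_lit 76) (nat_lit 0) (XT.lf (nat_lit 0) (nat_lit 111667454011) (nat_lit 76) (nat_lit 438840801365) (nat_lit 152) (nat_lit 1240774129851) (nat_lit 25) (nat_lit 5) (nat_lit 26) (nat_lit 5) (nat_lit 27) (nat_lit 4) (nat_lit 391) (nat_lit 373) (nat_lit 256)) (XT.nd (nat_lit 78) (nat_lit 76) (nat_lit 0) (XT.lf (nat_lit 0) (nat_lit 1149615463234) (nat_lit 152) (nat_lit 594358608738) (nat_lit 0) (nat_lit 217506501397) (nat_lit 25) (nat_lit 5) (nat_lit 27) (nat_lit 4) (nat_lit 25) (nat_lit 4) (nat_lit 392) (nat_lit 373) (nat_lit 255)) (XT.lf (nat_lit 0) (nat_lit 694629694546) (nat_lit 76) (nat_lit 1193619360022) (nat_lit 76) (nat_lit 261510389819)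 (nat_lit 24) (nat_lit 4) (nat_lit 25) (nat_lit 5) (nat_lit 25) (nat_lit 4) (nat_lit 393) (nat_lit 373) (nat_lit 254)))) (XT.nd (nat_lit 78) (nat_lit 152) (nat_lit 0) (XT.lf (nat_lit 0) (nat_lit 370881357975) (nat_lit 152) (nat_lit 134714057830) (nat_lit 76) (nat_lit 1853495683759) (nat_lit 23) (nat_lit 5) (nat_lit 25) (nat_lit 5) (nat_lit 24) (nat_lit 4) (nat_lit 394) (nat_lit 373) (nat_lit 253)) (XT.nd (nat_lit 78) (nat_lit 76) (nat_lit 0) (XT.lf (nat_lit 0) (nat_lit 1149079112612) (nat_lit 152) (nat_lit 1098667758457) (nat_lit 0) (nat_lit 338549561478) (nat_lit 22) (nat_lit 5) (nat_lit 24) (nat_lit 4) (nat_lit 22) (nat_lit 4) (nat_lit 395) (nat_lit 373) (nat_lit 252)) (XT.lf (nat_lit 0) (nat_lit 546147016441) (nat_lit 76) (nat_lit 1551927456769) (nat_lit 76) (nat_lit 741397900852) (nat_lit 21) (nat_lit 4) (nat_lit 22) (nat_lit 5) (nat_lit 22) (nat_lit 4) (nat_lit 396) (nat_lit 373) (nat_lit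 251))))) (XT.nd (nat_lit 234) (nat_lit 228) (nat_lit 0) (XT.nd (nat_lit 78) (nat_lit 152) (nat_lit 0) (XT.lf (nat_lit 0) (nat_lit 113725272374) (nat_lit 152) (nat_lit 566020224471) (nat_lit 76) (nat_lit 2441489257942) (nat_lit 20) (nat_lit 5) (nat_lit 22) (nat_lit 5) (nat_lit 21) (nat_lit 4) (nat_lit 397) (nat_lit 373) (nat_lit 250)) (XT.nd (nat_lit 78) (nat_lit 76) (nat_lit 0) (XT.lf (nat_lit 0) (nat_lit 1102234725453) (nat_lit 152) (nat_lit 1928151234621) (nat_lit 0) (nat_lit 397426409198) (nat_lit 19) (nat_lit 5) (nat_lit 21) (nat_lit 4) (nat_lit 19) (nat_lit 4) (nat_lit 398) (nat_lit 373) (nat_lit 249)) (XT.lf (nat_lit 0) (nat_lit 141707108794) (nat_lit 76) (nat_lit 2166546446176) (nat_lit 76) (nat_lit 1461738127187) (nat_lit 18) (nat_lit 4) (nat_lit 19) (nat_lit 5) (nat_lit 19) (nat_lit 4) (nat_lit 399) (nat_lit 373) (nat_lit 248)))) (XT.nd (nat_lit 156) (nat_lit 76) (nat_lit 0) (XT.nd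 (nat_lit 78) (nat_lit 152) (nat_lit 0) (XT.lf (nat_lit 0) (nat_lit 2738742090837) (nat_lit 76) (nat_lit 1057222832660) (nat_lit 76) (nat_lit 352414511292) (nat_lit 18) (nat_lit 4) (nat_lit 19) (nat_lit 5) (nat_lit 19) (nat_lit 4) (nat_lit 400) (nat_lit 373) (nat_lit 247)) (XT.lf (nat_lit 0) (nat_lit 904527757534) (nat_lit 152) (nat_lit 3372098906823) (nat_lit 0) (nat_lit 291650954546) (nat_lit 16) (nat_lit 5) (nat_lit 18) (nat_lit 4) (nat_lit 16) (nat_lit 4) (nat_lit 401) (nat_lit 373) (nat_lit 246))) (XT.nd (nat_lit 78) (nat_lit 76) (nat_lit 0) (XT.lf (nat_lit 0) (nat_lit 2441469195585) (nat_lit 152) (nat_lit 759450943173) (nat_lit 0) (nat_lit 1828592391034) (nat_lit 16) (nat_lit 5) (nat_lit 18) (nat_lit 4) (nat_lit 16) (nat_lit 4) (nat_lit 402) (nat_lit 373) (nat_lit 245)) (XT.lf (nat_lit 0) (nat_lit 2464501133345) (nat_lit 76) (nat_lit 1846500445248) (nat_lit 76) (nat_lit 1233623639337)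 (nat_lit 15) (nat_lit 4) (nat_lit 16) (nat_lit 5) (nat_lit 16) (nat_lit 4) (nat_lit 403) (nat_lit 373) (nat_lit 244)))))) (XT.nd (nat_lit 546) (nat_lit 304) (nat_lit 0) (XT.nd (nat_lit 234) (nat_lit 228) (nat_lit 0) (XT.nd (nat_lit 78) (nat_lit 76) (nat_lit 0) (XT.lf (nat_lit 0) (nat_lit 121894987601) (nat_lit 76) (nat_lit 219859335512) (nat_lit 152) (nat_lit 5786242860719) (nat_lit 13) (nat_lit 5) (nat_lit 14) (nat_lit 5) (nat_lit 15) (nat_lit 4) (nat_lit 404) (nat_lit 373) (nat_lit 243)) (XT.nd (nat_lit 78) (nat_lit 76) (nat_lit 0) (XT.lf (nat_lit 0) (nat_lit 2264168065788) (nat_lit 152) (nat_lit 2759109273169) (nat_lit 0) (nat_lit 1731231710900) (nat_lit 13) (nat_lit 5) (nat_lit 15) (nat_lit 4) (nat_lit 13) (nat_lit 4) (nat_lit 405) (nat_lit 373) (nat_lit 242)) (XT.lf (nat_lit 0) (nat_lit 1058717429976) (nat_lit 76) (nat_lit 3470535156958) (nat_lit 76) (nat_lit 2937598801292) (nat_lit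 12) (nat_lit 4) (nat_lit 13) (nat_lit 5) (nat_lit 13) (nat_lit 4) (nat_lit 406) (nat_lit 373) (nat_lit 241)))) (XT.nd (nat_lit 156) (nat_lit 76) (nat_lit 0) (XT.nd (nat_lit 78) (nat_lit 152) (nat_lit 0) (XT.lf (nat_lit 0) (nat_lit 5759304384295) (nat_lit 76) (nat_lit 1519021562646) (nat_lit 76) (nat_lit 986085206305) (nat_lit 12) (nat_lit 4) (nat_lit 13) (nat_lit 5) (nat_lit 13) (nat_lit 4) (nat_lit 407) (nat_lit 373) (nat_lit 240)) (XT.lf (nat_lit 0) (nat_lit 1270621905214) (nat_lit 152) (nat_lit 7077297935609) (nat_lit 0) (nat_lit 807198986144) (nat_lit 10) (nat_lit 5) (nat_lit 12) (nat_lit 4) (nat_lit 10) (nat_lit 4) (nat_lit 408) (nat_lit 373) (nat_lit 239))) (XT.nd (nat_lit 78) (nat_lit 76) (nat_lit 0) (XT.lf (nat_lit 0) (nat_lit 3974397514010) (nat_lit 152) (nat_lit 2655589261516) (nat_lit 0) (nat_lit 3510974594496) (nat_lit 10) (nat_lit 5) (nat_lit 12) (nat_lit 4) (nat_lit 10) (nat_lit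 4) (nat_lit 409) (nat_lit 373) (nat_lit 238)) (XT.lf (nat_lit 0) (nat_lit 2666791965826) (nat_lit 76) (nat_lit 4527373662026) (nat_lit 76) (nat_lit 4063950742126) (nat_lit 9) (nat_lit 4) (nat_lit 10) (nat_lit 5) (nat_lit 10) (nat_lit 4) (nat_lit 410) (nat_lit 373) (nat_lit 237))))) (XT.nd (nat_lit 234) (nat_lit 152) (nat_lit 0) (XT.nd (nat_lit 78) (nat_lit 152) (nat_lit 0) (XT.lf (nat_lit 0) (nat_lit 9085982388298) (nat_lit 76) (nat_lit 1949731459272) (nat_lit 76) (nat_lit 1486308539036) (nat_lit 9) (nat_lit 4) (nat_lit 10) (nat_lit 5) (nat_lit 10) (nat_lit 4) (nat_lit 411) (nat_lit 373) (nat_lit 236)) (XT.nd (nat_lit 78) (nat_lit 0) (nat_lit 0) (XT.lf (nat_lit 0) (nat_lit 1507102876622) (nat_lit 152) (nat_lit 11330999572908) (nat_lit 0) (nat_lit 1104126423989) (nat_lit 7) (nat_lit 5) (nat_lit 9) (nat_lit 4) (nat_lit 7) (nat_lit 4) (nat_lit 412) (nat_lit 373) (nat_lit 235)) (XT.lf (nat_lit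 0) (nat_lit 5078364767205) (nat_lit 152) (nat_lit 5768945495400) (nat_lit 0) (nat_lit 4675388314351) (nat_lit 7) (nat_lit 5) (nat_lit 9) (nat_lit 4) (nat_lit 7) (nat_lit 4) (nat_lit 413) (nat_lit 373) (nat_lit 234)))) (XT.nd (nat_lit 156) (nat_lit 76) (nat_lit 0) (XT.nd (nat_lit 78) (nat_lit 0) (nat_lit 0) (XT.lf (nat_lit 0) (nat_lit 688732407903) (nat_lit 76) (nat_lit 8525102470265) (nat_lit 76) (nat_lit 8122126017219) (nat_lit 6) (nat_lit 4) (nat_lit 7) (nat_lit 5) (nat_lit 7) (nat_lit 4) (nat_lit 414) (nat_lit 373) (nat_lit 233)) (XT.lf (nat_lit 0) (nat_lit 8763412795841) (nat_lit 76) (nat_lit 5507771221139) (nat_lit 76) (nat_lit 5104794767925) (nat_lit 6) (nat_lit 4) (nat_lit 7) (nat_lit 5) (nat_lit 7) (nat_lit 4) (nat_lit 415) (nat_lit 373) (nat_lit 232))) (XT.nd (nat_lit 78) (nat_lit 76) (nat_lit 0) (XT.lf (nat_lit 0) (nat_lit 18049295235789) (nat_lit 76) (nat_lit 2037840287927) (nat_lit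 76) (nat_lit 1634863834568) (nat_lit 6) (nat_lit 4) (nat_lit 7) (nat_lit 5) (nat_lit 7) (nat_lit 4) (nat_lit 416) (nat_lit 373) (nat_lit 231)) (XT.lf (nat_lit 0) (nat_lit 2431850353754) (nat_lit 76) (nat_lit 19849105595624) (nat_lit 0) (nat_lit 2081436046376) (nat_lit 5) (nat_lit 5) (nat_lit 6) (nat_lit 4) (nat_lit 5) (nat_lit 4) (nat_lit 417) (nat_lit 373) (nat_lit 230))))))))
noncomputable def xc97 : XT := (XT.nd (nat_lit 50622) (nat_lit 0) (nat_lit 532) (XT.nd (nat_lit 1014) (nat_lit 0) (nat_lit 0) (XT.nd (nat_lit 468) (nat_lit 152) (nat_lit 0) (XT.nd (nat_lit 234) (nat_lit 0) (nat_lit 0) (XT.nd (nat_lit 78) (nat_lit 76) (nat_lit 0) (XT.lf (nat_lit 0) (nat_lit 7239357038380) (nat_lit 76) (nat_lit 13214141518071) (nat_lit 0) (nat_lit 6888942730906) (nat_lit 5) (nat_lit 5) (nat_lit 6) (nat_lit 4) (nat_lit 5) (nat_lit 4) (nat_lit 418) (nat_lit 373) (nat_lit 229)) (XT.nd (nat_lit 78) (nat_lit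 76) (nat_lit 0) (XT.lf (nat_lit 0) (nat_lit 12767989723409) (nat_lit 76) (nat_lit 5583932833786) (nat_lit 0) (nat_lit 12417575415852) (nat_lit 5) (nat_lit 5) (nat_lit 6) (nat_lit 4) (nat_lit 5) (nat_lit 4) (nat_lit 419) (nat_lit 373) (nat_lit 228)) (XT.lf (nat_lit 0) (nat_lit 3502636029340) (nat_lit 76) (nat_lit 15768317968444) (nat_lit 76) (nat_lit 15417903660815) (nat_lit 4) (nat_lit 4) (nat_lit 5) (nat_lit 5) (nat_lit 5) (nat_lit 4) (nat_lit 420) (nat_lit 373) (nat_lit 227)))) (XT.nd (nat_lit 78) (nat_lit 0) (nat_lit 0) (XT.lf (nat_lit 0) (nat_lit 14579748123848) (nat_lit 76) (nat_lit 12461502185698) (nat_lit 76) (nat_lit 12111087878005) (nat_lit 4) (nat_lit 4) (nat_lit 5) (nat_lit 5) (nat_lit 5) (nat_lit 4) (nat_lit 421) (nat_lit 373) (nat_lit 226)) (XT.nd (nat_lit 78) (nat_lit 0) (nat_lit 0) (XT.lf (nat_lit 0) (nat_lit 27318427028995) (nat_lit 76) (nat_lit 8658664037422) (nat_lit 76)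 (nat_lit 8308249729675) (nat_lit 4) (nat_lit 4) (nat_lit 5) (nat_lit 5) (nat_lit 5) (nat_lit 4) (nat_lit 422) (nat_lit 373) (nat_lit 225)) (XT.lf (nat_lit 0) (nat_lit 41967907766839) (nat_lit 76) (nat_lit 4285400168544) (nat_lit 76) (nat_lit 3934985860749) (nat_lit 4) (nat_lit 4) (nat_lit 5) (nat_lit 5) (nat_lit 5) (nat_lit 4) (nat_lit 423) (nat_lit 373) (nat_lit 224))))) (XT.nd (nat_lit 234) (nat_lit 0) (nat_lit 0) (XT.nd (nat_lit 78) (nat_lit 0) (nat_lit 0) (XT.lf (nat_lit 0) (nat_lit 1115179262576) (nat_lit 152) (nat_lit 55026492980431) (nat_lit 0) (nat_lit 810471168806) (nat_lit 2) (nat_lit 5) (nat_lit 4) (nat_lit 4) (nat_lit 2) (nat_lit 4) (nat_lit 424) (nat_lit 373) (nat_lit 223)) (XT.nd (nat_lit 78) (nat_lit 0) (nat_lit 0) (XT.lf (nat_lit 0) (nat_lit 7174232224599) (nat_lit 152) (nat_lit 50560572472055) (nat_lit 0) (nat_lit 6869524130798) (nat_lit 2) (nat_lit 5) (nat_lit 4) (nat_lit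 4) (nat_lit 2) (nat_lit 4) (nat_lit 425) (nat_lit 373) (nat_lit 222)) (XT.lf (nat_lit 0) (nat_lit 14142143129787) (nat_lit 152) (nat_lit 45424763889860) (nat_lit 0) (nat_lit 13837435035959) (nat_lit 2) (nat_lit 5) (nat_lit 4) (nat_lit 4) (nat_lit 2) (nat_lit 4) (nat_lit 426) (nat_lit 373) (nat_lit 221)))) (XT.nd (nat_lit 156) (nat_lit 0) (nat_lit 0) (XT.nd (nat_lit 78) (nat_lit 0) (nat_lit 0) (XT.lf (nat_lit 0) (nat_lit 22155240669765) (nat_lit 152) (nat_lit 39518584022456) (nat_lit 0) (nat_lit 21850532575912) (nat_lit 2) (nat_lit 5) (nat_lit 4) (nat_lit 4) (nat_lit 2) (nat_lit 4) (nat_lit 427) (nat_lit 373) (nat_lit 220)) (XT.lf (nat_lit 0) (nat_lit 31370302839878) (nat_lit 152) (nat_lit 32726477176783) (nat_lit 0) (nat_lit 31065594746005) (nat_lit 2) (nat_lit 5) (nat_lit 4) (nat_lit 4) (nat_lit 2) (nat_lit 4) (nat_lit 428) (nat_lit 373) (nat_lit 219))) (XT.nd (nat_lit 78) (nat_lit 0) (nat_lit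 0) (XT.lf (nat_lit 0) (nat_lit 41967624334760) (nat_lit 152) (nat_lit 24915554305863) (nat_lit 0) (nat_lit 41662916240870) (nat_lit 2) (nat_lit 5) (nat_lit 4) (nat_lit 4) (nat_lit 2) (nat_lit 4) (nat_lit 429) (nat_lit 373) (nat_lit 218)) (XT.lf (nat_lit 0) (nat_lit 54154544053224) (nat_lit 152) (nat_lit 15932993005698) (nat_lit 0) (nat_lit 53849835959318) (nat_lit 2) (nat_lit 5) (nat_lit 4) (nat_lit 4) (nat_lit 2) (nat_lit 4) (nat_lit 430) (nat_lit 373) (nat_lit 217)))))) (XT.nd (nat_lit 49062) (nat_lit 0) (nat_lit 2356) (XT.nd (nat_lit 48828) (nat_lit 0) (nat_lit 3116) (XT.nd (nat_lit 48672) (nat_lit 0) (nat_lit 3040) (XT.lf (nat_lit 0) (nat_lit 68169501728892) (nat_lit 152) (nat_lit 5603047511720) (nat_lit 0) (nat_lit 67864793634973) (nat_lit 2) (nat_lit 5) (nat_lit 4) (nat_lit 4) (nat_lit 2) (nat_lit 4) (nat_lit 431) (nat_lit 373) (nat_lit 216)) (XT.nd (nat_lit 78) (nat_lit 0) (nat_lit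 0) (XT.lf (nat_lit 0) (nat_lit 69808866955) (nat_lit 380) (nat_lit 82375015491) (nat_lit 380) (nat_lit 82375015491) (nat_lit 42) (nat_lit 3) (nat_lit 47) (nat_lit 3) (nat_lit 47) (nat_lit 5) (nat_lit 374) (nat_lit 374) (nat_lit 272)) (XT.lf (nat_lit 76) (nat_lit 75547998801) (nat_lit 0) (nat_lit 77669622331) (nat_lit 380) (nat_lit 350614725792) (nat_lit 43) (nat_lit 5) (nat_lit 42) (nat_lit 3) (nat_lit 47) (nat_lit 5) (nat_lit 375) (nat_lit 374) (nat_lit 271)))) (XT.nd (nat_lit 78) (nat_lit 0) (nat_lit 0) (XT.lf (nat_lit 0) (nat_lit 185458483598) (nat_lit 304) (nat_lit 180045048311) (nat_lit 380) (nat_lit 175760399909) (nat_lit 43) (nat_lit 5) (nat_lit 47) (nat_lit 5) (nat_lit 48) (nat_lit 5) (nat_lit 376) (nat_lit 374) (nat_lit 270)) (XT.nd (nat_lit 78) (nat_lit 0) (nat_lit 76) (XT.lf (nat_lit 76) (nat_lit 111673506600) (nat_lit 0) (nat_lit 119184640945) (nat_lit 380) (nat_lit 352203706095)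 (nat_lit 44) (nat_lit 5) (nat_lit 43) (nat_lit 5) (nat_lit 48) (nat_lit 5) (nat_lit 377) (nat_lit 374) (nat_lit 269)) (XT.lf (nat_lit 0) (nat_lit 299721621477) (nat_lit 304) (nat_lit 169575785874) (nat_lit 76) (nat_lit 159333977333) (nat_lit 44) (nat_lit 5) (nat_lit 48) (nat_lit 5) (nat_lit 45) (nat_lit 5) (nat_lit 378) (nat_lit 374) (nat_lit 268))))) (XT.nd (nat_lit 234) (nat_lit 380) (nat_lit 0) (XT.nd (nat_lit 78) (nat_lit 152) (nat_lit 0) (XT.lf (nat_lit 0) (nat_lit 188625953417) (nat_lit 304) (nat_lit 203774687117) (nat_lit 380) (nat_lit 286612801253) (nat_lit 40) (nat_lit 5) (nat_lit 44) (nat_lit 5) (nat_lit 45) (nat_lit 5) (nat_lit 379) (nat_lit 374) (nat_lit 267)) (XT.nd (nat_lit 78) (nat_lit 152) (nat_lit 0) (XT.lf (nat_lit 0) (nat_lit 512473838734) (nat_lit 380) (nat_lit 120635424322) (nat_lit 76) (nat_lit 101819695464) (nat_lit 40) (nat_lit 5) (nat_lit 45) (nat_lit 5) (nat_lit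 41) (nat_lit 5) (nat_lit 380) (nat_lit 374) (nat_lit 266)) (XT.lf (nat_lit 0) (nat_lit 323693274587) (nat_lit 152) (nat_lit 349971720247) (nat_lit 228) (nat_lit 122100761208) (nat_lit 38) (nat_lit 5) (nat_lit 40) (nat_lit 5) (nat_lit 41) (nat_lit 5) (nat_lit 381) (nat_lit 374) (nat_lit 265)))) (XT.nd (nat_lit 156) (nat_lit 152) (nat_lit 0) (XT.nd (nat_lit 78) (nat_lit 152) (nat_lit 0) (XT.lf (nat_lit 0) (nat_lit 508830530) (nat_lit 228) (nat_lit 16576289567) (nat_lit 76) (nat_lit 847693596063) (nat_lit 37) (nat_lit 5) (nat_lit 40) (nat_lit 5) (nat_lit 38) (nat_lit 5) (nat_lit 382) (nat_lit 374) (nat_lit 264)) (XT.lf (nat_lit 0) (nat_lit 168307821405) (nat_lit 228) (nat_lit 405925772571) (nat_lit 76) (nat_lit 363143065140) (nat_lit 35) (nat_lit 5) (nat_lit 38) (nat_lit 5) (nat_lit 36) (nat_lit 5) (nat_lit 383) (nat_lit 374) (nat_lit 263))) (XT.nd (nat_lit 78) (nat_lit 0) (nat_lit 0) (XT.lf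 (nat_lit 0) (nat_lit 155828861901) (nat_lit 152) (nat_lit 213621645483) (nat_lit 228) (nat_lit 650187709165) (nat_lit 33) (nat_lit 5) (nat_lit 35) (nat_lit 5) (nat_lit 36) (nat_lit 5) (nat_lit 384) (nat_lit 374) (nat_lit 262)) (XT.lf (nat_lit 0) (nat_lit 631320225903) (nat_lit 228) (nat_lit 272925800788) (nat_lit 76) (nat_lit 205409636460) (nat_lit 33) (nat_lit 5) (nat_lit 36) (nat_lit 5) (nat_lit 34) (nat_lit 4) (nat_lit 385) (nat_lit 374) (nat_lit 261))))))) (XT.nd (nat_lit 1014) (nat_lit 836) (nat_lit 0) (XT.nd (nat_lit 468) (nat_lit 456) (nat_lit 0) (XT.nd (nat_lit 234) (nat_lit 228) (nat_lit 0) (XT.nd (nat_lit 78) (nat_lit 228) (nat_lit 0) (XT.lf (nat_lit 0) (nat_lit 435158630088) (nat_lit 76) (nat_lit 525503205260) (nat_lit 152) (nat_lit 248285176427) (nat_lit 32) (nat_lit 5) (nat_lit 33) (nat_lit 5) (nat_lit 34) (nat_lit 4) (nat_lit 386) (nat_lit 374) (nat_lit 260)) (XT.nd (nat_lit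 78) (nat_lit 152) (nat_lit 0) (XT.lf (nat_lit 0) (nat_lit 29769842091) (nat_lit 152) (nat_lit 42216415379) (nat_lit 76) (nat_lit 1248802845022) (nat_lit 31) (nat_lit 5) (nat_lit 33) (nat_lit 5) (nat_lit 32) (nat_lit 5) (nat_lit 387) (nat_lit 374) (nat_lit 259)) (XT.lf (nat_lit 0) (nat_lit 380780641112) (nat_lit 228) (nat_lit 598942807483) (nat_lit 76) (nat_lit 459410512594) (nat_lit 29) (nat_lit 5) (nat_lit 32) (nat_lit 5) (nat_lit 30) (nat_lit 4) (nat_lit 388) (nat_lit 374) (nat_lit 258)))) (XT.nd (nat_lit 78) (nat_lit 152) (nat_lit 0) (XT.lf (nat_lit 0) (nat_lit 308759778869) (nat_lit 76) (nat_lit 494208119535) (nat_lit 152) (nat_lit 769483924525) (nat_lit 28) (nat_lit 5) (nat_lit 29) (nat_lit 5) (nat_lit 30) (nat_lit 4) (nat_lit 389) (nat_lit 374) (nat_lit 257)) (XT.nd (nat_lit 78) (nat_lit 152) (nat_lit 0) (XT.lf (nat_lit 0) (nat_lit 1323938153005) (nat_lit 152) (nat_lit 305286923645)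 (nat_lit 0) (nat_lit 91224050975) (nat_lit 28) (nat_lit 5) (nat_lit 30) (nat_lit 4) (nat_lit 28) (nat_lit 4) (nat_lit 390) (nat_lit 374) (nat_lit 256)) (XT.lf (nat_lit 0) (nat_lit 91003064830) (nat_lit 152) (nat_lit 1037057523708) (nat_lit 76) (nat_lit 753162099472) (nat_lit 26) (nat_lit 5) (nat_lit 28) (nat_lit 5) (nat_lit 27) (nat_lit 4) (nat_lit 391) (nat_lit 374) (nat_lit 255))))) (XT.nd (nat_lit 234) (nat_lit 304) (nat_lit 0) (XT.nd (nat_lit 78) (nat_lit 76) (nat_lit 0) (XT.lf (nat_lit 0) (nat_lit 128417830331) (nat_lit 76) (nat_lit 504666798991) (nat_lit 152) (nat_lit 1426890093333) (nat_lit 25) (nat_lit 5) (nat_lit 26) (nat_lit 5) (nat_lit 27) (nat_lit 4) (nat_lit 392) (nat_lit 374) (nat_lit 254)) (XT.nd (nat_lit 78) (nat_lit 76) (nat_lit 0) (XT.lf (nat_lit 0) (nat_lit 1322057905081) (nat_lit 152) (nat_lit 683512162224) (nat_lit 0) (nat_lit 250132573707) (nat_lit 25) (nat_lit 5) (nat_lit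 27) (nat_lit 4) (nat_lit 25) (nat_lit 4) (nat_lit 393) (nat_lit 374) (nat_lit 253)) (XT.lf (nat_lit 0) (nat_lit 798824375743) (nat_lit 76) (nat_lit 1372662152813) (nat_lit 76) (nat_lit 300736815113) (nat_lit 24) (nat_lit 4) (nat_lit 25) (nat_lit 5) (nat_lit 25) (nat_lit 4) (nat_lit 394) (nat_lit 374) (nat_lit 252)))) (XT.nd (nat_lit 156) (nat_lit 152) (nat_lit 0) (XT.nd (nat_lit 78) (nat_lit 76) (nat_lit 0) (XT.lf (nat_lit 0) (nat_lit 426513667169) (nat_lit 152) (nat_lit 154920958786) (nat_lit 76) (nat_lit 2131520122714) (nat_lit 23) (nat_lit 5) (nat_lit 25) (nat_lit 5) (nat_lit 24) (nat_lit 4) (nat_lit 395) (nat_lit 374) (nat_lit 251)) (XT.lf (nat_lit 0) (nat_lit 1321441083523) (nat_lit 152) (nat_lit 1263467713024) (nat_lit 0) (nat_lit 389332085275) (nat_lit 22) (nat_lit 5) (nat_lit 24) (nat_lit 4) (nat_lit 22) (nat_lit 4) (nat_lit 396) (nat_lit 374) (nat_lit 250))) (XT.nd (nat_lit 78)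 (nat_lit 76) (nat_lit 0) (XT.lf (nat_lit 0) (nat_lit 628069268599) (nat_lit 76) (nat_lit 1784716474312) (nat_lit 76) (nat_lit 852607472448) (nat_lit 21) (nat_lit 4) (nat_lit 22) (nat_lit 5) (nat_lit 22) (nat_lit 4) (nat_lit 397) (nat_lit 374) (nat_lit 249)) (XT.lf (nat_lit 0) (nat_lit 130784153164) (nat_lit 152) (nat_lit 650923075704) (nat_lit 76) (nat_lit 2807712725644) (nat_lit 20) (nat_lit 5) (nat_lit 22) (nat_lit 5) (nat_lit 21) (nat_lit 4) (nat_lit 398) (nat_lit 374) (nat_lit 248)))))) (XT.nd (nat_lit 546) (nat_lit 304) (nat_lit 0) (XT.nd (nat_lit 234) (nat_lit 380) (nat_lit 0) (XT.nd (nat_lit 78) (nat_lit 76) (nat_lit 0) (XT.lf (nat_lit 0) (nat_lit 1267570023360) (nat_lit 152) (nat_lit 2217373736529) (nat_lit 0) (nat_lit 457040451408) (nat_lit 19) (nat_lit 5) (nat_lit 21) (nat_lit 4) (nat_lit 19) (nat_lit 4) (nat_lit 399) (nat_lit 374) (nat_lit 247)) (XT.nd (nat_lit 78) (nat_lit 0)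 (nat_lit 0) (XT.lf (nat_lit 0) (nat_lit 162963350068) (nat_lit 76) (nat_lit 2491528322862) (nat_lit 76) (nat_lit 1680998748843) (nat_lit 18) (nat_lit 4) (nat_lit 19) (nat_lit 5) (nat_lit 19) (nat_lit 4) (nat_lit 400) (nat_lit 374) (nat_lit 246)) (XT.lf (nat_lit 0) (nat_lit 3149553556597) (nat_lit 76) (nat_lit 1215806179088) (nat_lit 76) (nat_lit 405276603271) (nat_lit 18) (nat_lit 4) (nat_lit 19) (nat_lit 5) (nat_lit 19) (nat_lit 4) (nat_lit 401) (nat_lit 374) (nat_lit 245)))) (XT.nd (nat_lit 156) (nat_lit 228) (nat_lit 0) (XT.nd (nat_lit 78) (nat_lit 0) (nat_lit 0) (XT.lf (nat_lit 0) (nat_lit 1040206997853) (nat_lit 152) (nat_lit 3877913582683) (nat_lit 0) (nat_lit 335398669696) (nat_lit 16) (nat_lit 5) (nat_lit 18) (nat_lit 4) (nat_lit 16) (nat_lit 4) (nat_lit 402) (nat_lit 374) (nat_lit 244)) (XT.lf (nat_lit 0) (nat_lit 2807689641610) (nat_lit 152) (nat_lit 873368445377) (nat_lit 0) (nat_lit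 2102881312270) (nat_lit 16) (nat_lit 5) (nat_lit 18) (nat_lit 4) (nat_lit 16) (nat_lit 4) (nat_lit 403) (nat_lit 374) (nat_lit 243))) (XT.nd (nat_lit 78) (nat_lit 152) (nat_lit 0) (XT.lf (nat_lit 0) (nat_lit 2834176436288) (nat_lit 76) (nat_lit 2123475442587) (nat_lit 76) (nat_lit 1418667112219) (nat_lit 15) (nat_lit 4) (nat_lit 16) (nat_lit 5) (nat_lit 16) (nat_lit 4) (nat_lit 404) (nat_lit 374) (nat_lit 242)) (XT.lf (nat_lit 0) (nat_lit 140179368846) (nat_lit 76) (nat_lit 252838166087) (nat_lit 152) (nat_lit 6654179216971) (nat_lit 13) (nat_lit 5) (nat_lit 14) (nat_lit 5) (nat_lit 15) (nat_lit 4) (nat_lit 405) (nat_lit 374) (nat_lit 241))))) (XT.nd (nat_lit 234) (nat_lit 228) (nat_lit 0) (XT.nd (nat_lit 78) (nat_lit 76) (nat_lit 0) (XT.lf (nat_lit 0) (nat_lit 2603793333257) (nat_lit 152) (nat_lit 3172975542649) (nat_lit 0) (nat_lit 1990916522789) (nat_lit 13) (nat_lit 5) (nat_lit 15) (nat_lit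 4) (nat_lit 13) (nat_lit 4) (nat_lit 406) (nat_lit 374) (nat_lit 240)) (XT.nd (nat_lit 78) (nat_lit 0) (nat_lit 0) (XT.lf (nat_lit 0) (nat_lit 1217525160446) (nat_lit 76) (nat_lit 3991115369418) (nat_lit 76) (nat_lit 3378238558362) (nat_lit 12) (nat_lit 4) (nat_lit 13) (nat_lit 5) (nat_lit 13) (nat_lit 4) (nat_lit 407) (nat_lit 374) (nat_lit 239)) (XT.lf (nat_lit 0) (nat_lit 6623200142786) (nat_lit 76) (nat_lit 1746874743928) (nat_lit 76) (nat_lit 1133997932360) (nat_lit 12) (nat_lit 4) (nat_lit 13) (nat_lit 5) (nat_lit 13) (nat_lit 4) (nat_lit 408) (nat_lit 374) (nat_lit 238)))) (XT.nd (nat_lit 156) (nat_lit 76) (nat_lit 0) (XT.nd (nat_lit 78) (nat_lit 0) (nat_lit 0) (XT.lf (nat_lit 0) (nat_lit 1461215240862) (nat_lit 152) (nat_lit 8138892520080) (nat_lit 0) (nat_lit 928278882590) (nat_lit 10) (nat_lit 5) (nat_lit 12) (nat_lit 4) (nat_lit 10) (nat_lit 4) (nat_lit 409) (nat_lit 374) (nat_lit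 237)) (XT.lf (nat_lit 0) (nat_lit 4570557184474) (nat_lit 152) (nat_lit 3053927558682) (nat_lit 0) (nat_lit 4037620825866) (nat_lit 10) (nat_lit 5) (nat_lit 12) (nat_lit 4) (nat_lit 10) (nat_lit 4) (nat_lit 410) (nat_lit 374) (nat_lit 236))) (XT.nd (nat_lit 78) (nat_lit 0) (nat_lit 0) (XT.lf (nat_lit 0) (nat_lit 3066810848577) (nat_lit 76) (nat_lit 5206479664798) (nat_lit 76) (nat_lit 4673543305898) (nat_lit 9) (nat_lit 4) (nat_lit 10) (nat_lit 5) (nat_lit 10) (nat_lit 4) (nat_lit 411) (nat_lit 374) (nat_lit 235)) (XT.lf (nat_lit 0) (nat_lit 10448879822958) (nat_lit 76) (nat_lit 2242191137700) (nat_lit 76) (nat_lit 1709254778546) (nat_lit 9) (nat_lit 4) (nat_lit 10) (nat_lit 5) (nat_lit 10) (nat_lit 4) (nat_lit 412) (nat_lit 374) (nat_lit 234))))))))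
noncomputable def xc98 : XT := (XT.nd (nat_lit 50700) (nat_lit 0) (nat_lit 760) (XT.nd (nat_lit 1014) (nat_lit 0) (nat_lit 0) (XT.nd (nat_lit 468) (nat_lit 228) (nat_lit 0) (XT.nd (nat_lit 234) (nat_lit 76) (nat_lit 0) (XT.nd (nat_lit 78) (nat_lit 76) (nat_lit 0) (XT.lf (nat_lit 0) (nat_lit 1733168345712) (nat_lit 152) (nat_lit 13030649428679) (nat_lit 0) (nat_lit 1269745424516) (nat_lit 7) (nat_lit 5) (nat_lit 9) (nat_lit 4) (nat_lit 7) (nat_lit 4) (nat_lit 413) (nat_lit 374) (nat_lit 233)) (XT.nd (nat_lit 78) (nat_lit 76) (nat_lit 0) (XT.lf (nat_lit 0) (nat_lit 5840119514978) (nat_lit 152) (nat_lit 6634287250001) (nat_lit 0) (nat_lit 5376696593615) (nat_lit 7) (nat_lit 5) (nat_lit 9) (nat_lit 4) (nat_lit 7) (nat_lit 4) (nat_lit 414) (nat_lit 374) (nat_lit 232)) (XT.lf (nat_lit 0) (nat_lit 792042335629) (nat_lit 76) (nat_lit 9803867805449) (nat_lit 76) (nat_lit 9340444883941) (nat_lit 6)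 (nat_lit 4) (nat_lit 7) (nat_lit 5) (nat_lit 7) (nat_lit 4) (nat_lit 415) (nat_lit 374) (nat_lit 231)))) (XT.nd (nat_lit 78) (nat_lit 76) (nat_lit 0) (XT.lf (nat_lit 0) (nat_lit 10077924773078) (nat_lit 76) (nat_lit 6333936873565) (nat_lit 76) (nat_lit 5870513951931) (nat_lit 6) (nat_lit 4) (nat_lit 7) (nat_lit 5) (nat_lit 7) (nat_lit 4) (nat_lit 416) (nat_lit 374) (nat_lit 230)) (XT.nd (nat_lit 78) (nat_lit 76) (nat_lit 0) (XT.lf (nat_lit 0) (nat_lit 20756689571471) (nat_lit 76) (nat_lit 2343516304382) (nat_lit 76) (nat_lit 1880093382637) (nat_lit 6) (nat_lit 4) (nat_lit 7) (nat_lit 5) (nat_lit 7) (nat_lit 4) (nat_lit 417) (nat_lit 374) (nat_lit 229)) (XT.lf (nat_lit 0) (nat_lit 2796627931490) (nat_lit 76) (nat_lit 22826471382210) (nat_lit 0) (nat_lit 2393651477716) (nat_lit 5) (nat_lit 5) (nat_lit 6) (nat_lit 4) (nat_lit 5) (nat_lit 4) (nat_lit 418) (nat_lit 374) (nat_lit 228))))) (XT.nd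 (nat_lit 234) (nat_lit 152) (nat_lit 0) (XT.nd (nat_lit 78) (nat_lit 76) (nat_lit 0) (XT.lf (nat_lit 0) (nat_lit 8325260615592) (nat_lit 76) (nat_lit 15196262699906) (nat_lit 0) (nat_lit 7922284161746) (nat_lit 5) (nat_lit 5) (nat_lit 6) (nat_lit 4) (nat_lit 5) (nat_lit 4) (nat_lit 419) (nat_lit 374) (nat_lit 227)) (XT.nd (nat_lit 78) (nat_lit 76) (nat_lit 0) (XT.lf (nat_lit 0) (nat_lit 14683188200576) (nat_lit 76) (nat_lit 6421522718961) (nat_lit 0) (nat_lit 14280211746667) (nat_lit 5) (nat_lit 5) (nat_lit 6) (nat_lit 4) (nat_lit 5) (nat_lit 4) (nat_lit 420) (nat_lit 374) (nat_lit 226)) (XT.lf (nat_lit 0) (nat_lit 4028031471820) (nat_lit 76) (nat_lit 18133565643431) (nat_lit 76) (nat_lit 17730589189468) (nat_lit 4) (nat_lit 4) (nat_lit 5) (nat_lit 5) (nat_lit 5) (nat_lit 4) (nat_lit 421) (nat_lit 374) (nat_lit 225)))) (XT.nd (nat_lit 156) (nat_lit 152) (nat_lit 0) (XT.nd (nat_lit 78) (nat_lit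 0) (nat_lit 0) (XT.lf (nat_lit 0) (nat_lit 16766710375537) (nat_lit 76) (nat_lit 14330727495918) (nat_lit 76) (nat_lit 13927751041907) (nat_lit 4) (nat_lit 4) (nat_lit 5) (nat_lit 5) (nat_lit 5) (nat_lit 4) (nat_lit 422) (nat_lit 374) (nat_lit 224)) (XT.lf (nat_lit 0) (nat_lit 31416191112137) (nat_lit 76) (nat_lit 9957463627702) (nat_lit 76) (nat_lit 9554487173649) (nat_lit 4) (nat_lit 4) (nat_lit 5) (nat_lit 5) (nat_lit 5) (nat_lit 4) (nat_lit 423) (nat_lit 374) (nat_lit 223))) (XT.nd (nat_lit 78) (nat_lit 152) (nat_lit 0) (XT.lf (nat_lit 0) (nat_lit 48263093956902) (nat_lit 76) (nat_lit 4928210180491) (nat_lit 76) (nat_lit 4525233726403) (nat_lit 4) (nat_lit 4) (nat_lit 5) (nat_lit 5) (nat_lit 5) (nat_lit 4) (nat_lit 424) (nat_lit 374) (nat_lit 222)) (XT.lf (nat_lit 0) (nat_lit 1282456164214) (nat_lit 152) (nat_lit 63280466901251) (nat_lit 0) (nat_lit 932041856284) (nat_lit 2) (nat_lit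 5) (nat_lit 4) (nat_lit 4) (nat_lit 2) (nat_lit 4) (nat_lit 425) (nat_lit 374) (nat_lit 221)))))) (XT.nd (nat_lit 49140) (nat_lit 0) (nat_lit 2888) (XT.nd (nat_lit 234) (nat_lit 0) (nat_lit 0) (XT.nd (nat_lit 78) (nat_lit 0) (nat_lit 0) (XT.lf (nat_lit 0) (nat_lit 8250367068942) (nat_lit 152) (nat_lit 58144658320042) (nat_lit 0) (nat_lit 7899952760988) (nat_lit 2) (nat_lit 5) (nat_lit 4) (nat_lit 4) (nat_lit 2) (nat_lit 4) (nat_lit 426) (nat_lit 374) (nat_lit 220)) (XT.nd (nat_lit 78) (nat_lit 0) (nat_lit 0) (XT.lf (nat_lit 0) (nat_lit 16263464608519) (nat_lit 152) (nat_lit 52238478453494) (nat_lit 0) (nat_lit 15913050300545) (nat_lit 2) (nat_lit 5) (nat_lit 4) (nat_lit 4) (nat_lit 2) (nat_lit 4) (nat_lit 427) (nat_lit 374) (nat_lit 219)) (XT.lf (nat_lit 0) (nat_lit 25478526778284) (nat_lit 152) (nat_lit 45446371608567) (nat_lit 0) (nat_lit 25128112470292) (nat_lit 2) (nat_lit 5) (nat_lit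 4) (nat_lit 4) (nat_lit 2) (nat_lit 4) (nat_lit 428) (nat_lit 374) (nat_lit 218)))) (XT.nd (nat_lit 78) (nat_lit 0) (nat_lit 0) (XT.lf (nat_lit 0) (nat_lit 36075848272864) (nat_lit 152) (nat_lit 37635448738295) (nat_lit 0) (nat_lit 35725433964857) (nat_lit 2) (nat_lit 5) (nat_lit 4) (nat_lit 4) (nat_lit 2) (nat_lit 4) (nat_lit 429) (nat_lit 374) (nat_lit 217)) (XT.nd (nat_lit 78) (nat_lit 0) (nat_lit 0) (XT.lf (nat_lit 0) (nat_lit 48262767991065) (nat_lit 152) (nat_lit 28652887438694) (nat_lit 0) (nat_lit 47912353683044) (nat_lit 2) (nat_lit 5) (nat_lit 4) (nat_lit 4) (nat_lit 2) (nat_lit 4) (nat_lit 430) (nat_lit 374) (nat_lit 216)) (XT.lf (nat_lit 0) (nat_lit 62277725666504) (nat_lit 152) (nat_lit 18322941945206) (nat_lit 0) (nat_lit 61927311358472) (nat_lit 2) (nat_lit 5) (nat_lit 4) (nat_lit 4) (nat_lit 2) (nat_lit 4) (nat_lit 431) (nat_lit 374) (nat_lit 215))))) (XT.nd (nat_lit 234)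 (nat_lit 152) (nat_lit 0) (XT.nd (nat_lit 78) (nat_lit 0) (nat_lit 0) (XT.lf (nat_lit 0) (nat_lit 80280461239) (nat_lit 380) (nat_lit 94731115845) (nat_lit 380) (nat_lit 94731115845) (nat_lit 42) (nat_lit 3) (nat_lit 47) (nat_lit 3) (nat_lit 47) (nat_lit 5) (nat_lit 375) (nat_lit 375) (nat_lit 270)) (XT.nd (nat_lit 78) (nat_lit 0) (nat_lit 76) (XT.lf (nat_lit 76) (nat_lit 86880488745) (nat_lit 0) (nat_lit 89320247120) (nat_lit 380) (nat_lit 403206392256) (nat_lit 43) (nat_lit 5) (nat_lit 42) (nat_lit 3) (nat_lit 47) (nat_lit 5) (nat_lit 376) (nat_lit 375) (nat_lit 269)) (XT.lf (nat_lit 0) (nat_lit 213277659660) (nat_lit 304) (nat_lit 207051485141) (nat_lit 380) (nat_lit 202124316168) (nat_lit 43) (nat_lit 5) (nat_lit 47) (nat_lit 5) (nat_lit 48) (nat_lit 5) (nat_lit 377) (nat_lit 375) (nat_lit 268)))) (XT.nd (nat_lit 156) (nat_lit 228) (nat_lit 0) (XT.nd (nat_lit 78) (nat_lit 0) (nat_lit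 76) (XT.lf (nat_lit 76) (nat_lit 128424838442) (nat_lit 0) (nat_lit 137062394787) (nat_lit 380) (nat_lit 405033843842) (nat_lit 44) (nat_lit 5) (nat_lit 43) (nat_lit 5) (nat_lit 48) (nat_lit 5) (nat_lit 378) (nat_lit 375) (nat_lit 267)) (XT.lf (nat_lit 0) (nat_lit 344680178754) (nat_lit 304) (nat_lit 195011838228) (nat_lit 76) (nat_lit 183234028225) (nat_lit 44) (nat_lit 5) (nat_lit 48) (nat_lit 5) (nat_lit 45) (nat_lit 5) (nat_lit 379) (nat_lit 375) (nat_lit 266))) (XT.nd (nat_lit 78) (nat_lit 0) (nat_lit 0) (XT.lf (nat_lit 0) (nat_lit 216920147614) (nat_lit 304) (nat_lit 234340874563) (nat_lit 380) (nat_lit 329604392982) (nat_lit 40) (nat_lit 5) (nat_lit 44) (nat_lit 5) (nat_lit 45) (nat_lit 5) (nat_lit 380) (nat_lit 375) (nat_lit 265)) (XT.lf (nat_lit 0) (nat_lit 589345163422) (nat_lit 380) (nat_lit 138730439332) (nat_lit 76) (nat_lit 117092662158) (nat_lit 40) (nat_lit 5) (nat_lit 45)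 (nat_lit 5) (nat_lit 41) (nat_lit 5) (nat_lit 381) (nat_lit 375) (nat_lit 264))))))) (XT.nd (nat_lit 1014) (nat_lit 988) (nat_lit 0) (XT.nd (nat_lit 468) (nat_lit 532) (nat_lit 0) (XT.nd (nat_lit 234) (nat_lit 228) (nat_lit 0) (XT.nd (nat_lit 78) (nat_lit 228) (nat_lit 0) (XT.lf (nat_lit 0) (nat_lit 372247550840) (nat_lit 152) (nat_lit 402467421440) (nat_lit 228) (nat_lit 140415612890) (nat_lit 38) (nat_lit 5) (nat_lit 40) (nat_lit 5) (nat_lit 41) (nat_lit 5) (nat_lit 382) (nat_lit 375) (nat_lit 263)) (XT.nd (nat_lit 78) (nat_lit 152) (nat_lit 0) (XT.lf (nat_lit 0) (nat_lit 585363049) (nat_lit 228) (nat_lit 19062464763) (nat_lit 76) (nat_lit 974847664546) (nat_lit 37) (nat_lit 5) (nat_lit 40) (nat_lit 5) (nat_lit 38) (nat_lit 5) (nat_lit 383) (nat_lit 375) (nat_lit 262)) (XT.lf (nat_lit 0) (nat_lit 193554188711) (nat_lit 228) (nat_lit 466814356343) (nat_lit 76) (nat_lit 417614583785) (nat_lit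 35) (nat_lit 5) (nat_lit 38) (nat_lit 5) (nat_lit 36) (nat_lit 5) (nat_lit 384) (nat_lit 375) (nat_lit 261)))) (XT.nd (nat_lit 78) (nat_lit 76) (nat_lit 0) (XT.lf (nat_lit 0) (nat_lit 179203460477) (nat_lit 152) (nat_lit 245664802944) (nat_lit 228) (nat_lit 747715658595) (nat_lit 33) (nat_lit 5) (nat_lit 35) (nat_lit 5) (nat_lit 36) (nat_lit 5) (nat_lit 385) (nat_lit 375) (nat_lit 260)) (XT.nd (nat_lit 78) (nat_lit 76) (nat_lit 0) (XT.lf (nat_lit 0) (nat_lit 726018419466) (nat_lit 228) (nat_lit 313864416466) (nat_lit 76) (nat_lit 236221152717) (nat_lit 33) (nat_lit 5) (nat_lit 36) (nat_lit 5) (nat_lit 34) (nat_lit 4) (nat_lit 386) (nat_lit 375) (nat_lit 259)) (XT.lf (nat_lit 0) (nat_lit 500432667476) (nat_lit 76) (nat_lit 604328592081) (nat_lit 152) (nat_lit 285527781628) (nat_lit 32) (nat_lit 5) (nat_lit 33) (nat_lit 5) (nat_lit 34) (nat_lit 4) (nat_lit 387) (nat_lit 375) (nat_lit 258)))))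 (XT.nd (nat_lit 234) (nat_lit 228) (nat_lit 0) (XT.nd (nat_lit 78) (nat_lit 228) (nat_lit 0) (XT.lf (nat_lit 0) (nat_lit 34235454071) (nat_lit 152) (nat_lit 48548653217) (nat_lit 76) (nat_lit 1436123340213) (nat_lit 31) (nat_lit 5) (nat_lit 33) (nat_lit 5) (nat_lit 32) (nat_lit 5) (nat_lit 388) (nat_lit 375) (nat_lit 257)) (XT.nd (nat_lit 78) (nat_lit 76) (nat_lit 0) (XT.lf (nat_lit 0) (nat_lit 437897867742) (nat_lit 228) (nat_lit 688783998919) (nat_lit 76) (nat_lit 528322169123) (nat_lit 29) (nat_lit 5) (nat_lit 32) (nat_lit 5) (nat_lit 30) (nat_lit 4) (nat_lit 389) (nat_lit 375) (nat_lit 256)) (XT.lf (nat_lit 0) (nat_lit 355073964945) (nat_lit 76) (nat_lit 568339240745) (nat_lit 152) (nat_lit 884906372288) (nat_lit 28) (nat_lit 5) (nat_lit 29) (nat_lit 5) (nat_lit 30) (nat_lit 4) (nat_lit 390) (nat_lit 375) (nat_lit 255)))) (XT.nd (nat_lit 156) (nat_lit 76) (nat_lit 0) (XT.nd (nat_lit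 78) (nat_lit 152) (nat_lit 0) (XT.lf (nat_lit 0) (nat_lit 1522528985981) (nat_lit 152) (nat_lit 351079759035) (nat_lit 0) (nat_lit 104907735239) (nat_lit 28) (nat_lit 5) (nat_lit 30) (nat_lit 4) (nat_lit 28) (nat_lit 4) (nat_lit 391) (nat_lit 375) (nat_lit 254)) (XT.lf (nat_lit 0) (nat_lit 104653633205) (nat_lit 152) (nat_lit 1192615947716) (nat_lit 76) (nat_lit 866136493985) (nat_lit 26) (nat_lit 5) (nat_lit 28) (nat_lit 5) (nat_lit 27) (nat_lit 4) (nat_lit 392) (nat_lit 375) (nat_lit 253))) (XT.nd (nat_lit 78) (nat_lit 0) (nat_lit 0) (XT.lf (nat_lit 0) (nat_lit 147680700132) (nat_lit 76) (nat_lit 580366726153) (nat_lit 152) (nat_lit 1640923489378) (nat_lit 25) (nat_lit 5) (nat_lit 26) (nat_lit 5) (nat_lit 27) (nat_lit 4) (nat_lit 393) (nat_lit 375) (nat_lit 252)) (XT.lf (nat_lit 0) (nat_lit 1520366683367) (nat_lit 152) (nat_lit 786038806728) (nat_lit 0) (nat_lit 287652533185) (nat_lit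 25) (nat_lit 5) (nat_lit 27) (nat_lit 4) (nat_lit 25) (nat_lit 4) (nat_lit 394) (nat_lit 375) (nat_lit 251)))))) (XT.nd (nat_lit 546) (nat_lit 456) (nat_lit 0) (XT.nd (nat_lit 234) (nat_lit 304) (nat_lit 0) (XT.nd (nat_lit 78) (nat_lit 152) (nat_lit 0) (XT.lf (nat_lit 0) (nat_lit 918648203760) (nat_lit 76) (nat_lit 1578561391642) (nat_lit 76) (nat_lit 345847236677) (nat_lit 24) (nat_lit 4) (nat_lit 25) (nat_lit 5) (nat_lit 25) (nat_lit 4) (nat_lit 395) (nat_lit 375) (nat_lit 250)) (XT.nd (nat_lit 78) (nat_lit 76) (nat_lit 0) (XT.lf (nat_lit 0) (nat_lit 490490797016) (nat_lit 152) (nat_lit 178158945539) (nat_lit 76) (nat_lit 2451248206446) (nat_lit 23) (nat_lit 5) (nat_lit 25) (nat_lit 5) (nat_lit 24) (nat_lit 4) (nat_lit 396) (nat_lit 375) (nat_lit 249)) (XT.lf (nat_lit 0) (nat_lit 1519657324704) (nat_lit 152) (nat_lit 1452987711790) (nat_lit 0) (nat_lit 447731965799) (nat_lit 22) (nat_lit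 5) (nat_lit 24) (nat_lit 4) (nat_lit 22) (nat_lit 4) (nat_lit 397) (nat_lit 375) (nat_lit 248)))) (XT.nd (nat_lit 156) (nat_lit 152) (nat_lit 0) (XT.nd (nat_lit 78) (nat_lit 76) (nat_lit 0) (XT.lf (nat_lit 0) (nat_lit 722279809886) (nat_lit 76) (nat_lit 2052423869109) (nat_lit 76) (nat_lit 980498507469) (nat_lit 21) (nat_lit 4) (nat_lit 22) (nat_lit 5) (nat_lit 22) (nat_lit 4) (nat_lit 398) (nat_lit 375) (nat_lit 247)) (XT.lf (nat_lit 0) (nat_lit 150401844143) (nat_lit 152) (nat_lit 748561399110) (nat_lit 76) (nat_lit 3228869694234) (nat_lit 20) (nat_lit 5) (nat_lit 22) (nat_lit 5) (nat_lit 21) (nat_lit 4) (nat_lit 399) (nat_lit 375) (nat_lit 246))) (XT.nd (nat_lit 78) (nat_lit 76) (nat_lit 0) (XT.lf (nat_lit 0) (nat_lit 1457705594228) (nat_lit 152) (nat_lit 2549979658418) (nat_lit 0) (nat_lit 525596580240) (nat_lit 19) (nat_lit 5) (nat_lit 21) (nat_lit 4) (nat_lit 19) (nat_lit 4) (nat_lit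 400) (nat_lit 375) (nat_lit 245)) (XT.lf (nat_lit 0) (nat_lit 187407984869) (nat_lit 76) (nat_lit 2865257503056) (nat_lit 76) (nat_lit 1933148487504) (nat_lit 18) (nat_lit 4) (nat_lit 19) (nat_lit 5) (nat_lit 19) (nat_lit 4) (nat_lit 401) (nat_lit 375) (nat_lit 244))))) (XT.nd (nat_lit 234) (nat_lit 304) (nat_lit 0) (XT.nd (nat_lit 78) (nat_lit 152) (nat_lit 0) (XT.lf (nat_lit 0) (nat_lit 3621986705122) (nat_lit 76) (nat_lit 1398177046617) (nat_lit 76) (nat_lit 466068029705) (nat_lit 18) (nat_lit 4) (nat_lit 19) (nat_lit 5) (nat_lit 19) (nat_lit 4) (nat_lit 402) (nat_lit 375) (nat_lit 243)) (XT.nd (nat_lit 78) (nat_lit 0) (nat_lit 0) (XT.lf (nat_lit 0) (nat_lit 1196238105520) (nat_lit 152) (nat_lit 4459600498980) (nat_lit 0) (nat_lit 385708524569) (nat_lit 16) (nat_lit 5) (nat_lit 18) (nat_lit 4) (nat_lit 16) (nat_lit 4) (nat_lit 403) (nat_lit 375) (nat_lit 242)) (XT.lf (nat_lit 0) (nat_lit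 3228843138276) (nat_lit 152) (nat_lit 1004373606874) (nat_lit 0) (nat_lit 2418313556431) (nat_lit 16) (nat_lit 5) (nat_lit 18) (nat_lit 4) (nat_lit 16) (nat_lit 4) (nat_lit 404) (nat_lit 375) (nat_lit 241)))) (XT.nd (nat_lit 156) (nat_lit 76) (nat_lit 0) (XT.nd (nat_lit 78) (nat_lit 152) (nat_lit 0) (XT.lf (nat_lit 0) (nat_lit 3259303002254) (nat_lit 76) (nat_lit 2441996706462) (nat_lit 76) (nat_lit 1631467123839) (nat_lit 15) (nat_lit 4) (nat_lit 16) (nat_lit 5) (nat_lit 16) (nat_lit 4) (nat_lit 405) (nat_lit 375) (nat_lit 240)) (XT.lf (nat_lit 0) (nat_lit 161206374819) (nat_lit 76) (nat_lit 290763838258) (nat_lit 152) (nat_lit 7652306044426) (nat_lit 13) (nat_lit 5) (nat_lit 14) (nat_lit 5) (nat_lit 15) (nat_lit 4) (nat_lit 406) (nat_lit 375) (nat_lit 239))) (XT.nd (nat_lit 78) (nat_lit 76) (nat_lit 0) (XT.lf (nat_lit 0) (nat_lit 2994362376801) (nat_lit 152) (nat_lit 3648921782178) (nat_lit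 0) (nat_lit 2289554042987) (nat_lit 13) (nat_lit 5) (nat_lit 15) (nat_lit 4) (nat_lit 13) (nat_lit 4) (nat_lit 407) (nat_lit 375) (nat_lit 238)) (XT.lf (nat_lit 0) (nat_lit 1400154022205) (nat_lit 76) (nat_lit 4589782628644) (nat_lit 76) (nat_lit 3884974294385) (nat_lit 12) (nat_lit 4) (nat_lit 13) (nat_lit 5) (nat_lit 13) (nat_lit 4) (nat_lit 408) (nat_lit 375) (nat_lit 237))))))))
noncomputable def xc99 : XT := (XT.nd (nat_lit 50778) (nat_lit 0) (nat_lit 1064) (XT.nd (nat_lit 1014) (nat_lit 228) (nat_lit 0) (XT.nd (nat_lit 468) (nat_lit 152) (nat_lit 0) (XT.nd (nat_lit 234) (nat_lit 228) (nat_lit 0) (XT.nd (nat_lit 78) (nat_lit 152) (nat_lit 0) (XT.lf (nat_lit 0) (nat_lit 7616680240458) (nat_lit 76) (nat_lit 2008905915354) (nat_lit 76) (nat_lit 1304097580708) (nat_lit 12) (nat_lit 4) (nat_lit 13) (nat_lit 5) (nat_lit 13) (nat_lit 4) (nat_lit 409) (nat_lit 375) (nat_lit 236)) (XT.nd (nat_lit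 78) (nat_lit 0) (nat_lit 0) (XT.lf (nat_lit 0) (nat_lit 1680397564698) (nat_lit 152) (nat_lit 9359726318038) (nat_lit 0) (nat_lit 1067520751671) (nat_lit 10) (nat_lit 5) (nat_lit 12) (nat_lit 4) (nat_lit 10) (nat_lit 4) (nat_lit 410) (nat_lit 375) (nat_lit 235)) (XT.lf (nat_lit 0) (nat_lit 5256140794933) (nat_lit 152) (nat_lit 3512016622872) (nat_lit 0) (nat_lit 4643263981652) (nat_lit 10) (nat_lit 5) (nat_lit 12) (nat_lit 4) (nat_lit 10) (nat_lit 4) (nat_lit 411) (nat_lit 375) (nat_lit 234)))) (XT.nd (nat_lit 78) (nat_lit 152) (nat_lit 0) (XT.lf (nat_lit 0) (nat_lit 3526832542312) (nat_lit 76) (nat_lit 5987451579332) (nat_lit 76) (nat_lit 5374574765830) (nat_lit 9) (nat_lit 4) (nat_lit 10) (nat_lit 5) (nat_lit 10) (nat_lit 4) (nat_lit 412) (nat_lit 375) (nat_lit 233)) (XT.nd (nat_lit 78) (nat_lit 152) (nat_lit 0) (XT.lf (nat_lit 0) (nat_lit 12016211854182) (nat_lit 76) (nat_lit 2578519777759)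 (nat_lit 76) (nat_lit 1965642964064) (nat_lit 9) (nat_lit 4) (nat_lit 10) (nat_lit 5) (nat_lit 10) (nat_lit 4) (nat_lit 413) (nat_lit 375) (nat_lit 232)) (XT.lf (nat_lit 0) (nat_lit 1993143625997) (nat_lit 152) (nat_lit 14985246782365) (nat_lit 0) (nat_lit 1460207266117) (nat_lit 7) (nat_lit 5) (nat_lit 9) (nat_lit 4) (nat_lit 7) (nat_lit 4) (nat_lit 414) (nat_lit 375) (nat_lit 231))))) (XT.nd (nat_lit 234) (nat_lit 76) (nat_lit 0) (XT.nd (nat_lit 78) (nat_lit 76) (nat_lit 0) (XT.lf (nat_lit 0) (nat_lit 6716137466945) (nat_lit 152) (nat_lit 7629430284792) (nat_lit 0) (nat_lit 6183201106939) (nat_lit 7) (nat_lit 5) (nat_lit 9) (nat_lit 4) (nat_lit 7) (nat_lit 4) (nat_lit 415) (nat_lit 375) (nat_lit 230)) (XT.nd (nat_lit 78) (nat_lit 0) (nat_lit 0) (XT.lf (nat_lit 0) (nat_lit 910848736287) (nat_lit 76) (nat_lit 11274447949532) (nat_lit 76) (nat_lit 10741511589416) (nat_lit 6) (nat_lit 4) (nat_lit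 7) (nat_lit 5) (nat_lit 7) (nat_lit 4) (nat_lit 416) (nat_lit 375) (nat_lit 229)) (XT.lf (nat_lit 0) (nat_lit 11589613532790) (nat_lit 76) (nat_lit 7284027381352) (nat_lit 76) (nat_lit 6751091021141) (nat_lit 6) (nat_lit 4) (nat_lit 7) (nat_lit 5) (nat_lit 7) (nat_lit 4) (nat_lit 417) (nat_lit 375) (nat_lit 228)))) (XT.nd (nat_lit 156) (nat_lit 0) (nat_lit 0) (XT.nd (nat_lit 78) (nat_lit 76) (nat_lit 0) (XT.lf (nat_lit 0) (nat_lit 23870193045236) (nat_lit 76) (nat_lit 2695043729824) (nat_lit 76) (nat_lit 2162107369529) (nat_lit 6) (nat_lit 4) (nat_lit 7) (nat_lit 5) (nat_lit 7) (nat_lit 4) (nat_lit 418) (nat_lit 375) (nat_lit 227)) (XT.lf (nat_lit 0) (nat_lit 3216122139870) (nat_lit 76) (nat_lit 26250442049649) (nat_lit 0) (nat_lit 2752699217812) (nat_lit 5) (nat_lit 5) (nat_lit 6) (nat_lit 4) (nat_lit 5) (nat_lit 4) (nat_lit 419) (nat_lit 375) (nat_lit 226))) (XT.nd (nat_lit 78) (nat_lit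 0) (nat_lit 0) (XT.lf (nat_lit 0) (nat_lit 9574049724153) (nat_lit 76) (nat_lit 17475702070203) (nat_lit 0) (nat_lit 9110626802041) (nat_lit 5) (nat_lit 5) (nat_lit 6) (nat_lit 4) (nat_lit 5) (nat_lit 4) (nat_lit 420) (nat_lit 375) (nat_lit 225)) (XT.lf (nat_lit 0) (nat_lit 16885666444769) (nat_lit 76) (nat_lit 7384751096641) (nat_lit 0) (nat_lit 16422243522609) (nat_lit 5) (nat_lit 5) (nat_lit 6) (nat_lit 4) (nat_lit 5) (nat_lit 4) (nat_lit 421) (nat_lit 375) (nat_lit 224)))))) (XT.nd (nat_lit 546) (nat_lit 0) (nat_lit 0) (XT.nd (nat_lit 234) (nat_lit 152) (nat_lit 0) (XT.nd (nat_lit 78) (nat_lit 0) (nat_lit 0) (XT.lf (nat_lit 0) (nat_lit 4632236221386) (nat_lit 76) (nat_lit 20853600474612) (nat_lit 76) (nat_lit 20390177552410) (nat_lit 4) (nat_lit 4) (nat_lit 5) (nat_lit 5) (nat_lit 5) (nat_lit 4) (nat_lit 422) (nat_lit 375) (nat_lit 223)) (XT.nd (nat_lit 78) (nat_lit 0) (nat_lit 0) (XT.lf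 (nat_lit 0) (nat_lit 19281716956905) (nat_lit 76) (nat_lit 16480336606971) (nat_lit 76) (nat_lit 16016913684734) (nat_lit 4) (nat_lit 4) (nat_lit 5) (nat_lit 5) (nat_lit 5) (nat_lit 4) (nat_lit 423) (nat_lit 375) (nat_lit 222)) (XT.lf (nat_lit 0) (nat_lit 36128619800730) (nat_lit 76) (nat_lit 11451083160262) (nat_lit 76) (nat_lit 10987660237993) (nat_lit 4) (nat_lit 4) (nat_lit 5) (nat_lit 5) (nat_lit 5) (nat_lit 4) (nat_lit 424) (nat_lit 375) (nat_lit 221)))) (XT.nd (nat_lit 156) (nat_lit 0) (nat_lit 0) (XT.nd (nat_lit 78) (nat_lit 152) (nat_lit 0) (XT.lf (nat_lit 0) (nat_lit 55502558069370) (nat_lit 76) (nat_lit 5667441697482) (nat_lit 76) (nat_lit 5204018775186) (nat_lit 4) (nat_lit 4) (nat_lit 5) (nat_lit 5) (nat_lit 5) (nat_lit 4) (nat_lit 425) (nat_lit 375) (nat_lit 220)) (XT.lf (nat_lit 0) (nat_lit 1474824598109) (nat_lit 152) (nat_lit 72772536916593) (nat_lit 0) (nat_lit 1071848143919)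 (nat_lit 2) (nat_lit 5) (nat_lit 4) (nat_lit 4) (nat_lit 2) (nat_lit 4) (nat_lit 426) (nat_lit 375) (nat_lit 219))) (XT.nd (nat_lit 78) (nat_lit 0) (nat_lit 0) (XT.lf (nat_lit 0) (nat_lit 9487922137339) (nat_lit 152) (nat_lit 66866357050791) (nat_lit 0) (nat_lit 9084945683130) (nat_lit 2) (nat_lit 5) (nat_lit 4) (nat_lit 4) (nat_lit 2) (nat_lit 4) (nat_lit 427) (nat_lit 375) (nat_lit 218)) (XT.lf (nat_lit 0) (nat_lit 18702984306801) (nat_lit 152) (nat_lit 60074250206513) (nat_lit 0) (nat_lit 18300007852577) (nat_lit 2) (nat_lit 5) (nat_lit 4) (nat_lit 4) (nat_lit 2) (nat_lit 4) (nat_lit 428) (nat_lit 375) (nat_lit 217))))) (XT.nd (nat_lit 234) (nat_lit 0) (nat_lit 0) (XT.nd (nat_lit 78) (nat_lit 0) (nat_lit 0) (XT.lf (nat_lit 0) (nat_lit 29300305801118) (nat_lit 152) (nat_lit 52263327336804) (nat_lit 0) (nat_lit 28897329346880) (nat_lit 2) (nat_lit 5) (nat_lit 4) (nat_lit 4) (nat_lit 2)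 (nat_lit 4) (nat_lit 429) (nat_lit 375) (nat_lit 216)) (XT.nd (nat_lit 78) (nat_lit 0) (nat_lit 0) (XT.lf (nat_lit 0) (nat_lit 41487225519090) (nat_lit 152) (nat_lit 43280766037693) (nat_lit 0) (nat_lit 41084249064841) (nat_lit 2) (nat_lit 5) (nat_lit 4) (nat_lit 4) (nat_lit 2) (nat_lit 4) (nat_lit 430) (nat_lit 375) (nat_lit 215)) (XT.lf (nat_lit 0) (nat_lit 55502183194331) (nat_lit 152) (nat_lit 32950820544631) (nat_lit 0) (nat_lit 55099206740071) (nat_lit 2) (nat_lit 5) (nat_lit 4) (nat_lit 4) (nat_lit 2) (nat_lit 4) (nat_lit 431) (nat_lit 375) (nat_lit 214)))) (XT.nd (nat_lit 48828) (nat_lit 0) (nat_lit 3040) (XT.nd (nat_lit 48750) (nat_lit 0) (nat_lit 3040) (XT.lf (nat_lit 0) (nat_lit 71619384520485) (nat_lit 152) (nat_lit 21071383228407) (nat_lit 0) (nat_lit 71216408066217) (nat_lit 2) (nat_lit 5) (nat_lit 4) (nat_lit 4) (nat_lit 2) (nat_lit 4) (nat_lit 432) (nat_lit 375) (nat_lit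 213)) (XT.lf (nat_lit 0) (nat_lit 92322730229) (nat_lit 380) (nat_lit 108940668311) (nat_lit 380) (nat_lit 108940668311) (nat_lit 42) (nat_lit 3) (nat_lit 47) (nat_lit 3) (nat_lit 47) (nat_lit 5) (nat_lit 376) (nat_lit 376) (nat_lit 268))) (XT.nd (nat_lit 78) (nat_lit 0) (nat_lit 76) (XT.lf (nat_lit 76) (nat_lit 99912781432) (nat_lit 0) (nat_lit 102718421382) (nat_lit 380) (nat_lit 463686940958) (nat_lit 43) (nat_lit 5) (nat_lit 42) (nat_lit 3) (nat_lit 47) (nat_lit 5) (nat_lit 377) (nat_lit 376) (nat_lit 267)) (XT.lf (nat_lit 0) (nat_lit 245269613729) (nat_lit 304) (nat_lit 238108965631) (nat_lit 380) (nat_lit 232442854915) (nat_lit 43) (nat_lit 5) (nat_lit 47) (nat_lit 5) (nat_lit 48) (nat_lit 5) (nat_lit 378) (nat_lit 376) (nat_lit 266))))))) (XT.nd (nat_lit 1014) (nat_lit 912) (nat_lit 0) (XT.nd (nat_lit 468) (nat_lit 684) (nat_lit 0) (XT.nd (nat_lit 234) (nat_lit 228) (nat_lit 0) (XT.nd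 (nat_lit 78) (nat_lit 228) (nat_lit 0) (XT.lf (nat_lit 76) (nat_lit 147688795477) (nat_lit 0) (nat_lit 157621797635) (nat_lit 380) (nat_lit 465788604223) (nat_lit 44) (nat_lit 5) (nat_lit 43) (nat_lit 5) (nat_lit 48) (nat_lit 5) (nat_lit 379) (nat_lit 376) (nat_lit 265)) (XT.nd (nat_lit 78) (nat_lit 304) (nat_lit 0) (XT.lf (nat_lit 0) (nat_lit 396382443038) (nat_lit 304) (nat_lit 224263375378) (nat_lit 76) (nat_lit 210719097898) (nat_lit 44) (nat_lit 5) (nat_lit 48) (nat_lit 5) (nat_lit 45) (nat_lit 5) (nat_lit 380) (nat_lit 376) (nat_lit 264)) (XT.lf (nat_lit 0) (nat_lit 249458397496) (nat_lit 304) (nat_lit 269491993935) (nat_lit 380) (nat_lit 379044803567) (nat_lit 40) (nat_lit 5) (nat_lit 44) (nat_lit 5) (nat_lit 45) (nat_lit 5) (nat_lit 381) (nat_lit 376) (nat_lit 263)))) (XT.nd (nat_lit 78) (nat_lit 228) (nat_lit 0) (XT.lf (nat_lit 0) (nat_lit 677747126124) (nat_lit 380) (nat_lit 159539779418)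 (nat_lit 76) (nat_lit 134656570839) (nat_lit 40) (nat_lit 5) (nat_lit 45) (nat_lit 5) (nat_lit 41) (nat_lit 5) (nat_lit 382) (nat_lit 376) (nat_lit 262)) (XT.nd (nat_lit 78) (nat_lit 76) (nat_lit 0) (XT.lf (nat_lit 0) (nat_lit 428084899016) (nat_lit 152) (nat_lit 462837491673) (nat_lit 228) (nat_lit 161477756336) (nat_lit 38) (nat_lit 5) (nat_lit 40) (nat_lit 5) (nat_lit 41) (nat_lit 5) (nat_lit 383) (nat_lit 376) (nat_lit 261)) (XT.lf (nat_lit 0) (nat_lit 673324739) (nat_lit 228) (nat_lit 21921631650) (nat_lit 76) (nat_lit 1121074836212) (nat_lit 37) (nat_lit 5) (nat_lit 40) (nat_lit 5) (nat_lit 38) (nat_lit 5) (nat_lit 384) (nat_lit 376) (nat_lit 260))))) (XT.nd (nat_lit 234) (nat_lit 380) (nat_lit 0) (XT.nd (nat_lit 78) (nat_lit 152) (nat_lit 0) (XT.lf (nat_lit 0) (nat_lit 222587463781) (nat_lit 228) (nat_lit 536836296476) (nat_lit 76) (nat_lit 480256815870) (nat_lit 35) (nat_lit 5) (nat_lit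 38) (nat_lit 5) (nat_lit 36) (nat_lit 5) (nat_lit 385) (nat_lit 376) (nat_lit 259)) (XT.nd (nat_lit 78) (nat_lit 0) (nat_lit 0) (XT.lf (nat_lit 0) (nat_lit 206084183170) (nat_lit 152) (nat_lit 282514455815) (nat_lit 228) (nat_lit 859872850903) (nat_lit 33) (nat_lit 5) (nat_lit 35) (nat_lit 5) (nat_lit 36) (nat_lit 5) (nat_lit 386) (nat_lit 376) (nat_lit 258)) (XT.lf (nat_lit 0) (nat_lit 834921303125) (nat_lit 228) (nat_lit 360943886543) (nat_lit 76) (nat_lit 271654379150) (nat_lit 33) (nat_lit 5) (nat_lit 36) (nat_lit 5) (nat_lit 34) (nat_lit 4) (nat_lit 387) (nat_lit 376) (nat_lit 257)))) (XT.nd (nat_lit 156) (nat_lit 228) (nat_lit 0) (XT.nd (nat_lit 78) (nat_lit 76) (nat_lit 0) (XT.lf (nat_lit 0) (nat_lit 575497751245) (nat_lit 76) (nat_lit 694977809840) (nat_lit 152) (nat_lit 328356819373) (nat_lit 32) (nat_lit 5) (nat_lit 33) (nat_lit 5) (nat_lit 34) (nat_lit 4) (nat_lit 388) (nat_lit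 376) (nat_lit 256)) (XT.lf (nat_lit 0) (nat_lit 39370874765) (nat_lit 152) (nat_lit 55830781469) (nat_lit 76) (nat_lit 1651541892993) (nat_lit 31) (nat_lit 5) (nat_lit 33) (nat_lit 5) (nat_lit 32) (nat_lit 5) (nat_lit 389) (nat_lit 376) (nat_lit 255))) (XT.nd (nat_lit 78) (nat_lit 76) (nat_lit 0) (XT.lf (nat_lit 0) (nat_lit 503582646552) (nat_lit 228) (nat_lit 792101425082) (nat_lit 76) (nat_lit 607570554710) (nat_lit 29) (nat_lit 5) (nat_lit 32) (nat_lit 5) (nat_lit 30) (nat_lit 4) (nat_lit 390) (nat_lit 376) (nat_lit 254)) (XT.lf (nat_lit 0) (nat_lit 408335225467) (nat_lit 76) (nat_lit 653590053722) (nat_lit 152) (nat_lit 1017642221580) (nat_lit 28) (nat_lit 5) (nat_lit 29) (nat_lit 5) (nat_lit 30) (nat_lit 4) (nat_lit 391) (nat_lit 376) (nat_lit 253)))))) (XT.nd (nat_lit 546) (nat_lit 456) (nat_lit 0) (XT.nd (nat_lit 234) (nat_lit 228) (nat_lit 0) (XT.nd (nat_lit 78) (nat_lit 228) (nat_lit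 0) (XT.lf (nat_lit 0) (nat_lit 1750908417074) (nat_lit 152) (nat_lit 403741569274) (nat_lit 0) (nat_lit 120643953458) (nat_lit 28) (nat_lit 5) (nat_lit 30) (nat_lit 4) (nat_lit 28) (nat_lit 4) (nat_lit 392) (nat_lit 376) (nat_lit 252)) (XT.nd (nat_lit 78) (nat_lit 76) (nat_lit 0) (XT.lf (nat_lit 0) (nat_lit 120351760341) (nat_lit 152) (nat_lit 1371508185205) (nat_lit 76) (nat_lit 996057028267) (nat_lit 26) (nat_lit 5) (nat_lit 28) (nat_lit 5) (nat_lit 27) (nat_lit 4) (nat_lit 393) (nat_lit 376) (nat_lit 251)) (XT.lf (nat_lit 0) (nat_lit 169832952790) (nat_lit 76) (nat_lit 667421664992) (nat_lit 152) (nat_lit 1887061923594) (nat_lit 25) (nat_lit 5) (nat_lit 26) (nat_lit 5) (nat_lit 27) (nat_lit 4) (nat_lit 394) (nat_lit 376) (nat_lit 250)))) (XT.nd (nat_lit 156) (nat_lit 152) (nat_lit 0) (XT.nd (nat_lit 78) (nat_lit 76) (nat_lit 0) (XT.lf (nat_lit 0) (nat_lit 1748421755833) (nat_lit 152)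 (nat_lit 903944491760) (nat_lit 0) (nat_lit 330800468680) (nat_lit 25) (nat_lit 5) (nat_lit 27) (nat_lit 4) (nat_lit 25) (nat_lit 4) (nat_lit 395) (nat_lit 376) (nat_lit 249)) (XT.lf (nat_lit 0) (nat_lit 1056445564120) (nat_lit 76) (nat_lit 1815345536803) (nat_lit 76) (nat_lit 397724246033) (nat_lit 24) (nat_lit 4) (nat_lit 25) (nat_lit 5) (nat_lit 25) (nat_lit 4) (nat_lit 396) (nat_lit 376) (nat_lit 248))) (XT.nd (nat_lit 78) (nat_lit 76) (nat_lit 0) (XT.lf (nat_lit 0) (nat_lit 564064476887) (nat_lit 152) (nat_lit 204882668606) (nat_lit 76) (nat_lit 2818935486807) (nat_lit 23) (nat_lit 5) (nat_lit 25) (nat_lit 5) (nat_lit 24) (nat_lit 4) (nat_lit 397) (nat_lit 376) (nat_lit 247)) (XT.lf (nat_lit 0) (nat_lit 1747605982883) (nat_lit 152) (nat_lit 1670935748947) (nat_lit 0) (nat_lit 514891811884) (nat_lit 22) (nat_lit 5) (nat_lit 24) (nat_lit 4) (nat_lit 22) (nat_lit 4) (nat_lit 398) (nat_lit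 376) (nat_lit 246))))) (XT.nd (nat_lit 234) (nat_lit 228) (nat_lit 0) (XT.nd (nat_lit 78) (nat_lit 152) (nat_lit 0) (XT.lf (nat_lit 0) (nat_lit 830621895544) (nat_lit 76) (nat_lit 2360287391744) (nat_lit 76) (nat_lit 1127573218677) (nat_lit 21) (nat_lit 4) (nat_lit 22) (nat_lit 5) (nat_lit 22) (nat_lit 4) (nat_lit 399) (nat_lit 376) (nat_lit 245)) (XT.nd (nat_lit 78) (nat_lit 76) (nat_lit 0) (XT.lf (nat_lit 0) (nat_lit 172962172184) (nat_lit 152) (nat_lit 860845504668) (nat_lit 76) (nat_lit 3713200193543) (nat_lit 20) (nat_lit 5) (nat_lit 22) (nat_lit 5) (nat_lit 21) (nat_lit 4) (nat_lit 400) (nat_lit 376) (nat_lit 244)) (XT.lf (nat_lit 0) (nat_lit 1676361484299) (nat_lit 152) (nat_lit 2932476502386) (nat_lit 0) (nat_lit 604436113491) (nat_lit 19) (nat_lit 5) (nat_lit 21) (nat_lit 4) (nat_lit 19) (nat_lit 4) (nat_lit 401) (nat_lit 376) (nat_lit 243)))) (XT.nd (nat_lit 156) (nat_lit 152)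 (nat_lit 0) (XT.nd (nat_lit 78) (nat_lit 0) (nat_lit 0) (XT.lf (nat_lit 0) (nat_lit 215519282630) (nat_lit 76) (nat_lit 3295046076918) (nat_lit 76) (nat_lit 2223120704928) (nat_lit 18) (nat_lit 4) (nat_lit 19) (nat_lit 5) (nat_lit 19) (nat_lit 4) (nat_lit 402) (nat_lit 376) (nat_lit 242)) (XT.lf (nat_lit 0) (nat_lit 4165284797874) (nat_lit 76) (nat_lit 1607903558743) (nat_lit 76) (nat_lit 535978185725) (nat_lit 18) (nat_lit 4) (nat_lit 19) (nat_lit 5) (nat_lit 19) (nat_lit 4) (nat_lit 403) (nat_lit 376) (nat_lit 241))) (XT.nd (nat_lit 78) (nat_lit 0) (nat_lit 0) (XT.lf (nat_lit 0) (nat_lit 1375673865195) (nat_lit 152) (nat_lit 5128540482253) (nat_lit 0) (nat_lit 443564844402) (nat_lit 16) (nat_lit 5) (nat_lit 18) (nat_lit 4) (nat_lit 16) (nat_lit 4) (nat_lit 404) (nat_lit 376) (nat_lit 240)) (XT.lf (nat_lit 0) (nat_lit 3713169647146) (nat_lit 152) (nat_lit 1155029568276) (nat_lit 0) (nat_lit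 2781060625677) (nat_lit 16) (nat_lit 5) (nat_lit 18) (nat_lit 4) (nat_lit 16) (nat_lit 4) (nat_lit 405) (nat_lit 376) (nat_lit 239))))))))
noncomputable def xc100 : XT := (XT.nd (nat_lit 2028) (nat_lit 0) (nat_lit 0) (XT.nd (nat_lit 1014) (nat_lit 304) (nat_lit 0) (XT.nd (nat_lit 468) (nat_lit 304) (nat_lit 0) (XT.nd (nat_lit 234) (nat_lit 228) (nat_lit 0) (XT.nd (nat_lit 78) (nat_lit 152) (nat_lit 0) (XT.lf (nat_lit 0) (nat_lit 3748198528602) (nat_lit 76) (nat_lit 2808296172724) (nat_lit 76) (nat_lit 1876187150667) (nat_lit 15) (nat_lit 4) (nat_lit 16) (nat_lit 5) (nat_lit 16) (nat_lit 4) (nat_lit 406) (nat_lit 376) (nat_lit 238)) (XT.nd (nat_lit 78) (nat_lit 0) (nat_lit 0) (XT.lf (nat_lit 0) (nat_lit 185387407145) (nat_lit 76) (nat_lit 334378374116) (nat_lit 152) (nat_lit 8800151909434) (nat_lit 13) (nat_lit 5) (nat_lit 14) (nat_lit 5) (nat_lit 15) (nat_lit 4) (nat_lit 407) (nat_lit 376)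 (nat_lit 237)) (XT.lf (nat_lit 0) (nat_lit 3443516766255) (nat_lit 152) (nat_lit 4196259980040) (nat_lit 0) (nat_lit 2632987181026) (nat_lit 13) (nat_lit 5) (nat_lit 15) (nat_lit 4) (nat_lit 13) (nat_lit 4) (nat_lit 408) (nat_lit 376) (nat_lit 236)))) (XT.nd (nat_lit 78) (nat_lit 152) (nat_lit 0) (XT.lf (nat_lit 0) (nat_lit 1610177191844) (nat_lit 76) (nat_lit 5278249988016) (nat_lit 76) (nat_lit 4467720402451) (nat_lit 12) (nat_lit 4) (nat_lit 13) (nat_lit 5) (nat_lit 13) (nat_lit 4) (nat_lit 409) (nat_lit 376) (nat_lit 235)) (XT.nd (nat_lit 78) (nat_lit 152) (nat_lit 0) (XT.lf (nat_lit 0) (nat_lit 8759182334186) (nat_lit 76) (nat_lit 2310241772288) (nat_lit 76) (nat_lit 1499712186431) (nat_lit 12) (nat_lit 4) (nat_lit 13) (nat_lit 5) (nat_lit 13) (nat_lit 4) (nat_lit 410) (nat_lit 376) (nat_lit 234)) (XT.lf (nat_lit 0) (nat_lit 1932457227914) (nat_lit 152) (nat_lit 10763685205211) (nat_lit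 0) (nat_lit 1227648892165) (nat_lit 10) (nat_lit 5) (nat_lit 12) (nat_lit 4) (nat_lit 10) (nat_lit 4) (nat_lit 411) (nat_lit 376) (nat_lit 233))))) (XT.nd (nat_lit 234) (nat_lit 228) (nat_lit 0) (XT.nd (nat_lit 78) (nat_lit 76) (nat_lit 0) (XT.lf (nat_lit 0) (nat_lit 6044561938966) (nat_lit 152) (nat_lit 4038819063666) (nat_lit 0) (nat_lit 5339753603025) (nat_lit 10) (nat_lit 5) (nat_lit 12) (nat_lit 4) (nat_lit 10) (nat_lit 4) (nat_lit 412) (nat_lit 376) (nat_lit 232)) (XT.nd (nat_lit 78) (nat_lit 0) (nat_lit 0) (XT.lf (nat_lit 0) (nat_lit 4055857473903) (nat_lit 76) (nat_lit 6885569289627) (nat_lit 76) (nat_lit 6180760953519) (nat_lit 9) (nat_lit 4) (nat_lit 10) (nat_lit 5) (nat_lit 10) (nat_lit 4) (nat_lit 413) (nat_lit 376) (nat_lit 231)) (XT.lf (nat_lit 0) (nat_lit 13818643676000) (nat_lit 76) (nat_lit 2965297721288) (nat_lit 76) (nat_lit 2260489385035) (nat_lit 9) (nat_lit 4) (nat_lit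 10) (nat_lit 5) (nat_lit 10) (nat_lit 4) (nat_lit 414) (nat_lit 376) (nat_lit 230)))) (XT.nd (nat_lit 156) (nat_lit 76) (nat_lit 0) (XT.nd (nat_lit 78) (nat_lit 0) (nat_lit 0) (XT.lf (nat_lit 0) (nat_lit 2292115191392) (nat_lit 152) (nat_lit 17233033753886) (nat_lit 0) (nat_lit 1679238377149) (nat_lit 7) (nat_lit 5) (nat_lit 9) (nat_lit 4) (nat_lit 7) (nat_lit 4) (nat_lit 415) (nat_lit 376) (nat_lit 229)) (XT.lf (nat_lit 0) (nat_lit 7723558105679) (nat_lit 152) (nat_lit 8773844787655) (nat_lit 0) (nat_lit 7110681291340) (nat_lit 7) (nat_lit 5) (nat_lit 9) (nat_lit 4) (nat_lit 7) (nat_lit 4) (nat_lit 416) (nat_lit 376) (nat_lit 228))) (XT.nd (nat_lit 78) (nat_lit 0) (nat_lit 0) (XT.lf (nat_lit 0) (nat_lit 1047476084774) (nat_lit 76) (nat_lit 12965615121746) (nat_lit 76) (nat_lit 12352738307325) (nat_lit 6) (nat_lit 4) (nat_lit 7) (nat_lit 5) (nat_lit 7) (nat_lit 4) (nat_lit 417) (nat_lit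 376) (nat_lit 227)) (XT.lf (nat_lit 0) (nat_lit 13328055595791) (nat_lit 76) (nat_lit 8376631470977) (nat_lit 76) (nat_lit 7763754656483) (nat_lit 6) (nat_lit 4) (nat_lit 7) (nat_lit 5) (nat_lit 7) (nat_lit 4) (nat_lit 418) (nat_lit 376) (nat_lit 226)))))) (XT.nd (nat_lit 468) (nat_lit 152) (nat_lit 0) (XT.nd (nat_lit 234) (nat_lit 76) (nat_lit 0) (XT.nd (nat_lit 78) (nat_lit 76) (nat_lit 0) (XT.lf (nat_lit 0) (nat_lit 27450722030789) (nat_lit 76) (nat_lit 3099300274012) (nat_lit 76) (nat_lit 2486423459455) (nat_lit 6) (nat_lit 4) (nat_lit 7) (nat_lit 5) (nat_lit 7) (nat_lit 4) (nat_lit 419) (nat_lit 376) (nat_lit 225)) (XT.nd (nat_lit 78) (nat_lit 0) (nat_lit 0) (XT.lf (nat_lit 0) (nat_lit 3698540474957) (nat_lit 76) (nat_lit 30188008326932) (nat_lit 0) (nat_lit 3165604114425) (nat_lit 5) (nat_lit 5) (nat_lit 6) (nat_lit 4) (nat_lit 5) (nat_lit 4) (nat_lit 420) (nat_lit 376) (nat_lit 224))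 (XT.lf (nat_lit 0) (nat_lit 11010157195043) (nat_lit 76) (nat_lit 20097057354504) (nat_lit 0) (nat_lit 10477220834470) (nat_lit 5) (nat_lit 5) (nat_lit 6) (nat_lit 4) (nat_lit 5) (nat_lit 4) (nat_lit 421) (nat_lit 376) (nat_lit 223)))) (XT.nd (nat_lit 78) (nat_lit 76) (nat_lit 0) (XT.lf (nat_lit 0) (nat_lit 19418516422152) (nat_lit 76) (nat_lit 8492463738329) (nat_lit 0) (nat_lit 18885580061543) (nat_lit 5) (nat_lit 5) (nat_lit 6) (nat_lit 4) (nat_lit 5) (nat_lit 4) (nat_lit 422) (nat_lit 376) (nat_lit 222)) (XT.nd (nat_lit 78) (nat_lit 0) (nat_lit 0) (XT.lf (nat_lit 0) (nat_lit 5327071676366) (nat_lit 76) (nat_lit 23981640534209) (nat_lit 76) (nat_lit 23448704173569) (nat_lit 4) (nat_lit 4) (nat_lit 5) (nat_lit 5) (nat_lit 5) (nat_lit 4) (nat_lit 423) (nat_lit 376) (nat_lit 221)) (XT.lf (nat_lit 0) (nat_lit 22173974519373) (nat_lit 76) (nat_lit 18952387087935) (nat_lit 76) (nat_lit 18419450727267)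 (nat_lit 4) (nat_lit 4) (nat_lit 5) (nat_lit 5) (nat_lit 5) (nat_lit 4) (nat_lit 424) (nat_lit 376) (nat_lit 220))))) (XT.nd (nat_lit 234) (nat_lit 0) (nat_lit 0) (XT.nd (nat_lit 78) (nat_lit 152) (nat_lit 0) (XT.lf (nat_lit 0) (nat_lit 41547912787302) (nat_lit 76) (nat_lit 13168745625534) (nat_lit 76) (nat_lit 12635809264843) (nat_lit 4) (nat_lit 4) (nat_lit 5) (nat_lit 5) (nat_lit 5) (nat_lit 4) (nat_lit 425) (nat_lit 376) (nat_lit 219)) (XT.nd (nat_lit 78) (nat_lit 152) (nat_lit 0) (XT.lf (nat_lit 0) (nat_lit 63827941794091) (nat_lit 76) (nat_lit 6517557944481) (nat_lit 76) (nat_lit 5984621583769) (nat_lit 4) (nat_lit 4) (nat_lit 5) (nat_lit 5) (nat_lit 5) (nat_lit 4) (nat_lit 426) (nat_lit 376) (nat_lit 218)) (XT.lf (nat_lit 0) (nat_lit 1696048294831) (nat_lit 152) (nat_lit 83688417439076) (nat_lit 0) (nat_lit 1232625372457) (nat_lit 2) (nat_lit 5) (nat_lit 4) (nat_lit 4) (nat_lit 2)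 (nat_lit 4) (nat_lit 427) (nat_lit 376) (nat_lit 217)))) (XT.nd (nat_lit 156) (nat_lit 0) (nat_lit 0) (XT.nd (nat_lit 78) (nat_lit 0) (nat_lit 0) (XT.lf (nat_lit 0) (nat_lit 10911110464030) (nat_lit 152) (nat_lit 76896310595361) (nat_lit 0) (nat_lit 10447687541643) (nat_lit 2) (nat_lit 5) (nat_lit 4) (nat_lit 4) (nat_lit 2) (nat_lit 4) (nat_lit 428) (nat_lit 376) (nat_lit 216)) (XT.lf (nat_lit 0) (nat_lit 21508431958118) (nat_lit 152) (nat_lit 69085387726143) (nat_lit 0) (nat_lit 21045009035720) (nat_lit 2) (nat_lit 5) (nat_lit 4) (nat_lit 4) (nat_lit 2) (nat_lit 4) (nat_lit 429) (nat_lit 376) (nat_lit 215))) (XT.nd (nat_lit 78) (nat_lit 0) (nat_lit 0) (XT.lf (nat_lit 0) (nat_lit 33695351675892) (nat_lit 152) (nat_lit 60102826427458) (nat_lit 0) (nat_lit 33231928753483) (nat_lit 2) (nat_lit 5) (nat_lit 4) (nat_lit 4) (nat_lit 2) (nat_lit 4) (nat_lit 430) (nat_lit 376) (nat_lit 214)) (XT.lf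 (nat_lit 0) (nat_lit 47710309350959) (nat_lit 152) (nat_lit 49772880934767) (nat_lit 0) (nat_lit 47246886428541) (nat_lit 2) (nat_lit 5) (nat_lit 4) (nat_lit 4) (nat_lit 2) (nat_lit 4) (nat_lit 431) (nat_lit 376) (nat_lit 213))))))) (XT.nd (nat_lit 49686) (nat_lit 0) (nat_lit 1368) (XT.nd (nat_lit 49140) (nat_lit 0) (nat_lit 2356) (XT.nd (nat_lit 48906) (nat_lit 0) (nat_lit 3040) (XT.nd (nat_lit 78) (nat_lit 0) (nat_lit 0) (XT.lf (nat_lit 0) (nat_lit 63827510676963) (nat_lit 152) (nat_lit 37893443618865) (nat_lit 0) (nat_lit 63364087754537) (nat_lit 2) (nat_lit 5) (nat_lit 4) (nat_lit 4) (nat_lit 2) (nat_lit 4) (nat_lit 432) (nat_lit 376) (nat_lit 212)) (XT.nd (nat_lit 48750) (nat_lit 0) (nat_lit 3040) (XT.lf (nat_lit 0) (nat_lit 82362292201587) (nat_lit 152) (nat_lit 24232090706181) (nat_lit 0) (nat_lit 81898869279154) (nat_lit 2) (nat_lit 5) (nat_lit 4) (nat_lit 4) (nat_lit 2) (nat_lit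 4) (nat_lit 433) (nat_lit 376) (nat_lit 211)) (XT.lf (nat_lit 0) (nat_lit 106171290844) (nat_lit 380) (nat_lit 125281681669) (nat_lit 380) (nat_lit 125281681669) (nat_lit 42) (nat_lit 3) (nat_lit 47) (nat_lit 3) (nat_lit 47) (nat_lit 5) (nat_lit 377) (nat_lit 377) (nat_lit 266)))) (XT.nd (nat_lit 78) (nat_lit 0) (nat_lit 76) (XT.lf (nat_lit 76) (nat_lit 114899864526) (nat_lit 0) (nat_lit 118126288328) (nat_lit 380) (nat_lit 533239671979) (nat_lit 43) (nat_lit 5) (nat_lit 42) (nat_lit 3) (nat_lit 47) (nat_lit 5) (nat_lit 378) (nat_lit 377) (nat_lit 265)) (XT.nd (nat_lit 78) (nat_lit 0) (nat_lit 0) (XT.lf (nat_lit 0) (nat_lit 282060286503) (nat_lit 304) (nat_lit 273825127276) (nat_lit 380) (nat_lit 267309200976) (nat_lit 43) (nat_lit 5) (nat_lit 47) (nat_lit 5) (nat_lit 48) (nat_lit 5) (nat_lit 379) (nat_lit 377) (nat_lit 264)) (XT.lf (nat_lit 76) (nat_lit 169842289671) (nat_lit 0) (nat_lit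 181265100271) (nat_lit 380) (nat_lit 535656655768) (nat_lit 44) (nat_lit 5) (nat_lit 43) (nat_lit 5) (nat_lit 48) (nat_lit 5) (nat_lit 380) (nat_lit 377) (nat_lit 263))))) (XT.nd (nat_lit 234) (nat_lit 532) (nat_lit 0) (XT.nd (nat_lit 78) (nat_lit 304) (nat_lit 0) (XT.lf (nat_lit 0) (nat_lit 455839989056) (nat_lit 304) (nat_lit 257902701281) (nat_lit 76) (nat_lit 242326936449) (nat_lit 44) (nat_lit 5) (nat_lit 48) (nat_lit 5) (nat_lit 45) (nat_lit 5) (nat_lit 381) (nat_lit 377) (nat_lit 262)) (XT.nd (nat_lit 78) (nat_lit 0) (nat_lit 0) (XT.lf (nat_lit 0) (nat_lit 286877329324) (nat_lit 304) (nat_lit 309915784093) (nat_lit 380) (nat_lit 435901336304) (nat_lit 40) (nat_lit 5) (nat_lit 44) (nat_lit 5) (nat_lit 45) (nat_lit 5) (nat_lit 382) (nat_lit 377) (nat_lit 261)) (XT.lf (nat_lit 0) (nat_lit 779409337339) (nat_lit 380) (nat_lit 183470575583) (nat_lit 76) (nat_lit 154855063541) (nat_lit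 40) (nat_lit 5) (nat_lit 45) (nat_lit 5) (nat_lit 41) (nat_lit 5) (nat_lit 383) (nat_lit 377) (nat_lit 260)))) (XT.nd (nat_lit 156) (nat_lit 304) (nat_lit 0) (XT.nd (nat_lit 78) (nat_lit 76) (nat_lit 0) (XT.lf (nat_lit 0) (nat_lit 492297796854) (nat_lit 152) (nat_lit 532263082923) (nat_lit 228) (nat_lit 185699269701) (nat_lit 38) (nat_lit 5) (nat_lit 40) (nat_lit 5) (nat_lit 41) (nat_lit 5) (nat_lit 384) (nat_lit 377) (nat_lit 259)) (XT.lf (nat_lit 0) (nat_lit 774442339) (nat_lit 228) (nat_lit 25209723032) (nat_lit 76) (nat_lit 1289236078266) (nat_lit 37) (nat_lit 5) (nat_lit 40) (nat_lit 5) (nat_lit 38) (nat_lit 5) (nat_lit 385) (nat_lit 377) (nat_lit 258))) (XT.nd (nat_lit 78) (nat_lit 152) (nat_lit 0) (XT.lf (nat_lit 0) (nat_lit 255975694323) (nat_lit 228) (nat_lit 617361579649) (nat_lit 76) (nat_lit 552295371912) (nat_lit 35) (nat_lit 5) (nat_lit 38) (nat_lit 5) (nat_lit 36) (nat_lit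 5) (nat_lit 386) (nat_lit 377) (nat_lit 257)) (XT.lf (nat_lit 0) (nat_lit 236996964614) (nat_lit 152) (nat_lit 324891573095) (nat_lit 228) (nat_lit 988853660217) (nat_lit 33) (nat_lit 5) (nat_lit 35) (nat_lit 5) (nat_lit 36) (nat_lit 5) (nat_lit 387) (nat_lit 377) (nat_lit 256)))))) (XT.nd (nat_lit 546) (nat_lit 456) (nat_lit 0) (XT.nd (nat_lit 234) (nat_lit 380) (nat_lit 0) (XT.nd (nat_lit 78) (nat_lit 152) (nat_lit 0) (XT.lf (nat_lit 0) (nat_lit 960159589890) (nat_lit 228) (nat_lit 415085324047) (nat_lit 76) (nat_lit 312402576496) (nat_lit 33) (nat_lit 5) (nat_lit 36) (nat_lit 5) (nat_lit 34) (nat_lit 4) (nat_lit 388) (nat_lit 377) (nat_lit 255)) (XT.nd (nat_lit 78) (nat_lit 76) (nat_lit 0) (XT.lf (nat_lit 0) (nat_lit 661822552797) (nat_lit 76) (nat_lit 799224427590) (nat_lit 152) (nat_lit 377610244358) (nat_lit 32) (nat_lit 5) (nat_lit 33) (nat_lit 5) (nat_lit 34) (nat_lit 4) (nat_lit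 389) (nat_lit 377) (nat_lit 254)) (XT.lf (nat_lit 0) (nat_lit 45276583547) (nat_lit 152) (nat_lit 64205270348) (nat_lit 76) (nat_lit 1899273216071) (nat_lit 31) (nat_lit 5) (nat_lit 33) (nat_lit 5) (nat_lit 32) (nat_lit 5) (nat_lit 390) (nat_lit 377) (nat_lit 253)))) (XT.nd (nat_lit 156) (nat_lit 152) (nat_lit 0) (XT.nd (nat_lit 78) (nat_lit 76) (nat_lit 0) (XT.lf (nat_lit 0) (nat_lit 579120118128) (nat_lit 228) (nat_lit 910916507521) (nat_lit 76) (nat_lit 698706183451) (nat_lit 29) (nat_lit 5) (nat_lit 32) (nat_lit 5) (nat_lit 30) (nat_lit 4) (nat_lit 391) (nat_lit 377) (nat_lit 252)) (XT.lf (nat_lit 0) (nat_lit 469585634642) (nat_lit 76) (nat_lit 751628506480) (nat_lit 152) (nat_lit 1170288474248) (nat_lit 28) (nat_lit 5) (nat_lit 29) (nat_lit 5) (nat_lit 30) (nat_lit 4) (nat_lit 392) (nat_lit 377) (nat_lit 251))) (XT.nd (nat_lit 78) (nat_lit 152) (nat_lit 0) (XT.lf (nat_lit 0) (nat_lit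 2013544742542) (nat_lit 152) (nat_lit 464302688510) (nat_lit 0) (nat_lit 138740590283) (nat_lit 28) (nat_lit 5) (nat_lit 30) (nat_lit 4) (nat_lit 28) (nat_lit 4) (nat_lit 393) (nat_lit 377) (nat_lit 250)) (XT.lf (nat_lit 0) (nat_lit 138404586514) (nat_lit 152) (nat_lit 1577234296035) (nat_lit 76) (nat_lit 1145465628014) (nat_lit 26) (nat_lit 5) (nat_lit 28) (nat_lit 5) (nat_lit 27) (nat_lit 4) (nat_lit 394) (nat_lit 377) (nat_lit 249))))) (XT.nd (nat_lit 234) (nat_lit 304) (nat_lit 0) (XT.nd (nat_lit 78) (nat_lit 76) (nat_lit 0) (XT.lf (nat_lit 0) (nat_lit 195308007343) (nat_lit 76) (nat_lit 767534861747) (nat_lit 152) (nat_lit 2170121144692) (nat_lit 25) (nat_lit 5) (nat_lit 26) (nat_lit 5) (nat_lit 27) (nat_lit 4) (nat_lit 395) (nat_lit 377) (nat_lit 248)) (XT.nd (nat_lit 78) (nat_lit 76) (nat_lit 0) (XT.lf (nat_lit 0) (nat_lit 2010685072108) (nat_lit 152) (nat_lit 1039536062706) (nat_lit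 0) (nat_lit 380420580962) (nat_lit 25) (nat_lit 5) (nat_lit 27) (nat_lit 4) (nat_lit 25) (nat_lit 4) (nat_lit 396) (nat_lit 377) (nat_lit 247)) (XT.lf (nat_lit 0) (nat_lit 1214912496883) (nat_lit 76) (nat_lit 2087647319243) (nat_lit 76) (nat_lit 457382825362) (nat_lit 24) (nat_lit 4) (nat_lit 25) (nat_lit 5) (nat_lit 25) (nat_lit 4) (nat_lit 397) (nat_lit 377) (nat_lit 246)))) (XT.nd (nat_lit 156) (nat_lit 152) (nat_lit 0) (XT.nd (nat_lit 78) (nat_lit 76) (nat_lit 0) (XT.lf (nat_lit 0) (nat_lit 648674194030) (nat_lit 152) (nat_lit 235614979094) (nat_lit 76) (nat_lit 3241775847178) (nat_lit 23) (nat_lit 5) (nat_lit 25) (nat_lit 5) (nat_lit 24) (nat_lit 4) (nat_lit 398) (nat_lit 377) (nat_lit 245)) (XT.lf (nat_lit 0) (nat_lit 2009746925286) (nat_lit 152) (nat_lit 1921576020846) (nat_lit 0) (nat_lit 592125622393) (nat_lit 22) (nat_lit 5) (nat_lit 24) (nat_lit 4) (nat_lit 22) (nat_lit 4) (nat_lit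 399) (nat_lit 377) (nat_lit 244))) (XT.nd (nat_lit 78) (nat_lit 76) (nat_lit 0) (XT.lf (nat_lit 0) (nat_lit 955215266208) (nat_lit 76) (nat_lit 2714330456853) (nat_lit 76) (nat_lit 1296709152396) (nat_lit 21) (nat_lit 4) (nat_lit 22) (nat_lit 5) (nat_lit 22) (nat_lit 4) (nat_lit 400) (nat_lit 377) (nat_lit 243)) (XT.lf (nat_lit 0) (nat_lit 198906536893) (nat_lit 152) (nat_lit 989972251495) (nat_lit 76) (nat_lit 4270180256733) (nat_lit 20) (nat_lit 5) (nat_lit 22) (nat_lit 5) (nat_lit 21) (nat_lit 4) (nat_lit 401) (nat_lit 377) (nat_lit 242))))))))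
noncomputable def xc101 : XT := (XT.nd (nat_lit 2106) (nat_lit 0) (nat_lit 0) (XT.nd (nat_lit 1014) (nat_lit 532) (nat_lit 0) (XT.nd (nat_lit 468) (nat_lit 456) (nat_lit 0) (XT.nd (nat_lit 234) (nat_lit 228) (nat_lit 0) (XT.nd (nat_lit 78) (nat_lit 76) (nat_lit 0) (XT.lf (nat_lit 0) (nat_lit 1927815745459) (nat_lit 152) (nat_lit 3372347898505) (nat_lit 0) (nat_lit 695101565460) (nat_lit 19) (nat_lit 5) (nat_lit 21) (nat_lit 4) (nat_lit 19) (nat_lit 4) (nat_lit 402) (nat_lit 377) (nat_lit 241)) (XT.nd (nat_lit 78) (nat_lit 0) (nat_lit 0) (XT.lf (nat_lit 0) (nat_lit 247847250662) (nat_lit 76) (nat_lit 3789302949442) (nat_lit 76) (nat_lit 2556588768549) (nat_lit 18) (nat_lit 4) (nat_lit 19) (nat_lit 5) (nat_lit 19) (nat_lit 4) (nat_lit 403) (nat_lit 377) (nat_lit 240)) (XT.lf (nat_lit 0) (nat_lit 4790077583327) (nat_lit 76) (nat_lit 1849089058630) (nat_lit 76) (nat_lit 616374876959) (nat_lit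 18) (nat_lit 4) (nat_lit 19) (nat_lit 5) (nat_lit 19) (nat_lit 4) (nat_lit 404) (nat_lit 377) (nat_lit 239)))) (XT.nd (nat_lit 78) (nat_lit 76) (nat_lit 0) (XT.lf (nat_lit 0) (nat_lit 1582024978130) (nat_lit 152) (nat_lit 5897821485349) (nat_lit 0) (nat_lit 510099602176) (nat_lit 16) (nat_lit 5) (nat_lit 18) (nat_lit 4) (nat_lit 16) (nat_lit 4) (nat_lit 405) (nat_lit 377) (nat_lit 238)) (XT.nd (nat_lit 78) (nat_lit 76) (nat_lit 0) (XT.lf (nat_lit 0) (nat_lit 4270145123049) (nat_lit 152) (nat_lit 1328283943306) (nat_lit 0) (nat_lit 3198219746584) (nat_lit 16) (nat_lit 5) (nat_lit 18) (nat_lit 4) (nat_lit 16) (nat_lit 4) (nat_lit 406) (nat_lit 377) (nat_lit 237)) (XT.lf (nat_lit 0) (nat_lit 4310428365367) (nat_lit 76) (nat_lit 3229540568608) (nat_lit 76) (nat_lit 2157615191699) (nat_lit 15) (nat_lit 4) (nat_lit 16) (nat_lit 5) (nat_lit 16) (nat_lit 4) (nat_lit 407) (nat_lit 377) (nat_lit 236)))))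 (XT.nd (nat_lit 234) (nat_lit 228) (nat_lit 0) (XT.nd (nat_lit 78) (nat_lit 76) (nat_lit 0) (XT.lf (nat_lit 0) (nat_lit 213195575761) (nat_lit 76) (nat_lit 384535100078) (nat_lit 152) (nat_lit 10120174664351) (nat_lit 13) (nat_lit 5) (nat_lit 14) (nat_lit 5) (nat_lit 15) (nat_lit 4) (nat_lit 408) (nat_lit 377) (nat_lit 235)) (XT.nd (nat_lit 78) (nat_lit 76) (nat_lit 0) (XT.lf (nat_lit 0) (nat_lit 3960044306096) (nat_lit 152) (nat_lit 4825698924520) (nat_lit 0) (nat_lit 3027935282068) (nat_lit 13) (nat_lit 5) (nat_lit 15) (nat_lit 4) (nat_lit 13) (nat_lit 4) (nat_lit 409) (nat_lit 377) (nat_lit 234)) (XT.lf (nat_lit 0) (nat_lit 1851703820759) (nat_lit 76) (nat_lit 6069987459810) (nat_lit 76) (nat_lit 5137878435529) (nat_lit 12) (nat_lit 4) (nat_lit 13) (nat_lit 5) (nat_lit 13) (nat_lit 4) (nat_lit 410) (nat_lit 377) (nat_lit 233)))) (XT.nd (nat_lit 156) (nat_lit 76) (nat_lit 0) (XT.nd (nat_lit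 78) (nat_lit 152) (nat_lit 0) (XT.lf (nat_lit 0) (nat_lit 10073059727912) (nat_lit 76) (nat_lit 2656778015168) (nat_lit 76) (nat_lit 1724668990665) (nat_lit 12) (nat_lit 4) (nat_lit 13) (nat_lit 5) (nat_lit 13) (nat_lit 4) (nat_lit 411) (nat_lit 377) (nat_lit 232)) (XT.lf (nat_lit 0) (nat_lit 2222325833660) (nat_lit 152) (nat_lit 12378237940222) (nat_lit 0) (nat_lit 1411796246968) (nat_lit 10) (nat_lit 5) (nat_lit 12) (nat_lit 4) (nat_lit 10) (nat_lit 4) (nat_lit 412) (nat_lit 377) (nat_lit 231))) (XT.nd (nat_lit 78) (nat_lit 76) (nat_lit 0) (XT.lf (nat_lit 0) (nat_lit 6951246248557) (nat_lit 152) (nat_lit 4644641883415) (nat_lit 0) (nat_lit 6140716661721) (nat_lit 10) (nat_lit 5) (nat_lit 12) (nat_lit 4) (nat_lit 10) (nat_lit 4) (nat_lit 413) (nat_lit 377) (nat_lit 230)) (XT.lf (nat_lit 0) (nat_lit 4664236132980) (nat_lit 76) (nat_lit 7918404662954) (nat_lit 76) (nat_lit 7107875075991)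 (nat_lit 9) (nat_lit 4) (nat_lit 10) (nat_lit 5) (nat_lit 10) (nat_lit 4) (nat_lit 414) (nat_lit 377) (nat_lit 229)))))) (XT.nd (nat_lit 546) (nat_lit 228) (nat_lit 0) (XT.nd (nat_lit 234) (nat_lit 152) (nat_lit 0) (XT.nd (nat_lit 78) (nat_lit 152) (nat_lit 0) (XT.lf (nat_lit 0) (nat_lit 15891440260437) (nat_lit 76) (nat_lit 3410092361988) (nat_lit 76) (nat_lit 2599562774915) (nat_lit 9) (nat_lit 4) (nat_lit 10) (nat_lit 5) (nat_lit 10) (nat_lit 4) (nat_lit 415) (nat_lit 377) (nat_lit 228)) (XT.nd (nat_lit 78) (nat_lit 0) (nat_lit 0) (XT.lf (nat_lit 0) (nat_lit 2635932486355) (nat_lit 152) (nat_lit 19817988782311) (nat_lit 0) (nat_lit 1931124149687) (nat_lit 7) (nat_lit 5) (nat_lit 9) (nat_lit 4) (nat_lit 7) (nat_lit 4) (nat_lit 416) (nat_lit 377) (nat_lit 227)) (XT.lf (nat_lit 0) (nat_lit 8882091835665) (nat_lit 152) (nat_lit 10089921475666) (nat_lit 0) (nat_lit 8177283498924) (nat_lit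 7) (nat_lit 5) (nat_lit 9) (nat_lit 4) (nat_lit 7) (nat_lit 4) (nat_lit 417) (nat_lit 377) (nat_lit 226)))) (XT.nd (nat_lit 156) (nat_lit 76) (nat_lit 0) (XT.nd (nat_lit 78) (nat_lit 0) (nat_lit 0) (XT.lf (nat_lit 0) (nat_lit 1204597526258) (nat_lit 76) (nat_lit 14910457374723) (nat_lit 76) (nat_lit 14205649037920) (nat_lit 6) (nat_lit 4) (nat_lit 7) (nat_lit 5) (nat_lit 7) (nat_lit 4) (nat_lit 418) (nat_lit 377) (nat_lit 225)) (XT.lf (nat_lit 0) (nat_lit 15327263960175) (nat_lit 76) (nat_lit 9633126178332) (nat_lit 76) (nat_lit 8928317841474) (nat_lit 6) (nat_lit 4) (nat_lit 7) (nat_lit 5) (nat_lit 7) (nat_lit 4) (nat_lit 419) (nat_lit 377) (nat_lit 224))) (XT.nd (nat_lit 78) (nat_lit 76) (nat_lit 0) (XT.lf (nat_lit 0) (nat_lit 31568330357159) (nat_lit 76) (nat_lit 3564195303556) (nat_lit 76) (nat_lit 2859386966650) (nat_lit 6) (nat_lit 4) (nat_lit 7) (nat_lit 5) (nat_lit 7) (nat_lit 4)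 (nat_lit 420) (nat_lit 377) (nat_lit 223)) (XT.lf (nat_lit 0) (nat_lit 4253321556867) (nat_lit 76) (nat_lit 34716209553164) (nat_lit 0) (nat_lit 3640444742131) (nat_lit 5) (nat_lit 5) (nat_lit 6) (nat_lit 4) (nat_lit 5) (nat_lit 4) (nat_lit 421) (nat_lit 377) (nat_lit 222))))) (XT.nd (nat_lit 234) (nat_lit 152) (nat_lit 0) (XT.nd (nat_lit 78) (nat_lit 76) (nat_lit 0) (XT.lf (nat_lit 0) (nat_lit 12661680783575) (nat_lit 76) (nat_lit 23111615937846) (nat_lit 0) (nat_lit 12048803968807) (nat_lit 5) (nat_lit 5) (nat_lit 6) (nat_lit 4) (nat_lit 5) (nat_lit 4) (nat_lit 422) (nat_lit 377) (nat_lit 221)) (XT.nd (nat_lit 78) (nat_lit 76) (nat_lit 0) (XT.lf (nat_lit 0) (nat_lit 22331293893540) (nat_lit 76) (nat_lit 9766333281832) (nat_lit 0) (nat_lit 21718417078745) (nat_lit 5) (nat_lit 5) (nat_lit 6) (nat_lit 4) (nat_lit 5) (nat_lit 4) (nat_lit 423) (nat_lit 377) (nat_lit 220)) (XT.lf (nat_lit 0)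 (nat_lit 6126132444284) (nat_lit 76) (nat_lit 27578886605573) (nat_lit 76) (nat_lit 26966009790754) (nat_lit 4) (nat_lit 4) (nat_lit 5) (nat_lit 5) (nat_lit 5) (nat_lit 4) (nat_lit 424) (nat_lit 377) (nat_lit 219)))) (XT.nd (nat_lit 156) (nat_lit 152) (nat_lit 0) (XT.nd (nat_lit 78) (nat_lit 0) (nat_lit 0) (XT.lf (nat_lit 0) (nat_lit 25500070711594) (nat_lit 76) (nat_lit 21795245143501) (nat_lit 76) (nat_lit 21182368328662) (nat_lit 4) (nat_lit 4) (nat_lit 5) (nat_lit 5) (nat_lit 5) (nat_lit 4) (nat_lit 425) (nat_lit 377) (nat_lit 218)) (XT.lf (nat_lit 0) (nat_lit 47780099717845) (nat_lit 76) (nat_lit 15144057462734) (nat_lit 76) (nat_lit 14531180647878) (nat_lit 4) (nat_lit 4) (nat_lit 5) (nat_lit 5) (nat_lit 5) (nat_lit 4) (nat_lit 426) (nat_lit 377) (nat_lit 217))) (XT.nd (nat_lit 78) (nat_lit 152) (nat_lit 0) (XT.lf (nat_lit 0) (nat_lit 73402133074029) (nat_lit 76) (nat_lit 7495191630388)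 (nat_lit 76) (nat_lit 6882314815516) (nat_lit 4) (nat_lit 4) (nat_lit 5) (nat_lit 5) (nat_lit 5) (nat_lit 4) (nat_lit 427) (nat_lit 377) (nat_lit 216)) (XT.lf (nat_lit 0) (nat_lit 1950455544352) (nat_lit 152) (nat_lit 96241680043591) (nat_lit 0) (nat_lit 1417519183582) (nat_lit 2) (nat_lit 5) (nat_lit 4) (nat_lit 4) (nat_lit 2) (nat_lit 4) (nat_lit 428) (nat_lit 377) (nat_lit 215))))))) (XT.nd (nat_lit 49764) (nat_lit 0) (nat_lit 1596) (XT.nd (nat_lit 49218) (nat_lit 0) (nat_lit 2736) (XT.nd (nat_lit 234) (nat_lit 0) (nat_lit 0) (XT.nd (nat_lit 78) (nat_lit 0) (nat_lit 0) (XT.lf (nat_lit 0) (nat_lit 12547777038241) (nat_lit 152) (nat_lit 88430757174799) (nat_lit 0) (nat_lit 12014840677460) (nat_lit 2) (nat_lit 5) (nat_lit 4) (nat_lit 4) (nat_lit 2) (nat_lit 4) (nat_lit 429) (nat_lit 377) (nat_lit 214)) (XT.nd (nat_lit 78) (nat_lit 0) (nat_lit 0) (XT.lf (nat_lit 0) (nat_lit 24734696755841)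 (nat_lit 152) (nat_lit 79448195876484) (nat_lit 0) (nat_lit 24201760395052) (nat_lit 2) (nat_lit 5) (nat_lit 4) (nat_lit 4) (nat_lit 2) (nat_lit 4) (nat_lit 430) (nat_lit 377) (nat_lit 213)) (XT.lf (nat_lit 0) (nat_lit 38749654430758) (nat_lit 152) (nat_lit 69118250384116) (nat_lit 0) (nat_lit 38216718069961) (nat_lit 2) (nat_lit 5) (nat_lit 4) (nat_lit 4) (nat_lit 2) (nat_lit 4) (nat_lit 431) (nat_lit 377) (nat_lit 212)))) (XT.nd (nat_lit 78) (nat_lit 0) (nat_lit 0) (XT.lf (nat_lit 0) (nat_lit 54866855756631) (nat_lit 152) (nat_lit 57238813068494) (nat_lit 0) (nat_lit 54333919395828) (nat_lit 2) (nat_lit 5) (nat_lit 4) (nat_lit 4) (nat_lit 2) (nat_lit 4) (nat_lit 432) (nat_lit 377) (nat_lit 211)) (XT.nd (nat_lit 48828) (nat_lit 0) (nat_lit 3040) (XT.lf (nat_lit 0) (nat_lit 73401637281141) (nat_lit 152) (nat_lit 43577460156054) (nat_lit 0) (nat_lit 72868700920332) (nat_lit 2) (nat_lit 5)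 (nat_lit 4) (nat_lit 4) (nat_lit 2) (nat_lit 4) (nat_lit 433) (nat_lit 377) (nat_lit 210)) (XT.lf (nat_lit 0) (nat_lit 122097098710) (nat_lit 380) (nat_lit 144073868218) (nat_lit 380) (nat_lit 144073868218) (nat_lit 42) (nat_lit 3) (nat_lit 47) (nat_lit 3) (nat_lit 47) (nat_lit 5) (nat_lit 378) (nat_lit 378) (nat_lit 264))))) (XT.nd (nat_lit 234) (nat_lit 304) (nat_lit 0) (XT.nd (nat_lit 78) (nat_lit 0) (nat_lit 76) (XT.lf (nat_lit 76) (nat_lit 132134969634) (nat_lit 0) (nat_lit 135845310018) (nat_lit 380) (nat_lit 613225388279) (nat_lit 43) (nat_lit 5) (nat_lit 42) (nat_lit 3) (nat_lit 47) (nat_lit 5) (nat_lit 379) (nat_lit 378) (nat_lit 263)) (XT.nd (nat_lit 78) (nat_lit 0) (nat_lit 0) (XT.lf (nat_lit 0) (nat_lit 324369503932) (nat_lit 304) (nat_lit 314898757842) (nat_lit 380) (nat_lit 307405518986) (nat_lit 43) (nat_lit 5) (nat_lit 47) (nat_lit 5) (nat_lit 48) (nat_lit 5) (nat_lit 380)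 (nat_lit 378) (nat_lit 262)) (XT.lf (nat_lit 76) (nat_lit 195318765350) (nat_lit 0) (nat_lit 208454890257) (nat_lit 380) (nat_lit 616004973348) (nat_lit 44) (nat_lit 5) (nat_lit 43) (nat_lit 5) (nat_lit 48) (nat_lit 5) (nat_lit 381) (nat_lit 378) (nat_lit 261)))) (XT.nd (nat_lit 156) (nat_lit 152) (nat_lit 0) (XT.nd (nat_lit 78) (nat_lit 304) (nat_lit 0) (XT.lf (nat_lit 0) (nat_lit 524216123190) (nat_lit 304) (nat_lit 296587970062) (nat_lit 76) (nat_lit 278675957156) (nat_lit 44) (nat_lit 5) (nat_lit 48) (nat_lit 5) (nat_lit 45) (nat_lit 5) (nat_lit 382) (nat_lit 378) (nat_lit 260)) (XT.lf (nat_lit 0) (nat_lit 329909058934) (nat_lit 304) (nat_lit 356403144953) (nat_lit 380) (nat_lit 501286394747) (nat_lit 40) (nat_lit 5) (nat_lit 44) (nat_lit 5) (nat_lit 45) (nat_lit 5) (nat_lit 383) (nat_lit 378) (nat_lit 259))) (XT.nd (nat_lit 78) (nat_lit 152) (nat_lit 0) (XT.lf (nat_lit 0) (nat_lit 896320845537)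 (nat_lit 380) (nat_lit 210991032810) (nat_lit 76) (nat_lit 178083328422) (nat_lit 40) (nat_lit 5) (nat_lit 45) (nat_lit 5) (nat_lit 41) (nat_lit 5) (nat_lit 384) (nat_lit 378) (nat_lit 258)) (XT.lf (nat_lit 0) (nat_lit 566142589624) (nat_lit 152) (nat_lit 612102520786) (nat_lit 228) (nat_lit 213554046671) (nat_lit 38) (nat_lit 5) (nat_lit 40) (nat_lit 5) (nat_lit 41) (nat_lit 5) (nat_lit 385) (nat_lit 378) (nat_lit 257)))))) (XT.nd (nat_lit 546) (nat_lit 456) (nat_lit 0) (XT.nd (nat_lit 234) (nat_lit 304) (nat_lit 0) (XT.nd (nat_lit 78) (nat_lit 304) (nat_lit 0) (XT.lf (nat_lit 0) (nat_lit 890698588) (nat_lit 228) (nat_lit 28991065519) (nat_lit 76) (nat_lit 1482621502576) (nat_lit 37) (nat_lit 5) (nat_lit 40) (nat_lit 5) (nat_lit 38) (nat_lit 5) (nat_lit 386) (nat_lit 378) (nat_lit 256)) (XT.nd (nat_lit 78) (nat_lit 152) (nat_lit 0) (XT.lf (nat_lit 0) (nat_lit 294372132384) (nat_lit 228)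 (nat_lit 709965694630) (nat_lit 76) (nat_lit 635139703151) (nat_lit 35) (nat_lit 5) (nat_lit 38) (nat_lit 5) (nat_lit 36) (nat_lit 5) (nat_lit 387) (nat_lit 378) (nat_lit 255)) (XT.lf (nat_lit 0) (nat_lit 272546625727) (nat_lit 152) (nat_lit 373625270426) (nat_lit 228) (nat_lit 1137181619782) (nat_lit 33) (nat_lit 5) (nat_lit 35) (nat_lit 5) (nat_lit 36) (nat_lit 5) (nat_lit 388) (nat_lit 378) (nat_lit 254)))) (XT.nd (nat_lit 156) (nat_lit 228) (nat_lit 0) (XT.nd (nat_lit 78) (nat_lit 76) (nat_lit 0) (XT.lf (nat_lit 0) (nat_lit 1104183597407) (nat_lit 228) (nat_lit 477348012653) (nat_lit 76) (nat_lit 359262993574) (nat_lit 33) (nat_lit 5) (nat_lit 36) (nat_lit 5) (nat_lit 34) (nat_lit 4) (nat_lit 389) (nat_lit 378) (nat_lit 253)) (XT.lf (nat_lit 0) (nat_lit 761096040718) (nat_lit 76) (nat_lit 919108051104) (nat_lit 152) (nat_lit 434251706970) (nat_lit 32) (nat_lit 5) (nat_lit 33) (nat_lit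 5) (nat_lit 34) (nat_lit 4) (nat_lit 390) (nat_lit 378) (nat_lit 252))) (XT.nd (nat_lit 78) (nat_lit 152) (nat_lit 0) (XT.lf (nat_lit 0) (nat_lit 52068129732) (nat_lit 152) (nat_lit 73835963856) (nat_lit 76) (nat_lit 2184164228070) (nat_lit 31) (nat_lit 5) (nat_lit 33) (nat_lit 5) (nat_lit 32) (nat_lit 5) (nat_lit 391) (nat_lit 378) (nat_lit 251)) (XT.lf (nat_lit 0) (nat_lit 665988192250) (nat_lit 228) (nat_lit 1047553884350) (nat_lit 76) (nat_lit 803512145400) (nat_lit 29) (nat_lit 5) (nat_lit 32) (nat_lit 5) (nat_lit 30) (nat_lit 4) (nat_lit 392) (nat_lit 378) (nat_lit 250))))) (XT.nd (nat_lit 234) (nat_lit 228) (nat_lit 0) (XT.nd (nat_lit 78) (nat_lit 152) (nat_lit 0) (XT.lf (nat_lit 0) (nat_lit 540023574624) (nat_lit 76) (nat_lit 864372740637) (nat_lit 152) (nat_lit 1345831684464) (nat_lit 28) (nat_lit 5) (nat_lit 29) (nat_lit 5) (nat_lit 30) (nat_lit 4) (nat_lit 393) (nat_lit 378) (nat_lit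 249)) (XT.nd (nat_lit 78) (nat_lit 152) (nat_lit 0) (XT.lf (nat_lit 0) (nat_lit 2315576501491) (nat_lit 152) (nat_lit 533948003956) (nat_lit 0) (nat_lit 159551711950) (nat_lit 28) (nat_lit 5) (nat_lit 30) (nat_lit 4) (nat_lit 28) (nat_lit 4) (nat_lit 394) (nat_lit 378) (nat_lit 248)) (XT.lf (nat_lit 0) (nat_lit 159165321464) (nat_lit 152) (nat_lit 1813819352009) (nat_lit 76) (nat_lit 1317285506626) (nat_lit 26) (nat_lit 5) (nat_lit 28) (nat_lit 5) (nat_lit 27) (nat_lit 4) (nat_lit 395) (nat_lit 378) (nat_lit 247)))) (XT.nd (nat_lit 156) (nat_lit 152) (nat_lit 0) (XT.nd (nat_lit 78) (nat_lit 0) (nat_lit 0) (XT.lf (nat_lit 0) (nat_lit 224604292857) (nat_lit 76) (nat_lit 882665050938) (nat_lit 152) (nat_lit 2495639265401) (nat_lit 25) (nat_lit 5) (nat_lit 26) (nat_lit 5) (nat_lit 27) (nat_lit 4) (nat_lit 396) (nat_lit 378) (nat_lit 246)) (XT.lf (nat_lit 0) (nat_lit 2312287872925) (nat_lit 152)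 (nat_lit 1195466394367) (nat_lit 0) (nat_lit 437483699848) (nat_lit 25) (nat_lit 5) (nat_lit 27) (nat_lit 4) (nat_lit 25) (nat_lit 4) (nat_lit 397) (nat_lit 378) (nat_lit 245))) (XT.nd (nat_lit 78) (nat_lit 76) (nat_lit 0) (XT.lf (nat_lit 0) (nat_lit 1397149445626) (nat_lit 76) (nat_lit 2400794380774) (nat_lit 76) (nat_lit 525990205630) (nat_lit 24) (nat_lit 4) (nat_lit 25) (nat_lit 5) (nat_lit 25) (nat_lit 4) (nat_lit 398) (nat_lit 378) (nat_lit 244)) (XT.lf (nat_lit 0) (nat_lit 745975357622) (nat_lit 152) (nat_lit 270957158055) (nat_lit 76) (nat_lit 3728042252496) (nat_lit 23) (nat_lit 5) (nat_lit 25) (nat_lit 5) (nat_lit 24) (nat_lit 4) (nat_lit 399) (nat_lit 378) (nat_lit 243))))))))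
noncomputable def xc102 : XT := (XT.nd (nat_lit 2028) (nat_lit 152) (nat_lit 0) (XT.nd (nat_lit 1014) (nat_lit 608) (nat_lit 0) (XT.nd (nat_lit 468) (nat_lit 456) (nat_lit 0) (XT.nd (nat_lit 234) (nat_lit 152) (nat_lit 0) (XT.nd (nat_lit 78) (nat_lit 152) (nat_lit 0) (XT.lf (nat_lit 0) (nat_lit 2311208998083) (nat_lit 152) (nat_lit 2209812355584) (nat_lit 0) (nat_lit 680944495034) (nat_lit 22) (nat_lit 5) (nat_lit 24) (nat_lit 4) (nat_lit 22) (nat_lit 4) (nat_lit 400) (nat_lit 378) (nat_lit 242)) (XT.nd (nat_lit 78) (nat_lit 76) (nat_lit 0) (XT.lf (nat_lit 0) (nat_lit 1098497621419) (nat_lit 76) (nat_lit 3121479992373) (nat_lit 76) (nat_lit 1491215488141) (nat_lit 21) (nat_lit 4) (nat_lit 22) (nat_lit 5) (nat_lit 22) (nat_lit 4) (nat_lit 401) (nat_lit 378) (nat_lit 241)) (XT.lf (nat_lit 0) (nat_lit 228742546827) (nat_lit 152) (nat_lit 1138468029580) (nat_lit 76) (nat_lit 4910707321071) (nat_lit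 20) (nat_lit 5) (nat_lit 22) (nat_lit 5) (nat_lit 21) (nat_lit 4) (nat_lit 402) (nat_lit 378) (nat_lit 240)))) (XT.nd (nat_lit 78) (nat_lit 76) (nat_lit 0) (XT.lf (nat_lit 0) (nat_lit 2216988136401) (nat_lit 152) (nat_lit 3878200023364) (nat_lit 0) (nat_lit 799366826703) (nat_lit 19) (nat_lit 5) (nat_lit 21) (nat_lit 4) (nat_lit 19) (nat_lit 4) (nat_lit 403) (nat_lit 378) (nat_lit 239)) (XT.nd (nat_lit 78) (nat_lit 0) (nat_lit 0) (XT.lf (nat_lit 0) (nat_lit 285024395455) (nat_lit 76) (nat_lit 4357698362358) (nat_lit 76) (nat_lit 2940077051984) (nat_lit 18) (nat_lit 4) (nat_lit 19) (nat_lit 5) (nat_lit 19) (nat_lit 4) (nat_lit 404) (nat_lit 378) (nat_lit 238)) (XT.lf (nat_lit 0) (nat_lit 5508589270559) (nat_lit 76) (nat_lit 2126452391772) (nat_lit 76) (nat_lit 708831080810) (nat_lit 18) (nat_lit 4) (nat_lit 19) (nat_lit 5) (nat_lit 19) (nat_lit 4) (nat_lit 405) (nat_lit 378) (nat_lit 237)))))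 (XT.nd (nat_lit 234) (nat_lit 228) (nat_lit 0) (XT.nd (nat_lit 78) (nat_lit 76) (nat_lit 0) (XT.lf (nat_lit 0) (nat_lit 1819328749919) (nat_lit 152) (nat_lit 6782494655794) (nat_lit 0) (nat_lit 586614566029) (nat_lit 16) (nat_lit 5) (nat_lit 18) (nat_lit 4) (nat_lit 16) (nat_lit 4) (nat_lit 406) (nat_lit 378) (nat_lit 236)) (XT.nd (nat_lit 78) (nat_lit 76) (nat_lit 0) (XT.lf (nat_lit 0) (nat_lit 4910666913306) (nat_lit 152) (nat_lit 1527526489274) (nat_lit 0) (nat_lit 3677952729029) (nat_lit 16) (nat_lit 5) (nat_lit 18) (nat_lit 4) (nat_lit 16) (nat_lit 4) (nat_lit 407) (nat_lit 378) (nat_lit 235)) (XT.lf (nat_lit 0) (nat_lit 4956992663631) (nat_lit 76) (nat_lit 3713971631197) (nat_lit 76) (nat_lit 2481257446584) (nat_lit 15) (nat_lit 4) (nat_lit 16) (nat_lit 5) (nat_lit 16) (nat_lit 4) (nat_lit 408) (nat_lit 378) (nat_lit 234)))) (XT.nd (nat_lit 156) (nat_lit 76) (nat_lit 0) (XT.nd (nat_lit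 78) (nat_lit 0) (nat_lit 0) (XT.lf (nat_lit 0) (nat_lit 245174955637) (nat_lit 76) (nat_lit 442215342289) (nat_lit 152) (nat_lit 11638200840187) (nat_lit 13) (nat_lit 5) (nat_lit 14) (nat_lit 5) (nat_lit 15) (nat_lit 4) (nat_lit 409) (nat_lit 378) (nat_lit 233)) (XT.lf (nat_lit 0) (nat_lit 4554050970840) (nat_lit 152) (nat_lit 5549553723481) (nat_lit 0) (nat_lit 3482125592441) (nat_lit 13) (nat_lit 5) (nat_lit 15) (nat_lit 4) (nat_lit 13) (nat_lit 4) (nat_lit 410) (nat_lit 378) (nat_lit 232))) (XT.nd (nat_lit 78) (nat_lit 0) (nat_lit 0) (XT.lf (nat_lit 0) (nat_lit 2129459431785) (nat_lit 76) (nat_lit 6980485558814) (nat_lit 76) (nat_lit 5908560180222) (nat_lit 12) (nat_lit 4) (nat_lit 13) (nat_lit 5) (nat_lit 13) (nat_lit 4) (nat_lit 411) (nat_lit 378) (nat_lit 231)) (XT.lf (nat_lit 0) (nat_lit 11584018720066) (nat_lit 76) (nat_lit 3055294700079) (nat_lit 76) (nat_lit 1983369321321) (nat_lit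 12) (nat_lit 4) (nat_lit 13) (nat_lit 5) (nat_lit 13) (nat_lit 4) (nat_lit 412) (nat_lit 378) (nat_lit 230)))))) (XT.nd (nat_lit 468) (nat_lit 228) (nat_lit 0) (XT.nd (nat_lit 234) (nat_lit 152) (nat_lit 0) (XT.nd (nat_lit 78) (nat_lit 76) (nat_lit 0) (XT.lf (nat_lit 0) (nat_lit 2555674725010) (nat_lit 152) (nat_lit 14234973596646) (nat_lit 0) (nat_lit 1623565699876) (nat_lit 10) (nat_lit 5) (nat_lit 12) (nat_lit 4) (nat_lit 10) (nat_lit 4) (nat_lit 413) (nat_lit 378) (nat_lit 229)) (XT.nd (nat_lit 78) (nat_lit 76) (nat_lit 0) (XT.lf (nat_lit 0) (nat_lit 7993933200016) (nat_lit 152) (nat_lit 5341338135832) (nat_lit 0) (nat_lit 7061824174772) (nat_lit 10) (nat_lit 5) (nat_lit 12) (nat_lit 4) (nat_lit 10) (nat_lit 4) (nat_lit 414) (nat_lit 378) (nat_lit 228)) (XT.lf (nat_lit 0) (nat_lit 5363871581654) (nat_lit 76) (nat_lit 9106165347186) (nat_lit 76) (nat_lit 8174056321847) (nat_lit 9) (nat_lit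 4) (nat_lit 10) (nat_lit 5) (nat_lit 10) (nat_lit 4) (nat_lit 415) (nat_lit 378) (nat_lit 227)))) (XT.nd (nat_lit 78) (nat_lit 152) (nat_lit 0) (XT.lf (nat_lit 0) (nat_lit 18275156324483) (nat_lit 76) (nat_lit 3921606203059) (nat_lit 76) (nat_lit 2989497177637) (nat_lit 9) (nat_lit 4) (nat_lit 10) (nat_lit 5) (nat_lit 10) (nat_lit 4) (nat_lit 416) (nat_lit 378) (nat_lit 226)) (XT.nd (nat_lit 78) (nat_lit 0) (nat_lit 0) (XT.lf (nat_lit 0) (nat_lit 3031322371599) (nat_lit 152) (nat_lit 22790687073452) (nat_lit 0) (nat_lit 2220792784212) (nat_lit 7) (nat_lit 5) (nat_lit 9) (nat_lit 4) (nat_lit 7) (nat_lit 4) (nat_lit 417) (nat_lit 378) (nat_lit 225)) (XT.lf (nat_lit 0) (nat_lit 10214405621702) (nat_lit 152) (nat_lit 11603409674228) (nat_lit 0) (nat_lit 9403876034260) (nat_lit 7) (nat_lit 5) (nat_lit 9) (nat_lit 4) (nat_lit 7) (nat_lit 4) (nat_lit 418) (nat_lit 378) (nat_lit 224))))) (XT.nd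 (nat_lit 234) (nat_lit 152) (nat_lit 0) (XT.nd (nat_lit 78) (nat_lit 0) (nat_lit 0) (XT.lf (nat_lit 0) (nat_lit 1385287176949) (nat_lit 76) (nat_lit 17147025969373) (nat_lit 76) (nat_lit 16336496381885) (nat_lit 6) (nat_lit 4) (nat_lit 7) (nat_lit 5) (nat_lit 7) (nat_lit 4) (nat_lit 419) (nat_lit 378) (nat_lit 223)) (XT.nd (nat_lit 78) (nat_lit 0) (nat_lit 0) (XT.lf (nat_lit 0) (nat_lit 17626353573116) (nat_lit 76) (nat_lit 11078095095031) (nat_lit 76) (nat_lit 10267565507501) (nat_lit 6) (nat_lit 4) (nat_lit 7) (nat_lit 5) (nat_lit 7) (nat_lit 4) (nat_lit 420) (nat_lit 378) (nat_lit 222)) (XT.lf (nat_lit 0) (nat_lit 36303579927181) (nat_lit 76) (nat_lit 4098824590349) (nat_lit 76) (nat_lit 3288295002784) (nat_lit 6) (nat_lit 4) (nat_lit 7) (nat_lit 5) (nat_lit 7) (nat_lit 4) (nat_lit 421) (nat_lit 378) (nat_lit 221)))) (XT.nd (nat_lit 156) (nat_lit 76) (nat_lit 0) (XT.nd (nat_lit 78) (nat_lit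 0) (nat_lit 0) (XT.lf (nat_lit 0) (nat_lit 4891319798462) (nat_lit 76) (nat_lit 39923640968892) (nat_lit 0) (nat_lit 4186511461422) (nat_lit 5) (nat_lit 5) (nat_lit 6) (nat_lit 4) (nat_lit 5) (nat_lit 4) (nat_lit 422) (nat_lit 378) (nat_lit 220)) (XT.lf (nat_lit 0) (nat_lit 14560932908124) (nat_lit 76) (nat_lit 26578358313526) (nat_lit 0) (nat_lit 13856124571060) (nat_lit 5) (nat_lit 5) (nat_lit 6) (nat_lit 4) (nat_lit 5) (nat_lit 4) (nat_lit 423) (nat_lit 378) (nat_lit 219))) (XT.nd (nat_lit 78) (nat_lit 76) (nat_lit 0) (XT.lf (nat_lit 0) (nat_lit 25680987983669) (nat_lit 76) (nat_lit 11231283261066) (nat_lit 0) (nat_lit 24976179646584) (nat_lit 5) (nat_lit 5) (nat_lit 6) (nat_lit 4) (nat_lit 5) (nat_lit 4) (nat_lit 424) (nat_lit 378) (nat_lit 218)) (XT.lf (nat_lit 0) (nat_lit 7045052323374) (nat_lit 76) (nat_lit 31715719589779) (nat_lit 76) (nat_lit 31010911252676) (nat_lit 4) (nat_lit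 4) (nat_lit 5) (nat_lit 5) (nat_lit 5) (nat_lit 4) (nat_lit 425) (nat_lit 378) (nat_lit 217))))))) (XT.nd (nat_lit 49842) (nat_lit 0) (nat_lit 1748) (XT.nd (nat_lit 468) (nat_lit 0) (nat_lit 0) (XT.nd (nat_lit 234) (nat_lit 152) (nat_lit 0) (XT.nd (nat_lit 78) (nat_lit 0) (nat_lit 0) (XT.lf (nat_lit 0) (nat_lit 29325081329158) (nat_lit 76) (nat_lit 25064531909262) (nat_lit 76) (nat_lit 24359723572143) (nat_lit 4) (nat_lit 4) (nat_lit 5) (nat_lit 5) (nat_lit 5) (nat_lit 4) (nat_lit 426) (nat_lit 378) (nat_lit 216)) (XT.nd (nat_lit 78) (nat_lit 0) (nat_lit 0) (XT.lf (nat_lit 0) (nat_lit 54947114684935) (nat_lit 76) (nat_lit 17415666077132) (nat_lit 76) (nat_lit 16710857740000) (nat_lit 4) (nat_lit 4) (nat_lit 5) (nat_lit 5) (nat_lit 5) (nat_lit 4) (nat_lit 427) (nat_lit 378) (nat_lit 215)) (XT.lf (nat_lit 0) (nat_lit 84412453043318) (nat_lit 76) (nat_lit 8619470370588) (nat_lit 76) (nat_lit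 7914662033444) (nat_lit 4) (nat_lit 4) (nat_lit 5) (nat_lit 5) (nat_lit 5) (nat_lit 4) (nat_lit 428) (nat_lit 378) (nat_lit 214)))) (XT.nd (nat_lit 78) (nat_lit 0) (nat_lit 0) (XT.lf (nat_lit 0) (nat_lit 2243023880009) (nat_lit 152) (nat_lit 110677932041550) (nat_lit 0) (nat_lit 1630147065093) (nat_lit 2) (nat_lit 5) (nat_lit 4) (nat_lit 4) (nat_lit 2) (nat_lit 4) (nat_lit 429) (nat_lit 378) (nat_lit 213)) (XT.nd (nat_lit 78) (nat_lit 0) (nat_lit 0) (XT.lf (nat_lit 0) (nat_lit 14429943597459) (nat_lit 152) (nat_lit 101695370743558) (nat_lit 0) (nat_lit 13817066782535) (nat_lit 2) (nat_lit 5) (nat_lit 4) (nat_lit 4) (nat_lit 2) (nat_lit 4) (nat_lit 430) (nat_lit 378) (nat_lit 212)) (XT.lf (nat_lit 0) (nat_lit 28444901272245) (nat_lit 152) (nat_lit 91365425251470) (nat_lit 0) (nat_lit 27832024457314) (nat_lit 2) (nat_lit 5) (nat_lit 4) (nat_lit 4) (nat_lit 2) (nat_lit 4) (nat_lit 431) (nat_lit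 378) (nat_lit 211))))) (XT.nd (nat_lit 49062) (nat_lit 0) (nat_lit 3040) (XT.nd (nat_lit 78) (nat_lit 0) (nat_lit 0) (XT.lf (nat_lit 0) (nat_lit 44562102598005) (nat_lit 152) (nat_lit 79485987936092) (nat_lit 0) (nat_lit 43949225783068) (nat_lit 2) (nat_lit 5) (nat_lit 4) (nat_lit 4) (nat_lit 2) (nat_lit 4) (nat_lit 432) (nat_lit 378) (nat_lit 210)) (XT.nd (nat_lit 48906) (nat_lit 0) (nat_lit 3040) (XT.lf (nat_lit 0) (nat_lit 63096884122416) (nat_lit 152) (nat_lit 65824635023863) (nat_lit 0) (nat_lit 62484007307474) (nat_lit 2) (nat_lit 5) (nat_lit 4) (nat_lit 4) (nat_lit 2) (nat_lit 4) (nat_lit 433) (nat_lit 378) (nat_lit 209)) (XT.lf (nat_lit 0) (nat_lit 140411749897) (nat_lit 380) (nat_lit 165684898772) (nat_lit 380) (nat_lit 165684898772) (nat_lit 42) (nat_lit 3) (nat_lit 47) (nat_lit 3) (nat_lit 47) (nat_lit 5) (nat_lit 379) (nat_lit 379) (nat_lit 262)))) (XT.nd (nat_lit 156) (nat_lit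 0) (nat_lit 76) (XT.nd (nat_lit 78) (nat_lit 0) (nat_lit 76) (XT.lf (nat_lit 76) (nat_lit 151955309921) (nat_lit 0) (nat_lit 156222165834) (nat_lit 380) (nat_lit 705209019208) (nat_lit 43) (nat_lit 5) (nat_lit 42) (nat_lit 3) (nat_lit 47) (nat_lit 5) (nat_lit 380) (nat_lit 379) (nat_lit 261)) (XT.lf (nat_lit 0) (nat_lit 373025061434) (nat_lit 304) (nat_lit 362133466774) (nat_lit 380) (nat_lit 353516299849) (nat_lit 43) (nat_lit 5) (nat_lit 47) (nat_lit 5) (nat_lit 48) (nat_lit 5) (nat_lit 381) (nat_lit 379) (nat_lit 260))) (XT.nd (nat_lit 78) (nat_lit 0) (nat_lit 76) (XT.lf (nat_lit 76) (nat_lit 224616680137) (nat_lit 0) (nat_lit 239723142658) (nat_lit 380) (nat_lit 708405582650) (nat_lit 44) (nat_lit 5) (nat_lit 43) (nat_lit 5) (nat_lit 48) (nat_lit 5) (nat_lit 382) (nat_lit 379) (nat_lit 259)) (XT.lf (nat_lit 0) (nat_lit 602848644333) (nat_lit 304) (nat_lit 341076062425) (nat_lit 76) (nat_lit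 320477335787) (nat_lit 44) (nat_lit 5) (nat_lit 48) (nat_lit 5) (nat_lit 45) (nat_lit 5) (nat_lit 383) (nat_lit 379) (nat_lit 258)))))) (XT.nd (nat_lit 546) (nat_lit 608) (nat_lit 0) (XT.nd (nat_lit 234) (nat_lit 380) (nat_lit 0) (XT.nd (nat_lit 78) (nat_lit 152) (nat_lit 0) (XT.lf (nat_lit 0) (nat_lit 379395516232) (nat_lit 304) (nat_lit 409863611589) (nat_lit 380) (nat_lit 576479246585) (nat_lit 40) (nat_lit 5) (nat_lit 44) (nat_lit 5) (nat_lit 45) (nat_lit 5) (nat_lit 384) (nat_lit 379) (nat_lit 257)) (XT.nd (nat_lit 78) (nat_lit 152) (nat_lit 0) (XT.lf (nat_lit 0) (nat_lit 1030769053727) (nat_lit 380) (nat_lit 242639590106) (nat_lit 76) (nat_lit 204795831731) (nat_lit 40) (nat_lit 5) (nat_lit 45) (nat_lit 5) (nat_lit 41) (nat_lit 5) (nat_lit 385) (nat_lit 379) (nat_lit 256)) (XT.lf (nat_lit 0) (nat_lit 651064071256) (nat_lit 152) (nat_lit 703917880322) (nat_lit 228) (nat_lit 245587067860)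 (nat_lit 38) (nat_lit 5) (nat_lit 40) (nat_lit 5) (nat_lit 41) (nat_lit 5) (nat_lit 386) (nat_lit 379) (nat_lit 255)))) (XT.nd (nat_lit 156) (nat_lit 152) (nat_lit 0) (XT.nd (nat_lit 78) (nat_lit 152) (nat_lit 0) (XT.lf (nat_lit 0) (nat_lit 1024371352) (nat_lit 228) (nat_lit 33339637660) (nat_lit 76) (nat_lit 1705014737466) (nat_lit 37) (nat_lit 5) (nat_lit 40) (nat_lit 5) (nat_lit 38) (nat_lit 5) (nat_lit 387) (nat_lit 379) (nat_lit 254)) (XT.lf (nat_lit 0) (nat_lit 338528015692) (nat_lit 228) (nat_lit 816460456602) (nat_lit 76) (nat_lit 730410677870) (nat_lit 35) (nat_lit 5) (nat_lit 38) (nat_lit 5) (nat_lit 36) (nat_lit 5) (nat_lit 388) (nat_lit 379) (nat_lit 253))) (XT.nd (nat_lit 78) (nat_lit 0) (nat_lit 0) (XT.lf (nat_lit 0) (nat_lit 313428707618) (nat_lit 152) (nat_lit 429669031778) (nat_lit 228) (nat_lit 1307758795099) (nat_lit 33) (nat_lit 5) (nat_lit 35) (nat_lit 5) (nat_lit 36)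 (nat_lit 5) (nat_lit 389) (nat_lit 379) (nat_lit 252)) (XT.lf (nat_lit 0) (nat_lit 1269811189217) (nat_lit 228) (nat_lit 548950131374) (nat_lit 76) (nat_lit 413152465751) (nat_lit 33) (nat_lit 5) (nat_lit 36) (nat_lit 5) (nat_lit 34) (nat_lit 4) (nat_lit 390) (nat_lit 379) (nat_lit 251))))) (XT.nd (nat_lit 234) (nat_lit 304) (nat_lit 0) (XT.nd (nat_lit 78) (nat_lit 228) (nat_lit 0) (XT.lf (nat_lit 0) (nat_lit 875260526222) (nat_lit 76) (nat_lit 1056974228052) (nat_lit 152) (nat_lit 499389407030) (nat_lit 32) (nat_lit 5) (nat_lit 33) (nat_lit 5) (nat_lit 34) (nat_lit 4) (nat_lit 391) (nat_lit 379) (nat_lit 250)) (XT.nd (nat_lit 78) (nat_lit 152) (nat_lit 0) (XT.lf (nat_lit 0) (nat_lit 59878393541) (nat_lit 152) (nat_lit 84911285055) (nat_lit 76) (nat_lit 2511788884652) (nat_lit 31) (nat_lit 5) (nat_lit 33) (nat_lit 5) (nat_lit 32) (nat_lit 5) (nat_lit 392) (nat_lit 379) (nat_lit 249)) (XT.lf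 (nat_lit 0) (nat_lit 765886463736) (nat_lit 228) (nat_lit 1204686891918) (nat_lit 76) (nat_lit 924038993244) (nat_lit 29) (nat_lit 5) (nat_lit 32) (nat_lit 5) (nat_lit 30) (nat_lit 4) (nat_lit 393) (nat_lit 379) (nat_lit 248)))) (XT.nd (nat_lit 156) (nat_lit 228) (nat_lit 0) (XT.nd (nat_lit 78) (nat_lit 0) (nat_lit 0) (XT.lf (nat_lit 0) (nat_lit 621027182489) (nat_lit 76) (nat_lit 994028620115) (nat_lit 152) (nat_lit 1547706391069) (nat_lit 28) (nat_lit 5) (nat_lit 29) (nat_lit 5) (nat_lit 30) (nat_lit 4) (nat_lit 394) (nat_lit 379) (nat_lit 247)) (XT.lf (nat_lit 0) (nat_lit 2662913012682) (nat_lit 152) (nat_lit 614040138137) (nat_lit 0) (nat_lit 183484493788) (nat_lit 28) (nat_lit 5) (nat_lit 30) (nat_lit 4) (nat_lit 28) (nat_lit 4) (nat_lit 395) (nat_lit 379) (nat_lit 246))) (XT.nd (nat_lit 78) (nat_lit 76) (nat_lit 0) (XT.lf (nat_lit 0) (nat_lit 183040155202) (nat_lit 152) (nat_lit 2085892187943)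 (nat_lit 76) (nat_lit 1514878358639) (nat_lit 26) (nat_lit 5) (nat_lit 28) (nat_lit 5) (nat_lit 27) (nat_lit 4) (nat_lit 396) (nat_lit 379) (nat_lit 245)) (XT.lf (nat_lit 0) (nat_lit 258295000614) (nat_lit 76) (nat_lit 1015064778279) (nat_lit 152) (nat_lit 2869985116652) (nat_lit 25) (nat_lit 5) (nat_lit 26) (nat_lit 5) (nat_lit 27) (nat_lit 4) (nat_lit 397) (nat_lit 379) (nat_lit 244))))))))
noncomputable def xc103 : XT := (XT.nd (nat_lit 2106) (nat_lit 228) (nat_lit 0) (XT.nd (nat_lit 1014) (nat_lit 608) (nat_lit 0) (XT.nd (nat_lit 468) (nat_lit 532) (nat_lit 0) (XT.nd (nat_lit 234) (nat_lit 228) (nat_lit 0) (XT.nd (nat_lit 78) (nat_lit 152) (nat_lit 0) (XT.lf (nat_lit 0) (nat_lit 2659131084110) (nat_lit 152) (nat_lit 1374786294736) (nat_lit 0) (nat_lit 503106278828) (nat_lit 25) (nat_lit 5) (nat_lit 27) (nat_lit 4) (nat_lit 25) (nat_lit 4) (nat_lit 398) (nat_lit 379) (nat_lit 243)) (XT.nd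 (nat_lit 78) (nat_lit 76) (nat_lit 0) (XT.lf (nat_lit 0) (nat_lit 1606721918585) (nat_lit 76) (nat_lit 2760913510400) (nat_lit 76) (nat_lit 604888703554) (nat_lit 24) (nat_lit 4) (nat_lit 25) (nat_lit 5) (nat_lit 25) (nat_lit 4) (nat_lit 399) (nat_lit 379) (nat_lit 242)) (XT.lf (nat_lit 0) (nat_lit 857871687342) (nat_lit 152) (nat_lit 311600680418) (nat_lit 76) (nat_lit 4287248611725) (nat_lit 23) (nat_lit 5) (nat_lit 25) (nat_lit 5) (nat_lit 24) (nat_lit 4) (nat_lit 400) (nat_lit 379) (nat_lit 241)))) (XT.nd (nat_lit 78) (nat_lit 152) (nat_lit 0) (XT.lf (nat_lit 0) (nat_lit 2657890373507) (nat_lit 152) (nat_lit 2541284157210) (nat_lit 0) (nat_lit 783086191431) (nat_lit 22) (nat_lit 5) (nat_lit 24) (nat_lit 4) (nat_lit 22) (nat_lit 4) (nat_lit 401) (nat_lit 379) (nat_lit 240)) (XT.nd (nat_lit 78) (nat_lit 76) (nat_lit 0) (XT.lf (nat_lit 0) (nat_lit 1263272313993) (nat_lit 76) (nat_lit 3589701966270)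 (nat_lit 76) (nat_lit 1714897783299) (nat_lit 21) (nat_lit 4) (nat_lit 22) (nat_lit 5) (nat_lit 22) (nat_lit 4) (nat_lit 402) (nat_lit 379) (nat_lit 239)) (XT.lf (nat_lit 0) (nat_lit 263053951081) (nat_lit 152) (nat_lit 1309238188921) (nat_lit 76) (nat_lit 5647313438762) (nat_lit 20) (nat_lit 5) (nat_lit 22) (nat_lit 5) (nat_lit 21) (nat_lit 4) (nat_lit 403) (nat_lit 379) (nat_lit 238))))) (XT.nd (nat_lit 234) (nat_lit 380) (nat_lit 0) (XT.nd (nat_lit 78) (nat_lit 76) (nat_lit 0) (XT.lf (nat_lit 0) (nat_lit 2549536378883) (nat_lit 152) (nat_lit 4459929981563) (nat_lit 0) (nat_lit 919271870689) (nat_lit 19) (nat_lit 5) (nat_lit 21) (nat_lit 4) (nat_lit 19) (nat_lit 4) (nat_lit 404) (nat_lit 379) (nat_lit 237)) (XT.nd (nat_lit 78) (nat_lit 0) (nat_lit 0) (XT.lf (nat_lit 0) (nat_lit 327778098019) (nat_lit 76) (nat_lit 5011353094406) (nat_lit 76) (nat_lit 3381088585700) (nat_lit 18) (nat_lit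 4) (nat_lit 19) (nat_lit 5) (nat_lit 19) (nat_lit 4) (nat_lit 405) (nat_lit 379) (nat_lit 236)) (XT.lf (nat_lit 0) (nat_lit 6334877698748) (nat_lit 76) (nat_lit 2445420231141) (nat_lit 76) (nat_lit 815155721991) (nat_lit 18) (nat_lit 4) (nat_lit 19) (nat_lit 5) (nat_lit 19) (nat_lit 4) (nat_lit 406) (nat_lit 379) (nat_lit 235)))) (XT.nd (nat_lit 156) (nat_lit 228) (nat_lit 0) (XT.nd (nat_lit 78) (nat_lit 0) (nat_lit 0) (XT.lf (nat_lit 0) (nat_lit 2092228081364) (nat_lit 152) (nat_lit 7799868814573) (nat_lit 0) (nat_lit 674606768723) (nat_lit 16) (nat_lit 5) (nat_lit 18) (nat_lit 4) (nat_lit 16) (nat_lit 4) (nat_lit 407) (nat_lit 379) (nat_lit 234)) (XT.lf (nat_lit 0) (nat_lit 5647266966786) (nat_lit 152) (nat_lit 1756655428239) (nat_lit 0) (nat_lit 4229645653853) (nat_lit 16) (nat_lit 5) (nat_lit 18) (nat_lit 4) (nat_lit 16) (nat_lit 4) (nat_lit 408) (nat_lit 379) (nat_lit 233))) (XT.nd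 (nat_lit 78) (nat_lit 152) (nat_lit 0) (XT.lf (nat_lit 0) (nat_lit 5700541596036) (nat_lit 76) (nat_lit 4271067358710) (nat_lit 76) (nat_lit 2853446045523) (nat_lit 15) (nat_lit 4) (nat_lit 16) (nat_lit 5) (nat_lit 16) (nat_lit 4) (nat_lit 409) (nat_lit 379) (nat_lit 232)) (XT.lf (nat_lit 0) (nat_lit 281951231885) (nat_lit 76) (nat_lit 508547626390) (nat_lit 152) (nat_lit 13383930948206) (nat_lit 13) (nat_lit 5) (nat_lit 14) (nat_lit 5) (nat_lit 15) (nat_lit 4) (nat_lit 410) (nat_lit 379) (nat_lit 231)))))) (XT.nd (nat_lit 546) (nat_lit 304) (nat_lit 0) (XT.nd (nat_lit 234) (nat_lit 228) (nat_lit 0) (XT.nd (nat_lit 78) (nat_lit 76) (nat_lit 0) (XT.lf (nat_lit 0) (nat_lit 5237158630704) (nat_lit 152) (nat_lit 6381986751971) (nat_lit 0) (nat_lit 4004444444965) (nat_lit 13) (nat_lit 5) (nat_lit 15) (nat_lit 4) (nat_lit 13) (nat_lit 4) (nat_lit 411) (nat_lit 379) (nat_lit 230)) (XT.nd (nat_lit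 78) (nat_lit 0) (nat_lit 0) (XT.lf (nat_lit 0) (nat_lit 2448878375219) (nat_lit 76) (nat_lit 8027558377537) (nat_lit 76) (nat_lit 6794844191653) (nat_lit 12) (nat_lit 4) (nat_lit 13) (nat_lit 5) (nat_lit 13) (nat_lit 4) (nat_lit 412) (nat_lit 379) (nat_lit 229)) (XT.lf (nat_lit 0) (nat_lit 13321621553004) (nat_lit 76) (nat_lit 3513588891962) (nat_lit 76) (nat_lit 2280874705951) (nat_lit 12) (nat_lit 4) (nat_lit 13) (nat_lit 5) (nat_lit 13) (nat_lit 4) (nat_lit 413) (nat_lit 379) (nat_lit 228)))) (XT.nd (nat_lit 156) (nat_lit 76) (nat_lit 0) (XT.nd (nat_lit 78) (nat_lit 0) (nat_lit 0) (XT.lf (nat_lit 0) (nat_lit 2939025946088) (nat_lit 152) (nat_lit 16370219609973) (nat_lit 0) (nat_lit 1867100566852) (nat_lit 10) (nat_lit 5) (nat_lit 12) (nat_lit 4) (nat_lit 10) (nat_lit 4) (nat_lit 414) (nat_lit 379) (nat_lit 227)) (XT.lf (nat_lit 0) (nat_lit 9193023190737) (nat_lit 152) (nat_lit 6142538833451)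 (nat_lit 0) (nat_lit 8121097811418) (nat_lit 10) (nat_lit 5) (nat_lit 12) (nat_lit 4) (nat_lit 10) (nat_lit 4) (nat_lit 415) (nat_lit 379) (nat_lit 226))) (XT.nd (nat_lit 78) (nat_lit 0) (nat_lit 0) (XT.lf (nat_lit 0) (nat_lit 6168452340624) (nat_lit 76) (nat_lit 10472090137762) (nat_lit 76) (nat_lit 9400164758371) (nat_lit 9) (nat_lit 4) (nat_lit 10) (nat_lit 5) (nat_lit 10) (nat_lit 4) (nat_lit 416) (nat_lit 379) (nat_lit 225)) (XT.lf (nat_lit 0) (nat_lit 21016429792044) (nat_lit 76) (nat_lit 4509847123516) (nat_lit 76) (nat_lit 3437921744063) (nat_lit 9) (nat_lit 4) (nat_lit 10) (nat_lit 5) (nat_lit 10) (nat_lit 4) (nat_lit 417) (nat_lit 379) (nat_lit 224))))) (XT.nd (nat_lit 234) (nat_lit 76) (nat_lit 0) (XT.nd (nat_lit 78) (nat_lit 76) (nat_lit 0) (XT.lf (nat_lit 0) (nat_lit 3486020736632) (nat_lit 152) (nat_lit 26209290114655) (nat_lit 0) (nat_lit 2553911710972) (nat_lit 7) (nat_lit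 5) (nat_lit 9) (nat_lit 4) (nat_lit 7) (nat_lit 4) (nat_lit 418) (nat_lit 379) (nat_lit 223)) (XT.nd (nat_lit 78) (nat_lit 76) (nat_lit 0) (XT.lf (nat_lit 0) (nat_lit 11746566473038) (nat_lit 152) (nat_lit 13343921108132) (nat_lit 0) (nat_lit 10814457447337) (nat_lit 7) (nat_lit 5) (nat_lit 9) (nat_lit 4) (nat_lit 7) (nat_lit 4) (nat_lit 419) (nat_lit 379) (nat_lit 222)) (XT.lf (nat_lit 0) (nat_lit 1593080269938) (nat_lit 76) (nat_lit 19719079856040) (nat_lit 76) (nat_lit 18786970830303) (nat_lit 6) (nat_lit 4) (nat_lit 7) (nat_lit 5) (nat_lit 7) (nat_lit 4) (nat_lit 420) (nat_lit 379) (nat_lit 221)))) (XT.nd (nat_lit 156) (nat_lit 76) (nat_lit 0) (XT.nd (nat_lit 78) (nat_lit 0) (nat_lit 0) (XT.lf (nat_lit 0) (nat_lit 20270306623386) (nat_lit 76) (nat_lit 12739809351686) (nat_lit 76) (nat_lit 11807700325918) (nat_lit 6) (nat_lit 4) (nat_lit 7) (nat_lit 5) (nat_lit 7) (nat_lit 4) (nat_lit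 421) (nat_lit 379) (nat_lit 220)) (XT.lf (nat_lit 0) (nat_lit 41749116928695) (nat_lit 76) (nat_lit 4713648272293) (nat_lit 76) (nat_lit 3781539246498) (nat_lit 6) (nat_lit 4) (nat_lit 7) (nat_lit 5) (nat_lit 7) (nat_lit 4) (nat_lit 422) (nat_lit 379) (nat_lit 219))) (XT.nd (nat_lit 78) (nat_lit 0) (nat_lit 0) (XT.lf (nat_lit 0) (nat_lit 5625017774330) (nat_lit 76) (nat_lit 45912187101185) (nat_lit 0) (nat_lit 4814488186662) (nat_lit 5) (nat_lit 5) (nat_lit 6) (nat_lit 4) (nat_lit 5) (nat_lit 4) (nat_lit 423) (nat_lit 379) (nat_lit 218)) (XT.lf (nat_lit 0) (nat_lit 16745072849646) (nat_lit 76) (nat_lit 30565112049215) (nat_lit 0) (nat_lit 15934543261960) (nat_lit 5) (nat_lit 5) (nat_lit 6) (nat_lit 4) (nat_lit 5) (nat_lit 4) (nat_lit 424) (nat_lit 379) (nat_lit 217))))))) (XT.nd (nat_lit 49920) (nat_lit 0) (nat_lit 1824) (XT.nd (nat_lit 468) (nat_lit 0) (nat_lit 0) (XT.nd (nat_lit 234) (nat_lit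 152) (nat_lit 0) (XT.nd (nat_lit 78) (nat_lit 76) (nat_lit 0) (XT.lf (nat_lit 0) (nat_lit 29533136185831) (nat_lit 76) (nat_lit 12915975740365) (nat_lit 0) (nat_lit 28722606598130) (nat_lit 5) (nat_lit 5) (nat_lit 6) (nat_lit 4) (nat_lit 5) (nat_lit 4) (nat_lit 425) (nat_lit 379) (nat_lit 216)) (XT.nd (nat_lit 78) (nat_lit 0) (nat_lit 0) (XT.lf (nat_lit 0) (nat_lit 8101810181293) (nat_lit 76) (nat_lit 36473077523233) (nat_lit 76) (nat_lit 35662547935518) (nat_lit 4) (nat_lit 4) (nat_lit 5) (nat_lit 5) (nat_lit 5) (nat_lit 4) (nat_lit 426) (nat_lit 379) (nat_lit 215)) (XT.lf (nat_lit 0) (nat_lit 33723843536717) (nat_lit 76) (nat_lit 28824211691292) (nat_lit 76) (nat_lit 28013682103565) (nat_lit 4) (nat_lit 4) (nat_lit 5) (nat_lit 5) (nat_lit 5) (nat_lit 4) (nat_lit 427) (nat_lit 379) (nat_lit 214)))) (XT.nd (nat_lit 78) (nat_lit 152) (nat_lit 0) (XT.lf (nat_lit 0) (nat_lit 63189181894792)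 (nat_lit 76) (nat_lit 20028015984911) (nat_lit 76) (nat_lit 19217486397174) (nat_lit 4) (nat_lit 4) (nat_lit 5) (nat_lit 5) (nat_lit 5) (nat_lit 4) (nat_lit 428) (nat_lit 379) (nat_lit 213)) (XT.nd (nat_lit 78) (nat_lit 152) (nat_lit 0) (XT.lf (nat_lit 0) (nat_lit 97074321006005) (nat_lit 76) (nat_lit 9912390922880) (nat_lit 76) (nat_lit 9101861335134) (nat_lit 4) (nat_lit 4) (nat_lit 5) (nat_lit 5) (nat_lit 5) (nat_lit 4) (nat_lit 429) (nat_lit 379) (nat_lit 212)) (XT.lf (nat_lit 0) (nat_lit 2579477465039) (nat_lit 152) (nat_lit 127279621841296) (nat_lit 0) (nat_lit 1874669127862) (nat_lit 2) (nat_lit 5) (nat_lit 4) (nat_lit 4) (nat_lit 2) (nat_lit 4) (nat_lit 430) (nat_lit 379) (nat_lit 211))))) (XT.nd (nat_lit 49140) (nat_lit 0) (nat_lit 3040) (XT.nd (nat_lit 78) (nat_lit 0) (nat_lit 0) (XT.lf (nat_lit 0) (nat_lit 16594435139712) (nat_lit 152) (nat_lit 116949676349451) (nat_lit 0) (nat_lit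 15889626802528) (nat_lit 2) (nat_lit 5) (nat_lit 4) (nat_lit 4) (nat_lit 2) (nat_lit 4) (nat_lit 431) (nat_lit 379) (nat_lit 210)) (XT.nd (nat_lit 78) (nat_lit 0) (nat_lit 0) (XT.lf (nat_lit 0) (nat_lit 32711636465372) (nat_lit 152) (nat_lit 105070239034285) (nat_lit 0) (nat_lit 32006828128184) (nat_lit 2) (nat_lit 5) (nat_lit 4) (nat_lit 4) (nat_lit 2) (nat_lit 4) (nat_lit 432) (nat_lit 379) (nat_lit 209)) (XT.lf (nat_lit 0) (nat_lit 51246417989697) (nat_lit 152) (nat_lit 91408886122240) (nat_lit 0) (nat_lit 50541609652504) (nat_lit 2) (nat_lit 5) (nat_lit 4) (nat_lit 4) (nat_lit 2) (nat_lit 4) (nat_lit 433) (nat_lit 379) (nat_lit 208)))) (XT.nd (nat_lit 156) (nat_lit 0) (nat_lit 76) (XT.nd (nat_lit 78) (nat_lit 0) (nat_lit 0) (XT.lf (nat_lit 0) (nat_lit 161473577698) (nat_lit 380) (nat_lit 190537596023) (nat_lit 380) (nat_lit 190537596023) (nat_lit 42) (nat_lit 3) (nat_lit 47) (nat_lit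 3) (nat_lit 47) (nat_lit 5) (nat_lit 380) (nat_lit 380) (nat_lit 260)) (XT.lf (nat_lit 76) (nat_lit 174748678123) (nat_lit 0) (nat_lit 179655535558) (nat_lit 380) (nat_lit 810990238015) (nat_lit 43) (nat_lit 5) (nat_lit 42) (nat_lit 3) (nat_lit 47) (nat_lit 5) (nat_lit 381) (nat_lit 380) (nat_lit 259))) (XT.nd (nat_lit 78) (nat_lit 0) (nat_lit 0) (XT.lf (nat_lit 0) (nat_lit 428978920394) (nat_lit 304) (nat_lit 416453407588) (nat_lit 380) (nat_lit 406543709299) (nat_lit 43) (nat_lit 5) (nat_lit 47) (nat_lit 5) (nat_lit 48) (nat_lit 5) (nat_lit 382) (nat_lit 380) (nat_lit 258)) (XT.lf (nat_lit 76) (nat_lit 258309257759) (nat_lit 0) (nat_lit 275681628319) (nat_lit 380) (nat_lit 814666316683) (nat_lit 44) (nat_lit 5) (nat_lit 43) (nat_lit 5) (nat_lit 48) (nat_lit 5) (nat_lit 383) (nat_lit 380) (nat_lit 257)))))) (XT.nd (nat_lit 546) (nat_lit 532) (nat_lit 0) (XT.nd (nat_lit 234) (nat_lit 532)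 (nat_lit 0) (XT.nd (nat_lit 78) (nat_lit 304) (nat_lit 0) (XT.lf (nat_lit 0) (nat_lit 693276018613) (nat_lit 304) (nat_lit 392237393795) (nat_lit 76) (nat_lit 368548924857) (nat_lit 44) (nat_lit 5) (nat_lit 48) (nat_lit 5) (nat_lit 45) (nat_lit 5) (nat_lit 384) (nat_lit 380) (nat_lit 256)) (XT.nd (nat_lit 78) (nat_lit 0) (nat_lit 0) (XT.lf (nat_lit 0) (nat_lit 436304918115) (nat_lit 304) (nat_lit 471343149466) (nat_lit 380) (nat_lit 662951052383) (nat_lit 40) (nat_lit 5) (nat_lit 44) (nat_lit 5) (nat_lit 45) (nat_lit 5) (nat_lit 385) (nat_lit 380) (nat_lit 255)) (XT.lf (nat_lit 0) (nat_lit 1185384473304) (nat_lit 380) (nat_lit 279035454803) (nat_lit 76) (nat_lit 235515209550) (nat_lit 40) (nat_lit 5) (nat_lit 45) (nat_lit 5) (nat_lit 41) (nat_lit 5) (nat_lit 386) (nat_lit 380) (nat_lit 254)))) (XT.nd (nat_lit 156) (nat_lit 304) (nat_lit 0) (XT.nd (nat_lit 78) (nat_lit 76) (nat_lit 0) (XT.lf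 (nat_lit 0) (nat_lit 748723752408) (nat_lit 152) (nat_lit 809505548319) (nat_lit 228) (nat_lit 282425063153) (nat_lit 38) (nat_lit 5) (nat_lit 40) (nat_lit 5) (nat_lit 41) (nat_lit 5) (nat_lit 387) (nat_lit 380) (nat_lit 253)) (XT.lf (nat_lit 0) (nat_lit 1178078455) (nat_lit 228) (nat_lit 38340517004) (nat_lit 76) (nat_lit 1960766955273) (nat_lit 37) (nat_lit 5) (nat_lit 40) (nat_lit 5) (nat_lit 38) (nat_lit 5) (nat_lit 388) (nat_lit 380) (nat_lit 252))) (XT.nd (nat_lit 78) (nat_lit 152) (nat_lit 0) (XT.lf (nat_lit 0) (nat_lit 389307266023) (nat_lit 228) (nat_lit 938929455358) (nat_lit 76) (nat_lit 839972294103) (nat_lit 35) (nat_lit 5) (nat_lit 38) (nat_lit 5) (nat_lit 36) (nat_lit 5) (nat_lit 389) (nat_lit 380) (nat_lit 251)) (XT.lf (nat_lit 0) (nat_lit 360443080325) (nat_lit 152) (nat_lit 494119364456) (nat_lit 228) (nat_lit 1503922563210) (nat_lit 33) (nat_lit 5) (nat_lit 35) (nat_lit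 5) (nat_lit 36) (nat_lit 5) (nat_lit 390) (nat_lit 380) (nat_lit 250))))) (XT.nd (nat_lit 234) (nat_lit 380) (nat_lit 0) (XT.nd (nat_lit 78) (nat_lit 152) (nat_lit 0) (XT.lf (nat_lit 0) (nat_lit 1460282907070) (nat_lit 228) (nat_lit 631292588187) (nat_lit 76) (nat_lit 475125353111) (nat_lit 33) (nat_lit 5) (nat_lit 36) (nat_lit 5) (nat_lit 34) (nat_lit 4) (nat_lit 391) (nat_lit 380) (nat_lit 249)) (XT.nd (nat_lit 78) (nat_lit 76) (nat_lit 0) (XT.lf (nat_lit 0) (nat_lit 1006549665190) (nat_lit 76) (nat_lit 1215520339032) (nat_lit 152) (nat_lit 574297775751) (nat_lit 32) (nat_lit 5) (nat_lit 33) (nat_lit 5) (nat_lit 34) (nat_lit 4) (nat_lit 392) (nat_lit 380) (nat_lit 248)) (XT.lf (nat_lit 0) (nat_lit 68860186107) (nat_lit 152) (nat_lit 97647922328) (nat_lit 76) (nat_lit 2888557234267) (nat_lit 31) (nat_lit 5) (nat_lit 33) (nat_lit 5) (nat_lit 32) (nat_lit 5) (nat_lit 393) (nat_lit 380) (nat_lit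 247)))) (XT.nd (nat_lit 156) (nat_lit 152) (nat_lit 0) (XT.nd (nat_lit 78) (nat_lit 76) (nat_lit 0) (XT.lf (nat_lit 0) (nat_lit 880769465545) (nat_lit 228) (nat_lit 1385389868931) (nat_lit 76) (nat_lit 1062644861917) (nat_lit 29) (nat_lit 5) (nat_lit 32) (nat_lit 5) (nat_lit 30) (nat_lit 4) (nat_lit 394) (nat_lit 380) (nat_lit 246)) (XT.lf (nat_lit 0) (nat_lit 714181314057) (nat_lit 76) (nat_lit 1143132889224) (nat_lit 152) (nat_lit 1779862314897) (nat_lit 28) (nat_lit 5) (nat_lit 29) (nat_lit 5) (nat_lit 30) (nat_lit 4) (nat_lit 395) (nat_lit 380) (nat_lit 245))) (XT.nd (nat_lit 78) (nat_lit 152) (nat_lit 0) (XT.lf (nat_lit 0) (nat_lit 3062349991781) (nat_lit 152) (nat_lit 706146108640) (nat_lit 0) (nat_lit 211007186795) (nat_lit 28) (nat_lit 5) (nat_lit 30) (nat_lit 4) (nat_lit 28) (nat_lit 4) (nat_lit 396) (nat_lit 380) (nat_lit 244)) (XT.lf (nat_lit 0) (nat_lit 210496205339) (nat_lit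 152) (nat_lit 2398775965573) (nat_lit 76) (nat_lit 1742110132109) (nat_lit 26) (nat_lit 5) (nat_lit 28) (nat_lit 5) (nat_lit 27) (nat_lit 4) (nat_lit 397) (nat_lit 380) (nat_lit 243))))))))
noncomputable def xc104 : XT := (XT.nd (nat_lit 2028) (nat_lit 304) (nat_lit 0) (XT.nd (nat_lit 1014) (nat_lit 684) (nat_lit 0) (XT.nd (nat_lit 468) (nat_lit 456) (nat_lit 0) (XT.nd (nat_lit 234) (nat_lit 228) (nat_lit 0) (XT.nd (nat_lit 78) (nat_lit 76) (nat_lit 0) (XT.lf (nat_lit 0) (nat_lit 297039298969) (nat_lit 76) (nat_lit 1167324472110) (nat_lit 152) (nat_lit 3300482854993) (nat_lit 25) (nat_lit 5) (nat_lit 26) (nat_lit 5) (nat_lit 27) (nat_lit 4) (nat_lit 398) (nat_lit 380) (nat_lit 242)) (XT.nd (nat_lit 78) (nat_lit 76) (nat_lit 0) (XT.lf (nat_lit 0) (nat_lit 3058000769597) (nat_lit 152) (nat_lit 1581004194495) (nat_lit 0) (nat_lit 578572238801) (nat_lit 25) (nat_lit 5) (nat_lit 27) (nat_lit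 4) (nat_lit 25) (nat_lit 4) (nat_lit 399) (nat_lit 380) (nat_lit 241)) (XT.lf (nat_lit 0) (nat_lit 1847730248803) (nat_lit 76) (nat_lit 3175050516174) (nat_lit 76) (nat_lit 695621984195) (nat_lit 24) (nat_lit 4) (nat_lit 25) (nat_lit 5) (nat_lit 25) (nat_lit 4) (nat_lit 400) (nat_lit 380) (nat_lit 240)))) (XT.nd (nat_lit 78) (nat_lit 152) (nat_lit 0) (XT.lf (nat_lit 0) (nat_lit 986552460162) (nat_lit 152) (nat_lit 358340743657) (nat_lit 76) (nat_lit 4930335919631) (nat_lit 23) (nat_lit 5) (nat_lit 25) (nat_lit 5) (nat_lit 24) (nat_lit 4) (nat_lit 401) (nat_lit 380) (nat_lit 239)) (XT.nd (nat_lit 78) (nat_lit 76) (nat_lit 0) (XT.lf (nat_lit 0) (nat_lit 3056573948976) (nat_lit 152) (nat_lit 2922476741691) (nat_lit 0) (nat_lit 900549136888) (nat_lit 22) (nat_lit 5) (nat_lit 24) (nat_lit 4) (nat_lit 22) (nat_lit 4) (nat_lit 402) (nat_lit 380) (nat_lit 238)) (XT.lf (nat_lit 0) (nat_lit 1452763198416)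 (nat_lit 76) (nat_lit 4128157242338) (nat_lit 76) (nat_lit 1972132429574) (nat_lit 21) (nat_lit 4) (nat_lit 22) (nat_lit 5) (nat_lit 22) (nat_lit 4) (nat_lit 403) (nat_lit 380) (nat_lit 237))))) (XT.nd (nat_lit 234) (nat_lit 228) (nat_lit 0) (XT.nd (nat_lit 78) (nat_lit 152) (nat_lit 0) (XT.lf (nat_lit 0) (nat_lit 302512060553) (nat_lit 152) (nat_lit 1505623883161) (nat_lit 76) (nat_lit 6494410469344) (nat_lit 20) (nat_lit 5) (nat_lit 22) (nat_lit 5) (nat_lit 21) (nat_lit 4) (nat_lit 404) (nat_lit 380) (nat_lit 236)) (XT.nd (nat_lit 78) (nat_lit 76) (nat_lit 0) (XT.lf (nat_lit 0) (nat_lit 2931966852367) (nat_lit 152) (nat_lit 5128919444541) (nat_lit 0) (nat_lit 1057162666400) (nat_lit 19) (nat_lit 5) (nat_lit 21) (nat_lit 4) (nat_lit 19) (nat_lit 4) (nat_lit 405) (nat_lit 380) (nat_lit 235)) (XT.lf (nat_lit 0) (nat_lit 376944845422) (nat_lit 76) (nat_lit 5763056041700) (nat_lit 76) (nat_lit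 3888251855346) (nat_lit 18) (nat_lit 4) (nat_lit 19) (nat_lit 5) (nat_lit 19) (nat_lit 4) (nat_lit 406) (nat_lit 380) (nat_lit 234)))) (XT.nd (nat_lit 156) (nat_lit 76) (nat_lit 0) (XT.nd (nat_lit 78) (nat_lit 152) (nat_lit 0) (XT.lf (nat_lit 0) (nat_lit 7285109381996) (nat_lit 76) (nat_lit 2812233251146) (nat_lit 76) (nat_lit 937429064456) (nat_lit 18) (nat_lit 4) (nat_lit 19) (nat_lit 5) (nat_lit 19) (nat_lit 4) (nat_lit 407) (nat_lit 380) (nat_lit 233)) (XT.lf (nat_lit 0) (nat_lit 2406062307903) (nat_lit 152) (nat_lit 8969849106824) (nat_lit 0) (nat_lit 775797797483) (nat_lit 16) (nat_lit 5) (nat_lit 18) (nat_lit 4) (nat_lit 16) (nat_lit 4) (nat_lit 408) (nat_lit 380) (nat_lit 232))) (XT.nd (nat_lit 78) (nat_lit 76) (nat_lit 0) (XT.lf (nat_lit 0) (nat_lit 6494357024268) (nat_lit 152) (nat_lit 2020153716445) (nat_lit 0) (nat_lit 4864092513628) (nat_lit 16) (nat_lit 5) (nat_lit 18) (nat_lit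 4) (nat_lit 16) (nat_lit 4) (nat_lit 409) (nat_lit 380) (nat_lit 231)) (XT.lf (nat_lit 0) (nat_lit 6555622860290) (nat_lit 76) (nat_lit 4911727449536) (nat_lit 76) (nat_lit 3281462938704) (nat_lit 15) (nat_lit 4) (nat_lit 16) (nat_lit 5) (nat_lit 16) (nat_lit 4) (nat_lit 410) (nat_lit 380) (nat_lit 230)))))) (XT.nd (nat_lit 468) (nat_lit 304) (nat_lit 0) (XT.nd (nat_lit 234) (nat_lit 152) (nat_lit 0) (XT.nd (nat_lit 78) (nat_lit 76) (nat_lit 0) (XT.lf (nat_lit 0) (nat_lit 324243941545) (nat_lit 76) (nat_lit 584829757312) (nat_lit 152) (nat_lit 15391520576819) (nat_lit 13) (nat_lit 5) (nat_lit 14) (nat_lit 5) (nat_lit 15) (nat_lit 4) (nat_lit 411) (nat_lit 380) (nat_lit 229)) (XT.nd (nat_lit 78) (nat_lit 76) (nat_lit 0) (XT.lf (nat_lit 0) (nat_lit 6022732436076) (nat_lit 152) (nat_lit 7339284742058) (nat_lit 0) (nat_lit 4605111122037) (nat_lit 13) (nat_lit 5) (nat_lit 15) (nat_lit 4) (nat_lit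 13) (nat_lit 4) (nat_lit 412) (nat_lit 380) (nat_lit 228)) (XT.lf (nat_lit 0) (nat_lit 2816210153179) (nat_lit 76) (nat_lit 9231692122751) (nat_lit 76) (nat_lit 7814070808602) (nat_lit 12) (nat_lit 4) (nat_lit 13) (nat_lit 5) (nat_lit 13) (nat_lit 4) (nat_lit 413) (nat_lit 380) (nat_lit 227)))) (XT.nd (nat_lit 78) (nat_lit 152) (nat_lit 0) (XT.lf (nat_lit 0) (nat_lit 15319864804803) (nat_lit 76) (nat_lit 4040627215829) (nat_lit 76) (nat_lit 2623005901584) (nat_lit 12) (nat_lit 4) (nat_lit 13) (nat_lit 5) (nat_lit 13) (nat_lit 4) (nat_lit 414) (nat_lit 380) (nat_lit 226)) (XT.nd (nat_lit 78) (nat_lit 0) (nat_lit 0) (XT.lf (nat_lit 0) (nat_lit 3379879847322) (nat_lit 152) (nat_lit 18825752531681) (nat_lit 0) (nat_lit 2147165660950) (nat_lit 10) (nat_lit 5) (nat_lit 12) (nat_lit 4) (nat_lit 10) (nat_lit 4) (nat_lit 415) (nat_lit 380) (nat_lit 225)) (XT.lf (nat_lit 0) (nat_lit 10571976677452)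 (nat_lit 152) (nat_lit 7063919641261) (nat_lit 0) (nat_lit 9339262491018) (nat_lit 10) (nat_lit 5) (nat_lit 12) (nat_lit 4) (nat_lit 10) (nat_lit 4) (nat_lit 416) (nat_lit 380) (nat_lit 224))))) (XT.nd (nat_lit 234) (nat_lit 76) (nat_lit 0) (XT.nd (nat_lit 78) (nat_lit 152) (nat_lit 0) (XT.lf (nat_lit 0) (nat_lit 7093720208143) (nat_lit 76) (nat_lit 12042903649729) (nat_lit 76) (nat_lit 10810189463239) (nat_lit 9) (nat_lit 4) (nat_lit 10) (nat_lit 5) (nat_lit 10) (nat_lit 4) (nat_lit 417) (nat_lit 380) (nat_lit 223)) (XT.nd (nat_lit 78) (nat_lit 152) (nat_lit 0) (XT.lf (nat_lit 0) (nat_lit 24168894275133) (nat_lit 76) (nat_lit 5186324184481) (nat_lit 76) (nat_lit 3953609997944) (nat_lit 9) (nat_lit 4) (nat_lit 10) (nat_lit 5) (nat_lit 10) (nat_lit 4) (nat_lit 418) (nat_lit 380) (nat_lit 222)) (XT.lf (nat_lit 0) (nat_lit 4008923854154) (nat_lit 152) (nat_lit 30140683616869) (nat_lit 0) (nat_lit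 2936998474520) (nat_lit 7) (nat_lit 5) (nat_lit 9) (nat_lit 4) (nat_lit 7) (nat_lit 4) (nat_lit 419) (nat_lit 380) (nat_lit 221)))) (XT.nd (nat_lit 156) (nat_lit 0) (nat_lit 0) (XT.nd (nat_lit 78) (nat_lit 76) (nat_lit 0) (XT.lf (nat_lit 0) (nat_lit 13508551450104) (nat_lit 152) (nat_lit 15345509261323) (nat_lit 0) (nat_lit 12436626070440) (nat_lit 7) (nat_lit 5) (nat_lit 9) (nat_lit 4) (nat_lit 7) (nat_lit 4) (nat_lit 420) (nat_lit 380) (nat_lit 220)) (XT.lf (nat_lit 0) (nat_lit 1832042322866) (nat_lit 76) (nat_lit 22676941827837) (nat_lit 76) (nat_lit 21605016448146) (nat_lit 6) (nat_lit 4) (nat_lit 7) (nat_lit 5) (nat_lit 7) (nat_lit 4) (nat_lit 421) (nat_lit 380) (nat_lit 219))) (XT.nd (nat_lit 78) (nat_lit 0) (nat_lit 0) (XT.lf (nat_lit 0) (nat_lit 23310852627708) (nat_lit 76) (nat_lit 14650780748693) (nat_lit 76) (nat_lit 13578855368978) (nat_lit 6) (nat_lit 4) (nat_lit 7) (nat_lit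 5) (nat_lit 7) (nat_lit 4) (nat_lit 422) (nat_lit 380) (nat_lit 218)) (XT.lf (nat_lit 0) (nat_lit 48011484477403) (nat_lit 76) (nat_lit 5420695508141) (nat_lit 76) (nat_lit 4348770128405) (nat_lit 6) (nat_lit 4) (nat_lit 7) (nat_lit 5) (nat_lit 7) (nat_lit 4) (nat_lit 423) (nat_lit 380) (nat_lit 217))))))) (XT.nd (nat_lit 49998) (nat_lit 0) (nat_lit 1976) (XT.nd (nat_lit 468) (nat_lit 152) (nat_lit 0) (XT.nd (nat_lit 234) (nat_lit 76) (nat_lit 0) (XT.nd (nat_lit 78) (nat_lit 0) (nat_lit 0) (XT.lf (nat_lit 0) (nat_lit 6468770445092) (nat_lit 76) (nat_lit 52799015156502) (nat_lit 0) (nat_lit 5536661419219) (nat_lit 5) (nat_lit 5) (nat_lit 6) (nat_lit 4) (nat_lit 5) (nat_lit 4) (nat_lit 424) (nat_lit 380) (nat_lit 216)) (XT.nd (nat_lit 78) (nat_lit 0) (nat_lit 0) (XT.lf (nat_lit 0) (nat_lit 19256833781103) (nat_lit 76) (nat_lit 35149878848023) (nat_lit 0) (nat_lit 18324724755217) (nat_lit 5)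 (nat_lit 5) (nat_lit 6) (nat_lit 4) (nat_lit 5) (nat_lit 4) (nat_lit 425) (nat_lit 380) (nat_lit 215)) (XT.lf (nat_lit 0) (nat_lit 33963106617193) (nat_lit 76) (nat_lit 14853372093964) (nat_lit 0) (nat_lit 33030997591295) (nat_lit 5) (nat_lit 5) (nat_lit 6) (nat_lit 4) (nat_lit 5) (nat_lit 4) (nat_lit 426) (nat_lit 380) (nat_lit 214)))) (XT.nd (nat_lit 78) (nat_lit 0) (nat_lit 0) (XT.lf (nat_lit 0) (nat_lit 9317081715604) (nat_lit 76) (nat_lit 41944039147928) (nat_lit 76) (nat_lit 41011930122020) (nat_lit 4) (nat_lit 4) (nat_lit 5) (nat_lit 5) (nat_lit 5) (nat_lit 4) (nat_lit 427) (nat_lit 380) (nat_lit 213)) (XT.nd (nat_lit 78) (nat_lit 0) (nat_lit 0) (XT.lf (nat_lit 0) (nat_lit 38782420073413) (nat_lit 76) (nat_lit 33147843441690) (nat_lit 76) (nat_lit 32215734415773) (nat_lit 4) (nat_lit 4) (nat_lit 5) (nat_lit 5) (nat_lit 5) (nat_lit 4) (nat_lit 428) (nat_lit 380) (nat_lit 212)) (XT.lf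 (nat_lit 0) (nat_lit 72667559184393) (nat_lit 76) (nat_lit 23032218379782) (nat_lit 76) (nat_lit 22100109353857) (nat_lit 4) (nat_lit 4) (nat_lit 5) (nat_lit 5) (nat_lit 5) (nat_lit 4) (nat_lit 429) (nat_lit 380) (nat_lit 211))))) (XT.nd (nat_lit 234) (nat_lit 0) (nat_lit 0) (XT.nd (nat_lit 78) (nat_lit 152) (nat_lit 0) (XT.lf (nat_lit 0) (nat_lit 111635469161585) (nat_lit 76) (nat_lit 11399249558819) (nat_lit 76) (nat_lit 10467140532888) (nat_lit 4) (nat_lit 4) (nat_lit 5) (nat_lit 5) (nat_lit 5) (nat_lit 4) (nat_lit 430) (nat_lit 380) (nat_lit 210)) (XT.nd (nat_lit 78) (nat_lit 0) (nat_lit 0) (XT.lf (nat_lit 0) (nat_lit 2966399087085) (nat_lit 152) (nat_lit 146371565112584) (nat_lit 0) (nat_lit 2155869499313) (nat_lit 2) (nat_lit 5) (nat_lit 4) (nat_lit 4) (nat_lit 2) (nat_lit 4) (nat_lit 431) (nat_lit 380) (nat_lit 209)) (XT.lf (nat_lit 0) (nat_lit 19083600412659) (nat_lit 152) (nat_lit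 134492127797603) (nat_lit 0) (nat_lit 18273070824884) (nat_lit 2) (nat_lit 5) (nat_lit 4) (nat_lit 4) (nat_lit 2) (nat_lit 4) (nat_lit 432) (nat_lit 380) (nat_lit 208)))) (XT.nd (nat_lit 49140) (nat_lit 0) (nat_lit 3040) (XT.nd (nat_lit 49062) (nat_lit 0) (nat_lit 3040) (XT.lf (nat_lit 0) (nat_lit 37618381936910) (nat_lit 152) (nat_lit 120830774885718) (nat_lit 0) (nat_lit 36807852349130) (nat_lit 2) (nat_lit 5) (nat_lit 4) (nat_lit 4) (nat_lit 2) (nat_lit 4) (nat_lit 433) (nat_lit 380) (nat_lit 207)) (XT.lf (nat_lit 0) (nat_lit 185694663741) (nat_lit 380) (nat_lit 219118207023) (nat_lit 380) (nat_lit 219118207023) (nat_lit 42) (nat_lit 3) (nat_lit 47) (nat_lit 3) (nat_lit 47) (nat_lit 5) (nat_lit 381) (nat_lit 381) (nat_lit 258))) (XT.nd (nat_lit 78) (nat_lit 0) (nat_lit 76) (XT.lf (nat_lit 76) (nat_lit 200961034068) (nat_lit 0) (nat_lit 206603899804) (nat_lit 380) (nat_lit 932638672337)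 (nat_lit 43) (nat_lit 5) (nat_lit 42) (nat_lit 3) (nat_lit 47) (nat_lit 5) (nat_lit 382) (nat_lit 381) (nat_lit 257)) (XT.lf (nat_lit 0) (nat_lit 493325833874) (nat_lit 304) (nat_lit 478921358838) (nat_lit 380) (nat_lit 467525238831) (nat_lit 43) (nat_lit 5) (nat_lit 47) (nat_lit 5) (nat_lit 48) (nat_lit 5) (nat_lit 383) (nat_lit 381) (nat_lit 256)))))) (XT.nd (nat_lit 546) (nat_lit 532) (nat_lit 0) (XT.nd (nat_lit 234) (nat_lit 380) (nat_lit 0) (XT.nd (nat_lit 78) (nat_lit 228) (nat_lit 0) (XT.lf (nat_lit 76) (nat_lit 297055703589) (nat_lit 0) (nat_lit 317033883352) (nat_lit 380) (nat_lit 936866186027) (nat_lit 44) (nat_lit 5) (nat_lit 43) (nat_lit 5) (nat_lit 48) (nat_lit 5) (nat_lit 384) (nat_lit 381) (nat_lit 255)) (XT.nd (nat_lit 78) (nat_lit 304) (nat_lit 0) (XT.lf (nat_lit 0) (nat_lit 797267480104) (nat_lit 304) (nat_lit 451072943891) (nat_lit 76) (nat_lit 423831255043) (nat_lit 44)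 (nat_lit 5) (nat_lit 48) (nat_lit 5) (nat_lit 45) (nat_lit 5) (nat_lit 385) (nat_lit 381) (nat_lit 254)) (XT.lf (nat_lit 0) (nat_lit 501750712126) (nat_lit 304) (nat_lit 542044618966) (nat_lit 380) (nat_lit 762393648849) (nat_lit 40) (nat_lit 5) (nat_lit 44) (nat_lit 5) (nat_lit 45) (nat_lit 5) (nat_lit 386) (nat_lit 381) (nat_lit 253)))) (XT.nd (nat_lit 156) (nat_lit 228) (nat_lit 0) (XT.nd (nat_lit 78) (nat_lit 152) (nat_lit 0) (XT.lf (nat_lit 0) (nat_lit 1363192190817) (nat_lit 380) (nat_lit 320890717206) (nat_lit 76) (nat_lit 270842493295) (nat_lit 40) (nat_lit 5) (nat_lit 45) (nat_lit 5) (nat_lit 41) (nat_lit 5) (nat_lit 387) (nat_lit 381) (nat_lit 252)) (XT.lf (nat_lit 0) (nat_lit 861032368550) (nat_lit 152) (nat_lit 930931369942) (nat_lit 228) (nat_lit 324788773563) (nat_lit 38) (nat_lit 5) (nat_lit 40) (nat_lit 5) (nat_lit 41) (nat_lit 5) (nat_lit 388) (nat_lit 381) (nat_lit 251)))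 (XT.nd (nat_lit 78) (nat_lit 152) (nat_lit 0) (XT.lf (nat_lit 0) (nat_lit 1354829088) (nat_lit 228) (nat_lit 44091544419) (nat_lit 76) (nat_lit 2254882003998) (nat_lit 37) (nat_lit 5) (nat_lit 40) (nat_lit 5) (nat_lit 38) (nat_lit 5) (nat_lit 389) (nat_lit 381) (nat_lit 250)) (XT.lf (nat_lit 0) (nat_lit 447703392204) (nat_lit 228) (nat_lit 1079768820932) (nat_lit 76) (nat_lit 965968149222) (nat_lit 35) (nat_lit 5) (nat_lit 38) (nat_lit 5) (nat_lit 36) (nat_lit 5) (nat_lit 390) (nat_lit 381) (nat_lit 249))))) (XT.nd (nat_lit 234) (nat_lit 304) (nat_lit 0) (XT.nd (nat_lit 78) (nat_lit 76) (nat_lit 0) (XT.lf (nat_lit 0) (nat_lit 414509592706) (nat_lit 152) (nat_lit 568237252422) (nat_lit 228) (nat_lit 1729510909012) (nat_lit 33) (nat_lit 5) (nat_lit 35) (nat_lit 5) (nat_lit 36) (nat_lit 5) (nat_lit 391) (nat_lit 381) (nat_lit 248)) (XT.nd (nat_lit 78) (nat_lit 76) (nat_lit 0) (XT.lf (nat_lit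 0) (nat_lit 1679325372975) (nat_lit 228) (nat_lit 725986428858) (nat_lit 76) (nat_lit 546394169308) (nat_lit 33) (nat_lit 5) (nat_lit 36) (nat_lit 5) (nat_lit 34) (nat_lit 4) (nat_lit 392) (nat_lit 381) (nat_lit 247)) (XT.lf (nat_lit 0) (nat_lit 1157532160363) (nat_lit 76) (nat_lit 1397848372324) (nat_lit 152) (nat_lit 660442410103) (nat_lit 32) (nat_lit 5) (nat_lit 33) (nat_lit 5) (nat_lit 34) (nat_lit 4) (nat_lit 393) (nat_lit 381) (nat_lit 246)))) (XT.nd (nat_lit 156) (nat_lit 76) (nat_lit 0) (XT.nd (nat_lit 78) (nat_lit 152) (nat_lit 0) (XT.lf (nat_lit 0) (nat_lit 79189239380) (nat_lit 152) (nat_lit 112295068723) (nat_lit 76) (nat_lit 3321840832199) (nat_lit 31) (nat_lit 5) (nat_lit 33) (nat_lit 5) (nat_lit 32) (nat_lit 5) (nat_lit 394) (nat_lit 381) (nat_lit 245)) (XT.lf (nat_lit 0) (nat_lit 1012884909761) (nat_lit 228) (nat_lit 1593198306340) (nat_lit 76) (nat_lit 1222041606089) (nat_lit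 29) (nat_lit 5) (nat_lit 32) (nat_lit 5) (nat_lit 30) (nat_lit 4) (nat_lit 395) (nat_lit 381) (nat_lit 244))) (XT.nd (nat_lit 78) (nat_lit 0) (nat_lit 0) (XT.lf (nat_lit 0) (nat_lit 821308552144) (nat_lit 76) (nat_lit 1314602804530) (nat_lit 152) (nat_lit 2046841635794) (nat_lit 28) (nat_lit 5) (nat_lit 29) (nat_lit 5) (nat_lit 30) (nat_lit 4) (nat_lit 396) (nat_lit 381) (nat_lit 243)) (XT.lf (nat_lit 0) (nat_lit 3521702511113) (nat_lit 152) (nat_lit 812067986965) (nat_lit 0) (nat_lit 242658279135) (nat_lit 28) (nat_lit 5) (nat_lit 30) (nat_lit 4) (nat_lit 28) (nat_lit 4) (nat_lit 397) (nat_lit 381) (nat_lit 242))))))))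
noncomputable def xc105 : XT := (XT.nd (nat_lit 2028) (nat_lit 304) (nat_lit 0) (XT.nd (nat_lit 1014) (nat_lit 760) (nat_lit 0) (XT.nd (nat_lit 468) (nat_lit 456) (nat_lit 0) (XT.nd (nat_lit 234) (nat_lit 228) (nat_lit 0) (XT.nd (nat_lit 78) (nat_lit 76) (nat_lit 0) (XT.lf (nat_lit 0) (nat_lit 242070656448) (nat_lit 152) (nat_lit 2758592322177) (nat_lit 76) (nat_lit 2003426666802) (nat_lit 26) (nat_lit 5) (nat_lit 28) (nat_lit 5) (nat_lit 27) (nat_lit 4) (nat_lit 398) (nat_lit 381) (nat_lit 241)) (XT.nd (nat_lit 78) (nat_lit 0) (nat_lit 0) (XT.lf (nat_lit 0) (nat_lit 341595230308) (nat_lit 76) (nat_lit 1342423125603) (nat_lit 152) (nat_lit 3795555261195) (nat_lit 25) (nat_lit 5) (nat_lit 26) (nat_lit 5) (nat_lit 27) (nat_lit 4) (nat_lit 399) (nat_lit 381) (nat_lit 240)) (XT.lf (nat_lit 0) (nat_lit 3516700902329) (nat_lit 152) (nat_lit 1818154790058) (nat_lit 0) (nat_lit 665358088344) (nat_lit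 25) (nat_lit 5) (nat_lit 27) (nat_lit 4) (nat_lit 25) (nat_lit 4) (nat_lit 400) (nat_lit 381) (nat_lit 239)))) (XT.nd (nat_lit 78) (nat_lit 152) (nat_lit 0) (XT.lf (nat_lit 0) (nat_lit 2124889818208) (nat_lit 76) (nat_lit 3651308077883) (nat_lit 76) (nat_lit 799965263003) (nat_lit 24) (nat_lit 4) (nat_lit 25) (nat_lit 5) (nat_lit 25) (nat_lit 4) (nat_lit 401) (nat_lit 381) (nat_lit 238)) (XT.nd (nat_lit 78) (nat_lit 76) (nat_lit 0) (XT.lf (nat_lit 0) (nat_lit 1134535344096) (nat_lit 152) (nat_lit 412091825849) (nat_lit 76) (nat_lit 5669886319786) (nat_lit 23) (nat_lit 5) (nat_lit 25) (nat_lit 5) (nat_lit 24) (nat_lit 4) (nat_lit 402) (nat_lit 381) (nat_lit 237)) (XT.lf (nat_lit 0) (nat_lit 3515060056023) (nat_lit 152) (nat_lit 3360848223378) (nat_lit 0) (nat_lit 1035631520081) (nat_lit 22) (nat_lit 5) (nat_lit 24) (nat_lit 4) (nat_lit 22) (nat_lit 4) (nat_lit 403) (nat_lit 381) (nat_lit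 236))))) (XT.nd (nat_lit 234) (nat_lit 228) (nat_lit 0) (XT.nd (nat_lit 78) (nat_lit 152) (nat_lit 0) (XT.lf (nat_lit 0) (nat_lit 1670677706401) (nat_lit 76) (nat_lit 4747380814418) (nat_lit 76) (nat_lit 2267952277965) (nat_lit 21) (nat_lit 4) (nat_lit 22) (nat_lit 5) (nat_lit 22) (nat_lit 4) (nat_lit 404) (nat_lit 381) (nat_lit 235)) (XT.nd (nat_lit 78) (nat_lit 76) (nat_lit 0) (XT.lf (nat_lit 0) (nat_lit 347888882346) (nat_lit 152) (nat_lit 1731467439851) (nat_lit 76) (nat_lit 7468572050913) (nat_lit 20) (nat_lit 5) (nat_lit 22) (nat_lit 5) (nat_lit 21) (nat_lit 4) (nat_lit 405) (nat_lit 381) (nat_lit 234)) (XT.lf (nat_lit 0) (nat_lit 3371761892813) (nat_lit 152) (nat_lit 5898257335318) (nat_lit 0) (nat_lit 1215737077783) (nat_lit 19) (nat_lit 5) (nat_lit 21) (nat_lit 4) (nat_lit 19) (nat_lit 4) (nat_lit 406) (nat_lit 381) (nat_lit 233)))) (XT.nd (nat_lit 156) (nat_lit 152) (nat_lit 0)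 (XT.nd (nat_lit 78) (nat_lit 0) (nat_lit 0) (XT.lf (nat_lit 0) (nat_lit 433486596962) (nat_lit 76) (nat_lit 6627514435202) (nat_lit 76) (nat_lit 4471489619880) (nat_lit 18) (nat_lit 4) (nat_lit 19) (nat_lit 5) (nat_lit 19) (nat_lit 4) (nat_lit 407) (nat_lit 381) (nat_lit 232)) (XT.lf (nat_lit 0) (nat_lit 8377875810796) (nat_lit 76) (nat_lit 3234068227727) (nat_lit 76) (nat_lit 1078043412151) (nat_lit 18) (nat_lit 4) (nat_lit 19) (nat_lit 5) (nat_lit 19) (nat_lit 4) (nat_lit 408) (nat_lit 381) (nat_lit 231))) (XT.nd (nat_lit 78) (nat_lit 0) (nat_lit 0) (XT.lf (nat_lit 0) (nat_lit 2766971664926) (nat_lit 152) (nat_lit 10315326450212) (nat_lit 0) (nat_lit 892167477277) (nat_lit 16) (nat_lit 5) (nat_lit 18) (nat_lit 4) (nat_lit 16) (nat_lit 4) (nat_lit 409) (nat_lit 381) (nat_lit 230)) (XT.lf (nat_lit 0) (nat_lit 7468510587333) (nat_lit 152) (nat_lit 2323176754228) (nat_lit 0) (nat_lit 5593706399516)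 (nat_lit 16) (nat_lit 5) (nat_lit 18) (nat_lit 4) (nat_lit 16) (nat_lit 4) (nat_lit 410) (nat_lit 381) (nat_lit 229)))))) (XT.nd (nat_lit 468) (nat_lit 304) (nat_lit 0) (XT.nd (nat_lit 234) (nat_lit 228) (nat_lit 0) (XT.nd (nat_lit 78) (nat_lit 152) (nat_lit 0) (XT.lf (nat_lit 0) (nat_lit 7538966308122) (nat_lit 76) (nat_lit 5648486557152) (nat_lit 76) (nat_lit 3773682369190) (nat_lit 15) (nat_lit 4) (nat_lit 16) (nat_lit 5) (nat_lit 16) (nat_lit 4) (nat_lit 411) (nat_lit 381) (nat_lit 228)) (XT.nd (nat_lit 78) (nat_lit 0) (nat_lit 0) (XT.lf (nat_lit 0) (nat_lit 372880551589) (nat_lit 76) (nat_lit 672554211051) (nat_lit 152) (nat_lit 17700248653045) (nat_lit 13) (nat_lit 5) (nat_lit 14) (nat_lit 5) (nat_lit 15) (nat_lit 4) (nat_lit 412) (nat_lit 381) (nat_lit 227)) (XT.lf (nat_lit 0) (nat_lit 6926142309628) (nat_lit 152) (nat_lit 8440177436196) (nat_lit 0) (nat_lit 5295877798151) (nat_lit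 13) (nat_lit 5) (nat_lit 15) (nat_lit 4) (nat_lit 13) (nat_lit 4) (nat_lit 413) (nat_lit 381) (nat_lit 226)))) (XT.nd (nat_lit 78) (nat_lit 152) (nat_lit 0) (XT.lf (nat_lit 0) (nat_lit 3238641692546) (nat_lit 76) (nat_lit 10616445932531) (nat_lit 76) (nat_lit 8986181420971) (nat_lit 12) (nat_lit 4) (nat_lit 13) (nat_lit 5) (nat_lit 13) (nat_lit 4) (nat_lit 414) (nat_lit 381) (nat_lit 225)) (XT.nd (nat_lit 78) (nat_lit 152) (nat_lit 0) (XT.lf (nat_lit 0) (nat_lit 17617844539776) (nat_lit 76) (nat_lit 4646721290696) (nat_lit 76) (nat_lit 3016456779064) (nat_lit 12) (nat_lit 4) (nat_lit 13) (nat_lit 5) (nat_lit 13) (nat_lit 4) (nat_lit 415) (nat_lit 381) (nat_lit 224)) (XT.lf (nat_lit 0) (nat_lit 3886861831468) (nat_lit 152) (nat_lit 21649615396470) (nat_lit 0) (nat_lit 2469240516951) (nat_lit 10) (nat_lit 5) (nat_lit 12) (nat_lit 4) (nat_lit 10) (nat_lit 4) (nat_lit 416) (nat_lit 381) (nat_lit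 223))))) (XT.nd (nat_lit 234) (nat_lit 228) (nat_lit 0) (XT.nd (nat_lit 78) (nat_lit 76) (nat_lit 0) (XT.lf (nat_lit 0) (nat_lit 12157773185199) (nat_lit 152) (nat_lit 8123507574439) (nat_lit 0) (nat_lit 10740151870634) (nat_lit 10) (nat_lit 5) (nat_lit 12) (nat_lit 4) (nat_lit 10) (nat_lit 4) (nat_lit 417) (nat_lit 381) (nat_lit 222)) (XT.nd (nat_lit 78) (nat_lit 0) (nat_lit 0) (XT.lf (nat_lit 0) (nat_lit 8157778251784) (nat_lit 76) (nat_lit 13849339190612) (nat_lit 76) (nat_lit 12431717876006) (nat_lit 9) (nat_lit 4) (nat_lit 10) (nat_lit 5) (nat_lit 10) (nat_lit 4) (nat_lit 418) (nat_lit 381) (nat_lit 221)) (XT.lf (nat_lit 0) (nat_lit 27794228427203) (nat_lit 76) (nat_lit 5964272806435) (nat_lit 76) (nat_lit 4546651491793) (nat_lit 9) (nat_lit 4) (nat_lit 10) (nat_lit 5) (nat_lit 10) (nat_lit 4) (nat_lit 419) (nat_lit 381) (nat_lit 220)))) (XT.nd (nat_lit 156) (nat_lit 76) (nat_lit 0)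 (XT.nd (nat_lit 78) (nat_lit 0) (nat_lit 0) (XT.lf (nat_lit 0) (nat_lit 4610262437590) (nat_lit 152) (nat_lit 34661786148071) (nat_lit 0) (nat_lit 3377548250918) (nat_lit 7) (nat_lit 5) (nat_lit 9) (nat_lit 4) (nat_lit 7) (nat_lit 4) (nat_lit 420) (nat_lit 381) (nat_lit 219)) (XT.lf (nat_lit 0) (nat_lit 15534834172240) (nat_lit 152) (nat_lit 17647335640669) (nat_lit 0) (nat_lit 14302119985544) (nat_lit 7) (nat_lit 5) (nat_lit 9) (nat_lit 4) (nat_lit 7) (nat_lit 4) (nat_lit 421) (nat_lit 381) (nat_lit 218))) (XT.nd (nat_lit 78) (nat_lit 0) (nat_lit 0) (XT.lf (nat_lit 0) (nat_lit 2106848680700) (nat_lit 76) (nat_lit 26078483097016) (nat_lit 76) (nat_lit 24845768910300) (nat_lit 6) (nat_lit 4) (nat_lit 7) (nat_lit 5) (nat_lit 7) (nat_lit 4) (nat_lit 422) (nat_lit 381) (nat_lit 217)) (XT.lf (nat_lit 0) (nat_lit 26807480530042) (nat_lit 76) (nat_lit 16848397856652) (nat_lit 76) (nat_lit 15615683669917)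 (nat_lit 6) (nat_lit 4) (nat_lit 7) (nat_lit 5) (nat_lit 7) (nat_lit 4) (nat_lit 423) (nat_lit 381) (nat_lit 216))))))) (XT.nd (nat_lit 50076) (nat_lit 0) (nat_lit 1976) (XT.nd (nat_lit 468) (nat_lit 152) (nat_lit 0) (XT.nd (nat_lit 234) (nat_lit 76) (nat_lit 0) (XT.nd (nat_lit 78) (nat_lit 76) (nat_lit 0) (XT.lf (nat_lit 0) (nat_lit 55213207156124) (nat_lit 76) (nat_lit 6233799830584) (nat_lit 76) (nat_lit 5001085643834) (nat_lit 6) (nat_lit 4) (nat_lit 7) (nat_lit 5) (nat_lit 7) (nat_lit 4) (nat_lit 424) (nat_lit 381) (nat_lit 215)) (XT.nd (nat_lit 78) (nat_lit 0) (nat_lit 0) (XT.lf (nat_lit 0) (nat_lit 7439086015342) (nat_lit 76) (nat_lit 60718867422521) (nat_lit 0) (nat_lit 6367160635548) (nat_lit 5) (nat_lit 5) (nat_lit 6) (nat_lit 4) (nat_lit 5) (nat_lit 4) (nat_lit 425) (nat_lit 381) (nat_lit 214)) (XT.lf (nat_lit 0) (nat_lit 22145358851301) (nat_lit 76) (nat_lit 40422360668743) (nat_lit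 0) (nat_lit 21073433471497) (nat_lit 5) (nat_lit 5) (nat_lit 6) (nat_lit 4) (nat_lit 5) (nat_lit 4) (nat_lit 426) (nat_lit 381) (nat_lit 213)))) (XT.nd (nat_lit 78) (nat_lit 76) (nat_lit 0) (XT.lf (nat_lit 0) (nat_lit 39057572612409) (nat_lit 76) (nat_lit 17081377902421) (nat_lit 0) (nat_lit 37985647232596) (nat_lit 5) (nat_lit 5) (nat_lit 6) (nat_lit 4) (nat_lit 5) (nat_lit 4) (nat_lit 427) (nat_lit 381) (nat_lit 212)) (XT.nd (nat_lit 78) (nat_lit 0) (nat_lit 0) (XT.lf (nat_lit 0) (nat_lit 10714643978327) (nat_lit 76) (nat_lit 48235645017251) (nat_lit 76) (nat_lit 47163719637430) (nat_lit 4) (nat_lit 4) (nat_lit 5) (nat_lit 5) (nat_lit 5) (nat_lit 4) (nat_lit 428) (nat_lit 381) (nat_lit 211)) (XT.lf (nat_lit 0) (nat_lit 44599783089105) (nat_lit 76) (nat_lit 38120019955451) (nat_lit 76) (nat_lit 37048094575623) (nat_lit 4) (nat_lit 4) (nat_lit 5) (nat_lit 5) (nat_lit 5) (nat_lit 4) (nat_lit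 429) (nat_lit 381) (nat_lit 210))))) (XT.nd (nat_lit 234) (nat_lit 0) (nat_lit 0) (XT.nd (nat_lit 78) (nat_lit 152) (nat_lit 0) (XT.lf (nat_lit 0) (nat_lit 83567693066121) (nat_lit 76) (nat_lit 26487051134582) (nat_lit 76) (nat_lit 25415125754749) (nat_lit 4) (nat_lit 4) (nat_lit 5) (nat_lit 5) (nat_lit 5) (nat_lit 4) (nat_lit 430) (nat_lit 381) (nat_lit 209)) (XT.nd (nat_lit 78) (nat_lit 152) (nat_lit 0) (XT.lf (nat_lit 0) (nat_lit 128380789539361) (nat_lit 76) (nat_lit 13109136990758) (nat_lit 76) (nat_lit 12037211610919) (nat_lit 4) (nat_lit 4) (nat_lit 5) (nat_lit 5) (nat_lit 5) (nat_lit 4) (nat_lit 431) (nat_lit 381) (nat_lit 208)) (XT.lf (nat_lit 0) (nat_lit 3411358951879) (nat_lit 152) (nat_lit 168327299875763) (nat_lit 0) (nat_lit 2479249925929) (nat_lit 2) (nat_lit 5) (nat_lit 4) (nat_lit 4) (nat_lit 2) (nat_lit 4) (nat_lit 432) (nat_lit 381) (nat_lit 207)))) (XT.nd (nat_lit 49218)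 (nat_lit 0) (nat_lit 3040) (XT.nd (nat_lit 49140) (nat_lit 0) (nat_lit 3040) (XT.lf (nat_lit 0) (nat_lit 21946140476064) (nat_lit 152) (nat_lit 154665946964018) (nat_lit 0) (nat_lit 21014031450110) (nat_lit 2) (nat_lit 5) (nat_lit 4) (nat_lit 4) (nat_lit 2) (nat_lit 4) (nat_lit 433) (nat_lit 381) (nat_lit 206)) (XT.lf (nat_lit 0) (nat_lit 213548900647) (nat_lit 380) (nat_lit 251985916598) (nat_lit 380) (nat_lit 251985916598) (nat_lit 42) (nat_lit 3) (nat_lit 47) (nat_lit 3) (nat_lit 47) (nat_lit 5) (nat_lit 382) (nat_lit 382) (nat_lit 256))) (XT.nd (nat_lit 78) (nat_lit 0) (nat_lit 76) (XT.lf (nat_lit 76) (nat_lit 231105230181) (nat_lit 0) (nat_lit 237594510417) (nat_lit 380) (nat_lit 1072534396531) (nat_lit 43) (nat_lit 5) (nat_lit 42) (nat_lit 3) (nat_lit 47) (nat_lit 5) (nat_lit 383) (nat_lit 382) (nat_lit 255)) (XT.lf (nat_lit 0) (nat_lit 567324765985) (nat_lit 304) (nat_lit 550759517379)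 (nat_lit 380) (nat_lit 537654004343) (nat_lit 43) (nat_lit 5) (nat_lit 47) (nat_lit 5) (nat_lit 48) (nat_lit 5) (nat_lit 384) (nat_lit 382) (nat_lit 254)))))) (XT.nd (nat_lit 546) (nat_lit 532) (nat_lit 0) (XT.nd (nat_lit 234) (nat_lit 380) (nat_lit 0) (XT.nd (nat_lit 78) (nat_lit 228) (nat_lit 0) (XT.lf (nat_lit 76) (nat_lit 341614102353) (nat_lit 0) (nat_lit 364588974009) (nat_lit 380) (nat_lit 1077396054832) (nat_lit 44) (nat_lit 5) (nat_lit 43) (nat_lit 5) (nat_lit 48) (nat_lit 5) (nat_lit 385) (nat_lit 382) (nat_lit 253)) (XT.nd (nat_lit 78) (nat_lit 304) (nat_lit 0) (XT.lf (nat_lit 0) (nat_lit 916857646505) (nat_lit 304) (nat_lit 518733840881) (nat_lit 76) (nat_lit 487405936839) (nat_lit 44) (nat_lit 5) (nat_lit 48) (nat_lit 5) (nat_lit 45) (nat_lit 5) (nat_lit 386) (nat_lit 382) (nat_lit 252)) (XT.lf (nat_lit 0) (nat_lit 577013361511) (nat_lit 304) (nat_lit 623351309603) (nat_lit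 380) (nat_lit 876752649756) (nat_lit 40) (nat_lit 5) (nat_lit 44) (nat_lit 5) (nat_lit 45) (nat_lit 5) (nat_lit 387) (nat_lit 382) (nat_lit 251)))) (XT.nd (nat_lit 156) (nat_lit 228) (nat_lit 0) (XT.nd (nat_lit 78) (nat_lit 152) (nat_lit 0) (XT.lf (nat_lit 0) (nat_lit 1567671054614) (nat_lit 380) (nat_lit 369024282581) (nat_lit 76) (nat_lit 311468869039) (nat_lit 40) (nat_lit 5) (nat_lit 45) (nat_lit 5) (nat_lit 41) (nat_lit 5) (nat_lit 388) (nat_lit 382) (nat_lit 250)) (XT.lf (nat_lit 0) (nat_lit 990187264120) (nat_lit 152) (nat_lit 1070571067400) (nat_lit 228) (nat_lit 373507052499) (nat_lit 38) (nat_lit 5) (nat_lit 40) (nat_lit 5) (nat_lit 41) (nat_lit 5) (nat_lit 389) (nat_lit 382) (nat_lit 249))) (XT.nd (nat_lit 78) (nat_lit 152) (nat_lit 0) (XT.lf (nat_lit 0) (nat_lit 1558082839) (nat_lit 228) (nat_lit 50705238172) (nat_lit 76) (nat_lit 2593114308707) (nat_lit 37) (nat_lit 5) (nat_lit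 40) (nat_lit 5) (nat_lit 38) (nat_lit 5) (nat_lit 390) (nat_lit 382) (nat_lit 248)) (XT.lf (nat_lit 0) (nat_lit 514858928466) (nat_lit 228) (nat_lit 1241734104201) (nat_lit 76) (nat_lit 1110863379926) (nat_lit 35) (nat_lit 5) (nat_lit 38) (nat_lit 5) (nat_lit 36) (nat_lit 5) (nat_lit 391) (nat_lit 382) (nat_lit 247))))) (XT.nd (nat_lit 234) (nat_lit 304) (nat_lit 0) (XT.nd (nat_lit 78) (nat_lit 76) (nat_lit 0) (XT.lf (nat_lit 0) (nat_lit 476686069671) (nat_lit 152) (nat_lit 653472827656) (nat_lit 228) (nat_lit 1988937516116) (nat_lit 33) (nat_lit 5) (nat_lit 35) (nat_lit 5) (nat_lit 36) (nat_lit 5) (nat_lit 392) (nat_lit 382) (nat_lit 246)) (XT.nd (nat_lit 78) (nat_lit 76) (nat_lit 0) (XT.lf (nat_lit 0) (nat_lit 1931224201489) (nat_lit 228) (nat_lit 834884357227) (nat_lit 76) (nat_lit 628353304709) (nat_lit 33) (nat_lit 5) (nat_lit 36) (nat_lit 5) (nat_lit 34) (nat_lit 4) (nat_lit 393) (nat_lit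 382) (nat_lit 245)) (XT.lf (nat_lit 0) (nat_lit 1331162018743) (nat_lit 76) (nat_lit 1607525614892) (nat_lit 152) (nat_lit 759508747414) (nat_lit 32) (nat_lit 5) (nat_lit 33) (nat_lit 5) (nat_lit 34) (nat_lit 4) (nat_lit 394) (nat_lit 382) (nat_lit 244)))) (XT.nd (nat_lit 156) (nat_lit 76) (nat_lit 0) (XT.nd (nat_lit 78) (nat_lit 152) (nat_lit 0) (XT.lf (nat_lit 0) (nat_lit 91067644460) (nat_lit 152) (nat_lit 129139297308) (nat_lit 76) (nat_lit 3820116966701) (nat_lit 31) (nat_lit 5) (nat_lit 33) (nat_lit 5) (nat_lit 32) (nat_lit 5) (nat_lit 395) (nat_lit 382) (nat_lit 243)) (XT.lf (nat_lit 0) (nat_lit 1164817664664) (nat_lit 228) (nat_lit 1832178019830) (nat_lit 76) (nat_lit 1405347858258) (nat_lit 29) (nat_lit 5) (nat_lit 32) (nat_lit 5) (nat_lit 30) (nat_lit 4) (nat_lit 396) (nat_lit 382) (nat_lit 242))) (XT.nd (nat_lit 78) (nat_lit 0) (nat_lit 0) (XT.lf (nat_lit 0) (nat_lit 944504865952)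 (nat_lit 76) (nat_lit 1511793211540) (nat_lit 152) (nat_lit 2353867861248) (nat_lit 28) (nat_lit 5) (nat_lit 29) (nat_lit 5) (nat_lit 30) (nat_lit 4) (nat_lit 397) (nat_lit 382) (nat_lit 241)) (XT.lf (nat_lit 0) (nat_lit 4049957903330) (nat_lit 152) (nat_lit 933878156298) (nat_lit 0) (nat_lit 279057031834) (nat_lit 28) (nat_lit 5) (nat_lit 30) (nat_lit 4) (nat_lit 28) (nat_lit 4) (nat_lit 398) (nat_lit 382) (nat_lit 240))))))))
noncomputable def xc106 : XT := (XT.nd (nat_lit 2028) (nat_lit 304) (nat_lit 0) (XT.nd (nat_lit 1014) (nat_lit 760) (nat_lit 0) (XT.nd (nat_lit 468) (nat_lit 456) (nat_lit 0) (XT.nd (nat_lit 234) (nat_lit 228) (nat_lit 0) (XT.nd (nat_lit 78) (nat_lit 76) (nat_lit 0) (XT.lf (nat_lit 0) (nat_lit 278381270270) (nat_lit 152) (nat_lit 3172381141595) (nat_lit 76) (nat_lit 2303940678071) (nat_lit 26) (nat_lit 5) (nat_lit 28) (nat_lit 5) (nat_lit 27) (nat_lit 4) (nat_lit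 399) (nat_lit 382) (nat_lit 239)) (XT.nd (nat_lit 78) (nat_lit 0) (nat_lit 0) (XT.lf (nat_lit 0) (nat_lit 392834542449) (nat_lit 76) (nat_lit 1543786581344) (nat_lit 152) (nat_lit 4364888533704) (nat_lit 25) (nat_lit 5) (nat_lit 26) (nat_lit 5) (nat_lit 27) (nat_lit 4) (nat_lit 400) (nat_lit 382) (nat_lit 238)) (XT.lf (nat_lit 0) (nat_lit 4044206050755) (nat_lit 152) (nat_lit 2090877983151) (nat_lit 0) (nat_lit 765161811972) (nat_lit 25) (nat_lit 5) (nat_lit 27) (nat_lit 4) (nat_lit 25) (nat_lit 4) (nat_lit 401) (nat_lit 382) (nat_lit 237)))) (XT.nd (nat_lit 78) (nat_lit 152) (nat_lit 0) (XT.lf (nat_lit 0) (nat_lit 2443623315199) (nat_lit 76) (nat_lit 4199004277680) (nat_lit 76) (nat_lit 919960038221) (nat_lit 24) (nat_lit 4) (nat_lit 25) (nat_lit 5) (nat_lit 25) (nat_lit 4) (nat_lit 402) (nat_lit 382) (nat_lit 236)) (XT.nd (nat_lit 78) (nat_lit 76) (nat_lit 0) (XT.lf (nat_lit 0) (nat_lit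 1304715656985) (nat_lit 152) (nat_lit 473905577528) (nat_lit 76) (nat_lit 6520369276986) (nat_lit 23) (nat_lit 5) (nat_lit 25) (nat_lit 5) (nat_lit 24) (nat_lit 4) (nat_lit 403) (nat_lit 382) (nat_lit 235)) (XT.lf (nat_lit 0) (nat_lit 4042319075542) (nat_lit 152) (nat_lit 3864975434529) (nat_lit 0) (nat_lit 1190976257666) (nat_lit 22) (nat_lit 5) (nat_lit 24) (nat_lit 4) (nat_lit 22) (nat_lit 4) (nat_lit 404) (nat_lit 382) (nat_lit 234))))) (XT.nd (nat_lit 234) (nat_lit 228) (nat_lit 0) (XT.nd (nat_lit 78) (nat_lit 152) (nat_lit 0) (XT.lf (nat_lit 0) (nat_lit 1921279383701) (nat_lit 76) (nat_lit 5459487925790) (nat_lit 76) (nat_lit 2608145107527) (nat_lit 21) (nat_lit 4) (nat_lit 22) (nat_lit 5) (nat_lit 22) (nat_lit 4) (nat_lit 405) (nat_lit 382) (nat_lit 233)) (XT.nd (nat_lit 78) (nat_lit 76) (nat_lit 0) (XT.lf (nat_lit 0) (nat_lit 400072224309) (nat_lit 152) (nat_lit 1991187536333) (nat_lit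 76) (nat_lit 8588857866993) (nat_lit 20) (nat_lit 5) (nat_lit 22) (nat_lit 5) (nat_lit 21) (nat_lit 4) (nat_lit 406) (nat_lit 382) (nat_lit 232)) (XT.lf (nat_lit 0) (nat_lit 3877526186256) (nat_lit 152) (nat_lit 6782995916029) (nat_lit 0) (nat_lit 1398097648089) (nat_lit 19) (nat_lit 5) (nat_lit 21) (nat_lit 4) (nat_lit 19) (nat_lit 4) (nat_lit 407) (nat_lit 382) (nat_lit 231)))) (XT.nd (nat_lit 156) (nat_lit 152) (nat_lit 0) (XT.nd (nat_lit 78) (nat_lit 0) (nat_lit 0) (XT.lf (nat_lit 0) (nat_lit 498509605203) (nat_lit 76) (nat_lit 7621641590838) (nat_lit 76) (nat_lit 5142213052451) (nat_lit 18) (nat_lit 4) (nat_lit 19) (nat_lit 5) (nat_lit 19) (nat_lit 4) (nat_lit 408) (nat_lit 382) (nat_lit 230)) (XT.lf (nat_lit 0) (nat_lit 9634557198673) (nat_lit 76) (nat_lit 3719178453501) (nat_lit 76) (nat_lit 1239749914921) (nat_lit 18) (nat_lit 4) (nat_lit 19) (nat_lit 5) (nat_lit 19) (nat_lit 4)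 (nat_lit 409) (nat_lit 382) (nat_lit 229))) (XT.nd (nat_lit 78) (nat_lit 0) (nat_lit 0) (XT.lf (nat_lit 0) (nat_lit 3182017422861) (nat_lit 152) (nat_lit 11862625400628) (nat_lit 0) (nat_lit 1025992606559) (nat_lit 16) (nat_lit 5) (nat_lit 18) (nat_lit 4) (nat_lit 16) (nat_lit 4) (nat_lit 410) (nat_lit 382) (nat_lit 228)) (XT.lf (nat_lit 0) (nat_lit 8588787182559) (nat_lit 152) (nat_lit 2671653252479) (nat_lit 0) (nat_lit 6432762366132) (nat_lit 16) (nat_lit 5) (nat_lit 18) (nat_lit 4) (nat_lit 16) (nat_lit 4) (nat_lit 411) (nat_lit 382) (nat_lit 227)))))) (XT.nd (nat_lit 468) (nat_lit 304) (nat_lit 0) (XT.nd (nat_lit 234) (nat_lit 228) (nat_lit 0) (XT.nd (nat_lit 78) (nat_lit 152) (nat_lit 0) (XT.lf (nat_lit 0) (nat_lit 8669811268547) (nat_lit 76) (nat_lit 6495759533303) (nat_lit 76) (nat_lit 4339734716765) (nat_lit 15) (nat_lit 4) (nat_lit 16) (nat_lit 5) (nat_lit 16) (nat_lit 4) (nat_lit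 412) (nat_lit 382) (nat_lit 226)) (XT.nd (nat_lit 78) (nat_lit 0) (nat_lit 0) (XT.lf (nat_lit 0) (nat_lit 428812648552) (nat_lit 76) (nat_lit 773437335255) (nat_lit 152) (nat_lit 20355285943216) (nat_lit 13) (nat_lit 5) (nat_lit 14) (nat_lit 5) (nat_lit 15) (nat_lit 4) (nat_lit 413) (nat_lit 382) (nat_lit 225)) (XT.lf (nat_lit 0) (nat_lit 7965063662228) (nat_lit 152) (nat_lit 9706204038642) (nat_lit 0) (nat_lit 6090259473779) (nat_lit 13) (nat_lit 5) (nat_lit 15) (nat_lit 4) (nat_lit 13) (nat_lit 4) (nat_lit 414) (nat_lit 382) (nat_lit 224)))) (XT.nd (nat_lit 78) (nat_lit 152) (nat_lit 0) (XT.lf (nat_lit 0) (nat_lit 3724437958821) (nat_lit 76) (nat_lit 12208912815883) (nat_lit 76) (nat_lit 10334108627371) (nat_lit 12) (nat_lit 4) (nat_lit 13) (nat_lit 5) (nat_lit 13) (nat_lit 4) (nat_lit 415) (nat_lit 382) (nat_lit 223)) (XT.nd (nat_lit 78) (nat_lit 152) (nat_lit 0) (XT.lf (nat_lit 0) (nat_lit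 20260521231520) (nat_lit 76) (nat_lit 5343729478624) (nat_lit 76) (nat_lit 3468925290058) (nat_lit 12) (nat_lit 4) (nat_lit 13) (nat_lit 5) (nat_lit 13) (nat_lit 4) (nat_lit 416) (nat_lit 382) (nat_lit 222)) (XT.lf (nat_lit 0) (nat_lit 4469891111517) (nat_lit 152) (nat_lit 24897057694627) (nat_lit 0) (nat_lit 2839626599679) (nat_lit 10) (nat_lit 5) (nat_lit 12) (nat_lit 4) (nat_lit 10) (nat_lit 4) (nat_lit 417) (nat_lit 382) (nat_lit 221))))) (XT.nd (nat_lit 234) (nat_lit 228) (nat_lit 0) (XT.nd (nat_lit 78) (nat_lit 76) (nat_lit 0) (XT.lf (nat_lit 0) (nat_lit 13981439167612) (nat_lit 152) (nat_lit 9342033700767) (nat_lit 0) (nat_lit 12351174655738) (nat_lit 10) (nat_lit 5) (nat_lit 12) (nat_lit 4) (nat_lit 10) (nat_lit 4) (nat_lit 418) (nat_lit 382) (nat_lit 220)) (XT.nd (nat_lit 78) (nat_lit 0) (nat_lit 0) (XT.lf (nat_lit 0) (nat_lit 9381444998943) (nat_lit 76) (nat_lit 15926740064231)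 (nat_lit 76) (nat_lit 14296475552325) (nat_lit 9) (nat_lit 4) (nat_lit 10) (nat_lit 5) (nat_lit 10) (nat_lit 4) (nat_lit 419) (nat_lit 382) (nat_lit 219)) (XT.lf (nat_lit 0) (nat_lit 31963362699449) (nat_lit 76) (nat_lit 6858913723076) (nat_lit 76) (nat_lit 5228649211144) (nat_lit 9) (nat_lit 4) (nat_lit 10) (nat_lit 5) (nat_lit 10) (nat_lit 4) (nat_lit 420) (nat_lit 382) (nat_lit 218)))) (XT.nd (nat_lit 156) (nat_lit 76) (nat_lit 0) (XT.nd (nat_lit 78) (nat_lit 0) (nat_lit 0) (XT.lf (nat_lit 0) (nat_lit 5301801807246) (nat_lit 152) (nat_lit 39861054061714) (nat_lit 0) (nat_lit 3884180492502) (nat_lit 7) (nat_lit 5) (nat_lit 9) (nat_lit 4) (nat_lit 7) (nat_lit 4) (nat_lit 421) (nat_lit 382) (nat_lit 217)) (XT.lf (nat_lit 0) (nat_lit 17865059301570) (nat_lit 152) (nat_lit 20294435979320) (nat_lit 0) (nat_lit 16447437986808) (nat_lit 7) (nat_lit 5) (nat_lit 9) (nat_lit 4) (nat_lit 7) (nat_lit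 4) (nat_lit 422) (nat_lit 382) (nat_lit 216))) (XT.nd (nat_lit 78) (nat_lit 0) (nat_lit 0) (XT.lf (nat_lit 0) (nat_lit 2422875989916) (nat_lit 76) (nat_lit 29990255557790) (nat_lit 76) (nat_lit 28572634243012) (nat_lit 6) (nat_lit 4) (nat_lit 7) (nat_lit 5) (nat_lit 7) (nat_lit 4) (nat_lit 423) (nat_lit 382) (nat_lit 215)) (XT.lf (nat_lit 0) (nat_lit 30828602615731) (nat_lit 76) (nat_lit 19375657531864) (nat_lit 76) (nat_lit 17958036217073) (nat_lit 6) (nat_lit 4) (nat_lit 7) (nat_lit 5) (nat_lit 7) (nat_lit 4) (nat_lit 424) (nat_lit 382) (nat_lit 214))))))) (XT.nd (nat_lit 50154) (nat_lit 0) (nat_lit 1824) (XT.nd (nat_lit 468) (nat_lit 152) (nat_lit 0) (XT.nd (nat_lit 234) (nat_lit 76) (nat_lit 0) (XT.nd (nat_lit 78) (nat_lit 76) (nat_lit 0) (XT.lf (nat_lit 0) (nat_lit 63495188234919) (nat_lit 76) (nat_lit 7168869802314) (nat_lit 76) (nat_lit 5751248487511) (nat_lit 6) (nat_lit 4) (nat_lit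 7) (nat_lit 5) (nat_lit 7) (nat_lit 4) (nat_lit 425) (nat_lit 382) (nat_lit 213)) (XT.nd (nat_lit 78) (nat_lit 0) (nat_lit 0) (XT.lf (nat_lit 0) (nat_lit 8554948920280) (nat_lit 76) (nat_lit 69826697530261) (nat_lit 0) (nat_lit 7322234733486) (nat_lit 5) (nat_lit 5) (nat_lit 6) (nat_lit 4) (nat_lit 5) (nat_lit 4) (nat_lit 426) (nat_lit 382) (nat_lit 212)) (XT.lf (nat_lit 0) (nat_lit 25467162681289) (nat_lit 76) (nat_lit 46485714764151) (nat_lit 0) (nat_lit 24234448494487) (nat_lit 5) (nat_lit 5) (nat_lit 6) (nat_lit 4) (nat_lit 5) (nat_lit 4) (nat_lit 427) (nat_lit 382) (nat_lit 211)))) (XT.nd (nat_lit 78) (nat_lit 76) (nat_lit 0) (XT.lf (nat_lit 0) (nat_lit 44916208506264) (nat_lit 76) (nat_lit 19643584583521) (nat_lit 0) (nat_lit 43683494319455) (nat_lit 5) (nat_lit 5) (nat_lit 6) (nat_lit 4) (nat_lit 5) (nat_lit 4) (nat_lit 428) (nat_lit 382) (nat_lit 210)) (XT.nd (nat_lit 78) (nat_lit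 0) (nat_lit 0) (XT.lf (nat_lit 0) (nat_lit 12321840579145) (nat_lit 76) (nat_lit 55470991767672) (nat_lit 76) (nat_lit 54238277580857) (nat_lit 4) (nat_lit 4) (nat_lit 5) (nat_lit 5) (nat_lit 5) (nat_lit 4) (nat_lit 429) (nat_lit 382) (nat_lit 209)) (XT.lf (nat_lit 0) (nat_lit 51289750556009) (nat_lit 76) (nat_lit 43838022946884) (nat_lit 76) (nat_lit 42605308760065) (nat_lit 4) (nat_lit 4) (nat_lit 5) (nat_lit 5) (nat_lit 5) (nat_lit 4) (nat_lit 430) (nat_lit 382) (nat_lit 208))))) (XT.nd (nat_lit 49374) (nat_lit 0) (nat_lit 3040) (XT.nd (nat_lit 78) (nat_lit 152) (nat_lit 0) (XT.lf (nat_lit 0) (nat_lit 96102847029116) (nat_lit 76) (nat_lit 30460108803131) (nat_lit 76) (nat_lit 29227394616307) (nat_lit 4) (nat_lit 4) (nat_lit 5) (nat_lit 5) (nat_lit 5) (nat_lit 4) (nat_lit 431) (nat_lit 382) (nat_lit 207)) (XT.nd (nat_lit 78) (nat_lit 152) (nat_lit 0) (XT.lf (nat_lit 0) (nat_lit 147637907972941)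 (nat_lit 76) (nat_lit 15075507537947) (nat_lit 76) (nat_lit 13842793351119) (nat_lit 4) (nat_lit 4) (nat_lit 5) (nat_lit 5) (nat_lit 5) (nat_lit 4) (nat_lit 432) (nat_lit 382) (nat_lit 206)) (XT.lf (nat_lit 0) (nat_lit 3923062795970) (nat_lit 152) (nat_lit 193576394854323) (nat_lit 0) (nat_lit 2851137416118) (nat_lit 2) (nat_lit 5) (nat_lit 4) (nat_lit 4) (nat_lit 2) (nat_lit 4) (nat_lit 433) (nat_lit 382) (nat_lit 205)))) (XT.nd (nat_lit 156) (nat_lit 0) (nat_lit 76) (XT.nd (nat_lit 78) (nat_lit 0) (nat_lit 0) (XT.lf (nat_lit 0) (nat_lit 245581263982) (nat_lit 380) (nat_lit 289783787848) (nat_lit 380) (nat_lit 289783787848) (nat_lit 42) (nat_lit 3) (nat_lit 47) (nat_lit 3) (nat_lit 47) (nat_lit 5) (nat_lit 383) (nat_lit 383) (nat_lit 254)) (XT.lf (nat_lit 76) (nat_lit 265771045712) (nat_lit 0) (nat_lit 273233706369) (nat_lit 380) (nat_lit 1233414498046) (nat_lit 43) (nat_lit 5) (nat_lit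 42) (nat_lit 3) (nat_lit 47) (nat_lit 5) (nat_lit 384) (nat_lit 383) (nat_lit 253))) (XT.nd (nat_lit 78) (nat_lit 0) (nat_lit 0) (XT.lf (nat_lit 0) (nat_lit 652423524005) (nat_lit 304) (nat_lit 633373410745) (nat_lit 380) (nat_lit 618302089635) (nat_lit 43) (nat_lit 5) (nat_lit 47) (nat_lit 5) (nat_lit 48) (nat_lit 5) (nat_lit 385) (nat_lit 383) (nat_lit 252)) (XT.lf (nat_lit 76) (nat_lit 392856250391) (nat_lit 0) (nat_lit 419277326277) (nat_lit 380) (nat_lit 1239005418369) (nat_lit 44) (nat_lit 5) (nat_lit 43) (nat_lit 5) (nat_lit 48) (nat_lit 5) (nat_lit 386) (nat_lit 383) (nat_lit 251)))))) (XT.nd (nat_lit 546) (nat_lit 532) (nat_lit 0) (XT.nd (nat_lit 234) (nat_lit 532) (nat_lit 0) (XT.nd (nat_lit 78) (nat_lit 304) (nat_lit 0) (XT.lf (nat_lit 0) (nat_lit 1054386327043) (nat_lit 304) (nat_lit 596543883295) (nat_lit 76) (nat_lit 560516822481) (nat_lit 44) (nat_lit 5) (nat_lit 48) (nat_lit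 5) (nat_lit 45) (nat_lit 5) (nat_lit 387) (nat_lit 383) (nat_lit 250)) (XT.nd (nat_lit 78) (nat_lit 0) (nat_lit 0) (XT.lf (nat_lit 0) (nat_lit 663565397924) (nat_lit 304) (nat_lit 716854004374) (nat_lit 380) (nat_lit 1008265512119) (nat_lit 40) (nat_lit 5) (nat_lit 44) (nat_lit 5) (nat_lit 45) (nat_lit 5) (nat_lit 388) (nat_lit 383) (nat_lit 249)) (XT.lf (nat_lit 0) (nat_lit 1802821739402) (nat_lit 380) (nat_lit 424377893054) (nat_lit 76) (nat_lit 358189200717) (nat_lit 40) (nat_lit 5) (nat_lit 45) (nat_lit 5) (nat_lit 41) (nat_lit 5) (nat_lit 389) (nat_lit 383) (nat_lit 248)))) (XT.nd (nat_lit 156) (nat_lit 304) (nat_lit 0) (XT.nd (nat_lit 78) (nat_lit 76) (nat_lit 0) (XT.lf (nat_lit 0) (nat_lit 1138715384201) (nat_lit 152) (nat_lit 1231156721435) (nat_lit 228) (nat_lit 429533082322) (nat_lit 38) (nat_lit 5) (nat_lit 40) (nat_lit 5) (nat_lit 41) (nat_lit 5) (nat_lit 390) (nat_lit 383) (nat_lit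 247)) (XT.lf (nat_lit 0) (nat_lit 1791817487) (nat_lit 228) (nat_lit 58310995233) (nat_lit 76) (nat_lit 2982081458119) (nat_lit 37) (nat_lit 5) (nat_lit 40) (nat_lit 5) (nat_lit 38) (nat_lit 5) (nat_lit 391) (nat_lit 383) (nat_lit 246))) (XT.nd (nat_lit 78) (nat_lit 152) (nat_lit 0) (XT.lf (nat_lit 0) (nat_lit 592087788478) (nat_lit 228) (nat_lit 1427994189684) (nat_lit 76) (nat_lit 1277492893207) (nat_lit 35) (nat_lit 5) (nat_lit 38) (nat_lit 5) (nat_lit 36) (nat_lit 5) (nat_lit 392) (nat_lit 383) (nat_lit 245)) (XT.lf (nat_lit 0) (nat_lit 548189008899) (nat_lit 152) (nat_lit 751493742255) (nat_lit 228) (nat_lit 2287278121419) (nat_lit 33) (nat_lit 5) (nat_lit 35) (nat_lit 5) (nat_lit 36) (nat_lit 5) (nat_lit 393) (nat_lit 383) (nat_lit 244))))) (XT.nd (nat_lit 234) (nat_lit 380) (nat_lit 0) (XT.nd (nat_lit 78) (nat_lit 152) (nat_lit 0) (XT.lf (nat_lit 0) (nat_lit 2220907848776) (nat_lit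 228) (nat_lit 960116983621) (nat_lit 76) (nat_lit 722606307980) (nat_lit 33) (nat_lit 5) (nat_lit 36) (nat_lit 5) (nat_lit 34) (nat_lit 4) (nat_lit 394) (nat_lit 383) (nat_lit 243)) (XT.nd (nat_lit 78) (nat_lit 76) (nat_lit 0) (XT.lf (nat_lit 0) (nat_lit 1530836347510) (nat_lit 76) (nat_lit 1848654447084) (nat_lit 152) (nat_lit 873435041224) (nat_lit 32) (nat_lit 5) (nat_lit 33) (nat_lit 5) (nat_lit 34) (nat_lit 4) (nat_lit 395) (nat_lit 383) (nat_lit 242)) (XT.lf (nat_lit 0) (nat_lit 104727805628) (nat_lit 152) (nat_lit 148510167916) (nat_lit 76) (nat_lit 4393134519019) (nat_lit 31) (nat_lit 5) (nat_lit 33) (nat_lit 5) (nat_lit 32) (nat_lit 5) (nat_lit 396) (nat_lit 383) (nat_lit 241)))) (XT.nd (nat_lit 156) (nat_lit 152) (nat_lit 0) (XT.nd (nat_lit 78) (nat_lit 76) (nat_lit 0) (XT.lf (nat_lit 0) (nat_lit 1339540328305) (nat_lit 228) (nat_lit 2107004698260) (nat_lit 76) (nat_lit 1616150045508)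 (nat_lit 29) (nat_lit 5) (nat_lit 32) (nat_lit 5) (nat_lit 30) (nat_lit 4) (nat_lit 397) (nat_lit 383) (nat_lit 240)) (XT.lf (nat_lit 0) (nat_lit 1086180619274) (nat_lit 76) (nat_lit 1738562182935) (nat_lit 152) (nat_lit 2706948025376) (nat_lit 28) (nat_lit 5) (nat_lit 29) (nat_lit 5) (nat_lit 30) (nat_lit 4) (nat_lit 398) (nat_lit 383) (nat_lit 239))) (XT.nd (nat_lit 78) (nat_lit 152) (nat_lit 0) (XT.lf (nat_lit 0) (nat_lit 4657451600587) (nat_lit 152) (nat_lit 1073959858033) (nat_lit 0) (nat_lit 320915594797) (nat_lit 28) (nat_lit 5) (nat_lit 30) (nat_lit 4) (nat_lit 28) (nat_lit 4) (nat_lit 399) (nat_lit 383) (nat_lit 238)) (XT.lf (nat_lit 0) (nat_lit 320138472422) (nat_lit 152) (nat_lit 3648238290976) (nat_lit 76) (nat_lit 2649531788287) (nat_lit 26) (nat_lit 5) (nat_lit 28) (nat_lit 5) (nat_lit 27) (nat_lit 4) (nat_lit 400) (nat_lit 383) (nat_lit 237))))))))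
noncomputable def xc107 : XT := (XT.nd (nat_lit 2106) (nat_lit 76) (nat_lit 0) (XT.nd (nat_lit 1014) (nat_lit 760) (nat_lit 0) (XT.nd (nat_lit 468) (nat_lit 456) (nat_lit 0) (XT.nd (nat_lit 234) (nat_lit 228) (nat_lit 0) (XT.nd (nat_lit 78) (nat_lit 76) (nat_lit 0) (XT.lf (nat_lit 0) (nat_lit 451759744681) (nat_lit 76) (nat_lit 1775354558640) (nat_lit 152) (nat_lit 5019621801155) (nat_lit 25) (nat_lit 5) (nat_lit 26) (nat_lit 5) (nat_lit 27) (nat_lit 4) (nat_lit 401) (nat_lit 383) (nat_lit 236)) (XT.nd (nat_lit 78) (nat_lit 76) (nat_lit 0) (XT.lf (nat_lit 0) (nat_lit 4650836968256) (nat_lit 152) (nat_lit 2404509661407) (nat_lit 0) (nat_lit 879936091614) (nat_lit 25) (nat_lit 5) (nat_lit 27) (nat_lit 4) (nat_lit 25) (nat_lit 4) (nat_lit 402) (nat_lit 383) (nat_lit 235)) (XT.lf (nat_lit 0) (nat_lit 2810166830822) (nat_lit 76) (nat_lit 4828854910346) (nat_lit 76) (nat_lit 1057954033193) (nat_lit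 24) (nat_lit 4) (nat_lit 25) (nat_lit 5) (nat_lit 25) (nat_lit 4) (nat_lit 403) (nat_lit 383) (nat_lit 234)))) (XT.nd (nat_lit 78) (nat_lit 152) (nat_lit 0) (XT.lf (nat_lit 0) (nat_lit 1500423014057) (nat_lit 152) (nat_lit 544991397373) (nat_lit 76) (nat_lit 7498424675514) (nat_lit 23) (nat_lit 5) (nat_lit 25) (nat_lit 5) (nat_lit 24) (nat_lit 4) (nat_lit 404) (nat_lit 383) (nat_lit 233)) (XT.nd (nat_lit 78) (nat_lit 76) (nat_lit 0) (XT.lf (nat_lit 0) (nat_lit 4648666945279) (nat_lit 152) (nat_lit 4444721732803) (nat_lit 0) (nat_lit 1369622703554) (nat_lit 22) (nat_lit 5) (nat_lit 24) (nat_lit 4) (nat_lit 22) (nat_lit 4) (nat_lit 405) (nat_lit 383) (nat_lit 232)) (XT.lf (nat_lit 0) (nat_lit 2209471307392) (nat_lit 76) (nat_lit 6278411106500) (nat_lit 76) (nat_lit 2999366864483) (nat_lit 21) (nat_lit 4) (nat_lit 22) (nat_lit 5) (nat_lit 22) (nat_lit 4) (nat_lit 406) (nat_lit 383) (nat_lit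 231))))) (XT.nd (nat_lit 234) (nat_lit 228) (nat_lit 0) (XT.nd (nat_lit 78) (nat_lit 152) (nat_lit 0) (XT.lf (nat_lit 0) (nat_lit 460083065223) (nat_lit 152) (nat_lit 2289865652041) (nat_lit 76) (nat_lit 9877186553426) (nat_lit 20) (nat_lit 5) (nat_lit 22) (nat_lit 5) (nat_lit 21) (nat_lit 4) (nat_lit 407) (nat_lit 383) (nat_lit 230)) (XT.nd (nat_lit 78) (nat_lit 76) (nat_lit 0) (XT.lf (nat_lit 0) (nat_lit 4459155121393) (nat_lit 152) (nat_lit 7800445288623) (nat_lit 0) (nat_lit 1607812301834) (nat_lit 19) (nat_lit 5) (nat_lit 21) (nat_lit 4) (nat_lit 19) (nat_lit 4) (nat_lit 408) (nat_lit 383) (nat_lit 229)) (XT.lf (nat_lit 0) (nat_lit 573286060120) (nat_lit 76) (nat_lit 8764887822172) (nat_lit 76) (nat_lit 5913545002446) (nat_lit 18) (nat_lit 4) (nat_lit 19) (nat_lit 5) (nat_lit 19) (nat_lit 4) (nat_lit 409) (nat_lit 383) (nat_lit 228)))) (XT.nd (nat_lit 156) (nat_lit 76) (nat_lit 0) (XT.nd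 (nat_lit 78) (nat_lit 152) (nat_lit 0) (XT.lf (nat_lit 0) (nat_lit 11079740790768) (nat_lit 76) (nat_lit 4277055215185) (nat_lit 76) (nat_lit 1425712395314) (nat_lit 18) (nat_lit 4) (nat_lit 19) (nat_lit 5) (nat_lit 19) (nat_lit 4) (nat_lit 410) (nat_lit 383) (nat_lit 227)) (XT.lf (nat_lit 0) (nat_lit 3659320042487) (nat_lit 152) (nat_lit 13642019197780) (nat_lit 0) (nat_lit 1179891503359) (nat_lit 16) (nat_lit 5) (nat_lit 18) (nat_lit 4) (nat_lit 16) (nat_lit 4) (nat_lit 411) (nat_lit 383) (nat_lit 226))) (XT.nd (nat_lit 78) (nat_lit 76) (nat_lit 0) (XT.lf (nat_lit 0) (nat_lit 9877105265332) (nat_lit 152) (nat_lit 3072401229097) (nat_lit 0) (nat_lit 7397676726108) (nat_lit 16) (nat_lit 5) (nat_lit 18) (nat_lit 4) (nat_lit 16) (nat_lit 4) (nat_lit 412) (nat_lit 383) (nat_lit 225)) (XT.lf (nat_lit 0) (nat_lit 9970282969571) (nat_lit 76) (nat_lit 7470123457687) (nat_lit 76) (nat_lit 4990694918380)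 (nat_lit 15) (nat_lit 4) (nat_lit 16) (nat_lit 5) (nat_lit 16) (nat_lit 4) (nat_lit 413) (nat_lit 383) (nat_lit 224)))))) (XT.nd (nat_lit 546) (nat_lit 304) (nat_lit 0) (XT.nd (nat_lit 234) (nat_lit 228) (nat_lit 0) (XT.nd (nat_lit 78) (nat_lit 76) (nat_lit 0) (XT.lf (nat_lit 0) (nat_lit 493134556590) (nat_lit 76) (nat_lit 889452929907) (nat_lit 152) (nat_lit 23408578828812) (nat_lit 13) (nat_lit 5) (nat_lit 14) (nat_lit 5) (nat_lit 15) (nat_lit 4) (nat_lit 414) (nat_lit 383) (nat_lit 223)) (XT.nd (nat_lit 78) (nat_lit 76) (nat_lit 0) (XT.lf (nat_lit 0) (nat_lit 9159823216217) (nat_lit 152) (nat_lit 11162134634621) (nat_lit 0) (nat_lit 7003798399311) (nat_lit 13) (nat_lit 5) (nat_lit 15) (nat_lit 4) (nat_lit 13) (nat_lit 4) (nat_lit 415) (nat_lit 383) (nat_lit 222)) (XT.lf (nat_lit 0) (nat_lit 4283103662016) (nat_lit 76) (nat_lit 14040249733330) (nat_lit 76) (nat_lit 11884224916376) (nat_lit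 12) (nat_lit 4) (nat_lit 13) (nat_lit 5) (nat_lit 13) (nat_lit 4) (nat_lit 416) (nat_lit 383) (nat_lit 221)))) (XT.nd (nat_lit 156) (nat_lit 76) (nat_lit 0) (XT.nd (nat_lit 78) (nat_lit 152) (nat_lit 0) (XT.lf (nat_lit 0) (nat_lit 23299599424397) (nat_lit 76) (nat_lit 6145288896126) (nat_lit 76) (nat_lit 3989264079131) (nat_lit 12) (nat_lit 4) (nat_lit 13) (nat_lit 5) (nat_lit 13) (nat_lit 4) (nat_lit 417) (nat_lit 383) (nat_lit 220)) (XT.lf (nat_lit 0) (nat_lit 5140374782274) (nat_lit 152) (nat_lit 28631616340266) (nat_lit 0) (nat_lit 3265570593552) (nat_lit 10) (nat_lit 5) (nat_lit 12) (nat_lit 4) (nat_lit 10) (nat_lit 4) (nat_lit 418) (nat_lit 383) (nat_lit 219))) (XT.nd (nat_lit 78) (nat_lit 76) (nat_lit 0) (XT.lf (nat_lit 0) (nat_lit 16078655046258) (nat_lit 152) (nat_lit 10743338748443) (nat_lit 0) (nat_lit 14203850857509) (nat_lit 10) (nat_lit 5) (nat_lit 12) (nat_lit 4) (nat_lit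 10) (nat_lit 4) (nat_lit 419) (nat_lit 383) (nat_lit 218)) (XT.lf (nat_lit 0) (nat_lit 10788661755885) (nat_lit 76) (nat_lit 18315751070106) (nat_lit 76) (nat_lit 16440946881332) (nat_lit 9) (nat_lit 4) (nat_lit 10) (nat_lit 5) (nat_lit 10) (nat_lit 4) (nat_lit 420) (nat_lit 383) (nat_lit 217))))) (XT.nd (nat_lit 234) (nat_lit 152) (nat_lit 0) (XT.nd (nat_lit 78) (nat_lit 152) (nat_lit 0) (XT.lf (nat_lit 0) (nat_lit 36757867110542) (nat_lit 76) (nat_lit 7887750778268) (nat_lit 76) (nat_lit 6012946589474) (nat_lit 9) (nat_lit 4) (nat_lit 10) (nat_lit 5) (nat_lit 10) (nat_lit 4) (nat_lit 421) (nat_lit 383) (nat_lit 216)) (XT.nd (nat_lit 78) (nat_lit 0) (nat_lit 0) (XT.lf (nat_lit 0) (nat_lit 6097072081371) (nat_lit 152) (nat_lit 45840212164494) (nat_lit 0) (nat_lit 4466807569361) (nat_lit 7) (nat_lit 5) (nat_lit 9) (nat_lit 4) (nat_lit 7) (nat_lit 4) (nat_lit 422) (nat_lit 383) (nat_lit 215))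 (XT.lf (nat_lit 0) (nat_lit 20544818199447) (nat_lit 152) (nat_lit 23338601370586) (nat_lit 0) (nat_lit 18914553687424) (nat_lit 7) (nat_lit 5) (nat_lit 9) (nat_lit 4) (nat_lit 7) (nat_lit 4) (nat_lit 423) (nat_lit 383) (nat_lit 214)))) (XT.nd (nat_lit 156) (nat_lit 76) (nat_lit 0) (XT.nd (nat_lit 78) (nat_lit 0) (nat_lit 0) (XT.lf (nat_lit 0) (nat_lit 2786307393780) (nat_lit 76) (nat_lit 34488793888602) (nat_lit 76) (nat_lit 32858529376567) (nat_lit 6) (nat_lit 4) (nat_lit 7) (nat_lit 5) (nat_lit 7) (nat_lit 4) (nat_lit 424) (nat_lit 383) (nat_lit 213)) (XT.lf (nat_lit 0) (nat_lit 35452893012766) (nat_lit 76) (nat_lit 22282006159159) (nat_lit 76) (nat_lit 20651741647114) (nat_lit 6) (nat_lit 4) (nat_lit 7) (nat_lit 5) (nat_lit 7) (nat_lit 4) (nat_lit 425) (nat_lit 383) (nat_lit 212))) (XT.nd (nat_lit 78) (nat_lit 76) (nat_lit 0) (XT.lf (nat_lit 0) (nat_lit 73019466474223) (nat_lit 76) (nat_lit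 8244200270501) (nat_lit 76) (nat_lit 6613935758447) (nat_lit 6) (nat_lit 4) (nat_lit 7) (nat_lit 5) (nat_lit 7) (nat_lit 4) (nat_lit 426) (nat_lit 383) (nat_lit 211)) (XT.lf (nat_lit 0) (nat_lit 9838191260316) (nat_lit 76) (nat_lit 80300702155537) (nat_lit 0) (nat_lit 8420569945480) (nat_lit 5) (nat_lit 5) (nat_lit 6) (nat_lit 4) (nat_lit 5) (nat_lit 4) (nat_lit 427) (nat_lit 383) (nat_lit 210))))))) (XT.nd (nat_lit 50232) (nat_lit 0) (nat_lit 1520) (XT.nd (nat_lit 49686) (nat_lit 0) (nat_lit 2736) (XT.nd (nat_lit 234) (nat_lit 0) (nat_lit 0) (XT.nd (nat_lit 78) (nat_lit 76) (nat_lit 0) (XT.lf (nat_lit 0) (nat_lit 29287237085216) (nat_lit 76) (nat_lit 53458571975067) (nat_lit 0) (nat_lit 27869615770374) (nat_lit 5) (nat_lit 5) (nat_lit 6) (nat_lit 4) (nat_lit 5) (nat_lit 4) (nat_lit 428) (nat_lit 383) (nat_lit 209)) (XT.nd (nat_lit 78) (nat_lit 76) (nat_lit 0) (XT.lf (nat_lit 0) (nat_lit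 51653639783711) (nat_lit 76) (nat_lit 22590122267826) (nat_lit 0) (nat_lit 50236018468863) (nat_lit 5) (nat_lit 5) (nat_lit 6) (nat_lit 4) (nat_lit 5) (nat_lit 4) (nat_lit 429) (nat_lit 383) (nat_lit 208)) (XT.lf (nat_lit 0) (nat_lit 14170116669094) (nat_lit 76) (nat_lit 63791640531184) (nat_lit 76) (nat_lit 62374019216332) (nat_lit 4) (nat_lit 4) (nat_lit 5) (nat_lit 5) (nat_lit 5) (nat_lit 4) (nat_lit 430) (nat_lit 383) (nat_lit 207)))) (XT.nd (nat_lit 78) (nat_lit 0) (nat_lit 0) (XT.lf (nat_lit 0) (nat_lit 58983213142086) (nat_lit 76) (nat_lit 50413726387492) (nat_lit 76) (nat_lit 48996105072636) (nat_lit 4) (nat_lit 4) (nat_lit 5) (nat_lit 5) (nat_lit 5) (nat_lit 4) (nat_lit 431) (nat_lit 383) (nat_lit 206)) (XT.nd (nat_lit 78) (nat_lit 0) (nat_lit 0) (XT.lf (nat_lit 0) (nat_lit 110518274085810) (nat_lit 76) (nat_lit 35029125122361) (nat_lit 76) (nat_lit 33611503807502) (nat_lit 4) (nat_lit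 4) (nat_lit 5) (nat_lit 5) (nat_lit 5) (nat_lit 4) (nat_lit 432) (nat_lit 383) (nat_lit 205)) (XT.lf (nat_lit 0) (nat_lit 169783594170906) (nat_lit 76) (nat_lit 17336833667561) (nat_lit 76) (nat_lit 15919212352699) (nat_lit 4) (nat_lit 4) (nat_lit 5) (nat_lit 5) (nat_lit 5) (nat_lit 4) (nat_lit 433) (nat_lit 383) (nat_lit 204))))) (XT.nd (nat_lit 234) (nat_lit 152) (nat_lit 0) (XT.nd (nat_lit 78) (nat_lit 0) (nat_lit 0) (XT.lf (nat_lit 0) (nat_lit 282418474932) (nat_lit 380) (nat_lit 333251343745) (nat_lit 380) (nat_lit 333251343745) (nat_lit 42) (nat_lit 3) (nat_lit 47) (nat_lit 3) (nat_lit 47) (nat_lit 5) (nat_lit 384) (nat_lit 384) (nat_lit 252)) (XT.nd (nat_lit 78) (nat_lit 0) (nat_lit 76) (XT.lf (nat_lit 76) (nat_lit 305636726012) (nat_lit 0) (nat_lit 314218776986) (nat_lit 380) (nat_lit 1418426628924) (nat_lit 43) (nat_lit 5) (nat_lit 42) (nat_lit 3) (nat_lit 47) (nat_lit 5) (nat_lit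 385) (nat_lit 384) (nat_lit 251)) (XT.lf (nat_lit 0) (nat_lit 750287085212) (nat_lit 304) (nat_lit 728379396465) (nat_lit 380) (nat_lit 711047391466) (nat_lit 43) (nat_lit 5) (nat_lit 47) (nat_lit 5) (nat_lit 48) (nat_lit 5) (nat_lit 386) (nat_lit 384) (nat_lit 250)))) (XT.nd (nat_lit 156) (nat_lit 228) (nat_lit 0) (XT.nd (nat_lit 78) (nat_lit 0) (nat_lit 76) (XT.lf (nat_lit 76) (nat_lit 451784712665) (nat_lit 0) (nat_lit 482168929881) (nat_lit 380) (nat_lit 1424856197334) (nat_lit 44) (nat_lit 5) (nat_lit 43) (nat_lit 5) (nat_lit 48) (nat_lit 5) (nat_lit 387) (nat_lit 384) (nat_lit 249)) (XT.lf (nat_lit 0) (nat_lit 1212544301476) (nat_lit 304) (nat_lit 686025440293) (nat_lit 76) (nat_lit 644594342160) (nat_lit 44) (nat_lit 5) (nat_lit 48) (nat_lit 5) (nat_lit 45) (nat_lit 5) (nat_lit 388) (nat_lit 384) (nat_lit 248))) (XT.nd (nat_lit 78) (nat_lit 0) (nat_lit 0) (XT.lf (nat_lit 0) (nat_lit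 763100231950) (nat_lit 304) (nat_lit 824382103768) (nat_lit 380) (nat_lit 1159505312395) (nat_lit 40) (nat_lit 5) (nat_lit 44) (nat_lit 5) (nat_lit 45) (nat_lit 5) (nat_lit 389) (nat_lit 384) (nat_lit 247)) (XT.lf (nat_lit 0) (nat_lit 2073245020423) (nat_lit 380) (nat_lit 488034552880) (nat_lit 76) (nat_lit 411917581824) (nat_lit 40) (nat_lit 5) (nat_lit 45) (nat_lit 5) (nat_lit 41) (nat_lit 5) (nat_lit 390) (nat_lit 384) (nat_lit 246)))))) (XT.nd (nat_lit 546) (nat_lit 532) (nat_lit 0) (XT.nd (nat_lit 234) (nat_lit 304) (nat_lit 0) (XT.nd (nat_lit 78) (nat_lit 228) (nat_lit 0) (XT.lf (nat_lit 0) (nat_lit 1309522714866) (nat_lit 152) (nat_lit 1415830225057) (nat_lit 228) (nat_lit 493963023459) (nat_lit 38) (nat_lit 5) (nat_lit 40) (nat_lit 5) (nat_lit 41) (nat_lit 5) (nat_lit 391) (nat_lit 384) (nat_lit 245)) (XT.nd (nat_lit 78) (nat_lit 152) (nat_lit 0) (XT.lf (nat_lit 0) (nat_lit 2060606912)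 (nat_lit 228) (nat_lit 67057622843) (nat_lit 76) (nat_lit 3429393679187) (nat_lit 37) (nat_lit 5) (nat_lit 40) (nat_lit 5) (nat_lit 38) (nat_lit 5) (nat_lit 392) (nat_lit 384) (nat_lit 244)) (XT.lf (nat_lit 0) (nat_lit 680900972434) (nat_lit 228) (nat_lit 1642193295340) (nat_lit 76) (nat_lit 1469116831945) (nat_lit 35) (nat_lit 5) (nat_lit 38) (nat_lit 5) (nat_lit 36) (nat_lit 5) (nat_lit 393) (nat_lit 384) (nat_lit 243)))) (XT.nd (nat_lit 156) (nat_lit 152) (nat_lit 0) (XT.nd (nat_lit 78) (nat_lit 0) (nat_lit 0) (XT.lf (nat_lit 0) (nat_lit 630417381994) (nat_lit 152) (nat_lit 864217796373) (nat_lit 228) (nat_lit 2630369822909) (nat_lit 33) (nat_lit 5) (nat_lit 35) (nat_lit 5) (nat_lit 36) (nat_lit 5) (nat_lit 394) (nat_lit 384) (nat_lit 242)) (XT.lf (nat_lit 0) (nat_lit 2554044038995) (nat_lit 228) (nat_lit 1104134510604) (nat_lit 76) (nat_lit 830997259897) (nat_lit 33) (nat_lit 5) (nat_lit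 36) (nat_lit 5) (nat_lit 34) (nat_lit 4) (nat_lit 395) (nat_lit 384) (nat_lit 241))) (XT.nd (nat_lit 78) (nat_lit 76) (nat_lit 0) (XT.lf (nat_lit 0) (nat_lit 1760461819262) (nat_lit 76) (nat_lit 2125952606554) (nat_lit 152) (nat_lit 1004450283569) (nat_lit 32) (nat_lit 5) (nat_lit 33) (nat_lit 5) (nat_lit 34) (nat_lit 4) (nat_lit 396) (nat_lit 384) (nat_lit 240)) (XT.lf (nat_lit 0) (nat_lit 120436987434) (nat_lit 152) (nat_lit 170786674965) (nat_lit 76) (nat_lit 5052104702402) (nat_lit 31) (nat_lit 5) (nat_lit 33) (nat_lit 5) (nat_lit 32) (nat_lit 5) (nat_lit 397) (nat_lit 384) (nat_lit 239))))) (XT.nd (nat_lit 234) (nat_lit 304) (nat_lit 0) (XT.nd (nat_lit 78) (nat_lit 76) (nat_lit 0) (XT.lf (nat_lit 0) (nat_lit 1540471388093) (nat_lit 228) (nat_lit 2423055384439) (nat_lit 76) (nat_lit 1858572558769) (nat_lit 29) (nat_lit 5) (nat_lit 32) (nat_lit 5) (nat_lit 30) (nat_lit 4) (nat_lit 398)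 (nat_lit 384) (nat_lit 238)) (XT.nd (nat_lit 78) (nat_lit 0) (nat_lit 0) (XT.lf (nat_lit 0) (nat_lit 1249107729881) (nat_lit 76) (nat_lit 1999346502560) (nat_lit 152) (nat_lit 3112990217796) (nat_lit 28) (nat_lit 5) (nat_lit 29) (nat_lit 5) (nat_lit 30) (nat_lit 4) (nat_lit 399) (nat_lit 384) (nat_lit 237)) (XT.lf (nat_lit 0) (nat_lit 5356069349566) (nat_lit 152) (nat_lit 1235053820321) (nat_lit 0) (nat_lit 369052940207) (nat_lit 28) (nat_lit 5) (nat_lit 30) (nat_lit 4) (nat_lit 28) (nat_lit 4) (nat_lit 400) (nat_lit 384) (nat_lit 236)))) (XT.nd (nat_lit 156) (nat_lit 76) (nat_lit 0) (XT.nd (nat_lit 78) (nat_lit 76) (nat_lit 0) (XT.lf (nat_lit 0) (nat_lit 368159252065) (nat_lit 152) (nat_lit 4195474018094) (nat_lit 76) (nat_lit 3046961562962) (nat_lit 26) (nat_lit 5) (nat_lit 28) (nat_lit 5) (nat_lit 27) (nat_lit 4) (nat_lit 401) (nat_lit 384) (nat_lit 235)) (XT.lf (nat_lit 0) (nat_lit 519523722161)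 (nat_lit 76) (nat_lit 2041657734947) (nat_lit 152) (nat_lit 5772565061797) (nat_lit 25) (nat_lit 5) (nat_lit 26) (nat_lit 5) (nat_lit 27) (nat_lit 4) (nat_lit 402) (nat_lit 384) (nat_lit 234))) (XT.nd (nat_lit 78) (nat_lit 76) (nat_lit 0) (XT.lf (nat_lit 0) (nat_lit 5348462520971) (nat_lit 152) (nat_lit 2765186096087) (nat_lit 0) (nat_lit 1011926511289) (nat_lit 25) (nat_lit 5) (nat_lit 27) (nat_lit 4) (nat_lit 25) (nat_lit 4) (nat_lit 403) (nat_lit 384) (nat_lit 233)) (XT.lf (nat_lit 0) (nat_lit 3231691869317) (nat_lit 76) (nat_lit 5553183140103) (nat_lit 76) (nat_lit 1216647130035) (nat_lit 24) (nat_lit 4) (nat_lit 25) (nat_lit 5) (nat_lit 25) (nat_lit 4) (nat_lit 404) (nat_lit 384) (nat_lit 232))))))))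
noncomputable def xc108 : XT := (XT.nd (nat_lit 2028) (nat_lit 76) (nat_lit 0) (XT.nd (nat_lit 1014) (nat_lit 532) (nat_lit 0) (XT.nd (nat_lit 468) (nat_lit 456) (nat_lit 0) (XT.nd (nat_lit 234) (nat_lit 228) (nat_lit 0) (XT.nd (nat_lit 78) (nat_lit 152) (nat_lit 0) (XT.lf (nat_lit 0) (nat_lit 1725486472612) (nat_lit 152) (nat_lit 626740094287) (nat_lit 76) (nat_lit 8623188382120) (nat_lit 23) (nat_lit 5) (nat_lit 25) (nat_lit 5) (nat_lit 24) (nat_lit 4) (nat_lit 405) (nat_lit 384) (nat_lit 231)) (XT.nd (nat_lit 78) (nat_lit 76) (nat_lit 0) (XT.lf (nat_lit 0) (nat_lit 5345966993426) (nat_lit 152) (nat_lit 5111429979942) (nat_lit 0) (nat_lit 1575066114560) (nat_lit 22) (nat_lit 5) (nat_lit 24) (nat_lit 4) (nat_lit 22) (nat_lit 4) (nat_lit 406) (nat_lit 384) (nat_lit 230)) (XT.lf (nat_lit 0) (nat_lit 2540892015703) (nat_lit 76) (nat_lit 7220172766306) (nat_lit 76) (nat_lit 3449271887218) (nat_lit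 21) (nat_lit 4) (nat_lit 22) (nat_lit 5) (nat_lit 22) (nat_lit 4) (nat_lit 407) (nat_lit 384) (nat_lit 229)))) (XT.nd (nat_lit 78) (nat_lit 152) (nat_lit 0) (XT.lf (nat_lit 0) (nat_lit 529095530501) (nat_lit 152) (nat_lit 2633345488700) (nat_lit 76) (nat_lit 11358764541268) (nat_lit 20) (nat_lit 5) (nat_lit 22) (nat_lit 5) (nat_lit 21) (nat_lit 4) (nat_lit 408) (nat_lit 384) (nat_lit 228)) (XT.nd (nat_lit 78) (nat_lit 76) (nat_lit 0) (XT.lf (nat_lit 0) (nat_lit 5128028395045) (nat_lit 152) (nat_lit 8970512070718) (nat_lit 0) (nat_lit 1848984152048) (nat_lit 19) (nat_lit 5) (nat_lit 21) (nat_lit 4) (nat_lit 19) (nat_lit 4) (nat_lit 409) (nat_lit 384) (nat_lit 227)) (XT.lf (nat_lit 0) (nat_lit 659278979828) (nat_lit 76) (nat_lit 10079620989984) (nat_lit 76) (nat_lit 6800576746861) (nat_lit 18) (nat_lit 4) (nat_lit 19) (nat_lit 5) (nat_lit 19) (nat_lit 4) (nat_lit 410) (nat_lit 384) (nat_lit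 226))))) (XT.nd (nat_lit 234) (nat_lit 304) (nat_lit 0) (XT.nd (nat_lit 78) (nat_lit 152) (nat_lit 0) (XT.lf (nat_lit 0) (nat_lit 12741701918678) (nat_lit 76) (nat_lit 4918613492669) (nat_lit 76) (nat_lit 1639569249435) (nat_lit 18) (nat_lit 4) (nat_lit 19) (nat_lit 5) (nat_lit 19) (nat_lit 4) (nat_lit 411) (nat_lit 384) (nat_lit 225)) (XT.nd (nat_lit 78) (nat_lit 0) (nat_lit 0) (XT.lf (nat_lit 0) (nat_lit 4208218053546) (nat_lit 152) (nat_lit 15688322067661) (nat_lit 0) (nat_lit 1356875233260) (nat_lit 16) (nat_lit 5) (nat_lit 18) (nat_lit 4) (nat_lit 16) (nat_lit 4) (nat_lit 412) (nat_lit 384) (nat_lit 224)) (XT.lf (nat_lit 0) (nat_lit 11358671059207) (nat_lit 152) (nat_lit 3533261404952) (nat_lit 0) (nat_lit 8507328238848) (nat_lit 16) (nat_lit 5) (nat_lit 18) (nat_lit 4) (nat_lit 16) (nat_lit 4) (nat_lit 413) (nat_lit 384) (nat_lit 223)))) (XT.nd (nat_lit 156) (nat_lit 76) (nat_lit 0)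 (XT.nd (nat_lit 78) (nat_lit 152) (nat_lit 0) (XT.lf (nat_lit 0) (nat_lit 11465825423130) (nat_lit 76) (nat_lit 8590641972097) (nat_lit 76) (nat_lit 5739299151676) (nat_lit 15) (nat_lit 4) (nat_lit 16) (nat_lit 5) (nat_lit 16) (nat_lit 4) (nat_lit 414) (nat_lit 384) (nat_lit 222)) (XT.lf (nat_lit 0) (nat_lit 567104748211) (nat_lit 76) (nat_lit 1022870865131) (nat_lit 152) (nat_lit 26919865648682) (nat_lit 13) (nat_lit 5) (nat_lit 14) (nat_lit 5) (nat_lit 15) (nat_lit 4) (nat_lit 415) (nat_lit 384) (nat_lit 221))) (XT.nd (nat_lit 78) (nat_lit 76) (nat_lit 0) (XT.lf (nat_lit 0) (nat_lit 10533796702169) (nat_lit 152) (nat_lit 12836454822391) (nat_lit 0) (nat_lit 8054368162583) (nat_lit 13) (nat_lit 5) (nat_lit 15) (nat_lit 4) (nat_lit 13) (nat_lit 4) (nat_lit 416) (nat_lit 384) (nat_lit 220)) (XT.lf (nat_lit 0) (nat_lit 4925569218404) (nat_lit 76) (nat_lit 16146287189597) (nat_lit 76) (nat_lit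 13666858649976) (nat_lit 12) (nat_lit 4) (nat_lit 13) (nat_lit 5) (nat_lit 13) (nat_lit 4) (nat_lit 417) (nat_lit 384) (nat_lit 219)))))) (XT.nd (nat_lit 468) (nat_lit 152) (nat_lit 0) (XT.nd (nat_lit 234) (nat_lit 228) (nat_lit 0) (XT.nd (nat_lit 78) (nat_lit 152) (nat_lit 0) (XT.lf (nat_lit 0) (nat_lit 26794539344218) (nat_lit 76) (nat_lit 7067082227300) (nat_lit 76) (nat_lit 4587653687647) (nat_lit 12) (nat_lit 4) (nat_lit 13) (nat_lit 5) (nat_lit 13) (nat_lit 4) (nat_lit 418) (nat_lit 384) (nat_lit 218)) (XT.nd (nat_lit 78) (nat_lit 0) (nat_lit 0) (XT.lf (nat_lit 0) (nat_lit 5911431002662) (nat_lit 152) (nat_lit 32926358784838) (nat_lit 0) (nat_lit 3755406185549) (nat_lit 10) (nat_lit 5) (nat_lit 12) (nat_lit 4) (nat_lit 10) (nat_lit 4) (nat_lit 419) (nat_lit 384) (nat_lit 217)) (XT.lf (nat_lit 0) (nat_lit 18490453305846) (nat_lit 152) (nat_lit 12354839555085) (nat_lit 0) (nat_lit 16334428488713)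 (nat_lit 10) (nat_lit 5) (nat_lit 12) (nat_lit 4) (nat_lit 10) (nat_lit 4) (nat_lit 420) (nat_lit 384) (nat_lit 216)))) (XT.nd (nat_lit 78) (nat_lit 152) (nat_lit 0) (XT.lf (nat_lit 0) (nat_lit 12406961024637) (nat_lit 76) (nat_lit 21063113727778) (nat_lit 76) (nat_lit 18907088910627) (nat_lit 9) (nat_lit 4) (nat_lit 10) (nat_lit 5) (nat_lit 10) (nat_lit 4) (nat_lit 421) (nat_lit 384) (nat_lit 215)) (XT.nd (nat_lit 78) (nat_lit 152) (nat_lit 0) (XT.lf (nat_lit 0) (nat_lit 42271547181792) (nat_lit 76) (nat_lit 9070913392536) (nat_lit 76) (nat_lit 6914888575369) (nat_lit 9) (nat_lit 4) (nat_lit 10) (nat_lit 5) (nat_lit 10) (nat_lit 4) (nat_lit 422) (nat_lit 384) (nat_lit 214)) (XT.lf (nat_lit 0) (nat_lit 7011632895874) (nat_lit 152) (nat_lit 52716243984270) (nat_lit 0) (nat_lit 5136828707022) (nat_lit 7) (nat_lit 5) (nat_lit 9) (nat_lit 4) (nat_lit 7) (nat_lit 4) (nat_lit 423) (nat_lit 384)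 (nat_lit 213))))) (XT.nd (nat_lit 234) (nat_lit 76) (nat_lit 0) (XT.nd (nat_lit 78) (nat_lit 76) (nat_lit 0) (XT.lf (nat_lit 0) (nat_lit 23626540931362) (nat_lit 152) (nat_lit 26839391571914) (nat_lit 0) (nat_lit 21751736742499) (nat_lit 7) (nat_lit 5) (nat_lit 9) (nat_lit 4) (nat_lit 7) (nat_lit 4) (nat_lit 424) (nat_lit 384) (nat_lit 212)) (XT.nd (nat_lit 78) (nat_lit 0) (nat_lit 0) (XT.lf (nat_lit 0) (nat_lit 3204253506913) (nat_lit 76) (nat_lit 39662112969732) (nat_lit 76) (nat_lit 37787308780861) (nat_lit 6) (nat_lit 4) (nat_lit 7) (nat_lit 5) (nat_lit 7) (nat_lit 4) (nat_lit 425) (nat_lit 384) (nat_lit 211)) (XT.lf (nat_lit 0) (nat_lit 40770826968217) (nat_lit 76) (nat_lit 25624307081155) (nat_lit 76) (nat_lit 23749502892276) (nat_lit 6) (nat_lit 4) (nat_lit 7) (nat_lit 5) (nat_lit 7) (nat_lit 4) (nat_lit 426) (nat_lit 384) (nat_lit 210)))) (XT.nd (nat_lit 156) (nat_lit 0) (nat_lit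 0) (XT.nd (nat_lit 78) (nat_lit 76) (nat_lit 0) (XT.lf (nat_lit 0) (nat_lit 83972386448431) (nat_lit 76) (nat_lit 9480830309443) (nat_lit 76) (nat_lit 7606026120557) (nat_lit 6) (nat_lit 4) (nat_lit 7) (nat_lit 5) (nat_lit 7) (nat_lit 4) (nat_lit 427) (nat_lit 384) (nat_lit 209)) (XT.lf (nat_lit 0) (nat_lit 11313919950871) (nat_lit 76) (nat_lit 92345807475645) (nat_lit 0) (nat_lit 9683655438792) (nat_lit 5) (nat_lit 5) (nat_lit 6) (nat_lit 4) (nat_lit 5) (nat_lit 4) (nat_lit 428) (nat_lit 384) (nat_lit 208))) (XT.nd (nat_lit 78) (nat_lit 0) (nat_lit 0) (XT.lf (nat_lit 0) (nat_lit 33680322649310) (nat_lit 76) (nat_lit 61477357768524) (nat_lit 0) (nat_lit 32050058137225) (nat_lit 5) (nat_lit 5) (nat_lit 6) (nat_lit 4) (nat_lit 5) (nat_lit 4) (nat_lit 429) (nat_lit 384) (nat_lit 207)) (XT.lf (nat_lit 0) (nat_lit 59401685752408) (nat_lit 76) (nat_lit 25978640605562) (nat_lit 0) (nat_lit 57771421240320)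 (nat_lit 5) (nat_lit 5) (nat_lit 6) (nat_lit 4) (nat_lit 5) (nat_lit 4) (nat_lit 430) (nat_lit 384) (nat_lit 206))))))) (XT.nd (nat_lit 50388) (nat_lit 0) (nat_lit 1216) (XT.nd (nat_lit 49842) (nat_lit 0) (nat_lit 2204) (XT.nd (nat_lit 49608) (nat_lit 0) (nat_lit 2888) (XT.nd (nat_lit 78) (nat_lit 0) (nat_lit 0) (XT.lf (nat_lit 0) (nat_lit 16295634171785) (nat_lit 76) (nat_lit 73360386609622) (nat_lit 76) (nat_lit 71730122097531) (nat_lit 4) (nat_lit 4) (nat_lit 5) (nat_lit 5) (nat_lit 5) (nat_lit 4) (nat_lit 431) (nat_lit 384) (nat_lit 205)) (XT.nd (nat_lit 49452) (nat_lit 0) (nat_lit 2888) (XT.lf (nat_lit 0) (nat_lit 67830695115422) (nat_lit 76) (nat_lit 57975785344538) (nat_lit 76) (nat_lit 56345520832444) (nat_lit 4) (nat_lit 4) (nat_lit 5) (nat_lit 5) (nat_lit 5) (nat_lit 4) (nat_lit 432) (nat_lit 384) (nat_lit 204)) (XT.lf (nat_lit 0) (nat_lit 324781262317) (nat_lit 380) (nat_lit 383239036022)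 (nat_lit 380) (nat_lit 383239036022) (nat_lit 42) (nat_lit 3) (nat_lit 47) (nat_lit 3) (nat_lit 47) (nat_lit 5) (nat_lit 385) (nat_lit 385) (nat_lit 250)))) (XT.nd (nat_lit 78) (nat_lit 0) (nat_lit 76) (XT.lf (nat_lit 76) (nat_lit 351482252641) (nat_lit 0) (nat_lit 361351604620) (nat_lit 380) (nat_lit 1631190590122) (nat_lit 43) (nat_lit 5) (nat_lit 42) (nat_lit 3) (nat_lit 47) (nat_lit 5) (nat_lit 386) (nat_lit 385) (nat_lit 249)) (XT.nd (nat_lit 78) (nat_lit 0) (nat_lit 0) (XT.lf (nat_lit 0) (nat_lit 862830172649) (nat_lit 304) (nat_lit 837636286358) (nat_lit 380) (nat_lit 817704491404) (nat_lit 43) (nat_lit 5) (nat_lit 47) (nat_lit 5) (nat_lit 48) (nat_lit 5) (nat_lit 387) (nat_lit 385) (nat_lit 248)) (XT.lf (nat_lit 76) (nat_lit 519552438252) (nat_lit 0) (nat_lit 554494272889) (nat_lit 380) (nat_lit 1638584601384) (nat_lit 44) (nat_lit 5) (nat_lit 43) (nat_lit 5) (nat_lit 48) (nat_lit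 5) (nat_lit 388) (nat_lit 385) (nat_lit 247))))) (XT.nd (nat_lit 234) (nat_lit 532) (nat_lit 0) (XT.nd (nat_lit 78) (nat_lit 304) (nat_lit 0) (XT.lf (nat_lit 0) (nat_lit 1394425965887) (nat_lit 304) (nat_lit 788929237058) (nat_lit 76) (nat_lit 741283490691) (nat_lit 44) (nat_lit 5) (nat_lit 48) (nat_lit 5) (nat_lit 45) (nat_lit 5) (nat_lit 389) (nat_lit 385) (nat_lit 246)) (XT.nd (nat_lit 78) (nat_lit 0) (nat_lit 0) (XT.lf (nat_lit 0) (nat_lit 877565285145) (nat_lit 304) (nat_lit 948039418379) (nat_lit 380) (nat_lit 1333431089186) (nat_lit 40) (nat_lit 5) (nat_lit 44) (nat_lit 5) (nat_lit 45) (nat_lit 5) (nat_lit 390) (nat_lit 385) (nat_lit 245)) (XT.lf (nat_lit 0) (nat_lit 2384231788693) (nat_lit 380) (nat_lit 561239717566) (nat_lit 76) (nat_lit 473705219854) (nat_lit 40) (nat_lit 5) (nat_lit 45) (nat_lit 5) (nat_lit 41) (nat_lit 5) (nat_lit 391) (nat_lit 385) (nat_lit 244)))) (XT.nd (nat_lit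 156) (nat_lit 304) (nat_lit 0) (XT.nd (nat_lit 78) (nat_lit 76) (nat_lit 0) (XT.lf (nat_lit 0) (nat_lit 1505951139514) (nat_lit 152) (nat_lit 1628204755342) (nat_lit 228) (nat_lit 568057460939) (nat_lit 38) (nat_lit 5) (nat_lit 40) (nat_lit 5) (nat_lit 41) (nat_lit 5) (nat_lit 392) (nat_lit 385) (nat_lit 243)) (XT.lf (nat_lit 0) (nat_lit 2369710654) (nat_lit 228) (nat_lit 77116249880) (nat_lit 76) (nat_lit 3943802732841) (nat_lit 37) (nat_lit 5) (nat_lit 40) (nat_lit 5) (nat_lit 38) (nat_lit 5) (nat_lit 393) (nat_lit 385) (nat_lit 242))) (XT.nd (nat_lit 78) (nat_lit 152) (nat_lit 0) (XT.lf (nat_lit 0) (nat_lit 783036130158) (nat_lit 228) (nat_lit 1888522272404) (nat_lit 76) (nat_lit 1689484360334) (nat_lit 35) (nat_lit 5) (nat_lit 38) (nat_lit 5) (nat_lit 36) (nat_lit 5) (nat_lit 394) (nat_lit 385) (nat_lit 241)) (XT.lf (nat_lit 0) (nat_lit 724980005747) (nat_lit 152) (nat_lit 993850460368)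 (nat_lit 228) (nat_lit 3024925283702) (nat_lit 33) (nat_lit 5) (nat_lit 35) (nat_lit 5) (nat_lit 36) (nat_lit 5) (nat_lit 395) (nat_lit 385) (nat_lit 240)))))) (XT.nd (nat_lit 546) (nat_lit 456) (nat_lit 0) (XT.nd (nat_lit 234) (nat_lit 380) (nat_lit 0) (XT.nd (nat_lit 78) (nat_lit 152) (nat_lit 0) (XT.lf (nat_lit 0) (nat_lit 2937150654601) (nat_lit 228) (nat_lit 1269754671648) (nat_lit 76) (nat_lit 955646853207) (nat_lit 33) (nat_lit 5) (nat_lit 36) (nat_lit 5) (nat_lit 34) (nat_lit 4) (nat_lit 396) (nat_lit 385) (nat_lit 239)) (XT.nd (nat_lit 78) (nat_lit 76) (nat_lit 0) (XT.lf (nat_lit 0) (nat_lit 2024531106991) (nat_lit 76) (nat_lit 2444845491796) (nat_lit 152) (nat_lit 1155117815640) (nat_lit 32) (nat_lit 5) (nat_lit 33) (nat_lit 5) (nat_lit 34) (nat_lit 4) (nat_lit 397) (nat_lit 385) (nat_lit 238)) (XT.lf (nat_lit 0) (nat_lit 138502543839) (nat_lit 152) (nat_lit 196404662495) (nat_lit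 76) (nat_lit 5809920411944) (nat_lit 31) (nat_lit 5) (nat_lit 33) (nat_lit 5) (nat_lit 32) (nat_lit 5) (nat_lit 398) (nat_lit 385) (nat_lit 237)))) (XT.nd (nat_lit 156) (nat_lit 152) (nat_lit 0) (XT.nd (nat_lit 78) (nat_lit 76) (nat_lit 0) (XT.lf (nat_lit 0) (nat_lit 1771542104278) (nat_lit 228) (nat_lit 2786513678071) (nat_lit 76) (nat_lit 2137358447451) (nat_lit 29) (nat_lit 5) (nat_lit 32) (nat_lit 5) (nat_lit 30) (nat_lit 4) (nat_lit 399) (nat_lit 385) (nat_lit 236)) (XT.lf (nat_lit 0) (nat_lit 1436473902759) (nat_lit 76) (nat_lit 2299248472034) (nat_lit 152) (nat_lit 3579938741856) (nat_lit 28) (nat_lit 5) (nat_lit 29) (nat_lit 5) (nat_lit 30) (nat_lit 4) (nat_lit 400) (nat_lit 385) (nat_lit 235))) (XT.nd (nat_lit 78) (nat_lit 152) (nat_lit 0) (XT.lf (nat_lit 0) (nat_lit 6159479758724) (nat_lit 152) (nat_lit 1420311880957) (nat_lit 0) (nat_lit 424410885920) (nat_lit 28) (nat_lit 5)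 (nat_lit 30) (nat_lit 4) (nat_lit 28) (nat_lit 4) (nat_lit 401) (nat_lit 385) (nat_lit 234)) (XT.lf (nat_lit 0) (nat_lit 423383146513) (nat_lit 152) (nat_lit 4824795108310) (nat_lit 76) (nat_lit 3504005802269) (nat_lit 26) (nat_lit 5) (nat_lit 28) (nat_lit 5) (nat_lit 27) (nat_lit 4) (nat_lit 402) (nat_lit 385) (nat_lit 233))))) (XT.nd (nat_lit 234) (nat_lit 304) (nat_lit 0) (XT.nd (nat_lit 78) (nat_lit 76) (nat_lit 0) (XT.lf (nat_lit 0) (nat_lit 597452292415) (nat_lit 76) (nat_lit 2347906389526) (nat_lit 152) (nat_lit 6638449813859) (nat_lit 25) (nat_lit 5) (nat_lit 26) (nat_lit 5) (nat_lit 27) (nat_lit 4) (nat_lit 403) (nat_lit 385) (nat_lit 232)) (XT.nd (nat_lit 78) (nat_lit 76) (nat_lit 0) (XT.lf (nat_lit 0) (nat_lit 6150731904770) (nat_lit 152) (nat_lit 3179963999512) (nat_lit 0) (nat_lit 1163715492469) (nat_lit 25) (nat_lit 5) (nat_lit 27) (nat_lit 4) (nat_lit 25) (nat_lit 4) (nat_lit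 404) (nat_lit 385) (nat_lit 231)) (XT.lf (nat_lit 0) (nat_lit 3716445660202) (nat_lit 76) (nat_lit 6386160605980) (nat_lit 76) (nat_lit 1399144193387) (nat_lit 24) (nat_lit 4) (nat_lit 25) (nat_lit 5) (nat_lit 25) (nat_lit 4) (nat_lit 405) (nat_lit 385) (nat_lit 230)))) (XT.nd (nat_lit 156) (nat_lit 152) (nat_lit 0) (XT.nd (nat_lit 78) (nat_lit 76) (nat_lit 0) (XT.lf (nat_lit 0) (nat_lit 1984309448378) (nat_lit 152) (nat_lit 720751098834) (nat_lit 76) (nat_lit 9916666643430) (nat_lit 23) (nat_lit 5) (nat_lit 25) (nat_lit 5) (nat_lit 24) (nat_lit 4) (nat_lit 406) (nat_lit 385) (nat_lit 229)) (XT.lf (nat_lit 0) (nat_lit 6147862047246) (nat_lit 152) (nat_lit 5878144467268) (nat_lit 0) (nat_lit 1811326035883) (nat_lit 22) (nat_lit 5) (nat_lit 24) (nat_lit 4) (nat_lit 22) (nat_lit 4) (nat_lit 407) (nat_lit 385) (nat_lit 228))) (XT.nd (nat_lit 78) (nat_lit 76) (nat_lit 0) (XT.lf (nat_lit 0) (nat_lit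 2922025827284) (nat_lit 76) (nat_lit 8303198676587) (nat_lit 76) (nat_lit 3966662665056) (nat_lit 21) (nat_lit 4) (nat_lit 22) (nat_lit 5) (nat_lit 22) (nat_lit 4) (nat_lit 408) (nat_lit 385) (nat_lit 227)) (XT.lf (nat_lit 0) (nat_lit 608459864232) (nat_lit 152) (nat_lit 3028347303576) (nat_lit 76) (nat_lit 13062579226109) (nat_lit 20) (nat_lit 5) (nat_lit 22) (nat_lit 5) (nat_lit 21) (nat_lit 4) (nat_lit 409) (nat_lit 385) (nat_lit 226))))))))
noncomputable def xc109 : XT := (XT.nd (nat_lit 51558) (nat_lit 0) (nat_lit 836) (XT.nd (nat_lit 1014) (nat_lit 380) (nat_lit 0) (XT.nd (nat_lit 468) (nat_lit 456) (nat_lit 0) (XT.nd (nat_lit 234) (nat_lit 228) (nat_lit 0) (XT.nd (nat_lit 78) (nat_lit 76) (nat_lit 0) (XT.lf (nat_lit 0) (nat_lit 5897232658418) (nat_lit 152) (nat_lit 10316088872858) (nat_lit 0) (nat_lit 2126331778590) (nat_lit 19) (nat_lit 5) (nat_lit 21) (nat_lit 4) (nat_lit 19) (nat_lit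 4) (nat_lit 410) (nat_lit 385) (nat_lit 225)) (XT.nd (nat_lit 78) (nat_lit 0) (nat_lit 0) (XT.lf (nat_lit 0) (nat_lit 758170834885) (nat_lit 76) (nat_lit 11591564134313) (nat_lit 76) (nat_lit 7820663254389) (nat_lit 18) (nat_lit 4) (nat_lit 19) (nat_lit 5) (nat_lit 19) (nat_lit 4) (nat_lit 411) (nat_lit 385) (nat_lit 224)) (XT.lf (nat_lit 0) (nat_lit 14652957213509) (nat_lit 76) (nat_lit 5656405512943) (nat_lit 76) (nat_lit 1885504632937) (nat_lit 18) (nat_lit 4) (nat_lit 19) (nat_lit 5) (nat_lit 19) (nat_lit 4) (nat_lit 412) (nat_lit 385) (nat_lit 223)))) (XT.nd (nat_lit 78) (nat_lit 76) (nat_lit 0) (XT.lf (nat_lit 0) (nat_lit 4839450765121) (nat_lit 152) (nat_lit 18041570370411) (nat_lit 0) (nat_lit 1560406521574) (nat_lit 16) (nat_lit 5) (nat_lit 18) (nat_lit 4) (nat_lit 16) (nat_lit 4) (nat_lit 413) (nat_lit 385) (nat_lit 222)) (XT.nd (nat_lit 78) (nat_lit 76) (nat_lit 0) (XT.lf (nat_lit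 0) (nat_lit 13062471721169) (nat_lit 152) (nat_lit 4063250609261) (nat_lit 0) (nat_lit 9783427477567) (nat_lit 16) (nat_lit 5) (nat_lit 18) (nat_lit 4) (nat_lit 16) (nat_lit 4) (nat_lit 414) (nat_lit 385) (nat_lit 221)) (XT.lf (nat_lit 0) (nat_lit 13185699242741) (nat_lit 76) (nat_lit 9879238264703) (nat_lit 76) (nat_lit 6600194021054) (nat_lit 15) (nat_lit 4) (nat_lit 16) (nat_lit 5) (nat_lit 16) (nat_lit 4) (nat_lit 415) (nat_lit 385) (nat_lit 220))))) (XT.nd (nat_lit 234) (nat_lit 228) (nat_lit 0) (XT.nd (nat_lit 78) (nat_lit 76) (nat_lit 0) (XT.lf (nat_lit 0) (nat_lit 652170466592) (nat_lit 76) (nat_lit 1176301491678) (nat_lit 152) (nat_lit 30957845492618) (nat_lit 13) (nat_lit 5) (nat_lit 14) (nat_lit 5) (nat_lit 15) (nat_lit 4) (nat_lit 416) (nat_lit 385) (nat_lit 219)) (XT.nd (nat_lit 78) (nat_lit 76) (nat_lit 0) (XT.lf (nat_lit 0) (nat_lit 12113866210155) (nat_lit 152) (nat_lit 14761923040136)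 (nat_lit 0) (nat_lit 9262523389524) (nat_lit 13) (nat_lit 5) (nat_lit 15) (nat_lit 4) (nat_lit 13) (nat_lit 4) (nat_lit 417) (nat_lit 385) (nat_lit 218)) (XT.lf (nat_lit 0) (nat_lit 5664404606523) (nat_lit 76) (nat_lit 18568230265215) (nat_lit 76) (nat_lit 15716887444556) (nat_lit 12) (nat_lit 4) (nat_lit 13) (nat_lit 5) (nat_lit 13) (nat_lit 4) (nat_lit 418) (nat_lit 385) (nat_lit 217)))) (XT.nd (nat_lit 156) (nat_lit 76) (nat_lit 0) (XT.nd (nat_lit 78) (nat_lit 152) (nat_lit 0) (XT.lf (nat_lit 0) (nat_lit 30813720250510) (nat_lit 76) (nat_lit 8127144558941) (nat_lit 76) (nat_lit 5275801738258) (nat_lit 12) (nat_lit 4) (nat_lit 13) (nat_lit 5) (nat_lit 13) (nat_lit 4) (nat_lit 419) (nat_lit 385) (nat_lit 216)) (XT.lf (nat_lit 0) (nat_lit 6798145655365) (nat_lit 152) (nat_lit 37865312597672) (nat_lit 0) (nat_lit 4318717115624) (nat_lit 10) (nat_lit 5) (nat_lit 12) (nat_lit 4) (nat_lit 10)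 (nat_lit 4) (nat_lit 420) (nat_lit 385) (nat_lit 215))) (XT.nd (nat_lit 78) (nat_lit 76) (nat_lit 0) (XT.lf (nat_lit 0) (nat_lit 21264021303727) (nat_lit 152) (nat_lit 14208065484094) (nat_lit 0) (nat_lit 18784592763970) (nat_lit 10) (nat_lit 5) (nat_lit 12) (nat_lit 4) (nat_lit 10) (nat_lit 4) (nat_lit 421) (nat_lit 385) (nat_lit 214)) (XT.lf (nat_lit 0) (nat_lit 14268005182393) (nat_lit 76) (nat_lit 24222580784795) (nat_lit 76) (nat_lit 21743152245024) (nat_lit 9) (nat_lit 4) (nat_lit 10) (nat_lit 5) (nat_lit 10) (nat_lit 4) (nat_lit 422) (nat_lit 385) (nat_lit 213)))))) (XT.nd (nat_lit 546) (nat_lit 76) (nat_lit 0) (XT.nd (nat_lit 234) (nat_lit 152) (nat_lit 0) (XT.nd (nat_lit 78) (nat_lit 152) (nat_lit 0) (XT.lf (nat_lit 0) (nat_lit 48612279262591) (nat_lit 76) (nat_lit 10431550399547) (nat_lit 76) (nat_lit 7952121859765) (nat_lit 9) (nat_lit 4) (nat_lit 10) (nat_lit 5) (nat_lit 10)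 (nat_lit 4) (nat_lit 423) (nat_lit 385) (nat_lit 212)) (XT.nd (nat_lit 78) (nat_lit 0) (nat_lit 0) (XT.lf (nat_lit 0) (nat_lit 8063377831992) (nat_lit 152) (nat_lit 60623680578207) (nat_lit 0) (nat_lit 5907353014781) (nat_lit 7) (nat_lit 5) (nat_lit 9) (nat_lit 4) (nat_lit 7) (nat_lit 4) (nat_lit 424) (nat_lit 385) (nat_lit 211)) (XT.lf (nat_lit 0) (nat_lit 27170522072576) (nat_lit 152) (nat_lit 30865300304481) (nat_lit 0) (nat_lit 25014497255358) (nat_lit 7) (nat_lit 5) (nat_lit 9) (nat_lit 4) (nat_lit 7) (nat_lit 4) (nat_lit 425) (nat_lit 385) (nat_lit 210)))) (XT.nd (nat_lit 156) (nat_lit 76) (nat_lit 0) (XT.nd (nat_lit 78) (nat_lit 0) (nat_lit 0) (XT.lf (nat_lit 0) (nat_lit 3684891536024) (nat_lit 76) (nat_lit 45611429913558) (nat_lit 76) (nat_lit 43455405096333) (nat_lit 6) (nat_lit 4) (nat_lit 7) (nat_lit 5) (nat_lit 7) (nat_lit 4) (nat_lit 426) (nat_lit 385) (nat_lit 209)) (XT.lf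 (nat_lit 0) (nat_lit 46886451016123) (nat_lit 76) (nat_lit 29467953141908) (nat_lit 76) (nat_lit 27311928324676) (nat_lit 6) (nat_lit 4) (nat_lit 7) (nat_lit 5) (nat_lit 7) (nat_lit 4) (nat_lit 427) (nat_lit 385) (nat_lit 208))) (XT.nd (nat_lit 78) (nat_lit 76) (nat_lit 0) (XT.lf (nat_lit 0) (nat_lit 96568244418020) (nat_lit 76) (nat_lit 10902954854624) (nat_lit 76) (nat_lit 8746930037388) (nat_lit 6) (nat_lit 4) (nat_lit 7) (nat_lit 5) (nat_lit 7) (nat_lit 4) (nat_lit 428) (nat_lit 385) (nat_lit 207)) (XT.lf (nat_lit 0) (nat_lit 13011007944642) (nat_lit 76) (nat_lit 106197678594554) (nat_lit 0) (nat_lit 11136203755737) (nat_lit 5) (nat_lit 5) (nat_lit 6) (nat_lit 4) (nat_lit 5) (nat_lit 4) (nat_lit 429) (nat_lit 385) (nat_lit 206))))) (XT.nd (nat_lit 49686) (nat_lit 0) (nat_lit 2888) (XT.nd (nat_lit 78) (nat_lit 76) (nat_lit 0) (XT.lf (nat_lit 0) (nat_lit 38732371047697) (nat_lit 76) (nat_lit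 70698961431683) (nat_lit 0) (nat_lit 36857566858789) (nat_lit 5) (nat_lit 5) (nat_lit 6) (nat_lit 4) (nat_lit 5) (nat_lit 4) (nat_lit 430) (nat_lit 385) (nat_lit 205)) (XT.nd (nat_lit 78) (nat_lit 76) (nat_lit 0) (XT.lf (nat_lit 0) (nat_lit 68311938616131) (nat_lit 76) (nat_lit 29875436694553) (nat_lit 0) (nat_lit 66437134427219) (nat_lit 5) (nat_lit 5) (nat_lit 6) (nat_lit 4) (nat_lit 5) (nat_lit 4) (nat_lit 431) (nat_lit 385) (nat_lit 204)) (XT.lf (nat_lit 0) (nat_lit 18739979299312) (nat_lit 76) (nat_lit 84364444600129) (nat_lit 76) (nat_lit 82489640411216) (nat_lit 4) (nat_lit 4) (nat_lit 5) (nat_lit 5) (nat_lit 5) (nat_lit 4) (nat_lit 432) (nat_lit 385) (nat_lit 203)))) (XT.nd (nat_lit 156) (nat_lit 0) (nat_lit 76) (XT.nd (nat_lit 78) (nat_lit 0) (nat_lit 0) (XT.lf (nat_lit 0) (nat_lit 373498463873) (nat_lit 380) (nat_lit 440724884404) (nat_lit 380) (nat_lit 440724884404) (nat_lit 42)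 (nat_lit 3) (nat_lit 47) (nat_lit 3) (nat_lit 47) (nat_lit 5) (nat_lit 386) (nat_lit 386) (nat_lit 248)) (XT.lf (nat_lit 76) (nat_lit 404204603941) (nat_lit 0) (nat_lit 415554353695) (nat_lit 380) (nat_lit 1875869153580) (nat_lit 43) (nat_lit 5) (nat_lit 42) (nat_lit 3) (nat_lit 47) (nat_lit 5) (nat_lit 387) (nat_lit 386) (nat_lit 247))) (XT.nd (nat_lit 78) (nat_lit 0) (nat_lit 0) (XT.lf (nat_lit 0) (nat_lit 992254717190) (nat_lit 304) (nat_lit 963281714508) (nat_lit 380) (nat_lit 940360158475) (nat_lit 43) (nat_lit 5) (nat_lit 47) (nat_lit 5) (nat_lit 48) (nat_lit 5) (nat_lit 388) (nat_lit 386) (nat_lit 246)) (XT.lf (nat_lit 76) (nat_lit 597485318121) (nat_lit 0) (nat_lit 637668416488) (nat_lit 380) (nat_lit 1884372272272) (nat_lit 44) (nat_lit 5) (nat_lit 43) (nat_lit 5) (nat_lit 48) (nat_lit 5) (nat_lit 389) (nat_lit 386) (nat_lit 245))))))) (XT.nd (nat_lit 1014) (nat_lit 988) (nat_lit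 0) (XT.nd (nat_lit 468) (nat_lit 532) (nat_lit 0) (XT.nd (nat_lit 234) (nat_lit 380) (nat_lit 0) (XT.nd (nat_lit 78) (nat_lit 304) (nat_lit 0) (XT.lf (nat_lit 0) (nat_lit 1603589875279) (nat_lit 304) (nat_lit 907268608039) (nat_lit 76) (nat_lit 852476012183) (nat_lit 44) (nat_lit 5) (nat_lit 48) (nat_lit 5) (nat_lit 45) (nat_lit 5) (nat_lit 390) (nat_lit 386) (nat_lit 244)) (XT.nd (nat_lit 78) (nat_lit 0) (nat_lit 0) (XT.lf (nat_lit 0) (nat_lit 1009200091832) (nat_lit 304) (nat_lit 1090245330414) (nat_lit 380) (nat_lit 1533445737389) (nat_lit 40) (nat_lit 5) (nat_lit 44) (nat_lit 5) (nat_lit 45) (nat_lit 5) (nat_lit 391) (nat_lit 386) (nat_lit 243)) (XT.lf (nat_lit 0) (nat_lit 2741866568496) (nat_lit 380) (nat_lit 645425661403) (nat_lit 76) (nat_lit 544761003404) (nat_lit 40) (nat_lit 5) (nat_lit 45) (nat_lit 5) (nat_lit 41) (nat_lit 5) (nat_lit 392) (nat_lit 386) (nat_lit 242)))) (XT.nd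 (nat_lit 78) (nat_lit 228) (nat_lit 0) (XT.lf (nat_lit 0) (nat_lit 1731843823611) (nat_lit 152) (nat_lit 1872435466017) (nat_lit 228) (nat_lit 653266067952) (nat_lit 38) (nat_lit 5) (nat_lit 40) (nat_lit 5) (nat_lit 41) (nat_lit 5) (nat_lit 393) (nat_lit 386) (nat_lit 241)) (XT.nd (nat_lit 78) (nat_lit 152) (nat_lit 0) (XT.lf (nat_lit 0) (nat_lit 2725176860) (nat_lit 228) (nat_lit 88683674969) (nat_lit 76) (nat_lit 4535373144111) (nat_lit 37) (nat_lit 5) (nat_lit 40) (nat_lit 5) (nat_lit 38) (nat_lit 5) (nat_lit 394) (nat_lit 386) (nat_lit 240)) (XT.lf (nat_lit 0) (nat_lit 900491558650) (nat_lit 228) (nat_lit 2171800600231) (nat_lit 76) (nat_lit 1942907017104) (nat_lit 35) (nat_lit 5) (nat_lit 38) (nat_lit 5) (nat_lit 36) (nat_lit 5) (nat_lit 395) (nat_lit 386) (nat_lit 239))))) (XT.nd (nat_lit 234) (nat_lit 304) (nat_lit 0) (XT.nd (nat_lit 78) (nat_lit 76) (nat_lit 0) (XT.lf (nat_lit 0)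 (nat_lit 833727019051) (nat_lit 152) (nat_lit 1142928025295) (nat_lit 228) (nat_lit 3478664066696) (nat_lit 33) (nat_lit 5) (nat_lit 35) (nat_lit 5) (nat_lit 36) (nat_lit 5) (nat_lit 396) (nat_lit 386) (nat_lit 238)) (XT.nd (nat_lit 78) (nat_lit 76) (nat_lit 0) (XT.lf (nat_lit 0) (nat_lit 3377723260168) (nat_lit 228) (nat_lit 1460217860640) (nat_lit 76) (nat_lit 1098993884458) (nat_lit 33) (nat_lit 5) (nat_lit 36) (nat_lit 5) (nat_lit 34) (nat_lit 4) (nat_lit 397) (nat_lit 386) (nat_lit 237)) (XT.lf (nat_lit 0) (nat_lit 2328210784260) (nat_lit 76) (nat_lit 2811572311224) (nat_lit 152) (nat_lit 1328385480074) (nat_lit 32) (nat_lit 5) (nat_lit 33) (nat_lit 5) (nat_lit 34) (nat_lit 4) (nat_lit 398) (nat_lit 386) (nat_lit 236)))) (XT.nd (nat_lit 156) (nat_lit 76) (nat_lit 0) (XT.nd (nat_lit 78) (nat_lit 152) (nat_lit 0) (XT.lf (nat_lit 0) (nat_lit 159277931683) (nat_lit 152) (nat_lit 225865351498)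 (nat_lit 76) (nat_lit 6681408476898) (nat_lit 31) (nat_lit 5) (nat_lit 33) (nat_lit 5) (nat_lit 32) (nat_lit 5) (nat_lit 399) (nat_lit 386) (nat_lit 235)) (XT.lf (nat_lit 0) (nat_lit 2037273425948) (nat_lit 228) (nat_lit 3204490719170) (nat_lit 76) (nat_lit 2457962218248) (nat_lit 29) (nat_lit 5) (nat_lit 32) (nat_lit 5) (nat_lit 30) (nat_lit 4) (nat_lit 400) (nat_lit 386) (nat_lit 234))) (XT.nd (nat_lit 78) (nat_lit 0) (nat_lit 0) (XT.lf (nat_lit 0) (nat_lit 1651944998303) (nat_lit 76) (nat_lit 2644135738371) (nat_lit 152) (nat_lit 4116929546624) (nat_lit 28) (nat_lit 5) (nat_lit 29) (nat_lit 5) (nat_lit 30) (nat_lit 4) (nat_lit 401) (nat_lit 386) (nat_lit 233)) (XT.lf (nat_lit 0) (nat_lit 7083401727616) (nat_lit 152) (nat_lit 1633358653714) (nat_lit 0) (nat_lit 488072522348) (nat_lit 28) (nat_lit 5) (nat_lit 30) (nat_lit 4) (nat_lit 28) (nat_lit 4) (nat_lit 402) (nat_lit 386) (nat_lit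 232)))))) (XT.nd (nat_lit 546) (nat_lit 456) (nat_lit 0) (XT.nd (nat_lit 234) (nat_lit 304) (nat_lit 0) (XT.nd (nat_lit 78) (nat_lit 76) (nat_lit 0) (XT.lf (nat_lit 0) (nat_lit 486890623510) (nat_lit 152) (nat_lit 5548514365106) (nat_lit 76) (nat_lit 4029606676287) (nat_lit 26) (nat_lit 5) (nat_lit 28) (nat_lit 5) (nat_lit 27) (nat_lit 4) (nat_lit 403) (nat_lit 386) (nat_lit 231)) (XT.nd (nat_lit 78) (nat_lit 0) (nat_lit 0) (XT.lf (nat_lit 0) (nat_lit 687070145298) (nat_lit 76) (nat_lit 2700092343673) (nat_lit 152) (nat_lit 7634217280488) (nat_lit 25) (nat_lit 5) (nat_lit 26) (nat_lit 5) (nat_lit 27) (nat_lit 4) (nat_lit 404) (nat_lit 386) (nat_lit 230)) (XT.lf (nat_lit 0) (nat_lit 7073341694760) (nat_lit 152) (nat_lit 3656958591131) (nat_lit 0) (nat_lit 1338272819731) (nat_lit 25) (nat_lit 5) (nat_lit 27) (nat_lit 4) (nat_lit 25) (nat_lit 4) (nat_lit 405) (nat_lit 386) (nat_lit 229))))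 (XT.nd (nat_lit 156) (nat_lit 152) (nat_lit 0) (XT.nd (nat_lit 78) (nat_lit 76) (nat_lit 0) (XT.lf (nat_lit 0) (nat_lit 4273912517163) (nat_lit 76) (nat_lit 7344084692992) (nat_lit 76) (nat_lit 1609015817743) (nat_lit 24) (nat_lit 4) (nat_lit 25) (nat_lit 5) (nat_lit 25) (nat_lit 4) (nat_lit 406) (nat_lit 386) (nat_lit 228)) (XT.lf (nat_lit 0) (nat_lit 2281955869320) (nat_lit 152) (nat_lit 828863756402) (nat_lit 76) (nat_lit 11404166642962) (nat_lit 23) (nat_lit 5) (nat_lit 25) (nat_lit 5) (nat_lit 24) (nat_lit 4) (nat_lit 407) (nat_lit 386) (nat_lit 227))) (XT.nd (nat_lit 78) (nat_lit 76) (nat_lit 0) (XT.lf (nat_lit 0) (nat_lit 7070041357967) (nat_lit 152) (nat_lit 6759866130050) (nat_lit 0) (nat_lit 2083024944394) (nat_lit 22) (nat_lit 5) (nat_lit 24) (nat_lit 4) (nat_lit 22) (nat_lit 4) (nat_lit 408) (nat_lit 386) (nat_lit 226)) (XT.lf (nat_lit 0) (nat_lit 3360329708353) (nat_lit 76)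 (nat_lit 9548678474547) (nat_lit 76) (nat_lit 4561662060848) (nat_lit 21) (nat_lit 4) (nat_lit 22) (nat_lit 5) (nat_lit 22) (nat_lit 4) (nat_lit 409) (nat_lit 386) (nat_lit 225))))) (XT.nd (nat_lit 234) (nat_lit 228) (nat_lit 0) (XT.nd (nat_lit 78) (nat_lit 152) (nat_lit 0) (XT.lf (nat_lit 0) (nat_lit 699728847008) (nat_lit 152) (nat_lit 3482599392739) (nat_lit 76) (nat_lit 15021966112785) (nat_lit 20) (nat_lit 5) (nat_lit 22) (nat_lit 5) (nat_lit 21) (nat_lit 4) (nat_lit 410) (nat_lit 386) (nat_lit 224)) (XT.nd (nat_lit 78) (nat_lit 76) (nat_lit 0) (XT.lf (nat_lit 0) (nat_lit 6781817560293) (nat_lit 152) (nat_lit 11863502197384) (nat_lit 0) (nat_lit 2445281548202) (nat_lit 19) (nat_lit 5) (nat_lit 21) (nat_lit 4) (nat_lit 19) (nat_lit 4) (nat_lit 411) (nat_lit 386) (nat_lit 223)) (XT.lf (nat_lit 0) (nat_lit 871896466230) (nat_lit 76) (nat_lit 13330298751307) (nat_lit 76) (nat_lit 8993762739144)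 (nat_lit 18) (nat_lit 4) (nat_lit 19) (nat_lit 5) (nat_lit 19) (nat_lit 4) (nat_lit 412) (nat_lit 386) (nat_lit 222)))) (XT.nd (nat_lit 156) (nat_lit 76) (nat_lit 0) (XT.nd (nat_lit 78) (nat_lit 152) (nat_lit 0) (XT.lf (nat_lit 0) (nat_lit 16850900800850) (nat_lit 76) (nat_lit 6504866337144) (nat_lit 76) (nat_lit 2168330324918) (nat_lit 18) (nat_lit 4) (nat_lit 19) (nat_lit 5) (nat_lit 19) (nat_lit 4) (nat_lit 413) (nat_lit 386) (nat_lit 221)) (XT.lf (nat_lit 0) (nat_lit 5565368382568) (nat_lit 152) (nat_lit 20747805920377) (nat_lit 0) (nat_lit 1794467502324) (nat_lit 16) (nat_lit 5) (nat_lit 18) (nat_lit 4) (nat_lit 16) (nat_lit 4) (nat_lit 414) (nat_lit 386) (nat_lit 220))) (XT.nd (nat_lit 78) (nat_lit 76) (nat_lit 0) (XT.lf (nat_lit 0) (nat_lit 15021842481674) (nat_lit 152) (nat_lit 4672738195785) (nat_lit 0) (nat_lit 11250941601388) (nat_lit 16) (nat_lit 5) (nat_lit 18) (nat_lit 4) (nat_lit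 16) (nat_lit 4) (nat_lit 415) (nat_lit 386) (nat_lit 219)) (XT.lf (nat_lit 0) (nat_lit 15163554133797) (nat_lit 76) (nat_lit 11361124001982) (nat_lit 76) (nat_lit 7590223121661) (nat_lit 15) (nat_lit 4) (nat_lit 16) (nat_lit 5) (nat_lit 16) (nat_lit 4) (nat_lit 416) (nat_lit 386) (nat_lit 218))))))))
noncomputable def xc110 : XT := (XT.nd (nat_lit 51558) (nat_lit 0) (nat_lit 380) (XT.nd (nat_lit 1014) (nat_lit 76) (nat_lit 0) (XT.nd (nat_lit 468) (nat_lit 304) (nat_lit 0) (XT.nd (nat_lit 234) (nat_lit 152) (nat_lit 0) (XT.nd (nat_lit 78) (nat_lit 76) (nat_lit 0) (XT.lf (nat_lit 0) (nat_lit 749996041231) (nat_lit 76) (nat_lit 1352746712993) (nat_lit 152) (nat_lit 35601522313966) (nat_lit 13) (nat_lit 5) (nat_lit 14) (nat_lit 5) (nat_lit 15) (nat_lit 4) (nat_lit 417) (nat_lit 386) (nat_lit 217)) (XT.nd (nat_lit 78) (nat_lit 76) (nat_lit 0) (XT.lf (nat_lit 0) (nat_lit 13930946143691) (nat_lit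 152) (nat_lit 16976211491912) (nat_lit 0) (nat_lit 10651901899882) (nat_lit 13) (nat_lit 5) (nat_lit 15) (nat_lit 4) (nat_lit 13) (nat_lit 4) (nat_lit 418) (nat_lit 386) (nat_lit 216)) (XT.lf (nat_lit 0) (nat_lit 6514065301553) (nat_lit 76) (nat_lit 21353464802863) (nat_lit 76) (nat_lit 18074420559034) (nat_lit 12) (nat_lit 4) (nat_lit 13) (nat_lit 5) (nat_lit 13) (nat_lit 4) (nat_lit 419) (nat_lit 386) (nat_lit 215)))) (XT.nd (nat_lit 78) (nat_lit 152) (nat_lit 0) (XT.lf (nat_lit 0) (nat_lit 35435778291610) (nat_lit 76) (nat_lit 9346216240926) (nat_lit 76) (nat_lit 6067171997080) (nat_lit 12) (nat_lit 4) (nat_lit 13) (nat_lit 5) (nat_lit 13) (nat_lit 4) (nat_lit 420) (nat_lit 386) (nat_lit 214)) (XT.nd (nat_lit 78) (nat_lit 0) (nat_lit 0) (XT.lf (nat_lit 0) (nat_lit 7817867505412) (nat_lit 152) (nat_lit 43545109483624) (nat_lit 0) (nat_lit 4966524684662) (nat_lit 10) (nat_lit 5) (nat_lit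 12) (nat_lit 4) (nat_lit 10) (nat_lit 4) (nat_lit 421) (nat_lit 386) (nat_lit 213)) (XT.lf (nat_lit 0) (nat_lit 24453624500801) (nat_lit 152) (nat_lit 16339275303492) (nat_lit 0) (nat_lit 21602281680039) (nat_lit 10) (nat_lit 5) (nat_lit 12) (nat_lit 4) (nat_lit 10) (nat_lit 4) (nat_lit 422) (nat_lit 386) (nat_lit 212))))) (XT.nd (nat_lit 234) (nat_lit 76) (nat_lit 0) (XT.nd (nat_lit 78) (nat_lit 152) (nat_lit 0) (XT.lf (nat_lit 0) (nat_lit 16408205962822) (nat_lit 76) (nat_lit 27855967900889) (nat_lit 76) (nat_lit 25004625080117) (nat_lit 9) (nat_lit 4) (nat_lit 10) (nat_lit 5) (nat_lit 10) (nat_lit 4) (nat_lit 423) (nat_lit 386) (nat_lit 211)) (XT.nd (nat_lit 78) (nat_lit 152) (nat_lit 0) (XT.lf (nat_lit 0) (nat_lit 55904121154650) (nat_lit 76) (nat_lit 11996282958066) (nat_lit 76) (nat_lit 9144940137285) (nat_lit 9) (nat_lit 4) (nat_lit 10) (nat_lit 5) (nat_lit 10) (nat_lit 4) (nat_lit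 424) (nat_lit 386) (nat_lit 210)) (XT.lf (nat_lit 0) (nat_lit 9272884508104) (nat_lit 152) (nat_lit 69717232662138) (nat_lit 0) (nat_lit 6793455968288) (nat_lit 7) (nat_lit 5) (nat_lit 9) (nat_lit 4) (nat_lit 7) (nat_lit 4) (nat_lit 425) (nat_lit 386) (nat_lit 209)))) (XT.nd (nat_lit 156) (nat_lit 0) (nat_lit 0) (XT.nd (nat_lit 78) (nat_lit 76) (nat_lit 0) (XT.lf (nat_lit 0) (nat_lit 31246100384605) (nat_lit 152) (nat_lit 35495095347718) (nat_lit 0) (nat_lit 28766671844783) (nat_lit 7) (nat_lit 5) (nat_lit 9) (nat_lit 4) (nat_lit 7) (nat_lit 4) (nat_lit 426) (nat_lit 386) (nat_lit 208)) (XT.lf (nat_lit 0) (nat_lit 4237625268752) (nat_lit 76) (nat_lit 52453144399357) (nat_lit 76) (nat_lit 49973715859530) (nat_lit 6) (nat_lit 4) (nat_lit 7) (nat_lit 5) (nat_lit 7) (nat_lit 4) (nat_lit 427) (nat_lit 386) (nat_lit 207))) (XT.nd (nat_lit 78) (nat_lit 0) (nat_lit 0) (XT.lf (nat_lit 0) (nat_lit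 53919418670562) (nat_lit 76) (nat_lit 33888146112120) (nat_lit 76) (nat_lit 31408717572289) (nat_lit 6) (nat_lit 4) (nat_lit 7) (nat_lit 5) (nat_lit 7) (nat_lit 4) (nat_lit 428) (nat_lit 386) (nat_lit 206)) (XT.lf (nat_lit 0) (nat_lit 111053481082481) (nat_lit 76) (nat_lit 12538398081884) (nat_lit 76) (nat_lit 10058969542049) (nat_lit 6) (nat_lit 4) (nat_lit 7) (nat_lit 5) (nat_lit 7) (nat_lit 4) (nat_lit 429) (nat_lit 386) (nat_lit 205)))))) (XT.nd (nat_lit 49998) (nat_lit 0) (nat_lit 2280) (XT.nd (nat_lit 49764) (nat_lit 0) (nat_lit 2812) (XT.nd (nat_lit 78) (nat_lit 0) (nat_lit 0) (XT.lf (nat_lit 0) (nat_lit 14962659137200) (nat_lit 76) (nat_lit 122127330381894) (nat_lit 0) (nat_lit 12806634319950) (nat_lit 5) (nat_lit 5) (nat_lit 6) (nat_lit 4) (nat_lit 5) (nat_lit 4) (nat_lit 430) (nat_lit 386) (nat_lit 204)) (XT.nd (nat_lit 78) (nat_lit 0) (nat_lit 0) (XT.lf (nat_lit 0) (nat_lit 44542226705601)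 (nat_lit 76) (nat_lit 81303805644833) (nat_lit 0) (nat_lit 42386201888348) (nat_lit 5) (nat_lit 5) (nat_lit 6) (nat_lit 4) (nat_lit 5) (nat_lit 4) (nat_lit 431) (nat_lit 386) (nat_lit 203)) (XT.lf (nat_lit 0) (nat_lit 78558729409202) (nat_lit 76) (nat_lit 34356752197343) (nat_lit 0) (nat_lit 76402704591947) (nat_lit 5) (nat_lit 5) (nat_lit 6) (nat_lit 4) (nat_lit 5) (nat_lit 4) (nat_lit 432) (nat_lit 386) (nat_lit 202)))) (XT.nd (nat_lit 78) (nat_lit 0) (nat_lit 0) (XT.lf (nat_lit 0) (nat_lit 429523242685) (nat_lit 380) (nat_lit 506833611756) (nat_lit 380) (nat_lit 506833611756) (nat_lit 42) (nat_lit 3) (nat_lit 47) (nat_lit 3) (nat_lit 47) (nat_lit 5) (nat_lit 387) (nat_lit 387) (nat_lit 246)) (XT.nd (nat_lit 78) (nat_lit 0) (nat_lit 76) (XT.lf (nat_lit 76) (nat_lit 464835304668) (nat_lit 0) (nat_lit 477887513088) (nat_lit 380) (nat_lit 2157249507669) (nat_lit 43) (nat_lit 5) (nat_lit 42)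 (nat_lit 3) (nat_lit 47) (nat_lit 5) (nat_lit 388) (nat_lit 387) (nat_lit 245)) (XT.lf (nat_lit 0) (nat_lit 1141092938865) (nat_lit 304) (nat_lit 1107773960491) (nat_lit 380) (nat_lit 1081414177225) (nat_lit 43) (nat_lit 5) (nat_lit 47) (nat_lit 5) (nat_lit 48) (nat_lit 5) (nat_lit 389) (nat_lit 387) (nat_lit 244))))) (XT.nd (nat_lit 234) (nat_lit 380) (nat_lit 0) (XT.nd (nat_lit 78) (nat_lit 228) (nat_lit 0) (XT.lf (nat_lit 76) (nat_lit 687108126523) (nat_lit 0) (nat_lit 733318680977) (nat_lit 380) (nat_lit 2167028098505) (nat_lit 44) (nat_lit 5) (nat_lit 43) (nat_lit 5) (nat_lit 48) (nat_lit 5) (nat_lit 390) (nat_lit 387) (nat_lit 243)) (XT.nd (nat_lit 78) (nat_lit 304) (nat_lit 0) (XT.lf (nat_lit 0) (nat_lit 1844128367543) (nat_lit 304) (nat_lit 1043358888222) (nat_lit 76) (nat_lit 980347412414) (nat_lit 44) (nat_lit 5) (nat_lit 48) (nat_lit 5) (nat_lit 45) (nat_lit 5) (nat_lit 391) (nat_lit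 387) (nat_lit 242)) (XT.lf (nat_lit 0) (nat_lit 1160580116129) (nat_lit 304) (nat_lit 1253782129430) (nat_lit 380) (nat_lit 1763462586523) (nat_lit 40) (nat_lit 5) (nat_lit 44) (nat_lit 5) (nat_lit 45) (nat_lit 5) (nat_lit 392) (nat_lit 387) (nat_lit 241)))) (XT.nd (nat_lit 156) (nat_lit 228) (nat_lit 0) (XT.nd (nat_lit 78) (nat_lit 152) (nat_lit 0) (XT.lf (nat_lit 0) (nat_lit 3153146562465) (nat_lit 380) (nat_lit 742239500181) (nat_lit 76) (nat_lit 626475154347) (nat_lit 40) (nat_lit 5) (nat_lit 45) (nat_lit 5) (nat_lit 41) (nat_lit 5) (nat_lit 393) (nat_lit 387) (nat_lit 240)) (XT.lf (nat_lit 0) (nat_lit 1991620407111) (nat_lit 152) (nat_lit 2153300783934) (nat_lit 228) (nat_lit 751255968974) (nat_lit 38) (nat_lit 5) (nat_lit 40) (nat_lit 5) (nat_lit 41) (nat_lit 5) (nat_lit 394) (nat_lit 387) (nat_lit 239))) (XT.nd (nat_lit 78) (nat_lit 152) (nat_lit 0) (XT.lf (nat_lit 0) (nat_lit 3133960653)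 (nat_lit 228) (nat_lit 101986216844) (nat_lit 76) (nat_lit 5215679116743) (nat_lit 37) (nat_lit 5) (nat_lit 40) (nat_lit 5) (nat_lit 38) (nat_lit 5) (nat_lit 395) (nat_lit 387) (nat_lit 238)) (XT.lf (nat_lit 0) (nat_lit 1035565299228) (nat_lit 228) (nat_lit 2497570680410) (nat_lit 76) (nat_lit 2234343071727) (nat_lit 35) (nat_lit 5) (nat_lit 38) (nat_lit 5) (nat_lit 36) (nat_lit 5) (nat_lit 396) (nat_lit 387) (nat_lit 237))))))) (XT.nd (nat_lit 1014) (nat_lit 912) (nat_lit 0) (XT.nd (nat_lit 468) (nat_lit 456) (nat_lit 0) (XT.nd (nat_lit 234) (nat_lit 304) (nat_lit 0) (XT.nd (nat_lit 78) (nat_lit 76) (nat_lit 0) (XT.lf (nat_lit 0) (nat_lit 958786081316) (nat_lit 152) (nat_lit 1314367225968) (nat_lit 228) (nat_lit 4000463669471) (nat_lit 33) (nat_lit 5) (nat_lit 35) (nat_lit 5) (nat_lit 36) (nat_lit 5) (nat_lit 397) (nat_lit 387) (nat_lit 236)) (XT.nd (nat_lit 78) (nat_lit 76) (nat_lit 0)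 (XT.lf (nat_lit 0) (nat_lit 3884381754772) (nat_lit 228) (nat_lit 1679250530847) (nat_lit 76) (nat_lit 1263842969600) (nat_lit 33) (nat_lit 5) (nat_lit 36) (nat_lit 5) (nat_lit 34) (nat_lit 4) (nat_lit 398) (nat_lit 387) (nat_lit 235)) (XT.lf (nat_lit 0) (nat_lit 2677442410384) (nat_lit 76) (nat_lit 3233308154624) (nat_lit 152) (nat_lit 1527643296102) (nat_lit 32) (nat_lit 5) (nat_lit 33) (nat_lit 5) (nat_lit 34) (nat_lit 4) (nat_lit 399) (nat_lit 387) (nat_lit 234)))) (XT.nd (nat_lit 78) (nat_lit 228) (nat_lit 0) (XT.lf (nat_lit 0) (nat_lit 183169626174) (nat_lit 152) (nat_lit 259745146382) (nat_lit 76) (nat_lit 7683619750823) (nat_lit 31) (nat_lit 5) (nat_lit 33) (nat_lit 5) (nat_lit 32) (nat_lit 5) (nat_lit 400) (nat_lit 387) (nat_lit 233)) (XT.nd (nat_lit 78) (nat_lit 76) (nat_lit 0) (XT.lf (nat_lit 0) (nat_lit 2342864444398) (nat_lit 228) (nat_lit 3685164319022) (nat_lit 76) (nat_lit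 2826656553767) (nat_lit 29) (nat_lit 5) (nat_lit 32) (nat_lit 5) (nat_lit 30) (nat_lit 4) (nat_lit 401) (nat_lit 387) (nat_lit 232)) (XT.lf (nat_lit 0) (nat_lit 1899736755707) (nat_lit 76) (nat_lit 3040756095748) (nat_lit 152) (nat_lit 4734468973694) (nat_lit 28) (nat_lit 5) (nat_lit 29) (nat_lit 5) (nat_lit 30) (nat_lit 4) (nat_lit 402) (nat_lit 387) (nat_lit 231))))) (XT.nd (nat_lit 234) (nat_lit 228) (nat_lit 0) (XT.nd (nat_lit 78) (nat_lit 228) (nat_lit 0) (XT.lf (nat_lit 0) (nat_lit 8145911990602) (nat_lit 152) (nat_lit 1878362444674) (nat_lit 0) (nat_lit 561283403376) (nat_lit 28) (nat_lit 5) (nat_lit 30) (nat_lit 4) (nat_lit 28) (nat_lit 4) (nat_lit 403) (nat_lit 387) (nat_lit 230)) (XT.nd (nat_lit 78) (nat_lit 76) (nat_lit 0) (XT.lf (nat_lit 0) (nat_lit 559924220832) (nat_lit 152) (nat_lit 6380791512726) (nat_lit 76) (nat_lit 4634047680511) (nat_lit 26) (nat_lit 5) (nat_lit 28) (nat_lit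 5) (nat_lit 27) (nat_lit 4) (nat_lit 404) (nat_lit 387) (nat_lit 229)) (XT.lf (nat_lit 0) (nat_lit 790130673914) (nat_lit 76) (nat_lit 3105106191986) (nat_lit 152) (nat_lit 8779349868441) (nat_lit 25) (nat_lit 5) (nat_lit 26) (nat_lit 5) (nat_lit 27) (nat_lit 4) (nat_lit 405) (nat_lit 387) (nat_lit 228)))) (XT.nd (nat_lit 156) (nat_lit 152) (nat_lit 0) (XT.nd (nat_lit 78) (nat_lit 76) (nat_lit 0) (XT.lf (nat_lit 0) (nat_lit 8134342952206) (nat_lit 152) (nat_lit 4205502373518) (nat_lit 0) (nat_lit 1539013745256) (nat_lit 25) (nat_lit 5) (nat_lit 27) (nat_lit 4) (nat_lit 25) (nat_lit 4) (nat_lit 406) (nat_lit 387) (nat_lit 227)) (XT.lf (nat_lit 0) (nat_lit 4914999400735) (nat_lit 76) (nat_lit 8445697394003) (nat_lit 76) (nat_lit 1850368186886) (nat_lit 24) (nat_lit 4) (nat_lit 25) (nat_lit 5) (nat_lit 25) (nat_lit 4) (nat_lit 407) (nat_lit 387) (nat_lit 226))) (XT.nd (nat_lit 78) (nat_lit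 76) (nat_lit 0) (XT.lf (nat_lit 0) (nat_lit 2624249252505) (nat_lit 152) (nat_lit 953193314376) (nat_lit 76) (nat_lit 13114791641689) (nat_lit 23) (nat_lit 5) (nat_lit 25) (nat_lit 5) (nat_lit 24) (nat_lit 4) (nat_lit 408) (nat_lit 387) (nat_lit 225)) (XT.lf (nat_lit 0) (nat_lit 8130547564410) (nat_lit 152) (nat_lit 7773846044031) (nat_lit 0) (nat_lit 2395478688420) (nat_lit 22) (nat_lit 5) (nat_lit 24) (nat_lit 4) (nat_lit 22) (nat_lit 4) (nat_lit 409) (nat_lit 387) (nat_lit 224)))))) (XT.nd (nat_lit 546) (nat_lit 456) (nat_lit 0) (XT.nd (nat_lit 234) (nat_lit 228) (nat_lit 0) (XT.nd (nat_lit 78) (nat_lit 152) (nat_lit 0) (XT.lf (nat_lit 0) (nat_lit 3864379169881) (nat_lit 76) (nat_lit 10980980243062) (nat_lit 76) (nat_lit 5245911366976) (nat_lit 21) (nat_lit 4) (nat_lit 22) (nat_lit 5) (nat_lit 22) (nat_lit 4) (nat_lit 410) (nat_lit 387) (nat_lit 223)) (XT.nd (nat_lit 78) (nat_lit 76)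 (nat_lit 0) (XT.lf (nat_lit 0) (nat_lit 804688176435) (nat_lit 152) (nat_lit 4004989296831) (nat_lit 76) (nat_lit 17275261031790) (nat_lit 20) (nat_lit 5) (nat_lit 22) (nat_lit 5) (nat_lit 21) (nat_lit 4) (nat_lit 411) (nat_lit 387) (nat_lit 222)) (XT.lf (nat_lit 0) (nat_lit 7799090196690) (nat_lit 152) (nat_lit 13643027522150) (nat_lit 0) (nat_lit 2812073782568) (nat_lit 19) (nat_lit 5) (nat_lit 21) (nat_lit 4) (nat_lit 19) (nat_lit 4) (nat_lit 412) (nat_lit 387) (nat_lit 221)))) (XT.nd (nat_lit 156) (nat_lit 152) (nat_lit 0) (XT.nd (nat_lit 78) (nat_lit 0) (nat_lit 0) (XT.lf (nat_lit 0) (nat_lit 1002680940786) (nat_lit 76) (nat_lit 15329843561620) (nat_lit 76) (nat_lit 10342827147442) (nat_lit 18) (nat_lit 4) (nat_lit 19) (nat_lit 5) (nat_lit 19) (nat_lit 4) (nat_lit 413) (nat_lit 387) (nat_lit 220)) (XT.lf (nat_lit 0) (nat_lit 19378535924996) (nat_lit 76) (nat_lit 7480596285643) (nat_lit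 76) (nat_lit 2493579871418) (nat_lit 18) (nat_lit 4) (nat_lit 19) (nat_lit 5) (nat_lit 19) (nat_lit 4) (nat_lit 414) (nat_lit 387) (nat_lit 219))) (XT.nd (nat_lit 78) (nat_lit 0) (nat_lit 0) (XT.lf (nat_lit 0) (nat_lit 6400173641980) (nat_lit 152) (nat_lit 23859976804203) (nat_lit 0) (nat_lit 2063637629574) (nat_lit 16) (nat_lit 5) (nat_lit 18) (nat_lit 4) (nat_lit 16) (nat_lit 4) (nat_lit 415) (nat_lit 387) (nat_lit 218)) (XT.lf (nat_lit 0) (nat_lit 17275118855686) (nat_lit 152) (nat_lit 5373648921473) (nat_lit 0) (nat_lit 12938582843250) (nat_lit 16) (nat_lit 5) (nat_lit 18) (nat_lit 4) (nat_lit 16) (nat_lit 4) (nat_lit 416) (nat_lit 387) (nat_lit 217))))) (XT.nd (nat_lit 234) (nat_lit 228) (nat_lit 0) (XT.nd (nat_lit 78) (nat_lit 152) (nat_lit 0) (XT.lf (nat_lit 0) (nat_lit 17438087257378) (nat_lit 76) (nat_lit 13065292600445) (nat_lit 76) (nat_lit 8728756587981) (nat_lit 15) (nat_lit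 4) (nat_lit 16) (nat_lit 5) (nat_lit 16) (nat_lit 4) (nat_lit 417) (nat_lit 387) (nat_lit 216)) (XT.nd (nat_lit 78) (nat_lit 0) (nat_lit 0) (XT.lf (nat_lit 0) (nat_lit 862495450932) (nat_lit 76) (nat_lit 1555658718099) (nat_lit 152) (nat_lit 40941750659136) (nat_lit 13) (nat_lit 5) (nat_lit 14) (nat_lit 5) (nat_lit 15) (nat_lit 4) (nat_lit 418) (nat_lit 387) (nat_lit 215)) (XT.lf (nat_lit 0) (nat_lit 16020588066766) (nat_lit 152) (nat_lit 19522643212490) (nat_lit 0) (nat_lit 12249687186325) (nat_lit 13) (nat_lit 5) (nat_lit 15) (nat_lit 4) (nat_lit 13) (nat_lit 4) (nat_lit 419) (nat_lit 387) (nat_lit 214)))) (XT.nd (nat_lit 156) (nat_lit 152) (nat_lit 0) (XT.nd (nat_lit 78) (nat_lit 0) (nat_lit 0) (XT.lf (nat_lit 0) (nat_lit 7491175099849) (nat_lit 76) (nat_lit 24556484521679) (nat_lit 76) (nat_lit 20785583641222) (nat_lit 12) (nat_lit 4) (nat_lit 13) (nat_lit 5) (nat_lit 13) (nat_lit 4)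 (nat_lit 420) (nat_lit 387) (nat_lit 213)) (XT.lf (nat_lit 0) (nat_lit 40751145038015) (nat_lit 76) (nat_lit 10748148675662) (nat_lit 76) (nat_lit 6977247795192) (nat_lit 12) (nat_lit 4) (nat_lit 13) (nat_lit 5) (nat_lit 13) (nat_lit 4) (nat_lit 421) (nat_lit 387) (nat_lit 212))) (XT.nd (nat_lit 78) (nat_lit 0) (nat_lit 0) (XT.lf (nat_lit 0) (nat_lit 8990547632541) (nat_lit 152) (nat_lit 50076875903371) (nat_lit 0) (nat_lit 5711503388644) (nat_lit 10) (nat_lit 5) (nat_lit 12) (nat_lit 4) (nat_lit 10) (nat_lit 4) (nat_lit 422) (nat_lit 387) (nat_lit 211)) (XT.lf (nat_lit 0) (nat_lit 28121668177066) (nat_lit 152) (nat_lit 18790166596584) (nat_lit 0) (nat_lit 24842623933160) (nat_lit 10) (nat_lit 5) (nat_lit 12) (nat_lit 4) (nat_lit 10) (nat_lit 4) (nat_lit 423) (nat_lit 387) (nat_lit 210))))))))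
noncomputable def xc111 : XT := (XT.nd (nat_lit 51636) (nat_lit 0) (nat_lit 76) (XT.nd (nat_lit 50544) (nat_lit 0) (nat_lit 1748) (XT.nd (nat_lit 468) (nat_lit 76) (nat_lit 0) (XT.nd (nat_lit 234) (nat_lit 76) (nat_lit 0) (XT.nd (nat_lit 78) (nat_lit 152) (nat_lit 0) (XT.lf (nat_lit 0) (nat_lit 18869436859567) (nat_lit 76) (nat_lit 32034363084793) (nat_lit 76) (nat_lit 28755318840879) (nat_lit 9) (nat_lit 4) (nat_lit 10) (nat_lit 5) (nat_lit 10) (nat_lit 4) (nat_lit 424) (nat_lit 387) (nat_lit 209)) (XT.nd (nat_lit 78) (nat_lit 152) (nat_lit 0) (XT.lf (nat_lit 0) (nat_lit 64289739329865) (nat_lit 76) (nat_lit 13795725400707) (nat_lit 76) (nat_lit 10516681156786) (nat_lit 9) (nat_lit 4) (nat_lit 10) (nat_lit 5) (nat_lit 10) (nat_lit 4) (nat_lit 425) (nat_lit 387) (nat_lit 208)) (XT.lf (nat_lit 0) (nat_lit 10663817185313) (nat_lit 152) (nat_lit 80174817559340) (nat_lit 0) (nat_lit 7812474364508)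 (nat_lit 7) (nat_lit 5) (nat_lit 9) (nat_lit 4) (nat_lit 7) (nat_lit 4) (nat_lit 426) (nat_lit 387) (nat_lit 207)))) (XT.nd (nat_lit 78) (nat_lit 76) (nat_lit 0) (XT.lf (nat_lit 0) (nat_lit 35933015443160) (nat_lit 152) (nat_lit 40819359648034) (nat_lit 0) (nat_lit 33081672622349) (nat_lit 7) (nat_lit 5) (nat_lit 9) (nat_lit 4) (nat_lit 7) (nat_lit 4) (nat_lit 427) (nat_lit 387) (nat_lit 206)) (XT.nd (nat_lit 78) (nat_lit 0) (nat_lit 0) (XT.lf (nat_lit 0) (nat_lit 4873269060823) (nat_lit 76) (nat_lit 60321116058327) (nat_lit 76) (nat_lit 57469773237513) (nat_lit 6) (nat_lit 4) (nat_lit 7) (nat_lit 5) (nat_lit 7) (nat_lit 4) (nat_lit 428) (nat_lit 387) (nat_lit 205)) (XT.lf (nat_lit 0) (nat_lit 62007331472675) (nat_lit 76) (nat_lit 38971368028126) (nat_lit 76) (nat_lit 36120025207308) (nat_lit 6) (nat_lit 4) (nat_lit 7) (nat_lit 5) (nat_lit 7) (nat_lit 4) (nat_lit 429) (nat_lit 387) (nat_lit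 204))))) (XT.nd (nat_lit 234) (nat_lit 0) (nat_lit 0) (XT.nd (nat_lit 78) (nat_lit 76) (nat_lit 0) (XT.lf (nat_lit 0) (nat_lit 127711503246183) (nat_lit 76) (nat_lit 14419157793460) (nat_lit 76) (nat_lit 11567814972640) (nat_lit 6) (nat_lit 4) (nat_lit 7) (nat_lit 5) (nat_lit 7) (nat_lit 4) (nat_lit 430) (nat_lit 387) (nat_lit 203)) (XT.nd (nat_lit 78) (nat_lit 0) (nat_lit 0) (XT.lf (nat_lit 0) (nat_lit 17207058008432) (nat_lit 76) (nat_lit 140446429937785) (nat_lit 0) (nat_lit 14727629468586) (nat_lit 5) (nat_lit 5) (nat_lit 6) (nat_lit 4) (nat_lit 5) (nat_lit 4) (nat_lit 431) (nat_lit 387) (nat_lit 202)) (XT.lf (nat_lit 0) (nat_lit 51223560712009) (nat_lit 76) (nat_lit 93499376490346) (nat_lit 0) (nat_lit 48744132172160) (nat_lit 5) (nat_lit 5) (nat_lit 6) (nat_lit 4) (nat_lit 5) (nat_lit 4) (nat_lit 432) (nat_lit 387) (nat_lit 201)))) (XT.nd (nat_lit 49686) (nat_lit 0) (nat_lit 2812)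 (XT.nd (nat_lit 49608) (nat_lit 0) (nat_lit 2812) (XT.lf (nat_lit 0) (nat_lit 90342538821076) (nat_lit 76) (nat_lit 39510265025890) (nat_lit 0) (nat_lit 87863110281226) (nat_lit 5) (nat_lit 5) (nat_lit 6) (nat_lit 4) (nat_lit 5) (nat_lit 4) (nat_lit 433) (nat_lit 387) (nat_lit 200)) (XT.lf (nat_lit 0) (nat_lit 493951736067) (nat_lit 380) (nat_lit 582858649505) (nat_lit 380) (nat_lit 582858649505) (nat_lit 42) (nat_lit 3) (nat_lit 47) (nat_lit 3) (nat_lit 47) (nat_lit 5) (nat_lit 388) (nat_lit 388) (nat_lit 244))) (XT.nd (nat_lit 78) (nat_lit 0) (nat_lit 76) (XT.lf (nat_lit 76) (nat_lit 534560608032) (nat_lit 0) (nat_lit 549570644844) (nat_lit 380) (nat_lit 2480836919492) (nat_lit 43) (nat_lit 5) (nat_lit 42) (nat_lit 3) (nat_lit 47) (nat_lit 5) (nat_lit 389) (nat_lit 388) (nat_lit 243)) (XT.lf (nat_lit 0) (nat_lit 1312256890354) (nat_lit 304) (nat_lit 1273940046100) (nat_lit 380) (nat_lit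 1243626300012) (nat_lit 43) (nat_lit 5) (nat_lit 47) (nat_lit 5) (nat_lit 48) (nat_lit 5) (nat_lit 390) (nat_lit 388) (nat_lit 242)))))) (XT.nd (nat_lit 546) (nat_lit 532) (nat_lit 0) (XT.nd (nat_lit 234) (nat_lit 380) (nat_lit 0) (XT.nd (nat_lit 78) (nat_lit 228) (nat_lit 0) (XT.lf (nat_lit 76) (nat_lit 790174353581) (nat_lit 0) (nat_lit 843316484648) (nat_lit 380) (nat_lit 2492082302235) (nat_lit 44) (nat_lit 5) (nat_lit 43) (nat_lit 5) (nat_lit 48) (nat_lit 5) (nat_lit 391) (nat_lit 388) (nat_lit 241)) (XT.nd (nat_lit 78) (nat_lit 304) (nat_lit 0) (XT.lf (nat_lit 0) (nat_lit 2120747630970) (nat_lit 304) (nat_lit 1199862713121) (nat_lit 76) (nat_lit 1127399523068) (nat_lit 44) (nat_lit 5) (nat_lit 48) (nat_lit 5) (nat_lit 45) (nat_lit 5) (nat_lit 392) (nat_lit 388) (nat_lit 240)) (XT.lf (nat_lit 0) (nat_lit 1334667141504) (nat_lit 304) (nat_lit 1441849448432) (nat_lit 380) (nat_lit 2027981965825)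 (nat_lit 40) (nat_lit 5) (nat_lit 44) (nat_lit 5) (nat_lit 45) (nat_lit 5) (nat_lit 393) (nat_lit 388) (nat_lit 239)))) (XT.nd (nat_lit 156) (nat_lit 228) (nat_lit 0) (XT.nd (nat_lit 78) (nat_lit 152) (nat_lit 0) (XT.lf (nat_lit 0) (nat_lit 3626118553408) (nat_lit 380) (nat_lit 853575417320) (nat_lit 76) (nat_lit 720446427826) (nat_lit 40) (nat_lit 5) (nat_lit 45) (nat_lit 5) (nat_lit 41) (nat_lit 5) (nat_lit 394) (nat_lit 388) (nat_lit 238)) (XT.lf (nat_lit 0) (nat_lit 2290363475708) (nat_lit 152) (nat_lit 2476295900023) (nat_lit 228) (nat_lit 863944357387) (nat_lit 38) (nat_lit 5) (nat_lit 40) (nat_lit 5) (nat_lit 41) (nat_lit 5) (nat_lit 395) (nat_lit 388) (nat_lit 237))) (XT.nd (nat_lit 78) (nat_lit 152) (nat_lit 0) (XT.lf (nat_lit 0) (nat_lit 3604060244) (nat_lit 228) (nat_lit 117284142285) (nat_lit 76) (nat_lit 5998030985023) (nat_lit 37) (nat_lit 5) (nat_lit 40) (nat_lit 5) (nat_lit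 38) (nat_lit 5) (nat_lit 396) (nat_lit 388) (nat_lit 236)) (XT.lf (nat_lit 0) (nat_lit 1190900099239) (nat_lit 228) (nat_lit 2872206275020) (nat_lit 76) (nat_lit 2569494534041) (nat_lit 35) (nat_lit 5) (nat_lit 38) (nat_lit 5) (nat_lit 36) (nat_lit 5) (nat_lit 397) (nat_lit 388) (nat_lit 235))))) (XT.nd (nat_lit 234) (nat_lit 304) (nat_lit 0) (XT.nd (nat_lit 78) (nat_lit 76) (nat_lit 0) (XT.lf (nat_lit 0) (nat_lit 1102604000627) (nat_lit 152) (nat_lit 1511522307503) (nat_lit 228) (nat_lit 4600533214425) (nat_lit 33) (nat_lit 5) (nat_lit 35) (nat_lit 5) (nat_lit 36) (nat_lit 5) (nat_lit 398) (nat_lit 388) (nat_lit 234)) (XT.nd (nat_lit 78) (nat_lit 76) (nat_lit 0) (XT.lf (nat_lit 0) (nat_lit 4467039022206) (nat_lit 228) (nat_lit 1931138103753) (nat_lit 76) (nat_lit 1453419416910) (nat_lit 33) (nat_lit 5) (nat_lit 36) (nat_lit 5) (nat_lit 34) (nat_lit 4) (nat_lit 399) (nat_lit 388) (nat_lit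 233)) (XT.lf (nat_lit 0) (nat_lit 3079058778357) (nat_lit 76) (nat_lit 3718304375336) (nat_lit 152) (nat_lit 1756789785993) (nat_lit 32) (nat_lit 5) (nat_lit 33) (nat_lit 5) (nat_lit 34) (nat_lit 4) (nat_lit 400) (nat_lit 388) (nat_lit 232)))) (XT.nd (nat_lit 156) (nat_lit 76) (nat_lit 0) (XT.nd (nat_lit 78) (nat_lit 152) (nat_lit 0) (XT.lf (nat_lit 0) (nat_lit 210645073684) (nat_lit 152) (nat_lit 298706912410) (nat_lit 76) (nat_lit 8836162715255) (nat_lit 31) (nat_lit 5) (nat_lit 33) (nat_lit 5) (nat_lit 32) (nat_lit 5) (nat_lit 401) (nat_lit 388) (nat_lit 231)) (XT.lf (nat_lit 0) (nat_lit 2694294114503) (nat_lit 228) (nat_lit 4237938960808) (nat_lit 76) (nat_lit 3250655038936) (nat_lit 29) (nat_lit 5) (nat_lit 32) (nat_lit 5) (nat_lit 30) (nat_lit 4) (nat_lit 402) (nat_lit 388) (nat_lit 230))) (XT.nd (nat_lit 78) (nat_lit 0) (nat_lit 0) (XT.lf (nat_lit 0) (nat_lit 2184697274855) (nat_lit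 76) (nat_lit 3496869507555) (nat_lit 152) (nat_lit 5444639316026) (nat_lit 28) (nat_lit 5) (nat_lit 29) (nat_lit 5) (nat_lit 30) (nat_lit 4) (nat_lit 403) (nat_lit 388) (nat_lit 229)) (XT.lf (nat_lit 0) (nat_lit 9367798792098) (nat_lit 152) (nat_lit 2160116806009) (nat_lit 0) (nat_lit 645475915907) (nat_lit 28) (nat_lit 5) (nat_lit 30) (nat_lit 4) (nat_lit 28) (nat_lit 4) (nat_lit 404) (nat_lit 388) (nat_lit 228))))))) (XT.nd (nat_lit 1014) (nat_lit 760) (nat_lit 0) (XT.nd (nat_lit 468) (nat_lit 456) (nat_lit 0) (XT.nd (nat_lit 234) (nat_lit 228) (nat_lit 0) (XT.nd (nat_lit 78) (nat_lit 76) (nat_lit 0) (XT.lf (nat_lit 0) (nat_lit 643912856827) (nat_lit 152) (nat_lit 7337910234232) (nat_lit 76) (nat_lit 5329154834690) (nat_lit 26) (nat_lit 5) (nat_lit 28) (nat_lit 5) (nat_lit 27) (nat_lit 4) (nat_lit 405) (nat_lit 388) (nat_lit 227)) (XT.nd (nat_lit 78) (nat_lit 0) (nat_lit 0) (XT.lf (nat_lit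 0) (nat_lit 908650280158) (nat_lit 76) (nat_lit 3570872118335) (nat_lit 152) (nat_lit 10096252345591) (nat_lit 25) (nat_lit 5) (nat_lit 26) (nat_lit 5) (nat_lit 27) (nat_lit 4) (nat_lit 406) (nat_lit 388) (nat_lit 226)) (XT.lf (nat_lit 0) (nat_lit 9354494397481) (nat_lit 152) (nat_lit 4836327724796) (nat_lit 0) (nat_lit 1769865808984) (nat_lit 25) (nat_lit 5) (nat_lit 27) (nat_lit 4) (nat_lit 25) (nat_lit 4) (nat_lit 407) (nat_lit 388) (nat_lit 225)))) (XT.nd (nat_lit 78) (nat_lit 152) (nat_lit 0) (XT.lf (nat_lit 0) (nat_lit 5652249315379) (nat_lit 76) (nat_lit 9712552000883) (nat_lit 76) (nat_lit 2127923412259) (nat_lit 24) (nat_lit 4) (nat_lit 25) (nat_lit 5) (nat_lit 25) (nat_lit 4) (nat_lit 408) (nat_lit 388) (nat_lit 224)) (XT.nd (nat_lit 78) (nat_lit 76) (nat_lit 0) (XT.lf (nat_lit 0) (nat_lit 3017886642488) (nat_lit 152) (nat_lit 1096172307383) (nat_lit 76) (nat_lit 15082010389668)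 (nat_lit 23) (nat_lit 5) (nat_lit 25) (nat_lit 5) (nat_lit 24) (nat_lit 4) (nat_lit 409) (nat_lit 388) (nat_lit 223)) (XT.lf (nat_lit 0) (nat_lit 9350129701149) (nat_lit 152) (nat_lit 8939922946457) (nat_lit 0) (nat_lit 2754800493472) (nat_lit 22) (nat_lit 5) (nat_lit 24) (nat_lit 4) (nat_lit 22) (nat_lit 4) (nat_lit 410) (nat_lit 388) (nat_lit 222))))) (XT.nd (nat_lit 234) (nat_lit 228) (nat_lit 0) (XT.nd (nat_lit 78) (nat_lit 152) (nat_lit 0) (XT.lf (nat_lit 0) (nat_lit 4444036049352) (nat_lit 76) (nat_lit 12628127277505) (nat_lit 76) (nat_lit 6032798069755) (nat_lit 21) (nat_lit 4) (nat_lit 22) (nat_lit 5) (nat_lit 22) (nat_lit 4) (nat_lit 411) (nat_lit 388) (nat_lit 221)) (XT.nd (nat_lit 78) (nat_lit 76) (nat_lit 0) (XT.lf (nat_lit 0) (nat_lit 925391404697) (nat_lit 152) (nat_lit 4605737687712) (nat_lit 76) (nat_lit 19866550188137) (nat_lit 20) (nat_lit 5) (nat_lit 22) (nat_lit 5) (nat_lit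 21) (nat_lit 4) (nat_lit 412) (nat_lit 388) (nat_lit 220)) (XT.lf (nat_lit 0) (nat_lit 8968953727973) (nat_lit 152) (nat_lit 15689481646812) (nat_lit 0) (nat_lit 3233884851567) (nat_lit 19) (nat_lit 5) (nat_lit 21) (nat_lit 4) (nat_lit 19) (nat_lit 4) (nat_lit 413) (nat_lit 388) (nat_lit 219)))) (XT.nd (nat_lit 156) (nat_lit 152) (nat_lit 0) (XT.nd (nat_lit 78) (nat_lit 0) (nat_lit 0) (XT.lf (nat_lit 0) (nat_lit 1153083085399) (nat_lit 76) (nat_lit 17629320094061) (nat_lit 76) (nat_lit 11894251217613) (nat_lit 18) (nat_lit 4) (nat_lit 19) (nat_lit 5) (nat_lit 19) (nat_lit 4) (nat_lit 414) (nat_lit 388) (nat_lit 218)) (XT.lf (nat_lit 0) (nat_lit 22285316316784) (nat_lit 76) (nat_lit 8602685726922) (nat_lit 76) (nat_lit 2867616850438) (nat_lit 18) (nat_lit 4) (nat_lit 19) (nat_lit 5) (nat_lit 19) (nat_lit 4) (nat_lit 415) (nat_lit 388) (nat_lit 217))) (XT.nd (nat_lit 78) (nat_lit 0) (nat_lit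 0) (XT.lf (nat_lit 0) (nat_lit 7360199689808) (nat_lit 152) (nat_lit 27438973321634) (nat_lit 0) (nat_lit 2373183275448) (nat_lit 16) (nat_lit 5) (nat_lit 18) (nat_lit 4) (nat_lit 16) (nat_lit 4) (nat_lit 416) (nat_lit 388) (nat_lit 216)) (XT.lf (nat_lit 0) (nat_lit 19866386685371) (nat_lit 152) (nat_lit 6179696256913) (nat_lit 0) (nat_lit 14879370270987) (nat_lit 16) (nat_lit 5) (nat_lit 18) (nat_lit 4) (nat_lit 16) (nat_lit 4) (nat_lit 417) (nat_lit 388) (nat_lit 215)))))) (XT.nd (nat_lit 546) (nat_lit 304) (nat_lit 0) (XT.nd (nat_lit 234) (nat_lit 228) (nat_lit 0) (XT.nd (nat_lit 78) (nat_lit 152) (nat_lit 0) (XT.lf (nat_lit 0) (nat_lit 20053800348640) (nat_lit 76) (nat_lit 15025086489125) (nat_lit 76) (nat_lit 10038070074720) (nat_lit 15) (nat_lit 4) (nat_lit 16) (nat_lit 5) (nat_lit 16) (nat_lit 4) (nat_lit 418) (nat_lit 388) (nat_lit 214)) (XT.nd (nat_lit 78) (nat_lit 0) (nat_lit 0)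 (XT.lf (nat_lit 0) (nat_lit 991869771231) (nat_lit 76) (nat_lit 1789007524421) (nat_lit 152) (nat_lit 47083013256552) (nat_lit 13) (nat_lit 5) (nat_lit 14) (nat_lit 5) (nat_lit 15) (nat_lit 4) (nat_lit 419) (nat_lit 388) (nat_lit 213)) (XT.lf (nat_lit 0) (nat_lit 18423676277931) (nat_lit 152) (nat_lit 22451039691937) (nat_lit 0) (nat_lit 14087140265377) (nat_lit 13) (nat_lit 5) (nat_lit 15) (nat_lit 4) (nat_lit 13) (nat_lit 4) (nat_lit 420) (nat_lit 388) (nat_lit 212)))) (XT.nd (nat_lit 156) (nat_lit 152) (nat_lit 0) (XT.nd (nat_lit 78) (nat_lit 0) (nat_lit 0) (XT.lf (nat_lit 0) (nat_lit 8614851367143) (nat_lit 76) (nat_lit 28239957198711) (nat_lit 76) (nat_lit 23903421186144) (nat_lit 12) (nat_lit 4) (nat_lit 13) (nat_lit 5) (nat_lit 13) (nat_lit 4) (nat_lit 421) (nat_lit 388) (nat_lit 211)) (XT.lf (nat_lit 0) (nat_lit 46863816795732) (nat_lit 76) (nat_lit 12360370975951) (nat_lit 76) (nat_lit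 8023834963374) (nat_lit 12) (nat_lit 4) (nat_lit 13) (nat_lit 5) (nat_lit 13) (nat_lit 4) (nat_lit 422) (nat_lit 388) (nat_lit 210))) (XT.nd (nat_lit 78) (nat_lit 0) (nat_lit 0) (XT.lf (nat_lit 0) (nat_lit 10339129778419) (nat_lit 152) (nat_lit 57588407286763) (nat_lit 0) (nat_lit 6568228897909) (nat_lit 10) (nat_lit 5) (nat_lit 12) (nat_lit 4) (nat_lit 10) (nat_lit 4) (nat_lit 423) (nat_lit 388) (nat_lit 209)) (XT.lf (nat_lit 0) (nat_lit 32339918404492) (nat_lit 152) (nat_lit 21608691584233) (nat_lit 0) (nat_lit 28569017523976) (nat_lit 10) (nat_lit 5) (nat_lit 12) (nat_lit 4) (nat_lit 10) (nat_lit 4) (nat_lit 424) (nat_lit 388) (nat_lit 208))))) (XT.nd (nat_lit 234) (nat_lit 76) (nat_lit 0) (XT.nd (nat_lit 78) (nat_lit 152) (nat_lit 0) (XT.lf (nat_lit 0) (nat_lit 21699852390256) (nat_lit 76) (nat_lit 36839517546583) (nat_lit 76) (nat_lit 33068616666061) (nat_lit 9) (nat_lit 4) (nat_lit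 10) (nat_lit 5) (nat_lit 10) (nat_lit 4) (nat_lit 425) (nat_lit 388) (nat_lit 207)) (XT.nd (nat_lit 78) (nat_lit 152) (nat_lit 0) (XT.lf (nat_lit 0) (nat_lit 73933200230872) (nat_lit 76) (nat_lit 15865084210005) (nat_lit 76) (nat_lit 12094183329478) (nat_lit 9) (nat_lit 4) (nat_lit 10) (nat_lit 5) (nat_lit 10) (nat_lit 4) (nat_lit 426) (nat_lit 388) (nat_lit 206)) (XT.lf (nat_lit 0) (nat_lit 12263389763861) (nat_lit 152) (nat_lit 92201040191641) (nat_lit 0) (nat_lit 8984345519921) (nat_lit 7) (nat_lit 5) (nat_lit 9) (nat_lit 4) (nat_lit 7) (nat_lit 4) (nat_lit 427) (nat_lit 388) (nat_lit 205)))) (XT.nd (nat_lit 156) (nat_lit 0) (nat_lit 0) (XT.nd (nat_lit 78) (nat_lit 76) (nat_lit 0) (XT.lf (nat_lit 0) (nat_lit 41322967760286) (nat_lit 152) (nat_lit 46942263593848) (nat_lit 0) (nat_lit 38043923516343) (nat_lit 7) (nat_lit 5) (nat_lit 9) (nat_lit 4) (nat_lit 7) (nat_lit 4) (nat_lit 428) (nat_lit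 388) (nat_lit 204)) (XT.lf (nat_lit 0) (nat_lit 5604259421275) (nat_lit 76) (nat_lit 69369283466370) (nat_lit 76) (nat_lit 66090239222423) (nat_lit 6) (nat_lit 4) (nat_lit 7) (nat_lit 5) (nat_lit 7) (nat_lit 4) (nat_lit 429) (nat_lit 388) (nat_lit 203))) (XT.nd (nat_lit 78) (nat_lit 0) (nat_lit 0) (XT.lf (nat_lit 0) (nat_lit 71308431194732) (nat_lit 76) (nat_lit 44817073231731) (nat_lit 76) (nat_lit 41538028987782) (nat_lit 6) (nat_lit 4) (nat_lit 7) (nat_lit 5) (nat_lit 7) (nat_lit 4) (nat_lit 430) (nat_lit 388) (nat_lit 202)) (XT.lf (nat_lit 0) (nat_lit 146868228734114) (nat_lit 76) (nat_lit 16582031461945) (nat_lit 76) (nat_lit 13302987217995) (nat_lit 6) (nat_lit 4) (nat_lit 7) (nat_lit 5) (nat_lit 7) (nat_lit 4) (nat_lit 431) (nat_lit 388) (nat_lit 201))))))))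
noncomputable def xc112 : XT := (XT.nd (nat_lit 51636) (nat_lit 0) (nat_lit 0) (XT.nd (nat_lit 50622) (nat_lit 0) (nat_lit 1216) (XT.nd (nat_lit 50076) (nat_lit 0) (nat_lit 2128) (XT.nd (nat_lit 49842) (nat_lit 0) (nat_lit 2812) (XT.nd (nat_lit 78) (nat_lit 0) (nat_lit 0) (XT.lf (nat_lit 0) (nat_lit 19788116710189) (nat_lit 76) (nat_lit 161513394427399) (nat_lit 0) (nat_lit 16936773889361) (nat_lit 5) (nat_lit 5) (nat_lit 6) (nat_lit 4) (nat_lit 5) (nat_lit 4) (nat_lit 432) (nat_lit 388) (nat_lit 200)) (XT.nd (nat_lit 49686) (nat_lit 0) (nat_lit 2812) (XT.lf (nat_lit 0) (nat_lit 58907094819238) (nat_lit 76) (nat_lit 107524282962982) (nat_lit 0) (nat_lit 56055751998408) (nat_lit 5) (nat_lit 5) (nat_lit 6) (nat_lit 4) (nat_lit 5) (nat_lit 4) (nat_lit 433) (nat_lit 388) (nat_lit 199)) (XT.lf (nat_lit 0) (nat_lit 568044501755) (nat_lit 380) (nat_lit 670287443896) (nat_lit 380) (nat_lit 670287443896)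 (nat_lit 42) (nat_lit 3) (nat_lit 47) (nat_lit 3) (nat_lit 47) (nat_lit 5) (nat_lit 389) (nat_lit 389) (nat_lit 242)))) (XT.nd (nat_lit 78) (nat_lit 0) (nat_lit 76) (XT.lf (nat_lit 76) (nat_lit 614744705031) (nat_lit 0) (nat_lit 632006245195) (nat_lit 380) (nat_lit 2852962446581) (nat_lit 43) (nat_lit 5) (nat_lit 42) (nat_lit 3) (nat_lit 47) (nat_lit 5) (nat_lit 390) (nat_lit 389) (nat_lit 241)) (XT.nd (nat_lit 78) (nat_lit 0) (nat_lit 0) (XT.lf (nat_lit 0) (nat_lit 1509095431967) (nat_lit 304) (nat_lit 1465031046616) (nat_lit 380) (nat_lit 1430170242144) (nat_lit 43) (nat_lit 5) (nat_lit 47) (nat_lit 5) (nat_lit 48) (nat_lit 5) (nat_lit 391) (nat_lit 389) (nat_lit 240)) (XT.lf (nat_lit 76) (nat_lit 908700512728) (nat_lit 0) (nat_lit 969813958498) (nat_lit 380) (nat_lit 2865894639218) (nat_lit 44) (nat_lit 5) (nat_lit 43) (nat_lit 5) (nat_lit 48) (nat_lit 5) (nat_lit 392) (nat_lit 389) (nat_lit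 239))))) (XT.nd (nat_lit 234) (nat_lit 532) (nat_lit 0) (XT.nd (nat_lit 78) (nat_lit 304) (nat_lit 0) (XT.lf (nat_lit 0) (nat_lit 2438859781889) (nat_lit 304) (nat_lit 1379842113787) (nat_lit 76) (nat_lit 1296509450616) (nat_lit 44) (nat_lit 5) (nat_lit 48) (nat_lit 5) (nat_lit 45) (nat_lit 5) (nat_lit 393) (nat_lit 389) (nat_lit 238)) (XT.nd (nat_lit 78) (nat_lit 0) (nat_lit 0) (XT.lf (nat_lit 0) (nat_lit 1534867218746) (nat_lit 304) (nat_lit 1658126865385) (nat_lit 380) (nat_lit 2332179254138) (nat_lit 40) (nat_lit 5) (nat_lit 44) (nat_lit 5) (nat_lit 45) (nat_lit 5) (nat_lit 394) (nat_lit 389) (nat_lit 237)) (XT.lf (nat_lit 0) (nat_lit 4170036341391) (nat_lit 380) (nat_lit 981611723953) (nat_lit 76) (nat_lit 828513392247) (nat_lit 40) (nat_lit 5) (nat_lit 45) (nat_lit 5) (nat_lit 41) (nat_lit 5) (nat_lit 395) (nat_lit 389) (nat_lit 236)))) (XT.nd (nat_lit 156) (nat_lit 304) (nat_lit 0)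 (XT.nd (nat_lit 78) (nat_lit 76) (nat_lit 0) (XT.lf (nat_lit 0) (nat_lit 2633918002758) (nat_lit 152) (nat_lit 2847740283891) (nat_lit 228) (nat_lit 993536005752) (nat_lit 38) (nat_lit 5) (nat_lit 40) (nat_lit 5) (nat_lit 41) (nat_lit 5) (nat_lit 396) (nat_lit 389) (nat_lit 235)) (XT.lf (nat_lit 0) (nat_lit 4144673434) (nat_lit 228) (nat_lit 134876758270) (nat_lit 76) (nat_lit 6897735633357) (nat_lit 37) (nat_lit 5) (nat_lit 40) (nat_lit 5) (nat_lit 38) (nat_lit 5) (nat_lit 397) (nat_lit 389) (nat_lit 234))) (XT.nd (nat_lit 78) (nat_lit 152) (nat_lit 0) (XT.lf (nat_lit 0) (nat_lit 1369535118002) (nat_lit 228) (nat_lit 3303037210638) (nat_lit 76) (nat_lit 2954918715323) (nat_lit 35) (nat_lit 5) (nat_lit 38) (nat_lit 5) (nat_lit 36) (nat_lit 5) (nat_lit 398) (nat_lit 389) (nat_lit 233)) (XT.lf (nat_lit 0) (nat_lit 1267994606099) (nat_lit 152) (nat_lit 1738250651843) (nat_lit 228) (nat_lit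 5290613192455) (nat_lit 33) (nat_lit 5) (nat_lit 35) (nat_lit 5) (nat_lit 36) (nat_lit 5) (nat_lit 399) (nat_lit 389) (nat_lit 232)))))) (XT.nd (nat_lit 468) (nat_lit 532) (nat_lit 0) (XT.nd (nat_lit 234) (nat_lit 228) (nat_lit 0) (XT.nd (nat_lit 78) (nat_lit 152) (nat_lit 0) (XT.lf (nat_lit 0) (nat_lit 5137094878726) (nat_lit 228) (nat_lit 2220808814234) (nat_lit 76) (nat_lit 1671432330861) (nat_lit 33) (nat_lit 5) (nat_lit 36) (nat_lit 5) (nat_lit 34) (nat_lit 4) (nat_lit 400) (nat_lit 389) (nat_lit 231)) (XT.nd (nat_lit 78) (nat_lit 76) (nat_lit 0) (XT.lf (nat_lit 0) (nat_lit 3540917599962) (nat_lit 76) (nat_lit 4276050029760) (nat_lit 152) (nat_lit 2020308250471) (nat_lit 32) (nat_lit 5) (nat_lit 33) (nat_lit 5) (nat_lit 34) (nat_lit 4) (nat_lit 401) (nat_lit 389) (nat_lit 230)) (XT.lf (nat_lit 0) (nat_lit 242241837447) (nat_lit 152) (nat_lit 343512944788) (nat_lit 76) (nat_lit 10161587123910)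 (nat_lit 31) (nat_lit 5) (nat_lit 33) (nat_lit 5) (nat_lit 32) (nat_lit 5) (nat_lit 402) (nat_lit 389) (nat_lit 229)))) (XT.nd (nat_lit 78) (nat_lit 76) (nat_lit 0) (XT.lf (nat_lit 0) (nat_lit 3098438234285) (nat_lit 228) (nat_lit 4873629800341) (nat_lit 76) (nat_lit 3738253296367) (nat_lit 29) (nat_lit 5) (nat_lit 32) (nat_lit 5) (nat_lit 30) (nat_lit 4) (nat_lit 403) (nat_lit 389) (nat_lit 228)) (XT.nd (nat_lit 78) (nat_lit 0) (nat_lit 0) (XT.lf (nat_lit 0) (nat_lit 2512401870462) (nat_lit 76) (nat_lit 4021399931756) (nat_lit 152) (nat_lit 6261335210616) (nat_lit 28) (nat_lit 5) (nat_lit 29) (nat_lit 5) (nat_lit 30) (nat_lit 4) (nat_lit 404) (nat_lit 389) (nat_lit 227)) (XT.lf (nat_lit 0) (nat_lit 10772968613111) (nat_lit 152) (nat_lit 2484134322853) (nat_lit 0) (nat_lit 742297304823) (nat_lit 28) (nat_lit 5) (nat_lit 30) (nat_lit 4) (nat_lit 28) (nat_lit 4) (nat_lit 405) (nat_lit 389)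 (nat_lit 226))))) (XT.nd (nat_lit 234) (nat_lit 304) (nat_lit 0) (XT.nd (nat_lit 78) (nat_lit 76) (nat_lit 0) (XT.lf (nat_lit 0) (nat_lit 740499787522) (nat_lit 152) (nat_lit 8438596765282) (nat_lit 76) (nat_lit 6128528061483) (nat_lit 26) (nat_lit 5) (nat_lit 28) (nat_lit 5) (nat_lit 27) (nat_lit 4) (nat_lit 406) (nat_lit 389) (nat_lit 225)) (XT.nd (nat_lit 78) (nat_lit 0) (nat_lit 0) (XT.lf (nat_lit 0) (nat_lit 1044947826082) (nat_lit 76) (nat_lit 4106502934234) (nat_lit 152) (nat_lit 11610690195074) (nat_lit 25) (nat_lit 5) (nat_lit 26) (nat_lit 5) (nat_lit 27) (nat_lit 4) (nat_lit 407) (nat_lit 389) (nat_lit 224)) (XT.lf (nat_lit 0) (nat_lit 10757668558951) (nat_lit 152) (nat_lit 5561776879923) (nat_lit 0) (nat_lit 2035345681798) (nat_lit 25) (nat_lit 5) (nat_lit 27) (nat_lit 4) (nat_lit 25) (nat_lit 4) (nat_lit 408) (nat_lit 389) (nat_lit 223)))) (XT.nd (nat_lit 156) (nat_lit 152) (nat_lit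 0) (XT.nd (nat_lit 78) (nat_lit 76) (nat_lit 0) (XT.lf (nat_lit 0) (nat_lit 6500086716115) (nat_lit 76) (nat_lit 11169434799335) (nat_lit 76) (nat_lit 2447111922087) (nat_lit 24) (nat_lit 4) (nat_lit 25) (nat_lit 5) (nat_lit 25) (nat_lit 4) (nat_lit 409) (nat_lit 389) (nat_lit 222)) (XT.lf (nat_lit 0) (nat_lit 3470569640454) (nat_lit 152) (nat_lit 1260598150354) (nat_lit 76) (nat_lit 17344311949423) (nat_lit 23) (nat_lit 5) (nat_lit 25) (nat_lit 5) (nat_lit 24) (nat_lit 4) (nat_lit 410) (nat_lit 389) (nat_lit 221))) (XT.nd (nat_lit 78) (nat_lit 76) (nat_lit 0) (XT.lf (nat_lit 0) (nat_lit 10752649157893) (nat_lit 152) (nat_lit 10280911385266) (nat_lit 0) (nat_lit 3168020568845) (nat_lit 22) (nat_lit 5) (nat_lit 24) (nat_lit 4) (nat_lit 22) (nat_lit 4) (nat_lit 411) (nat_lit 389) (nat_lit 220)) (XT.lf (nat_lit 0) (nat_lit 5110641459770) (nat_lit 76) (nat_lit 14522346367606) (nat_lit 76) (nat_lit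 6937717778504) (nat_lit 21) (nat_lit 4) (nat_lit 22) (nat_lit 5) (nat_lit 22) (nat_lit 4) (nat_lit 412) (nat_lit 389) (nat_lit 219))))))) (XT.nd (nat_lit 1014) (nat_lit 380) (nat_lit 0) (XT.nd (nat_lit 468) (nat_lit 456) (nat_lit 0) (XT.nd (nat_lit 234) (nat_lit 152) (nat_lit 0) (XT.nd (nat_lit 78) (nat_lit 152) (nat_lit 0) (XT.lf (nat_lit 0) (nat_lit 1064200116760) (nat_lit 152) (nat_lit 5296598338114) (nat_lit 76) (nat_lit 22846532717551) (nat_lit 20) (nat_lit 5) (nat_lit 22) (nat_lit 5) (nat_lit 21) (nat_lit 4) (nat_lit 413) (nat_lit 389) (nat_lit 218)) (XT.nd (nat_lit 78) (nat_lit 76) (nat_lit 0) (XT.lf (nat_lit 0) (nat_lit 10314296788515) (nat_lit 152) (nat_lit 18042903891065) (nat_lit 0) (nat_lit 3718967580523) (nat_lit 19) (nat_lit 5) (nat_lit 21) (nat_lit 4) (nat_lit 19) (nat_lit 4) (nat_lit 414) (nat_lit 389) (nat_lit 217)) (XT.lf (nat_lit 0) (nat_lit 1326045550851) (nat_lit 76)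 (nat_lit 20273718106807) (nat_lit 76) (nat_lit 13678388898784) (nat_lit 18) (nat_lit 4) (nat_lit 19) (nat_lit 5) (nat_lit 19) (nat_lit 4) (nat_lit 415) (nat_lit 389) (nat_lit 216)))) (XT.nd (nat_lit 78) (nat_lit 152) (nat_lit 0) (XT.lf (nat_lit 0) (nat_lit 25628113766600) (nat_lit 76) (nat_lit 9893088584775) (nat_lit 76) (nat_lit 3297759376725) (nat_lit 18) (nat_lit 4) (nat_lit 19) (nat_lit 5) (nat_lit 19) (nat_lit 4) (nat_lit 416) (nat_lit 389) (nat_lit 215)) (XT.nd (nat_lit 78) (nat_lit 0) (nat_lit 0) (XT.lf (nat_lit 0) (nat_lit 8464229644438) (nat_lit 152) (nat_lit 31554819317461) (nat_lit 0) (nat_lit 2729160767852) (nat_lit 16) (nat_lit 5) (nat_lit 18) (nat_lit 4) (nat_lit 16) (nat_lit 4) (nat_lit 417) (nat_lit 389) (nat_lit 214)) (XT.lf (nat_lit 0) (nat_lit 22846344689184) (nat_lit 152) (nat_lit 7106650693347) (nat_lit 0) (nat_lit 17111275812581) (nat_lit 16) (nat_lit 5) (nat_lit 18)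 (nat_lit 4) (nat_lit 16) (nat_lit 4) (nat_lit 418) (nat_lit 389) (nat_lit 213))))) (XT.nd (nat_lit 234) (nat_lit 228) (nat_lit 0) (XT.nd (nat_lit 78) (nat_lit 152) (nat_lit 0) (XT.lf (nat_lit 0) (nat_lit 23061870402944) (nat_lit 76) (nat_lit 17278849461445) (nat_lit 76) (nat_lit 11543780584826) (nat_lit 15) (nat_lit 4) (nat_lit 16) (nat_lit 5) (nat_lit 16) (nat_lit 4) (nat_lit 419) (nat_lit 389) (nat_lit 212)) (XT.nd (nat_lit 78) (nat_lit 0) (nat_lit 0) (XT.lf (nat_lit 0) (nat_lit 1140650238925) (nat_lit 76) (nat_lit 2057358652031) (nat_lit 152) (nat_lit 54145465243934) (nat_lit 13) (nat_lit 5) (nat_lit 14) (nat_lit 5) (nat_lit 15) (nat_lit 4) (nat_lit 420) (nat_lit 389) (nat_lit 211)) (XT.lf (nat_lit 0) (nat_lit 21187227720491) (nat_lit 152) (nat_lit 25818695643893) (nat_lit 0) (nat_lit 16200211306018) (nat_lit 13) (nat_lit 5) (nat_lit 15) (nat_lit 4) (nat_lit 13) (nat_lit 4) (nat_lit 421)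 (nat_lit 389) (nat_lit 210)))) (XT.nd (nat_lit 156) (nat_lit 152) (nat_lit 0) (XT.nd (nat_lit 78) (nat_lit 0) (nat_lit 0) (XT.lf (nat_lit 0) (nat_lit 9907079073966) (nat_lit 76) (nat_lit 32475950777595) (nat_lit 76) (nat_lit 27488934363113) (nat_lit 12) (nat_lit 4) (nat_lit 13) (nat_lit 5) (nat_lit 13) (nat_lit 4) (nat_lit 422) (nat_lit 389) (nat_lit 209)) (XT.lf (nat_lit 0) (nat_lit 53893389316615) (nat_lit 76) (nat_lit 14214426621541) (nat_lit 76) (nat_lit 9227410207051) (nat_lit 12) (nat_lit 4) (nat_lit 13) (nat_lit 5) (nat_lit 13) (nat_lit 4) (nat_lit 423) (nat_lit 389) (nat_lit 208))) (XT.nd (nat_lit 78) (nat_lit 0) (nat_lit 0) (XT.lf (nat_lit 0) (nat_lit 11889999245935) (nat_lit 152) (nat_lit 66226668378178) (nat_lit 0) (nat_lit 7553463233329) (nat_lit 10) (nat_lit 5) (nat_lit 12) (nat_lit 4) (nat_lit 10) (nat_lit 4) (nat_lit 424) (nat_lit 389) (nat_lit 207)) (XT.lf (nat_lit 0) (nat_lit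 37190906165821) (nat_lit 152) (nat_lit 24849995320478) (nat_lit 0) (nat_lit 32854370153210) (nat_lit 10) (nat_lit 5) (nat_lit 12) (nat_lit 4) (nat_lit 10) (nat_lit 4) (nat_lit 425) (nat_lit 389) (nat_lit 206)))))) (XT.nd (nat_lit 546) (nat_lit 76) (nat_lit 0) (XT.nd (nat_lit 234) (nat_lit 76) (nat_lit 0) (XT.nd (nat_lit 78) (nat_lit 152) (nat_lit 0) (XT.lf (nat_lit 0) (nat_lit 24954830250122) (nat_lit 76) (nat_lit 42365445177868) (nat_lit 76) (nat_lit 38028909165252) (nat_lit 9) (nat_lit 4) (nat_lit 10) (nat_lit 5) (nat_lit 10) (nat_lit 4) (nat_lit 426) (nat_lit 389) (nat_lit 205)) (XT.nd (nat_lit 78) (nat_lit 152) (nat_lit 0) (XT.lf (nat_lit 0) (nat_lit 85023180266657) (nat_lit 76) (nat_lit 18244846840894) (nat_lit 76) (nat_lit 13908310828275) (nat_lit 9) (nat_lit 4) (nat_lit 10) (nat_lit 5) (nat_lit 10) (nat_lit 4) (nat_lit 427) (nat_lit 389) (nat_lit 204)) (XT.lf (nat_lit 0) (nat_lit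 14102898229008) (nat_lit 152) (nat_lit 106031196219176) (nat_lit 0) (nat_lit 10331997348467) (nat_lit 7) (nat_lit 5) (nat_lit 9) (nat_lit 4) (nat_lit 7) (nat_lit 4) (nat_lit 428) (nat_lit 389) (nat_lit 203)))) (XT.nd (nat_lit 156) (nat_lit 0) (nat_lit 0) (XT.nd (nat_lit 78) (nat_lit 76) (nat_lit 0) (XT.lf (nat_lit 0) (nat_lit 47521412924823) (nat_lit 152) (nat_lit 53983603131872) (nat_lit 0) (nat_lit 43750512044279) (nat_lit 7) (nat_lit 5) (nat_lit 9) (nat_lit 4) (nat_lit 7) (nat_lit 4) (nat_lit 429) (nat_lit 389) (nat_lit 202)) (XT.lf (nat_lit 0) (nat_lit 6444898335472) (nat_lit 76) (nat_lit 79774675985791) (nat_lit 76) (nat_lit 76003775105245) (nat_lit 6) (nat_lit 4) (nat_lit 7) (nat_lit 5) (nat_lit 7) (nat_lit 4) (nat_lit 430) (nat_lit 389) (nat_lit 201))) (XT.nd (nat_lit 78) (nat_lit 0) (nat_lit 0) (XT.lf (nat_lit 0) (nat_lit 82004695874816) (nat_lit 76) (nat_lit 51539634216026) (nat_lit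 76) (nat_lit 47768733335478) (nat_lit 6) (nat_lit 4) (nat_lit 7) (nat_lit 5) (nat_lit 7) (nat_lit 4) (nat_lit 431) (nat_lit 389) (nat_lit 200)) (XT.lf (nat_lit 0) (nat_lit 168898463044991) (nat_lit 76) (nat_lit 19069336180834) (nat_lit 76) (nat_lit 15298435300284) (nat_lit 6) (nat_lit 4) (nat_lit 7) (nat_lit 5) (nat_lit 7) (nat_lit 4) (nat_lit 432) (nat_lit 389) (nat_lit 199))))) (XT.nd (nat_lit 49764) (nat_lit 0) (nat_lit 2812) (XT.nd (nat_lit 78) (nat_lit 0) (nat_lit 0) (XT.lf (nat_lit 0) (nat_lit 22756334217091) (nat_lit 76) (nat_lit 185740403590712) (nat_lit 0) (nat_lit 19477289973134) (nat_lit 5) (nat_lit 5) (nat_lit 6) (nat_lit 4) (nat_lit 5) (nat_lit 4) (nat_lit 433) (nat_lit 389) (nat_lit 198)) (XT.nd (nat_lit 78) (nat_lit 0) (nat_lit 0) (XT.lf (nat_lit 0) (nat_lit 67743159042448) (nat_lit 76) (nat_lit 123652925406737) (nat_lit 0) (nat_lit 64464114798489) (nat_lit 5) (nat_lit 5)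 (nat_lit 6) (nat_lit 4) (nat_lit 5) (nat_lit 4) (nat_lit 434) (nat_lit 389) (nat_lit 197)) (XT.lf (nat_lit 0) (nat_lit 119478007591583) (nat_lit 76) (nat_lit 52252325495222) (nat_lit 0) (nat_lit 116198963347623) (nat_lit 5) (nat_lit 5) (nat_lit 6) (nat_lit 4) (nat_lit 5) (nat_lit 4) (nat_lit 435) (nat_lit 389) (nat_lit 196)))) (XT.nd (nat_lit 156) (nat_lit 0) (nat_lit 76) (XT.nd (nat_lit 78) (nat_lit 0) (nat_lit 0) (XT.lf (nat_lit 0) (nat_lit 653251181010) (nat_lit 380) (nat_lit 770830558185) (nat_lit 380) (nat_lit 770830558185) (nat_lit 42) (nat_lit 3) (nat_lit 47) (nat_lit 3) (nat_lit 47) (nat_lit 5) (nat_lit 390) (nat_lit 390) (nat_lit 240)) (XT.lf (nat_lit 76) (nat_lit 706956415168) (nat_lit 0) (nat_lit 726807184715) (nat_lit 380) (nat_lit 3280906805377) (nat_lit 43) (nat_lit 5) (nat_lit 42) (nat_lit 3) (nat_lit 47) (nat_lit 5) (nat_lit 391) (nat_lit 390) (nat_lit 239))) (XT.nd (nat_lit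 78) (nat_lit 0) (nat_lit 0) (XT.lf (nat_lit 0) (nat_lit 1735459752856) (nat_lit 304) (nat_lit 1684785698769) (nat_lit 380) (nat_lit 1644695776294) (nat_lit 43) (nat_lit 5) (nat_lit 47) (nat_lit 5) (nat_lit 48) (nat_lit 5) (nat_lit 392) (nat_lit 390) (nat_lit 238)) (XT.lf (nat_lit 76) (nat_lit 1045005594256) (nat_lit 0) (nat_lit 1115286053144) (nat_lit 380) (nat_lit 3295778828785) (nat_lit 44) (nat_lit 5) (nat_lit 43) (nat_lit 5) (nat_lit 48) (nat_lit 5) (nat_lit 393) (nat_lit 390) (nat_lit 237))))))))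
noncomputable def xc113 : XT := (XT.nd (nat_lit 2028) (nat_lit 912) (nat_lit 0) (XT.nd (nat_lit 1014) (nat_lit 912) (nat_lit 0) (XT.nd (nat_lit 468) (nat_lit 532) (nat_lit 0) (XT.nd (nat_lit 234) (nat_lit 380) (nat_lit 0) (XT.nd (nat_lit 78) (nat_lit 304) (nat_lit 0) (XT.lf (nat_lit 0) (nat_lit 2804688753915) (nat_lit 304) (nat_lit 1586818426089) (nat_lit 76) (nat_lit 1490985867518) (nat_lit 44) (nat_lit 5) (nat_lit 48) (nat_lit 5) (nat_lit 45) (nat_lit 5) (nat_lit 394) (nat_lit 390) (nat_lit 236)) (XT.nd (nat_lit 78) (nat_lit 0) (nat_lit 0) (XT.lf (nat_lit 0) (nat_lit 1765097306106) (nat_lit 304) (nat_lit 1906845894957) (nat_lit 380) (nat_lit 2682006137298) (nat_lit 40) (nat_lit 5) (nat_lit 44) (nat_lit 5) (nat_lit 45) (nat_lit 5) (nat_lit 395) (nat_lit 390) (nat_lit 235)) (XT.lf (nat_lit 0) (nat_lit 4795541796358) (nat_lit 380) (nat_lit 1128853478036) (nat_lit 76) (nat_lit 952790401272)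 (nat_lit 40) (nat_lit 5) (nat_lit 45) (nat_lit 5) (nat_lit 41) (nat_lit 5) (nat_lit 396) (nat_lit 390) (nat_lit 234)))) (XT.nd (nat_lit 78) (nat_lit 228) (nat_lit 0) (XT.lf (nat_lit 0) (nat_lit 3029005707477) (nat_lit 152) (nat_lit 3274901325616) (nat_lit 228) (nat_lit 1142566402650) (nat_lit 38) (nat_lit 5) (nat_lit 40) (nat_lit 5) (nat_lit 41) (nat_lit 5) (nat_lit 397) (nat_lit 390) (nat_lit 233)) (XT.nd (nat_lit 78) (nat_lit 152) (nat_lit 0) (XT.lf (nat_lit 0) (nat_lit 4766377589) (nat_lit 228) (nat_lit 155108267959) (nat_lit 76) (nat_lit 7932395978799) (nat_lit 37) (nat_lit 5) (nat_lit 40) (nat_lit 5) (nat_lit 38) (nat_lit 5) (nat_lit 398) (nat_lit 390) (nat_lit 232)) (XT.lf (nat_lit 0) (nat_lit 1574965388634) (nat_lit 228) (nat_lit 3798492787973) (nat_lit 76) (nat_lit 3398156523511) (nat_lit 35) (nat_lit 5) (nat_lit 38) (nat_lit 5) (nat_lit 36) (nat_lit 5) (nat_lit 399) (nat_lit 390)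 (nat_lit 231))))) (XT.nd (nat_lit 234) (nat_lit 304) (nat_lit 0) (XT.nd (nat_lit 78) (nat_lit 76) (nat_lit 0) (XT.lf (nat_lit 0) (nat_lit 1458193801081) (nat_lit 152) (nat_lit 1998988248270) (nat_lit 228) (nat_lit 6084205168198) (nat_lit 33) (nat_lit 5) (nat_lit 35) (nat_lit 5) (nat_lit 36) (nat_lit 5) (nat_lit 400) (nat_lit 390) (nat_lit 230)) (XT.nd (nat_lit 78) (nat_lit 76) (nat_lit 0) (XT.lf (nat_lit 0) (nat_lit 5907659112947) (nat_lit 228) (nat_lit 2553930132527) (nat_lit 76) (nat_lit 1922147181559) (nat_lit 33) (nat_lit 5) (nat_lit 36) (nat_lit 5) (nat_lit 34) (nat_lit 4) (nat_lit 401) (nat_lit 390) (nat_lit 229)) (XT.lf (nat_lit 0) (nat_lit 4072055243625) (nat_lit 76) (nat_lit 4917457532804) (nat_lit 152) (nat_lit 2323354485456) (nat_lit 32) (nat_lit 5) (nat_lit 33) (nat_lit 5) (nat_lit 34) (nat_lit 4) (nat_lit 402) (nat_lit 390) (nat_lit 228)))) (XT.nd (nat_lit 156) (nat_lit 76)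 (nat_lit 0) (XT.nd (nat_lit 78) (nat_lit 152) (nat_lit 0) (XT.lf (nat_lit 0) (nat_lit 278578115113) (nat_lit 152) (nat_lit 395039883116) (nat_lit 76) (nat_lit 11685825193530) (nat_lit 31) (nat_lit 5) (nat_lit 33) (nat_lit 5) (nat_lit 32) (nat_lit 5) (nat_lit 403) (nat_lit 390) (nat_lit 227)) (XT.lf (nat_lit 0) (nat_lit 3563203971398) (nat_lit 228) (nat_lit 5604674266924) (nat_lit 76) (nat_lit 4298991292025) (nat_lit 29) (nat_lit 5) (nat_lit 32) (nat_lit 5) (nat_lit 30) (nat_lit 4) (nat_lit 404) (nat_lit 390) (nat_lit 226))) (XT.nd (nat_lit 78) (nat_lit 0) (nat_lit 0) (XT.lf (nat_lit 0) (nat_lit 2889262154343) (nat_lit 76) (nat_lit 4624609920059) (nat_lit 152) (nat_lit 7200535490080) (nat_lit 28) (nat_lit 5) (nat_lit 29) (nat_lit 5) (nat_lit 30) (nat_lit 4) (nat_lit 405) (nat_lit 390) (nat_lit 225)) (XT.lf (nat_lit 0) (nat_lit 12388913906739) (nat_lit 152) (nat_lit 2856754468212) (nat_lit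 0) (nat_lit 853641901704) (nat_lit 28) (nat_lit 5) (nat_lit 30) (nat_lit 4) (nat_lit 28) (nat_lit 4) (nat_lit 406) (nat_lit 390) (nat_lit 224)))))) (XT.nd (nat_lit 468) (nat_lit 456) (nat_lit 0) (XT.nd (nat_lit 234) (nat_lit 228) (nat_lit 0) (XT.nd (nat_lit 78) (nat_lit 76) (nat_lit 0) (XT.lf (nat_lit 0) (nat_lit 851574757291) (nat_lit 152) (nat_lit 9704386276985) (nat_lit 76) (nat_lit 7047807271908) (nat_lit 26) (nat_lit 5) (nat_lit 28) (nat_lit 5) (nat_lit 27) (nat_lit 4) (nat_lit 407) (nat_lit 390) (nat_lit 223)) (XT.nd (nat_lit 78) (nat_lit 0) (nat_lit 0) (XT.lf (nat_lit 0) (nat_lit 1201690002944) (nat_lit 76) (nat_lit 4722478372970) (nat_lit 152) (nat_lit 13352293722554) (nat_lit 25) (nat_lit 5) (nat_lit 26) (nat_lit 5) (nat_lit 27) (nat_lit 4) (nat_lit 408) (nat_lit 390) (nat_lit 222)) (XT.lf (nat_lit 0) (nat_lit 12371318844192) (nat_lit 152) (nat_lit 6396043409196) (nat_lit 0) (nat_lit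 2340647535177) (nat_lit 25) (nat_lit 5) (nat_lit 27) (nat_lit 4) (nat_lit 25) (nat_lit 4) (nat_lit 409) (nat_lit 390) (nat_lit 221)))) (XT.nd (nat_lit 78) (nat_lit 152) (nat_lit 0) (XT.lf (nat_lit 0) (nat_lit 7475099726125) (nat_lit 76) (nat_lit 12844850017966) (nat_lit 76) (nat_lit 2814178708879) (nat_lit 24) (nat_lit 4) (nat_lit 25) (nat_lit 5) (nat_lit 25) (nat_lit 4) (nat_lit 410) (nat_lit 390) (nat_lit 220)) (XT.nd (nat_lit 78) (nat_lit 76) (nat_lit 0) (XT.lf (nat_lit 0) (nat_lit 3991155087727) (nat_lit 152) (nat_lit 1449687870535) (nat_lit 76) (nat_lit 19945958742823) (nat_lit 23) (nat_lit 5) (nat_lit 25) (nat_lit 5) (nat_lit 24) (nat_lit 4) (nat_lit 411) (nat_lit 390) (nat_lit 219)) (XT.lf (nat_lit 0) (nat_lit 12365546532764) (nat_lit 152) (nat_lit 11823048090667) (nat_lit 0) (nat_lit 3643223655195) (nat_lit 22) (nat_lit 5) (nat_lit 24) (nat_lit 4) (nat_lit 22) (nat_lit 4) (nat_lit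 412) (nat_lit 390) (nat_lit 218))))) (XT.nd (nat_lit 234) (nat_lit 228) (nat_lit 0) (XT.nd (nat_lit 78) (nat_lit 152) (nat_lit 0) (XT.lf (nat_lit 0) (nat_lit 5877237681017) (nat_lit 76) (nat_lit 16700698321593) (nat_lit 76) (nat_lit 7978375443983) (nat_lit 21) (nat_lit 4) (nat_lit 22) (nat_lit 5) (nat_lit 22) (nat_lit 4) (nat_lit 413) (nat_lit 390) (nat_lit 217)) (XT.nd (nat_lit 78) (nat_lit 76) (nat_lit 0) (XT.lf (nat_lit 0) (nat_lit 1223830135301) (nat_lit 152) (nat_lit 6091088086747) (nat_lit 76) (nat_lit 26273512626086) (nat_lit 20) (nat_lit 5) (nat_lit 22) (nat_lit 5) (nat_lit 21) (nat_lit 4) (nat_lit 414) (nat_lit 390) (nat_lit 216)) (XT.lf (nat_lit 0) (nat_lit 11861441307810) (nat_lit 152) (nat_lit 20749339472632) (nat_lit 0) (nat_lit 4276812718525) (nat_lit 19) (nat_lit 5) (nat_lit 21) (nat_lit 4) (nat_lit 19) (nat_lit 4) (nat_lit 415) (nat_lit 390) (nat_lit 215)))) (XT.nd (nat_lit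 156) (nat_lit 152) (nat_lit 0) (XT.nd (nat_lit 78) (nat_lit 0) (nat_lit 0) (XT.lf (nat_lit 0) (nat_lit 1524952385477) (nat_lit 76) (nat_lit 23314775821797) (nat_lit 76) (nat_lit 15730147232489) (nat_lit 18) (nat_lit 4) (nat_lit 19) (nat_lit 5) (nat_lit 19) (nat_lit 4) (nat_lit 416) (nat_lit 390) (nat_lit 214)) (XT.lf (nat_lit 0) (nat_lit 29472330833327) (nat_lit 76) (nat_lit 11377051871595) (nat_lit 76) (nat_lit 3792423282266) (nat_lit 18) (nat_lit 4) (nat_lit 19) (nat_lit 5) (nat_lit 19) (nat_lit 4) (nat_lit 417) (nat_lit 390) (nat_lit 213))) (XT.nd (nat_lit 78) (nat_lit 0) (nat_lit 0) (XT.lf (nat_lit 0) (nat_lit 9733864091979) (nat_lit 152) (nat_lit 36288042213251) (nat_lit 0) (nat_lit 3138534883852) (nat_lit 16) (nat_lit 5) (nat_lit 18) (nat_lit 4) (nat_lit 16) (nat_lit 4) (nat_lit 418) (nat_lit 390) (nat_lit 212)) (XT.lf (nat_lit 0) (nat_lit 26273296393324) (nat_lit 152) (nat_lit 8172648295758)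 (nat_lit 0) (nat_lit 19677967185183) (nat_lit 16) (nat_lit 5) (nat_lit 18) (nat_lit 4) (nat_lit 16) (nat_lit 4) (nat_lit 419) (nat_lit 390) (nat_lit 211))))))) (XT.nd (nat_lit 1014) (nat_lit 152) (nat_lit 0) (XT.nd (nat_lit 468) (nat_lit 304) (nat_lit 0) (XT.nd (nat_lit 234) (nat_lit 228) (nat_lit 0) (XT.nd (nat_lit 78) (nat_lit 152) (nat_lit 0) (XT.lf (nat_lit 0) (nat_lit 26521150964904) (nat_lit 76) (nat_lit 19870676879869) (nat_lit 76) (nat_lit 13275347671716) (nat_lit 15) (nat_lit 4) (nat_lit 16) (nat_lit 5) (nat_lit 16) (nat_lit 4) (nat_lit 420) (nat_lit 390) (nat_lit 210)) (XT.nd (nat_lit 78) (nat_lit 0) (nat_lit 0) (XT.lf (nat_lit 0) (nat_lit 1311747776285) (nat_lit 76) (nat_lit 2365962449039) (nat_lit 152) (nat_lit 62267285029692) (nat_lit 13) (nat_lit 5) (nat_lit 14) (nat_lit 5) (nat_lit 15) (nat_lit 4) (nat_lit 421) (nat_lit 390) (nat_lit 209)) (XT.lf (nat_lit 0) (nat_lit 24365311879223)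 (nat_lit 152) (nat_lit 29691499989089) (nat_lit 0) (nat_lit 18630243002552) (nat_lit 13) (nat_lit 5) (nat_lit 15) (nat_lit 4) (nat_lit 13) (nat_lit 4) (nat_lit 422) (nat_lit 390) (nat_lit 208)))) (XT.nd (nat_lit 78) (nat_lit 152) (nat_lit 0) (XT.lf (nat_lit 0) (nat_lit 11393140936386) (nat_lit 76) (nat_lit 37347343393537) (nat_lit 76) (nat_lit 31612274516859) (nat_lit 12) (nat_lit 4) (nat_lit 13) (nat_lit 5) (nat_lit 13) (nat_lit 4) (nat_lit 423) (nat_lit 390) (nat_lit 207)) (XT.nd (nat_lit 78) (nat_lit 152) (nat_lit 0) (XT.lf (nat_lit 0) (nat_lit 61977397715259) (nat_lit 76) (nat_lit 16346590614166) (nat_lit 76) (nat_lit 10611521737482) (nat_lit 12) (nat_lit 4) (nat_lit 13) (nat_lit 5) (nat_lit 13) (nat_lit 4) (nat_lit 424) (nat_lit 390) (nat_lit 206)) (XT.lf (nat_lit 0) (nat_lit 13673499133394) (nat_lit 152) (nat_lit 76160668633696) (nat_lit 0) (nat_lit 8686482718882) (nat_lit 10) (nat_lit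 5) (nat_lit 12) (nat_lit 4) (nat_lit 10) (nat_lit 4) (nat_lit 425) (nat_lit 390) (nat_lit 205))))) (XT.nd (nat_lit 234) (nat_lit 228) (nat_lit 0) (XT.nd (nat_lit 78) (nat_lit 76) (nat_lit 0) (XT.lf (nat_lit 0) (nat_lit 42769542091190) (nat_lit 152) (nat_lit 28577494617498) (nat_lit 0) (nat_lit 37782525676674) (nat_lit 10) (nat_lit 5) (nat_lit 12) (nat_lit 4) (nat_lit 10) (nat_lit 4) (nat_lit 426) (nat_lit 390) (nat_lit 204)) (XT.nd (nat_lit 78) (nat_lit 0) (nat_lit 0) (XT.lf (nat_lit 0) (nat_lit 28698054788645) (nat_lit 76) (nat_lit 48720261954016) (nat_lit 76) (nat_lit 43733245539497) (nat_lit 9) (nat_lit 4) (nat_lit 10) (nat_lit 5) (nat_lit 10) (nat_lit 4) (nat_lit 427) (nat_lit 390) (nat_lit 203)) (XT.lf (nat_lit 0) (nat_lit 97776657307528) (nat_lit 76) (nat_lit 20981573866566) (nat_lit 76) (nat_lit 15994557452044) (nat_lit 9) (nat_lit 4) (nat_lit 10) (nat_lit 5) (nat_lit 10) (nat_lit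 4) (nat_lit 428) (nat_lit 390) (nat_lit 202)))) (XT.nd (nat_lit 156) (nat_lit 76) (nat_lit 0) (XT.nd (nat_lit 78) (nat_lit 0) (nat_lit 0) (XT.lf (nat_lit 0) (nat_lit 16218332963789) (nat_lit 152) (nat_lit 121935875651137) (nat_lit 0) (nat_lit 11881796951159) (nat_lit 7) (nat_lit 5) (nat_lit 9) (nat_lit 4) (nat_lit 7) (nat_lit 4) (nat_lit 429) (nat_lit 390) (nat_lit 201)) (XT.lf (nat_lit 0) (nat_lit 54649624863920) (nat_lit 152) (nat_lit 62081143600856) (nat_lit 0) (nat_lit 50313088851288) (nat_lit 7) (nat_lit 5) (nat_lit 9) (nat_lit 4) (nat_lit 7) (nat_lit 4) (nat_lit 430) (nat_lit 390) (nat_lit 200))) (XT.nd (nat_lit 78) (nat_lit 0) (nat_lit 0) (XT.lf (nat_lit 0) (nat_lit 7411633086552) (nat_lit 76) (nat_lit 91740877383256) (nat_lit 76) (nat_lit 87404341370622) (nat_lit 6) (nat_lit 4) (nat_lit 7) (nat_lit 5) (nat_lit 7) (nat_lit 4) (nat_lit 431) (nat_lit 390) (nat_lit 199)) (XT.lf (nat_lit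 0) (nat_lit 94305400256700) (nat_lit 76) (nat_lit 59270579348079) (nat_lit 76) (nat_lit 54934043335444) (nat_lit 6) (nat_lit 4) (nat_lit 7) (nat_lit 5) (nat_lit 7) (nat_lit 4) (nat_lit 432) (nat_lit 390) (nat_lit 198)))))) (XT.nd (nat_lit 49998) (nat_lit 0) (nat_lit 2508) (XT.nd (nat_lit 234) (nat_lit 76) (nat_lit 0) (XT.nd (nat_lit 78) (nat_lit 76) (nat_lit 0) (XT.lf (nat_lit 0) (nat_lit 194233232502316) (nat_lit 76) (nat_lit 21929736607653) (nat_lit 76) (nat_lit 17593200595017) (nat_lit 6) (nat_lit 4) (nat_lit 7) (nat_lit 5) (nat_lit 7) (nat_lit 4) (nat_lit 433) (nat_lit 390) (nat_lit 197)) (XT.nd (nat_lit 78) (nat_lit 0) (nat_lit 0) (XT.lf (nat_lit 0) (nat_lit 26169784349936) (nat_lit 76) (nat_lit 213601464128716) (nat_lit 0) (nat_lit 22398883469382) (nat_lit 5) (nat_lit 5) (nat_lit 6) (nat_lit 4) (nat_lit 5) (nat_lit 4) (nat_lit 434) (nat_lit 390) (nat_lit 196)) (XT.lf (nat_lit 0) (nat_lit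 77904632899060) (nat_lit 76) (nat_lit 142200864217223) (nat_lit 0) (nat_lit 74133732018505) (nat_lit 5) (nat_lit 5) (nat_lit 6) (nat_lit 4) (nat_lit 5) (nat_lit 4) (nat_lit 435) (nat_lit 390) (nat_lit 195)))) (XT.nd (nat_lit 49608) (nat_lit 0) (nat_lit 2888) (XT.nd (nat_lit 78) (nat_lit 76) (nat_lit 0) (XT.lf (nat_lit 0) (nat_lit 137399708730534) (nat_lit 76) (nat_lit 60090174319048) (nat_lit 0) (nat_lit 133628807849978) (nat_lit 5) (nat_lit 5) (nat_lit 6) (nat_lit 4) (nat_lit 5) (nat_lit 4) (nat_lit 436) (nat_lit 390) (nat_lit 194)) (XT.lf (nat_lit 0) (nat_lit 37692792063231) (nat_lit 76) (nat_lit 169687032012742) (nat_lit 76) (nat_lit 165916131132186) (nat_lit 4) (nat_lit 4) (nat_lit 5) (nat_lit 5) (nat_lit 5) (nat_lit 4) (nat_lit 437) (nat_lit 390) (nat_lit 193))) (XT.nd (nat_lit 78) (nat_lit 0) (nat_lit 0) (XT.lf (nat_lit 0) (nat_lit 751238861179) (nat_lit 380) (nat_lit 886455140177)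 (nat_lit 380) (nat_lit 886455140177) (nat_lit 42) (nat_lit 3) (nat_lit 47) (nat_lit 3) (nat_lit 47) (nat_lit 5) (nat_lit 391) (nat_lit 391) (nat_lit 238)) (XT.lf (nat_lit 76) (nat_lit 812999880756) (nat_lit 0) (nat_lit 835828264494) (nat_lit 380) (nat_lit 3773042819989) (nat_lit 43) (nat_lit 5) (nat_lit 42) (nat_lit 3) (nat_lit 47) (nat_lit 5) (nat_lit 392) (nat_lit 391) (nat_lit 237))))) (XT.nd (nat_lit 234) (nat_lit 456) (nat_lit 0) (XT.nd (nat_lit 78) (nat_lit 0) (nat_lit 0) (XT.lf (nat_lit 0) (nat_lit 1995778720393) (nat_lit 304) (nat_lit 1937503549925) (nat_lit 380) (nat_lit 1891400141097) (nat_lit 43) (nat_lit 5) (nat_lit 47) (nat_lit 5) (nat_lit 48) (nat_lit 5) (nat_lit 393) (nat_lit 391) (nat_lit 236)) (XT.nd (nat_lit 78) (nat_lit 0) (nat_lit 76) (XT.lf (nat_lit 76) (nat_lit 1201756436887) (nat_lit 0) (nat_lit 1282578961775) (nat_lit 380) (nat_lit 3790145648327) (nat_lit 44) (nat_lit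 5) (nat_lit 43) (nat_lit 5) (nat_lit 48) (nat_lit 5) (nat_lit 394) (nat_lit 391) (nat_lit 235)) (XT.lf (nat_lit 0) (nat_lit 3225392070589) (nat_lit 304) (nat_lit 1824841186399) (nat_lit 76) (nat_lit 1714633747124) (nat_lit 44) (nat_lit 5) (nat_lit 48) (nat_lit 5) (nat_lit 45) (nat_lit 5) (nat_lit 395) (nat_lit 391) (nat_lit 234)))) (XT.nd (nat_lit 156) (nat_lit 228) (nat_lit 0) (XT.nd (nat_lit 78) (nat_lit 0) (nat_lit 0) (XT.lf (nat_lit 0) (nat_lit 2029861905462) (nat_lit 304) (nat_lit 2192872779022) (nat_lit 380) (nat_lit 3084307054142) (nat_lit 40) (nat_lit 5) (nat_lit 44) (nat_lit 5) (nat_lit 45) (nat_lit 5) (nat_lit 396) (nat_lit 391) (nat_lit 233)) (XT.lf (nat_lit 0) (nat_lit 5514873068654) (nat_lit 380) (nat_lit 1298181496330) (nat_lit 76) (nat_lit 1095708961604) (nat_lit 40) (nat_lit 5) (nat_lit 45) (nat_lit 5) (nat_lit 41) (nat_lit 5) (nat_lit 397) (nat_lit 391) (nat_lit 232))) (XT.nd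 (nat_lit 78) (nat_lit 76) (nat_lit 0) (XT.lf (nat_lit 0) (nat_lit 3483356566854) (nat_lit 152) (nat_lit 3766136523810) (nat_lit 228) (nat_lit 1313951360050) (nat_lit 38) (nat_lit 5) (nat_lit 40) (nat_lit 5) (nat_lit 41) (nat_lit 5) (nat_lit 398) (nat_lit 391) (nat_lit 231)) (XT.lf (nat_lit 0) (nat_lit 5481336602) (nat_lit 228) (nat_lit 178374505089) (nat_lit 76) (nat_lit 9122255375951) (nat_lit 37) (nat_lit 5) (nat_lit 40) (nat_lit 5) (nat_lit 38) (nat_lit 5) (nat_lit 399) (nat_lit 391) (nat_lit 230))))))))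
noncomputable def xc114 : XT := (XT.nd (nat_lit 2028) (nat_lit 608) (nat_lit 0) (XT.nd (nat_lit 1014) (nat_lit 836) (nat_lit 0) (XT.nd (nat_lit 468) (nat_lit 456) (nat_lit 0) (XT.nd (nat_lit 234) (nat_lit 304) (nat_lit 0) (XT.nd (nat_lit 78) (nat_lit 152) (nat_lit 0) (XT.lf (nat_lit 0) (nat_lit 1811210199145) (nat_lit 228) (nat_lit 4368266702947) (nat_lit 76) (nat_lit 3907880002710) (nat_lit 35) (nat_lit 5) (nat_lit 38) (nat_lit 5) (nat_lit 36) (nat_lit 5) (nat_lit 400) (nat_lit 391) (nat_lit 229)) (XT.nd (nat_lit 78) (nat_lit 0) (nat_lit 0) (XT.lf (nat_lit 0) (nat_lit 1676922874319) (nat_lit 152) (nat_lit 2298836484490) (nat_lit 228) (nat_lit 6996835941065) (nat_lit 33) (nat_lit 5) (nat_lit 35) (nat_lit 5) (nat_lit 36) (nat_lit 5) (nat_lit 401) (nat_lit 391) (nat_lit 228)) (XT.lf (nat_lit 0) (nat_lit 6793807981712) (nat_lit 228) (nat_lit 2937019649500) (nat_lit 76) (nat_lit 2210469259601)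 (nat_lit 33) (nat_lit 5) (nat_lit 36) (nat_lit 5) (nat_lit 34) (nat_lit 4) (nat_lit 402) (nat_lit 391) (nat_lit 227)))) (XT.nd (nat_lit 78) (nat_lit 228) (nat_lit 0) (XT.lf (nat_lit 0) (nat_lit 4682863532942) (nat_lit 76) (nat_lit 5655076161652) (nat_lit 152) (nat_lit 2671857656318) (nat_lit 32) (nat_lit 5) (nat_lit 33) (nat_lit 5) (nat_lit 34) (nat_lit 4) (nat_lit 403) (nat_lit 391) (nat_lit 226)) (XT.nd (nat_lit 78) (nat_lit 152) (nat_lit 0) (XT.lf (nat_lit 0) (nat_lit 320364833929) (nat_lit 152) (nat_lit 454295863020) (nat_lit 76) (nat_lit 13438698973342) (nat_lit 31) (nat_lit 5) (nat_lit 33) (nat_lit 5) (nat_lit 32) (nat_lit 5) (nat_lit 404) (nat_lit 391) (nat_lit 225)) (XT.lf (nat_lit 0) (nat_lit 4097684568598) (nat_lit 228) (nat_lit 6445375404339) (nat_lit 76) (nat_lit 4943839986739) (nat_lit 29) (nat_lit 5) (nat_lit 32) (nat_lit 5) (nat_lit 30) (nat_lit 4) (nat_lit 405) (nat_lit 391)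 (nat_lit 224))))) (XT.nd (nat_lit 234) (nat_lit 228) (nat_lit 0) (XT.nd (nat_lit 78) (nat_lit 152) (nat_lit 0) (XT.lf (nat_lit 0) (nat_lit 3322651479999) (nat_lit 76) (nat_lit 5318301406963) (nat_lit 152) (nat_lit 8280615811983) (nat_lit 28) (nat_lit 5) (nat_lit 29) (nat_lit 5) (nat_lit 30) (nat_lit 4) (nat_lit 406) (nat_lit 391) (nat_lit 223)) (XT.nd (nat_lit 78) (nat_lit 152) (nat_lit 0) (XT.lf (nat_lit 0) (nat_lit 14247250994007) (nat_lit 152) (nat_lit 3285267636124) (nat_lit 0) (nat_lit 981688187835) (nat_lit 28) (nat_lit 5) (nat_lit 30) (nat_lit 4) (nat_lit 28) (nat_lit 4) (nat_lit 407) (nat_lit 391) (nat_lit 222)) (XT.lf (nat_lit 0) (nat_lit 979310972125) (nat_lit 152) (nat_lit 11160044216196) (nat_lit 76) (nat_lit 8104978363603) (nat_lit 26) (nat_lit 5) (nat_lit 28) (nat_lit 5) (nat_lit 27) (nat_lit 4) (nat_lit 408) (nat_lit 391) (nat_lit 221)))) (XT.nd (nat_lit 156) (nat_lit 152)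 (nat_lit 0) (XT.nd (nat_lit 78) (nat_lit 0) (nat_lit 0) (XT.lf (nat_lit 0) (nat_lit 1381943505615) (nat_lit 76) (nat_lit 5430850127857) (nat_lit 152) (nat_lit 15355137779590) (nat_lit 25) (nat_lit 5) (nat_lit 26) (nat_lit 5) (nat_lit 27) (nat_lit 4) (nat_lit 409) (nat_lit 391) (nat_lit 220)) (XT.lf (nat_lit 0) (nat_lit 14227016671877) (nat_lit 152) (nat_lit 7355449918521) (nat_lit 0) (nat_lit 2691744666292) (nat_lit 25) (nat_lit 5) (nat_lit 27) (nat_lit 4) (nat_lit 25) (nat_lit 4) (nat_lit 410) (nat_lit 391) (nat_lit 219))) (XT.nd (nat_lit 78) (nat_lit 76) (nat_lit 0) (XT.lf (nat_lit 0) (nat_lit 8596364687003) (nat_lit 76) (nat_lit 14771577519700) (nat_lit 76) (nat_lit 3236305514061) (nat_lit 24) (nat_lit 4) (nat_lit 25) (nat_lit 5) (nat_lit 25) (nat_lit 4) (nat_lit 411) (nat_lit 391) (nat_lit 218)) (XT.lf (nat_lit 0) (nat_lit 4589828351797) (nat_lit 152) (nat_lit 1667141049321) (nat_lit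 76) (nat_lit 22937852554992) (nat_lit 23) (nat_lit 5) (nat_lit 25) (nat_lit 5) (nat_lit 24) (nat_lit 4) (nat_lit 412) (nat_lit 391) (nat_lit 217)))))) (XT.nd (nat_lit 468) (nat_lit 456) (nat_lit 0) (XT.nd (nat_lit 234) (nat_lit 152) (nat_lit 0) (XT.nd (nat_lit 78) (nat_lit 152) (nat_lit 0) (XT.lf (nat_lit 0) (nat_lit 14220378513578) (nat_lit 152) (nat_lit 13596505302461) (nat_lit 0) (nat_lit 4189707204248) (nat_lit 22) (nat_lit 5) (nat_lit 24) (nat_lit 4) (nat_lit 22) (nat_lit 4) (nat_lit 413) (nat_lit 391) (nat_lit 216)) (XT.nd (nat_lit 78) (nat_lit 76) (nat_lit 0) (XT.lf (nat_lit 0) (nat_lit 6758823334893) (nat_lit 76) (nat_lit 19205803068961) (nat_lit 76) (nat_lit 9175131759600) (nat_lit 21) (nat_lit 4) (nat_lit 22) (nat_lit 5) (nat_lit 22) (nat_lit 4) (nat_lit 414) (nat_lit 391) (nat_lit 215)) (XT.lf (nat_lit 0) (nat_lit 1407404656373) (nat_lit 152) (nat_lit 7004751298184) (nat_lit 76)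 (nat_lit 30214539520681) (nat_lit 20) (nat_lit 5) (nat_lit 22) (nat_lit 5) (nat_lit 21) (nat_lit 4) (nat_lit 415) (nat_lit 391) (nat_lit 214)))) (XT.nd (nat_lit 78) (nat_lit 76) (nat_lit 0) (XT.lf (nat_lit 0) (nat_lit 13640657504751) (nat_lit 152) (nat_lit 23861740391944) (nat_lit 0) (nat_lit 4918334627002) (nat_lit 19) (nat_lit 5) (nat_lit 21) (nat_lit 4) (nat_lit 19) (nat_lit 4) (nat_lit 416) (nat_lit 391) (nat_lit 213)) (XT.nd (nat_lit 78) (nat_lit 0) (nat_lit 0) (XT.lf (nat_lit 0) (nat_lit 1753695244809) (nat_lit 76) (nat_lit 26811992194288) (nat_lit 76) (nat_lit 18089669316521) (nat_lit 18) (nat_lit 4) (nat_lit 19) (nat_lit 5) (nat_lit 19) (nat_lit 4) (nat_lit 417) (nat_lit 391) (nat_lit 212)) (XT.lf (nat_lit 0) (nat_lit 33893180459640) (nat_lit 76) (nat_lit 13083609651657) (nat_lit 76) (nat_lit 4361286773874) (nat_lit 18) (nat_lit 4) (nat_lit 19) (nat_lit 5) (nat_lit 19) (nat_lit 4)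 (nat_lit 418) (nat_lit 391) (nat_lit 211))))) (XT.nd (nat_lit 234) (nat_lit 228) (nat_lit 0) (XT.nd (nat_lit 78) (nat_lit 76) (nat_lit 0) (XT.lf (nat_lit 0) (nat_lit 11193943706439) (nat_lit 152) (nat_lit 41731248543855) (nat_lit 0) (nat_lit 3609315117051) (nat_lit 16) (nat_lit 5) (nat_lit 18) (nat_lit 4) (nat_lit 16) (nat_lit 4) (nat_lit 419) (nat_lit 391) (nat_lit 210)) (XT.nd (nat_lit 78) (nat_lit 76) (nat_lit 0) (XT.lf (nat_lit 0) (nat_lit 30214290852898) (nat_lit 152) (nat_lit 9398545538919) (nat_lit 0) (nat_lit 22629662263500) (nat_lit 16) (nat_lit 5) (nat_lit 18) (nat_lit 4) (nat_lit 16) (nat_lit 4) (nat_lit 420) (nat_lit 391) (nat_lit 209)) (XT.lf (nat_lit 0) (nat_lit 30499323610788) (nat_lit 76) (nat_lit 22851278411249) (nat_lit 76) (nat_lit 15266649821842) (nat_lit 15) (nat_lit 4) (nat_lit 16) (nat_lit 5) (nat_lit 16) (nat_lit 4) (nat_lit 421) (nat_lit 391) (nat_lit 208)))) (XT.nd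 (nat_lit 156) (nat_lit 76) (nat_lit 0) (XT.nd (nat_lit 78) (nat_lit 0) (nat_lit 0) (XT.lf (nat_lit 0) (nat_lit 1508509943877) (nat_lit 76) (nat_lit 2720856815793) (nat_lit 152) (nat_lit 71607377783517) (nat_lit 13) (nat_lit 5) (nat_lit 14) (nat_lit 5) (nat_lit 15) (nat_lit 4) (nat_lit 422) (nat_lit 391) (nat_lit 207)) (XT.lf (nat_lit 0) (nat_lit 28020108661604) (nat_lit 152) (nat_lit 34145224986403) (nat_lit 0) (nat_lit 21424779453412) (nat_lit 13) (nat_lit 5) (nat_lit 15) (nat_lit 4) (nat_lit 13) (nat_lit 4) (nat_lit 423) (nat_lit 391) (nat_lit 206))) (XT.nd (nat_lit 78) (nat_lit 0) (nat_lit 0) (XT.lf (nat_lit 0) (nat_lit 13102112077845) (nat_lit 76) (nat_lit 42949444902040) (nat_lit 76) (nat_lit 36354115693842) (nat_lit 12) (nat_lit 4) (nat_lit 13) (nat_lit 5) (nat_lit 13) (nat_lit 4) (nat_lit 424) (nat_lit 391) (nat_lit 205)) (XT.lf (nat_lit 0) (nat_lit 71274007373418) (nat_lit 76) (nat_lit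 18798579205832) (nat_lit 76) (nat_lit 12203249997631) (nat_lit 12) (nat_lit 4) (nat_lit 13) (nat_lit 5) (nat_lit 13) (nat_lit 4) (nat_lit 425) (nat_lit 391) (nat_lit 204))))))) (XT.nd (nat_lit 1014) (nat_lit 0) (nat_lit 0) (XT.nd (nat_lit 468) (nat_lit 228) (nat_lit 0) (XT.nd (nat_lit 234) (nat_lit 152) (nat_lit 0) (XT.nd (nat_lit 78) (nat_lit 76) (nat_lit 0) (XT.lf (nat_lit 0) (nat_lit 15724524003834) (nat_lit 152) (nat_lit 87584768927836) (nat_lit 0) (nat_lit 9989455127134) (nat_lit 10) (nat_lit 5) (nat_lit 12) (nat_lit 4) (nat_lit 10) (nat_lit 4) (nat_lit 426) (nat_lit 391) (nat_lit 203)) (XT.nd (nat_lit 78) (nat_lit 76) (nat_lit 0) (XT.lf (nat_lit 0) (nat_lit 49184973405243) (nat_lit 152) (nat_lit 32864118809328) (nat_lit 0) (nat_lit 43449904528539) (nat_lit 10) (nat_lit 5) (nat_lit 12) (nat_lit 4) (nat_lit 10) (nat_lit 4) (nat_lit 427) (nat_lit 391) (nat_lit 202)) (XT.lf (nat_lit 0)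 (nat_lit 33002763007700) (nat_lit 76) (nat_lit 56028301246717) (nat_lit 76) (nat_lit 50293232370011) (nat_lit 9) (nat_lit 4) (nat_lit 10) (nat_lit 5) (nat_lit 10) (nat_lit 4) (nat_lit 428) (nat_lit 391) (nat_lit 201)))) (XT.nd (nat_lit 78) (nat_lit 152) (nat_lit 0) (XT.lf (nat_lit 0) (nat_lit 112443155904317) (nat_lit 76) (nat_lit 24128809946202) (nat_lit 76) (nat_lit 18393741069494) (nat_lit 9) (nat_lit 4) (nat_lit 10) (nat_lit 5) (nat_lit 10) (nat_lit 4) (nat_lit 429) (nat_lit 391) (nat_lit 200)) (XT.nd (nat_lit 78) (nat_lit 0) (nat_lit 0) (XT.lf (nat_lit 0) (nat_lit 18651082908683) (nat_lit 152) (nat_lit 140226256998115) (nat_lit 0) (nat_lit 13664066494152) (nat_lit 7) (nat_lit 5) (nat_lit 9) (nat_lit 4) (nat_lit 7) (nat_lit 4) (nat_lit 430) (nat_lit 391) (nat_lit 199)) (XT.lf (nat_lit 0) (nat_lit 62847068593791) (nat_lit 152) (nat_lit 71393315140383) (nat_lit 0) (nat_lit 57860052179258)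 (nat_lit 7) (nat_lit 5) (nat_lit 9) (nat_lit 4) (nat_lit 7) (nat_lit 4) (nat_lit 431) (nat_lit 391) (nat_lit 198))))) (XT.nd (nat_lit 234) (nat_lit 152) (nat_lit 0) (XT.nd (nat_lit 78) (nat_lit 0) (nat_lit 0) (XT.lf (nat_lit 0) (nat_lit 8523378050110) (nat_lit 76) (nat_lit 105502008990439) (nat_lit 76) (nat_lit 100514992575906) (nat_lit 6) (nat_lit 4) (nat_lit 7) (nat_lit 5) (nat_lit 7) (nat_lit 4) (nat_lit 432) (nat_lit 391) (nat_lit 197)) (XT.nd (nat_lit 78) (nat_lit 0) (nat_lit 0) (XT.lf (nat_lit 0) (nat_lit 108451210295705) (nat_lit 76) (nat_lit 68161166250025) (nat_lit 76) (nat_lit 63174149835490) (nat_lit 6) (nat_lit 4) (nat_lit 7) (nat_lit 5) (nat_lit 7) (nat_lit 4) (nat_lit 433) (nat_lit 391) (nat_lit 196)) (XT.lf (nat_lit 0) (nat_lit 223368217378097) (nat_lit 76) (nat_lit 25219197098571) (nat_lit 76) (nat_lit 20232180684035) (nat_lit 6) (nat_lit 4) (nat_lit 7) (nat_lit 5) (nat_lit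 7) (nat_lit 4) (nat_lit 434) (nat_lit 391) (nat_lit 195)))) (XT.nd (nat_lit 156) (nat_lit 76) (nat_lit 0) (XT.nd (nat_lit 78) (nat_lit 0) (nat_lit 0) (XT.lf (nat_lit 0) (nat_lit 30095252002640) (nat_lit 76) (nat_lit 245641683747568) (nat_lit 0) (nat_lit 25758715990000) (nat_lit 5) (nat_lit 5) (nat_lit 6) (nat_lit 4) (nat_lit 5) (nat_lit 4) (nat_lit 435) (nat_lit 391) (nat_lit 194)) (XT.lf (nat_lit 0) (nat_lit 89590327834105) (nat_lit 76) (nat_lit 163530993849410) (nat_lit 0) (nat_lit 85253791821465) (nat_lit 5) (nat_lit 5) (nat_lit 6) (nat_lit 4) (nat_lit 5) (nat_lit 4) (nat_lit 436) (nat_lit 391) (nat_lit 193))) (XT.nd (nat_lit 78) (nat_lit 76) (nat_lit 0) (XT.lf (nat_lit 0) (nat_lit 158009665040274) (nat_lit 76) (nat_lit 69103700466562) (nat_lit 0) (nat_lit 153673129027633) (nat_lit 5) (nat_lit 5) (nat_lit 6) (nat_lit 4) (nat_lit 5) (nat_lit 4) (nat_lit 437) (nat_lit 391) (nat_lit 192))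 (XT.lf (nat_lit 0) (nat_lit 43346710873046) (nat_lit 76) (nat_lit 195140086814478) (nat_lit 76) (nat_lit 190803550801837) (nat_lit 4) (nat_lit 4) (nat_lit 5) (nat_lit 5) (nat_lit 5) (nat_lit 4) (nat_lit 438) (nat_lit 391) (nat_lit 191)))))) (XT.nd (nat_lit 49920) (nat_lit 0) (nat_lit 2128) (XT.nd (nat_lit 49608) (nat_lit 0) (nat_lit 2736) (XT.nd (nat_lit 49452) (nat_lit 0) (nat_lit 2888) (XT.lf (nat_lit 0) (nat_lit 180430997522820) (nat_lit 76) (nat_lit 154216741597052) (nat_lit 76) (nat_lit 149880205584410) (nat_lit 4) (nat_lit 4) (nat_lit 5) (nat_lit 5) (nat_lit 5) (nat_lit 4) (nat_lit 439) (nat_lit 391) (nat_lit 190)) (XT.nd (nat_lit 78) (nat_lit 0) (nat_lit 0) (XT.lf (nat_lit 0) (nat_lit 863924692637) (nat_lit 380) (nat_lit 1019423409891) (nat_lit 380) (nat_lit 1019423409891) (nat_lit 42) (nat_lit 3) (nat_lit 47) (nat_lit 3) (nat_lit 47) (nat_lit 5) (nat_lit 392) (nat_lit 392) (nat_lit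 236)) (XT.lf (nat_lit 76) (nat_lit 934949865375) (nat_lit 0) (nat_lit 961202505735) (nat_lit 380) (nat_lit 4338999238304) (nat_lit 43) (nat_lit 5) (nat_lit 42) (nat_lit 3) (nat_lit 47) (nat_lit 5) (nat_lit 393) (nat_lit 392) (nat_lit 235)))) (XT.nd (nat_lit 156) (nat_lit 228) (nat_lit 0) (XT.nd (nat_lit 78) (nat_lit 0) (nat_lit 0) (XT.lf (nat_lit 0) (nat_lit 2295145531937) (nat_lit 304) (nat_lit 2228129079647) (nat_lit 380) (nat_lit 2175110161021) (nat_lit 43) (nat_lit 5) (nat_lit 47) (nat_lit 5) (nat_lit 48) (nat_lit 5) (nat_lit 394) (nat_lit 392) (nat_lit 234)) (XT.lf (nat_lit 76) (nat_lit 1382019905062) (nat_lit 0) (nat_lit 1474965806539) (nat_lit 380) (nat_lit 4358667491965) (nat_lit 44) (nat_lit 5) (nat_lit 43) (nat_lit 5) (nat_lit 48) (nat_lit 5) (nat_lit 395) (nat_lit 392) (nat_lit 233))) (XT.nd (nat_lit 78) (nat_lit 304) (nat_lit 0) (XT.lf (nat_lit 0) (nat_lit 3709200883889) (nat_lit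 304) (nat_lit 2098567361635) (nat_lit 76) (nat_lit 1971828808798) (nat_lit 44) (nat_lit 5) (nat_lit 48) (nat_lit 5) (nat_lit 45) (nat_lit 5) (nat_lit 396) (nat_lit 392) (nat_lit 232)) (XT.lf (nat_lit 0) (nat_lit 2334341193882) (nat_lit 304) (nat_lit 2521803695741) (nat_lit 380) (nat_lit 3546953109427) (nat_lit 40) (nat_lit 5) (nat_lit 44) (nat_lit 5) (nat_lit 45) (nat_lit 5) (nat_lit 397) (nat_lit 392) (nat_lit 231))))) (XT.nd (nat_lit 234) (nat_lit 380) (nat_lit 0) (XT.nd (nat_lit 78) (nat_lit 228) (nat_lit 0) (XT.lf (nat_lit 0) (nat_lit 6342104031102) (nat_lit 380) (nat_lit 1492908718201) (nat_lit 76) (nat_lit 1260065305951) (nat_lit 40) (nat_lit 5) (nat_lit 45) (nat_lit 5) (nat_lit 41) (nat_lit 5) (nat_lit 398) (nat_lit 392) (nat_lit 230)) (XT.nd (nat_lit 78) (nat_lit 76) (nat_lit 0) (XT.lf (nat_lit 0) (nat_lit 4005860054344) (nat_lit 152) (nat_lit 4331057001890) (nat_lit 228) (nat_lit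 1511044061791) (nat_lit 38) (nat_lit 5) (nat_lit 40) (nat_lit 5) (nat_lit 41) (nat_lit 5) (nat_lit 399) (nat_lit 392) (nat_lit 229)) (XT.lf (nat_lit 0) (nat_lit 6303538888) (nat_lit 228) (nat_lit 205130678537) (nat_lit 76) (nat_lit 10490593682595) (nat_lit 37) (nat_lit 5) (nat_lit 40) (nat_lit 5) (nat_lit 38) (nat_lit 5) (nat_lit 400) (nat_lit 392) (nat_lit 228)))) (XT.nd (nat_lit 156) (nat_lit 76) (nat_lit 0) (XT.nd (nat_lit 78) (nat_lit 152) (nat_lit 0) (XT.lf (nat_lit 0) (nat_lit 2082891730693) (nat_lit 228) (nat_lit 5023506705953) (nat_lit 76) (nat_lit 4494062003625) (nat_lit 35) (nat_lit 5) (nat_lit 38) (nat_lit 5) (nat_lit 36) (nat_lit 5) (nat_lit 401) (nat_lit 392) (nat_lit 227)) (XT.lf (nat_lit 0) (nat_lit 1928461307792) (nat_lit 152) (nat_lit 2643661956392) (nat_lit 228) (nat_lit 8046361330437) (nat_lit 33) (nat_lit 5) (nat_lit 35) (nat_lit 5) (nat_lit 36) (nat_lit 5) (nat_lit 402)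 (nat_lit 392) (nat_lit 226))) (XT.nd (nat_lit 78) (nat_lit 76) (nat_lit 0) (XT.lf (nat_lit 0) (nat_lit 7812879180348) (nat_lit 228) (nat_lit 3377572594728) (nat_lit 76) (nat_lit 2542039649153) (nat_lit 33) (nat_lit 5) (nat_lit 36) (nat_lit 5) (nat_lit 34) (nat_lit 4) (nat_lit 403) (nat_lit 392) (nat_lit 225)) (XT.lf (nat_lit 0) (nat_lit 5385293064981) (nat_lit 76) (nat_lit 6503337585089) (nat_lit 152) (nat_lit 3072636303287) (nat_lit 32) (nat_lit 5) (nat_lit 33) (nat_lit 5) (nat_lit 34) (nat_lit 4) (nat_lit 404) (nat_lit 392) (nat_lit 224))))))))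
noncomputable def xc115 : XT := (XT.nd (nat_lit 2106) (nat_lit 228) (nat_lit 0) (XT.nd (nat_lit 1014) (nat_lit 912) (nat_lit 0) (XT.nd (nat_lit 468) (nat_lit 456) (nat_lit 0) (XT.nd (nat_lit 234) (nat_lit 228) (nat_lit 0) (XT.nd (nat_lit 78) (nat_lit 228) (nat_lit 0) (XT.lf (nat_lit 0) (nat_lit 368419560190) (nat_lit 152) (nat_lit 522440240534) (nat_lit 76) (nat_lit 15454503819934) (nat_lit 31) (nat_lit 5) (nat_lit 33) (nat_lit 5) (nat_lit 32) (nat_lit 5) (nat_lit 405) (nat_lit 392) (nat_lit 223)) (XT.nd (nat_lit 78) (nat_lit 76) (nat_lit 0) (XT.lf (nat_lit 0) (nat_lit 4712337255014) (nat_lit 228) (nat_lit 7412181713007) (nat_lit 76) (nat_lit 5685415985437) (nat_lit 29) (nat_lit 5) (nat_lit 32) (nat_lit 5) (nat_lit 30) (nat_lit 4) (nat_lit 406) (nat_lit 392) (nat_lit 222)) (XT.lf (nat_lit 0) (nat_lit 3821049203892) (nat_lit 76) (nat_lit 6116046617173) (nat_lit 152) (nat_lit 9522708182564)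 (nat_lit 28) (nat_lit 5) (nat_lit 29) (nat_lit 5) (nat_lit 30) (nat_lit 4) (nat_lit 407) (nat_lit 392) (nat_lit 221)))) (XT.nd (nat_lit 78) (nat_lit 228) (nat_lit 0) (XT.lf (nat_lit 0) (nat_lit 16384338644058) (nat_lit 152) (nat_lit 3778057779789) (nat_lit 0) (nat_lit 1128941416671) (nat_lit 28) (nat_lit 5) (nat_lit 30) (nat_lit 4) (nat_lit 28) (nat_lit 4) (nat_lit 408) (nat_lit 392) (nat_lit 220)) (XT.nd (nat_lit 78) (nat_lit 76) (nat_lit 0) (XT.lf (nat_lit 0) (nat_lit 1126207618882) (nat_lit 152) (nat_lit 12834050846860) (nat_lit 76) (nat_lit 9320725118831) (nat_lit 26) (nat_lit 5) (nat_lit 28) (nat_lit 5) (nat_lit 27) (nat_lit 4) (nat_lit 409) (nat_lit 392) (nat_lit 219)) (XT.lf (nat_lit 0) (nat_lit 1589235033143) (nat_lit 76) (nat_lit 6245477646235) (nat_lit 152) (nat_lit 17658408445510) (nat_lit 25) (nat_lit 5) (nat_lit 26) (nat_lit 5) (nat_lit 27) (nat_lit 4) (nat_lit 410) (nat_lit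 392) (nat_lit 218))))) (XT.nd (nat_lit 234) (nat_lit 304) (nat_lit 0) (XT.nd (nat_lit 78) (nat_lit 152) (nat_lit 0) (XT.lf (nat_lit 0) (nat_lit 16361069173457) (nat_lit 152) (nat_lit 8458767404747) (nat_lit 0) (nat_lit 3095506366870) (nat_lit 25) (nat_lit 5) (nat_lit 27) (nat_lit 4) (nat_lit 25) (nat_lit 4) (nat_lit 411) (nat_lit 392) (nat_lit 217)) (XT.nd (nat_lit 78) (nat_lit 76) (nat_lit 0) (XT.lf (nat_lit 0) (nat_lit 9885819391536) (nat_lit 76) (nat_lit 16987314146929) (nat_lit 76) (nat_lit 3721751340300) (nat_lit 24) (nat_lit 4) (nat_lit 25) (nat_lit 5) (nat_lit 25) (nat_lit 4) (nat_lit 412) (nat_lit 392) (nat_lit 216)) (XT.lf (nat_lit 0) (nat_lit 5278302605256) (nat_lit 152) (nat_lit 1917212205363) (nat_lit 76) (nat_lit 26378530438805) (nat_lit 23) (nat_lit 5) (nat_lit 25) (nat_lit 5) (nat_lit 24) (nat_lit 4) (nat_lit 413) (nat_lit 392) (nat_lit 215)))) (XT.nd (nat_lit 156) (nat_lit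 152) (nat_lit 0) (XT.nd (nat_lit 78) (nat_lit 76) (nat_lit 0) (XT.lf (nat_lit 0) (nat_lit 16353435291293) (nat_lit 152) (nat_lit 15635981096464) (nat_lit 0) (nat_lit 4818163285470) (nat_lit 22) (nat_lit 5) (nat_lit 24) (nat_lit 4) (nat_lit 22) (nat_lit 4) (nat_lit 414) (nat_lit 392) (nat_lit 214)) (XT.lf (nat_lit 0) (nat_lit 7772646836432) (nat_lit 76) (nat_lit 22086673528645) (nat_lit 76) (nat_lit 10551401522799) (nat_lit 21) (nat_lit 4) (nat_lit 22) (nat_lit 5) (nat_lit 22) (nat_lit 4) (nat_lit 415) (nat_lit 392) (nat_lit 213))) (XT.nd (nat_lit 78) (nat_lit 76) (nat_lit 0) (XT.lf (nat_lit 0) (nat_lit 1618515355416) (nat_lit 152) (nat_lit 8055463991720) (nat_lit 76) (nat_lit 34746720449299) (nat_lit 20) (nat_lit 5) (nat_lit 22) (nat_lit 5) (nat_lit 21) (nat_lit 4) (nat_lit 416) (nat_lit 392) (nat_lit 212)) (XT.lf (nat_lit 0) (nat_lit 15686756131045) (nat_lit 152) (nat_lit 27441001449539)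 (nat_lit 0) (nat_lit 5656084821580) (nat_lit 19) (nat_lit 5) (nat_lit 21) (nat_lit 4) (nat_lit 19) (nat_lit 4) (nat_lit 417) (nat_lit 392) (nat_lit 211)))))) (XT.nd (nat_lit 546) (nat_lit 456) (nat_lit 0) (XT.nd (nat_lit 234) (nat_lit 228) (nat_lit 0) (XT.nd (nat_lit 78) (nat_lit 152) (nat_lit 0) (XT.lf (nat_lit 0) (nat_lit 2016749532673) (nat_lit 76) (nat_lit 30833791022842) (nat_lit 76) (nat_lit 20803119713363) (nat_lit 18) (nat_lit 4) (nat_lit 19) (nat_lit 5) (nat_lit 19) (nat_lit 4) (nat_lit 418) (nat_lit 392) (nat_lit 210)) (XT.nd (nat_lit 78) (nat_lit 152) (nat_lit 0) (XT.lf (nat_lit 0) (nat_lit 38977157529580) (nat_lit 76) (nat_lit 15046151098893) (nat_lit 76) (nat_lit 5015479789403) (nat_lit 18) (nat_lit 4) (nat_lit 19) (nat_lit 5) (nat_lit 19) (nat_lit 4) (nat_lit 419) (nat_lit 392) (nat_lit 209)) (XT.lf (nat_lit 0) (nat_lit 12873035262905) (nat_lit 152) (nat_lit 47990935824388)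 (nat_lit 0) (nat_lit 4150712385078) (nat_lit 16) (nat_lit 5) (nat_lit 18) (nat_lit 4) (nat_lit 16) (nat_lit 4) (nat_lit 420) (nat_lit 392) (nat_lit 208)))) (XT.nd (nat_lit 156) (nat_lit 152) (nat_lit 0) (XT.nd (nat_lit 78) (nat_lit 76) (nat_lit 0) (XT.lf (nat_lit 0) (nat_lit 34746434481268) (nat_lit 152) (nat_lit 10808327368848) (nat_lit 0) (nat_lit 26024111603434) (nat_lit 16) (nat_lit 5) (nat_lit 18) (nat_lit 4) (nat_lit 16) (nat_lit 4) (nat_lit 421) (nat_lit 392) (nat_lit 207)) (XT.lf (nat_lit 0) (nat_lit 35074222153274) (nat_lit 76) (nat_lit 26278970172483) (nat_lit 76) (nat_lit 17556647294642) (nat_lit 15) (nat_lit 4) (nat_lit 16) (nat_lit 5) (nat_lit 16) (nat_lit 4) (nat_lit 422) (nat_lit 392) (nat_lit 206))) (XT.nd (nat_lit 78) (nat_lit 0) (nat_lit 0) (XT.lf (nat_lit 0) (nat_lit 1734786436327) (nat_lit 76) (nat_lit 3128985337707) (nat_lit 152) (nat_lit 82348484450569) (nat_lit 13)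 (nat_lit 5) (nat_lit 14) (nat_lit 5) (nat_lit 15) (nat_lit 4) (nat_lit 423) (nat_lit 392) (nat_lit 205)) (XT.lf (nat_lit 0) (nat_lit 32223124961221) (nat_lit 152) (nat_lit 39267008733570) (nat_lit 0) (nat_lit 24638496371784) (nat_lit 13) (nat_lit 5) (nat_lit 15) (nat_lit 4) (nat_lit 13) (nat_lit 4) (nat_lit 424) (nat_lit 392) (nat_lit 204))))) (XT.nd (nat_lit 234) (nat_lit 228) (nat_lit 0) (XT.nd (nat_lit 78) (nat_lit 152) (nat_lit 0) (XT.lf (nat_lit 0) (nat_lit 15067428890279) (nat_lit 76) (nat_lit 49391861636947) (nat_lit 76) (nat_lit 41807233047507) (nat_lit 12) (nat_lit 4) (nat_lit 13) (nat_lit 5) (nat_lit 13) (nat_lit 4) (nat_lit 425) (nat_lit 392) (nat_lit 203)) (XT.nd (nat_lit 78) (nat_lit 152) (nat_lit 0) (XT.lf (nat_lit 0) (nat_lit 81965108480089) (nat_lit 76) (nat_lit 21618366086361) (nat_lit 76) (nat_lit 14033737496917) (nat_lit 12) (nat_lit 4) (nat_lit 13) (nat_lit 5) (nat_lit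 13) (nat_lit 4) (nat_lit 426) (nat_lit 392) (nat_lit 202)) (XT.lf (nat_lit 0) (nat_lit 18083202604735) (nat_lit 152) (nat_lit 100722484266320) (nat_lit 0) (nat_lit 11487873396521) (nat_lit 10) (nat_lit 5) (nat_lit 12) (nat_lit 4) (nat_lit 10) (nat_lit 4) (nat_lit 427) (nat_lit 392) (nat_lit 201)))) (XT.nd (nat_lit 156) (nat_lit 152) (nat_lit 0) (XT.nd (nat_lit 78) (nat_lit 76) (nat_lit 0) (XT.lf (nat_lit 0) (nat_lit 56562719416312) (nat_lit 152) (nat_lit 37793736630127) (nat_lit 0) (nat_lit 49967390208095) (nat_lit 10) (nat_lit 5) (nat_lit 12) (nat_lit 4) (nat_lit 10) (nat_lit 4) (nat_lit 428) (nat_lit 392) (nat_lit 200)) (XT.lf (nat_lit 0) (nat_lit 37953177459429) (nat_lit 76) (nat_lit 64432546433421) (nat_lit 76) (nat_lit 57837217225203) (nat_lit 9) (nat_lit 4) (nat_lit 10) (nat_lit 5) (nat_lit 10) (nat_lit 4) (nat_lit 429) (nat_lit 392) (nat_lit 199))) (XT.nd (nat_lit 78) (nat_lit 152)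 (nat_lit 0) (XT.lf (nat_lit 0) (nat_lit 129309629290464) (nat_lit 76) (nat_lit 27748131437868) (nat_lit 76) (nat_lit 21152802229648) (nat_lit 9) (nat_lit 4) (nat_lit 10) (nat_lit 5) (nat_lit 10) (nat_lit 4) (nat_lit 430) (nat_lit 392) (nat_lit 198)) (XT.lf (nat_lit 0) (nat_lit 21448745345230) (nat_lit 152) (nat_lit 161260195547310) (nat_lit 0) (nat_lit 15713676468516) (nat_lit 7) (nat_lit 5) (nat_lit 9) (nat_lit 4) (nat_lit 7) (nat_lit 4) (nat_lit 431) (nat_lit 392) (nat_lit 197))))))) (XT.nd (nat_lit 50466) (nat_lit 0) (nat_lit 1596) (XT.nd (nat_lit 468) (nat_lit 76) (nat_lit 0) (XT.nd (nat_lit 234) (nat_lit 76) (nat_lit 0) (XT.nd (nat_lit 78) (nat_lit 76) (nat_lit 0) (XT.lf (nat_lit 0) (nat_lit 72274128883073) (nat_lit 152) (nat_lit 82102312410985) (nat_lit 0) (nat_lit 66539060006357) (nat_lit 7) (nat_lit 5) (nat_lit 9) (nat_lit 4) (nat_lit 7) (nat_lit 4) (nat_lit 432) (nat_lit 392) (nat_lit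 196)) (XT.nd (nat_lit 78) (nat_lit 0) (nat_lit 0) (XT.lf (nat_lit 0) (nat_lit 9801884758061) (nat_lit 76) (nat_lit 121327310338774) (nat_lit 76) (nat_lit 115592241462058) (nat_lit 6) (nat_lit 4) (nat_lit 7) (nat_lit 5) (nat_lit 7) (nat_lit 4) (nat_lit 433) (nat_lit 392) (nat_lit 195)) (XT.lf (nat_lit 0) (nat_lit 124718891840437) (nat_lit 76) (nat_lit 78385341187328) (nat_lit 76) (nat_lit 72650272310611) (nat_lit 6) (nat_lit 4) (nat_lit 7) (nat_lit 5) (nat_lit 7) (nat_lit 4) (nat_lit 434) (nat_lit 392) (nat_lit 194)))) (XT.nd (nat_lit 78) (nat_lit 76) (nat_lit 0) (XT.lf (nat_lit 0) (nat_lit 256873449985140) (nat_lit 76) (nat_lit 29002076663181) (nat_lit 76) (nat_lit 23267007786464) (nat_lit 6) (nat_lit 4) (nat_lit 7) (nat_lit 5) (nat_lit 7) (nat_lit 4) (nat_lit 435) (nat_lit 392) (nat_lit 193)) (XT.nd (nat_lit 78) (nat_lit 0) (nat_lit 0) (XT.lf (nat_lit 0) (nat_lit 34609539803197) (nat_lit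 76) (nat_lit 282487936309359) (nat_lit 0) (nat_lit 29622523388659) (nat_lit 5) (nat_lit 5) (nat_lit 6) (nat_lit 4) (nat_lit 5) (nat_lit 4) (nat_lit 436) (nat_lit 392) (nat_lit 192)) (XT.lf (nat_lit 0) (nat_lit 103028877009360) (nat_lit 76) (nat_lit 188060642926524) (nat_lit 0) (nat_lit 98041860594822) (nat_lit 5) (nat_lit 5) (nat_lit 6) (nat_lit 4) (nat_lit 5) (nat_lit 4) (nat_lit 437) (nat_lit 392) (nat_lit 191))))) (XT.nd (nat_lit 49686) (nat_lit 0) (nat_lit 2888) (XT.nd (nat_lit 78) (nat_lit 76) (nat_lit 0) (XT.lf (nat_lit 0) (nat_lit 181711114796437) (nat_lit 76) (nat_lit 79469255536286) (nat_lit 0) (nat_lit 176724098381899) (nat_lit 5) (nat_lit 5) (nat_lit 6) (nat_lit 4) (nat_lit 5) (nat_lit 4) (nat_lit 438) (nat_lit 392) (nat_lit 190)) (XT.nd (nat_lit 49530) (nat_lit 0) (nat_lit 2888) (XT.lf (nat_lit 0) (nat_lit 49848717504249) (nat_lit 76) (nat_lit 224411099836518) (nat_lit 76) (nat_lit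 219424083421980) (nat_lit 4) (nat_lit 4) (nat_lit 5) (nat_lit 5) (nat_lit 5) (nat_lit 4) (nat_lit 439) (nat_lit 392) (nat_lit 189)) (XT.lf (nat_lit 0) (nat_lit 993513398259) (nat_lit 380) (nat_lit 1172336920383) (nat_lit 380) (nat_lit 1172336920383) (nat_lit 42) (nat_lit 3) (nat_lit 47) (nat_lit 3) (nat_lit 47) (nat_lit 5) (nat_lit 393) (nat_lit 393) (nat_lit 234)))) (XT.nd (nat_lit 156) (nat_lit 0) (nat_lit 76) (XT.nd (nat_lit 78) (nat_lit 0) (nat_lit 76) (XT.lf (nat_lit 76) (nat_lit 1075192347076) (nat_lit 0) (nat_lit 1105382882780) (nat_lit 380) (nat_lit 4989849120508) (nat_lit 43) (nat_lit 5) (nat_lit 42) (nat_lit 3) (nat_lit 47) (nat_lit 5) (nat_lit 394) (nat_lit 393) (nat_lit 233)) (XT.lf (nat_lit 0) (nat_lit 2639417364362) (nat_lit 304) (nat_lit 2562348439502) (nat_lit 380) (nat_lit 2501376684236) (nat_lit 43) (nat_lit 5) (nat_lit 47) (nat_lit 5) (nat_lit 48) (nat_lit 5) (nat_lit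 395) (nat_lit 393) (nat_lit 232))) (XT.nd (nat_lit 78) (nat_lit 0) (nat_lit 76) (XT.lf (nat_lit 76) (nat_lit 1589322892818) (nat_lit 0) (nat_lit 1696210677897) (nat_lit 380) (nat_lit 5012467613030) (nat_lit 44) (nat_lit 5) (nat_lit 43) (nat_lit 5) (nat_lit 48) (nat_lit 5) (nat_lit 396) (nat_lit 393) (nat_lit 231)) (XT.lf (nat_lit 0) (nat_lit 4265581018524) (nat_lit 304) (nat_lit 2413352463820) (nat_lit 76) (nat_lit 2267603129819) (nat_lit 44) (nat_lit 5) (nat_lit 48) (nat_lit 5) (nat_lit 45) (nat_lit 5) (nat_lit 397) (nat_lit 393) (nat_lit 230)))))) (XT.nd (nat_lit 546) (nat_lit 608) (nat_lit 0) (XT.nd (nat_lit 234) (nat_lit 380) (nat_lit 0) (XT.nd (nat_lit 78) (nat_lit 152) (nat_lit 0) (XT.lf (nat_lit 0) (nat_lit 2684492374931) (nat_lit 304) (nat_lit 2900074250000) (nat_lit 380) (nat_lit 4078996073696) (nat_lit 40) (nat_lit 5) (nat_lit 44) (nat_lit 5) (nat_lit 45) (nat_lit 5) (nat_lit 398)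 (nat_lit 393) (nat_lit 229)) (XT.nd (nat_lit 78) (nat_lit 152) (nat_lit 0) (XT.lf (nat_lit 0) (nat_lit 7293419637392) (nat_lit 380) (nat_lit 1716845023982) (nat_lit 76) (nat_lit 1449075101925) (nat_lit 40) (nat_lit 5) (nat_lit 45) (nat_lit 5) (nat_lit 41) (nat_lit 5) (nat_lit 399) (nat_lit 393) (nat_lit 228)) (XT.lf (nat_lit 0) (nat_lit 4606739064357) (nat_lit 152) (nat_lit 4980715551803) (nat_lit 228) (nat_lit 1737700669345) (nat_lit 38) (nat_lit 5) (nat_lit 40) (nat_lit 5) (nat_lit 41) (nat_lit 5) (nat_lit 400) (nat_lit 393) (nat_lit 227)))) (XT.nd (nat_lit 156) (nat_lit 152) (nat_lit 0) (XT.nd (nat_lit 78) (nat_lit 152) (nat_lit 0) (XT.lf (nat_lit 0) (nat_lit 7249071079) (nat_lit 228) (nat_lit 235900278566) (nat_lit 76) (nat_lit 12064182735174) (nat_lit 37) (nat_lit 5) (nat_lit 40) (nat_lit 5) (nat_lit 38) (nat_lit 5) (nat_lit 401) (nat_lit 393) (nat_lit 226)) (XT.lf (nat_lit 0) (nat_lit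 2395325491565) (nat_lit 228) (nat_lit 5777032710004) (nat_lit 76) (nat_lit 5168171304553) (nat_lit 35) (nat_lit 5) (nat_lit 38) (nat_lit 5) (nat_lit 36) (nat_lit 5) (nat_lit 402) (nat_lit 393) (nat_lit 225))) (XT.nd (nat_lit 78) (nat_lit 0) (nat_lit 0) (XT.lf (nat_lit 0) (nat_lit 2217730505720) (nat_lit 152) (nat_lit 3040211249268) (nat_lit 228) (nat_lit 9253315528652) (nat_lit 33) (nat_lit 5) (nat_lit 35) (nat_lit 5) (nat_lit 36) (nat_lit 5) (nat_lit 403) (nat_lit 393) (nat_lit 224)) (XT.lf (nat_lit 0) (nat_lit 8984811058443) (nat_lit 228) (nat_lit 3884208482276) (nat_lit 76) (nat_lit 2923345596988) (nat_lit 33) (nat_lit 5) (nat_lit 36) (nat_lit 5) (nat_lit 34) (nat_lit 4) (nat_lit 404) (nat_lit 393) (nat_lit 223))))) (XT.nd (nat_lit 234) (nat_lit 304) (nat_lit 0) (XT.nd (nat_lit 78) (nat_lit 228) (nat_lit 0) (XT.lf (nat_lit 0) (nat_lit 6193087026314) (nat_lit 76) (nat_lit 7478838222238)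 (nat_lit 152) (nat_lit 3533531747662) (nat_lit 32) (nat_lit 5) (nat_lit 33) (nat_lit 5) (nat_lit 34) (nat_lit 4) (nat_lit 405) (nat_lit 393) (nat_lit 222)) (XT.nd (nat_lit 78) (nat_lit 152) (nat_lit 0) (XT.lf (nat_lit 0) (nat_lit 423682495105) (nat_lit 152) (nat_lit 600806275149) (nat_lit 76) (nat_lit 17772679393371) (nat_lit 31) (nat_lit 5) (nat_lit 33) (nat_lit 5) (nat_lit 32) (nat_lit 5) (nat_lit 406) (nat_lit 393) (nat_lit 221)) (XT.lf (nat_lit 0) (nat_lit 5419187844118) (nat_lit 228) (nat_lit 8524008968458) (nat_lit 76) (nat_lit 6538228383773) (nat_lit 29) (nat_lit 5) (nat_lit 32) (nat_lit 5) (nat_lit 30) (nat_lit 4) (nat_lit 407) (nat_lit 393) (nat_lit 220)))) (XT.nd (nat_lit 156) (nat_lit 228) (nat_lit 0) (XT.nd (nat_lit 78) (nat_lit 0) (nat_lit 0) (XT.lf (nat_lit 0) (nat_lit 4394206585907) (nat_lit 76) (nat_lit 7033453609117) (nat_lit 152) (nat_lit 10951114409028) (nat_lit 28) (nat_lit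 5) (nat_lit 29) (nat_lit 5) (nat_lit 30) (nat_lit 4) (nat_lit 408) (nat_lit 393) (nat_lit 219)) (XT.lf (nat_lit 0) (nat_lit 18841989441385) (nat_lit 152) (nat_lit 4344766445431) (nat_lit 0) (nat_lit 1298282629672) (nat_lit 28) (nat_lit 5) (nat_lit 30) (nat_lit 4) (nat_lit 28) (nat_lit 4) (nat_lit 409) (nat_lit 393) (nat_lit 218))) (XT.nd (nat_lit 78) (nat_lit 76) (nat_lit 0) (XT.lf (nat_lit 0) (nat_lit 1295138762424) (nat_lit 152) (nat_lit 14759158472553) (nat_lit 76) (nat_lit 10718833887175) (nat_lit 26) (nat_lit 5) (nat_lit 28) (nat_lit 5) (nat_lit 27) (nat_lit 4) (nat_lit 410) (nat_lit 393) (nat_lit 217)) (XT.lf (nat_lit 0) (nat_lit 1827620289389) (nat_lit 76) (nat_lit 7182299292565) (nat_lit 152) (nat_lit 20307169711566) (nat_lit 25) (nat_lit 5) (nat_lit 26) (nat_lit 5) (nat_lit 27) (nat_lit 4) (nat_lit 411) (nat_lit 393) (nat_lit 216))))))))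
noncomputable def xc116 : XT := (XT.nd (nat_lit 2028) (nat_lit 76) (nat_lit 0) (XT.nd (nat_lit 1014) (nat_lit 608) (nat_lit 0) (XT.nd (nat_lit 468) (nat_lit 532) (nat_lit 0) (XT.nd (nat_lit 234) (nat_lit 228) (nat_lit 0) (XT.nd (nat_lit 78) (nat_lit 152) (nat_lit 0) (XT.lf (nat_lit 0) (nat_lit 18815229550080) (nat_lit 152) (nat_lit 9727582514285) (nat_lit 0) (nat_lit 3559832322380) (nat_lit 25) (nat_lit 5) (nat_lit 27) (nat_lit 4) (nat_lit 25) (nat_lit 4) (nat_lit 412) (nat_lit 393) (nat_lit 215)) (XT.nd (nat_lit 78) (nat_lit 76) (nat_lit 0) (XT.lf (nat_lit 0) (nat_lit 11368692301388) (nat_lit 76) (nat_lit 19535411268420) (nat_lit 76) (nat_lit 4280014040688) (nat_lit 24) (nat_lit 4) (nat_lit 25) (nat_lit 5) (nat_lit 25) (nat_lit 4) (nat_lit 413) (nat_lit 393) (nat_lit 214)) (XT.lf (nat_lit 0) (nat_lit 6070047996565) (nat_lit 152) (nat_lit 2204794035142) (nat_lit 76) (nat_lit 30335310005053)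 (nat_lit 23) (nat_lit 5) (nat_lit 25) (nat_lit 5) (nat_lit 24) (nat_lit 4) (nat_lit 414) (nat_lit 393) (nat_lit 213)))) (XT.nd (nat_lit 78) (nat_lit 152) (nat_lit 0) (XT.lf (nat_lit 0) (nat_lit 18806450585501) (nat_lit 152) (nat_lit 17981378259901) (nat_lit 0) (nat_lit 5540887778733) (nat_lit 22) (nat_lit 5) (nat_lit 24) (nat_lit 4) (nat_lit 22) (nat_lit 4) (nat_lit 415) (nat_lit 393) (nat_lit 212)) (XT.nd (nat_lit 78) (nat_lit 76) (nat_lit 0) (XT.lf (nat_lit 0) (nat_lit 8938543862882) (nat_lit 76) (nat_lit 25399674557444) (nat_lit 76) (nat_lit 12134111750658) (nat_lit 21) (nat_lit 4) (nat_lit 22) (nat_lit 5) (nat_lit 22) (nat_lit 4) (nat_lit 416) (nat_lit 393) (nat_lit 211)) (XT.lf (nat_lit 0) (nat_lit 1861292659173) (nat_lit 152) (nat_lit 9263783589578) (nat_lit 76) (nat_lit 39958728517084) (nat_lit 20) (nat_lit 5) (nat_lit 22) (nat_lit 5) (nat_lit 21) (nat_lit 4) (nat_lit 417) (nat_lit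 393) (nat_lit 210))))) (XT.nd (nat_lit 234) (nat_lit 380) (nat_lit 0) (XT.nd (nat_lit 78) (nat_lit 76) (nat_lit 0) (XT.lf (nat_lit 0) (nat_lit 18039769551142) (nat_lit 152) (nat_lit 31557151666065) (nat_lit 0) (nat_lit 6504497545216) (nat_lit 19) (nat_lit 5) (nat_lit 21) (nat_lit 4) (nat_lit 19) (nat_lit 4) (nat_lit 418) (nat_lit 393) (nat_lit 209)) (XT.nd (nat_lit 78) (nat_lit 0) (nat_lit 0) (XT.lf (nat_lit 0) (nat_lit 2319261963438) (nat_lit 76) (nat_lit 35458859675822) (nat_lit 76) (nat_lit 23923587669886) (nat_lit 18) (nat_lit 4) (nat_lit 19) (nat_lit 5) (nat_lit 19) (nat_lit 4) (nat_lit 419) (nat_lit 393) (nat_lit 208)) (XT.lf (nat_lit 0) (nat_lit 44823731159768) (nat_lit 76) (nat_lit 17303073763340) (nat_lit 76) (nat_lit 5767801757395) (nat_lit 18) (nat_lit 4) (nat_lit 19) (nat_lit 5) (nat_lit 19) (nat_lit 4) (nat_lit 420) (nat_lit 393) (nat_lit 207)))) (XT.nd (nat_lit 156) (nat_lit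 228) (nat_lit 0) (XT.nd (nat_lit 78) (nat_lit 0) (nat_lit 0) (XT.lf (nat_lit 0) (nat_lit 14803990552720) (nat_lit 152) (nat_lit 55189576197256) (nat_lit 0) (nat_lit 4773319243196) (nat_lit 16) (nat_lit 5) (nat_lit 18) (nat_lit 4) (nat_lit 16) (nat_lit 4) (nat_lit 421) (nat_lit 393) (nat_lit 206)) (XT.lf (nat_lit 0) (nat_lit 39958399653788) (nat_lit 152) (nat_lit 12429576473487) (nat_lit 0) (nat_lit 29927728344258) (nat_lit 16) (nat_lit 5) (nat_lit 18) (nat_lit 4) (nat_lit 16) (nat_lit 4) (nat_lit 422) (nat_lit 393) (nat_lit 205))) (XT.nd (nat_lit 78) (nat_lit 152) (nat_lit 0) (XT.lf (nat_lit 0) (nat_lit 40335355476921) (nat_lit 76) (nat_lit 30220815698013) (nat_lit 76) (nat_lit 20190144388478) (nat_lit 15) (nat_lit 4) (nat_lit 16) (nat_lit 5) (nat_lit 16) (nat_lit 4) (nat_lit 423) (nat_lit 393) (nat_lit 204)) (XT.lf (nat_lit 0) (nat_lit 1995004402434) (nat_lit 76) (nat_lit 3598333138018)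 (nat_lit 152) (nat_lit 94700757117794) (nat_lit 13) (nat_lit 5) (nat_lit 14) (nat_lit 5) (nat_lit 15) (nat_lit 4) (nat_lit 424) (nat_lit 393) (nat_lit 203)))))) (XT.nd (nat_lit 468) (nat_lit 304) (nat_lit 0) (XT.nd (nat_lit 234) (nat_lit 228) (nat_lit 0) (XT.nd (nat_lit 78) (nat_lit 76) (nat_lit 0) (XT.lf (nat_lit 0) (nat_lit 37056593705688) (nat_lit 152) (nat_lit 45157060043007) (nat_lit 0) (nat_lit 28334270827824) (nat_lit 13) (nat_lit 5) (nat_lit 15) (nat_lit 4) (nat_lit 13) (nat_lit 4) (nat_lit 425) (nat_lit 393) (nat_lit 202)) (XT.nd (nat_lit 78) (nat_lit 0) (nat_lit 0) (XT.lf (nat_lit 0) (nat_lit 17327543224394) (nat_lit 76) (nat_lit 56800640882188) (nat_lit 76) (nat_lit 48078318004321) (nat_lit 12) (nat_lit 4) (nat_lit 13) (nat_lit 5) (nat_lit 13) (nat_lit 4) (nat_lit 426) (nat_lit 393) (nat_lit 201)) (XT.lf (nat_lit 0) (nat_lit 94259874752601) (nat_lit 76) (nat_lit 24861120999052)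 (nat_lit 76) (nat_lit 16138798121184) (nat_lit 12) (nat_lit 4) (nat_lit 13) (nat_lit 5) (nat_lit 13) (nat_lit 4) (nat_lit 427) (nat_lit 393) (nat_lit 200)))) (XT.nd (nat_lit 78) (nat_lit 76) (nat_lit 0) (XT.lf (nat_lit 0) (nat_lit 20795682995691) (nat_lit 152) (nat_lit 115830856905746) (nat_lit 0) (nat_lit 13211054406238) (nat_lit 10) (nat_lit 5) (nat_lit 12) (nat_lit 4) (nat_lit 10) (nat_lit 4) (nat_lit 428) (nat_lit 393) (nat_lit 199)) (XT.nd (nat_lit 78) (nat_lit 76) (nat_lit 0) (XT.lf (nat_lit 0) (nat_lit 65047127328973) (nat_lit 152) (nat_lit 43462797124191) (nat_lit 0) (nat_lit 57462498739518) (nat_lit 10) (nat_lit 5) (nat_lit 12) (nat_lit 4) (nat_lit 10) (nat_lit 4) (nat_lit 429) (nat_lit 393) (nat_lit 198)) (XT.lf (nat_lit 0) (nat_lit 43646154078778) (nat_lit 76) (nat_lit 74097428398204) (nat_lit 76) (nat_lit 66512799808748) (nat_lit 9) (nat_lit 4) (nat_lit 10) (nat_lit 5) (nat_lit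 10) (nat_lit 4) (nat_lit 430) (nat_lit 393) (nat_lit 197))))) (XT.nd (nat_lit 234) (nat_lit 152) (nat_lit 0) (XT.nd (nat_lit 78) (nat_lit 152) (nat_lit 0) (XT.lf (nat_lit 0) (nat_lit 148706073684410) (nat_lit 76) (nat_lit 31910351153349) (nat_lit 76) (nat_lit 24325722563891) (nat_lit 9) (nat_lit 4) (nat_lit 10) (nat_lit 5) (nat_lit 10) (nat_lit 4) (nat_lit 431) (nat_lit 393) (nat_lit 196)) (XT.nd (nat_lit 78) (nat_lit 0) (nat_lit 0) (XT.lf (nat_lit 0) (nat_lit 24666057147201) (nat_lit 152) (nat_lit 185449224879010) (nat_lit 0) (nat_lit 18070727938976) (nat_lit 7) (nat_lit 5) (nat_lit 9) (nat_lit 4) (nat_lit 7) (nat_lit 4) (nat_lit 432) (nat_lit 393) (nat_lit 195)) (XT.lf (nat_lit 0) (nat_lit 83115248215696) (nat_lit 152) (nat_lit 94417659272289) (nat_lit 0) (nat_lit 76519919007470) (nat_lit 7) (nat_lit 5) (nat_lit 9) (nat_lit 4) (nat_lit 7) (nat_lit 4) (nat_lit 433) (nat_lit 393) (nat_lit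 194)))) (XT.nd (nat_lit 156) (nat_lit 76) (nat_lit 0) (XT.nd (nat_lit 78) (nat_lit 0) (nat_lit 0) (XT.lf (nat_lit 0) (nat_lit 11272167472098) (nat_lit 76) (nat_lit 139526406889416) (nat_lit 76) (nat_lit 132931077681190) (nat_lit 6) (nat_lit 4) (nat_lit 7) (nat_lit 5) (nat_lit 7) (nat_lit 4) (nat_lit 434) (nat_lit 393) (nat_lit 193)) (XT.lf (nat_lit 0) (nat_lit 143426725616789) (nat_lit 76) (nat_lit 90143142365276) (nat_lit 76) (nat_lit 83547813157048) (nat_lit 6) (nat_lit 4) (nat_lit 7) (nat_lit 5) (nat_lit 7) (nat_lit 4) (nat_lit 435) (nat_lit 393) (nat_lit 192))) (XT.nd (nat_lit 78) (nat_lit 76) (nat_lit 0) (XT.lf (nat_lit 0) (nat_lit 295404467483160) (nat_lit 76) (nat_lit 33352388162527) (nat_lit 76) (nat_lit 26757058954299) (nat_lit 6) (nat_lit 4) (nat_lit 7) (nat_lit 5) (nat_lit 7) (nat_lit 4) (nat_lit 436) (nat_lit 393) (nat_lit 191)) (XT.lf (nat_lit 0) (nat_lit 39800970773799) (nat_lit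 76) (nat_lit 324861126755502) (nat_lit 0) (nat_lit 34065901897078) (nat_lit 5) (nat_lit 5) (nat_lit 6) (nat_lit 4) (nat_lit 5) (nat_lit 4) (nat_lit 437) (nat_lit 393) (nat_lit 190))))))) (XT.nd (nat_lit 50466) (nat_lit 0) (nat_lit 1292) (XT.nd (nat_lit 49920) (nat_lit 0) (nat_lit 2356) (XT.nd (nat_lit 49686) (nat_lit 0) (nat_lit 2888) (XT.nd (nat_lit 78) (nat_lit 76) (nat_lit 0) (XT.lf (nat_lit 0) (nat_lit 118483208560871) (nat_lit 76) (nat_lit 216269739365275) (nat_lit 0) (nat_lit 112748139684151) (nat_lit 5) (nat_lit 5) (nat_lit 6) (nat_lit 4) (nat_lit 5) (nat_lit 4) (nat_lit 438) (nat_lit 393) (nat_lit 189)) (XT.nd (nat_lit 78) (nat_lit 76) (nat_lit 0) (XT.lf (nat_lit 0) (nat_lit 208967782015995) (nat_lit 76) (nat_lit 91389643866533) (nat_lit 0) (nat_lit 203232713139274) (nat_lit 5) (nat_lit 5) (nat_lit 6) (nat_lit 4) (nat_lit 5) (nat_lit 4) (nat_lit 439) (nat_lit 393) (nat_lit 188))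 (XT.lf (nat_lit 0) (nat_lit 57326025130075) (nat_lit 76) (nat_lit 258072764811896) (nat_lit 76) (nat_lit 252337695935175) (nat_lit 4) (nat_lit 4) (nat_lit 5) (nat_lit 5) (nat_lit 5) (nat_lit 4) (nat_lit 440) (nat_lit 393) (nat_lit 187)))) (XT.nd (nat_lit 78) (nat_lit 0) (nat_lit 0) (XT.lf (nat_lit 0) (nat_lit 1142540409302) (nat_lit 380) (nat_lit 1348187457690) (nat_lit 380) (nat_lit 1348187457690) (nat_lit 42) (nat_lit 3) (nat_lit 47) (nat_lit 3) (nat_lit 47) (nat_lit 5) (nat_lit 394) (nat_lit 394) (nat_lit 232)) (XT.nd (nat_lit 78) (nat_lit 0) (nat_lit 76) (XT.lf (nat_lit 76) (nat_lit 1236471200570) (nat_lit 0) (nat_lit 1271190316093) (nat_lit 380) (nat_lit 5738326485906) (nat_lit 43) (nat_lit 5) (nat_lit 42) (nat_lit 3) (nat_lit 47) (nat_lit 5) (nat_lit 395) (nat_lit 394) (nat_lit 231)) (XT.lf (nat_lit 0) (nat_lit 3035329971009) (nat_lit 304) (nat_lit 2946700703845) (nat_lit 380) (nat_lit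 2876583186161) (nat_lit 43) (nat_lit 5) (nat_lit 47) (nat_lit 5) (nat_lit 48) (nat_lit 5) (nat_lit 396) (nat_lit 394) (nat_lit 230))))) (XT.nd (nat_lit 234) (nat_lit 380) (nat_lit 0) (XT.nd (nat_lit 78) (nat_lit 228) (nat_lit 0) (XT.lf (nat_lit 76) (nat_lit 1827721328251) (nat_lit 0) (nat_lit 1950642279867) (nat_lit 380) (nat_lit 5764337752920) (nat_lit 44) (nat_lit 5) (nat_lit 43) (nat_lit 5) (nat_lit 48) (nat_lit 5) (nat_lit 397) (nat_lit 394) (nat_lit 229)) (XT.nd (nat_lit 78) (nat_lit 304) (nat_lit 0) (XT.lf (nat_lit 0) (nat_lit 4905418172853) (nat_lit 304) (nat_lit 2775355331835) (nat_lit 76) (nat_lit 2607743599066) (nat_lit 44) (nat_lit 5) (nat_lit 48) (nat_lit 5) (nat_lit 45) (nat_lit 5) (nat_lit 398) (nat_lit 394) (nat_lit 228)) (XT.lf (nat_lit 0) (nat_lit 3087166232658) (nat_lit 304) (nat_lit 3335085387423) (nat_lit 380) (nat_lit 4690845483129) (nat_lit 40) (nat_lit 5) (nat_lit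 44) (nat_lit 5) (nat_lit 45) (nat_lit 5) (nat_lit 399) (nat_lit 394) (nat_lit 227)))) (XT.nd (nat_lit 156) (nat_lit 228) (nat_lit 0) (XT.nd (nat_lit 78) (nat_lit 152) (nat_lit 0) (XT.lf (nat_lit 0) (nat_lit 8387432584230) (nat_lit 380) (nat_lit 1974371776105) (nat_lit 76) (nat_lit 1666436367275) (nat_lit 40) (nat_lit 5) (nat_lit 45) (nat_lit 5) (nat_lit 41) (nat_lit 5) (nat_lit 400) (nat_lit 394) (nat_lit 226)) (XT.lf (nat_lit 0) (nat_lit 5297749925418) (nat_lit 152) (nat_lit 5727822884293) (nat_lit 228) (nat_lit 1998355768451) (nat_lit 38) (nat_lit 5) (nat_lit 40) (nat_lit 5) (nat_lit 41) (nat_lit 5) (nat_lit 401) (nat_lit 394) (nat_lit 225))) (XT.nd (nat_lit 78) (nat_lit 152) (nat_lit 0) (XT.lf (nat_lit 0) (nat_lit 8336432768) (nat_lit 228) (nat_lit 271285319026) (nat_lit 76) (nat_lit 13873810145594) (nat_lit 37) (nat_lit 5) (nat_lit 40) (nat_lit 5) (nat_lit 38) (nat_lit 5) (nat_lit 402)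 (nat_lit 394) (nat_lit 224)) (XT.lf (nat_lit 0) (nat_lit 2754624316258) (nat_lit 228) (nat_lit 6643587615112) (nat_lit 76) (nat_lit 5943397000527) (nat_lit 35) (nat_lit 5) (nat_lit 38) (nat_lit 5) (nat_lit 36) (nat_lit 5) (nat_lit 403) (nat_lit 394) (nat_lit 223)))))) (XT.nd (nat_lit 546) (nat_lit 532) (nat_lit 0) (XT.nd (nat_lit 234) (nat_lit 304) (nat_lit 0) (XT.nd (nat_lit 78) (nat_lit 76) (nat_lit 0) (XT.lf (nat_lit 0) (nat_lit 2550390082907) (nat_lit 152) (nat_lit 3496242936217) (nat_lit 228) (nat_lit 10641312856928) (nat_lit 33) (nat_lit 5) (nat_lit 35) (nat_lit 5) (nat_lit 36) (nat_lit 5) (nat_lit 404) (nat_lit 394) (nat_lit 222)) (XT.nd (nat_lit 78) (nat_lit 76) (nat_lit 0) (XT.lf (nat_lit 0) (nat_lit 10332532717998) (nat_lit 228) (nat_lit 4466839753361) (nat_lit 76) (nat_lit 3361847436886) (nat_lit 33) (nat_lit 5) (nat_lit 36) (nat_lit 5) (nat_lit 34) (nat_lit 4) (nat_lit 405) (nat_lit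 394) (nat_lit 221)) (XT.lf (nat_lit 0) (nat_lit 7122050081460) (nat_lit 76) (nat_lit 8600663955110) (nat_lit 152) (nat_lit 4063561508966) (nat_lit 32) (nat_lit 5) (nat_lit 33) (nat_lit 5) (nat_lit 34) (nat_lit 4) (nat_lit 406) (nat_lit 394) (nat_lit 220)))) (XT.nd (nat_lit 156) (nat_lit 76) (nat_lit 0) (XT.nd (nat_lit 78) (nat_lit 152) (nat_lit 0) (XT.lf (nat_lit 0) (nat_lit 487234870040) (nat_lit 152) (nat_lit 690927215313) (nat_lit 76) (nat_lit 20438581302714) (nat_lit 31) (nat_lit 5) (nat_lit 33) (nat_lit 5) (nat_lit 32) (nat_lit 5) (nat_lit 407) (nat_lit 394) (nat_lit 219)) (XT.lf (nat_lit 0) (nat_lit 6232066021380) (nat_lit 228) (nat_lit 9802610312593) (nat_lit 76) (nat_lit 7518962641732) (nat_lit 29) (nat_lit 5) (nat_lit 32) (nat_lit 5) (nat_lit 30) (nat_lit 4) (nat_lit 408) (nat_lit 394) (nat_lit 218))) (XT.nd (nat_lit 78) (nat_lit 0) (nat_lit 0) (XT.lf (nat_lit 0) (nat_lit 5053337574876)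 (nat_lit 76) (nat_lit 8088471650007) (nat_lit 152) (nat_lit 12593781569687) (nat_lit 28) (nat_lit 5) (nat_lit 29) (nat_lit 5) (nat_lit 30) (nat_lit 4) (nat_lit 409) (nat_lit 394) (nat_lit 217)) (XT.lf (nat_lit 0) (nat_lit 21668287858136) (nat_lit 152) (nat_lit 4996481411242) (nat_lit 0) (nat_lit 1493025024502) (nat_lit 28) (nat_lit 5) (nat_lit 30) (nat_lit 4) (nat_lit 28) (nat_lit 4) (nat_lit 410) (nat_lit 394) (nat_lit 216))))) (XT.nd (nat_lit 234) (nat_lit 304) (nat_lit 0) (XT.nd (nat_lit 78) (nat_lit 76) (nat_lit 0) (XT.lf (nat_lit 0) (nat_lit 1489409577324) (nat_lit 152) (nat_lit 16973032242426) (nat_lit 76) (nat_lit 12326658970644) (nat_lit 26) (nat_lit 5) (nat_lit 28) (nat_lit 5) (nat_lit 27) (nat_lit 4) (nat_lit 411) (nat_lit 394) (nat_lit 215)) (XT.nd (nat_lit 78) (nat_lit 0) (nat_lit 0) (XT.lf (nat_lit 0) (nat_lit 2101763333762) (nat_lit 76) (nat_lit 8259644185992) (nat_lit 152)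 (nat_lit 23353245167719) (nat_lit 25) (nat_lit 5) (nat_lit 26) (nat_lit 5) (nat_lit 27) (nat_lit 4) (nat_lit 412) (nat_lit 394) (nat_lit 214)) (XT.lf (nat_lit 0) (nat_lit 21637513983049) (nat_lit 152) (nat_lit 11186719890540) (nat_lit 0) (nat_lit 4093807171099) (nat_lit 25) (nat_lit 5) (nat_lit 27) (nat_lit 4) (nat_lit 25) (nat_lit 4) (nat_lit 413) (nat_lit 394) (nat_lit 213)))) (XT.nd (nat_lit 156) (nat_lit 152) (nat_lit 0) (XT.nd (nat_lit 78) (nat_lit 76) (nat_lit 0) (XT.lf (nat_lit 0) (nat_lit 13073996147443) (nat_lit 76) (nat_lit 22465722958268) (nat_lit 76) (nat_lit 4922016146294) (nat_lit 24) (nat_lit 4) (nat_lit 25) (nat_lit 5) (nat_lit 25) (nat_lit 4) (nat_lit 414) (nat_lit 394) (nat_lit 212)) (XT.lf (nat_lit 0) (nat_lit 6980555196444) (nat_lit 152) (nat_lit 2535513139638) (nat_lit 76) (nat_lit 34885606506133) (nat_lit 23) (nat_lit 5) (nat_lit 25) (nat_lit 5) (nat_lit 24) (nat_lit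 4) (nat_lit 415) (nat_lit 394) (nat_lit 211))) (XT.nd (nat_lit 78) (nat_lit 76) (nat_lit 0) (XT.lf (nat_lit 0) (nat_lit 21627418173715) (nat_lit 152) (nat_lit 20678584998105) (nat_lit 0) (nat_lit 6372020945878) (nat_lit 22) (nat_lit 5) (nat_lit 24) (nat_lit 4) (nat_lit 22) (nat_lit 4) (nat_lit 416) (nat_lit 394) (nat_lit 210)) (XT.lf (nat_lit 0) (nat_lit 10279325443060) (nat_lit 76) (nat_lit 29209625740683) (nat_lit 76) (nat_lit 13954228512833) (nat_lit 21) (nat_lit 4) (nat_lit 22) (nat_lit 5) (nat_lit 22) (nat_lit 4) (nat_lit 417) (nat_lit 394) (nat_lit 209))))))))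
noncomputable def xc117 : XT := (XT.nd (nat_lit 51792) (nat_lit 0) (nat_lit 228) (XT.nd (nat_lit 1248) (nat_lit 228) (nat_lit 0) (XT.nd (nat_lit 468) (nat_lit 684) (nat_lit 0) (XT.nd (nat_lit 234) (nat_lit 152) (nat_lit 0) (XT.nd (nat_lit 78) (nat_lit 152) (nat_lit 0) (XT.lf (nat_lit 0) (nat_lit 2140486558385) (nat_lit 152) (nat_lit 10653351127333) (nat_lit 76) (nat_lit 45952537794942) (nat_lit 20) (nat_lit 5) (nat_lit 22) (nat_lit 5) (nat_lit 21) (nat_lit 4) (nat_lit 418) (nat_lit 394) (nat_lit 208)) (XT.nd (nat_lit 78) (nat_lit 76) (nat_lit 0) (XT.lf (nat_lit 0) (nat_lit 20745734984146) (nat_lit 152) (nat_lit 36290724415291) (nat_lit 0) (nat_lit 7480172177301) (nat_lit 19) (nat_lit 5) (nat_lit 21) (nat_lit 4) (nat_lit 19) (nat_lit 4) (nat_lit 419) (nat_lit 394) (nat_lit 207)) (XT.lf (nat_lit 0) (nat_lit 2667151258607) (nat_lit 76) (nat_lit 40777688626859) (nat_lit 76) (nat_lit 27512125820006)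 (nat_lit 18) (nat_lit 4) (nat_lit 19) (nat_lit 5) (nat_lit 19) (nat_lit 4) (nat_lit 420) (nat_lit 394) (nat_lit 206)))) (XT.nd (nat_lit 78) (nat_lit 152) (nat_lit 0) (XT.lf (nat_lit 0) (nat_lit 51547290834301) (nat_lit 76) (nat_lit 19898534827548) (nat_lit 76) (nat_lit 6632972020688) (nat_lit 18) (nat_lit 4) (nat_lit 19) (nat_lit 5) (nat_lit 19) (nat_lit 4) (nat_lit 421) (nat_lit 394) (nat_lit 205)) (XT.nd (nat_lit 78) (nat_lit 0) (nat_lit 0) (XT.lf (nat_lit 0) (nat_lit 17024589135914) (nat_lit 152) (nat_lit 63468012626246) (nat_lit 0) (nat_lit 5489317129944) (nat_lit 16) (nat_lit 5) (nat_lit 18) (nat_lit 4) (nat_lit 16) (nat_lit 4) (nat_lit 422) (nat_lit 394) (nat_lit 204)) (XT.lf (nat_lit 0) (nat_lit 45952159602105) (nat_lit 152) (nat_lit 14294012943991) (nat_lit 0) (nat_lit 34416887596130) (nat_lit 16) (nat_lit 5) (nat_lit 18) (nat_lit 4) (nat_lit 16) (nat_lit 4) (nat_lit 423) (nat_lit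 394) (nat_lit 203))))) (XT.nd (nat_lit 468) (nat_lit 228) (nat_lit 0) (XT.nd (nat_lit 78) (nat_lit 380) (nat_lit 0) (XT.lf (nat_lit 0) (nat_lit 46385658798956) (nat_lit 76) (nat_lit 34753938052455) (nat_lit 76) (nat_lit 23218666046477) (nat_lit 15) (nat_lit 4) (nat_lit 16) (nat_lit 5) (nat_lit 16) (nat_lit 4) (nat_lit 424) (nat_lit 394) (nat_lit 202)) (XT.nd (nat_lit 312) (nat_lit 228) (nat_lit 0) (XT.lf (nat_lit 0) (nat_lit 2294255063295) (nat_lit 76) (nat_lit 4138083108460) (nat_lit 152) (nat_lit 108905870685192) (nat_lit 13) (nat_lit 5) (nat_lit 14) (nat_lit 5) (nat_lit 15) (nat_lit 4) (nat_lit 425) (nat_lit 394) (nat_lit 201)) (XT.lf (nat_lit 0) (nat_lit 23915035445231) (nat_lit 152) (nat_lit 133205485441212) (nat_lit 0) (nat_lit 15192712567356) (nat_lit 10) (nat_lit 5) (nat_lit 12) (nat_lit 4) (nat_lit 10) (nat_lit 4) (nat_lit 429) (nat_lit 394) (nat_lit 197)))) (XT.nd (nat_lit 156)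 (nat_lit 152) (nat_lit 0) (XT.nd (nat_lit 78) (nat_lit 76) (nat_lit 0) (XT.lf (nat_lit 0) (nat_lit 74804196428481) (nat_lit 152) (nat_lit 49982216692476) (nat_lit 0) (nat_lit 66081873550604) (nat_lit 10) (nat_lit 5) (nat_lit 12) (nat_lit 4) (nat_lit 10) (nat_lit 4) (nat_lit 430) (nat_lit 394) (nat_lit 196)) (XT.lf (nat_lit 0) (nat_lit 50193077190922) (nat_lit 76) (nat_lit 85212042657762) (nat_lit 76) (nat_lit 76489719779883) (nat_lit 9) (nat_lit 4) (nat_lit 10) (nat_lit 5) (nat_lit 10) (nat_lit 4) (nat_lit 431) (nat_lit 394) (nat_lit 195))) (XT.nd (nat_lit 78) (nat_lit 152) (nat_lit 0) (XT.lf (nat_lit 0) (nat_lit 171011984737358) (nat_lit 76) (nat_lit 36696903826200) (nat_lit 76) (nat_lit 27974580948321) (nat_lit 9) (nat_lit 4) (nat_lit 10) (nat_lit 5) (nat_lit 10) (nat_lit 4) (nat_lit 432) (nat_lit 394) (nat_lit 194)) (XT.lf (nat_lit 0) (nat_lit 28365965719422) (nat_lit 152) (nat_lit 213266608610561)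 (nat_lit 0) (nat_lit 20781337129961) (nat_lit 7) (nat_lit 5) (nat_lit 9) (nat_lit 4) (nat_lit 7) (nat_lit 4) (nat_lit 433) (nat_lit 394) (nat_lit 193)))))) (XT.nd (nat_lit 546) (nat_lit 76) (nat_lit 0) (XT.nd (nat_lit 234) (nat_lit 76) (nat_lit 0) (XT.nd (nat_lit 78) (nat_lit 76) (nat_lit 0) (XT.lf (nat_lit 0) (nat_lit 95582535448171) (nat_lit 152) (nat_lit 108580308162872) (nat_lit 0) (nat_lit 87997906858710) (nat_lit 7) (nat_lit 5) (nat_lit 9) (nat_lit 4) (nat_lit 7) (nat_lit 4) (nat_lit 434) (nat_lit 394) (nat_lit 192)) (XT.nd (nat_lit 78) (nat_lit 0) (nat_lit 0) (XT.lf (nat_lit 0) (nat_lit 12962992593162) (nat_lit 76) (nat_lit 160455367922696) (nat_lit 76) (nat_lit 152870739333234) (nat_lit 6) (nat_lit 4) (nat_lit 7) (nat_lit 5) (nat_lit 7) (nat_lit 4) (nat_lit 435) (nat_lit 394) (nat_lit 191)) (XT.lf (nat_lit 0) (nat_lit 164940734459524) (nat_lit 76) (nat_lit 103664613719952) (nat_lit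 76) (nat_lit 96079985130489) (nat_lit 6) (nat_lit 4) (nat_lit 7) (nat_lit 5) (nat_lit 7) (nat_lit 4) (nat_lit 436) (nat_lit 394) (nat_lit 190)))) (XT.nd (nat_lit 156) (nat_lit 0) (nat_lit 0) (XT.nd (nat_lit 78) (nat_lit 76) (nat_lit 0) (XT.lf (nat_lit 0) (nat_lit 339715137605821) (nat_lit 76) (nat_lit 38355246386806) (nat_lit 76) (nat_lit 30770617797343) (nat_lit 6) (nat_lit 4) (nat_lit 7) (nat_lit 5) (nat_lit 7) (nat_lit 4) (nat_lit 437) (nat_lit 394) (nat_lit 189)) (XT.lf (nat_lit 0) (nat_lit 45771116389961) (nat_lit 76) (nat_lit 373590295768630) (nat_lit 0) (nat_lit 39175787181732) (nat_lit 5) (nat_lit 5) (nat_lit 6) (nat_lit 4) (nat_lit 5) (nat_lit 4) (nat_lit 438) (nat_lit 394) (nat_lit 188))) (XT.nd (nat_lit 78) (nat_lit 0) (nat_lit 0) (XT.lf (nat_lit 0) (nat_lit 136255689845081) (nat_lit 76) (nat_lit 248710200269896) (nat_lit 0) (nat_lit 129660360636851) (nat_lit 5) (nat_lit 5) (nat_lit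 6) (nat_lit 4) (nat_lit 5) (nat_lit 4) (nat_lit 439) (nat_lit 394) (nat_lit 187)) (XT.lf (nat_lit 0) (nat_lit 240312949318464) (nat_lit 76) (nat_lit 105098090446363) (nat_lit 0) (nat_lit 233717620110235) (nat_lit 5) (nat_lit 5) (nat_lit 6) (nat_lit 4) (nat_lit 5) (nat_lit 4) (nat_lit 440) (nat_lit 394) (nat_lit 186))))) (XT.nd (nat_lit 49686) (nat_lit 0) (nat_lit 2736) (XT.nd (nat_lit 49530) (nat_lit 0) (nat_lit 2888) (XT.lf (nat_lit 0) (nat_lit 65924928899730) (nat_lit 76) (nat_lit 296783679533603) (nat_lit 76) (nat_lit 290188350325375) (nat_lit 4) (nat_lit 4) (nat_lit 5) (nat_lit 5) (nat_lit 5) (nat_lit 4) (nat_lit 441) (nat_lit 394) (nat_lit 185)) (XT.nd (nat_lit 78) (nat_lit 0) (nat_lit 0) (XT.lf (nat_lit 0) (nat_lit 1313921471684) (nat_lit 380) (nat_lit 1550415575776) (nat_lit 380) (nat_lit 1550415575776) (nat_lit 42) (nat_lit 3) (nat_lit 47) (nat_lit 3) (nat_lit 47) (nat_lit 5) (nat_lit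 395) (nat_lit 395) (nat_lit 230)) (XT.lf (nat_lit 76) (nat_lit 1421941881738) (nat_lit 0) (nat_lit 1461868864184) (nat_lit 380) (nat_lit 6599075456767) (nat_lit 43) (nat_lit 5) (nat_lit 42) (nat_lit 3) (nat_lit 47) (nat_lit 5) (nat_lit 396) (nat_lit 395) (nat_lit 229)))) (XT.nd (nat_lit 156) (nat_lit 228) (nat_lit 0) (XT.nd (nat_lit 78) (nat_lit 0) (nat_lit 0) (XT.lf (nat_lit 0) (nat_lit 3490629468167) (nat_lit 304) (nat_lit 3388705808226) (nat_lit 380) (nat_lit 3308070663549) (nat_lit 43) (nat_lit 5) (nat_lit 47) (nat_lit 5) (nat_lit 48) (nat_lit 5) (nat_lit 397) (nat_lit 395) (nat_lit 228)) (XT.lf (nat_lit 76) (nat_lit 2101879528630) (nat_lit 0) (nat_lit 2243238622062) (nat_lit 380) (nat_lit 6628988414297) (nat_lit 44) (nat_lit 5) (nat_lit 43) (nat_lit 5) (nat_lit 48) (nat_lit 5) (nat_lit 398) (nat_lit 395) (nat_lit 227))) (XT.nd (nat_lit 78) (nat_lit 304) (nat_lit 0) (XT.lf (nat_lit 0)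 (nat_lit 5641230899953) (nat_lit 304) (nat_lit 3191658630432) (nat_lit 76) (nat_lit 2998905138755) (nat_lit 44) (nat_lit 5) (nat_lit 48) (nat_lit 5) (nat_lit 45) (nat_lit 5) (nat_lit 399) (nat_lit 395) (nat_lit 226)) (XT.lf (nat_lit 0) (nat_lit 3550241168681) (nat_lit 304) (nat_lit 3835348195478) (nat_lit 380) (nat_lit 5394472304372) (nat_lit 40) (nat_lit 5) (nat_lit 44) (nat_lit 5) (nat_lit 45) (nat_lit 5) (nat_lit 400) (nat_lit 395) (nat_lit 225))))))) (XT.nd (nat_lit 1014) (nat_lit 1368) (nat_lit 0) (XT.nd (nat_lit 468) (nat_lit 608) (nat_lit 0) (XT.nd (nat_lit 234) (nat_lit 304) (nat_lit 0) (XT.nd (nat_lit 78) (nat_lit 228) (nat_lit 0) (XT.lf (nat_lit 0) (nat_lit 9645547472794) (nat_lit 380) (nat_lit 2270527541405) (nat_lit 76) (nat_lit 1916401822412) (nat_lit 40) (nat_lit 5) (nat_lit 45) (nat_lit 5) (nat_lit 41) (nat_lit 5) (nat_lit 401) (nat_lit 395) (nat_lit 224)) (XT.nd (nat_lit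 78) (nat_lit 76) (nat_lit 0) (XT.lf (nat_lit 0) (nat_lit 6092412415295) (nat_lit 152) (nat_lit 6586996316724) (nat_lit 228) (nat_lit 2298109132739) (nat_lit 38) (nat_lit 5) (nat_lit 40) (nat_lit 5) (nat_lit 41) (nat_lit 5) (nat_lit 402) (nat_lit 395) (nat_lit 223)) (XT.lf (nat_lit 0) (nat_lit 9586898460) (nat_lit 228) (nat_lit 311978115879) (nat_lit 76) (nat_lit 15954881667542) (nat_lit 37) (nat_lit 5) (nat_lit 40) (nat_lit 5) (nat_lit 38) (nat_lit 5) (nat_lit 403) (nat_lit 395) (nat_lit 222)))) (XT.nd (nat_lit 78) (nat_lit 152) (nat_lit 0) (XT.lf (nat_lit 0) (nat_lit 3167817964421) (nat_lit 228) (nat_lit 7640125756325) (nat_lit 76) (nat_lit 6834906550826) (nat_lit 35) (nat_lit 5) (nat_lit 38) (nat_lit 5) (nat_lit 36) (nat_lit 5) (nat_lit 404) (nat_lit 395) (nat_lit 221)) (XT.nd (nat_lit 78) (nat_lit 0) (nat_lit 0) (XT.lf (nat_lit 0) (nat_lit 2932948596349) (nat_lit 152) (nat_lit 4020679376315)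 (nat_lit 228) (nat_lit 12237509784695) (nat_lit 33) (nat_lit 5) (nat_lit 35) (nat_lit 5) (nat_lit 36) (nat_lit 5) (nat_lit 405) (nat_lit 395) (nat_lit 220)) (XT.lf (nat_lit 0) (nat_lit 11882412626294) (nat_lit 228) (nat_lit 5136865715415) (nat_lit 76) (nat_lit 3866124552683) (nat_lit 33) (nat_lit 5) (nat_lit 36) (nat_lit 5) (nat_lit 34) (nat_lit 4) (nat_lit 406) (nat_lit 395) (nat_lit 219))))) (XT.nd (nat_lit 234) (nat_lit 304) (nat_lit 0) (XT.nd (nat_lit 78) (nat_lit 228) (nat_lit 0) (XT.lf (nat_lit 0) (nat_lit 8190357594586) (nat_lit 76) (nat_lit 9890763548026) (nat_lit 152) (nat_lit 4673095734671) (nat_lit 32) (nat_lit 5) (nat_lit 33) (nat_lit 5) (nat_lit 34) (nat_lit 4) (nat_lit 407) (nat_lit 395) (nat_lit 218)) (XT.nd (nat_lit 78) (nat_lit 152) (nat_lit 0) (XT.lf (nat_lit 0) (nat_lit 560320101053) (nat_lit 152) (nat_lit 794566296772) (nat_lit 76) (nat_lit 23504368498377) (nat_lit 31)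 (nat_lit 5) (nat_lit 33) (nat_lit 5) (nat_lit 32) (nat_lit 5) (nat_lit 408) (nat_lit 395) (nat_lit 217)) (XT.lf (nat_lit 0) (nat_lit 7166875925074) (nat_lit 228) (nat_lit 11273001858625) (nat_lit 76) (nat_lit 8646807038290) (nat_lit 29) (nat_lit 5) (nat_lit 32) (nat_lit 5) (nat_lit 30) (nat_lit 4) (nat_lit 409) (nat_lit 395) (nat_lit 216)))) (XT.nd (nat_lit 156) (nat_lit 228) (nat_lit 0) (XT.nd (nat_lit 78) (nat_lit 0) (nat_lit 0) (XT.lf (nat_lit 0) (nat_lit 5811338211926) (nat_lit 76) (nat_lit 9301742397147) (nat_lit 152) (nat_lit 14482848804614) (nat_lit 28) (nat_lit 5) (nat_lit 29) (nat_lit 5) (nat_lit 30) (nat_lit 4) (nat_lit 410) (nat_lit 395) (nat_lit 215)) (XT.lf (nat_lit 0) (nat_lit 24918531037267) (nat_lit 152) (nat_lit 5745953622170) (nat_lit 0) (nat_lit 1716978778463) (nat_lit 28) (nat_lit 5) (nat_lit 30) (nat_lit 4) (nat_lit 28) (nat_lit 4) (nat_lit 411) (nat_lit 395) (nat_lit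 214))) (XT.nd (nat_lit 78) (nat_lit 76) (nat_lit 0) (XT.lf (nat_lit 0) (nat_lit 1712821014329) (nat_lit 152) (nat_lit 19518987078027) (nat_lit 76) (nat_lit 14175657816538) (nat_lit 26) (nat_lit 5) (nat_lit 28) (nat_lit 5) (nat_lit 27) (nat_lit 4) (nat_lit 412) (nat_lit 395) (nat_lit 213)) (XT.lf (nat_lit 0) (nat_lit 2417027834556) (nat_lit 76) (nat_lit 9498590813545) (nat_lit 152) (nat_lit 26856231942436) (nat_lit 25) (nat_lit 5) (nat_lit 26) (nat_lit 5) (nat_lit 27) (nat_lit 4) (nat_lit 413) (nat_lit 395) (nat_lit 212)))))) (XT.nd (nat_lit 546) (nat_lit 912) (nat_lit 0) (XT.nd (nat_lit 234) (nat_lit 304) (nat_lit 0) (XT.nd (nat_lit 78) (nat_lit 152) (nat_lit 0) (XT.lf (nat_lit 0) (nat_lit 24883141080852) (nat_lit 152) (nat_lit 12864727873450) (nat_lit 0) (nat_lit 4707878247038) (nat_lit 25) (nat_lit 5) (nat_lit 27) (nat_lit 4) (nat_lit 25) (nat_lit 4) (nat_lit 414) (nat_lit 395) (nat_lit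 211)) (XT.nd (nat_lit 78) (nat_lit 76) (nat_lit 0) (XT.lf (nat_lit 0) (nat_lit 15035095570201) (nat_lit 76) (nat_lit 25835581401694) (nat_lit 76) (nat_lit 5660318567862) (nat_lit 24) (nat_lit 4) (nat_lit 25) (nat_lit 5) (nat_lit 25) (nat_lit 4) (nat_lit 415) (nat_lit 395) (nat_lit 210)) (XT.lf (nat_lit 0) (nat_lit 8027638476209) (nat_lit 152) (nat_lit 2915840109997) (nat_lit 76) (nat_lit 40118447482297) (nat_lit 23) (nat_lit 5) (nat_lit 25) (nat_lit 5) (nat_lit 24) (nat_lit 4) (nat_lit 416) (nat_lit 395) (nat_lit 209)))) (XT.nd (nat_lit 156) (nat_lit 152) (nat_lit 0) (XT.nd (nat_lit 78) (nat_lit 76) (nat_lit 0) (XT.lf (nat_lit 0) (nat_lit 24871530900065) (nat_lit 152) (nat_lit 23780372747230) (nat_lit 0) (nat_lit 7327824088013) (nat_lit 22) (nat_lit 5) (nat_lit 24) (nat_lit 4) (nat_lit 22) (nat_lit 4) (nat_lit 417) (nat_lit 395) (nat_lit 208)) (XT.lf (nat_lit 0) (nat_lit 11821224260083)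 (nat_lit 76) (nat_lit 33591069601501) (nat_lit 76) (nat_lit 16047362789438) (nat_lit 21) (nat_lit 4) (nat_lit 22) (nat_lit 5) (nat_lit 22) (nat_lit 4) (nat_lit 418) (nat_lit 395) (nat_lit 207))) (XT.nd (nat_lit 78) (nat_lit 76) (nat_lit 0) (XT.lf (nat_lit 0) (nat_lit 2461559542396) (nat_lit 152) (nat_lit 12251353795918) (nat_lit 76) (nat_lit 52845418464406) (nat_lit 20) (nat_lit 5) (nat_lit 22) (nat_lit 5) (nat_lit 21) (nat_lit 4) (nat_lit 419) (nat_lit 395) (nat_lit 206)) (XT.lf (nat_lit 0) (nat_lit 23857595232019) (nat_lit 152) (nat_lit 41734333077067) (nat_lit 0) (nat_lit 8602198004124) (nat_lit 19) (nat_lit 5) (nat_lit 21) (nat_lit 4) (nat_lit 19) (nat_lit 4) (nat_lit 420) (nat_lit 395) (nat_lit 205))))) (XT.nd (nat_lit 780) (nat_lit 228) (nat_lit 0) (XT.nd (nat_lit 78) (nat_lit 608) (nat_lit 0) (XT.lf (nat_lit 0) (nat_lit 3067223947892) (nat_lit 76) (nat_lit 46894341920633) (nat_lit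 76) (nat_lit 31638944692732) (nat_lit 18) (nat_lit 4) (nat_lit 19) (nat_lit 5) (nat_lit 19) (nat_lit 4) (nat_lit 421) (nat_lit 395) (nat_lit 204)) (XT.nd (nat_lit 624) (nat_lit 608) (nat_lit 0) (XT.lf (nat_lit 0) (nat_lit 59279384459876) (nat_lit 76) (nat_lit 22883315051458) (nat_lit 76) (nat_lit 7627917823552) (nat_lit 18) (nat_lit 4) (nat_lit 19) (nat_lit 5) (nat_lit 19) (nat_lit 4) (nat_lit 422) (nat_lit 395) (nat_lit 203)) (XT.lf (nat_lit 0) (nat_lit 27502290762157) (nat_lit 152) (nat_lit 153186308257095) (nat_lit 0) (nat_lit 17471619452596) (nat_lit 10) (nat_lit 5) (nat_lit 12) (nat_lit 4) (nat_lit 10) (nat_lit 4) (nat_lit 430) (nat_lit 395) (nat_lit 195)))) (XT.nd (nat_lit 156) (nat_lit 152) (nat_lit 0) (XT.nd (nat_lit 78) (nat_lit 76) (nat_lit 0) (XT.lf (nat_lit 0) (nat_lit 86024825892876) (nat_lit 152) (nat_lit 57479549196088) (nat_lit 0) (nat_lit 75994154583314) (nat_lit 10) (nat_lit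 5) (nat_lit 12) (nat_lit 4) (nat_lit 10) (nat_lit 4) (nat_lit 431) (nat_lit 395) (nat_lit 194)) (XT.lf (nat_lit 0) (nat_lit 57722038769809) (nat_lit 76) (nat_lit 97993849056294) (nat_lit 76) (nat_lit 87963177746731) (nat_lit 9) (nat_lit 4) (nat_lit 10) (nat_lit 5) (nat_lit 10) (nat_lit 4) (nat_lit 432) (nat_lit 395) (nat_lit 193))) (XT.nd (nat_lit 78) (nat_lit 152) (nat_lit 0) (XT.lf (nat_lit 0) (nat_lit 196663782448178) (nat_lit 76) (nat_lit 42201439400015) (nat_lit 76) (nat_lit 32170768090452) (nat_lit 9) (nat_lit 4) (nat_lit 10) (nat_lit 5) (nat_lit 10) (nat_lit 4) (nat_lit 433) (nat_lit 395) (nat_lit 192)) (XT.lf (nat_lit 0) (nat_lit 32620860577440) (nat_lit 152) (nat_lit 245256599901920) (nat_lit 0) (nat_lit 23898537699559) (nat_lit 7) (nat_lit 5) (nat_lit 9) (nat_lit 4) (nat_lit 7) (nat_lit 4) (nat_lit 434) (nat_lit 395) (nat_lit 191))))))))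
noncomputable def xc118 : XT := (XT.nd (nat_lit 51558) (nat_lit 76) (nat_lit 0) (XT.nd (nat_lit 50544) (nat_lit 0) (nat_lit 1520) (XT.nd (nat_lit 468) (nat_lit 0) (nat_lit 0) (XT.nd (nat_lit 234) (nat_lit 76) (nat_lit 0) (XT.nd (nat_lit 78) (nat_lit 76) (nat_lit 0) (XT.lf (nat_lit 0) (nat_lit 109919915765490) (nat_lit 152) (nat_lit 124867354387106) (nat_lit 0) (nat_lit 101197592887607) (nat_lit 7) (nat_lit 5) (nat_lit 9) (nat_lit 4) (nat_lit 7) (nat_lit 4) (nat_lit 435) (nat_lit 395) (nat_lit 190)) (XT.nd (nat_lit 78) (nat_lit 0) (nat_lit 0) (XT.lf (nat_lit 0) (nat_lit 14907441482325) (nat_lit 76) (nat_lit 184523673111001) (nat_lit 76) (nat_lit 175801350233118) (nat_lit 6) (nat_lit 4) (nat_lit 7) (nat_lit 5) (nat_lit 7) (nat_lit 4) (nat_lit 436) (nat_lit 395) (nat_lit 189)) (XT.lf (nat_lit 0) (nat_lit 189681844628615) (nat_lit 76) (nat_lit 119214305777859) (nat_lit 76) (nat_lit 110491982899975)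 (nat_lit 6) (nat_lit 4) (nat_lit 7) (nat_lit 5) (nat_lit 7) (nat_lit 4) (nat_lit 437) (nat_lit 395) (nat_lit 188)))) (XT.nd (nat_lit 78) (nat_lit 76) (nat_lit 0) (XT.lf (nat_lit 0) (nat_lit 390672408246837) (nat_lit 76) (nat_lit 44108533344751) (nat_lit 76) (nat_lit 35386210466868) (nat_lit 6) (nat_lit 4) (nat_lit 7) (nat_lit 5) (nat_lit 7) (nat_lit 4) (nat_lit 438) (nat_lit 395) (nat_lit 187)) (XT.nd (nat_lit 78) (nat_lit 0) (nat_lit 0) (XT.lf (nat_lit 0) (nat_lit 52636783848524) (nat_lit 76) (nat_lit 429628840133776) (nat_lit 0) (nat_lit 45052155259060) (nat_lit 5) (nat_lit 5) (nat_lit 6) (nat_lit 4) (nat_lit 5) (nat_lit 4) (nat_lit 439) (nat_lit 395) (nat_lit 186)) (XT.lf (nat_lit 0) (nat_lit 156694043321905) (nat_lit 76) (nat_lit 286016730310249) (nat_lit 0) (nat_lit 149109414732440) (nat_lit 5) (nat_lit 5) (nat_lit 6) (nat_lit 4) (nat_lit 5) (nat_lit 4) (nat_lit 440) (nat_lit 395) (nat_lit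 185))))) (XT.nd (nat_lit 49764) (nat_lit 0) (nat_lit 2660) (XT.nd (nat_lit 49608) (nat_lit 0) (nat_lit 2812) (XT.lf (nat_lit 0) (nat_lit 276359891716288) (nat_lit 76) (nat_lit 120862804013204) (nat_lit 0) (nat_lit 268775263126823) (nat_lit 5) (nat_lit 5) (nat_lit 6) (nat_lit 4) (nat_lit 5) (nat_lit 4) (nat_lit 441) (nat_lit 395) (nat_lit 184)) (XT.nd (nat_lit 78) (nat_lit 0) (nat_lit 0) (XT.lf (nat_lit 0) (nat_lit 1511009693182) (nat_lit 380) (nat_lit 1782977911714) (nat_lit 380) (nat_lit 1782977911714) (nat_lit 42) (nat_lit 3) (nat_lit 47) (nat_lit 3) (nat_lit 47) (nat_lit 5) (nat_lit 396) (nat_lit 396) (nat_lit 228)) (XT.lf (nat_lit 76) (nat_lit 1635233164818) (nat_lit 0) (nat_lit 1681149194324) (nat_lit 380) (nat_lit 7588936773751) (nat_lit 43) (nat_lit 5) (nat_lit 42) (nat_lit 3) (nat_lit 47) (nat_lit 5) (nat_lit 397) (nat_lit 396) (nat_lit 227)))) (XT.nd (nat_lit 156) (nat_lit 228)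 (nat_lit 0) (XT.nd (nat_lit 78) (nat_lit 0) (nat_lit 0) (XT.lf (nat_lit 0) (nat_lit 4014223889531) (nat_lit 304) (nat_lit 3897011678555) (nat_lit 380) (nat_lit 3804281262676) (nat_lit 43) (nat_lit 5) (nat_lit 47) (nat_lit 5) (nat_lit 48) (nat_lit 5) (nat_lit 398) (nat_lit 396) (nat_lit 226)) (XT.lf (nat_lit 76) (nat_lit 2417161458788) (nat_lit 0) (nat_lit 2579724415534) (nat_lit 380) (nat_lit 7623336675261) (nat_lit 44) (nat_lit 5) (nat_lit 43) (nat_lit 5) (nat_lit 48) (nat_lit 5) (nat_lit 399) (nat_lit 396) (nat_lit 225))) (XT.nd (nat_lit 78) (nat_lit 304) (nat_lit 0) (XT.lf (nat_lit 0) (nat_lit 6487415535833) (nat_lit 304) (nat_lit 3670407424106) (nat_lit 76) (nat_lit 3448740909440) (nat_lit 44) (nat_lit 5) (nat_lit 48) (nat_lit 5) (nat_lit 45) (nat_lit 5) (nat_lit 400) (nat_lit 396) (nat_lit 224)) (XT.lf (nat_lit 0) (nat_lit 4082777344833) (nat_lit 304) (nat_lit 4410650424756) (nat_lit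 380) (nat_lit 6203643149101) (nat_lit 40) (nat_lit 5) (nat_lit 44) (nat_lit 5) (nat_lit 45) (nat_lit 5) (nat_lit 401) (nat_lit 396) (nat_lit 223)))))) (XT.nd (nat_lit 468) (nat_lit 608) (nat_lit 0) (XT.nd (nat_lit 234) (nat_lit 304) (nat_lit 0) (XT.nd (nat_lit 78) (nat_lit 228) (nat_lit 0) (XT.lf (nat_lit 0) (nat_lit 11092379594415) (nat_lit 380) (nat_lit 2611106671773) (nat_lit 76) (nat_lit 2203862095809) (nat_lit 40) (nat_lit 5) (nat_lit 45) (nat_lit 5) (nat_lit 41) (nat_lit 5) (nat_lit 402) (nat_lit 396) (nat_lit 222)) (XT.nd (nat_lit 78) (nat_lit 76) (nat_lit 0) (XT.lf (nat_lit 0) (nat_lit 7006274278394) (nat_lit 152) (nat_lit 7575045764073) (nat_lit 228) (nat_lit 2642825501909) (nat_lit 38) (nat_lit 5) (nat_lit 40) (nat_lit 5) (nat_lit 41) (nat_lit 5) (nat_lit 403) (nat_lit 396) (nat_lit 221)) (XT.lf (nat_lit 0) (nat_lit 11024933815) (nat_lit 228) (nat_lit 358774832504) (nat_lit 76)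 (nat_lit 18348113917756) (nat_lit 37) (nat_lit 5) (nat_lit 40) (nat_lit 5) (nat_lit 38) (nat_lit 5) (nat_lit 404) (nat_lit 396) (nat_lit 220)))) (XT.nd (nat_lit 78) (nat_lit 152) (nat_lit 0) (XT.lf (nat_lit 0) (nat_lit 3642990659632) (nat_lit 228) (nat_lit 8786144618978) (nat_lit 76) (nat_lit 7860142533616) (nat_lit 35) (nat_lit 5) (nat_lit 38) (nat_lit 5) (nat_lit 36) (nat_lit 5) (nat_lit 405) (nat_lit 396) (nat_lit 219)) (XT.nd (nat_lit 78) (nat_lit 0) (nat_lit 0) (XT.lf (nat_lit 0) (nat_lit 3372890886561) (nat_lit 152) (nat_lit 4623781282511) (nat_lit 228) (nat_lit 14073136251815) (nat_lit 33) (nat_lit 5) (nat_lit 35) (nat_lit 5) (nat_lit 36) (nat_lit 5) (nat_lit 406) (nat_lit 396) (nat_lit 218)) (XT.lf (nat_lit 0) (nat_lit 13664774520688) (nat_lit 228) (nat_lit 5907395572009) (nat_lit 76) (nat_lit 4446043235785) (nat_lit 33) (nat_lit 5) (nat_lit 36) (nat_lit 5) (nat_lit 34) (nat_lit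 4) (nat_lit 407) (nat_lit 396) (nat_lit 217))))) (XT.nd (nat_lit 234) (nat_lit 304) (nat_lit 0) (XT.nd (nat_lit 78) (nat_lit 228) (nat_lit 0) (XT.lf (nat_lit 0) (nat_lit 9418911234459) (nat_lit 76) (nat_lit 11374378079965) (nat_lit 152) (nat_lit 5374060094388) (nat_lit 32) (nat_lit 5) (nat_lit 33) (nat_lit 5) (nat_lit 34) (nat_lit 4) (nat_lit 408) (nat_lit 396) (nat_lit 216)) (XT.nd (nat_lit 78) (nat_lit 152) (nat_lit 0) (XT.lf (nat_lit 0) (nat_lit 644368116594) (nat_lit 152) (nat_lit 913751240654) (nat_lit 76) (nat_lit 27030023773327) (nat_lit 31) (nat_lit 5) (nat_lit 33) (nat_lit 5) (nat_lit 32) (nat_lit 5) (nat_lit 409) (nat_lit 396) (nat_lit 215)) (XT.lf (nat_lit 0) (nat_lit 8241907314204) (nat_lit 228) (nat_lit 12963952136770) (nat_lit 76) (nat_lit 9943828094258) (nat_lit 29) (nat_lit 5) (nat_lit 32) (nat_lit 5) (nat_lit 30) (nat_lit 4) (nat_lit 410) (nat_lit 396) (nat_lit 214)))) (XT.nd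 (nat_lit 156) (nat_lit 228) (nat_lit 0) (XT.nd (nat_lit 78) (nat_lit 0) (nat_lit 0) (XT.lf (nat_lit 0) (nat_lit 6683038944333) (nat_lit 76) (nat_lit 10697003756447) (nat_lit 152) (nat_lit 16655276124908) (nat_lit 28) (nat_lit 5) (nat_lit 29) (nat_lit 5) (nat_lit 30) (nat_lit 4) (nat_lit 411) (nat_lit 396) (nat_lit 213)) (XT.lf (nat_lit 0) (nat_lit 28656310693168) (nat_lit 152) (nat_lit 6607846664922) (nat_lit 0) (nat_lit 1974525595449) (nat_lit 28) (nat_lit 5) (nat_lit 30) (nat_lit 4) (nat_lit 28) (nat_lit 4) (nat_lit 412) (nat_lit 396) (nat_lit 212))) (XT.nd (nat_lit 78) (nat_lit 76) (nat_lit 0) (XT.lf (nat_lit 0) (nat_lit 1969744166785) (nat_lit 152) (nat_lit 22446835139153) (nat_lit 76) (nat_lit 16302006489244) (nat_lit 26) (nat_lit 5) (nat_lit 28) (nat_lit 5) (nat_lit 27) (nat_lit 4) (nat_lit 413) (nat_lit 396) (nat_lit 211)) (XT.lf (nat_lit 0) (nat_lit 2779582010290) (nat_lit 76) (nat_lit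 10923379435315) (nat_lit 152) (nat_lit 30884666733469) (nat_lit 25) (nat_lit 5) (nat_lit 26) (nat_lit 5) (nat_lit 27) (nat_lit 4) (nat_lit 414) (nat_lit 396) (nat_lit 210))))))) (XT.nd (nat_lit 1794) (nat_lit 152) (nat_lit 0) (XT.nd (nat_lit 468) (nat_lit 1064) (nat_lit 0) (XT.nd (nat_lit 234) (nat_lit 228) (nat_lit 0) (XT.nd (nat_lit 78) (nat_lit 152) (nat_lit 0) (XT.lf (nat_lit 0) (nat_lit 28615612243241) (nat_lit 152) (nat_lit 14794437053959) (nat_lit 0) (nat_lit 5414059984301) (nat_lit 25) (nat_lit 5) (nat_lit 27) (nat_lit 4) (nat_lit 25) (nat_lit 4) (nat_lit 415) (nat_lit 396) (nat_lit 209)) (XT.nd (nat_lit 78) (nat_lit 76) (nat_lit 0) (XT.lf (nat_lit 0) (nat_lit 17290359906216) (nat_lit 76) (nat_lit 29710918611710) (nat_lit 76) (nat_lit 6509366352757) (nat_lit 24) (nat_lit 4) (nat_lit 25) (nat_lit 5) (nat_lit 25) (nat_lit 4) (nat_lit 416) (nat_lit 396) (nat_lit 208)) (XT.lf (nat_lit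 0) (nat_lit 9231784247865) (nat_lit 152) (nat_lit 3353216126054) (nat_lit 76) (nat_lit 46136214604826) (nat_lit 23) (nat_lit 5) (nat_lit 25) (nat_lit 5) (nat_lit 24) (nat_lit 4) (nat_lit 417) (nat_lit 396) (nat_lit 207)))) (XT.nd (nat_lit 78) (nat_lit 152) (nat_lit 0) (XT.lf (nat_lit 0) (nat_lit 28602260535297) (nat_lit 152) (nat_lit 27347428658869) (nat_lit 0) (nat_lit 8426997701406) (nat_lit 22) (nat_lit 5) (nat_lit 24) (nat_lit 4) (nat_lit 22) (nat_lit 4) (nat_lit 418) (nat_lit 396) (nat_lit 206)) (XT.nd (nat_lit 78) (nat_lit 76) (nat_lit 0) (XT.lf (nat_lit 0) (nat_lit 13594407899522) (nat_lit 76) (nat_lit 38629730041511) (nat_lit 76) (nat_lit 18454467207611) (nat_lit 21) (nat_lit 4) (nat_lit 22) (nat_lit 5) (nat_lit 22) (nat_lit 4) (nat_lit 419) (nat_lit 396) (nat_lit 205)) (XT.lf (nat_lit 0) (nat_lit 2830793473948) (nat_lit 152) (nat_lit 14089056864917) (nat_lit 76) (nat_lit 60772231234235)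 (nat_lit 20) (nat_lit 5) (nat_lit 22) (nat_lit 5) (nat_lit 21) (nat_lit 4) (nat_lit 420) (nat_lit 396) (nat_lit 204))))) (XT.nd (nat_lit 1014) (nat_lit 228) (nat_lit 0) (XT.nd (nat_lit 858) (nat_lit 760) (nat_lit 0) (XT.lf (nat_lit 0) (nat_lit 27436234517012) (nat_lit 152) (nat_lit 47994483038236) (nat_lit 0) (nat_lit 9892527704915) (nat_lit 19) (nat_lit 5) (nat_lit 21) (nat_lit 4) (nat_lit 19) (nat_lit 4) (nat_lit 421) (nat_lit 396) (nat_lit 203)) (XT.nd (nat_lit 78) (nat_lit 76) (nat_lit 0) (XT.lf (nat_lit 0) (nat_lit 98928549776900) (nat_lit 152) (nat_lit 66101481575304) (nat_lit 0) (nat_lit 87393277770901) (nat_lit 10) (nat_lit 5) (nat_lit 12) (nat_lit 4) (nat_lit 10) (nat_lit 4) (nat_lit 432) (nat_lit 396) (nat_lit 192)) (XT.lf (nat_lit 0) (nat_lit 66380344585469) (nat_lit 76) (nat_lit 112692926414639) (nat_lit 76) (nat_lit 101157654408640) (nat_lit 9) (nat_lit 4) (nat_lit 10) (nat_lit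 5) (nat_lit 10) (nat_lit 4) (nat_lit 433) (nat_lit 396) (nat_lit 191)))) (XT.nd (nat_lit 156) (nat_lit 76) (nat_lit 0) (XT.nd (nat_lit 78) (nat_lit 152) (nat_lit 0) (XT.lf (nat_lit 0) (nat_lit 226163349815566) (nat_lit 76) (nat_lit 48531655309932) (nat_lit 76) (nat_lit 36996383303932) (nat_lit 9) (nat_lit 4) (nat_lit 10) (nat_lit 5) (nat_lit 10) (nat_lit 4) (nat_lit 434) (nat_lit 396) (nat_lit 190)) (XT.lf (nat_lit 0) (nat_lit 37513989664137) (nat_lit 152) (nat_lit 282045089887037) (nat_lit 0) (nat_lit 27483318354571) (nat_lit 7) (nat_lit 5) (nat_lit 9) (nat_lit 4) (nat_lit 7) (nat_lit 4) (nat_lit 435) (nat_lit 396) (nat_lit 189))) (XT.nd (nat_lit 78) (nat_lit 76) (nat_lit 0) (XT.lf (nat_lit 0) (nat_lit 126407903130383) (nat_lit 152) (nat_lit 143597457545023) (nat_lit 0) (nat_lit 116377231820817) (nat_lit 7) (nat_lit 5) (nat_lit 9) (nat_lit 4) (nat_lit 7) (nat_lit 4) (nat_lit 436) (nat_lit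 396) (nat_lit 188)) (XT.lf (nat_lit 0) (nat_lit 17143557704815) (nat_lit 76) (nat_lit 212202224077576) (nat_lit 76) (nat_lit 202171552768010) (nat_lit 6) (nat_lit 4) (nat_lit 7) (nat_lit 5) (nat_lit 7) (nat_lit 4) (nat_lit 437) (nat_lit 396) (nat_lit 187)))))) (XT.nd (nat_lit 50076) (nat_lit 0) (nat_lit 2508) (XT.nd (nat_lit 234) (nat_lit 76) (nat_lit 0) (XT.nd (nat_lit 78) (nat_lit 76) (nat_lit 0) (XT.lf (nat_lit 0) (nat_lit 218134121323031) (nat_lit 76) (nat_lit 137096451644471) (nat_lit 76) (nat_lit 127065780334905) (nat_lit 6) (nat_lit 4) (nat_lit 7) (nat_lit 5) (nat_lit 7) (nat_lit 4) (nat_lit 438) (nat_lit 396) (nat_lit 186)) (XT.nd (nat_lit 78) (nat_lit 76) (nat_lit 0) (XT.lf (nat_lit 0) (nat_lit 449273269483968) (nat_lit 76) (nat_lit 50724813346408) (nat_lit 76) (nat_lit 40694142036841) (nat_lit 6) (nat_lit 4) (nat_lit 7) (nat_lit 5) (nat_lit 7) (nat_lit 4) (nat_lit 439) (nat_lit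 396) (nat_lit 185)) (XT.lf (nat_lit 0) (nat_lit 60532301425856) (nat_lit 76) (nat_lit 494073166153731) (nat_lit 0) (nat_lit 51809978547970) (nat_lit 5) (nat_lit 5) (nat_lit 6) (nat_lit 4) (nat_lit 5) (nat_lit 4) (nat_lit 440) (nat_lit 396) (nat_lit 184)))) (XT.nd (nat_lit 49686) (nat_lit 0) (nat_lit 2888) (XT.nd (nat_lit 312) (nat_lit 76) (nat_lit 0) (XT.lf (nat_lit 0) (nat_lit 180198149820236) (nat_lit 76) (nat_lit 328919239856689) (nat_lit 0) (nat_lit 171475826942351) (nat_lit 5) (nat_lit 5) (nat_lit 6) (nat_lit 4) (nat_lit 5) (nat_lit 4) (nat_lit 441) (nat_lit 396) (nat_lit 183)) (XT.lf (nat_lit 0) (nat_lit 679995468749403) (nat_lit 76) (nat_lit 215526767423082) (nat_lit 76) (nat_lit 206804444545194) (nat_lit 4) (nat_lit 4) (nat_lit 5) (nat_lit 5) (nat_lit 5) (nat_lit 4) (nat_lit 445) (nat_lit 396) (nat_lit 179))) (XT.nd (nat_lit 78) (nat_lit 0) (nat_lit 0) (XT.lf (nat_lit 0) (nat_lit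 1737661147724) (nat_lit 380) (nat_lit 2050424598147) (nat_lit 380) (nat_lit 2050424598147) (nat_lit 42) (nat_lit 3) (nat_lit 47) (nat_lit 3) (nat_lit 47) (nat_lit 5) (nat_lit 397) (nat_lit 397) (nat_lit 226)) (XT.lf (nat_lit 76) (nat_lit 1880518140160) (nat_lit 0) (nat_lit 1933321573860) (nat_lit 380) (nat_lit 8727277288656) (nat_lit 43) (nat_lit 5) (nat_lit 42) (nat_lit 3) (nat_lit 47) (nat_lit 5) (nat_lit 398) (nat_lit 397) (nat_lit 225))))) (XT.nd (nat_lit 234) (nat_lit 456) (nat_lit 0) (XT.nd (nat_lit 78) (nat_lit 0) (nat_lit 0) (XT.lf (nat_lit 0) (nat_lit 4616357473822) (nat_lit 304) (nat_lit 4481563429655) (nat_lit 380) (nat_lit 4374923451771) (nat_lit 43) (nat_lit 5) (nat_lit 47) (nat_lit 5) (nat_lit 48) (nat_lit 5) (nat_lit 399) (nat_lit 397) (nat_lit 224)) (XT.nd (nat_lit 78) (nat_lit 0) (nat_lit 76) (XT.lf (nat_lit 76) (nat_lit 2779735678260) (nat_lit 0) (nat_lit 2966683077988)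 (nat_lit 380) (nat_lit 8766837175657) (nat_lit 44) (nat_lit 5) (nat_lit 43) (nat_lit 5) (nat_lit 48) (nat_lit 5) (nat_lit 400) (nat_lit 397) (nat_lit 223)) (XT.lf (nat_lit 0) (nat_lit 7460527866878) (nat_lit 304) (nat_lit 4220968537049) (nat_lit 76) (nat_lit 3966052045758) (nat_lit 44) (nat_lit 5) (nat_lit 48) (nat_lit 5) (nat_lit 45) (nat_lit 5) (nat_lit 401) (nat_lit 397) (nat_lit 222)))) (XT.nd (nat_lit 156) (nat_lit 228) (nat_lit 0) (XT.nd (nat_lit 78) (nat_lit 0) (nat_lit 0) (XT.lf (nat_lit 0) (nat_lit 4695193947201) (nat_lit 304) (nat_lit 5072247988436) (nat_lit 380) (nat_lit 7134189620765) (nat_lit 40) (nat_lit 5) (nat_lit 44) (nat_lit 5) (nat_lit 45) (nat_lit 5) (nat_lit 402) (nat_lit 397) (nat_lit 221)) (XT.lf (nat_lit 0) (nat_lit 12756236534109) (nat_lit 380) (nat_lit 3002772671902) (nat_lit 76) (nat_lit 2534441410207) (nat_lit 40) (nat_lit 5) (nat_lit 45) (nat_lit 5) (nat_lit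 41) (nat_lit 5) (nat_lit 403) (nat_lit 397) (nat_lit 220))) (XT.nd (nat_lit 78) (nat_lit 76) (nat_lit 0) (XT.lf (nat_lit 0) (nat_lit 8057215420762) (nat_lit 152) (nat_lit 8711302628562) (nat_lit 228) (nat_lit 3039249326635) (nat_lit 38) (nat_lit 5) (nat_lit 40) (nat_lit 5) (nat_lit 41) (nat_lit 5) (nat_lit 404) (nat_lit 397) (nat_lit 219)) (XT.lf (nat_lit 0) (nat_lit 12678674332) (nat_lit 228) (nat_lit 412591056806) (nat_lit 76) (nat_lit 21100331005481) (nat_lit 37) (nat_lit 5) (nat_lit 40) (nat_lit 5) (nat_lit 38) (nat_lit 5) (nat_lit 405) (nat_lit 397) (nat_lit 218))))))))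
noncomputable def xc119 : XT := (XT.nd (nat_lit 3042) (nat_lit 0) (nat_lit 0) (XT.nd (nat_lit 1014) (nat_lit 1444) (nat_lit 0) (XT.nd (nat_lit 468) (nat_lit 456) (nat_lit 0) (XT.nd (nat_lit 234) (nat_lit 304) (nat_lit 0) (XT.nd (nat_lit 78) (nat_lit 152) (nat_lit 0) (XT.lf (nat_lit 0) (nat_lit 4189439258991) (nat_lit 228) (nat_lit 10104066311223) (nat_lit 76) (nat_lit 9039163913784) (nat_lit 35) (nat_lit 5) (nat_lit 38) (nat_lit 5) (nat_lit 36) (nat_lit 5) (nat_lit 406) (nat_lit 397) (nat_lit 217)) (XT.nd (nat_lit 78) (nat_lit 0) (nat_lit 0) (XT.lf (nat_lit 0) (nat_lit 3878824520120) (nat_lit 152) (nat_lit 5317348474697) (nat_lit 228) (nat_lit 16184106689145) (nat_lit 33) (nat_lit 5) (nat_lit 35) (nat_lit 5) (nat_lit 36) (nat_lit 5) (nat_lit 407) (nat_lit 397) (nat_lit 216)) (XT.lf (nat_lit 0) (nat_lit 15714490699133) (nat_lit 228) (nat_lit 6793504907268) (nat_lit 76) (nat_lit 5112949721304)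 (nat_lit 33) (nat_lit 5) (nat_lit 36) (nat_lit 5) (nat_lit 34) (nat_lit 4) (nat_lit 408) (nat_lit 397) (nat_lit 215)))) (XT.nd (nat_lit 78) (nat_lit 228) (nat_lit 0) (XT.lf (nat_lit 0) (nat_lit 10831747920146) (nat_lit 76) (nat_lit 13080534791759) (nat_lit 152) (nat_lit 6180169108181) (nat_lit 32) (nat_lit 5) (nat_lit 33) (nat_lit 5) (nat_lit 34) (nat_lit 4) (nat_lit 409) (nat_lit 397) (nat_lit 214)) (XT.nd (nat_lit 78) (nat_lit 152) (nat_lit 0) (XT.lf (nat_lit 0) (nat_lit 741023334373) (nat_lit 152) (nat_lit 1050813926273) (nat_lit 76) (nat_lit 31084527339472) (nat_lit 31) (nat_lit 5) (nat_lit 33) (nat_lit 5) (nat_lit 32) (nat_lit 5) (nat_lit 410) (nat_lit 397) (nat_lit 213)) (XT.lf (nat_lit 0) (nat_lit 9478193411613) (nat_lit 228) (nat_lit 14908544956796) (nat_lit 76) (nat_lit 11435402308567) (nat_lit 29) (nat_lit 5) (nat_lit 32) (nat_lit 5) (nat_lit 30) (nat_lit 4) (nat_lit 411) (nat_lit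 397) (nat_lit 212))))) (XT.nd (nat_lit 234) (nat_lit 228) (nat_lit 0) (XT.nd (nat_lit 78) (nat_lit 152) (nat_lit 0) (XT.lf (nat_lit 0) (nat_lit 7685494786451) (nat_lit 76) (nat_lit 12301554319707) (nat_lit 152) (nat_lit 19153567543343) (nat_lit 28) (nat_lit 5) (nat_lit 29) (nat_lit 5) (nat_lit 30) (nat_lit 4) (nat_lit 412) (nat_lit 397) (nat_lit 211)) (XT.nd (nat_lit 78) (nat_lit 152) (nat_lit 0) (XT.lf (nat_lit 0) (nat_lit 32954757297378) (nat_lit 152) (nat_lit 7599023664227) (nat_lit 0) (nat_lit 2270704434930) (nat_lit 28) (nat_lit 5) (nat_lit 30) (nat_lit 4) (nat_lit 28) (nat_lit 4) (nat_lit 413) (nat_lit 397) (nat_lit 210)) (XT.lf (nat_lit 0) (nat_lit 2265205792035) (nat_lit 152) (nat_lit 25813860409590) (nat_lit 76) (nat_lit 18747307462800) (nat_lit 26) (nat_lit 5) (nat_lit 28) (nat_lit 5) (nat_lit 27) (nat_lit 4) (nat_lit 414) (nat_lit 397) (nat_lit 209)))) (XT.nd (nat_lit 156) (nat_lit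 152) (nat_lit 0) (XT.nd (nat_lit 78) (nat_lit 0) (nat_lit 0) (XT.lf (nat_lit 0) (nat_lit 3196519312250) (nat_lit 76) (nat_lit 12561886350415) (nat_lit 152) (nat_lit 35517366743238) (nat_lit 25) (nat_lit 5) (nat_lit 26) (nat_lit 5) (nat_lit 27) (nat_lit 4) (nat_lit 415) (nat_lit 397) (nat_lit 208)) (XT.lf (nat_lit 0) (nat_lit 32907954079925) (nat_lit 152) (nat_lit 17013602611669) (nat_lit 0) (nat_lit 6226168982103) (nat_lit 25) (nat_lit 5) (nat_lit 27) (nat_lit 4) (nat_lit 25) (nat_lit 4) (nat_lit 416) (nat_lit 397) (nat_lit 207))) (XT.nd (nat_lit 78) (nat_lit 76) (nat_lit 0) (XT.lf (nat_lit 0) (nat_lit 19883913892514) (nat_lit 76) (nat_lit 34167556403288) (nat_lit 76) (nat_lit 7485771305456) (nat_lit 24) (nat_lit 4) (nat_lit 25) (nat_lit 5) (nat_lit 25) (nat_lit 4) (nat_lit 417) (nat_lit 397) (nat_lit 206)) (XT.lf (nat_lit 0) (nat_lit 10616551885215) (nat_lit 152) (nat_lit 3856198544627)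 (nat_lit 76) (nat_lit 53056646795690) (nat_lit 23) (nat_lit 5) (nat_lit 25) (nat_lit 5) (nat_lit 24) (nat_lit 4) (nat_lit 418) (nat_lit 397) (nat_lit 205)))))) (XT.nd (nat_lit 1326) (nat_lit 380) (nat_lit 0) (XT.nd (nat_lit 1014) (nat_lit 836) (nat_lit 0) (XT.nd (nat_lit 78) (nat_lit 152) (nat_lit 0) (XT.lf (nat_lit 0) (nat_lit 32892599615760) (nat_lit 152) (nat_lit 31449542957361) (nat_lit 0) (nat_lit 9691047356761) (nat_lit 22) (nat_lit 5) (nat_lit 24) (nat_lit 4) (nat_lit 22) (nat_lit 4) (nat_lit 419) (nat_lit 397) (nat_lit 204)) (XT.nd (nat_lit 78) (nat_lit 76) (nat_lit 0) (XT.lf (nat_lit 0) (nat_lit 15633569084772) (nat_lit 76) (nat_lit 44424189547574) (nat_lit 76) (nat_lit 21222637288570) (nat_lit 21) (nat_lit 4) (nat_lit 22) (nat_lit 5) (nat_lit 22) (nat_lit 4) (nat_lit 420) (nat_lit 397) (nat_lit 203)) (XT.lf (nat_lit 0) (nat_lit 3255412495185) (nat_lit 152) (nat_lit 16202415394360)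 (nat_lit 76) (nat_lit 69888065919498) (nat_lit 20) (nat_lit 5) (nat_lit 22) (nat_lit 5) (nat_lit 21) (nat_lit 4) (nat_lit 421) (nat_lit 397) (nat_lit 202)))) (XT.nd (nat_lit 156) (nat_lit 76) (nat_lit 0) (XT.nd (nat_lit 78) (nat_lit 0) (nat_lit 0) (XT.lf (nat_lit 0) (nat_lit 36371779533156) (nat_lit 152) (nat_lit 202588892669578) (nat_lit 0) (nat_lit 23106216726256) (nat_lit 10) (nat_lit 5) (nat_lit 12) (nat_lit 4) (nat_lit 10) (nat_lit 4) (nat_lit 432) (nat_lit 397) (nat_lit 191)) (XT.lf (nat_lit 0) (nat_lit 113767832243505) (nat_lit 152) (nat_lit 76016703811451) (nat_lit 0) (nat_lit 100502269436605) (nat_lit 10) (nat_lit 5) (nat_lit 12) (nat_lit 4) (nat_lit 10) (nat_lit 4) (nat_lit 433) (nat_lit 397) (nat_lit 190))) (XT.nd (nat_lit 78) (nat_lit 0) (nat_lit 0) (XT.lf (nat_lit 0) (nat_lit 76337396273429) (nat_lit 76) (nat_lit 129596865376760) (nat_lit 76) (nat_lit 116331302569859) (nat_lit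 9) (nat_lit 4) (nat_lit 10) (nat_lit 5) (nat_lit 10) (nat_lit 4) (nat_lit 434) (nat_lit 397) (nat_lit 189)) (XT.lf (nat_lit 0) (nat_lit 260087852288025) (nat_lit 76) (nat_lit 55811403606356) (nat_lit 76) (nat_lit 42545840799455) (nat_lit 9) (nat_lit 4) (nat_lit 10) (nat_lit 5) (nat_lit 10) (nat_lit 4) (nat_lit 435) (nat_lit 397) (nat_lit 188))))) (XT.nd (nat_lit 234) (nat_lit 152) (nat_lit 0) (XT.nd (nat_lit 78) (nat_lit 76) (nat_lit 0) (XT.lf (nat_lit 0) (nat_lit 43141088113819) (nat_lit 152) (nat_lit 324351853369962) (nat_lit 0) (nat_lit 31605816107817) (nat_lit 7) (nat_lit 5) (nat_lit 9) (nat_lit 4) (nat_lit 7) (nat_lit 4) (nat_lit 436) (nat_lit 397) (nat_lit 187)) (XT.nd (nat_lit 78) (nat_lit 76) (nat_lit 0) (XT.lf (nat_lit 0) (nat_lit 145369088599993) (nat_lit 152) (nat_lit 165137076176665) (nat_lit 0) (nat_lit 133833816593991) (nat_lit 7) (nat_lit 5) (nat_lit 9) (nat_lit 4) (nat_lit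 7) (nat_lit 4) (nat_lit 437) (nat_lit 397) (nat_lit 186)) (XT.lf (nat_lit 0) (nat_lit 19715091360646) (nat_lit 76) (nat_lit 244032557689155) (nat_lit 76) (nat_lit 232497285683152) (nat_lit 6) (nat_lit 4) (nat_lit 7) (nat_lit 5) (nat_lit 7) (nat_lit 4) (nat_lit 438) (nat_lit 397) (nat_lit 185)))) (XT.nd (nat_lit 312) (nat_lit 152) (nat_lit 0) (XT.nd (nat_lit 78) (nat_lit 0) (nat_lit 0) (XT.lf (nat_lit 0) (nat_lit 250854239521577) (nat_lit 76) (nat_lit 157660919391094) (nat_lit 76) (nat_lit 146125647385091) (nat_lit 6) (nat_lit 4) (nat_lit 7) (nat_lit 5) (nat_lit 7) (nat_lit 4) (nat_lit 439) (nat_lit 397) (nat_lit 184)) (XT.lf (nat_lit 0) (nat_lit 516664259906645) (nat_lit 76) (nat_lit 58333535348326) (nat_lit 76) (nat_lit 46798263342323) (nat_lit 6) (nat_lit 4) (nat_lit 7) (nat_lit 5) (nat_lit 7) (nat_lit 4) (nat_lit 440) (nat_lit 397) (nat_lit 183))) (XT.nd (nat_lit 78) (nat_lit 76) (nat_lit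 0) (XT.lf (nat_lit 0) (nat_lit 365485956794865) (nat_lit 76) (nat_lit 159841058307302) (nat_lit 0) (nat_lit 355455285485297) (nat_lit 5) (nat_lit 5) (nat_lit 6) (nat_lit 4) (nat_lit 5) (nat_lit 4) (nat_lit 443) (nat_lit 397) (nat_lit 180)) (XT.lf (nat_lit 0) (nat_lit 100263576240675) (nat_lit 76) (nat_lit 451370878610512) (nat_lit 76) (nat_lit 441340207300944) (nat_lit 4) (nat_lit 4) (nat_lit 5) (nat_lit 5) (nat_lit 5) (nat_lit 4) (nat_lit 444) (nat_lit 397) (nat_lit 179))))))) (XT.nd (nat_lit 50388) (nat_lit 0) (nat_lit 456) (XT.nd (nat_lit 49842) (nat_lit 0) (nat_lit 2204) (XT.nd (nat_lit 49608) (nat_lit 0) (nat_lit 2964) (XT.nd (nat_lit 49452) (nat_lit 0) (nat_lit 2888) (XT.lf (nat_lit 0) (nat_lit 417347861273784) (nat_lit 76) (nat_lit 356712694390049) (nat_lit 76) (nat_lit 346682023080481) (nat_lit 4) (nat_lit 4) (nat_lit 5) (nat_lit 5) (nat_lit 5) (nat_lit 4) (nat_lit 445) (nat_lit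 397) (nat_lit 178)) (XT.nd (nat_lit 78) (nat_lit 0) (nat_lit 0) (XT.lf (nat_lit 0) (nat_lit 1998310320309) (nat_lit 380) (nat_lit 2357988287624) (nat_lit 380) (nat_lit 2357988287624) (nat_lit 42) (nat_lit 3) (nat_lit 47) (nat_lit 3) (nat_lit 47) (nat_lit 5) (nat_lit 398) (nat_lit 398) (nat_lit 224)) (XT.lf (nat_lit 76) (nat_lit 2162595861653) (nat_lit 0) (nat_lit 2223319810232) (nat_lit 380) (nat_lit 10036368881079) (nat_lit 43) (nat_lit 5) (nat_lit 42) (nat_lit 3) (nat_lit 47) (nat_lit 5) (nat_lit 399) (nat_lit 398) (nat_lit 223)))) (XT.nd (nat_lit 78) (nat_lit 0) (nat_lit 0) (XT.lf (nat_lit 0) (nat_lit 5308811095547) (nat_lit 304) (nat_lit 5153797943586) (nat_lit 380) (nat_lit 5031161969304) (nat_lit 43) (nat_lit 5) (nat_lit 47) (nat_lit 5) (nat_lit 48) (nat_lit 5) (nat_lit 400) (nat_lit 398) (nat_lit 222)) (XT.nd (nat_lit 78) (nat_lit 0) (nat_lit 76) (XT.lf (nat_lit 76) (nat_lit 3196696030492)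 (nat_lit 0) (nat_lit 3411685539779) (nat_lit 380) (nat_lit 10081862751331) (nat_lit 44) (nat_lit 5) (nat_lit 43) (nat_lit 5) (nat_lit 48) (nat_lit 5) (nat_lit 401) (nat_lit 398) (nat_lit 221)) (XT.lf (nat_lit 0) (nat_lit 8579607047417) (nat_lit 304) (nat_lit 4854113817097) (nat_lit 76) (nat_lit 4560959852548) (nat_lit 44) (nat_lit 5) (nat_lit 48) (nat_lit 5) (nat_lit 45) (nat_lit 5) (nat_lit 402) (nat_lit 398) (nat_lit 220))))) (XT.nd (nat_lit 234) (nat_lit 380) (nat_lit 0) (XT.nd (nat_lit 78) (nat_lit 152) (nat_lit 0) (XT.lf (nat_lit 0) (nat_lit 5399473039767) (nat_lit 304) (nat_lit 5833085186677) (nat_lit 380) (nat_lit 8204318063349) (nat_lit 40) (nat_lit 5) (nat_lit 44) (nat_lit 5) (nat_lit 45) (nat_lit 5) (nat_lit 403) (nat_lit 398) (nat_lit 219)) (XT.nd (nat_lit 78) (nat_lit 152) (nat_lit 0) (XT.lf (nat_lit 0) (nat_lit 14669672014627) (nat_lit 380) (nat_lit 3453188572205) (nat_lit 76)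 (nat_lit 2914607621758) (nat_lit 40) (nat_lit 5) (nat_lit 45) (nat_lit 5) (nat_lit 41) (nat_lit 5) (nat_lit 404) (nat_lit 398) (nat_lit 218)) (XT.lf (nat_lit 0) (nat_lit 9265797734336) (nat_lit 152) (nat_lit 10017998022755) (nat_lit 228) (nat_lit 3495136725206) (nat_lit 38) (nat_lit 5) (nat_lit 40) (nat_lit 5) (nat_lit 41) (nat_lit 5) (nat_lit 405) (nat_lit 398) (nat_lit 217)))) (XT.nd (nat_lit 156) (nat_lit 152) (nat_lit 0) (XT.nd (nat_lit 78) (nat_lit 152) (nat_lit 0) (XT.lf (nat_lit 0) (nat_lit 14580475817) (nat_lit 228) (nat_lit 474479714895) (nat_lit 76) (nat_lit 24265380656350) (nat_lit 37) (nat_lit 5) (nat_lit 40) (nat_lit 5) (nat_lit 38) (nat_lit 5) (nat_lit 406) (nat_lit 398) (nat_lit 216)) (XT.lf (nat_lit 0) (nat_lit 4817855148153) (nat_lit 228) (nat_lit 11619676257451) (nat_lit 76) (nat_lit 10395038500946) (nat_lit 35) (nat_lit 5) (nat_lit 38) (nat_lit 5) (nat_lit 36) (nat_lit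 5) (nat_lit 407) (nat_lit 398) (nat_lit 215))) (XT.nd (nat_lit 78) (nat_lit 0) (nat_lit 0) (XT.lf (nat_lit 0) (nat_lit 4460648198573) (nat_lit 152) (nat_lit 6114950745757) (nat_lit 228) (nat_lit 18611722692183) (nat_lit 33) (nat_lit 5) (nat_lit 35) (nat_lit 5) (nat_lit 36) (nat_lit 5) (nat_lit 408) (nat_lit 398) (nat_lit 214)) (XT.lf (nat_lit 0) (nat_lit 18071664304260) (nat_lit 228) (nat_lit 7812530642947) (nat_lit 76) (nat_lit 5879892179614) (nat_lit 33) (nat_lit 5) (nat_lit 36) (nat_lit 5) (nat_lit 34) (nat_lit 4) (nat_lit 409) (nat_lit 398) (nat_lit 213)))))) (XT.nd (nat_lit 546) (nat_lit 1140) (nat_lit 0) (XT.nd (nat_lit 234) (nat_lit 304) (nat_lit 0) (XT.nd (nat_lit 78) (nat_lit 228) (nat_lit 0) (XT.lf (nat_lit 0) (nat_lit 12456510108561) (nat_lit 76) (nat_lit 15042615010371) (nat_lit 152) (nat_lit 7107194474132) (nat_lit 32) (nat_lit 5) (nat_lit 33) (nat_lit 5) (nat_lit 34) (nat_lit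 4) (nat_lit 410) (nat_lit 398) (nat_lit 212)) (XT.nd (nat_lit 78) (nat_lit 152) (nat_lit 0) (XT.lf (nat_lit 0) (nat_lit 852176834748) (nat_lit 152) (nat_lit 1208436014852) (nat_lit 76) (nat_lit 35747206440503) (nat_lit 31) (nat_lit 5) (nat_lit 33) (nat_lit 5) (nat_lit 32) (nat_lit 5) (nat_lit 411) (nat_lit 398) (nat_lit 211)) (XT.lf (nat_lit 0) (nat_lit 10899922423565) (nat_lit 228) (nat_lit 17144826699944) (nat_lit 76) (nat_lit 13150712654980) (nat_lit 29) (nat_lit 5) (nat_lit 32) (nat_lit 5) (nat_lit 30) (nat_lit 4) (nat_lit 412) (nat_lit 398) (nat_lit 210)))) (XT.nd (nat_lit 156) (nat_lit 228) (nat_lit 0) (XT.nd (nat_lit 78) (nat_lit 0) (nat_lit 0) (XT.lf (nat_lit 0) (nat_lit 8838319004773) (nat_lit 76) (nat_lit 14146787467507) (nat_lit 152) (nat_lit 22026602674617) (nat_lit 28) (nat_lit 5) (nat_lit 29) (nat_lit 5) (nat_lit 30) (nat_lit 4) (nat_lit 413) (nat_lit 398) (nat_lit 209)) (XT.lf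 (nat_lit 0) (nat_lit 37897970892162) (nat_lit 152) (nat_lit 8738877213533) (nat_lit 0) (nat_lit 2611310100293) (nat_lit 28) (nat_lit 5) (nat_lit 30) (nat_lit 4) (nat_lit 28) (nat_lit 4) (nat_lit 414) (nat_lit 398) (nat_lit 208))) (XT.nd (nat_lit 78) (nat_lit 76) (nat_lit 0) (XT.lf (nat_lit 0) (nat_lit 2604986661015) (nat_lit 152) (nat_lit 29685939470698) (nat_lit 76) (nat_lit 21559403582349) (nat_lit 26) (nat_lit 5) (nat_lit 28) (nat_lit 5) (nat_lit 27) (nat_lit 4) (nat_lit 415) (nat_lit 398) (nat_lit 207)) (XT.lf (nat_lit 0) (nat_lit 3675997209403) (nat_lit 76) (nat_lit 14446169302827) (nat_lit 152) (nat_lit 40844971754533) (nat_lit 25) (nat_lit 5) (nat_lit 26) (nat_lit 5) (nat_lit 27) (nat_lit 4) (nat_lit 416) (nat_lit 398) (nat_lit 206))))) (XT.nd (nat_lit 234) (nat_lit 988) (nat_lit 0) (XT.nd (nat_lit 78) (nat_lit 152) (nat_lit 0) (XT.lf (nat_lit 0) (nat_lit 37844147192063) (nat_lit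 152) (nat_lit 19565643003130) (nat_lit 0) (nat_lit 7160094329537) (nat_lit 25) (nat_lit 5) (nat_lit 27) (nat_lit 4) (nat_lit 25) (nat_lit 4) (nat_lit 417) (nat_lit 398) (nat_lit 205)) (XT.nd (nat_lit 78) (nat_lit 76) (nat_lit 0) (XT.lf (nat_lit 0) (nat_lit 22866500976669) (nat_lit 76) (nat_lit 39292689863645) (nat_lit 76) (nat_lit 8608637001111) (nat_lit 24) (nat_lit 4) (nat_lit 25) (nat_lit 5) (nat_lit 25) (nat_lit 4) (nat_lit 418) (nat_lit 398) (nat_lit 204)) (XT.lf (nat_lit 0) (nat_lit 12209034668126) (nat_lit 152) (nat_lit 4434628326067) (nat_lit 76) (nat_lit 61015143815149) (nat_lit 23) (nat_lit 5) (nat_lit 25) (nat_lit 5) (nat_lit 24) (nat_lit 4) (nat_lit 419) (nat_lit 398) (nat_lit 203)))) (XT.nd (nat_lit 936) (nat_lit 836) (nat_lit 0) (XT.nd (nat_lit 78) (nat_lit 76) (nat_lit 0) (XT.lf (nat_lit 0) (nat_lit 37826489558251) (nat_lit 152) (nat_lit 36166974400710) (nat_lit 0) (nat_lit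 11144704460385) (nat_lit 22) (nat_lit 5) (nat_lit 24) (nat_lit 4) (nat_lit 22) (nat_lit 4) (nat_lit 420) (nat_lit 398) (nat_lit 202)) (XT.lf (nat_lit 0) (nat_lit 17978604447732) (nat_lit 76) (nat_lit 51087817979587) (nat_lit 76) (nat_lit 24406032881717) (nat_lit 21) (nat_lit 4) (nat_lit 22) (nat_lit 5) (nat_lit 22) (nat_lit 4) (nat_lit 421) (nat_lit 398) (nat_lit 201))) (XT.nd (nat_lit 78) (nat_lit 152) (nat_lit 0) (XT.lf (nat_lit 0) (nat_lit 189590276578181) (nat_lit 76) (nat_lit 50004594409863) (nat_lit 76) (nat_lit 32460887597736) (nat_lit 12) (nat_lit 4) (nat_lit 13) (nat_lit 5) (nat_lit 13) (nat_lit 4) (nat_lit 432) (nat_lit 398) (nat_lit 190)) (XT.lf (nat_lit 0) (nat_lit 41827546463191) (nat_lit 152) (nat_lit 232977226569885) (nat_lit 0) (nat_lit 26572149235254) (nat_lit 10) (nat_lit 5) (nat_lit 12) (nat_lit 4) (nat_lit 10) (nat_lit 4) (nat_lit 433) (nat_lit 398) (nat_lit 189))))))))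
noncomputable def xc120 : XT := (XT.nd (nat_lit 51636) (nat_lit 0) (nat_lit 76) (XT.nd (nat_lit 50622) (nat_lit 0) (nat_lit 1824) (XT.nd (nat_lit 624) (nat_lit 152) (nat_lit 0) (XT.nd (nat_lit 234) (nat_lit 228) (nat_lit 0) (XT.nd (nat_lit 78) (nat_lit 76) (nat_lit 0) (XT.lf (nat_lit 0) (nat_lit 130833007080083) (nat_lit 152) (nat_lit 87419209383057) (nat_lit 0) (nat_lit 115577609852146) (nat_lit 10) (nat_lit 5) (nat_lit 12) (nat_lit 4) (nat_lit 10) (nat_lit 4) (nat_lit 434) (nat_lit 398) (nat_lit 188)) (XT.nd (nat_lit 78) (nat_lit 0) (nat_lit 0) (XT.lf (nat_lit 0) (nat_lit 87788005714552) (nat_lit 76) (nat_lit 149036395183218) (nat_lit 76) (nat_lit 133780997955279) (nat_lit 9) (nat_lit 4) (nat_lit 10) (nat_lit 5) (nat_lit 10) (nat_lit 4) (nat_lit 435) (nat_lit 398) (nat_lit 187)) (XT.lf (nat_lit 0) (nat_lit 299101030131324) (nat_lit 76) (nat_lit 64183114147260) (nat_lit 76) (nat_lit 48927716919322)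 (nat_lit 9) (nat_lit 4) (nat_lit 10) (nat_lit 5) (nat_lit 10) (nat_lit 4) (nat_lit 436) (nat_lit 398) (nat_lit 186)))) (XT.nd (nat_lit 78) (nat_lit 76) (nat_lit 0) (XT.lf (nat_lit 0) (nat_lit 49612251330937) (nat_lit 152) (nat_lit 373004631375359) (nat_lit 0) (nat_lit 36346688524034) (nat_lit 7) (nat_lit 5) (nat_lit 9) (nat_lit 4) (nat_lit 7) (nat_lit 4) (nat_lit 437) (nat_lit 398) (nat_lit 185)) (XT.nd (nat_lit 78) (nat_lit 76) (nat_lit 0) (XT.lf (nat_lit 0) (nat_lit 167174451890033) (nat_lit 152) (nat_lit 189907637603079) (nat_lit 0) (nat_lit 153908889083130) (nat_lit 7) (nat_lit 5) (nat_lit 9) (nat_lit 4) (nat_lit 7) (nat_lit 4) (nat_lit 438) (nat_lit 398) (nat_lit 184)) (XT.lf (nat_lit 0) (nat_lit 22672355064822) (nat_lit 76) (nat_lit 280637441342486) (nat_lit 76) (nat_lit 267371878535582) (nat_lit 6) (nat_lit 4) (nat_lit 7) (nat_lit 5) (nat_lit 7) (nat_lit 4) (nat_lit 439) (nat_lit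 398) (nat_lit 183))))) (XT.nd (nat_lit 234) (nat_lit 76) (nat_lit 0) (XT.nd (nat_lit 78) (nat_lit 0) (nat_lit 0) (XT.lf (nat_lit 0) (nat_lit 80053968635769) (nat_lit 76) (nat_lit 653411762238147) (nat_lit 0) (nat_lit 68518696629767) (nat_lit 5) (nat_lit 5) (nat_lit 6) (nat_lit 4) (nat_lit 5) (nat_lit 4) (nat_lit 442) (nat_lit 398) (nat_lit 180)) (XT.nd (nat_lit 78) (nat_lit 0) (nat_lit 0) (XT.lf (nat_lit 0) (nat_lit 238312053137329) (nat_lit 76) (nat_lit 434995694710330) (nat_lit 0) (nat_lit 226776781131325) (nat_lit 5) (nat_lit 5) (nat_lit 6) (nat_lit 4) (nat_lit 5) (nat_lit 4) (nat_lit 443) (nat_lit 398) (nat_lit 179)) (XT.lf (nat_lit 0) (nat_lit 420308850314118) (nat_lit 76) (nat_lit 183817217053347) (nat_lit 0) (nat_lit 408773578308116) (nat_lit 5) (nat_lit 5) (nat_lit 6) (nat_lit 4) (nat_lit 5) (nat_lit 4) (nat_lit 444) (nat_lit 398) (nat_lit 178)))) (XT.nd (nat_lit 49608) (nat_lit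 0) (nat_lit 2888) (XT.nd (nat_lit 49530) (nat_lit 0) (nat_lit 2888) (XT.lf (nat_lit 0) (nat_lit 115303112676819) (nat_lit 76) (nat_lit 519076510402066) (nat_lit 76) (nat_lit 507541238396061) (nat_lit 4) (nat_lit 4) (nat_lit 5) (nat_lit 5) (nat_lit 5) (nat_lit 4) (nat_lit 445) (nat_lit 398) (nat_lit 177)) (XT.lf (nat_lit 0) (nat_lit 2298056868678) (nat_lit 380) (nat_lit 2711686530582) (nat_lit 380) (nat_lit 2711686530582) (nat_lit 42) (nat_lit 3) (nat_lit 47) (nat_lit 3) (nat_lit 47) (nat_lit 5) (nat_lit 399) (nat_lit 399) (nat_lit 222))) (XT.nd (nat_lit 78) (nat_lit 0) (nat_lit 76) (XT.lf (nat_lit 76) (nat_lit 2486985241255) (nat_lit 0) (nat_lit 2556817781989) (nat_lit 380) (nat_lit 11541824212579) (nat_lit 43) (nat_lit 5) (nat_lit 42) (nat_lit 3) (nat_lit 47) (nat_lit 5) (nat_lit 400) (nat_lit 399) (nat_lit 221)) (XT.lf (nat_lit 0) (nat_lit 6105132760371) (nat_lit 304) (nat_lit 5926867634733)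 (nat_lit 380) (nat_lit 5785836264524) (nat_lit 43) (nat_lit 5) (nat_lit 47) (nat_lit 5) (nat_lit 48) (nat_lit 5) (nat_lit 401) (nat_lit 399) (nat_lit 220)))))) (XT.nd (nat_lit 468) (nat_lit 684) (nat_lit 0) (XT.nd (nat_lit 234) (nat_lit 228) (nat_lit 0) (XT.nd (nat_lit 78) (nat_lit 228) (nat_lit 0) (XT.lf (nat_lit 76) (nat_lit 3676200435439) (nat_lit 0) (nat_lit 3923438370817) (nat_lit 380) (nat_lit 11594142163521) (nat_lit 44) (nat_lit 5) (nat_lit 43) (nat_lit 5) (nat_lit 48) (nat_lit 5) (nat_lit 402) (nat_lit 399) (nat_lit 219)) (XT.nd (nat_lit 78) (nat_lit 304) (nat_lit 0) (XT.lf (nat_lit 0) (nat_lit 9866548104912) (nat_lit 304) (nat_lit 5582230889277) (nat_lit 76) (nat_lit 5245103830375) (nat_lit 44) (nat_lit 5) (nat_lit 48) (nat_lit 5) (nat_lit 45) (nat_lit 5) (nat_lit 403) (nat_lit 399) (nat_lit 218)) (XT.lf (nat_lit 0) (nat_lit 6209393996100) (nat_lit 304) (nat_lit 6708047964659)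 (nat_lit 380) (nat_lit 9434965772451) (nat_lit 40) (nat_lit 5) (nat_lit 44) (nat_lit 5) (nat_lit 45) (nat_lit 5) (nat_lit 404) (nat_lit 399) (nat_lit 217)))) (XT.nd (nat_lit 78) (nat_lit 228) (nat_lit 0) (XT.lf (nat_lit 0) (nat_lit 16870122817125) (nat_lit 380) (nat_lit 3971166857672) (nat_lit 76) (nat_lit 3351798765037) (nat_lit 40) (nat_lit 5) (nat_lit 45) (nat_lit 5) (nat_lit 41) (nat_lit 5) (nat_lit 405) (nat_lit 399) (nat_lit 216)) (XT.nd (nat_lit 78) (nat_lit 76) (nat_lit 0) (XT.lf (nat_lit 0) (nat_lit 10655667394835) (nat_lit 152) (nat_lit 11520697726099) (nat_lit 228) (nat_lit 4019407233667) (nat_lit 38) (nat_lit 5) (nat_lit 40) (nat_lit 5) (nat_lit 41) (nat_lit 5) (nat_lit 406) (nat_lit 399) (nat_lit 215)) (XT.lf (nat_lit 0) (nat_lit 16767547444) (nat_lit 228) (nat_lit 545651671802) (nat_lit 76) (nat_lit 27905187754838) (nat_lit 37) (nat_lit 5) (nat_lit 40) (nat_lit 5) (nat_lit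 38) (nat_lit 5) (nat_lit 407) (nat_lit 399) (nat_lit 214))))) (XT.nd (nat_lit 234) (nat_lit 380) (nat_lit 0) (XT.nd (nat_lit 78) (nat_lit 152) (nat_lit 0) (XT.lf (nat_lit 0) (nat_lit 5540533420613) (nat_lit 228) (nat_lit 13362627695724) (nat_lit 76) (nat_lit 11954294276160) (nat_lit 35) (nat_lit 5) (nat_lit 38) (nat_lit 5) (nat_lit 36) (nat_lit 5) (nat_lit 408) (nat_lit 399) (nat_lit 213)) (XT.nd (nat_lit 78) (nat_lit 0) (nat_lit 0) (XT.lf (nat_lit 0) (nat_lit 5129745428688) (nat_lit 152) (nat_lit 7032193357512) (nat_lit 228) (nat_lit 21403481095758) (nat_lit 33) (nat_lit 5) (nat_lit 35) (nat_lit 5) (nat_lit 36) (nat_lit 5) (nat_lit 409) (nat_lit 399) (nat_lit 212)) (XT.lf (nat_lit 0) (nat_lit 20782413950094) (nat_lit 228) (nat_lit 8984410239079) (nat_lit 76) (nat_lit 6761876006643) (nat_lit 33) (nat_lit 5) (nat_lit 36) (nat_lit 5) (nat_lit 34) (nat_lit 4) (nat_lit 410) (nat_lit 399) (nat_lit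 211)))) (XT.nd (nat_lit 156) (nat_lit 228) (nat_lit 0) (XT.nd (nat_lit 78) (nat_lit 76) (nat_lit 0) (XT.lf (nat_lit 0) (nat_lit 14324986625141) (nat_lit 76) (nat_lit 17299007261813) (nat_lit 152) (nat_lit 8173273645043) (nat_lit 32) (nat_lit 5) (nat_lit 33) (nat_lit 5) (nat_lit 34) (nat_lit 4) (nat_lit 411) (nat_lit 399) (nat_lit 210)) (XT.lf (nat_lit 0) (nat_lit 980003360125) (nat_lit 152) (nat_lit 1389701416806) (nat_lit 76) (nat_lit 41109287406663) (nat_lit 31) (nat_lit 5) (nat_lit 33) (nat_lit 5) (nat_lit 32) (nat_lit 5) (nat_lit 412) (nat_lit 399) (nat_lit 209))) (XT.nd (nat_lit 78) (nat_lit 76) (nat_lit 0) (XT.lf (nat_lit 0) (nat_lit 12534910787259) (nat_lit 228) (nat_lit 19716550704656) (nat_lit 76) (nat_lit 15123319553325) (nat_lit 29) (nat_lit 5) (nat_lit 32) (nat_lit 5) (nat_lit 30) (nat_lit 4) (nat_lit 413) (nat_lit 399) (nat_lit 208)) (XT.lf (nat_lit 0) (nat_lit 10164066855757)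 (nat_lit 76) (nat_lit 16268805587516) (nat_lit 152) (nat_lit 25330593075638) (nat_lit 28) (nat_lit 5) (nat_lit 29) (nat_lit 5) (nat_lit 30) (nat_lit 4) (nat_lit 414) (nat_lit 399) (nat_lit 207))))))) (XT.nd (nat_lit 1872) (nat_lit 152) (nat_lit 0) (XT.nd (nat_lit 468) (nat_lit 1216) (nat_lit 0) (XT.nd (nat_lit 234) (nat_lit 152) (nat_lit 0) (XT.nd (nat_lit 78) (nat_lit 228) (nat_lit 0) (XT.lf (nat_lit 0) (nat_lit 43582666526121) (nat_lit 152) (nat_lit 10049708795316) (nat_lit 0) (nat_lit 3003006615431) (nat_lit 28) (nat_lit 5) (nat_lit 30) (nat_lit 4) (nat_lit 28) (nat_lit 4) (nat_lit 415) (nat_lit 399) (nat_lit 206)) (XT.nd (nat_lit 78) (nat_lit 76) (nat_lit 0) (XT.lf (nat_lit 0) (nat_lit 2995734660300) (nat_lit 152) (nat_lit 34138830391053) (nat_lit 76) (nat_lit 24793314119799) (nat_lit 26) (nat_lit 5) (nat_lit 28) (nat_lit 5) (nat_lit 27) (nat_lit 4) (nat_lit 416) (nat_lit 399) (nat_lit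 205)) (XT.lf (nat_lit 0) (nat_lit 4227396791052) (nat_lit 76) (nat_lit 16613094698139) (nat_lit 152) (nat_lit 46971717517569) (nat_lit 25) (nat_lit 5) (nat_lit 26) (nat_lit 5) (nat_lit 27) (nat_lit 4) (nat_lit 417) (nat_lit 399) (nat_lit 204)))) (XT.nd (nat_lit 78) (nat_lit 152) (nat_lit 0) (XT.lf (nat_lit 0) (nat_lit 43520769270986) (nat_lit 152) (nat_lit 22500489453380) (nat_lit 0) (nat_lit 8234108479058) (nat_lit 25) (nat_lit 5) (nat_lit 27) (nat_lit 4) (nat_lit 25) (nat_lit 4) (nat_lit 418) (nat_lit 399) (nat_lit 203)) (XT.nd (nat_lit 78) (nat_lit 76) (nat_lit 0) (XT.lf (nat_lit 0) (nat_lit 26296476123379) (nat_lit 76) (nat_lit 45186593343089) (nat_lit 76) (nat_lit 9899932551155) (nat_lit 24) (nat_lit 4) (nat_lit 25) (nat_lit 5) (nat_lit 25) (nat_lit 4) (nat_lit 419) (nat_lit 399) (nat_lit 202)) (XT.lf (nat_lit 0) (nat_lit 14040389868442) (nat_lit 152) (nat_lit 5099822574786) (nat_lit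 76) (nat_lit 70167415387500) (nat_lit 23) (nat_lit 5) (nat_lit 25) (nat_lit 5) (nat_lit 24) (nat_lit 4) (nat_lit 420) (nat_lit 399) (nat_lit 201))))) (XT.nd (nat_lit 1092) (nat_lit 228) (nat_lit 0) (XT.nd (nat_lit 936) (nat_lit 912) (nat_lit 0) (XT.lf (nat_lit 0) (nat_lit 43500462992085) (nat_lit 152) (nat_lit 41592020560624) (nat_lit 0) (nat_lit 12816410129525) (nat_lit 22) (nat_lit 5) (nat_lit 24) (nat_lit 4) (nat_lit 22) (nat_lit 4) (nat_lit 421) (nat_lit 399) (nat_lit 200)) (XT.nd (nat_lit 78) (nat_lit 152) (nat_lit 0) (XT.lf (nat_lit 0) (nat_lit 218028818065001) (nat_lit 76) (nat_lit 57505283571294) (nat_lit 76) (nat_lit 37330020737346) (nat_lit 12) (nat_lit 4) (nat_lit 13) (nat_lit 5) (nat_lit 13) (nat_lit 4) (nat_lit 433) (nat_lit 399) (nat_lit 188)) (XT.lf (nat_lit 0) (nat_lit 48101678432714) (nat_lit 152) (nat_lit 267923810555272) (nat_lit 0) (nat_lit 30557971620586) (nat_lit 10)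 (nat_lit 5) (nat_lit 12) (nat_lit 4) (nat_lit 10) (nat_lit 4) (nat_lit 434) (nat_lit 399) (nat_lit 187)))) (XT.nd (nat_lit 156) (nat_lit 152) (nat_lit 0) (XT.nd (nat_lit 78) (nat_lit 76) (nat_lit 0) (XT.lf (nat_lit 0) (nat_lit 150457958142136) (nat_lit 152) (nat_lit 100532090790431) (nat_lit 0) (nat_lit 132914251330007) (nat_lit 10) (nat_lit 5) (nat_lit 12) (nat_lit 4) (nat_lit 10) (nat_lit 4) (nat_lit 435) (nat_lit 399) (nat_lit 186)) (XT.lf (nat_lit 0) (nat_lit 100956206571816) (nat_lit 76) (nat_lit 171391854460657) (nat_lit 76) (nat_lit 153848147648528) (nat_lit 9) (nat_lit 4) (nat_lit 10) (nat_lit 5) (nat_lit 10) (nat_lit 4) (nat_lit 436) (nat_lit 399) (nat_lit 185))) (XT.nd (nat_lit 78) (nat_lit 152) (nat_lit 0) (XT.lf (nat_lit 0) (nat_lit 343966184651090) (nat_lit 76) (nat_lit 73810581269313) (nat_lit 76) (nat_lit 56266874457183) (nat_lit 9) (nat_lit 4) (nat_lit 10) (nat_lit 5) (nat_lit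 10) (nat_lit 4) (nat_lit 437) (nat_lit 399) (nat_lit 184)) (XT.lf (nat_lit 0) (nat_lit 57054089030612) (nat_lit 152) (nat_lit 428955326081589) (nat_lit 0) (nat_lit 41798691802674) (nat_lit 7) (nat_lit 5) (nat_lit 9) (nat_lit 4) (nat_lit 7) (nat_lit 4) (nat_lit 438) (nat_lit 399) (nat_lit 183)))))) (XT.nd (nat_lit 50154) (nat_lit 0) (nat_lit 2508) (XT.nd (nat_lit 312) (nat_lit 76) (nat_lit 0) (XT.nd (nat_lit 156) (nat_lit 76) (nat_lit 0) (XT.lf (nat_lit 0) (nat_lit 192250619673567) (nat_lit 152) (nat_lit 218393783243479) (nat_lit 0) (nat_lit 176995222445627) (nat_lit 7) (nat_lit 5) (nat_lit 9) (nat_lit 4) (nat_lit 7) (nat_lit 4) (nat_lit 439) (nat_lit 399) (nat_lit 182)) (XT.nd (nat_lit 78) (nat_lit 0) (nat_lit 0) (XT.lf (nat_lit 0) (nat_lit 331754731767423) (nat_lit 76) (nat_lit 208506565894649) (nat_lit 76) (nat_lit 193251168666710) (nat_lit 6) (nat_lit 4) (nat_lit 7) (nat_lit 5) (nat_lit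 7) (nat_lit 4) (nat_lit 441) (nat_lit 399) (nat_lit 180)) (XT.lf (nat_lit 0) (nat_lit 683288483726654) (nat_lit 76) (nat_lit 77146100498099) (nat_lit 76) (nat_lit 61890703270161) (nat_lit 6) (nat_lit 4) (nat_lit 7) (nat_lit 5) (nat_lit 7) (nat_lit 4) (nat_lit 442) (nat_lit 399) (nat_lit 179)))) (XT.nd (nat_lit 156) (nat_lit 0) (nat_lit 0) (XT.nd (nat_lit 78) (nat_lit 0) (nat_lit 0) (XT.lf (nat_lit 0) (nat_lit 92062063931158) (nat_lit 76) (nat_lit 751423526573820) (nat_lit 0) (nat_lit 78796501124254) (nat_lit 5) (nat_lit 5) (nat_lit 6) (nat_lit 4) (nat_lit 5) (nat_lit 4) (nat_lit 443) (nat_lit 399) (nat_lit 178)) (XT.lf (nat_lit 0) (nat_lit 274058861107947) (nat_lit 76) (nat_lit 500245048916838) (nat_lit 0) (nat_lit 260793298301044) (nat_lit 5) (nat_lit 5) (nat_lit 6) (nat_lit 4) (nat_lit 5) (nat_lit 4) (nat_lit 444) (nat_lit 399) (nat_lit 177))) (XT.nd (nat_lit 49608) (nat_lit 0) (nat_lit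 2812) (XT.lf (nat_lit 0) (nat_lit 483355177861251) (nat_lit 76) (nat_lit 211389799611317) (nat_lit 0) (nat_lit 470089615054347) (nat_lit 5) (nat_lit 5) (nat_lit 6) (nat_lit 4) (nat_lit 5) (nat_lit 4) (nat_lit 445) (nat_lit 399) (nat_lit 176)) (XT.lf (nat_lit 0) (nat_lit 2642765399224) (nat_lit 380) (nat_lit 3118439510029) (nat_lit 380) (nat_lit 3118439510029) (nat_lit 42) (nat_lit 3) (nat_lit 47) (nat_lit 3) (nat_lit 47) (nat_lit 5) (nat_lit 400) (nat_lit 400) (nat_lit 220))))) (XT.nd (nat_lit 234) (nat_lit 304) (nat_lit 0) (XT.nd (nat_lit 78) (nat_lit 0) (nat_lit 76) (XT.lf (nat_lit 76) (nat_lit 2860033027711) (nat_lit 0) (nat_lit 2940340449455) (nat_lit 380) (nat_lit 13273097843965) (nat_lit 43) (nat_lit 5) (nat_lit 42) (nat_lit 3) (nat_lit 47) (nat_lit 5) (nat_lit 401) (nat_lit 400) (nat_lit 219)) (XT.nd (nat_lit 78) (nat_lit 0) (nat_lit 0) (XT.lf (nat_lit 0) (nat_lit 7020902674799) (nat_lit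 304) (nat_lit 6815897779647) (nat_lit 380) (nat_lit 6653711704071) (nat_lit 43) (nat_lit 5) (nat_lit 47) (nat_lit 5) (nat_lit 48) (nat_lit 5) (nat_lit 402) (nat_lit 400) (nat_lit 218)) (XT.lf (nat_lit 76) (nat_lit 4227630501038) (nat_lit 0) (nat_lit 4511954126492) (nat_lit 380) (nat_lit 13333263487663) (nat_lit 44) (nat_lit 5) (nat_lit 43) (nat_lit 5) (nat_lit 48) (nat_lit 5) (nat_lit 403) (nat_lit 400) (nat_lit 217)))) (XT.nd (nat_lit 156) (nat_lit 152) (nat_lit 0) (XT.nd (nat_lit 78) (nat_lit 304) (nat_lit 0) (XT.lf (nat_lit 0) (nat_lit 11346530320939) (nat_lit 304) (nat_lit 6419565522377) (nat_lit 76) (nat_lit 6031869404889) (nat_lit 44) (nat_lit 5) (nat_lit 48) (nat_lit 5) (nat_lit 45) (nat_lit 5) (nat_lit 404) (nat_lit 400) (nat_lit 216)) (XT.lf (nat_lit 0) (nat_lit 7140803095793) (nat_lit 304) (nat_lit 7714255159344) (nat_lit 380) (nat_lit 10850210638016) (nat_lit 40) (nat_lit 5) (nat_lit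 44) (nat_lit 5) (nat_lit 45) (nat_lit 5) (nat_lit 405) (nat_lit 400) (nat_lit 215))) (XT.nd (nat_lit 78) (nat_lit 152) (nat_lit 0) (XT.lf (nat_lit 0) (nat_lit 19400641239923) (nat_lit 380) (nat_lit 4566841886047) (nat_lit 76) (nat_lit 3854568579804) (nat_lit 40) (nat_lit 5) (nat_lit 45) (nat_lit 5) (nat_lit 41) (nat_lit 5) (nat_lit 406) (nat_lit 400) (nat_lit 214)) (XT.lf (nat_lit 0) (nat_lit 12254017504323) (nat_lit 152) (nat_lit 13248802384961) (nat_lit 228) (nat_lit 4622318318475) (nat_lit 38) (nat_lit 5) (nat_lit 40) (nat_lit 5) (nat_lit 41) (nat_lit 5) (nat_lit 407) (nat_lit 400) (nat_lit 213))))))))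
noncomputable def xc121 : XT := (XT.nd (nat_lit 52650) (nat_lit 0) (nat_lit 0) (XT.nd (nat_lit 1014) (nat_lit 1444) (nat_lit 0) (XT.nd (nat_lit 468) (nat_lit 532) (nat_lit 0) (XT.nd (nat_lit 234) (nat_lit 152) (nat_lit 0) (XT.nd (nat_lit 78) (nat_lit 304) (nat_lit 0) (XT.lf (nat_lit 0) (nat_lit 19282679752) (nat_lit 228) (nat_lit 627499422324) (nat_lit 76) (nat_lit 32090965918091) (nat_lit 37) (nat_lit 5) (nat_lit 40) (nat_lit 5) (nat_lit 38) (nat_lit 5) (nat_lit 408) (nat_lit 400) (nat_lit 212)) (XT.nd (nat_lit 78) (nat_lit 152) (nat_lit 0) (XT.lf (nat_lit 0) (nat_lit 6371613433884) (nat_lit 228) (nat_lit 15367021849822) (nat_lit 76) (nat_lit 13747438417639) (nat_lit 35) (nat_lit 5) (nat_lit 38) (nat_lit 5) (nat_lit 36) (nat_lit 5) (nat_lit 409) (nat_lit 400) (nat_lit 211)) (XT.lf (nat_lit 0) (nat_lit 5899207243240) (nat_lit 152) (nat_lit 8087022361056) (nat_lit 228) (nat_lit 24614003259931)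 (nat_lit 33) (nat_lit 5) (nat_lit 35) (nat_lit 5) (nat_lit 36) (nat_lit 5) (nat_lit 410) (nat_lit 400) (nat_lit 210)))) (XT.nd (nat_lit 78) (nat_lit 152) (nat_lit 0) (XT.lf (nat_lit 0) (nat_lit 23899776042756) (nat_lit 228) (nat_lit 10332071774706) (nat_lit 76) (nat_lit 7776157407705) (nat_lit 33) (nat_lit 5) (nat_lit 36) (nat_lit 5) (nat_lit 34) (nat_lit 4) (nat_lit 411) (nat_lit 400) (nat_lit 209)) (XT.nd (nat_lit 78) (nat_lit 76) (nat_lit 0) (XT.lf (nat_lit 0) (nat_lit 16473734619136) (nat_lit 76) (nat_lit 19893858350998) (nat_lit 152) (nat_lit 9399264691642) (nat_lit 32) (nat_lit 5) (nat_lit 33) (nat_lit 5) (nat_lit 34) (nat_lit 4) (nat_lit 412) (nat_lit 400) (nat_lit 208)) (XT.lf (nat_lit 0) (nat_lit 1127003864270) (nat_lit 152) (nat_lit 1598156629120) (nat_lit 76) (nat_lit 47275680517725) (nat_lit 31) (nat_lit 5) (nat_lit 33) (nat_lit 5) (nat_lit 32) (nat_lit 5) (nat_lit 413) (nat_lit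 400) (nat_lit 207))))) (XT.nd (nat_lit 234) (nat_lit 304) (nat_lit 0) (XT.nd (nat_lit 78) (nat_lit 76) (nat_lit 0) (XT.lf (nat_lit 0) (nat_lit 14415147405469) (nat_lit 228) (nat_lit 22674033310142) (nat_lit 76) (nat_lit 17391817486397) (nat_lit 29) (nat_lit 5) (nat_lit 32) (nat_lit 5) (nat_lit 30) (nat_lit 4) (nat_lit 414) (nat_lit 400) (nat_lit 206)) (XT.nd (nat_lit 78) (nat_lit 0) (nat_lit 0) (XT.lf (nat_lit 0) (nat_lit 11688676884323) (nat_lit 76) (nat_lit 18709126425554) (nat_lit 152) (nat_lit 29130182036854) (nat_lit 28) (nat_lit 5) (nat_lit 29) (nat_lit 5) (nat_lit 30) (nat_lit 4) (nat_lit 415) (nat_lit 400) (nat_lit 205)) (XT.lf (nat_lit 0) (nat_lit 50120066505141) (nat_lit 152) (nat_lit 11557165114425) (nat_lit 0) (nat_lit 3453457607816) (nat_lit 28) (nat_lit 5) (nat_lit 30) (nat_lit 4) (nat_lit 28) (nat_lit 4) (nat_lit 416) (nat_lit 400) (nat_lit 204)))) (XT.nd (nat_lit 156) (nat_lit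 76) (nat_lit 0) (XT.nd (nat_lit 78) (nat_lit 76) (nat_lit 0) (XT.lf (nat_lit 0) (nat_lit 3445094859446) (nat_lit 152) (nat_lit 39259654949522) (nat_lit 76) (nat_lit 28512311237842) (nat_lit 26) (nat_lit 5) (nat_lit 28) (nat_lit 5) (nat_lit 27) (nat_lit 4) (nat_lit 417) (nat_lit 400) (nat_lit 203)) (XT.lf (nat_lit 0) (nat_lit 4861506309890) (nat_lit 76) (nat_lit 19105058902774) (nat_lit 152) (nat_lit 54017475145096) (nat_lit 25) (nat_lit 5) (nat_lit 26) (nat_lit 5) (nat_lit 27) (nat_lit 4) (nat_lit 418) (nat_lit 400) (nat_lit 202))) (XT.nd (nat_lit 78) (nat_lit 76) (nat_lit 0) (XT.lf (nat_lit 0) (nat_lit 50048884661719) (nat_lit 152) (nat_lit 25875562871220) (nat_lit 0) (nat_lit 9469224750985) (nat_lit 25) (nat_lit 5) (nat_lit 27) (nat_lit 4) (nat_lit 25) (nat_lit 4) (nat_lit 419) (nat_lit 400) (nat_lit 201)) (XT.lf (nat_lit 0) (nat_lit 30240947542044) (nat_lit 76) (nat_lit 51964582344475)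 (nat_lit 76) (nat_lit 11384922433736) (nat_lit 24) (nat_lit 4) (nat_lit 25) (nat_lit 5) (nat_lit 25) (nat_lit 4) (nat_lit 420) (nat_lit 400) (nat_lit 200)))))) (XT.nd (nat_lit 1404) (nat_lit 304) (nat_lit 0) (XT.nd (nat_lit 1170) (nat_lit 76) (nat_lit 0) (XT.nd (nat_lit 1014) (nat_lit 988) (nat_lit 0) (XT.lf (nat_lit 0) (nat_lit 16146448348783) (nat_lit 152) (nat_lit 5864795960858) (nat_lit 76) (nat_lit 80692527695686) (nat_lit 23) (nat_lit 5) (nat_lit 25) (nat_lit 5) (nat_lit 24) (nat_lit 4) (nat_lit 421) (nat_lit 400) (nat_lit 199)) (XT.nd (nat_lit 78) (nat_lit 152) (nat_lit 0) (XT.lf (nat_lit 0) (nat_lit 250733140774821) (nat_lit 76) (nat_lit 66131076106951) (nat_lit 76) (nat_lit 42929523847910) (nat_lit 12) (nat_lit 4) (nat_lit 13) (nat_lit 5) (nat_lit 13) (nat_lit 4) (nat_lit 434) (nat_lit 400) (nat_lit 186)) (XT.lf (nat_lit 0) (nat_lit 55316930197657) (nat_lit 152) (nat_lit 308112382138486)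 (nat_lit 0) (nat_lit 35141667363708) (nat_lit 10) (nat_lit 5) (nat_lit 12) (nat_lit 4) (nat_lit 10) (nat_lit 4) (nat_lit 435) (nat_lit 400) (nat_lit 185)))) (XT.nd (nat_lit 78) (nat_lit 76) (nat_lit 0) (XT.lf (nat_lit 0) (nat_lit 173026651863488) (nat_lit 152) (nat_lit 115611904408928) (nat_lit 0) (nat_lit 152851389029539) (nat_lit 10) (nat_lit 5) (nat_lit 12) (nat_lit 4) (nat_lit 10) (nat_lit 4) (nat_lit 436) (nat_lit 400) (nat_lit 184)) (XT.nd (nat_lit 78) (nat_lit 0) (nat_lit 0) (XT.lf (nat_lit 0) (nat_lit 116099637557650) (nat_lit 76) (nat_lit 197100632629723) (nat_lit 76) (nat_lit 176925369795774) (nat_lit 9) (nat_lit 4) (nat_lit 10) (nat_lit 5) (nat_lit 10) (nat_lit 4) (nat_lit 437) (nat_lit 400) (nat_lit 183)) (XT.lf (nat_lit 0) (nat_lit 395561112348810) (nat_lit 76) (nat_lit 84882168459680) (nat_lit 76) (nat_lit 64706905625730) (nat_lit 9) (nat_lit 4) (nat_lit 10) (nat_lit 5) (nat_lit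 10) (nat_lit 4) (nat_lit 438) (nat_lit 400) (nat_lit 182))))) (XT.nd (nat_lit 312) (nat_lit 76) (nat_lit 0) (XT.nd (nat_lit 156) (nat_lit 76) (nat_lit 0) (XT.lf (nat_lit 0) (nat_lit 65612202385230) (nat_lit 152) (nat_lit 493298624993772) (nat_lit 0) (nat_lit 48068495573100) (nat_lit 7) (nat_lit 5) (nat_lit 9) (nat_lit 4) (nat_lit 7) (nat_lit 4) (nat_lit 439) (nat_lit 400) (nat_lit 181)) (XT.nd (nat_lit 78) (nat_lit 0) (nat_lit 0) (XT.lf (nat_lit 0) (nat_lit 29984189573349) (nat_lit 76) (nat_lit 371143016175373) (nat_lit 76) (nat_lit 353599309363243) (nat_lit 6) (nat_lit 4) (nat_lit 7) (nat_lit 5) (nat_lit 7) (nat_lit 4) (nat_lit 441) (nat_lit 400) (nat_lit 179)) (XT.lf (nat_lit 0) (nat_lit 381517941532578) (nat_lit 76) (nat_lit 239782550778824) (nat_lit 76) (nat_lit 222238843966694) (nat_lit 6) (nat_lit 4) (nat_lit 7) (nat_lit 5) (nat_lit 7) (nat_lit 4) (nat_lit 442) (nat_lit 400) (nat_lit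 178)))) (XT.nd (nat_lit 156) (nat_lit 0) (nat_lit 0) (XT.nd (nat_lit 78) (nat_lit 76) (nat_lit 0) (XT.lf (nat_lit 0) (nat_lit 785781756285692) (nat_lit 76) (nat_lit 88718015572794) (nat_lit 76) (nat_lit 71174308760663) (nat_lit 6) (nat_lit 4) (nat_lit 7) (nat_lit 5) (nat_lit 7) (nat_lit 4) (nat_lit 443) (nat_lit 400) (nat_lit 177)) (XT.lf (nat_lit 0) (nat_lit 105871373520852) (nat_lit 76) (nat_lit 864137055559851) (nat_lit 0) (nat_lit 90615976292912) (nat_lit 5) (nat_lit 5) (nat_lit 6) (nat_lit 4) (nat_lit 5) (nat_lit 4) (nat_lit 444) (nat_lit 400) (nat_lit 176))) (XT.nd (nat_lit 49686) (nat_lit 0) (nat_lit 2812) (XT.lf (nat_lit 0) (nat_lit 315167690274155) (nat_lit 76) (nat_lit 575281806254331) (nat_lit 0) (nat_lit 299912293046214) (nat_lit 5) (nat_lit 5) (nat_lit 6) (nat_lit 4) (nat_lit 5) (nat_lit 4) (nat_lit 445) (nat_lit 400) (nat_lit 175)) (XT.lf (nat_lit 0) (nat_lit 3039180209292)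 (nat_lit 380) (nat_lit 3586205436427) (nat_lit 380) (nat_lit 3586205436427) (nat_lit 42) (nat_lit 3) (nat_lit 47) (nat_lit 3) (nat_lit 47) (nat_lit 5) (nat_lit 401) (nat_lit 401) (nat_lit 218))))))) (XT.nd (nat_lit 1014) (nat_lit 1976) (nat_lit 0) (XT.nd (nat_lit 468) (nat_lit 684) (nat_lit 0) (XT.nd (nat_lit 234) (nat_lit 152) (nat_lit 0) (XT.nd (nat_lit 78) (nat_lit 0) (nat_lit 76) (XT.lf (nat_lit 76) (nat_lit 3289037982070) (nat_lit 0) (nat_lit 3381391516999) (nat_lit 380) (nat_lit 15264062520182) (nat_lit 43) (nat_lit 5) (nat_lit 42) (nat_lit 3) (nat_lit 47) (nat_lit 5) (nat_lit 402) (nat_lit 401) (nat_lit 217)) (XT.nd (nat_lit 78) (nat_lit 0) (nat_lit 0) (XT.lf (nat_lit 0) (nat_lit 8074038076301) (nat_lit 304) (nat_lit 7838282446370) (nat_lit 380) (nat_lit 7651768459581) (nat_lit 43) (nat_lit 5) (nat_lit 47) (nat_lit 5) (nat_lit 48) (nat_lit 5) (nat_lit 403) (nat_lit 401) (nat_lit 216))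 (XT.lf (nat_lit 76) (nat_lit 4861775076407) (nat_lit 0) (nat_lit 5188747245507) (nat_lit 380) (nat_lit 15333253010520) (nat_lit 44) (nat_lit 5) (nat_lit 43) (nat_lit 5) (nat_lit 48) (nat_lit 5) (nat_lit 404) (nat_lit 401) (nat_lit 215)))) (XT.nd (nat_lit 78) (nat_lit 304) (nat_lit 0) (XT.lf (nat_lit 0) (nat_lit 13048509869299) (nat_lit 304) (nat_lit 7382500350514) (nat_lit 76) (nat_lit 6936649815590) (nat_lit 44) (nat_lit 5) (nat_lit 48) (nat_lit 5) (nat_lit 45) (nat_lit 5) (nat_lit 405) (nat_lit 401) (nat_lit 214)) (XT.nd (nat_lit 78) (nat_lit 0) (nat_lit 0) (XT.lf (nat_lit 0) (nat_lit 8211923560372) (nat_lit 304) (nat_lit 8871393433234) (nat_lit 380) (nat_lit 12477742233489) (nat_lit 40) (nat_lit 5) (nat_lit 44) (nat_lit 5) (nat_lit 45) (nat_lit 5) (nat_lit 406) (nat_lit 401) (nat_lit 213)) (XT.lf (nat_lit 0) (nat_lit 22310737426085) (nat_lit 380) (nat_lit 5251868168745) (nat_lit 76) (nat_lit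 4432753866783) (nat_lit 40) (nat_lit 5) (nat_lit 45) (nat_lit 5) (nat_lit 41) (nat_lit 5) (nat_lit 407) (nat_lit 401) (nat_lit 212))))) (XT.nd (nat_lit 234) (nat_lit 304) (nat_lit 0) (XT.nd (nat_lit 78) (nat_lit 228) (nat_lit 0) (XT.lf (nat_lit 0) (nat_lit 14092120130171) (nat_lit 152) (nat_lit 15236122742666) (nat_lit 228) (nat_lit 5315666066063) (nat_lit 38) (nat_lit 5) (nat_lit 40) (nat_lit 5) (nat_lit 41) (nat_lit 5) (nat_lit 408) (nat_lit 401) (nat_lit 211)) (XT.nd (nat_lit 78) (nat_lit 152) (nat_lit 0) (XT.lf (nat_lit 0) (nat_lit 22175081860) (nat_lit 228) (nat_lit 721624335486) (nat_lit 76) (nat_lit 36904610805825) (nat_lit 37) (nat_lit 5) (nat_lit 40) (nat_lit 5) (nat_lit 38) (nat_lit 5) (nat_lit 409) (nat_lit 401) (nat_lit 210)) (XT.lf (nat_lit 0) (nat_lit 7327355449102) (nat_lit 228) (nat_lit 17672075127099) (nat_lit 76) (nat_lit 15809554180326) (nat_lit 35) (nat_lit 5) (nat_lit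 38) (nat_lit 5) (nat_lit 36) (nat_lit 5) (nat_lit 410) (nat_lit 401) (nat_lit 209)))) (XT.nd (nat_lit 156) (nat_lit 152) (nat_lit 0) (XT.nd (nat_lit 78) (nat_lit 0) (nat_lit 0) (XT.lf (nat_lit 0) (nat_lit 6784088329913) (nat_lit 152) (nat_lit 9300075715152) (nat_lit 228) (nat_lit 28306103748777) (nat_lit 33) (nat_lit 5) (nat_lit 35) (nat_lit 5) (nat_lit 36) (nat_lit 5) (nat_lit 411) (nat_lit 401) (nat_lit 208)) (XT.lf (nat_lit 0) (nat_lit 27484742449281) (nat_lit 228) (nat_lit 11881882540735) (nat_lit 76) (nat_lit 8942581018910) (nat_lit 33) (nat_lit 5) (nat_lit 36) (nat_lit 5) (nat_lit 34) (nat_lit 4) (nat_lit 412) (nat_lit 401) (nat_lit 207))) (XT.nd (nat_lit 78) (nat_lit 76) (nat_lit 0) (XT.lf (nat_lit 0) (nat_lit 18944794812177) (nat_lit 76) (nat_lit 22877937103582) (nat_lit 152) (nat_lit 10809154395268) (nat_lit 32) (nat_lit 5) (nat_lit 33) (nat_lit 5) (nat_lit 34) (nat_lit 4) (nat_lit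 413) (nat_lit 401) (nat_lit 206)) (XT.lf (nat_lit 0) (nat_lit 1296054444005) (nat_lit 152) (nat_lit 1837880123331) (nat_lit 76) (nat_lit 54367032595432) (nat_lit 31) (nat_lit 5) (nat_lit 33) (nat_lit 5) (nat_lit 32) (nat_lit 5) (nat_lit 414) (nat_lit 401) (nat_lit 205)))))) (XT.nd (nat_lit 2028) (nat_lit 1444) (nat_lit 0) (XT.nd (nat_lit 234) (nat_lit 304) (nat_lit 0) (XT.nd (nat_lit 78) (nat_lit 76) (nat_lit 0) (XT.lf (nat_lit 0) (nat_lit 16577419516380) (nat_lit 228) (nat_lit 26075138306503) (nat_lit 76) (nat_lit 20000590109412) (nat_lit 29) (nat_lit 5) (nat_lit 32) (nat_lit 5) (nat_lit 30) (nat_lit 4) (nat_lit 415) (nat_lit 401) (nat_lit 204)) (XT.nd (nat_lit 78) (nat_lit 0) (nat_lit 0) (XT.lf (nat_lit 0) (nat_lit 13441978417124) (nat_lit 76) (nat_lit 21515495389319) (nat_lit 152) (nat_lit 33499709342284) (nat_lit 28) (nat_lit 5) (nat_lit 29) (nat_lit 5) (nat_lit 30) (nat_lit 4) (nat_lit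 416) (nat_lit 401) (nat_lit 203)) (XT.lf (nat_lit 0) (nat_lit 57638076480989) (nat_lit 152) (nat_lit 13290739881448) (nat_lit 0) (nat_lit 3971476249042) (nat_lit 28) (nat_lit 5) (nat_lit 30) (nat_lit 4) (nat_lit 28) (nat_lit 4) (nat_lit 417) (nat_lit 401) (nat_lit 202)))) (XT.nd (nat_lit 156) (nat_lit 76) (nat_lit 0) (XT.nd (nat_lit 78) (nat_lit 76) (nat_lit 0) (XT.lf (nat_lit 0) (nat_lit 3961859088439) (nat_lit 152) (nat_lit 45148603191808) (nat_lit 76) (nat_lit 32789157923574) (nat_lit 26) (nat_lit 5) (nat_lit 28) (nat_lit 5) (nat_lit 27) (nat_lit 4) (nat_lit 418) (nat_lit 401) (nat_lit 201)) (XT.lf (nat_lit 0) (nat_lit 5590732256510) (nat_lit 76) (nat_lit 21970817738125) (nat_lit 152) (nat_lit 62120096416778) (nat_lit 25) (nat_lit 5) (nat_lit 26) (nat_lit 5) (nat_lit 27) (nat_lit 4) (nat_lit 419) (nat_lit 401) (nat_lit 200))) (XT.nd (nat_lit 78) (nat_lit 76) (nat_lit 0) (XT.lf (nat_lit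 0) (nat_lit 57556217361041) (nat_lit 152) (nat_lit 29756897301779) (nat_lit 0) (nat_lit 10889608463683) (nat_lit 25) (nat_lit 5) (nat_lit 27) (nat_lit 4) (nat_lit 25) (nat_lit 4) (nat_lit 420) (nat_lit 401) (nat_lit 199)) (XT.lf (nat_lit 0) (nat_lit 34777089673471) (nat_lit 76) (nat_lit 59759269696088) (nat_lit 76) (nat_lit 13092660798726) (nat_lit 24) (nat_lit 4) (nat_lit 25) (nat_lit 5) (nat_lit 25) (nat_lit 4) (nat_lit 421) (nat_lit 401) (nat_lit 198))))) (XT.nd (nat_lit 234) (nat_lit 76) (nat_lit 0) (XT.nd (nat_lit 78) (nat_lit 76) (nat_lit 0) (XT.lf (nat_lit 0) (nat_lit 254251444518338) (nat_lit 152) (nat_lit 288825778339403) (nat_lit 0) (nat_lit 234076181684388) (nat_lit 7) (nat_lit 5) (nat_lit 9) (nat_lit 4) (nat_lit 7) (nat_lit 4) (nat_lit 441) (nat_lit 401) (nat_lit 178)) (XT.nd (nat_lit 78) (nat_lit 0) (nat_lit 0) (XT.lf (nat_lit 0) (nat_lit 34481818009381) (nat_lit 76) (nat_lit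 426814468601662) (nat_lit 76) (nat_lit 406639205767712) (nat_lit 6) (nat_lit 4) (nat_lit 7) (nat_lit 5) (nat_lit 7) (nat_lit 4) (nat_lit 442) (nat_lit 401) (nat_lit 177)) (XT.lf (nat_lit 0) (nat_lit 438745632762494) (nat_lit 76) (nat_lit 275749933395632) (nat_lit 76) (nat_lit 255574670561682) (nat_lit 6) (nat_lit 4) (nat_lit 7) (nat_lit 5) (nat_lit 7) (nat_lit 4) (nat_lit 443) (nat_lit 401) (nat_lit 176)))) (XT.nd (nat_lit 49842) (nat_lit 0) (nat_lit 2812) (XT.nd (nat_lit 78) (nat_lit 76) (nat_lit 0) (XT.lf (nat_lit 0) (nat_lit 903649019728574) (nat_lit 76) (nat_lit 102025717908699) (nat_lit 76) (nat_lit 81850455074747) (nat_lit 6) (nat_lit 4) (nat_lit 7) (nat_lit 5) (nat_lit 7) (nat_lit 4) (nat_lit 444) (nat_lit 401) (nat_lit 175)) (XT.lf (nat_lit 0) (nat_lit 121752079548989) (nat_lit 76) (nat_lit 993757613893807) (nat_lit 0) (nat_lit 104208372736858) (nat_lit 5) (nat_lit 5) (nat_lit 6)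 (nat_lit 4) (nat_lit 5) (nat_lit 4) (nat_lit 445) (nat_lit 401) (nat_lit 174))) (XT.nd (nat_lit 78) (nat_lit 0) (nat_lit 0) (XT.lf (nat_lit 0) (nat_lit 3495057240825) (nat_lit 380) (nat_lit 4124136251811) (nat_lit 380) (nat_lit 4124136251811) (nat_lit 42) (nat_lit 3) (nat_lit 47) (nat_lit 3) (nat_lit 47) (nat_lit 5) (nat_lit 402) (nat_lit 402) (nat_lit 216)) (XT.lf (nat_lit 76) (nat_lit 3782393679533) (nat_lit 0) (nat_lit 3888600244645) (nat_lit 380) (nat_lit 17553671897923) (nat_lit 43) (nat_lit 5) (nat_lit 42) (nat_lit 3) (nat_lit 47) (nat_lit 5) (nat_lit 403) (nat_lit 402) (nat_lit 215))))))))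
noncomputable def xc122 : XT := (XT.nd (nat_lit 53664) (nat_lit 0) (nat_lit 0) (XT.nd (nat_lit 1014) (nat_lit 304) (nat_lit 0) (XT.nd (nat_lit 468) (nat_lit 684) (nat_lit 0) (XT.nd (nat_lit 234) (nat_lit 380) (nat_lit 0) (XT.nd (nat_lit 78) (nat_lit 0) (nat_lit 0) (XT.lf (nat_lit 0) (nat_lit 9285143787959) (nat_lit 304) (nat_lit 9014024813157) (nat_lit 380) (nat_lit 8799533728442) (nat_lit 43) (nat_lit 5) (nat_lit 47) (nat_lit 5) (nat_lit 48) (nat_lit 5) (nat_lit 404) (nat_lit 402) (nat_lit 214)) (XT.nd (nat_lit 78) (nat_lit 0) (nat_lit 76) (XT.lf (nat_lit 76) (nat_lit 5591041338029) (nat_lit 0) (nat_lit 5967059332363) (nat_lit 380) (nat_lit 17633240961878) (nat_lit 44) (nat_lit 5) (nat_lit 43) (nat_lit 5) (nat_lit 48) (nat_lit 5) (nat_lit 405) (nat_lit 402) (nat_lit 213)) (XT.lf (nat_lit 0) (nat_lit 15005786349860) (nat_lit 304) (nat_lit 8489875402924) (nat_lit 76) (nat_lit 7977147287905)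 (nat_lit 44) (nat_lit 5) (nat_lit 48) (nat_lit 5) (nat_lit 45) (nat_lit 5) (nat_lit 406) (nat_lit 402) (nat_lit 212)))) (XT.nd (nat_lit 78) (nat_lit 152) (nat_lit 0) (XT.lf (nat_lit 0) (nat_lit 9443712094587) (nat_lit 304) (nat_lit 10202102448211) (nat_lit 380) (nat_lit 14349403568339) (nat_lit 40) (nat_lit 5) (nat_lit 44) (nat_lit 5) (nat_lit 45) (nat_lit 5) (nat_lit 407) (nat_lit 402) (nat_lit 211)) (XT.nd (nat_lit 78) (nat_lit 152) (nat_lit 0) (XT.lf (nat_lit 0) (nat_lit 25657348040130) (nat_lit 380) (nat_lit 6039648393900) (nat_lit 76) (nat_lit 5097666946807) (nat_lit 40) (nat_lit 5) (nat_lit 45) (nat_lit 5) (nat_lit 41) (nat_lit 5) (nat_lit 408) (nat_lit 402) (nat_lit 210)) (XT.lf (nat_lit 0) (nat_lit 16205938149846) (nat_lit 152) (nat_lit 17521541154036) (nat_lit 228) (nat_lit 6113015975834) (nat_lit 38) (nat_lit 5) (nat_lit 40) (nat_lit 5) (nat_lit 41) (nat_lit 5) (nat_lit 409) (nat_lit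 402) (nat_lit 209))))) (XT.nd (nat_lit 234) (nat_lit 304) (nat_lit 0) (XT.nd (nat_lit 78) (nat_lit 304) (nat_lit 0) (XT.lf (nat_lit 0) (nat_lit 25501344249) (nat_lit 228) (nat_lit 829867985667) (nat_lit 76) (nat_lit 42440302426714) (nat_lit 37) (nat_lit 5) (nat_lit 40) (nat_lit 5) (nat_lit 38) (nat_lit 5) (nat_lit 410) (nat_lit 402) (nat_lit 208)) (XT.nd (nat_lit 78) (nat_lit 152) (nat_lit 0) (XT.lf (nat_lit 0) (nat_lit 8426458766570) (nat_lit 228) (nat_lit 20322886396015) (nat_lit 76) (nat_lit 18180987307406) (nat_lit 35) (nat_lit 5) (nat_lit 38) (nat_lit 5) (nat_lit 36) (nat_lit 5) (nat_lit 411) (nat_lit 402) (nat_lit 207)) (XT.lf (nat_lit 0) (nat_lit 7801701579542) (nat_lit 152) (nat_lit 10695087072378) (nat_lit 228) (nat_lit 32552019310984) (nat_lit 33) (nat_lit 5) (nat_lit 35) (nat_lit 5) (nat_lit 36) (nat_lit 5) (nat_lit 412) (nat_lit 402) (nat_lit 206)))) (XT.nd (nat_lit 156) (nat_lit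 228) (nat_lit 0) (XT.nd (nat_lit 78) (nat_lit 76) (nat_lit 0) (XT.lf (nat_lit 0) (nat_lit 31607453816757) (nat_lit 228) (nat_lit 13664164921711) (nat_lit 76) (nat_lit 10283968171784) (nat_lit 33) (nat_lit 5) (nat_lit 36) (nat_lit 5) (nat_lit 34) (nat_lit 4) (nat_lit 413) (nat_lit 402) (nat_lit 205)) (XT.lf (nat_lit 0) (nat_lit 21786514034131) (nat_lit 76) (nat_lit 26309627669070) (nat_lit 152) (nat_lit 12430527554468) (nat_lit 32) (nat_lit 5) (nat_lit 33) (nat_lit 5) (nat_lit 34) (nat_lit 4) (nat_lit 414) (nat_lit 402) (nat_lit 204))) (XT.nd (nat_lit 78) (nat_lit 152) (nat_lit 0) (XT.lf (nat_lit 0) (nat_lit 1490462610677) (nat_lit 152) (nat_lit 2113562141713) (nat_lit 76) (nat_lit 62522087484783) (nat_lit 31) (nat_lit 5) (nat_lit 33) (nat_lit 5) (nat_lit 32) (nat_lit 5) (nat_lit 415) (nat_lit 402) (nat_lit 203)) (XT.lf (nat_lit 0) (nat_lit 19064032443906) (nat_lit 228) (nat_lit 29986409052358)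 (nat_lit 76) (nat_lit 23000678625866) (nat_lit 29) (nat_lit 5) (nat_lit 32) (nat_lit 5) (nat_lit 30) (nat_lit 4) (nat_lit 416) (nat_lit 402) (nat_lit 202)))))) (XT.nd (nat_lit 52104) (nat_lit 0) (nat_lit 988) (XT.nd (nat_lit 234) (nat_lit 76) (nat_lit 0) (XT.nd (nat_lit 78) (nat_lit 152) (nat_lit 0) (XT.lf (nat_lit 0) (nat_lit 15458275179808) (nat_lit 76) (nat_lit 24742819697667) (nat_lit 152) (nat_lit 38524665743552) (nat_lit 28) (nat_lit 5) (nat_lit 29) (nat_lit 5) (nat_lit 30) (nat_lit 4) (nat_lit 417) (nat_lit 402) (nat_lit 201)) (XT.nd (nat_lit 78) (nat_lit 152) (nat_lit 0) (XT.lf (nat_lit 0) (nat_lit 66283787953195) (nat_lit 152) (nat_lit 15284350863558) (nat_lit 0) (nat_lit 4567197686439) (nat_lit 28) (nat_lit 5) (nat_lit 30) (nat_lit 4) (nat_lit 28) (nat_lit 4) (nat_lit 418) (nat_lit 402) (nat_lit 200)) (XT.lf (nat_lit 0) (nat_lit 4556137951762) (nat_lit 152) (nat_lit 51920893670472)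 (nat_lit 76) (nat_lit 37707531612152) (nat_lit 26) (nat_lit 5) (nat_lit 28) (nat_lit 5) (nat_lit 27) (nat_lit 4) (nat_lit 419) (nat_lit 402) (nat_lit 199)))) (XT.nd (nat_lit 78) (nat_lit 0) (nat_lit 0) (XT.lf (nat_lit 0) (nat_lit 6429342095089) (nat_lit 76) (nat_lit 25266440398796) (nat_lit 152) (nat_lit 71438110879233) (nat_lit 25) (nat_lit 5) (nat_lit 26) (nat_lit 5) (nat_lit 27) (nat_lit 4) (nat_lit 420) (nat_lit 402) (nat_lit 198)) (XT.nd (nat_lit 51714) (nat_lit 0) (nat_lit 1292) (XT.lf (nat_lit 0) (nat_lit 66189649965247) (nat_lit 152) (nat_lit 34220431896951) (nat_lit 0) (nat_lit 12523049733274) (nat_lit 25) (nat_lit 5) (nat_lit 27) (nat_lit 4) (nat_lit 25) (nat_lit 4) (nat_lit 421) (nat_lit 402) (nat_lit 197)) (XT.lf (nat_lit 0) (nat_lit 4019315827054) (nat_lit 380) (nat_lit 4742756689522) (nat_lit 380) (nat_lit 4742756689522) (nat_lit 42) (nat_lit 3) (nat_lit 47) (nat_lit 3) (nat_lit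 47) (nat_lit 5) (nat_lit 403) (nat_lit 403) (nat_lit 214))))) (XT.nd (nat_lit 234) (nat_lit 304) (nat_lit 0) (XT.nd (nat_lit 78) (nat_lit 0) (nat_lit 76) (XT.lf (nat_lit 76) (nat_lit 4349752731579) (nat_lit 0) (nat_lit 4471890281414) (nat_lit 380) (nat_lit 20186722682395) (nat_lit 43) (nat_lit 5) (nat_lit 42) (nat_lit 3) (nat_lit 47) (nat_lit 5) (nat_lit 404) (nat_lit 403) (nat_lit 213)) (XT.nd (nat_lit 78) (nat_lit 0) (nat_lit 0) (XT.lf (nat_lit 0) (nat_lit 10677915356314) (nat_lit 304) (nat_lit 10366128535003) (nat_lit 380) (nat_lit 10119463787652) (nat_lit 43) (nat_lit 5) (nat_lit 47) (nat_lit 5) (nat_lit 48) (nat_lit 5) (nat_lit 405) (nat_lit 403) (nat_lit 212)) (XT.lf (nat_lit 76) (nat_lit 6429697538856) (nat_lit 0) (nat_lit 6862118232241) (nat_lit 380) (nat_lit 20278227105993) (nat_lit 44) (nat_lit 5) (nat_lit 43) (nat_lit 5) (nat_lit 48) (nat_lit 5) (nat_lit 406) (nat_lit 403) (nat_lit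 211)))) (XT.nd (nat_lit 156) (nat_lit 152) (nat_lit 0) (XT.nd (nat_lit 78) (nat_lit 304) (nat_lit 0) (XT.lf (nat_lit 0) (nat_lit 17256654302464) (nat_lit 304) (nat_lit 9763356713237) (nat_lit 76) (nat_lit 9173719381073) (nat_lit 44) (nat_lit 5) (nat_lit 48) (nat_lit 5) (nat_lit 45) (nat_lit 5) (nat_lit 407) (nat_lit 403) (nat_lit 210)) (XT.lf (nat_lit 0) (nat_lit 10860268908896) (nat_lit 304) (nat_lit 11732417815437) (nat_lit 380) (nat_lit 16501814103459) (nat_lit 40) (nat_lit 5) (nat_lit 44) (nat_lit 5) (nat_lit 45) (nat_lit 5) (nat_lit 408) (nat_lit 403) (nat_lit 209))) (XT.nd (nat_lit 78) (nat_lit 152) (nat_lit 0) (XT.lf (nat_lit 0) (nat_lit 29505950246248) (nat_lit 380) (nat_lit 6945595652866) (nat_lit 76) (nat_lit 5862316988833) (nat_lit 40) (nat_lit 5) (nat_lit 45) (nat_lit 5) (nat_lit 41) (nat_lit 5) (nat_lit 409) (nat_lit 403) (nat_lit 208)) (XT.lf (nat_lit 0) (nat_lit 18636828872437)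 (nat_lit 152) (nat_lit 20149772327118) (nat_lit 228) (nat_lit 7029968372104) (nat_lit 38) (nat_lit 5) (nat_lit 40) (nat_lit 5) (nat_lit 41) (nat_lit 5) (nat_lit 410) (nat_lit 403) (nat_lit 207))))))) (XT.nd (nat_lit 52728) (nat_lit 0) (nat_lit 228) (XT.nd (nat_lit 468) (nat_lit 456) (nat_lit 0) (XT.nd (nat_lit 234) (nat_lit 152) (nat_lit 0) (XT.nd (nat_lit 78) (nat_lit 304) (nat_lit 0) (XT.lf (nat_lit 0) (nat_lit 29326545969) (nat_lit 228) (nat_lit 954348183411) (nat_lit 76) (nat_lit 48806347790733) (nat_lit 37) (nat_lit 5) (nat_lit 40) (nat_lit 5) (nat_lit 38) (nat_lit 5) (nat_lit 411) (nat_lit 403) (nat_lit 206)) (XT.nd (nat_lit 78) (nat_lit 152) (nat_lit 0) (XT.lf (nat_lit 0) (nat_lit 9690427581633) (nat_lit 228) (nat_lit 23371319355305) (nat_lit 76) (nat_lit 20908135403540) (nat_lit 35) (nat_lit 5) (nat_lit 38) (nat_lit 5) (nat_lit 36) (nat_lit 5) (nat_lit 412) (nat_lit 403) (nat_lit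 205)) (XT.lf (nat_lit 0) (nat_lit 8971956816582) (nat_lit 152) (nat_lit 12299350133199) (nat_lit 228) (nat_lit 37434822207549) (nat_lit 33) (nat_lit 5) (nat_lit 35) (nat_lit 5) (nat_lit 36) (nat_lit 5) (nat_lit 413) (nat_lit 403) (nat_lit 204)))) (XT.nd (nat_lit 78) (nat_lit 152) (nat_lit 0) (XT.lf (nat_lit 0) (nat_lit 36348571889334) (nat_lit 228) (nat_lit 15713789659866) (nat_lit 76) (nat_lit 11826563397580) (nat_lit 33) (nat_lit 5) (nat_lit 36) (nat_lit 5) (nat_lit 34) (nat_lit 4) (nat_lit 414) (nat_lit 403) (nat_lit 203)) (XT.nd (nat_lit 78) (nat_lit 76) (nat_lit 0) (XT.lf (nat_lit 0) (nat_lit 25054491139348) (nat_lit 76) (nat_lit 30256071819392) (nat_lit 152) (nat_lit 14295106687570) (nat_lit 32) (nat_lit 5) (nat_lit 33) (nat_lit 5) (nat_lit 34) (nat_lit 4) (nat_lit 415) (nat_lit 403) (nat_lit 202)) (XT.lf (nat_lit 0) (nat_lit 1714032002333) (nat_lit 152) (nat_lit 2430596462880) (nat_lit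 76) (nat_lit 71900400607528) (nat_lit 31) (nat_lit 5) (nat_lit 33) (nat_lit 5) (nat_lit 32) (nat_lit 5) (nat_lit 416) (nat_lit 403) (nat_lit 201))))) (XT.nd (nat_lit 234) (nat_lit 228) (nat_lit 0) (XT.nd (nat_lit 78) (nat_lit 76) (nat_lit 0) (XT.lf (nat_lit 0) (nat_lit 21923637310544) (nat_lit 228) (nat_lit 34484370410119) (nat_lit 76) (nat_lit 26450780419778) (nat_lit 29) (nat_lit 5) (nat_lit 32) (nat_lit 5) (nat_lit 30) (nat_lit 4) (nat_lit 417) (nat_lit 403) (nat_lit 200)) (XT.nd (nat_lit 78) (nat_lit 0) (nat_lit 0) (XT.lf (nat_lit 0) (nat_lit 17777016456868) (nat_lit 76) (nat_lit 28454242652278) (nat_lit 152) (nat_lit 44303365605029) (nat_lit 28) (nat_lit 5) (nat_lit 29) (nat_lit 5) (nat_lit 30) (nat_lit 4) (nat_lit 418) (nat_lit 403) (nat_lit 199)) (XT.lf (nat_lit 0) (nat_lit 76226356146219) (nat_lit 152) (nat_lit 17577003493010) (nat_lit 0) (nat_lit 5252277339436) (nat_lit 28) (nat_lit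 5) (nat_lit 30) (nat_lit 4) (nat_lit 28) (nat_lit 4) (nat_lit 419) (nat_lit 403) (nat_lit 198)))) (XT.nd (nat_lit 51870) (nat_lit 0) (nat_lit 1292) (XT.nd (nat_lit 78) (nat_lit 76) (nat_lit 0) (XT.lf (nat_lit 0) (nat_lit 5239558644569) (nat_lit 152) (nat_lit 59709027720961) (nat_lit 76) (nat_lit 43363661354006) (nat_lit 26) (nat_lit 5) (nat_lit 28) (nat_lit 5) (nat_lit 27) (nat_lit 4) (nat_lit 420) (nat_lit 403) (nat_lit 197)) (XT.lf (nat_lit 0) (nat_lit 7393743409431) (nat_lit 76) (nat_lit 29056406458578) (nat_lit 152) (nat_lit 82153827511070) (nat_lit 25) (nat_lit 5) (nat_lit 26) (nat_lit 5) (nat_lit 27) (nat_lit 4) (nat_lit 421) (nat_lit 403) (nat_lit 196))) (XT.nd (nat_lit 78) (nat_lit 0) (nat_lit 0) (XT.lf (nat_lit 0) (nat_lit 4622213201192) (nat_lit 380) (nat_lit 5454170192905) (nat_lit 380) (nat_lit 5454170192905) (nat_lit 42) (nat_lit 3) (nat_lit 47) (nat_lit 3) (nat_lit 47) (nat_lit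 5) (nat_lit 404) (nat_lit 404) (nat_lit 212)) (XT.lf (nat_lit 76) (nat_lit 5002215641404) (nat_lit 0) (nat_lit 5142673823681) (nat_lit 380) (nat_lit 23214731084591) (nat_lit 43) (nat_lit 5) (nat_lit 42) (nat_lit 3) (nat_lit 47) (nat_lit 5) (nat_lit 405) (nat_lit 404) (nat_lit 211)))))) (XT.nd (nat_lit 546) (nat_lit 684) (nat_lit 0) (XT.nd (nat_lit 234) (nat_lit 456) (nat_lit 0) (XT.nd (nat_lit 78) (nat_lit 0) (nat_lit 0) (XT.lf (nat_lit 0) (nat_lit 12279602659883) (nat_lit 304) (nat_lit 11921047815157) (nat_lit 380) (nat_lit 11637383355756) (nat_lit 43) (nat_lit 5) (nat_lit 47) (nat_lit 5) (nat_lit 48) (nat_lit 5) (nat_lit 406) (nat_lit 404) (nat_lit 210)) (XT.nd (nat_lit 78) (nat_lit 0) (nat_lit 76) (XT.lf (nat_lit 76) (nat_lit 7394152169777) (nat_lit 0) (nat_lit 7891435967094) (nat_lit 380) (nat_lit 23319961171766) (nat_lit 44) (nat_lit 5) (nat_lit 43) (nat_lit 5) (nat_lit 48) (nat_lit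 5) (nat_lit 407) (nat_lit 404) (nat_lit 209)) (XT.lf (nat_lit 0) (nat_lit 19845152447929) (nat_lit 304) (nat_lit 11227860220127) (nat_lit 76) (nat_lit 10549777288220) (nat_lit 44) (nat_lit 5) (nat_lit 48) (nat_lit 5) (nat_lit 45) (nat_lit 5) (nat_lit 408) (nat_lit 404) (nat_lit 208)))) (XT.nd (nat_lit 156) (nat_lit 228) (nat_lit 0) (XT.nd (nat_lit 78) (nat_lit 0) (nat_lit 0) (XT.lf (nat_lit 0) (nat_lit 12489309245321) (nat_lit 304) (nat_lit 13492280487748) (nat_lit 380) (nat_lit 18977086218879) (nat_lit 40) (nat_lit 5) (nat_lit 44) (nat_lit 5) (nat_lit 45) (nat_lit 5) (nat_lit 409) (nat_lit 404) (nat_lit 207)) (XT.lf (nat_lit 0) (nat_lit 33931842783261) (nat_lit 380) (nat_lit 7987435000706) (nat_lit 76) (nat_lit 6741664537162) (nat_lit 40) (nat_lit 5) (nat_lit 45) (nat_lit 5) (nat_lit 41) (nat_lit 5) (nat_lit 410) (nat_lit 404) (nat_lit 206))) (XT.nd (nat_lit 78) (nat_lit 76) (nat_lit 0)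 (XT.lf (nat_lit 0) (nat_lit 21432353203389) (nat_lit 152) (nat_lit 23172238176169) (nat_lit 228) (nat_lit 8084463627841) (nat_lit 38) (nat_lit 5) (nat_lit 40) (nat_lit 5) (nat_lit 41) (nat_lit 5) (nat_lit 411) (nat_lit 404) (nat_lit 205)) (XT.lf (nat_lit 0) (nat_lit 33725527927) (nat_lit 228) (nat_lit 1097500410841) (nat_lit 76) (nat_lit 56127299959351) (nat_lit 37) (nat_lit 5) (nat_lit 40) (nat_lit 5) (nat_lit 38) (nat_lit 5) (nat_lit 412) (nat_lit 404) (nat_lit 204))))) (XT.nd (nat_lit 234) (nat_lit 380) (nat_lit 0) (XT.nd (nat_lit 78) (nat_lit 152) (nat_lit 0) (XT.lf (nat_lit 0) (nat_lit 11143991718937) (nat_lit 228) (nat_lit 26877017258515) (nat_lit 76) (nat_lit 24044355714089) (nat_lit 35) (nat_lit 5) (nat_lit 38) (nat_lit 5) (nat_lit 36) (nat_lit 5) (nat_lit 413) (nat_lit 404) (nat_lit 203)) (XT.nd (nat_lit 78) (nat_lit 0) (nat_lit 0) (XT.lf (nat_lit 0) (nat_lit 10317750339150) (nat_lit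 152) (nat_lit 14144252653152) (nat_lit 228) (nat_lit 43050045538619) (nat_lit 33) (nat_lit 5) (nat_lit 35) (nat_lit 5) (nat_lit 36) (nat_lit 5) (nat_lit 414) (nat_lit 404) (nat_lit 202)) (XT.lf (nat_lit 0) (nat_lit 41800857672783) (nat_lit 228) (nat_lit 18070858108769) (nat_lit 76) (nat_lit 13600547907238) (nat_lit 33) (nat_lit 5) (nat_lit 36) (nat_lit 5) (nat_lit 34) (nat_lit 4) (nat_lit 415) (nat_lit 404) (nat_lit 201)))) (XT.nd (nat_lit 156) (nat_lit 228) (nat_lit 0) (XT.nd (nat_lit 78) (nat_lit 76) (nat_lit 0) (XT.lf (nat_lit 0) (nat_lit 28812664810323) (nat_lit 76) (nat_lit 34794482592273) (nat_lit 152) (nat_lit 16439372690654) (nat_lit 32) (nat_lit 5) (nat_lit 33) (nat_lit 5) (nat_lit 34) (nat_lit 4) (nat_lit 416) (nat_lit 404) (nat_lit 200)) (XT.lf (nat_lit 0) (nat_lit 1971136802724) (nat_lit 152) (nat_lit 2795185932245) (nat_lit 76) (nat_lit 82685460698677) (nat_lit 31) (nat_lit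 5) (nat_lit 33) (nat_lit 5) (nat_lit 32) (nat_lit 5) (nat_lit 417) (nat_lit 404) (nat_lit 199))) (XT.nd (nat_lit 78) (nat_lit 76) (nat_lit 0) (XT.lf (nat_lit 0) (nat_lit 25212182907165) (nat_lit 228) (nat_lit 39657025971568) (nat_lit 76) (nat_lit 30418397482769) (nat_lit 29) (nat_lit 5) (nat_lit 32) (nat_lit 5) (nat_lit 30) (nat_lit 4) (nat_lit 418) (nat_lit 404) (nat_lit 198)) (XT.lf (nat_lit 0) (nat_lit 20443568925464) (nat_lit 76) (nat_lit 32722379050090) (nat_lit 152) (nat_lit 50948870445741) (nat_lit 28) (nat_lit 5) (nat_lit 29) (nat_lit 5) (nat_lit 30) (nat_lit 4) (nat_lit 419) (nat_lit 404) (nat_lit 197))))))))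
noncomputable def xc123 : XT := (XT.nd (nat_lit 105768) (nat_lit 0) (nat_lit 152) (XT.nd (nat_lit 52806) (nat_lit 0) (nat_lit 152) (XT.nd (nat_lit 52260) (nat_lit 0) (nat_lit 532) (XT.nd (nat_lit 52026) (nat_lit 0) (nat_lit 1216) (XT.nd (nat_lit 78) (nat_lit 152) (nat_lit 0) (XT.lf (nat_lit 0) (nat_lit 87660309568184) (nat_lit 152) (nat_lit 20213554016901) (nat_lit 0) (nat_lit 6040118940374) (nat_lit 28) (nat_lit 5) (nat_lit 30) (nat_lit 4) (nat_lit 28) (nat_lit 4) (nat_lit 420) (nat_lit 404) (nat_lit 196)) (XT.nd (nat_lit 51870) (nat_lit 0) (nat_lit 1216) (XT.lf (nat_lit 0) (nat_lit 6025492441288) (nat_lit 152) (nat_lit 68665381879043) (nat_lit 76) (nat_lit 49868210557131) (nat_lit 26) (nat_lit 5) (nat_lit 28) (nat_lit 5) (nat_lit 27) (nat_lit 4) (nat_lit 421) (nat_lit 404) (nat_lit 195)) (XT.lf (nat_lit 0) (nat_lit 5315545181431) (nat_lit 380) (nat_lit 6272295721806) (nat_lit 380) (nat_lit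 6272295721806) (nat_lit 42) (nat_lit 3) (nat_lit 47) (nat_lit 3) (nat_lit 47) (nat_lit 5) (nat_lit 405) (nat_lit 405) (nat_lit 210)))) (XT.nd (nat_lit 78) (nat_lit 0) (nat_lit 76) (XT.lf (nat_lit 76) (nat_lit 5752547987681) (nat_lit 0) (nat_lit 5914074897275) (nat_lit 380) (nat_lit 26696940747156) (nat_lit 43) (nat_lit 5) (nat_lit 42) (nat_lit 3) (nat_lit 47) (nat_lit 5) (nat_lit 406) (nat_lit 405) (nat_lit 209)) (XT.nd (nat_lit 78) (nat_lit 0) (nat_lit 0) (XT.lf (nat_lit 0) (nat_lit 14121543058957) (nat_lit 304) (nat_lit 13709204987357) (nat_lit 380) (nat_lit 13382990859086) (nat_lit 43) (nat_lit 5) (nat_lit 47) (nat_lit 5) (nat_lit 48) (nat_lit 5) (nat_lit 407) (nat_lit 405) (nat_lit 208)) (XT.lf (nat_lit 76) (nat_lit 8503274995313) (nat_lit 0) (nat_lit 9075151362172) (nat_lit 380) (nat_lit 26817955347435) (nat_lit 44) (nat_lit 5) (nat_lit 43) (nat_lit 5) (nat_lit 48) (nat_lit 5) (nat_lit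 408) (nat_lit 405) (nat_lit 207))))) (XT.nd (nat_lit 234) (nat_lit 532) (nat_lit 0) (XT.nd (nat_lit 78) (nat_lit 304) (nat_lit 0) (XT.lf (nat_lit 0) (nat_lit 22821925315190) (nat_lit 304) (nat_lit 12912039253075) (nat_lit 76) (nat_lit 12132243881442) (nat_lit 44) (nat_lit 5) (nat_lit 48) (nat_lit 5) (nat_lit 45) (nat_lit 5) (nat_lit 409) (nat_lit 405) (nat_lit 206)) (XT.nd (nat_lit 78) (nat_lit 0) (nat_lit 0) (XT.lf (nat_lit 0) (nat_lit 14362705632188) (nat_lit 304) (nat_lit 15516122560906) (nat_lit 380) (nat_lit 21823649151636) (nat_lit 40) (nat_lit 5) (nat_lit 44) (nat_lit 5) (nat_lit 45) (nat_lit 5) (nat_lit 410) (nat_lit 405) (nat_lit 205)) (XT.lf (nat_lit 0) (nat_lit 39021619200807) (nat_lit 380) (nat_lit 9185550250744) (nat_lit 76) (nat_lit 7752914217739) (nat_lit 40) (nat_lit 5) (nat_lit 45) (nat_lit 5) (nat_lit 41) (nat_lit 5) (nat_lit 411) (nat_lit 405) (nat_lit 204)))) (XT.nd (nat_lit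 156) (nat_lit 304) (nat_lit 0) (XT.nd (nat_lit 78) (nat_lit 76) (nat_lit 0) (XT.lf (nat_lit 0) (nat_lit 24647206183962) (nat_lit 152) (nat_lit 26648073902582) (nat_lit 228) (nat_lit 9297133171957) (nat_lit 38) (nat_lit 5) (nat_lit 40) (nat_lit 5) (nat_lit 41) (nat_lit 5) (nat_lit 412) (nat_lit 405) (nat_lit 203)) (XT.lf (nat_lit 0) (nat_lit 38784357164) (nat_lit 228) (nat_lit 1262125472406) (nat_lit 76) (nat_lit 64546394953261) (nat_lit 37) (nat_lit 5) (nat_lit 40) (nat_lit 5) (nat_lit 38) (nat_lit 5) (nat_lit 413) (nat_lit 405) (nat_lit 202))) (XT.nd (nat_lit 78) (nat_lit 152) (nat_lit 0) (XT.lf (nat_lit 0) (nat_lit 12815590476822) (nat_lit 228) (nat_lit 30908569847229) (nat_lit 76) (nat_lit 27651009071216) (nat_lit 35) (nat_lit 5) (nat_lit 38) (nat_lit 5) (nat_lit 36) (nat_lit 5) (nat_lit 414) (nat_lit 405) (nat_lit 201)) (XT.lf (nat_lit 0) (nat_lit 11865412890084) (nat_lit 152) (nat_lit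 16265890551104) (nat_lit 228) (nat_lit 49507552369365) (nat_lit 33) (nat_lit 5) (nat_lit 35) (nat_lit 5) (nat_lit 36) (nat_lit 5) (nat_lit 415) (nat_lit 405) (nat_lit 200)))))) (XT.nd (nat_lit 52416) (nat_lit 0) (nat_lit 760) (XT.nd (nat_lit 234) (nat_lit 228) (nat_lit 0) (XT.nd (nat_lit 78) (nat_lit 152) (nat_lit 0) (XT.lf (nat_lit 0) (nat_lit 48070986323737) (nat_lit 228) (nat_lit 20781486825026) (nat_lit 76) (nat_lit 15640630093340) (nat_lit 33) (nat_lit 5) (nat_lit 36) (nat_lit 5) (nat_lit 34) (nat_lit 4) (nat_lit 416) (nat_lit 405) (nat_lit 199)) (XT.nd (nat_lit 78) (nat_lit 76) (nat_lit 0) (XT.lf (nat_lit 0) (nat_lit 33134564531927) (nat_lit 76) (nat_lit 40013654981093) (nat_lit 152) (nat_lit 18905278594214) (nat_lit 32) (nat_lit 5) (nat_lit 33) (nat_lit 5) (nat_lit 34) (nat_lit 4) (nat_lit 417) (nat_lit 405) (nat_lit 198)) (XT.lf (nat_lit 0) (nat_lit 2266807323163) (nat_lit 152) (nat_lit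 3214463822030) (nat_lit 76) (nat_lit 95088279803495) (nat_lit 31) (nat_lit 5) (nat_lit 33) (nat_lit 5) (nat_lit 32) (nat_lit 5) (nat_lit 418) (nat_lit 405) (nat_lit 197)))) (XT.nd (nat_lit 156) (nat_lit 0) (nat_lit 0) (XT.nd (nat_lit 78) (nat_lit 76) (nat_lit 0) (XT.lf (nat_lit 0) (nat_lit 28994010343270) (nat_lit 228) (nat_lit 45605579867251) (nat_lit 76) (nat_lit 34981157105202) (nat_lit 29) (nat_lit 5) (nat_lit 32) (nat_lit 5) (nat_lit 30) (nat_lit 4) (nat_lit 419) (nat_lit 405) (nat_lit 196)) (XT.lf (nat_lit 0) (nat_lit 23510104264333) (nat_lit 76) (nat_lit 37630735907582) (nat_lit 152) (nat_lit 58591201012570) (nat_lit 28) (nat_lit 5) (nat_lit 29) (nat_lit 5) (nat_lit 30) (nat_lit 4) (nat_lit 420) (nat_lit 405) (nat_lit 195))) (XT.nd (nat_lit 51948) (nat_lit 0) (nat_lit 1064) (XT.lf (nat_lit 0) (nat_lit 100809356003437) (nat_lit 152) (nat_lit 23245587119390) (nat_lit 0) (nat_lit 6946136781447)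 (nat_lit 28) (nat_lit 5) (nat_lit 30) (nat_lit 4) (nat_lit 28) (nat_lit 4) (nat_lit 421) (nat_lit 405) (nat_lit 194)) (XT.lf (nat_lit 0) (nat_lit 6112876958691) (nat_lit 380) (nat_lit 7213140080051) (nat_lit 380) (nat_lit 7213140080051) (nat_lit 42) (nat_lit 3) (nat_lit 47) (nat_lit 3) (nat_lit 47) (nat_lit 5) (nat_lit 406) (nat_lit 406) (nat_lit 208))))) (XT.nd (nat_lit 234) (nat_lit 304) (nat_lit 0) (XT.nd (nat_lit 78) (nat_lit 0) (nat_lit 76) (XT.lf (nat_lit 76) (nat_lit 6615430185883) (nat_lit 0) (nat_lit 6801186131898) (nat_lit 380) (nat_lit 30701481859136) (nat_lit 43) (nat_lit 5) (nat_lit 42) (nat_lit 3) (nat_lit 47) (nat_lit 5) (nat_lit 407) (nat_lit 406) (nat_lit 207)) (XT.nd (nat_lit 78) (nat_lit 0) (nat_lit 0) (XT.lf (nat_lit 0) (nat_lit 16239774517871) (nat_lit 304) (nat_lit 15765585735405) (nat_lit 380) (nat_lit 15390439487925) (nat_lit 43) (nat_lit 5) (nat_lit 47) (nat_lit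 5) (nat_lit 48) (nat_lit 5) (nat_lit 408) (nat_lit 406) (nat_lit 206)) (XT.lf (nat_lit 76) (nat_lit 9778766244663) (nat_lit 0) (nat_lit 10436424066507) (nat_lit 380) (nat_lit 30840648649479) (nat_lit 44) (nat_lit 5) (nat_lit 43) (nat_lit 5) (nat_lit 48) (nat_lit 5) (nat_lit 409) (nat_lit 406) (nat_lit 205)))) (XT.nd (nat_lit 156) (nat_lit 152) (nat_lit 0) (XT.nd (nat_lit 78) (nat_lit 304) (nat_lit 0) (XT.lf (nat_lit 0) (nat_lit 26245214112523) (nat_lit 304) (nat_lit 14848845140982) (nat_lit 76) (nat_lit 13952080463651) (nat_lit 44) (nat_lit 5) (nat_lit 48) (nat_lit 5) (nat_lit 45) (nat_lit 5) (nat_lit 410) (nat_lit 406) (nat_lit 204)) (XT.lf (nat_lit 0) (nat_lit 16517111477068) (nat_lit 304) (nat_lit 17843540945040) (nat_lit 380) (nat_lit 25097196524325) (nat_lit 40) (nat_lit 5) (nat_lit 44) (nat_lit 5) (nat_lit 45) (nat_lit 5) (nat_lit 411) (nat_lit 406) (nat_lit 203))) (XT.nd (nat_lit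 78) (nat_lit 152) (nat_lit 0) (XT.lf (nat_lit 0) (nat_lit 44874862080971) (nat_lit 380) (nat_lit 10563382788303) (nat_lit 76) (nat_lit 8915851350402) (nat_lit 40) (nat_lit 5) (nat_lit 45) (nat_lit 5) (nat_lit 41) (nat_lit 5) (nat_lit 412) (nat_lit 406) (nat_lit 202)) (XT.lf (nat_lit 0) (nat_lit 28344287111606) (nat_lit 152) (nat_lit 30645284987959) (nat_lit 228) (nat_lit 10691703147706) (nat_lit 38) (nat_lit 5) (nat_lit 40) (nat_lit 5) (nat_lit 41) (nat_lit 5) (nat_lit 413) (nat_lit 406) (nat_lit 201))))))) (XT.nd (nat_lit 52962) (nat_lit 0) (nat_lit 0) (XT.nd (nat_lit 468) (nat_lit 228) (nat_lit 0) (XT.nd (nat_lit 234) (nat_lit 152) (nat_lit 0) (XT.nd (nat_lit 78) (nat_lit 304) (nat_lit 0) (XT.lf (nat_lit 0) (nat_lit 44602010775) (nat_lit 228) (nat_lit 1451444293221) (nat_lit 76) (nat_lit 74228354196255) (nat_lit 37) (nat_lit 5) (nat_lit 40) (nat_lit 5) (nat_lit 38) (nat_lit 5) (nat_lit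 414) (nat_lit 406) (nat_lit 200)) (XT.nd (nat_lit 78) (nat_lit 152) (nat_lit 0) (XT.lf (nat_lit 0) (nat_lit 14737929048379) (nat_lit 228) (nat_lit 35544855324264) (nat_lit 76) (nat_lit 31798660431909) (nat_lit 35) (nat_lit 5) (nat_lit 38) (nat_lit 5) (nat_lit 36) (nat_lit 5) (nat_lit 415) (nat_lit 406) (nat_lit 199)) (XT.lf (nat_lit 0) (nat_lit 13645224823643) (nat_lit 152) (nat_lit 18705774133754) (nat_lit 228) (nat_lit 56933685224734) (nat_lit 33) (nat_lit 5) (nat_lit 35) (nat_lit 5) (nat_lit 36) (nat_lit 5) (nat_lit 416) (nat_lit 406) (nat_lit 198)))) (XT.nd (nat_lit 78) (nat_lit 152) (nat_lit 0) (XT.lf (nat_lit 0) (nat_lit 55281634272325) (nat_lit 228) (nat_lit 23898709848737) (nat_lit 76) (nat_lit 17986724607353) (nat_lit 33) (nat_lit 5) (nat_lit 36) (nat_lit 5) (nat_lit 34) (nat_lit 4) (nat_lit 417) (nat_lit 406) (nat_lit 197)) (XT.nd (nat_lit 78) (nat_lit 76) (nat_lit 0) (XT.lf (nat_lit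 0) (nat_lit 38104749211759) (nat_lit 76) (nat_lit 46015703228240) (nat_lit 152) (nat_lit 21741070383316) (nat_lit 32) (nat_lit 5) (nat_lit 33) (nat_lit 5) (nat_lit 34) (nat_lit 4) (nat_lit 418) (nat_lit 406) (nat_lit 196)) (XT.lf (nat_lit 0) (nat_lit 2606828421662) (nat_lit 152) (nat_lit 3696633395295) (nat_lit 76) (nat_lit 109351521774031) (nat_lit 31) (nat_lit 5) (nat_lit 33) (nat_lit 5) (nat_lit 32) (nat_lit 5) (nat_lit 419) (nat_lit 406) (nat_lit 195))))) (XT.nd (nat_lit 52182) (nat_lit 0) (nat_lit 1064) (XT.nd (nat_lit 78) (nat_lit 76) (nat_lit 0) (XT.lf (nat_lit 0) (nat_lit 33343111894783) (nat_lit 228) (nat_lit 52446416847299) (nat_lit 76) (nat_lit 40228330670996) (nat_lit 29) (nat_lit 5) (nat_lit 32) (nat_lit 5) (nat_lit 30) (nat_lit 4) (nat_lit 420) (nat_lit 406) (nat_lit 194)) (XT.nd (nat_lit 52026) (nat_lit 0) (nat_lit 1064) (XT.lf (nat_lit 0) (nat_lit 27036619904022) (nat_lit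 76) (nat_lit 43275346293702) (nat_lit 152) (nat_lit 67379881164431) (nat_lit 28) (nat_lit 5) (nat_lit 29) (nat_lit 5) (nat_lit 30) (nat_lit 4) (nat_lit 421) (nat_lit 406) (nat_lit 193)) (XT.lf (nat_lit 0) (nat_lit 7029808502529) (nat_lit 380) (nat_lit 8295111092038) (nat_lit 380) (nat_lit 8295111092038) (nat_lit 42) (nat_lit 3) (nat_lit 47) (nat_lit 3) (nat_lit 47) (nat_lit 5) (nat_lit 407) (nat_lit 407) (nat_lit 206)))) (XT.nd (nat_lit 156) (nat_lit 0) (nat_lit 76) (XT.nd (nat_lit 78) (nat_lit 0) (nat_lit 76) (XT.lf (nat_lit 76) (nat_lit 7607744713803) (nat_lit 0) (nat_lit 7821364051706) (nat_lit 380) (nat_lit 35306704137935) (nat_lit 43) (nat_lit 5) (nat_lit 42) (nat_lit 3) (nat_lit 47) (nat_lit 5) (nat_lit 408) (nat_lit 407) (nat_lit 205)) (XT.lf (nat_lit 0) (nat_lit 18675740695604) (nat_lit 304) (nat_lit 18130423595675) (nat_lit 380) (nat_lit 17699005411095) (nat_lit 43) (nat_lit 5)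 (nat_lit 47) (nat_lit 5) (nat_lit 48) (nat_lit 5) (nat_lit 409) (nat_lit 407) (nat_lit 204))) (XT.nd (nat_lit 78) (nat_lit 0) (nat_lit 76) (XT.lf (nat_lit 76) (nat_lit 11245581181402) (nat_lit 0) (nat_lit 12001887676491) (nat_lit 380) (nat_lit 35466745946846) (nat_lit 44) (nat_lit 5) (nat_lit 43) (nat_lit 5) (nat_lit 48) (nat_lit 5) (nat_lit 410) (nat_lit 407) (nat_lit 203)) (XT.lf (nat_lit 0) (nat_lit 30181996229442) (nat_lit 304) (nat_lit 17076171912088) (nat_lit 76) (nat_lit 16044892533192) (nat_lit 44) (nat_lit 5) (nat_lit 48) (nat_lit 5) (nat_lit 45) (nat_lit 5) (nat_lit 411) (nat_lit 407) (nat_lit 202)))))) (XT.nd (nat_lit 546) (nat_lit 380) (nat_lit 0) (XT.nd (nat_lit 234) (nat_lit 380) (nat_lit 0) (XT.nd (nat_lit 78) (nat_lit 152) (nat_lit 0) (XT.lf (nat_lit 0) (nat_lit 18994678198668) (nat_lit 304) (nat_lit 20520072086794) (nat_lit 380) (nat_lit 28861776002931) (nat_lit 40) (nat_lit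 5) (nat_lit 44) (nat_lit 5) (nat_lit 45) (nat_lit 5) (nat_lit 412) (nat_lit 407) (nat_lit 201)) (XT.nd (nat_lit 78) (nat_lit 152) (nat_lit 0) (XT.lf (nat_lit 0) (nat_lit 51606091393149) (nat_lit 380) (nat_lit 12147890206510) (nat_lit 76) (nat_lit 10253229052964) (nat_lit 40) (nat_lit 5) (nat_lit 45) (nat_lit 5) (nat_lit 41) (nat_lit 5) (nat_lit 413) (nat_lit 407) (nat_lit 200)) (XT.lf (nat_lit 0) (nat_lit 32595930178384) (nat_lit 152) (nat_lit 35242077736146) (nat_lit 228) (nat_lit 12295458619828) (nat_lit 38) (nat_lit 5) (nat_lit 40) (nat_lit 5) (nat_lit 41) (nat_lit 5) (nat_lit 414) (nat_lit 407) (nat_lit 199)))) (XT.nd (nat_lit 156) (nat_lit 152) (nat_lit 0) (XT.nd (nat_lit 78) (nat_lit 152) (nat_lit 0) (XT.lf (nat_lit 0) (nat_lit 51292312418) (nat_lit 228) (nat_lit 1669160937169) (nat_lit 76) (nat_lit 85362607325697) (nat_lit 37) (nat_lit 5) (nat_lit 40) (nat_lit 5) (nat_lit 38) (nat_lit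 5) (nat_lit 415) (nat_lit 407) (nat_lit 198)) (XT.lf (nat_lit 0) (nat_lit 16948618405661) (nat_lit 228) (nat_lit 40876583622867) (nat_lit 76) (nat_lit 36568459496703) (nat_lit 35) (nat_lit 5) (nat_lit 38) (nat_lit 5) (nat_lit 36) (nat_lit 5) (nat_lit 416) (nat_lit 407) (nat_lit 197))) (XT.nd (nat_lit 78) (nat_lit 0) (nat_lit 0) (XT.lf (nat_lit 0) (nat_lit 15692008547224) (nat_lit 152) (nat_lit 21511640253806) (nat_lit 228) (nat_lit 65473738008417) (nat_lit 33) (nat_lit 5) (nat_lit 35) (nat_lit 5) (nat_lit 36) (nat_lit 5) (nat_lit 417) (nat_lit 407) (nat_lit 196)) (XT.lf (nat_lit 0) (nat_lit 63573879413195) (nat_lit 228) (nat_lit 27483516326014) (nat_lit 76) (nat_lit 20684733298466) (nat_lit 33) (nat_lit 5) (nat_lit 36) (nat_lit 5) (nat_lit 34) (nat_lit 4) (nat_lit 418) (nat_lit 407) (nat_lit 195))))) (XT.nd (nat_lit 234) (nat_lit 76) (nat_lit 0) (XT.nd (nat_lit 78) (nat_lit 228) (nat_lit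 0) (XT.lf (nat_lit 0) (nat_lit 43820461593554) (nat_lit 76) (nat_lit 52918058712464) (nat_lit 152) (nat_lit 25002230940791) (nat_lit 32) (nat_lit 5) (nat_lit 33) (nat_lit 5) (nat_lit 34) (nat_lit 4) (nat_lit 419) (nat_lit 407) (nat_lit 194)) (XT.nd (nat_lit 78) (nat_lit 152) (nat_lit 0) (XT.lf (nat_lit 0) (nat_lit 2997852684928) (nat_lit 152) (nat_lit 4251128404561) (nat_lit 76) (nat_lit 125754250040144) (nat_lit 31) (nat_lit 5) (nat_lit 33) (nat_lit 5) (nat_lit 32) (nat_lit 5) (nat_lit 420) (nat_lit 407) (nat_lit 193)) (XT.lf (nat_lit 0) (nat_lit 38344578679017) (nat_lit 228) (nat_lit 60313379374364) (nat_lit 76) (nat_lit 46262580271656) (nat_lit 29) (nat_lit 5) (nat_lit 32) (nat_lit 5) (nat_lit 30) (nat_lit 4) (nat_lit 421) (nat_lit 407) (nat_lit 192)))) (XT.nd (nat_lit 52104) (nat_lit 0) (nat_lit 1064) (XT.nd (nat_lit 52026) (nat_lit 0) (nat_lit 1064) (XT.lf (nat_lit 0) (nat_lit 31092112889653)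 (nat_lit 76) (nat_lit 49766648237745) (nat_lit 152) (nat_lit 77486863339077) (nat_lit 28) (nat_lit 5) (nat_lit 29) (nat_lit 5) (nat_lit 30) (nat_lit 4) (nat_lit 422) (nat_lit 407) (nat_lit 191)) (XT.lf (nat_lit 0) (nat_lit 8084279777935) (nat_lit 380) (nat_lit 9539377755829) (nat_lit 380) (nat_lit 9539377755829) (nat_lit 42) (nat_lit 3) (nat_lit 47) (nat_lit 3) (nat_lit 47) (nat_lit 5) (nat_lit 408) (nat_lit 408) (nat_lit 204))) (XT.nd (nat_lit 78) (nat_lit 0) (nat_lit 76) (XT.lf (nat_lit 76) (nat_lit 8748906420902) (nat_lit 0) (nat_lit 8994568659480) (nat_lit 380) (nat_lit 40602709758572) (nat_lit 43) (nat_lit 5) (nat_lit 42) (nat_lit 3) (nat_lit 47) (nat_lit 5) (nat_lit 409) (nat_lit 408) (nat_lit 203)) (XT.lf (nat_lit 0) (nat_lit 21477101799984) (nat_lit 304) (nat_lit 20849987134994) (nat_lit 380) (nat_lit 20353856222745) (nat_lit 43) (nat_lit 5) (nat_lit 47) (nat_lit 5) (nat_lit 48)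 (nat_lit 5) (nat_lit 410) (nat_lit 408) (nat_lit 202))))))))
noncomputable def xc124 : XT := (XT.nd (nat_lit 106158) (nat_lit 0) (nat_lit 228) (XT.nd (nat_lit 53040) (nat_lit 0) (nat_lit 152) (XT.nd (nat_lit 468) (nat_lit 608) (nat_lit 0) (XT.nd (nat_lit 234) (nat_lit 228) (nat_lit 0) (XT.nd (nat_lit 78) (nat_lit 228) (nat_lit 0) (XT.lf (nat_lit 76) (nat_lit 12932418358642) (nat_lit 0) (nat_lit 13802170827971) (nat_lit 380) (nat_lit 40786757838832) (nat_lit 44) (nat_lit 5) (nat_lit 43) (nat_lit 5) (nat_lit 48) (nat_lit 5) (nat_lit 411) (nat_lit 408) (nat_lit 201)) (XT.nd (nat_lit 78) (nat_lit 304) (nat_lit 0) (XT.lf (nat_lit 0) (nat_lit 34709295663889) (nat_lit 304) (nat_lit 19637597698870) (nat_lit 76) (nat_lit 18451626413167) (nat_lit 44) (nat_lit 5) (nat_lit 48) (nat_lit 5) (nat_lit 45) (nat_lit 5) (nat_lit 412) (nat_lit 408) (nat_lit 200)) (XT.lf (nat_lit 0) (nat_lit 21843879928498)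 (nat_lit 304) (nat_lit 23598082899811) (nat_lit 380) (nat_lit 33191042403338) (nat_lit 40) (nat_lit 5) (nat_lit 44) (nat_lit 5) (nat_lit 45) (nat_lit 5) (nat_lit 413) (nat_lit 408) (nat_lit 199)))) (XT.nd (nat_lit 78) (nat_lit 228) (nat_lit 0) (XT.lf (nat_lit 0) (nat_lit 59347005102146) (nat_lit 380) (nat_lit 13970073737458) (nat_lit 76) (nat_lit 11791213410910) (nat_lit 40) (nat_lit 5) (nat_lit 45) (nat_lit 5) (nat_lit 41) (nat_lit 5) (nat_lit 414) (nat_lit 408) (nat_lit 198)) (XT.nd (nat_lit 78) (nat_lit 76) (nat_lit 0) (XT.lf (nat_lit 0) (nat_lit 37485319705170) (nat_lit 152) (nat_lit 40528389396562) (nat_lit 228) (nat_lit 14139777412776) (nat_lit 38) (nat_lit 5) (nat_lit 40) (nat_lit 5) (nat_lit 41) (nat_lit 5) (nat_lit 415) (nat_lit 408) (nat_lit 197)) (XT.lf (nat_lit 0) (nat_lit 58986159301) (nat_lit 228) (nat_lit 1919535077718) (nat_lit 76) (nat_lit 98166998424555) (nat_lit 37) (nat_lit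 5) (nat_lit 40) (nat_lit 5) (nat_lit 38) (nat_lit 5) (nat_lit 416) (nat_lit 408) (nat_lit 196))))) (XT.nd (nat_lit 234) (nat_lit 304) (nat_lit 0) (XT.nd (nat_lit 78) (nat_lit 152) (nat_lit 0) (XT.lf (nat_lit 0) (nat_lit 19490911166529) (nat_lit 228) (nat_lit 47008071166270) (nat_lit 76) (nat_lit 42053728421213) (nat_lit 35) (nat_lit 5) (nat_lit 38) (nat_lit 5) (nat_lit 36) (nat_lit 5) (nat_lit 417) (nat_lit 408) (nat_lit 195)) (XT.nd (nat_lit 78) (nat_lit 0) (nat_lit 0) (XT.lf (nat_lit 0) (nat_lit 18045809829335) (nat_lit 152) (nat_lit 24738386291869) (nat_lit 228) (nat_lit 75294798709659) (nat_lit 33) (nat_lit 5) (nat_lit 35) (nat_lit 5) (nat_lit 36) (nat_lit 5) (nat_lit 418) (nat_lit 408) (nat_lit 194)) (XT.lf (nat_lit 0) (nat_lit 73109961325190) (nat_lit 228) (nat_lit 31606043774891) (nat_lit 76) (nat_lit 23787443293242) (nat_lit 33) (nat_lit 5) (nat_lit 36) (nat_lit 5) (nat_lit 34) (nat_lit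 4) (nat_lit 419) (nat_lit 408) (nat_lit 193)))) (XT.nd (nat_lit 156) (nat_lit 152) (nat_lit 0) (XT.nd (nat_lit 78) (nat_lit 76) (nat_lit 0) (XT.lf (nat_lit 0) (nat_lit 50393530832610) (nat_lit 76) (nat_lit 60855767519325) (nat_lit 152) (nat_lit 28752565581893) (nat_lit 32) (nat_lit 5) (nat_lit 33) (nat_lit 5) (nat_lit 34) (nat_lit 4) (nat_lit 420) (nat_lit 408) (nat_lit 192)) (XT.lf (nat_lit 0) (nat_lit 3447530587681) (nat_lit 152) (nat_lit 4888797665224) (nat_lit 76) (nat_lit 144617387546173) (nat_lit 31) (nat_lit 5) (nat_lit 33) (nat_lit 5) (nat_lit 32) (nat_lit 5) (nat_lit 421) (nat_lit 408) (nat_lit 191))) (XT.nd (nat_lit 52104) (nat_lit 0) (nat_lit 988) (XT.lf (nat_lit 0) (nat_lit 44096265480883) (nat_lit 228) (nat_lit 69360386280497) (nat_lit 76) (nat_lit 53201967312412) (nat_lit 29) (nat_lit 5) (nat_lit 32) (nat_lit 5) (nat_lit 30) (nat_lit 4) (nat_lit 422) (nat_lit 408) (nat_lit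 190)) (XT.lf (nat_lit 0) (nat_lit 9296921744645) (nat_lit 380) (nat_lit 10970284419192) (nat_lit 380) (nat_lit 10970284419192) (nat_lit 42) (nat_lit 3) (nat_lit 47) (nat_lit 3) (nat_lit 47) (nat_lit 5) (nat_lit 409) (nat_lit 409) (nat_lit 202)))))) (XT.nd (nat_lit 468) (nat_lit 684) (nat_lit 0) (XT.nd (nat_lit 234) (nat_lit 152) (nat_lit 0) (XT.nd (nat_lit 78) (nat_lit 0) (nat_lit 76) (XT.lf (nat_lit 76) (nat_lit 10061242384060) (nat_lit 0) (nat_lit 10343753958415) (nat_lit 380) (nat_lit 46693116222318) (nat_lit 43) (nat_lit 5) (nat_lit 42) (nat_lit 3) (nat_lit 47) (nat_lit 5) (nat_lit 410) (nat_lit 409) (nat_lit 201)) (XT.nd (nat_lit 78) (nat_lit 0) (nat_lit 0) (XT.lf (nat_lit 0) (nat_lit 24698667070012) (nat_lit 304) (nat_lit 23977485205220) (nat_lit 380) (nat_lit 23406934656146) (nat_lit 43) (nat_lit 5) (nat_lit 47) (nat_lit 5) (nat_lit 48) (nat_lit 5) (nat_lit 411) (nat_lit 409) (nat_lit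 200)) (XT.lf (nat_lit 76) (nat_lit 14872281112462) (nat_lit 0) (nat_lit 15872496452170) (nat_lit 380) (nat_lit 46904771514625) (nat_lit 44) (nat_lit 5) (nat_lit 43) (nat_lit 5) (nat_lit 48) (nat_lit 5) (nat_lit 412) (nat_lit 409) (nat_lit 199)))) (XT.nd (nat_lit 78) (nat_lit 304) (nat_lit 0) (XT.lf (nat_lit 0) (nat_lit 39915690013496) (nat_lit 304) (nat_lit 22583237353677) (nat_lit 76) (nat_lit 21219370375139) (nat_lit 44) (nat_lit 5) (nat_lit 48) (nat_lit 5) (nat_lit 45) (nat_lit 5) (nat_lit 413) (nat_lit 409) (nat_lit 198)) (XT.nd (nat_lit 78) (nat_lit 0) (nat_lit 0) (XT.lf (nat_lit 0) (nat_lit 25120461917795) (nat_lit 304) (nat_lit 27137795334782) (nat_lit 380) (nat_lit 38169698763814) (nat_lit 40) (nat_lit 5) (nat_lit 44) (nat_lit 5) (nat_lit 45) (nat_lit 5) (nat_lit 414) (nat_lit 409) (nat_lit 197)) (XT.lf (nat_lit 0) (nat_lit 68249055867486) (nat_lit 380) (nat_lit 16065584798054) (nat_lit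 76) (nat_lit 13559895422548) (nat_lit 40) (nat_lit 5) (nat_lit 45) (nat_lit 5) (nat_lit 41) (nat_lit 5) (nat_lit 415) (nat_lit 409) (nat_lit 196))))) (XT.nd (nat_lit 234) (nat_lit 304) (nat_lit 0) (XT.nd (nat_lit 78) (nat_lit 228) (nat_lit 0) (XT.lf (nat_lit 0) (nat_lit 43108117660967) (nat_lit 152) (nat_lit 46607647806042) (nat_lit 228) (nat_lit 16260744024673) (nat_lit 38) (nat_lit 5) (nat_lit 40) (nat_lit 5) (nat_lit 41) (nat_lit 5) (nat_lit 416) (nat_lit 409) (nat_lit 195)) (XT.nd (nat_lit 78) (nat_lit 152) (nat_lit 0) (XT.lf (nat_lit 0) (nat_lit 67834083212) (nat_lit 228) (nat_lit 2207465339356) (nat_lit 76) (nat_lit 112892048188240) (nat_lit 37) (nat_lit 5) (nat_lit 40) (nat_lit 5) (nat_lit 38) (nat_lit 5) (nat_lit 417) (nat_lit 409) (nat_lit 194)) (XT.lf (nat_lit 0) (nat_lit 22414547841523) (nat_lit 228) (nat_lit 54059281841189) (nat_lit 76) (nat_lit 48361787684401) (nat_lit 35) (nat_lit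 5) (nat_lit 38) (nat_lit 5) (nat_lit 36) (nat_lit 5) (nat_lit 418) (nat_lit 409) (nat_lit 193)))) (XT.nd (nat_lit 156) (nat_lit 152) (nat_lit 0) (XT.nd (nat_lit 78) (nat_lit 0) (nat_lit 0) (XT.lf (nat_lit 0) (nat_lit 20752681303756) (nat_lit 152) (nat_lit 28449144235641) (nat_lit 228) (nat_lit 86589018516093) (nat_lit 33) (nat_lit 5) (nat_lit 35) (nat_lit 5) (nat_lit 36) (nat_lit 5) (nat_lit 419) (nat_lit 409) (nat_lit 192)) (XT.lf (nat_lit 0) (nat_lit 84076455523980) (nat_lit 228) (nat_lit 36346950341106) (nat_lit 76) (nat_lit 27355559787234) (nat_lit 33) (nat_lit 5) (nat_lit 36) (nat_lit 5) (nat_lit 34) (nat_lit 4) (nat_lit 420) (nat_lit 409) (nat_lit 191))) (XT.nd (nat_lit 78) (nat_lit 76) (nat_lit 0) (XT.lf (nat_lit 0) (nat_lit 57952560457521) (nat_lit 76) (nat_lit 69984132647216) (nat_lit 152) (nat_lit 33065450419164) (nat_lit 32) (nat_lit 5) (nat_lit 33) (nat_lit 5) (nat_lit 34) (nat_lit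 4) (nat_lit 421) (nat_lit 409) (nat_lit 190)) (XT.lf (nat_lit 0) (nat_lit 3964660175843) (nat_lit 152) (nat_lit 5622117314989) (nat_lit 76) (nat_lit 166309995678105) (nat_lit 31) (nat_lit 5) (nat_lit 33) (nat_lit 5) (nat_lit 32) (nat_lit 5) (nat_lit 422) (nat_lit 409) (nat_lit 189))))))) (XT.nd (nat_lit 53196) (nat_lit 0) (nat_lit 0) (XT.nd (nat_lit 468) (nat_lit 608) (nat_lit 0) (XT.nd (nat_lit 234) (nat_lit 152) (nat_lit 0) (XT.nd (nat_lit 78) (nat_lit 0) (nat_lit 0) (XT.lf (nat_lit 0) (nat_lit 10691460006357) (nat_lit 380) (nat_lit 12615827082063) (nat_lit 380) (nat_lit 12615827082063) (nat_lit 42) (nat_lit 3) (nat_lit 47) (nat_lit 3) (nat_lit 47) (nat_lit 5) (nat_lit 410) (nat_lit 410) (nat_lit 200)) (XT.nd (nat_lit 78) (nat_lit 0) (nat_lit 76) (XT.lf (nat_lit 76) (nat_lit 11570428741685) (nat_lit 0) (nat_lit 11895317052188) (nat_lit 380) (nat_lit 53697083655635) (nat_lit 43) (nat_lit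 5) (nat_lit 42) (nat_lit 3) (nat_lit 47) (nat_lit 5) (nat_lit 411) (nat_lit 410) (nat_lit 199)) (XT.lf (nat_lit 0) (nat_lit 28403467130537) (nat_lit 304) (nat_lit 27574107985985) (nat_lit 380) (nat_lit 26917974854560) (nat_lit 43) (nat_lit 5) (nat_lit 47) (nat_lit 5) (nat_lit 48) (nat_lit 5) (nat_lit 412) (nat_lit 410) (nat_lit 198)))) (XT.nd (nat_lit 78) (nat_lit 228) (nat_lit 0) (XT.lf (nat_lit 76) (nat_lit 17103123279348) (nat_lit 0) (nat_lit 18253370919999) (nat_lit 380) (nat_lit 53940487241796) (nat_lit 44) (nat_lit 5) (nat_lit 43) (nat_lit 5) (nat_lit 48) (nat_lit 5) (nat_lit 413) (nat_lit 410) (nat_lit 197)) (XT.nd (nat_lit 78) (nat_lit 304) (nat_lit 0) (XT.lf (nat_lit 0) (nat_lit 45903043515538) (nat_lit 304) (nat_lit 25970722956711) (nat_lit 76) (nat_lit 24402275931407) (nat_lit 44) (nat_lit 5) (nat_lit 48) (nat_lit 5) (nat_lit 45) (nat_lit 5) (nat_lit 414) (nat_lit 410) (nat_lit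 196)) (XT.lf (nat_lit 0) (nat_lit 28888531205481) (nat_lit 304) (nat_lit 31208464634998) (nat_lit 380) (nat_lit 43895153578368) (nat_lit 40) (nat_lit 5) (nat_lit 44) (nat_lit 5) (nat_lit 45) (nat_lit 5) (nat_lit 415) (nat_lit 410) (nat_lit 195))))) (XT.nd (nat_lit 234) (nat_lit 380) (nat_lit 0) (XT.nd (nat_lit 78) (nat_lit 228) (nat_lit 0) (XT.lf (nat_lit 0) (nat_lit 78486414247623) (nat_lit 380) (nat_lit 18475422517745) (nat_lit 76) (nat_lit 15593879735931) (nat_lit 40) (nat_lit 5) (nat_lit 45) (nat_lit 5) (nat_lit 41) (nat_lit 5) (nat_lit 416) (nat_lit 410) (nat_lit 194)) (XT.nd (nat_lit 78) (nat_lit 76) (nat_lit 0) (XT.lf (nat_lit 0) (nat_lit 49574335310127) (nat_lit 152) (nat_lit 53598794976946) (nat_lit 228) (nat_lit 18699855628359) (nat_lit 38) (nat_lit 5) (nat_lit 40) (nat_lit 5) (nat_lit 41) (nat_lit 5) (nat_lit 417) (nat_lit 410) (nat_lit 193)) (XT.lf (nat_lit 0) (nat_lit 78009195706)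 (nat_lit 228) (nat_lit 2538585140245) (nat_lit 76) (nat_lit 129825855416478) (nat_lit 37) (nat_lit 5) (nat_lit 40) (nat_lit 5) (nat_lit 38) (nat_lit 5) (nat_lit 418) (nat_lit 410) (nat_lit 192)))) (XT.nd (nat_lit 156) (nat_lit 76) (nat_lit 0) (XT.nd (nat_lit 78) (nat_lit 152) (nat_lit 0) (XT.lf (nat_lit 0) (nat_lit 25776730017763) (nat_lit 228) (nat_lit 62168174117351) (nat_lit 76) (nat_lit 55616055837064) (nat_lit 35) (nat_lit 5) (nat_lit 38) (nat_lit 5) (nat_lit 36) (nat_lit 5) (nat_lit 419) (nat_lit 410) (nat_lit 191)) (XT.lf (nat_lit 0) (nat_lit 23865583499333) (nat_lit 152) (nat_lit 32716515870984) (nat_lit 228) (nat_lit 99577371293495) (nat_lit 33) (nat_lit 5) (nat_lit 35) (nat_lit 5) (nat_lit 36) (nat_lit 5) (nat_lit 420) (nat_lit 410) (nat_lit 190))) (XT.nd (nat_lit 78) (nat_lit 76) (nat_lit 0) (XT.lf (nat_lit 0) (nat_lit 96687923852586) (nat_lit 228) (nat_lit 41798992892257) (nat_lit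 76) (nat_lit 31458893755323) (nat_lit 33) (nat_lit 5) (nat_lit 36) (nat_lit 5) (nat_lit 34) (nat_lit 4) (nat_lit 421) (nat_lit 410) (nat_lit 189)) (XT.lf (nat_lit 0) (nat_lit 66645444526163) (nat_lit 76) (nat_lit 80481752544294) (nat_lit 152) (nat_lit 38025267982029) (nat_lit 32) (nat_lit 5) (nat_lit 33) (nat_lit 5) (nat_lit 34) (nat_lit 4) (nat_lit 422) (nat_lit 410) (nat_lit 188)))))) (XT.nd (nat_lit 546) (nat_lit 608) (nat_lit 0) (XT.nd (nat_lit 234) (nat_lit 152) (nat_lit 0) (XT.nd (nat_lit 78) (nat_lit 0) (nat_lit 0) (XT.lf (nat_lit 0) (nat_lit 12295179007322) (nat_lit 380) (nat_lit 14508201144366) (nat_lit 380) (nat_lit 14508201144366) (nat_lit 42) (nat_lit 3) (nat_lit 47) (nat_lit 3) (nat_lit 47) (nat_lit 5) (nat_lit 411) (nat_lit 411) (nat_lit 198)) (XT.nd (nat_lit 78) (nat_lit 0) (nat_lit 76) (XT.lf (nat_lit 76) (nat_lit 13305993052950) (nat_lit 0) (nat_lit 13679614610024) (nat_lit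 380) (nat_lit 61751646203957) (nat_lit 43) (nat_lit 5) (nat_lit 42) (nat_lit 3) (nat_lit 47) (nat_lit 5) (nat_lit 412) (nat_lit 411) (nat_lit 197)) (XT.lf (nat_lit 0) (nat_lit 32663987200134) (nat_lit 304) (nat_lit 31710224183868) (nat_lit 380) (nat_lit 30955671082738) (nat_lit 43) (nat_lit 5) (nat_lit 47) (nat_lit 5) (nat_lit 48) (nat_lit 5) (nat_lit 413) (nat_lit 411) (nat_lit 196)))) (XT.nd (nat_lit 156) (nat_lit 228) (nat_lit 0) (XT.nd (nat_lit 78) (nat_lit 0) (nat_lit 76) (XT.lf (nat_lit 76) (nat_lit 19668591771264) (nat_lit 0) (nat_lit 20991376558002) (nat_lit 380) (nat_lit 62031560328047) (nat_lit 44) (nat_lit 5) (nat_lit 43) (nat_lit 5) (nat_lit 48) (nat_lit 5) (nat_lit 414) (nat_lit 411) (nat_lit 195)) (XT.lf (nat_lit 0) (nat_lit 52788500042883) (nat_lit 304) (nat_lit 29866331400204) (nat_lit 76) (nat_lit 28062617321116) (nat_lit 44) (nat_lit 5) (nat_lit 48) (nat_lit 5) (nat_lit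 45) (nat_lit 5) (nat_lit 415) (nat_lit 411) (nat_lit 194))) (XT.nd (nat_lit 78) (nat_lit 0) (nat_lit 0) (XT.lf (nat_lit 0) (nat_lit 33221810886317) (nat_lit 304) (nat_lit 35889734330247) (nat_lit 380) (nat_lit 50479426615109) (nat_lit 40) (nat_lit 5) (nat_lit 44) (nat_lit 5) (nat_lit 45) (nat_lit 5) (nat_lit 416) (nat_lit 411) (nat_lit 193)) (XT.lf (nat_lit 0) (nat_lit 90259376384777) (nat_lit 380) (nat_lit 21246735895394) (nat_lit 76) (nat_lit 17932961696321) (nat_lit 40) (nat_lit 5) (nat_lit 45) (nat_lit 5) (nat_lit 41) (nat_lit 5) (nat_lit 417) (nat_lit 411) (nat_lit 192))))) (XT.nd (nat_lit 234) (nat_lit 228) (nat_lit 0) (XT.nd (nat_lit 78) (nat_lit 228) (nat_lit 0) (XT.lf (nat_lit 0) (nat_lit 57010485606660) (nat_lit 152) (nat_lit 61638614223485) (nat_lit 228) (nat_lit 21504833972601) (nat_lit 38) (nat_lit 5) (nat_lit 40) (nat_lit 5) (nat_lit 41) (nat_lit 5) (nat_lit 418) (nat_lit 411)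 (nat_lit 191)) (XT.nd (nat_lit 78) (nat_lit 152) (nat_lit 0) (XT.lf (nat_lit 0) (nat_lit 89710575071) (nat_lit 228) (nat_lit 2919372911269) (nat_lit 76) (nat_lit 149299733728951) (nat_lit 37) (nat_lit 5) (nat_lit 40) (nat_lit 5) (nat_lit 38) (nat_lit 5) (nat_lit 419) (nat_lit 411) (nat_lit 190)) (XT.lf (nat_lit 0) (nat_lit 29643239520435) (nat_lit 228) (nat_lit 71493400234942) (nat_lit 76) (nat_lit 63958464212626) (nat_lit 35) (nat_lit 5) (nat_lit 38) (nat_lit 5) (nat_lit 36) (nat_lit 5) (nat_lit 420) (nat_lit 411) (nat_lit 189)))) (XT.nd (nat_lit 156) (nat_lit 76) (nat_lit 0) (XT.nd (nat_lit 78) (nat_lit 0) (nat_lit 0) (XT.lf (nat_lit 0) (nat_lit 27445421024247) (nat_lit 152) (nat_lit 37623993251626) (nat_lit 228) (nat_lit 114513976987510) (nat_lit 33) (nat_lit 5) (nat_lit 35) (nat_lit 5) (nat_lit 36) (nat_lit 5) (nat_lit 421) (nat_lit 411) (nat_lit 188)) (XT.lf (nat_lit 0) (nat_lit 111191112430482)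 (nat_lit 228) (nat_lit 48068841826084) (nat_lit 76) (nat_lit 36177727818626) (nat_lit 33) (nat_lit 5) (nat_lit 36) (nat_lit 5) (nat_lit 34) (nat_lit 4) (nat_lit 422) (nat_lit 411) (nat_lit 187))) (XT.nd (nat_lit 52260) (nat_lit 0) (nat_lit 760) (XT.lf (nat_lit 0) (nat_lit 76642261205098) (nat_lit 76) (nat_lit 92554015425934) (nat_lit 152) (nat_lit 43729058179326) (nat_lit 32) (nat_lit 5) (nat_lit 33) (nat_lit 5) (nat_lit 34) (nat_lit 4) (nat_lit 423) (nat_lit 411) (nat_lit 186)) (XT.lf (nat_lit 0) (nat_lit 14139455858428) (nat_lit 380) (nat_lit 16684431316016) (nat_lit 380) (nat_lit 16684431316016) (nat_lit 42) (nat_lit 3) (nat_lit 47) (nat_lit 3) (nat_lit 47) (nat_lit 5) (nat_lit 412) (nat_lit 412) (nat_lit 196))))))))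
noncomputable def xc125 : XT := (XT.nd (nat_lit 106548) (nat_lit 2052) (nat_lit 0) (XT.nd (nat_lit 53196) (nat_lit 0) (nat_lit 76) (XT.nd (nat_lit 468) (nat_lit 608) (nat_lit 0) (XT.nd (nat_lit 234) (nat_lit 152) (nat_lit 0) (XT.nd (nat_lit 78) (nat_lit 0) (nat_lit 76) (XT.lf (nat_lit 76) (nat_lit 15301892010902) (nat_lit 0) (nat_lit 15731556801533) (nat_lit 380) (nat_lit 71014393134533) (nat_lit 43) (nat_lit 5) (nat_lit 42) (nat_lit 3) (nat_lit 47) (nat_lit 5) (nat_lit 413) (nat_lit 412) (nat_lit 195)) (XT.nd (nat_lit 78) (nat_lit 0) (nat_lit 0) (XT.lf (nat_lit 0) (nat_lit 37563585280168) (nat_lit 304) (nat_lit 36466757811439) (nat_lit 380) (nat_lit 35599021745144) (nat_lit 43) (nat_lit 5) (nat_lit 47) (nat_lit 5) (nat_lit 48) (nat_lit 5) (nat_lit 414) (nat_lit 412) (nat_lit 194)) (XT.lf (nat_lit 76) (nat_lit 22618880536963) (nat_lit 0) (nat_lit 24140083041704) (nat_lit 380) (nat_lit 71336294377241)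 (nat_lit 44) (nat_lit 5) (nat_lit 43) (nat_lit 5) (nat_lit 48) (nat_lit 5) (nat_lit 415) (nat_lit 412) (nat_lit 193)))) (XT.nd (nat_lit 78) (nat_lit 304) (nat_lit 0) (XT.lf (nat_lit 0) (nat_lit 60706775049325) (nat_lit 304) (nat_lit 34346281110224) (nat_lit 76) (nat_lit 32272009919282) (nat_lit 44) (nat_lit 5) (nat_lit 48) (nat_lit 5) (nat_lit 45) (nat_lit 5) (nat_lit 416) (nat_lit 412) (nat_lit 192)) (XT.nd (nat_lit 78) (nat_lit 0) (nat_lit 0) (XT.lf (nat_lit 0) (nat_lit 38205082519273) (nat_lit 304) (nat_lit 41273194479784) (nat_lit 380) (nat_lit 58051340607365) (nat_lit 40) (nat_lit 5) (nat_lit 44) (nat_lit 5) (nat_lit 45) (nat_lit 5) (nat_lit 417) (nat_lit 412) (nat_lit 191)) (XT.lf (nat_lit 0) (nat_lit 103798282842502) (nat_lit 380) (nat_lit 24433746279693) (nat_lit 76) (nat_lit 20622905950770) (nat_lit 40) (nat_lit 5) (nat_lit 45) (nat_lit 5) (nat_lit 41) (nat_lit 5) (nat_lit 418)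 (nat_lit 412) (nat_lit 190))))) (XT.nd (nat_lit 234) (nat_lit 228) (nat_lit 0) (XT.nd (nat_lit 78) (nat_lit 228) (nat_lit 0) (XT.lf (nat_lit 0) (nat_lit 65562058447668) (nat_lit 152) (nat_lit 70884406357006) (nat_lit 228) (nat_lit 24730559068483) (nat_lit 38) (nat_lit 5) (nat_lit 40) (nat_lit 5) (nat_lit 41) (nat_lit 5) (nat_lit 419) (nat_lit 412) (nat_lit 189)) (XT.nd (nat_lit 78) (nat_lit 152) (nat_lit 0) (XT.lf (nat_lit 0) (nat_lit 103167161338) (nat_lit 228) (nat_lit 3357278847952) (nat_lit 76) (nat_lit 171694693788295) (nat_lit 37) (nat_lit 5) (nat_lit 40) (nat_lit 5) (nat_lit 38) (nat_lit 5) (nat_lit 420) (nat_lit 412) (nat_lit 188)) (XT.lf (nat_lit 0) (nat_lit 34089725448507) (nat_lit 228) (nat_lit 82217410270174) (nat_lit 76) (nat_lit 73552233844522) (nat_lit 35) (nat_lit 5) (nat_lit 38) (nat_lit 5) (nat_lit 36) (nat_lit 5) (nat_lit 421) (nat_lit 412) (nat_lit 187)))) (XT.nd (nat_lit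 156) (nat_lit 76) (nat_lit 0) (XT.nd (nat_lit 78) (nat_lit 0) (nat_lit 0) (XT.lf (nat_lit 0) (nat_lit 31562234177892) (nat_lit 152) (nat_lit 43267592239368) (nat_lit 228) (nat_lit 131691073535630) (nat_lit 33) (nat_lit 5) (nat_lit 35) (nat_lit 5) (nat_lit 36) (nat_lit 5) (nat_lit 422) (nat_lit 412) (nat_lit 186)) (XT.lf (nat_lit 0) (nat_lit 127869779295058) (nat_lit 228) (nat_lit 55279168099990) (nat_lit 76) (nat_lit 41604386991421) (nat_lit 33) (nat_lit 5) (nat_lit 36) (nat_lit 5) (nat_lit 34) (nat_lit 4) (nat_lit 423) (nat_lit 412) (nat_lit 185))) (XT.nd (nat_lit 52260) (nat_lit 0) (nat_lit 760) (XT.lf (nat_lit 0) (nat_lit 88138600385871) (nat_lit 76) (nat_lit 106437117739821) (nat_lit 152) (nat_lit 50288416906219) (nat_lit 32) (nat_lit 5) (nat_lit 33) (nat_lit 5) (nat_lit 34) (nat_lit 4) (nat_lit 424) (nat_lit 412) (nat_lit 184)) (XT.lf (nat_lit 0) (nat_lit 16260374237199) (nat_lit 380)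 (nat_lit 19187096013415) (nat_lit 380) (nat_lit 19187096013415) (nat_lit 42) (nat_lit 3) (nat_lit 47) (nat_lit 3) (nat_lit 47) (nat_lit 5) (nat_lit 413) (nat_lit 413) (nat_lit 194)))))) (XT.nd (nat_lit 546) (nat_lit 380) (nat_lit 0) (XT.nd (nat_lit 234) (nat_lit 304) (nat_lit 0) (XT.nd (nat_lit 78) (nat_lit 0) (nat_lit 76) (XT.lf (nat_lit 76) (nat_lit 17597175812544) (nat_lit 0) (nat_lit 18091290321769) (nat_lit 380) (nat_lit 81666552104700) (nat_lit 43) (nat_lit 5) (nat_lit 42) (nat_lit 3) (nat_lit 47) (nat_lit 5) (nat_lit 414) (nat_lit 413) (nat_lit 193)) (XT.nd (nat_lit 78) (nat_lit 0) (nat_lit 0) (XT.lf (nat_lit 0) (nat_lit 43198123072203) (nat_lit 304) (nat_lit 41936771483147) (nat_lit 380) (nat_lit 40938875006912) (nat_lit 43) (nat_lit 5) (nat_lit 47) (nat_lit 5) (nat_lit 48) (nat_lit 5) (nat_lit 415) (nat_lit 413) (nat_lit 192)) (XT.lf (nat_lit 76) (nat_lit 26011712617515) (nat_lit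 0) (nat_lit 27761095497961) (nat_lit 380) (nat_lit 82036738533817) (nat_lit 44) (nat_lit 5) (nat_lit 43) (nat_lit 5) (nat_lit 48) (nat_lit 5) (nat_lit 416) (nat_lit 413) (nat_lit 191)))) (XT.nd (nat_lit 156) (nat_lit 152) (nat_lit 0) (XT.nd (nat_lit 78) (nat_lit 304) (nat_lit 0) (XT.lf (nat_lit 0) (nat_lit 69812791306732) (nat_lit 304) (nat_lit 39498223276751) (nat_lit 76) (nat_lit 37112811407173) (nat_lit 44) (nat_lit 5) (nat_lit 48) (nat_lit 5) (nat_lit 45) (nat_lit 5) (nat_lit 417) (nat_lit 413) (nat_lit 190)) (XT.lf (nat_lit 0) (nat_lit 43935844897172) (nat_lit 304) (nat_lit 47464173651752) (nat_lit 380) (nat_lit 66759041698462) (nat_lit 40) (nat_lit 5) (nat_lit 44) (nat_lit 5) (nat_lit 45) (nat_lit 5) (nat_lit 418) (nat_lit 413) (nat_lit 189))) (XT.nd (nat_lit 78) (nat_lit 152) (nat_lit 0) (XT.lf (nat_lit 0) (nat_lit 119368025268884) (nat_lit 380) (nat_lit 28098808221640) (nat_lit 76)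 (nat_lit 23716341843385) (nat_lit 40) (nat_lit 5) (nat_lit 45) (nat_lit 5) (nat_lit 41) (nat_lit 5) (nat_lit 419) (nat_lit 413) (nat_lit 188)) (XT.lf (nat_lit 0) (nat_lit 75396367214824) (nat_lit 152) (nat_lit 81517067310556) (nat_lit 228) (nat_lit 28440142928750) (nat_lit 38) (nat_lit 5) (nat_lit 40) (nat_lit 5) (nat_lit 41) (nat_lit 5) (nat_lit 420) (nat_lit 413) (nat_lit 187))))) (XT.nd (nat_lit 234) (nat_lit 0) (nat_lit 0) (XT.nd (nat_lit 78) (nat_lit 304) (nat_lit 0) (XT.lf (nat_lit 0) (nat_lit 118642235544) (nat_lit 228) (nat_lit 3860870675138) (nat_lit 76) (nat_lit 197448897856539) (nat_lit 37) (nat_lit 5) (nat_lit 40) (nat_lit 5) (nat_lit 38) (nat_lit 5) (nat_lit 421) (nat_lit 413) (nat_lit 186)) (XT.nd (nat_lit 78) (nat_lit 152) (nat_lit 0) (XT.lf (nat_lit 0) (nat_lit 39203184265788) (nat_lit 228) (nat_lit 94550021810694) (nat_lit 76) (nat_lit 84585068921202) (nat_lit 35) (nat_lit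 5) (nat_lit 38) (nat_lit 5) (nat_lit 36) (nat_lit 5) (nat_lit 422) (nat_lit 413) (nat_lit 185)) (XT.lf (nat_lit 0) (nat_lit 36296569304581) (nat_lit 152) (nat_lit 49757731075272) (nat_lit 228) (nat_lit 151444734565970) (nat_lit 33) (nat_lit 5) (nat_lit 35) (nat_lit 5) (nat_lit 36) (nat_lit 5) (nat_lit 423) (nat_lit 413) (nat_lit 184)))) (XT.nd (nat_lit 52416) (nat_lit 0) (nat_lit 684) (XT.nd (nat_lit 52338) (nat_lit 0) (nat_lit 684) (XT.lf (nat_lit 0) (nat_lit 147050246189321) (nat_lit 228) (nat_lit 63571043314982) (nat_lit 76) (nat_lit 47845045040136) (nat_lit 33) (nat_lit 5) (nat_lit 36) (nat_lit 5) (nat_lit 34) (nat_lit 4) (nat_lit 424) (nat_lit 413) (nat_lit 183)) (XT.lf (nat_lit 0) (nat_lit 18699430372784) (nat_lit 380) (nat_lit 22065160415424) (nat_lit 380) (nat_lit 22065160415424) (nat_lit 42) (nat_lit 3) (nat_lit 47) (nat_lit 3) (nat_lit 47) (nat_lit 5) (nat_lit 414) (nat_lit 414)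 (nat_lit 192))) (XT.nd (nat_lit 78) (nat_lit 0) (nat_lit 76) (XT.lf (nat_lit 76) (nat_lit 20236752184432) (nat_lit 0) (nat_lit 20804983870036) (nat_lit 380) (nat_lit 93916534920395) (nat_lit 43) (nat_lit 5) (nat_lit 42) (nat_lit 3) (nat_lit 47) (nat_lit 5) (nat_lit 415) (nat_lit 414) (nat_lit 191)) (XT.lf (nat_lit 0) (nat_lit 49677841533041) (nat_lit 304) (nat_lit 48227287205612) (nat_lit 380) (nat_lit 47079706257947) (nat_lit 43) (nat_lit 5) (nat_lit 47) (nat_lit 5) (nat_lit 48) (nat_lit 5) (nat_lit 416) (nat_lit 414) (nat_lit 190))))))) (XT.nd (nat_lit 53118) (nat_lit 0) (nat_lit 0) (XT.nd (nat_lit 468) (nat_lit 2432) (nat_lit 0) (XT.nd (nat_lit 234) (nat_lit 228) (nat_lit 0) (XT.nd (nat_lit 78) (nat_lit 228) (nat_lit 0) (XT.lf (nat_lit 76) (nat_lit 29913469510148) (nat_lit 0) (nat_lit 31925259822656) (nat_lit 380) (nat_lit 94342249313882) (nat_lit 44) (nat_lit 5) (nat_lit 43) (nat_lit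 5) (nat_lit 48) (nat_lit 5) (nat_lit 417) (nat_lit 414) (nat_lit 189)) (XT.nd (nat_lit 78) (nat_lit 304) (nat_lit 0) (XT.lf (nat_lit 0) (nat_lit 80284710002748) (nat_lit 304) (nat_lit 45422956768257) (nat_lit 76) (nat_lit 42679733118249) (nat_lit 44) (nat_lit 5) (nat_lit 48) (nat_lit 5) (nat_lit 45) (nat_lit 5) (nat_lit 418) (nat_lit 414) (nat_lit 188)) (XT.lf (nat_lit 0) (nat_lit 50526221631754) (nat_lit 304) (nat_lit 54583799699513) (nat_lit 380) (nat_lit 76772897953225) (nat_lit 40) (nat_lit 5) (nat_lit 44) (nat_lit 5) (nat_lit 45) (nat_lit 5) (nat_lit 419) (nat_lit 414) (nat_lit 187)))) (XT.nd (nat_lit 78) (nat_lit 228) (nat_lit 0) (XT.lf (nat_lit 0) (nat_lit 137273229059221) (nat_lit 380) (nat_lit 32313629454881) (nat_lit 76) (nat_lit 27273793119893) (nat_lit 40) (nat_lit 5) (nat_lit 45) (nat_lit 5) (nat_lit 41) (nat_lit 5) (nat_lit 420) (nat_lit 414) (nat_lit 186)) (XT.nd (nat_lit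 78) (nat_lit 76) (nat_lit 0) (XT.lf (nat_lit 0) (nat_lit 86705822297054) (nat_lit 152) (nat_lit 93744627407137) (nat_lit 228) (nat_lit 32706164368057) (nat_lit 38) (nat_lit 5) (nat_lit 40) (nat_lit 5) (nat_lit 41) (nat_lit 5) (nat_lit 421) (nat_lit 414) (nat_lit 185)) (XT.lf (nat_lit 0) (nat_lit 136438570880) (nat_lit 228) (nat_lit 4440001276402) (nat_lit 76) (nat_lit 227066232535022) (nat_lit 37) (nat_lit 5) (nat_lit 40) (nat_lit 5) (nat_lit 38) (nat_lit 5) (nat_lit 422) (nat_lit 414) (nat_lit 184))))) (XT.nd (nat_lit 2730) (nat_lit 2128) (nat_lit 0) (XT.nd (nat_lit 78) (nat_lit 152) (nat_lit 0) (XT.lf (nat_lit 0) (nat_lit 45083661905660) (nat_lit 228) (nat_lit 108732525082293) (nat_lit 76) (nat_lit 97272829259384) (nat_lit 35) (nat_lit 5) (nat_lit 38) (nat_lit 5) (nat_lit 36) (nat_lit 5) (nat_lit 423) (nat_lit 414) (nat_lit 183)) (XT.nd (nat_lit 78) (nat_lit 0) (nat_lit 0) (XT.lf (nat_lit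 0) (nat_lit 41741054700275) (nat_lit 152) (nat_lit 57221390736560) (nat_lit 228) (nat_lit 174161444750861) (nat_lit 33) (nat_lit 5) (nat_lit 35) (nat_lit 5) (nat_lit 36) (nat_lit 5) (nat_lit 424) (nat_lit 414) (nat_lit 182)) (XT.lf (nat_lit 0) (nat_lit 169107783117722) (nat_lit 228) (nat_lit 73106699812225) (nat_lit 76) (nat_lit 55021801796158) (nat_lit 33) (nat_lit 5) (nat_lit 36) (nat_lit 5) (nat_lit 34) (nat_lit 4) (nat_lit 425) (nat_lit 414) (nat_lit 181)))) (XT.nd (nat_lit 49764) (nat_lit 0) (nat_lit 2812) (XT.nd (nat_lit 78) (nat_lit 0) (nat_lit 0) (XT.lf (nat_lit 0) (nat_lit 749114687916086) (nat_lit 76) (nat_lit 6114379545332880) (nat_lit 0) (nat_lit 641171985810790) (nat_lit 5) (nat_lit 5) (nat_lit 6) (nat_lit 4) (nat_lit 5) (nat_lit 4) (nat_lit 458) (nat_lit 414) (nat_lit 148)) (XT.lf (nat_lit 0) (nat_lit 2230033842853732) (nat_lit 76) (nat_lit 4070524792718949) (nat_lit 0) (nat_lit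 2122091140748430) (nat_lit 5) (nat_lit 5) (nat_lit 6) (nat_lit 4) (nat_lit 5) (nat_lit 4) (nat_lit 459) (nat_lit 414) (nat_lit 147))) (XT.nd (nat_lit 78) (nat_lit 0) (nat_lit 0) (XT.lf (nat_lit 0) (nat_lit 21504344928705) (nat_lit 380) (nat_lit 25374934477736) (nat_lit 380) (nat_lit 25374934477736) (nat_lit 42) (nat_lit 3) (nat_lit 47) (nat_lit 3) (nat_lit 47) (nat_lit 5) (nat_lit 415) (nat_lit 415) (nat_lit 190)) (XT.lf (nat_lit 76) (nat_lit 23272265012100) (nat_lit 0) (nat_lit 23925731450545) (nat_lit 380) (nat_lit 108004015158447) (nat_lit 43) (nat_lit 5) (nat_lit 42) (nat_lit 3) (nat_lit 47) (nat_lit 5) (nat_lit 416) (nat_lit 415) (nat_lit 189)))))) (XT.nd (nat_lit 546) (nat_lit 2432) (nat_lit 0) (XT.nd (nat_lit 234) (nat_lit 456) (nat_lit 0) (XT.nd (nat_lit 78) (nat_lit 0) (nat_lit 0) (XT.lf (nat_lit 0) (nat_lit 57129517763002) (nat_lit 304) (nat_lit 55461380286451) (nat_lit 380) (nat_lit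 54141662196636) (nat_lit 43) (nat_lit 5) (nat_lit 47) (nat_lit 5) (nat_lit 48) (nat_lit 5) (nat_lit 417) (nat_lit 415) (nat_lit 188)) (XT.nd (nat_lit 78) (nat_lit 0) (nat_lit 76) (XT.lf (nat_lit 76) (nat_lit 34400489936675) (nat_lit 0) (nat_lit 36714048796056) (nat_lit 380) (nat_lit 108493586710958) (nat_lit 44) (nat_lit 5) (nat_lit 43) (nat_lit 5) (nat_lit 48) (nat_lit 5) (nat_lit 418) (nat_lit 415) (nat_lit 187)) (XT.lf (nat_lit 0) (nat_lit 92327416503164) (nat_lit 304) (nat_lit 52236400283492) (nat_lit 76) (nat_lit 49081693085985) (nat_lit 44) (nat_lit 5) (nat_lit 48) (nat_lit 5) (nat_lit 45) (nat_lit 5) (nat_lit 419) (nat_lit 415) (nat_lit 186)))) (XT.nd (nat_lit 156) (nat_lit 228) (nat_lit 0) (XT.nd (nat_lit 78) (nat_lit 0) (nat_lit 0) (XT.lf (nat_lit 0) (nat_lit 58105154876520) (nat_lit 304) (nat_lit 62771369654442) (nat_lit 380) (nat_lit 88288832646205) (nat_lit 40) (nat_lit 5) (nat_lit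 44) (nat_lit 5) (nat_lit 45) (nat_lit 5) (nat_lit 420) (nat_lit 415) (nat_lit 185)) (XT.lf (nat_lit 0) (nat_lit 157864213418107) (nat_lit 380) (nat_lit 37160673873109) (nat_lit 76) (nat_lit 31364862087877) (nat_lit 40) (nat_lit 5) (nat_lit 45) (nat_lit 5) (nat_lit 41) (nat_lit 5) (nat_lit 421) (nat_lit 415) (nat_lit 184))) (XT.nd (nat_lit 78) (nat_lit 76) (nat_lit 0) (XT.lf (nat_lit 0) (nat_lit 99711695641616) (nat_lit 152) (nat_lit 107806321518207) (nat_lit 228) (nat_lit 37612089023262) (nat_lit 38) (nat_lit 5) (nat_lit 40) (nat_lit 5) (nat_lit 41) (nat_lit 5) (nat_lit 422) (nat_lit 415) (nat_lit 183)) (XT.lf (nat_lit 0) (nat_lit 156904356514) (nat_lit 228) (nat_lit 5106001467861) (nat_lit 76) (nat_lit 261126167415274) (nat_lit 37) (nat_lit 5) (nat_lit 40) (nat_lit 5) (nat_lit 38) (nat_lit 5) (nat_lit 423) (nat_lit 415) (nat_lit 182))))) (XT.nd (nat_lit 2652) (nat_lit 2128) (nat_lit 0)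 (XT.nd (nat_lit 78) (nat_lit 152) (nat_lit 0) (XT.lf (nat_lit 0) (nat_lit 51846211191511) (nat_lit 228) (nat_lit 125042403844633) (nat_lit 76) (nat_lit 111863753648292) (nat_lit 35) (nat_lit 5) (nat_lit 38) (nat_lit 5) (nat_lit 36) (nat_lit 5) (nat_lit 424) (nat_lit 415) (nat_lit 181)) (XT.nd (nat_lit 78) (nat_lit 0) (nat_lit 0) (XT.lf (nat_lit 0) (nat_lit 48002212905317) (nat_lit 152) (nat_lit 65804599347044) (nat_lit 228) (nat_lit 200285661463489) (nat_lit 33) (nat_lit 5) (nat_lit 35) (nat_lit 5) (nat_lit 36) (nat_lit 5) (nat_lit 425) (nat_lit 415) (nat_lit 180)) (XT.lf (nat_lit 0) (nat_lit 194473950585383) (nat_lit 228) (nat_lit 84072704784055) (nat_lit 76) (nat_lit 63275072065583) (nat_lit 33) (nat_lit 5) (nat_lit 36) (nat_lit 5) (nat_lit 34) (nat_lit 4) (nat_lit 426) (nat_lit 415) (nat_lit 179)))) (XT.nd (nat_lit 49842) (nat_lit 0) (nat_lit 2812) (XT.nd (nat_lit 78) (nat_lit 76) (nat_lit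 0) (XT.lf (nat_lit 0) (nat_lit 6393954577968639) (nat_lit 76) (nat_lit 721903960332521) (nat_lit 76) (nat_lit 579149736798250) (nat_lit 6) (nat_lit 4) (nat_lit 7) (nat_lit 5) (nat_lit 7) (nat_lit 4) (nat_lit 458) (nat_lit 415) (nat_lit 147)) (XT.lf (nat_lit 0) (nat_lit 861481891103502) (nat_lit 76) (nat_lit 7031536477132823) (nat_lit 0) (nat_lit 737347783682398) (nat_lit 5) (nat_lit 5) (nat_lit 6) (nat_lit 4) (nat_lit 5) (nat_lit 4) (nat_lit 459) (nat_lit 415) (nat_lit 146))) (XT.nd (nat_lit 78) (nat_lit 0) (nat_lit 0) (XT.lf (nat_lit 0) (nat_lit 24729996668014) (nat_lit 380) (nat_lit 29181174649394) (nat_lit 380) (nat_lit 29181174649394) (nat_lit 42) (nat_lit 3) (nat_lit 47) (nat_lit 3) (nat_lit 47) (nat_lit 5) (nat_lit 416) (nat_lit 416) (nat_lit 188)) (XT.lf (nat_lit 76) (nat_lit 26763104763918) (nat_lit 0) (nat_lit 27514591168129) (nat_lit 380) (nat_lit 124204617432208) (nat_lit 43)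 (nat_lit 5) (nat_lit 42) (nat_lit 3) (nat_lit 47) (nat_lit 5) (nat_lit 417) (nat_lit 416) (nat_lit 187))))))))
noncomputable def xc126 : XT := (XT.nd (nat_lit 106704) (nat_lit 0) (nat_lit 0) (XT.nd (nat_lit 53352) (nat_lit 0) (nat_lit 0) (XT.nd (nat_lit 468) (nat_lit 380) (nat_lit 0) (XT.nd (nat_lit 234) (nat_lit 380) (nat_lit 0) (XT.nd (nat_lit 78) (nat_lit 0) (nat_lit 0) (XT.lf (nat_lit 0) (nat_lit 65698945427457) (nat_lit 304) (nat_lit 63780587329415) (nat_lit 380) (nat_lit 62262911526130) (nat_lit 43) (nat_lit 5) (nat_lit 47) (nat_lit 5) (nat_lit 48) (nat_lit 5) (nat_lit 418) (nat_lit 416) (nat_lit 186)) (XT.nd (nat_lit 78) (nat_lit 0) (nat_lit 76) (XT.lf (nat_lit 76) (nat_lit 39560563427179) (nat_lit 0) (nat_lit 42221156115465) (nat_lit 380) (nat_lit 124767624717598) (nat_lit 44) (nat_lit 5) (nat_lit 43) (nat_lit 5) (nat_lit 48) (nat_lit 5) (nat_lit 419) (nat_lit 416) (nat_lit 185))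 (XT.lf (nat_lit 0) (nat_lit 106176528978642) (nat_lit 304) (nat_lit 60071860326013) (nat_lit 76) (nat_lit 56443947048882) (nat_lit 44) (nat_lit 5) (nat_lit 48) (nat_lit 5) (nat_lit 45) (nat_lit 5) (nat_lit 420) (nat_lit 416) (nat_lit 184)))) (XT.nd (nat_lit 78) (nat_lit 152) (nat_lit 0) (XT.lf (nat_lit 0) (nat_lit 66820928108002) (nat_lit 304) (nat_lit 72187075102607) (nat_lit 380) (nat_lit 101532157543132) (nat_lit 40) (nat_lit 5) (nat_lit 44) (nat_lit 5) (nat_lit 45) (nat_lit 5) (nat_lit 421) (nat_lit 416) (nat_lit 183)) (XT.nd (nat_lit 78) (nat_lit 152) (nat_lit 0) (XT.lf (nat_lit 0) (nat_lit 181543845430826) (nat_lit 380) (nat_lit 42734774954072) (nat_lit 76) (nat_lit 36069591401060) (nat_lit 40) (nat_lit 5) (nat_lit 45) (nat_lit 5) (nat_lit 41) (nat_lit 5) (nat_lit 422) (nat_lit 416) (nat_lit 182)) (XT.lf (nat_lit 0) (nat_lit 114668449987860) (nat_lit 152) (nat_lit 123977269745939)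 (nat_lit 228) (nat_lit 43253902376749) (nat_lit 38) (nat_lit 5) (nat_lit 40) (nat_lit 5) (nat_lit 41) (nat_lit 5) (nat_lit 423) (nat_lit 416) (nat_lit 181))))) (XT.nd (nat_lit 52572) (nat_lit 0) (nat_lit 684) (XT.nd (nat_lit 78) (nat_lit 304) (nat_lit 0) (XT.lf (nat_lit 0) (nat_lit 180440009993) (nat_lit 228) (nat_lit 5871901688037) (nat_lit 76) (nat_lit 300295092527566) (nat_lit 37) (nat_lit 5) (nat_lit 40) (nat_lit 5) (nat_lit 38) (nat_lit 5) (nat_lit 424) (nat_lit 416) (nat_lit 180)) (XT.nd (nat_lit 78) (nat_lit 152) (nat_lit 0) (XT.lf (nat_lit 0) (nat_lit 59623142870240) (nat_lit 228) (nat_lit 143798764421327) (nat_lit 76) (nat_lit 128643316695535) (nat_lit 35) (nat_lit 5) (nat_lit 38) (nat_lit 5) (nat_lit 36) (nat_lit 5) (nat_lit 425) (nat_lit 416) (nat_lit 179)) (XT.lf (nat_lit 0) (nat_lit 55202544841119) (nat_lit 152) (nat_lit 75675289249100) (nat_lit 228) (nat_lit 230328510683010)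 (nat_lit 33) (nat_lit 5) (nat_lit 35) (nat_lit 5) (nat_lit 36) (nat_lit 5) (nat_lit 426) (nat_lit 416) (nat_lit 178)))) (XT.nd (nat_lit 156) (nat_lit 0) (nat_lit 76) (XT.nd (nat_lit 78) (nat_lit 0) (nat_lit 0) (XT.lf (nat_lit 0) (nat_lit 28439496168218) (nat_lit 380) (nat_lit 33558350846802) (nat_lit 380) (nat_lit 33558350846802) (nat_lit 42) (nat_lit 3) (nat_lit 47) (nat_lit 3) (nat_lit 47) (nat_lit 5) (nat_lit 417) (nat_lit 417) (nat_lit 186)) (XT.lf (nat_lit 76) (nat_lit 30777570478509) (nat_lit 0) (nat_lit 31641779843349) (nat_lit 380) (nat_lit 142835310047035) (nat_lit 43) (nat_lit 5) (nat_lit 42) (nat_lit 3) (nat_lit 47) (nat_lit 5) (nat_lit 418) (nat_lit 417) (nat_lit 185))) (XT.nd (nat_lit 78) (nat_lit 0) (nat_lit 0) (XT.lf (nat_lit 0) (nat_lit 75553787241579) (nat_lit 304) (nat_lit 73347675428824) (nat_lit 380) (nat_lit 71602348255050) (nat_lit 43) (nat_lit 5) (nat_lit 47) (nat_lit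 5) (nat_lit 48) (nat_lit 5) (nat_lit 419) (nat_lit 417) (nat_lit 184)) (XT.lf (nat_lit 76) (nat_lit 45494647941258) (nat_lit 0) (nat_lit 48554329532785) (nat_lit 380) (nat_lit 143482768425234) (nat_lit 44) (nat_lit 5) (nat_lit 43) (nat_lit 5) (nat_lit 48) (nat_lit 5) (nat_lit 420) (nat_lit 417) (nat_lit 183)))))) (XT.nd (nat_lit 468) (nat_lit 152) (nat_lit 0) (XT.nd (nat_lit 234) (nat_lit 380) (nat_lit 0) (XT.nd (nat_lit 78) (nat_lit 304) (nat_lit 0) (XT.lf (nat_lit 0) (nat_lit 122103008325441) (nat_lit 304) (nat_lit 69082639374911) (nat_lit 76) (nat_lit 64910539106215) (nat_lit 44) (nat_lit 5) (nat_lit 48) (nat_lit 5) (nat_lit 45) (nat_lit 5) (nat_lit 421) (nat_lit 417) (nat_lit 182)) (XT.nd (nat_lit 78) (nat_lit 0) (nat_lit 0) (XT.lf (nat_lit 0) (nat_lit 76844067324207) (nat_lit 304) (nat_lit 83015136367997) (nat_lit 380) (nat_lit 116761981174599) (nat_lit 40) (nat_lit 5) (nat_lit 44)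 (nat_lit 5) (nat_lit 45) (nat_lit 5) (nat_lit 422) (nat_lit 417) (nat_lit 181)) (XT.lf (nat_lit 0) (nat_lit 208775422245452) (nat_lit 380) (nat_lit 49144991197181) (nat_lit 76) (nat_lit 41480030111218) (nat_lit 40) (nat_lit 5) (nat_lit 45) (nat_lit 5) (nat_lit 41) (nat_lit 5) (nat_lit 423) (nat_lit 417) (nat_lit 180)))) (XT.nd (nat_lit 78) (nat_lit 228) (nat_lit 0) (XT.lf (nat_lit 0) (nat_lit 131868717486044) (nat_lit 152) (nat_lit 142573860207828) (nat_lit 228) (nat_lit 49741987733259) (nat_lit 38) (nat_lit 5) (nat_lit 40) (nat_lit 5) (nat_lit 41) (nat_lit 5) (nat_lit 424) (nat_lit 417) (nat_lit 179)) (XT.nd (nat_lit 78) (nat_lit 152) (nat_lit 0) (XT.lf (nat_lit 0) (nat_lit 207506011494) (nat_lit 228) (nat_lit 6752686941241) (nat_lit 76) (nat_lit 345339356406701) (nat_lit 37) (nat_lit 5) (nat_lit 40) (nat_lit 5) (nat_lit 38) (nat_lit 5) (nat_lit 425) (nat_lit 417) (nat_lit 178)) (XT.lf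 (nat_lit 0) (nat_lit 68566614300778) (nat_lit 228) (nat_lit 165368579084521) (nat_lit 76) (nat_lit 147939814199867) (nat_lit 35) (nat_lit 5) (nat_lit 38) (nat_lit 5) (nat_lit 36) (nat_lit 5) (nat_lit 426) (nat_lit 417) (nat_lit 177))))) (XT.nd (nat_lit 52572) (nat_lit 0) (nat_lit 532) (XT.nd (nat_lit 52416) (nat_lit 0) (nat_lit 684) (XT.lf (nat_lit 0) (nat_lit 63482926567292) (nat_lit 152) (nat_lit 87026582636462) (nat_lit 228) (nat_lit 264877787285459) (nat_lit 33) (nat_lit 5) (nat_lit 35) (nat_lit 5) (nat_lit 36) (nat_lit 5) (nat_lit 427) (nat_lit 417) (nat_lit 176)) (XT.nd (nat_lit 78) (nat_lit 0) (nat_lit 0) (XT.lf (nat_lit 0) (nat_lit 32705420593453) (nat_lit 380) (nat_lit 38592103473822) (nat_lit 380) (nat_lit 38592103473822) (nat_lit 42) (nat_lit 3) (nat_lit 47) (nat_lit 3) (nat_lit 47) (nat_lit 5) (nat_lit 418) (nat_lit 418) (nat_lit 184)) (XT.lf (nat_lit 76) (nat_lit 35394206050287)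 (nat_lit 0) (nat_lit 36388046819853) (nat_lit 380) (nat_lit 164260606554087) (nat_lit 43) (nat_lit 5) (nat_lit 42) (nat_lit 3) (nat_lit 47) (nat_lit 5) (nat_lit 419) (nat_lit 418) (nat_lit 183)))) (XT.nd (nat_lit 156) (nat_lit 228) (nat_lit 0) (XT.nd (nat_lit 78) (nat_lit 0) (nat_lit 0) (XT.lf (nat_lit 0) (nat_lit 86886855327818) (nat_lit 304) (nat_lit 84349826743147) (nat_lit 380) (nat_lit 82342700493305) (nat_lit 43) (nat_lit 5) (nat_lit 47) (nat_lit 5) (nat_lit 48) (nat_lit 5) (nat_lit 420) (nat_lit 418) (nat_lit 182)) (XT.lf (nat_lit 76) (nat_lit 52318845132449) (nat_lit 0) (nat_lit 55837478962703) (nat_lit 380) (nat_lit 165005183689017) (nat_lit 44) (nat_lit 5) (nat_lit 43) (nat_lit 5) (nat_lit 48) (nat_lit 5) (nat_lit 421) (nat_lit 418) (nat_lit 181))) (XT.nd (nat_lit 78) (nat_lit 304) (nat_lit 0) (XT.lf (nat_lit 0) (nat_lit 140418459574259) (nat_lit 304) (nat_lit 79445035281146) (nat_lit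 76) (nat_lit 74647119972147) (nat_lit 44) (nat_lit 5) (nat_lit 48) (nat_lit 5) (nat_lit 45) (nat_lit 5) (nat_lit 422) (nat_lit 418) (nat_lit 180)) (XT.lf (nat_lit 0) (nat_lit 88370677422837) (nat_lit 304) (nat_lit 95467406823198) (nat_lit 380) (nat_lit 134276278350787) (nat_lit 40) (nat_lit 5) (nat_lit 44) (nat_lit 5) (nat_lit 45) (nat_lit 5) (nat_lit 423) (nat_lit 418) (nat_lit 179))))))) (XT.nd (nat_lit 53352) (nat_lit 0) (nat_lit 0) (XT.nd (nat_lit 52806) (nat_lit 0) (nat_lit 380) (XT.nd (nat_lit 234) (nat_lit 304) (nat_lit 0) (XT.nd (nat_lit 78) (nat_lit 228) (nat_lit 0) (XT.lf (nat_lit 0) (nat_lit 240091735582272) (nat_lit 380) (nat_lit 56516739876756) (nat_lit 76) (nat_lit 47702034627901) (nat_lit 40) (nat_lit 5) (nat_lit 45) (nat_lit 5) (nat_lit 41) (nat_lit 5) (nat_lit 424) (nat_lit 418) (nat_lit 178)) (XT.nd (nat_lit 78) (nat_lit 76) (nat_lit 0) (XT.lf (nat_lit 0) (nat_lit 151649025108949)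 (nat_lit 152) (nat_lit 163959939239004) (nat_lit 228) (nat_lit 57203285893247) (nat_lit 38) (nat_lit 5) (nat_lit 40) (nat_lit 5) (nat_lit 41) (nat_lit 5) (nat_lit 425) (nat_lit 418) (nat_lit 177)) (XT.lf (nat_lit 0) (nat_lit 238631913220) (nat_lit 228) (nat_lit 7765589982425) (nat_lit 76) (nat_lit 397140259867706) (nat_lit 37) (nat_lit 5) (nat_lit 40) (nat_lit 5) (nat_lit 38) (nat_lit 5) (nat_lit 426) (nat_lit 418) (nat_lit 176)))) (XT.nd (nat_lit 78) (nat_lit 152) (nat_lit 0) (XT.lf (nat_lit 0) (nat_lit 78851606445896) (nat_lit 228) (nat_lit 190173865947198) (nat_lit 76) (nat_lit 170130786329848) (nat_lit 35) (nat_lit 5) (nat_lit 38) (nat_lit 5) (nat_lit 36) (nat_lit 5) (nat_lit 427) (nat_lit 418) (nat_lit 175)) (XT.nd (nat_lit 52416) (nat_lit 0) (nat_lit 684) (XT.lf (nat_lit 0) (nat_lit 73005365552383) (nat_lit 152) (nat_lit 100080570031934) (nat_lit 228) (nat_lit 304609455378277) (nat_lit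 33) (nat_lit 5) (nat_lit 35) (nat_lit 5) (nat_lit 36) (nat_lit 5) (nat_lit 428) (nat_lit 418) (nat_lit 174)) (XT.lf (nat_lit 0) (nat_lit 37611233682472) (nat_lit 380) (nat_lit 44380918994894) (nat_lit 380) (nat_lit 44380918994894) (nat_lit 42) (nat_lit 3) (nat_lit 47) (nat_lit 3) (nat_lit 47) (nat_lit 5) (nat_lit 419) (nat_lit 419) (nat_lit 182))))) (XT.nd (nat_lit 234) (nat_lit 304) (nat_lit 0) (XT.nd (nat_lit 78) (nat_lit 0) (nat_lit 76) (XT.lf (nat_lit 76) (nat_lit 40703336957830) (nat_lit 0) (nat_lit 41846253842833) (nat_lit 380) (nat_lit 188899697537198) (nat_lit 43) (nat_lit 5) (nat_lit 42) (nat_lit 3) (nat_lit 47) (nat_lit 5) (nat_lit 420) (nat_lit 419) (nat_lit 181)) (XT.nd (nat_lit 78) (nat_lit 0) (nat_lit 0) (XT.lf (nat_lit 0) (nat_lit 99919883626993) (nat_lit 304) (nat_lit 97002300754618) (nat_lit 380) (nat_lit 94694105567300) (nat_lit 43) (nat_lit 5) (nat_lit 47) (nat_lit 5)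 (nat_lit 48) (nat_lit 5) (nat_lit 421) (nat_lit 419) (nat_lit 180)) (XT.lf (nat_lit 76) (nat_lit 60166671902318) (nat_lit 0) (nat_lit 64213100807109) (nat_lit 380) (nat_lit 189755961242367) (nat_lit 44) (nat_lit 5) (nat_lit 43) (nat_lit 5) (nat_lit 48) (nat_lit 5) (nat_lit 422) (nat_lit 419) (nat_lit 179)))) (XT.nd (nat_lit 156) (nat_lit 152) (nat_lit 0) (XT.nd (nat_lit 78) (nat_lit 304) (nat_lit 0) (XT.lf (nat_lit 0) (nat_lit 161481228510399) (nat_lit 304) (nat_lit 91361790573319) (nat_lit 76) (nat_lit 85844187967967) (nat_lit 44) (nat_lit 5) (nat_lit 48) (nat_lit 5) (nat_lit 45) (nat_lit 5) (nat_lit 423) (nat_lit 419) (nat_lit 178)) (XT.lf (nat_lit 0) (nat_lit 101626279036264) (nat_lit 304) (nat_lit 109787517846678) (nat_lit 380) (nat_lit 154417720103403) (nat_lit 40) (nat_lit 5) (nat_lit 44) (nat_lit 5) (nat_lit 45) (nat_lit 5) (nat_lit 424) (nat_lit 419) (nat_lit 177))) (XT.nd (nat_lit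 78) (nat_lit 152) (nat_lit 0) (XT.lf (nat_lit 0) (nat_lit 276105495919613) (nat_lit 380) (nat_lit 64994250858271) (nat_lit 76) (nat_lit 54857339822085) (nat_lit 40) (nat_lit 5) (nat_lit 45) (nat_lit 5) (nat_lit 41) (nat_lit 5) (nat_lit 425) (nat_lit 419) (nat_lit 176)) (XT.lf (nat_lit 0) (nat_lit 174396378875293) (nat_lit 152) (nat_lit 188553930124854) (nat_lit 228) (nat_lit 65783778777233) (nat_lit 38) (nat_lit 5) (nat_lit 40) (nat_lit 5) (nat_lit 41) (nat_lit 5) (nat_lit 426) (nat_lit 419) (nat_lit 175)))))) (XT.nd (nat_lit 52884) (nat_lit 0) (nat_lit 152) (XT.nd (nat_lit 52572) (nat_lit 0) (nat_lit 684) (XT.nd (nat_lit 78) (nat_lit 304) (nat_lit 0) (XT.lf (nat_lit 0) (nat_lit 274426700204) (nat_lit 228) (nat_lit 8930428479788) (nat_lit 76) (nat_lit 456711298847863) (nat_lit 37) (nat_lit 5) (nat_lit 40) (nat_lit 5) (nat_lit 38) (nat_lit 5) (nat_lit 427) (nat_lit 419) (nat_lit 174)) (XT.nd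 (nat_lit 78) (nat_lit 152) (nat_lit 0) (XT.lf (nat_lit 0) (nat_lit 90679347412780) (nat_lit 228) (nat_lit 218699945839280) (nat_lit 76) (nat_lit 195650404279323) (nat_lit 35) (nat_lit 5) (nat_lit 38) (nat_lit 5) (nat_lit 36) (nat_lit 5) (nat_lit 428) (nat_lit 419) (nat_lit 173)) (XT.lf (nat_lit 0) (nat_lit 83956170385242) (nat_lit 152) (nat_lit 115092655536723) (nat_lit 228) (nat_lit 350300873685019) (nat_lit 33) (nat_lit 5) (nat_lit 35) (nat_lit 5) (nat_lit 36) (nat_lit 5) (nat_lit 429) (nat_lit 419) (nat_lit 172)))) (XT.nd (nat_lit 156) (nat_lit 0) (nat_lit 76) (XT.nd (nat_lit 78) (nat_lit 0) (nat_lit 0) (XT.lf (nat_lit 0) (nat_lit 43252918734844) (nat_lit 380) (nat_lit 51038056844128) (nat_lit 380) (nat_lit 51038056844128) (nat_lit 42) (nat_lit 3) (nat_lit 47) (nat_lit 3) (nat_lit 47) (nat_lit 5) (nat_lit 420) (nat_lit 420) (nat_lit 180)) (XT.lf (nat_lit 76) (nat_lit 46808837501508) (nat_lit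 0) (nat_lit 48123191919257) (nat_lit 380) (nat_lit 217234652167775) (nat_lit 43) (nat_lit 5) (nat_lit 42) (nat_lit 3) (nat_lit 47) (nat_lit 5) (nat_lit 421) (nat_lit 420) (nat_lit 179))) (XT.nd (nat_lit 78) (nat_lit 0) (nat_lit 0) (XT.lf (nat_lit 0) (nat_lit 114907866171044) (nat_lit 304) (nat_lit 111552645867807) (nat_lit 380) (nat_lit 108898221402397) (nat_lit 43) (nat_lit 5) (nat_lit 47) (nat_lit 5) (nat_lit 48) (nat_lit 5) (nat_lit 422) (nat_lit 420) (nat_lit 178)) (XT.lf (nat_lit 76) (nat_lit 69191672687667) (nat_lit 0) (nat_lit 73845065928176) (nat_lit 380) (nat_lit 218219355428721) (nat_lit 44) (nat_lit 5) (nat_lit 43) (nat_lit 5) (nat_lit 48) (nat_lit 5) (nat_lit 423) (nat_lit 420) (nat_lit 177))))) (XT.nd (nat_lit 234) (nat_lit 380) (nat_lit 0) (XT.nd (nat_lit 78) (nat_lit 304) (nat_lit 0) (XT.lf (nat_lit 0) (nat_lit 185703412786961) (nat_lit 304) (nat_lit 105066059159313) (nat_lit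 76) (nat_lit 98720816163164) (nat_lit 44) (nat_lit 5) (nat_lit 48) (nat_lit 5) (nat_lit 45) (nat_lit 5) (nat_lit 424) (nat_lit 420) (nat_lit 176)) (XT.nd (nat_lit 78) (nat_lit 0) (nat_lit 0) (XT.lf (nat_lit 0) (nat_lit 116870220891705) (nat_lit 304) (nat_lit 126255645523680) (nat_lit 380) (nat_lit 177580378118912) (nat_lit 40) (nat_lit 5) (nat_lit 44) (nat_lit 5) (nat_lit 45) (nat_lit 5) (nat_lit 425) (nat_lit 420) (nat_lit 175)) (XT.lf (nat_lit 0) (nat_lit 317521320307557) (nat_lit 380) (nat_lit 74743388487008) (nat_lit 76) (nat_lit 63085940795399) (nat_lit 40) (nat_lit 5) (nat_lit 45) (nat_lit 5) (nat_lit 41) (nat_lit 5) (nat_lit 426) (nat_lit 420) (nat_lit 174)))) (XT.nd (nat_lit 156) (nat_lit 152) (nat_lit 0) (XT.nd (nat_lit 78) (nat_lit 76) (nat_lit 0) (XT.lf (nat_lit 0) (nat_lit 200555835706592) (nat_lit 152) (nat_lit 216837019643579) (nat_lit 228) (nat_lit 75651345593817) (nat_lit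 38) (nat_lit 5) (nat_lit 40) (nat_lit 5) (nat_lit 41) (nat_lit 5) (nat_lit 427) (nat_lit 420) (nat_lit 173)) (XT.lf (nat_lit 0) (nat_lit 315590705235) (nat_lit 228) (nat_lit 10269992751755) (nat_lit 76) (nat_lit 525217993675042) (nat_lit 37) (nat_lit 5) (nat_lit 40) (nat_lit 5) (nat_lit 38) (nat_lit 5) (nat_lit 428) (nat_lit 420) (nat_lit 172))) (XT.nd (nat_lit 52494) (nat_lit 0) (nat_lit 532) (XT.lf (nat_lit 0) (nat_lit 104281249524699) (nat_lit 228) (nat_lit 251504937715167) (nat_lit 76) (nat_lit 224997964921224) (nat_lit 35) (nat_lit 5) (nat_lit 38) (nat_lit 5) (nat_lit 36) (nat_lit 5) (nat_lit 429) (nat_lit 420) (nat_lit 171)) (XT.lf (nat_lit 0) (nat_lit 49740856545071) (nat_lit 380) (nat_lit 58693765370747) (nat_lit 380) (nat_lit 58693765370747) (nat_lit 42) (nat_lit 3) (nat_lit 47) (nat_lit 3) (nat_lit 47) (nat_lit 5) (nat_lit 421) (nat_lit 421) (nat_lit 178))))))))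
noncomputable def xc127 : XT := (XT.nd (nat_lit 159588) (nat_lit 0) (nat_lit 380) (XT.nd (nat_lit 53430) (nat_lit 0) (nat_lit 152) (XT.nd (nat_lit 468) (nat_lit 380) (nat_lit 0) (XT.nd (nat_lit 234) (nat_lit 152) (nat_lit 0) (XT.nd (nat_lit 78) (nat_lit 0) (nat_lit 76) (XT.lf (nat_lit 76) (nat_lit 53830163126735) (nat_lit 0) (nat_lit 55341670707145) (nat_lit 380) (nat_lit 249819849992940) (nat_lit 43) (nat_lit 5) (nat_lit 42) (nat_lit 3) (nat_lit 47) (nat_lit 5) (nat_lit 422) (nat_lit 421) (nat_lit 177)) (XT.nd (nat_lit 78) (nat_lit 0) (nat_lit 0) (XT.lf (nat_lit 0) (nat_lit 132144046096700) (nat_lit 304) (nat_lit 128285542747980) (nat_lit 380) (nat_lit 125232954612754) (nat_lit 43) (nat_lit 5) (nat_lit 47) (nat_lit 5) (nat_lit 48) (nat_lit 5) (nat_lit 423) (nat_lit 421) (nat_lit 176)) (XT.lf (nat_lit 76) (nat_lit 79570423590818) (nat_lit 0) (nat_lit 84921825817402) (nat_lit 380) (nat_lit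 250952258743029) (nat_lit 44) (nat_lit 5) (nat_lit 43) (nat_lit 5) (nat_lit 48) (nat_lit 5) (nat_lit 424) (nat_lit 421) (nat_lit 175)))) (XT.nd (nat_lit 78) (nat_lit 304) (nat_lit 0) (XT.lf (nat_lit 0) (nat_lit 213558924705005) (nat_lit 304) (nat_lit 120825968033212) (nat_lit 76) (nat_lit 113528938587636) (nat_lit 44) (nat_lit 5) (nat_lit 48) (nat_lit 5) (nat_lit 45) (nat_lit 5) (nat_lit 425) (nat_lit 421) (nat_lit 174)) (XT.nd (nat_lit 78) (nat_lit 0) (nat_lit 0) (XT.lf (nat_lit 0) (nat_lit 134400754025461) (nat_lit 304) (nat_lit 145193992352232) (nat_lit 380) (nat_lit 204217434836749) (nat_lit 40) (nat_lit 5) (nat_lit 44) (nat_lit 5) (nat_lit 45) (nat_lit 5) (nat_lit 426) (nat_lit 421) (nat_lit 173)) (XT.lf (nat_lit 0) (nat_lit 365149518353691) (nat_lit 380) (nat_lit 85954896760057) (nat_lit 76) (nat_lit 72548831914710) (nat_lit 40) (nat_lit 5) (nat_lit 45) (nat_lit 5) (nat_lit 41) (nat_lit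 5) (nat_lit 427) (nat_lit 421) (nat_lit 172))))) (XT.nd (nat_lit 52650) (nat_lit 0) (nat_lit 532) (XT.nd (nat_lit 78) (nat_lit 228) (nat_lit 0) (XT.lf (nat_lit 0) (nat_lit 230639211062577) (nat_lit 152) (nat_lit 249362572590119) (nat_lit 228) (nat_lit 86999047432889) (nat_lit 38) (nat_lit 5) (nat_lit 40) (nat_lit 5) (nat_lit 41) (nat_lit 5) (nat_lit 428) (nat_lit 421) (nat_lit 171)) (XT.nd (nat_lit 78) (nat_lit 152) (nat_lit 0) (XT.lf (nat_lit 0) (nat_lit 362929311021) (nat_lit 228) (nat_lit 11810491664518) (nat_lit 76) (nat_lit 604000692726299) (nat_lit 37) (nat_lit 5) (nat_lit 40) (nat_lit 5) (nat_lit 38) (nat_lit 5) (nat_lit 429) (nat_lit 421) (nat_lit 170)) (XT.lf (nat_lit 0) (nat_lit 119923436953405) (nat_lit 228) (nat_lit 289230678372441) (nat_lit 76) (nat_lit 258747659659409) (nat_lit 35) (nat_lit 5) (nat_lit 38) (nat_lit 5) (nat_lit 36) (nat_lit 5) (nat_lit 430) (nat_lit 421) (nat_lit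 169)))) (XT.nd (nat_lit 156) (nat_lit 0) (nat_lit 76) (XT.nd (nat_lit 78) (nat_lit 0) (nat_lit 0) (XT.lf (nat_lit 0) (nat_lit 57201985026833) (nat_lit 380) (nat_lit 67497830176359) (nat_lit 380) (nat_lit 67497830176359) (nat_lit 42) (nat_lit 3) (nat_lit 47) (nat_lit 3) (nat_lit 47) (nat_lit 5) (nat_lit 422) (nat_lit 422) (nat_lit 176)) (XT.lf (nat_lit 76) (nat_lit 61904687595743) (nat_lit 0) (nat_lit 63642921313221) (nat_lit 380) (nat_lit 287292827491880) (nat_lit 43) (nat_lit 5) (nat_lit 42) (nat_lit 3) (nat_lit 47) (nat_lit 5) (nat_lit 423) (nat_lit 422) (nat_lit 175))) (XT.nd (nat_lit 78) (nat_lit 0) (nat_lit 0) (XT.lf (nat_lit 0) (nat_lit 151965653011207) (nat_lit 304) (nat_lit 147528374160177) (nat_lit 380) (nat_lit 144017897804666) (nat_lit 43) (nat_lit 5) (nat_lit 47) (nat_lit 5) (nat_lit 48) (nat_lit 5) (nat_lit 424) (nat_lit 422) (nat_lit 174)) (XT.lf (nat_lit 76) (nat_lit 91505987129438)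 (nat_lit 0) (nat_lit 97660099690016) (nat_lit 380) (nat_lit 288595097554482) (nat_lit 44) (nat_lit 5) (nat_lit 43) (nat_lit 5) (nat_lit 48) (nat_lit 5) (nat_lit 425) (nat_lit 422) (nat_lit 173)))))) (XT.nd (nat_lit 53040) (nat_lit 0) (nat_lit 76) (XT.nd (nat_lit 234) (nat_lit 228) (nat_lit 0) (XT.nd (nat_lit 78) (nat_lit 304) (nat_lit 0) (XT.lf (nat_lit 0) (nat_lit 245592763410757) (nat_lit 304) (nat_lit 138949863238193) (nat_lit 76) (nat_lit 130558279375782) (nat_lit 44) (nat_lit 5) (nat_lit 48) (nat_lit 5) (nat_lit 45) (nat_lit 5) (nat_lit 426) (nat_lit 422) (nat_lit 172)) (XT.nd (nat_lit 78) (nat_lit 0) (nat_lit 0) (XT.lf (nat_lit 0) (nat_lit 154560867129282) (nat_lit 304) (nat_lit 166973091205066) (nat_lit 380) (nat_lit 234850050062261) (nat_lit 40) (nat_lit 5) (nat_lit 44) (nat_lit 5) (nat_lit 45) (nat_lit 5) (nat_lit 427) (nat_lit 422) (nat_lit 171)) (XT.lf (nat_lit 0) (nat_lit 419921946106744)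 (nat_lit 380) (nat_lit 98848131274070) (nat_lit 76) (nat_lit 83431156701913) (nat_lit 40) (nat_lit 5) (nat_lit 45) (nat_lit 5) (nat_lit 41) (nat_lit 5) (nat_lit 428) (nat_lit 422) (nat_lit 170)))) (XT.nd (nat_lit 52650) (nat_lit 0) (nat_lit 380) (XT.nd (nat_lit 78) (nat_lit 76) (nat_lit 0) (XT.lf (nat_lit 0) (nat_lit 265235092721963) (nat_lit 152) (nat_lit 286766958478637) (nat_lit 228) (nat_lit 100048904547823) (nat_lit 38) (nat_lit 5) (nat_lit 40) (nat_lit 5) (nat_lit 41) (nat_lit 5) (nat_lit 429) (nat_lit 422) (nat_lit 169)) (XT.lf (nat_lit 0) (nat_lit 417368707675) (nat_lit 228) (nat_lit 13582065414195) (nat_lit 76) (nat_lit 694600796635244) (nat_lit 37) (nat_lit 5) (nat_lit 40) (nat_lit 5) (nat_lit 38) (nat_lit 5) (nat_lit 430) (nat_lit 422) (nat_lit 168))) (XT.nd (nat_lit 78) (nat_lit 0) (nat_lit 0) (XT.lf (nat_lit 0) (nat_lit 65782282780858) (nat_lit 380) (nat_lit 77622504702813)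 (nat_lit 380) (nat_lit 77622504702813) (nat_lit 42) (nat_lit 3) (nat_lit 47) (nat_lit 3) (nat_lit 47) (nat_lit 5) (nat_lit 423) (nat_lit 423) (nat_lit 174)) (XT.lf (nat_lit 76) (nat_lit 71190390735108) (nat_lit 0) (nat_lit 73189359510201) (nat_lit 380) (nat_lit 330386751615662) (nat_lit 43) (nat_lit 5) (nat_lit 42) (nat_lit 3) (nat_lit 47) (nat_lit 5) (nat_lit 424) (nat_lit 423) (nat_lit 173))))) (XT.nd (nat_lit 234) (nat_lit 380) (nat_lit 0) (XT.nd (nat_lit 78) (nat_lit 0) (nat_lit 0) (XT.lf (nat_lit 0) (nat_lit 174760500962889) (nat_lit 304) (nat_lit 169657630284203) (nat_lit 380) (nat_lit 165620582475366) (nat_lit 43) (nat_lit 5) (nat_lit 47) (nat_lit 5) (nat_lit 48) (nat_lit 5) (nat_lit 425) (nat_lit 423) (nat_lit 172)) (XT.nd (nat_lit 78) (nat_lit 0) (nat_lit 76) (XT.lf (nat_lit 76) (nat_lit 105231885198858) (nat_lit 0) (nat_lit 112309114643515) (nat_lit 380) (nat_lit 331884362187653)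 (nat_lit 44) (nat_lit 5) (nat_lit 43) (nat_lit 5) (nat_lit 48) (nat_lit 5) (nat_lit 426) (nat_lit 423) (nat_lit 171)) (XT.lf (nat_lit 0) (nat_lit 282431677922371) (nat_lit 304) (nat_lit 159792342723918) (nat_lit 76) (nat_lit 150142021282153) (nat_lit 44) (nat_lit 5) (nat_lit 48) (nat_lit 5) (nat_lit 45) (nat_lit 5) (nat_lit 427) (nat_lit 423) (nat_lit 170)))) (XT.nd (nat_lit 156) (nat_lit 152) (nat_lit 0) (XT.nd (nat_lit 78) (nat_lit 0) (nat_lit 0) (XT.lf (nat_lit 0) (nat_lit 177744997198674) (nat_lit 304) (nat_lit 192019054885827) (nat_lit 380) (nat_lit 270077557571599) (nat_lit 40) (nat_lit 5) (nat_lit 44) (nat_lit 5) (nat_lit 45) (nat_lit 5) (nat_lit 428) (nat_lit 423) (nat_lit 169)) (XT.lf (nat_lit 0) (nat_lit 482910238022757) (nat_lit 380) (nat_lit 113675350965175) (nat_lit 76) (nat_lit 95945830207203) (nat_lit 40) (nat_lit 5) (nat_lit 45) (nat_lit 5) (nat_lit 41) (nat_lit 5) (nat_lit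 429) (nat_lit 423) (nat_lit 168))) (XT.nd (nat_lit 52650) (nat_lit 0) (nat_lit 304) (XT.lf (nat_lit 0) (nat_lit 305020356630264) (nat_lit 152) (nat_lit 329782002250429) (nat_lit 228) (nat_lit 115056240229994) (nat_lit 38) (nat_lit 5) (nat_lit 40) (nat_lit 5) (nat_lit 41) (nat_lit 5) (nat_lit 430) (nat_lit 423) (nat_lit 167)) (XT.lf (nat_lit 0) (nat_lit 75649625197987) (nat_lit 380) (nat_lit 89265880408234) (nat_lit 380) (nat_lit 89265880408234) (nat_lit 42) (nat_lit 3) (nat_lit 47) (nat_lit 3) (nat_lit 47) (nat_lit 5) (nat_lit 424) (nat_lit 424) (nat_lit 172))))))) (XT.nd (nat_lit 106392) (nat_lit 0) (nat_lit 152) (XT.nd (nat_lit 53118) (nat_lit 0) (nat_lit 0) (XT.nd (nat_lit 234) (nat_lit 152) (nat_lit 0) (XT.nd (nat_lit 78) (nat_lit 0) (nat_lit 76) (XT.lf (nat_lit 76) (nat_lit 81868949345371) (nat_lit 0) (nat_lit 84167763436735) (nat_lit 380) (nat_lit 379944764358011) (nat_lit 43) (nat_lit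 5) (nat_lit 42) (nat_lit 3) (nat_lit 47) (nat_lit 5) (nat_lit 425) (nat_lit 424) (nat_lit 171)) (XT.nd (nat_lit 78) (nat_lit 0) (nat_lit 0) (XT.lf (nat_lit 0) (nat_lit 200974576107322) (nat_lit 304) (nat_lit 195106274826832) (nat_lit 380) (nat_lit 190463669846671) (nat_lit 43) (nat_lit 5) (nat_lit 47) (nat_lit 5) (nat_lit 48) (nat_lit 5) (nat_lit 426) (nat_lit 424) (nat_lit 170)) (XT.lf (nat_lit 76) (nat_lit 121016667978687) (nat_lit 0) (nat_lit 129155481840043) (nat_lit 380) (nat_lit 381667016515801) (nat_lit 44) (nat_lit 5) (nat_lit 43) (nat_lit 5) (nat_lit 48) (nat_lit 5) (nat_lit 427) (nat_lit 424) (nat_lit 169)))) (XT.nd (nat_lit 78) (nat_lit 304) (nat_lit 0) (XT.lf (nat_lit 0) (nat_lit 324796429610727) (nat_lit 304) (nat_lit 183761194132510) (nat_lit 76) (nat_lit 172663324474471) (nat_lit 44) (nat_lit 5) (nat_lit 48) (nat_lit 5) (nat_lit 45) (nat_lit 5) (nat_lit 428) (nat_lit 424)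 (nat_lit 168)) (XT.nd (nat_lit 78) (nat_lit 0) (nat_lit 0) (XT.lf (nat_lit 0) (nat_lit 204406746778476) (nat_lit 304) (nat_lit 220821913118701) (nat_lit 380) (nat_lit 310589191207339) (nat_lit 40) (nat_lit 5) (nat_lit 44) (nat_lit 5) (nat_lit 45) (nat_lit 5) (nat_lit 429) (nat_lit 424) (nat_lit 167)) (XT.lf (nat_lit 0) (nat_lit 555346773726171) (nat_lit 380) (nat_lit 130726653609952) (nat_lit 76) (nat_lit 110337704738284) (nat_lit 40) (nat_lit 5) (nat_lit 45) (nat_lit 5) (nat_lit 41) (nat_lit 5) (nat_lit 430) (nat_lit 424) (nat_lit 166))))) (XT.nd (nat_lit 234) (nat_lit 152) (nat_lit 0) (XT.nd (nat_lit 78) (nat_lit 0) (nat_lit 0) (XT.lf (nat_lit 0) (nat_lit 86997068977685) (nat_lit 380) (nat_lit 102655762469469) (nat_lit 380) (nat_lit 102655762469469) (nat_lit 42) (nat_lit 3) (nat_lit 47) (nat_lit 3) (nat_lit 47) (nat_lit 5) (nat_lit 425) (nat_lit 425) (nat_lit 170)) (XT.nd (nat_lit 78)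 (nat_lit 0) (nat_lit 76) (XT.lf (nat_lit 76) (nat_lit 94149291747181) (nat_lit 0) (nat_lit 96792927952242) (nat_lit 380) (nat_lit 436936479011711) (nat_lit 43) (nat_lit 5) (nat_lit 42) (nat_lit 3) (nat_lit 47) (nat_lit 5) (nat_lit 426) (nat_lit 425) (nat_lit 169)) (XT.lf (nat_lit 0) (nat_lit 231120762523422) (nat_lit 304) (nat_lit 224372216050853) (nat_lit 380) (nat_lit 219033220323675) (nat_lit 43) (nat_lit 5) (nat_lit 47) (nat_lit 5) (nat_lit 48) (nat_lit 5) (nat_lit 427) (nat_lit 425) (nat_lit 168)))) (XT.nd (nat_lit 156) (nat_lit 228) (nat_lit 0) (XT.nd (nat_lit 78) (nat_lit 0) (nat_lit 76) (XT.lf (nat_lit 76) (nat_lit 139169168175490) (nat_lit 0) (nat_lit 148528804116049) (nat_lit 380) (nat_lit 438917068993170) (nat_lit 44) (nat_lit 5) (nat_lit 43) (nat_lit 5) (nat_lit 48) (nat_lit 5) (nat_lit 428) (nat_lit 425) (nat_lit 167)) (XT.lf (nat_lit 0) (nat_lit 373515894052337) (nat_lit 304)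 (nat_lit 211325373252381) (nat_lit 76) (nat_lit 198562823145647) (nat_lit 44) (nat_lit 5) (nat_lit 48) (nat_lit 5) (nat_lit 45) (nat_lit 5) (nat_lit 429) (nat_lit 425) (nat_lit 166))) (XT.nd (nat_lit 52806) (nat_lit 0) (nat_lit 152) (XT.lf (nat_lit 0) (nat_lit 235067758795253) (nat_lit 304) (nat_lit 253945200086502) (nat_lit 380) (nat_lit 357177569888438) (nat_lit 40) (nat_lit 5) (nat_lit 44) (nat_lit 5) (nat_lit 45) (nat_lit 5) (nat_lit 430) (nat_lit 425) (nat_lit 165)) (XT.lf (nat_lit 0) (nat_lit 100046629324338) (nat_lit 380) (nat_lit 118054126839890) (nat_lit 380) (nat_lit 118054126839890) (nat_lit 42) (nat_lit 3) (nat_lit 47) (nat_lit 3) (nat_lit 47) (nat_lit 5) (nat_lit 426) (nat_lit 426) (nat_lit 168)))))) (XT.nd (nat_lit 53352) (nat_lit 0) (nat_lit 0) (XT.nd (nat_lit 234) (nat_lit 0) (nat_lit 0) (XT.nd (nat_lit 78) (nat_lit 0) (nat_lit 76) (XT.lf (nat_lit 76) (nat_lit 108271685509257)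 (nat_lit 0) (nat_lit 111311867145078) (nat_lit 380) (nat_lit 502476950863468) (nat_lit 43) (nat_lit 5) (nat_lit 42) (nat_lit 3) (nat_lit 47) (nat_lit 5) (nat_lit 427) (nat_lit 426) (nat_lit 167)) (XT.nd (nat_lit 78) (nat_lit 0) (nat_lit 0) (XT.lf (nat_lit 0) (nat_lit 265788876901935) (nat_lit 304) (nat_lit 258028048458485) (nat_lit 380) (nat_lit 251888203372222) (nat_lit 43) (nat_lit 5) (nat_lit 47) (nat_lit 5) (nat_lit 48) (nat_lit 5) (nat_lit 428) (nat_lit 426) (nat_lit 166)) (XT.lf (nat_lit 76) (nat_lit 160044543401814) (nat_lit 0) (nat_lit 170808124733456) (nat_lit 380) (nat_lit 504754629342147) (nat_lit 44) (nat_lit 5) (nat_lit 43) (nat_lit 5) (nat_lit 48) (nat_lit 5) (nat_lit 429) (nat_lit 426) (nat_lit 165)))) (XT.nd (nat_lit 52962) (nat_lit 0) (nat_lit 0) (XT.nd (nat_lit 52884) (nat_lit 152) (nat_lit 0) (XT.lf (nat_lit 0) (nat_lit 429543278160188) (nat_lit 304) (nat_lit 243024179240238)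 (nat_lit 76) (nat_lit 228347246617493) (nat_lit 44) (nat_lit 5) (nat_lit 48) (nat_lit 5) (nat_lit 45) (nat_lit 5) (nat_lit 430) (nat_lit 426) (nat_lit 164)) (XT.lf (nat_lit 0) (nat_lit 115053623722989) (nat_lit 380) (nat_lit 135762245865873) (nat_lit 380) (nat_lit 135762245865873) (nat_lit 42) (nat_lit 3) (nat_lit 47) (nat_lit 3) (nat_lit 47) (nat_lit 5) (nat_lit 427) (nat_lit 427) (nat_lit 166))) (XT.nd (nat_lit 78) (nat_lit 0) (nat_lit 76) (XT.lf (nat_lit 76) (nat_lit 124512438335641) (nat_lit 0) (nat_lit 128008647216845) (nat_lit 380) (nat_lit 577848493492988) (nat_lit 43) (nat_lit 5) (nat_lit 42) (nat_lit 3) (nat_lit 47) (nat_lit 5) (nat_lit 428) (nat_lit 427) (nat_lit 165)) (XT.lf (nat_lit 0) (nat_lit 305657208437225) (nat_lit 304) (nat_lit 296732255727258) (nat_lit 380) (nat_lit 289671433878056) (nat_lit 43) (nat_lit 5) (nat_lit 47) (nat_lit 5) (nat_lit 48) (nat_lit 5) (nat_lit 429)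 (nat_lit 427) (nat_lit 164))))) (XT.nd (nat_lit 53118) (nat_lit 0) (nat_lit 0) (XT.nd (nat_lit 52962) (nat_lit 76) (nat_lit 0) (XT.lf (nat_lit 76) (nat_lit 184051224912086) (nat_lit 0) (nat_lit 196429343443476) (nat_lit 380) (nat_lit 580467823743467) (nat_lit 44) (nat_lit 5) (nat_lit 43) (nat_lit 5) (nat_lit 48) (nat_lit 5) (nat_lit 430) (nat_lit 427) (nat_lit 163)) (XT.nd (nat_lit 78) (nat_lit 0) (nat_lit 0) (XT.lf (nat_lit 0) (nat_lit 132311667281438) (nat_lit 380) (nat_lit 156126582745754) (nat_lit 380) (nat_lit 156126582745754) (nat_lit 42) (nat_lit 3) (nat_lit 47) (nat_lit 3) (nat_lit 47) (nat_lit 5) (nat_lit 428) (nat_lit 428) (nat_lit 164)) (XT.lf (nat_lit 76) (nat_lit 143189304085994) (nat_lit 0) (nat_lit 147209944299365) (nat_lit 380) (nat_lit 664525767516936) (nat_lit 43) (nat_lit 5) (nat_lit 42) (nat_lit 3) (nat_lit 47) (nat_lit 5) (nat_lit 429) (nat_lit 428) (nat_lit 163))))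 (XT.nd (nat_lit 53118) (nat_lit 0) (nat_lit 0) (XT.nd (nat_lit 53040) (nat_lit 76) (nat_lit 0) (XT.lf (nat_lit 0) (nat_lit 351505789702810) (nat_lit 304) (nat_lit 341242094086340) (nat_lit 380) (nat_lit 333122148959769) (nat_lit 43) (nat_lit 5) (nat_lit 47) (nat_lit 5) (nat_lit 48) (nat_lit 5) (nat_lit 430) (nat_lit 428) (nat_lit 162)) (XT.lf (nat_lit 0) (nat_lit 152158417373653) (nat_lit 380) (nat_lit 179545570157618) (nat_lit 380) (nat_lit 179545570157618) (nat_lit 42) (nat_lit 3) (nat_lit 47) (nat_lit 3) (nat_lit 47) (nat_lit 5) (nat_lit 429) (nat_lit 429) (nat_lit 162))) (XT.nd (nat_lit 53118) (nat_lit 0) (nat_lit 0) (XT.lf (nat_lit 76) (nat_lit 164667699698894) (nat_lit 0) (nat_lit 169291435944272) (nat_lit 380) (nat_lit 764204632644476) (nat_lit 43) (nat_lit 5) (nat_lit 42) (nat_lit 3) (nat_lit 47) (nat_lit 5) (nat_lit 430) (nat_lit 429) (nat_lit 161)) (XT.lf (nat_lit 0) (nat_lit 174982179979702)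 (nat_lit 380) (nat_lit 206477405681260) (nat_lit 380) (nat_lit 206477405681260) (nat_lit 42) (nat_lit 3) (nat_lit 47) (nat_lit 3) (nat_lit 47) (nat_lit 5) (nat_lit 430) (nat_lit 430) (nat_lit 160))))))))

set_option maxRecDepth 10000000 in
noncomputable def Tp : PT := (PT.nd (nat_lit 9202362) (PT.nd (nat_lit 8777964) (PT.nd (nat_lit 8194134) pc0 pc1) (PT.nd (nat_lit 265434) pc2 pc3)) (PT.nd (nat_lit 264732) (PT.nd (nat_lit 106002) pc4 pc5) (PT.nd (nat_lit 161304) pc6 pc7)))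

set_option maxRecDepth 10000000 in
noncomputable def Tx : XT := (XT.nd (nat_lit 14908920) (nat_lit 0) (nat_lit 76) XT.nil (XT.nd (nat_lit 7965438) (nat_lit 0) (nat_lit 0) (XT.nd (nat_lit 3714750) (nat_lit 0) (nat_lit 0) (XT.nd (nat_lit 2705664) (nat_lit 0) (nat_lit 0) (XT.nd (nat_lit 2066220) (nat_lit 0) (nat_lit 0) (XT.nd (nat_lit 1642290) (nat_lit 0) (nat_lit 0) (XT.nd (nat_lit 1377090) (nat_lit 0) (nat_lit 0) (XT.nd (nat_lit 1165632) (nat_lit 0) (nat_lit 0) (XT.nd (nat_lit 1006356) (nat_lit 0) (nat_lit 0) xc0 xc1) (XT.nd (nat_lit 106236) (nat_lit 0) (nat_lit 0) xc2 xc3)) (XT.nd (nat_lit 108264) (nat_lit 0) (nat_lit 0) (XT.nd (nat_lit 54288) (nat_lit 0) (nat_lit 0) xc4 xc5) (XT.nd (nat_lit 53820) (nat_lit 0) (nat_lit 0) xc6 xc7))) (XT.nd (nat_lit 212706) (nat_lit 0) (nat_lit 0) (XT.nd (nat_lit 106548) (nat_lit 0) (nat_lit 0) (XT.nd (nat_lit 53352) (nat_lit 0) (nat_lit 0) xc8 xc9) (XT.nd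 (nat_lit 53040) (nat_lit 0) (nat_lit 0) xc10 xc11)) (XT.nd (nat_lit 105846) (nat_lit 0) (nat_lit 0) (XT.nd (nat_lit 52962) (nat_lit 0) (nat_lit 0) xc12 xc13) (XT.nd (nat_lit 52728) (nat_lit 0) (nat_lit 0) xc14 xc15)))) (XT.nd (nat_lit 321828) (nat_lit 0) (nat_lit 0) (XT.nd (nat_lit 161460) (nat_lit 0) (nat_lit 0) (XT.nd (nat_lit 56628) (nat_lit 0) (nat_lit 0) (XT.nd (nat_lit 52494) (nat_lit 0) (nat_lit 0) xc16 xc17) (XT.nd (nat_lit 52416) (nat_lit 0) (nat_lit 0) xc18 xc19)) (XT.nd (nat_lit 104364) (nat_lit 0) (nat_lit 0) (XT.nd (nat_lit 52260) (nat_lit 0) (nat_lit 0) xc20 xc21) (XT.nd (nat_lit 51792) (nat_lit 0) (nat_lit 0) xc22 xc23))) (XT.nd (nat_lit 158886) (nat_lit 0) (nat_lit 0) (XT.nd (nat_lit 103194) (nat_lit 0) (nat_lit 0) (XT.nd (nat_lit 51714) (nat_lit 0) (nat_lit 0) xc24 xc25) (XT.nd (nat_lit 51480) (nat_lit 0) (nat_lit 0) xc26 xc27)) (XT.nd (nat_lit 103194) (nat_lit 0) (nat_lit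 0) (XT.nd (nat_lit 51636) (nat_lit 0) (nat_lit 0) xc28 xc29) (XT.nd (nat_lit 51324) (nat_lit 0) (nat_lit 0) xc30 xc31))))) (XT.nd (nat_lit 529386) (nat_lit 0) (nat_lit 0) (XT.nd (nat_lit 266526) (nat_lit 0) (nat_lit 0) (XT.nd (nat_lit 157092) (nat_lit 0) (nat_lit 0) (XT.nd (nat_lit 102102) (nat_lit 0) (nat_lit 0) (XT.nd (nat_lit 51168) (nat_lit 0) (nat_lit 0) xc32 xc33) (XT.nd (nat_lit 4134) (nat_lit 0) (nat_lit 0) xc34 xc35)) (XT.nd (nat_lit 54834) (nat_lit 0) (nat_lit 0) (XT.nd (nat_lit 50622) (nat_lit 0) (nat_lit 0) xc36 xc37) (XT.nd (nat_lit 50388) (nat_lit 0) (nat_lit 0) xc38 xc39))) (XT.nd (nat_lit 154674) (nat_lit 0) (nat_lit 0) (XT.nd (nat_lit 100464) (nat_lit 0) (nat_lit 0) (XT.nd (nat_lit 50310) (nat_lit 0) (nat_lit 0) xc40 xc41) (XT.nd (nat_lit 4134) (nat_lit 0) (nat_lit 0) xc42 xc43)) (XT.nd (nat_lit 54054) (nat_lit 0) (nat_lit 0) (XT.nd (nat_lit 4134) (nat_lit 0) (nat_lit 0)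 xc44 xc45) (XT.nd (nat_lit 4134) (nat_lit 0) (nat_lit 0) xc46 xc47)))) (XT.nd (nat_lit 263094) (nat_lit 0) (nat_lit 0) (XT.nd (nat_lit 108420) (nat_lit 0) (nat_lit 0) (XT.nd (nat_lit 54132) (nat_lit 0) (nat_lit 0) (XT.nd (nat_lit 49998) (nat_lit 0) (nat_lit 0) xc48 xc49) (XT.nd (nat_lit 50076) (nat_lit 0) (nat_lit 0) xc50 xc51)) (XT.nd (nat_lit 100308) (nat_lit 0) (nat_lit 0) (XT.nd (nat_lit 50076) (nat_lit 0) (nat_lit 0) xc52 xc53) (XT.nd (nat_lit 4134) (nat_lit 76) (nat_lit 0) xc54 xc55))) (XT.nd (nat_lit 108264) (nat_lit 0) (nat_lit 0) (XT.nd (nat_lit 54132) (nat_lit 0) (nat_lit 0) (XT.nd (nat_lit 4134) (nat_lit 0) (nat_lit 0) xc56 xc57) (XT.nd (nat_lit 4134) (nat_lit 0) (nat_lit 0) xc58 xc59)) (XT.nd (nat_lit 54132) (nat_lit 0) (nat_lit 0) (XT.nd (nat_lit 4134) (nat_lit 0) (nat_lit 0) xc60 xc61) (XT.nd (nat_lit 49998) (nat_lit 0) (nat_lit 0) xc62 xc63)))))) (XT.nd (nat_lit 1169220) (nat_lit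 0) (nat_lit 76) (XT.nd (nat_lit 528138) (nat_lit 0) (nat_lit 0) (XT.nd (nat_lit 262860) (nat_lit 0) (nat_lit 0) (XT.nd (nat_lit 108342) (nat_lit 0) (nat_lit 0) (XT.nd (nat_lit 54132) (nat_lit 0) (nat_lit 0) (XT.nd (nat_lit 49998) (nat_lit 0) (nat_lit 0) xc64 xc65) (XT.nd (nat_lit 49998) (nat_lit 0) (nat_lit 0) xc66 xc67)) (XT.nd (nat_lit 100152) (nat_lit 0) (nat_lit 0) (XT.nd (nat_lit 49998) (nat_lit 0) (nat_lit 0) xc68 xc69) (XT.nd (nat_lit 4134) (nat_lit 0) (nat_lit 0) xc70 xc71))) (XT.nd (nat_lit 108888) (nat_lit 0) (nat_lit 0) (XT.nd (nat_lit 54366) (nat_lit 0) (nat_lit 0) (XT.nd (nat_lit 4134) (nat_lit 0) (nat_lit 0) xc72 xc73) (XT.nd (nat_lit 50310) (nat_lit 0) (nat_lit 76) xc74 xc75)) (XT.nd (nat_lit 54600) (nat_lit 0) (nat_lit 0) (XT.nd (nat_lit 50388) (nat_lit 0) (nat_lit 0) xc76 xc77) (XT.nd (nat_lit 50778) (nat_lit 0) (nat_lit 0) xc78 xc79)))) (XT.nd (nat_lit 318396) (nat_lit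 0) (nat_lit 0) (XT.nd (nat_lit 110526) (nat_lit 0) (nat_lit 0) (XT.nd (nat_lit 55146) (nat_lit 0) (nat_lit 0) (XT.nd (nat_lit 4134) (nat_lit 0) (nat_lit 0) xc80 xc81) (XT.nd (nat_lit 51168) (nat_lit 0) (nat_lit 0) xc82 xc83)) (XT.nd (nat_lit 103194) (nat_lit 0) (nat_lit 0) (XT.nd (nat_lit 51324) (nat_lit 0) (nat_lit 0) xc84 xc85) (XT.nd (nat_lit 52260) (nat_lit 0) (nat_lit 0) xc86 xc87))) (XT.nd (nat_lit 161460) (nat_lit 0) (nat_lit 0) (XT.nd (nat_lit 56550) (nat_lit 0) (nat_lit 0) (XT.nd (nat_lit 4134) (nat_lit 76) (nat_lit 0) xc88 xc89) (XT.nd (nat_lit 52494) (nat_lit 0) (nat_lit 0) xc90 xc91)) (XT.nd (nat_lit 104676) (nat_lit 0) (nat_lit 0) (XT.nd (nat_lit 52260) (nat_lit 0) (nat_lit 0) xc92 xc93) (XT.nd (nat_lit 6162) (nat_lit 0) (nat_lit 0) xc94 xc95))))) (XT.nd (nat_lit 850590) (nat_lit 0) (nat_lit 152) (XT.nd (nat_lit 422994) (nat_lit 0) (nat_lit 0) (XT.nd (nat_lit 211146) (nat_lit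 0) (nat_lit 0) (XT.nd (nat_lit 105456) (nat_lit 0) (nat_lit 0) (XT.nd (nat_lit 52728) (nat_lit 0) (nat_lit 0) xc96 xc97) (XT.nd (nat_lit 52806) (nat_lit 0) (nat_lit 0) xc98 xc99)) (XT.nd (nat_lit 105768) (nat_lit 0) (nat_lit 0) (XT.nd (nat_lit 52806) (nat_lit 0) (nat_lit 0) xc100 xc101) (XT.nd (nat_lit 52962) (nat_lit 0) (nat_lit 0) xc102 xc103))) (XT.nd (nat_lit 213018) (nat_lit 0) (nat_lit 152) (XT.nd (nat_lit 106314) (nat_lit 0) (nat_lit 0) (XT.nd (nat_lit 53118) (nat_lit 0) (nat_lit 0) xc104 xc105) (XT.nd (nat_lit 53274) (nat_lit 0) (nat_lit 152) xc106 xc107)) (XT.nd (nat_lit 107172) (nat_lit 0) (nat_lit 76) (XT.nd (nat_lit 53508) (nat_lit 0) (nat_lit 0) xc108 xc109) (XT.nd (nat_lit 53664) (nat_lit 0) (nat_lit 0) xc110 xc111)))) (XT.nd (nat_lit 531336) (nat_lit 0) (nat_lit 0) (XT.nd (nat_lit 264030) (nat_lit 0) (nat_lit 0) (XT.nd (nat_lit 156858) (nat_lit 0) (nat_lit 0) (XT.nd (nat_lit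 103272) (nat_lit 76) (nat_lit 0) xc112 xc113) (XT.nd (nat_lit 53508) (nat_lit 0) (nat_lit 0) xc114 xc115)) (XT.nd (nat_lit 108030) (nat_lit 0) (nat_lit 0) (XT.nd (nat_lit 53586) (nat_lit 0) (nat_lit 0) xc116 xc117) (XT.nd (nat_lit 103974) (nat_lit 0) (nat_lit 0) xc118 xc119))) (XT.nd (nat_lit 529386) (nat_lit 0) (nat_lit 76) (XT.nd (nat_lit 210132) (nat_lit 0) (nat_lit 1596) (XT.nd (nat_lit 104208) (nat_lit 0) (nat_lit 76) xc120 xc121) (XT.nd (nat_lit 107484) (nat_lit 0) (nat_lit 76) xc122 xc123)) (XT.nd (nat_lit 425490) (nat_lit 0) (nat_lit 2128) (XT.nd (nat_lit 212628) (nat_lit 1824) (nat_lit 0) xc124 xc125) (XT.nd (nat_lit 265902) (nat_lit 0) (nat_lit 152) xc126 xc127))))))) XT.nil))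

set_option maxRecDepth 10000000 in
noncomputable def Te : XT := XT.nil

set_option maxRecDepth 10000000 in
noncomputable def Tz : ZL := (ZL.cons (nat_lit 76) (nat_lit 3) (nat_lit 300483188951299197161) (ZL.cons (nat_lit 152) (nat_lit 6) (nat_lit 561892838543372489886) (ZL.cons (nat_lit 228) (nat_lit 6) (nat_lit 527939286718836758154) (ZL.cons (nat_lit 304) (nat_lit 3) (nat_lit 261415918141145342247) (ZL.cons (nat_lit 380) (nat_lit 6) (nat_lit 488892702120620666660) (ZL.cons (nat_lit 456) (nat_lit 3) (nat_lit 227485074135623109906) (ZL.cons (nat_lit 532) (nat_lit 6) (nat_lit 425507923030182178428) (ZL.cons (nat_lit 608) (nat_lit 6) (nat_lit 399929591555755550400) (ZL.cons (nat_lit 684) (nat_lit 3) (nat_lit 198033812626064514837) (ZL.cons (nat_lit 760) (nat_lit 6) (nat_lit 370514510360164928164) (ZL.cons (nat_lit 836) (nat_lit 6) (nat_lit 348348626106403619742) (ZL.cons (nat_lit 912) (nat_lit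 3) (nat_lit 172495197269016366077) (ZL.cons (nat_lit 988) (nat_lit 6) (nat_lit 322857859214578115058) (ZL.cons (nat_lit 1064) (nat_lit 6) (nat_lit 303683876524776964796) (ZL.cons (nat_lit 1140) (nat_lit 3) (nat_lit 150381837580488096491) (ZL.cons (nat_lit 1216) (nat_lit 6) (nat_lit 281633796431505641996) (ZL.cons (nat_lit 1292) (nat_lit 6) (nat_lit 265093942790155081756) (ZL.cons (nat_lit 1368) (nat_lit 3) (nat_lit 131277318628207640089) (ZL.cons (nat_lit 1444) (nat_lit 6) (nat_lit 246073111102601937482) (ZL.cons (nat_lit 1520) (nat_lit 6) (nat_lit 231866753327925787634) (ZL.cons (nat_lit 1596) (nat_lit 3) (nat_lit 114829330779728197479) (ZL.cons (nat_lit 1672) (nat_lit 6) (nat_lit 215529441887048215310) (ZL.cons (nat_lit 1748) (nat_lit 6) (nat_lit 203409010830917238504) (ZL.cons (nat_lit 1824) (nat_lit 3) (nat_lit 100744465516124100696) (ZL.cons (nat_lit 1900) (nat_lit 6) (nat_lit 189470515116366615174)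 (ZL.cons (nat_lit 1976) (nat_lit 6) (nat_lit 179239051219310121276) (ZL.cons (nat_lit 2052) (nat_lit 3) (nat_lit 88784708305885914068) (ZL.cons (nat_lit 2128) (nat_lit 6) (nat_lit 167472867737695153290) (ZL.cons (nat_lit 2204) (nat_lit 6) (nat_lit 158983327320513351348) (ZL.cons (nat_lit 2280) (nat_lit 3) (nat_lit 78765735570022635179) (ZL.cons (nat_lit 2356) (nat_lit 6) (nat_lit 151934695656411995748) (ZL.cons (nat_lit 2432) (nat_lit 6) (nat_lit 149220355840754279116) (ZL.cons (nat_lit 2508) (nat_lit 6) (nat_lit 142376913062227355818) (ZL.cons (nat_lit 2584) (nat_lit 3) (nat_lit 70557214713518860088) (ZL.cons (nat_lit 2660) (nat_lit 6) (nat_lit 136867249358797669366) (ZL.cons (nat_lit 2736) (nat_lit 6) (nat_lit 134506953866921394030) (ZL.cons (nat_lit 2812) (nat_lit 6) (nat_lit 132583566962354638928) (ZL.cons (nat_lit 2888) (nat_lit 6) (nat_lit 129268652464663894298) (ZL.cons (nat_lit 2964)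 (nat_lit 3) (nat_lit 64085420303988627302) (ZL.cons (nat_lit 3040) (nat_lit 6) (nat_lit 125297036714568878594) (ZL.cons (nat_lit 3116) (nat_lit 6) (nat_lit 123244605852067769606) (ZL.cons (nat_lit 3192) (nat_lit 3) (nat_lit 60160248104228468906) (ZL.cons (nat_lit 3268) (nat_lit 6) (nat_lit 120866302723336155254) (ZL.cons (nat_lit 3344) (nat_lit 6) (nat_lit 122514401091091009652) (ZL.cons (nat_lit 3420) (nat_lit 6) (nat_lit 119631866745272970840) (ZL.cons (nat_lit 3496) (nat_lit 3) (nat_lit 59338623869729250773) (ZL.cons (nat_lit 3572) (nat_lit 6) (nat_lit 116088455254600033884) (ZL.cons (nat_lit 3648) (nat_lit 6) (nat_lit 117261939261590351380) (ZL.cons (nat_lit 3724) (nat_lit 6) (nat_lit 115477216772458952262) (ZL.cons (nat_lit 3800) (nat_lit 3) (nat_lit 56477113078714884825) (ZL.cons (nat_lit 3876) (nat_lit 6) (nat_lit 113581903649540869704) (ZL.cons (nat_lit 3952) (nat_lit 3) (nat_lit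 56375900083111969940) (ZL.cons (nat_lit 4028) (nat_lit 6) (nat_lit 111402293558185074764) (ZL.cons (nat_lit 4104) (nat_lit 1) (nat_lit 18446744073709551617) ZL.nil))))))))))))))))))))))))))))))))))))))))))))))))))))))

noncomputable def vl : XL := ⟨(nat_lit 0), (nat_lit 76), (nat_lit 130216373), (nat_lit 152), (nat_lit 36115944), (nat_lit 152), (nat_lit 36115944), (nat_lit 1), (nat_lit 4), (nat_lit 2), (nat_lit 5), (nat_lit 2), (nat_lit 4), (nat_lit 0), (nat_lit 0), (nat_lit 0)⟩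

noncomputable def cp0 : Nat := (nat_lit 113351727378764090406288002490438021124708553480386613660188934144)

noncomputable def cp1 : Nat := (nat_lit 16791375053899563849154642753663985797850064388584255008620413026181282796163191652060159373253949280006138255091889799155272339902431779253757690266524991420292406849865267768542262918997582147347950921129994444314281306906013375885369462675901592189264827460311523068603544383554344211446944683163786478119249257982899000813735944830408651311434199751873811093820867884913447558524142524706717381538499993296497981970513526987554107420821038080992302871570806432725625197219594922926416493140826857070658182387078207285072569790564146991344083217872849911474000000155160168687510629103008490830329480412962631274329276858771108171952370005225832261646530240856351098440402921362760664629069612371470084432841962724379366796630901465316952603522449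82870375887573002400662136652312877406675430570870222130797726536246907005661075170454587217396802028282559837082930466422881070136302610281359236794978847756184630971649108613906618957721044366293304392115123747626182938416456443691708297364618967011842394602765201182308439829558730123209679821058591687414693809263279691604112134764086127071064716732064184042371922206570722409573603413013699177049631834232008448831452061747111928256671923420095289674180407352380820154734850253780617476592271466954752)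

noncomputable def rc0 : Nat := (nat_lit 1594920639753695729967765873345106303143534072158872909893060657710825830608955839755469099980626603097276486840772175464971119459862614298390041302226160434125311717016184379458596049829319037248361406241833802780681914662582772066900025815839986141286054826116315076573027350858570109762939789092732993335238144768867548040626183009851057114844794115364094672016001519516655779703523526513730424690992756695763578581275165649745405256609280111766650528472017535050152125537262707417191823711833797626641018732232455073219355955831445472291036436780222487870982988992802855351290029043777483675585841911453027265732258006435982117477588943890202469550268582405569023549504414950446704739335006696245674382922980340895806801994436696060512375066418742949699289448706537262816080716994833135542782615947841526866250059959096278016534950363283361341512350517414270349110289055771440362504577056608763910360552823065923854504907123043414879890193032296929411458879802399088709932075995583311802274061446202535348134179376122579119524359782278841391251053467552296289785045373224331314179504657607351017509492706271092148465631409619036847317599665898856896452412644881758759591155489563988074919266713233680710804069765325532310770338791107955538638665678848)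

noncomputable def rc1 : Nat := (nat_lit 1679137505389956384915464275366398579785006438858425500862041302618128279616319165206015937325394928000613825509188979915527233990243177925375769026652499142029240684986526776854226291899758214734795092112999444431428130690601337588536946267590159218926482746031152306860354438355434421144694468316378647811924925798289900081373594483040865131143419975187381109382086788491344755852414252470671738153849999329649798197051352698755410742082103808099230287157080643272562519721959492292641649314082685707065818238707820728507256979056414699134408321787284991147400000015516016868751062910300849083032948041296263127432927685877110817195237000522583226164653024085635109844040292136276066462906961237147008443284196272437936679663090146531695260352244982870375887573002400662136652312877406675430570870222130797726536246907005661075170454587217396802028282559837082930466422881070136302610281359236794978847756184630971649108613906618957721044366293304392115123747626182938416456443691708297364618967011842394602765201182308439829558730123209679821058591687414693809263279691604112134764086127071064716732064184042371922206570722409573603413013699177049631834232008448831452061747111928256671923420095289674180407352380820154734850253780617476592271466954752)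

end Vale.Agent.Lib.P154.PChain.BB.S0
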