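import Vale.Agent.Lib.P154.PChain.BB.R0_0

set_option linter.all false

namespace Vale.Agent.Lib.P154.PChain.BB.S1

open Vale.Agent.Lib.P154.Chain

noncomputable def pc0 : PT := (PT.nd (nat_lit 7875504) (PT.nd (nat_lit 7663266) (PT.nd (nat_lit 7557108) (PT.nd (nat_lit 7504068) (PT.nd (nat_lit 7503990) (PT.nd (nat_lit 7450950) PT.nil (PT.lf (nat_lit 76) (nat_lit 3) (nat_lit 1) (nat_lit 1) (nat_lit 185) (nat_lit 140) (nat_lit 185))) (PT.lf (nat_lit 152) (nat_lit 6) (nat_lit 2) (nat_lit 3) (nat_lit 184) (nat_lit 141) (nat_lit 185))) (PT.nd (nat_lit 52962) (PT.lf (nat_lit 152) (nat_lit 6) (nat_lit 2) (nat_lit 1) (nat_lit 185) (nat_lit 141) (nat_lit 184)) (PT.lf (nat_lit 228) (nat_lit 6) (nat_lit 3) (nat_lit 3) (nat_lit 183) (nat_lit 142) (nat_lit 185)))) (PT.nd (nat_lit 53040) (PT.nd (nat_lit 78) (PT.lf (nat_lit 304) (nat_lit 3) (nat_lit 4) (nat_lit 1) (nat_lit 184) (nat_lit 142) (nat_lit 184))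 (PT.lf (nat_lit 228) (nat_lit 6) (nat_lit 3) (nat_lit 1) (nat_lit 185) (nat_lit 142) (nat_lit 183))) (PT.nd (nat_lit 78) (PT.lf (nat_lit 380) (nat_lit 6) (nat_lit 5) (nat_lit 3) (nat_lit 183) (nat_lit 143) (nat_lit 184)) (PT.lf (nat_lit 380) (nat_lit 6) (nat_lit 5) (nat_lit 1) (nat_lit 184) (nat_lit 143) (nat_lit 183))))) (PT.nd (nat_lit 106158) (PT.nd (nat_lit 53118) (PT.nd (nat_lit 53040) (PT.lf (nat_lit 456) (nat_lit 3) (nat_lit 6) (nat_lit 1) (nat_lit 183) (nat_lit 144) (nat_lit 183)) (PT.lf (nat_lit 532) (nat_lit 6) (nat_lit 7) (nat_lit 3) (nat_lit 182) (nat_lit 145) (nat_lit 183))) (PT.nd (nat_lit 52962) (PT.lf (nat_lit 532) (nat_lit 6) (nat_lit 7) (nat_lit 1) (nat_lit 183) (nat_lit 145) (nat_lit 182)) (PT.lf (nat_lit 608) (nat_lit 6) (nat_lit 8) (nat_lit 3) (nat_lit 181) (nat_lit 146) (nat_lit 183)))) (PT.nd (nat_lit 53040) (PT.nd (nat_lit 78) (PT.lf (nat_lit 684) (nat_lit 3) (nat_lit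 9) (nat_lit 1) (nat_lit 182) (nat_lit 146) (nat_lit 182)) (PT.lf (nat_lit 608) (nat_lit 6) (nat_lit 8) (nat_lit 1) (nat_lit 183) (nat_lit 146) (nat_lit 181))) (PT.nd (nat_lit 78) (PT.lf (nat_lit 760) (nat_lit 6) (nat_lit 10) (nat_lit 3) (nat_lit 181) (nat_lit 147) (nat_lit 182)) (PT.lf (nat_lit 760) (nat_lit 6) (nat_lit 10) (nat_lit 1) (nat_lit 182) (nat_lit 147) (nat_lit 181)))))) (PT.nd (nat_lit 159276) (PT.nd (nat_lit 53196) (PT.nd (nat_lit 156) (PT.nd (nat_lit 78) (PT.lf (nat_lit 836) (nat_lit 6) (nat_lit 11) (nat_lit 3) (nat_lit 180) (nat_lit 148) (nat_lit 182)) (PT.lf (nat_lit 912) (nat_lit 3) (nat_lit 12) (nat_lit 1) (nat_lit 181) (nat_lit 148) (nat_lit 181))) (PT.nd (nat_lit 52962) (PT.lf (nat_lit 836) (nat_lit 6) (nat_lit 11) (nat_lit 1) (nat_lit 182) (nat_lit 148) (nat_lit 180)) (PT.lf (nat_lit 988) (nat_lit 6) (nat_lit 13) (nat_lit 3) (nat_lit 180) (nat_lit 149) (nat_lit 181))))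 (PT.nd (nat_lit 53040) (PT.nd (nat_lit 52962) (PT.lf (nat_lit 988) (nat_lit 6) (nat_lit 13) (nat_lit 1) (nat_lit 181) (nat_lit 149) (nat_lit 180)) (PT.lf (nat_lit 1064) (nat_lit 6) (nat_lit 14) (nat_lit 3) (nat_lit 179) (nat_lit 150) (nat_lit 181))) (PT.nd (nat_lit 78) (PT.lf (nat_lit 1140) (nat_lit 3) (nat_lit 15) (nat_lit 1) (nat_lit 180) (nat_lit 150) (nat_lit 180)) (PT.lf (nat_lit 1064) (nat_lit 6) (nat_lit 14) (nat_lit 1) (nat_lit 181) (nat_lit 150) (nat_lit 179))))) (PT.nd (nat_lit 53196) (PT.nd (nat_lit 53040) (PT.nd (nat_lit 78) (PT.lf (nat_lit 1216) (nat_lit 6) (nat_lit 16) (nat_lit 3) (nat_lit 179) (nat_lit 151) (nat_lit 180)) (PT.lf (nat_lit 1216) (nat_lit 6) (nat_lit 16) (nat_lit 1) (nat_lit 180) (nat_lit 151) (nat_lit 179))) (PT.nd (nat_lit 78) (PT.lf (nat_lit 1292) (nat_lit 6) (nat_lit 17) (nat_lit 3) (nat_lit 178) (nat_lit 152) (nat_lit 180)) (PT.lf (nat_lit 1368) (nat_lit 3)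 (nat_lit 18) (nat_lit 1) (nat_lit 179) (nat_lit 152) (nat_lit 179)))) (PT.nd (nat_lit 53040) (PT.nd (nat_lit 52962) (PT.lf (nat_lit 1292) (nat_lit 6) (nat_lit 17) (nat_lit 1) (nat_lit 180) (nat_lit 152) (nat_lit 178)) (PT.lf (nat_lit 1444) (nat_lit 6) (nat_lit 19) (nat_lit 3) (nat_lit 178) (nat_lit 153) (nat_lit 179))) (PT.nd (nat_lit 52962) (PT.lf (nat_lit 1444) (nat_lit 6) (nat_lit 19) (nat_lit 1) (nat_lit 179) (nat_lit 153) (nat_lit 178)) (PT.nd (nat_lit 78) (PT.lf (nat_lit 1520) (nat_lit 6) (nat_lit 20) (nat_lit 3) (nat_lit 177) (nat_lit 154) (nat_lit 179)) (PT.lf (nat_lit 1596) (nat_lit 3) (nat_lit 21) (nat_lit 1) (nat_lit 178) (nat_lit 154) (nat_lit 178))))))))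
noncomputable def pc1 : PT := (PT.nd (nat_lit 371436) (PT.nd (nat_lit 212160) (PT.nd (nat_lit 106080) (PT.nd (nat_lit 53040) (PT.nd (nat_lit 52962) (PT.lf (nat_lit 1520) (nat_lit 6) (nat_lit 20) (nat_lit 1) (nat_lit 179) (nat_lit 154) (nat_lit 177)) (PT.lf (nat_lit 1672) (nat_lit 6) (nat_lit 22) (nat_lit 3) (nat_lit 177) (nat_lit 155) (nat_lit 178))) (PT.nd (nat_lit 52962) (PT.lf (nat_lit 1672) (nat_lit 6) (nat_lit 22) (nat_lit 1) (nat_lit 178) (nat_lit 155) (nat_lit 177)) (PT.lf (nat_lit 1748) (nat_lit 6) (nat_lit 23) (nat_lit 3) (nat_lit 176) (nat_lit 156) (nat_lit 178)))) (PT.nd (nat_lit 53040) (PT.nd (nat_lit 78) (PT.lf (nat_lit 1824) (nat_lit 3) (nat_lit 24) (nat_lit 1) (nat_lit 177) (nat_lit 156) (nat_lit 177)) (PT.lf (nat_lit 1748) (nat_lit 6) (nat_lit 23) (nat_lit 1) (nat_lit 178) (nat_lit 156) (nat_lit 176))) (PT.nd (nat_lit 78) (PT.lf (nat_lit 1900) (nat_lit 6) (nat_lit 25) (nat_lit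 3) (nat_lit 176) (nat_lit 157) (nat_lit 177)) (PT.lf (nat_lit 1900) (nat_lit 6) (nat_lit 25) (nat_lit 1) (nat_lit 177) (nat_lit 157) (nat_lit 176))))) (PT.nd (nat_lit 53196) (PT.nd (nat_lit 156) (PT.nd (nat_lit 78) (PT.lf (nat_lit 1976) (nat_lit 6) (nat_lit 26) (nat_lit 3) (nat_lit 175) (nat_lit 158) (nat_lit 177)) (PT.lf (nat_lit 2052) (nat_lit 3) (nat_lit 27) (nat_lit 1) (nat_lit 176) (nat_lit 158) (nat_lit 176))) (PT.nd (nat_lit 52962) (PT.lf (nat_lit 1976) (nat_lit 6) (nat_lit 26) (nat_lit 1) (nat_lit 177) (nat_lit 158) (nat_lit 175)) (PT.lf (nat_lit 2128) (nat_lit 6) (nat_lit 28) (nat_lit 3) (nat_lit 175) (nat_lit 159) (nat_lit 176)))) (PT.nd (nat_lit 53040) (PT.nd (nat_lit 52962) (PT.lf (nat_lit 2128) (nat_lit 6) (nat_lit 28) (nat_lit 1) (nat_lit 176) (nat_lit 159) (nat_lit 175)) (PT.lf (nat_lit 2204) (nat_lit 6) (nat_lit 29) (nat_lit 3) (nat_lit 174) (nat_lit 160) (nat_lit 176))) (PT.nd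 (nat_lit 78) (PT.lf (nat_lit 2280) (nat_lit 3) (nat_lit 30) (nat_lit 1) (nat_lit 175) (nat_lit 160) (nat_lit 175)) (PT.nd (nat_lit 52884) (PT.lf (nat_lit 2204) (nat_lit 6) (nat_lit 29) (nat_lit 1) (nat_lit 176) (nat_lit 160) (nat_lit 174)) (PT.lf (nat_lit 2356) (nat_lit 6) (nat_lit 31) (nat_lit 3) (nat_lit 173) (nat_lit 161) (nat_lit 176))))))) (PT.nd (nat_lit 106236) (PT.nd (nat_lit 53118) (PT.nd (nat_lit 156) (PT.nd (nat_lit 78) (PT.lf (nat_lit 2432) (nat_lit 6) (nat_lit 32) (nat_lit 3) (nat_lit 174) (nat_lit 161) (nat_lit 175)) (PT.lf (nat_lit 2432) (nat_lit 6) (nat_lit 32) (nat_lit 1) (nat_lit 175) (nat_lit 161) (nat_lit 174))) (PT.nd (nat_lit 52884) (PT.lf (nat_lit 2356) (nat_lit 6) (nat_lit 31) (nat_lit 1) (nat_lit 176) (nat_lit 161) (nat_lit 173)) (PT.lf (nat_lit 2508) (nat_lit 6) (nat_lit 33) (nat_lit 3) (nat_lit 173) (nat_lit 162) (nat_lit 175)))) (PT.nd (nat_lit 52962) (PT.nd (nat_lit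 78) (PT.lf (nat_lit 2584) (nat_lit 3) (nat_lit 34) (nat_lit 1) (nat_lit 174) (nat_lit 162) (nat_lit 174)) (PT.lf (nat_lit 2508) (nat_lit 6) (nat_lit 33) (nat_lit 1) (nat_lit 175) (nat_lit 162) (nat_lit 173))) (PT.nd (nat_lit 78) (PT.lf (nat_lit 2660) (nat_lit 6) (nat_lit 35) (nat_lit 3) (nat_lit 172) (nat_lit 163) (nat_lit 175)) (PT.lf (nat_lit 2736) (nat_lit 6) (nat_lit 36) (nat_lit 3) (nat_lit 173) (nat_lit 163) (nat_lit 174))))) (PT.nd (nat_lit 53040) (PT.nd (nat_lit 52884) (PT.nd (nat_lit 78) (PT.lf (nat_lit 2736) (nat_lit 6) (nat_lit 36) (nat_lit 1) (nat_lit 174) (nat_lit 163) (nat_lit 173)) (PT.lf (nat_lit 2660) (nat_lit 6) (nat_lit 35) (nat_lit 1) (nat_lit 175) (nat_lit 163) (nat_lit 172))) (PT.nd (nat_lit 78) (PT.lf (nat_lit 2812) (nat_lit 6) (nat_lit 37) (nat_lit 3) (nat_lit 171) (nat_lit 164) (nat_lit 175)) (PT.lf (nat_lit 2888) (nat_lit 6) (nat_lit 38) (nat_lit 3) (nat_lit 172)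 (nat_lit 164) (nat_lit 174)))) (PT.nd (nat_lit 156) (PT.nd (nat_lit 78) (PT.lf (nat_lit 2964) (nat_lit 3) (nat_lit 39) (nat_lit 1) (nat_lit 173) (nat_lit 164) (nat_lit 173)) (PT.lf (nat_lit 2888) (nat_lit 6) (nat_lit 38) (nat_lit 1) (nat_lit 174) (nat_lit 164) (nat_lit 172))) (PT.nd (nat_lit 52806) (PT.lf (nat_lit 2812) (nat_lit 6) (nat_lit 37) (nat_lit 1) (nat_lit 175) (nat_lit 164) (nat_lit 171)) (PT.nd (nat_lit 78) (PT.lf (nat_lit 3040) (nat_lit 6) (nat_lit 40) (nat_lit 3) (nat_lit 171) (nat_lit 165) (nat_lit 174)) (PT.lf (nat_lit 3116) (nat_lit 6) (nat_lit 41) (nat_lit 3) (nat_lit 172) (nat_lit 165) (nat_lit 173))))))))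
noncomputable def pc2 : PT := (PT.nd (nat_lit 159198) (PT.nd (nat_lit 106002) (PT.nd (nat_lit 53040) (PT.nd (nat_lit 52884) (PT.nd (nat_lit 78) (PT.lf (nat_lit 3116) (nat_lit 6) (nat_lit 41) (nat_lit 1) (nat_lit 173) (nat_lit 165) (nat_lit 172)) (PT.lf (nat_lit 3040) (nat_lit 6) (nat_lit 40) (nat_lit 1) (nat_lit 174) (nat_lit 165) (nat_lit 171))) (PT.nd (nat_lit 78) (PT.lf (nat_lit 3344) (nat_lit 6) (nat_lit 44) (nat_lit 3) (nat_lit 170) (nat_lit 166) (nat_lit 174)) (PT.lf (nat_lit 3420) (nat_lit 6) (nat_lit 45) (nat_lit 3) (nat_lit 171) (nat_lit 166) (nat_lit 173)))) (PT.nd (nat_lit 156) (PT.nd (nat_lit 78) (PT.lf (nat_lit 3496) (nat_lit 3) (nat_lit 46) (nat_lit 1) (nat_lit 172) (nat_lit 166) (nat_lit 172)) (PT.lf (nat_lit 3420) (nat_lit 6) (nat_lit 45) (nat_lit 1) (nat_lit 173) (nat_lit 166) (nat_lit 171))) (PT.nd (nat_lit 52728) (PT.lf (nat_lit 3344) (nat_lit 6) (nat_lit 44) (nat_lit 1)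 (nat_lit 174) (nat_lit 166) (nat_lit 170)) (PT.lf (nat_lit 3268) (nat_lit 6) (nat_lit 43) (nat_lit 3) (nat_lit 169) (nat_lit 167) (nat_lit 174))))) (PT.nd (nat_lit 312) (PT.nd (nat_lit 156) (PT.nd (nat_lit 78) (PT.lf (nat_lit 3648) (nat_lit 6) (nat_lit 48) (nat_lit 3) (nat_lit 170) (nat_lit 167) (nat_lit 173)) (PT.lf (nat_lit 3724) (nat_lit 6) (nat_lit 49) (nat_lit 3) (nat_lit 171) (nat_lit 167) (nat_lit 172))) (PT.nd (nat_lit 78) (PT.lf (nat_lit 3724) (nat_lit 6) (nat_lit 49) (nat_lit 1) (nat_lit 172) (nat_lit 167) (nat_lit 171)) (PT.lf (nat_lit 3648) (nat_lit 6) (nat_lit 48) (nat_lit 1) (nat_lit 173) (nat_lit 167) (nat_lit 170)))) (PT.nd (nat_lit 52728) (PT.nd (nat_lit 52650) (PT.lf (nat_lit 3268) (nat_lit 6) (nat_lit 43) (nat_lit 1) (nat_lit 174) (nat_lit 167) (nat_lit 169)) (PT.lf (nat_lit 3192) (nat_lit 3) (nat_lit 42) (nat_lit 3) (nat_lit 168) (nat_lit 168) (nat_lit 174))) (PT.nd (nat_lit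 78) (PT.lf (nat_lit 3572) (nat_lit 6) (nat_lit 47) (nat_lit 3) (nat_lit 169) (nat_lit 168) (nat_lit 173)) (PT.lf (nat_lit 3876) (nat_lit 6) (nat_lit 51) (nat_lit 3) (nat_lit 170) (nat_lit 168) (nat_lit 172)))))) (PT.nd (nat_lit 53118) (PT.nd (nat_lit 52806) (PT.nd (nat_lit 156) (PT.nd (nat_lit 78) (PT.lf (nat_lit 3952) (nat_lit 3) (nat_lit 52) (nat_lit 1) (nat_lit 171) (nat_lit 168) (nat_lit 171)) (PT.lf (nat_lit 3876) (nat_lit 6) (nat_lit 51) (nat_lit 1) (nat_lit 172) (nat_lit 168) (nat_lit 170))) (PT.nd (nat_lit 78) (PT.lf (nat_lit 3572) (nat_lit 6) (nat_lit 47) (nat_lit 1) (nat_lit 173) (nat_lit 168) (nat_lit 169)) (PT.lf (nat_lit 3192) (nat_lit 3) (nat_lit 42) (nat_lit 0) (nat_lit 174) (nat_lit 168) (nat_lit 168)))) (PT.nd (nat_lit 156) (PT.nd (nat_lit 78) (PT.lf (nat_lit 3268) (nat_lit 6) (nat_lit 43) (nat_lit 5) (nat_lit 167) (nat_lit 169) (nat_lit 174)) (PT.lf (nat_lit 3572) (nat_lit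 6) (nat_lit 47) (nat_lit 5) (nat_lit 168) (nat_lit 169) (nat_lit 173))) (PT.nd (nat_lit 78) (PT.lf (nat_lit 3800) (nat_lit 3) (nat_lit 50) (nat_lit 3) (nat_lit 169) (nat_lit 169) (nat_lit 172)) (PT.lf (nat_lit 4028) (nat_lit 6) (nat_lit 53) (nat_lit 3) (nat_lit 170) (nat_lit 169) (nat_lit 171))))) (PT.nd (nat_lit 52728) (PT.nd (nat_lit 156) (PT.nd (nat_lit 78) (PT.lf (nat_lit 4028) (nat_lit 6) (nat_lit 53) (nat_lit 1) (nat_lit 171) (nat_lit 169) (nat_lit 170)) (PT.lf (nat_lit 3800) (nat_lit 3) (nat_lit 50) (nat_lit 0) (nat_lit 172) (nat_lit 169) (nat_lit 169))) (PT.nd (nat_lit 78) (PT.lf (nat_lit 3572) (nat_lit 6) (nat_lit 47) (nat_lit 0) (nat_lit 173) (nat_lit 169) (nat_lit 168)) (PT.lf (nat_lit 3268) (nat_lit 6) (nat_lit 43) (nat_lit 0) (nat_lit 174) (nat_lit 169) (nat_lit 167)))) (PT.nd (nat_lit 156) (PT.nd (nat_lit 78) (PT.lf (nat_lit 3344) (nat_lit 6) (nat_lit 44) (nat_lit 5) (nat_lit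 166) (nat_lit 170) (nat_lit 174)) (PT.lf (nat_lit 3648) (nat_lit 6) (nat_lit 48) (nat_lit 5) (nat_lit 167) (nat_lit 170) (nat_lit 173))) (PT.nd (nat_lit 78) (PT.lf (nat_lit 3876) (nat_lit 6) (nat_lit 51) (nat_lit 5) (nat_lit 168) (nat_lit 170) (nat_lit 172)) (PT.nd (nat_lit 78) (PT.lf (nat_lit 4028) (nat_lit 6) (nat_lit 53) (nat_lit 5) (nat_lit 169) (nat_lit 170) (nat_lit 171)) (PT.lf (nat_lit 4104) (nat_lit 1) (nat_lit 54) (nat_lit 0) (nat_lit 170) (nat_lit 170) (nat_lit 170))))))))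
noncomputable def pc3 : PT := (PT.nd (nat_lit 105690) (PT.nd (nat_lit 52884) (PT.nd (nat_lit 52572) (PT.nd (nat_lit 156) (PT.nd (nat_lit 78) (PT.lf (nat_lit 4028) (nat_lit 6) (nat_lit 53) (nat_lit 0) (nat_lit 171) (nat_lit 170) (nat_lit 169)) (PT.lf (nat_lit 3876) (nat_lit 6) (nat_lit 51) (nat_lit 0) (nat_lit 172) (nat_lit 170) (nat_lit 168))) (PT.nd (nat_lit 78) (PT.lf (nat_lit 3648) (nat_lit 6) (nat_lit 48) (nat_lit 0) (nat_lit 173) (nat_lit 170) (nat_lit 167)) (PT.lf (nat_lit 3344) (nat_lit 6) (nat_lit 44) (nat_lit 0) (nat_lit 174) (nat_lit 170) (nat_lit 166)))) (PT.nd (nat_lit 156) (PT.nd (nat_lit 78) (PT.lf (nat_lit 2812) (nat_lit 6) (nat_lit 37) (nat_lit 5) (nat_lit 164) (nat_lit 171) (nat_lit 175)) (PT.lf (nat_lit 3040) (nat_lit 6) (nat_lit 40) (nat_lit 5) (nat_lit 165) (nat_lit 171) (nat_lit 174))) (PT.nd (nat_lit 78) (PT.lf (nat_lit 3420) (nat_lit 6) (nat_lit 45) (nat_lit 5) (nat_lit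 166) (nat_lit 171) (nat_lit 173)) (PT.lf (nat_lit 3724) (nat_lit 6) (nat_lit 49) (nat_lit 5) (nat_lit 167) (nat_lit 171) (nat_lit 172))))) (PT.nd (nat_lit 312) (PT.nd (nat_lit 156) (PT.nd (nat_lit 78) (PT.lf (nat_lit 3952) (nat_lit 3) (nat_lit 52) (nat_lit 4) (nat_lit 168) (nat_lit 171) (nat_lit 171)) (PT.lf (nat_lit 4028) (nat_lit 6) (nat_lit 53) (nat_lit 4) (nat_lit 169) (nat_lit 171) (nat_lit 170))) (PT.nd (nat_lit 78) (PT.lf (nat_lit 4028) (nat_lit 6) (nat_lit 53) (nat_lit 2) (nat_lit 170) (nat_lit 171) (nat_lit 169)) (PT.lf (nat_lit 3952) (nat_lit 3) (nat_lit 52) (nat_lit 0) (nat_lit 171) (nat_lit 171) (nat_lit 168)))) (PT.nd (nat_lit 156) (PT.nd (nat_lit 78) (PT.lf (nat_lit 3724) (nat_lit 6) (nat_lit 49) (nat_lit 0) (nat_lit 172) (nat_lit 171) (nat_lit 167)) (PT.lf (nat_lit 3420) (nat_lit 6) (nat_lit 45) (nat_lit 0) (nat_lit 173) (nat_lit 171) (nat_lit 166))) (PT.nd (nat_lit 78) (PT.lf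 (nat_lit 3040) (nat_lit 6) (nat_lit 40) (nat_lit 0) (nat_lit 174) (nat_lit 171) (nat_lit 165)) (PT.nd (nat_lit 52182) (PT.lf (nat_lit 2812) (nat_lit 6) (nat_lit 37) (nat_lit 0) (nat_lit 175) (nat_lit 171) (nat_lit 164)) (PT.lf (nat_lit 2660) (nat_lit 6) (nat_lit 35) (nat_lit 5) (nat_lit 163) (nat_lit 172) (nat_lit 175))))))) (PT.nd (nat_lit 624) (PT.nd (nat_lit 312) (PT.nd (nat_lit 156) (PT.nd (nat_lit 78) (PT.lf (nat_lit 2888) (nat_lit 6) (nat_lit 38) (nat_lit 5) (nat_lit 164) (nat_lit 172) (nat_lit 174)) (PT.lf (nat_lit 3116) (nat_lit 6) (nat_lit 41) (nat_lit 5) (nat_lit 165) (nat_lit 172) (nat_lit 173))) (PT.nd (nat_lit 78) (PT.lf (nat_lit 3496) (nat_lit 3) (nat_lit 46) (nat_lit 4) (nat_lit 166) (nat_lit 172) (nat_lit 172)) (PT.lf (nat_lit 3724) (nat_lit 6) (nat_lit 49) (nat_lit 4) (nat_lit 167) (nat_lit 172) (nat_lit 171)))) (PT.nd (nat_lit 156) (PT.nd (nat_lit 78) (PT.lf (nat_lit 3876)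 (nat_lit 6) (nat_lit 51) (nat_lit 4) (nat_lit 168) (nat_lit 172) (nat_lit 170)) (PT.lf (nat_lit 3800) (nat_lit 3) (nat_lit 50) (nat_lit 2) (nat_lit 169) (nat_lit 172) (nat_lit 169))) (PT.nd (nat_lit 78) (PT.lf (nat_lit 3876) (nat_lit 6) (nat_lit 51) (nat_lit 2) (nat_lit 170) (nat_lit 172) (nat_lit 168)) (PT.lf (nat_lit 3724) (nat_lit 6) (nat_lit 49) (nat_lit 2) (nat_lit 171) (nat_lit 172) (nat_lit 167))))) (PT.nd (nat_lit 52260) (PT.nd (nat_lit 156) (PT.nd (nat_lit 78) (PT.lf (nat_lit 3496) (nat_lit 3) (nat_lit 46) (nat_lit 0) (nat_lit 172) (nat_lit 172) (nat_lit 166)) (PT.lf (nat_lit 3116) (nat_lit 6) (nat_lit 41) (nat_lit 0) (nat_lit 173) (nat_lit 172) (nat_lit 165))) (PT.nd (nat_lit 78) (PT.lf (nat_lit 2888) (nat_lit 6) (nat_lit 38) (nat_lit 0) (nat_lit 174) (nat_lit 172) (nat_lit 164)) (PT.lf (nat_lit 2660) (nat_lit 6) (nat_lit 35) (nat_lit 0) (nat_lit 175) (nat_lit 172) (nat_lit 163))))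 (PT.nd (nat_lit 156) (PT.nd (nat_lit 78) (PT.lf (nat_lit 2356) (nat_lit 6) (nat_lit 31) (nat_lit 5) (nat_lit 161) (nat_lit 173) (nat_lit 176)) (PT.lf (nat_lit 2508) (nat_lit 6) (nat_lit 33) (nat_lit 5) (nat_lit 162) (nat_lit 173) (nat_lit 175))) (PT.nd (nat_lit 78) (PT.lf (nat_lit 2736) (nat_lit 6) (nat_lit 36) (nat_lit 5) (nat_lit 163) (nat_lit 173) (nat_lit 174)) (PT.nd (nat_lit 78) (PT.lf (nat_lit 2964) (nat_lit 3) (nat_lit 39) (nat_lit 4) (nat_lit 164) (nat_lit 173) (nat_lit 173)) (PT.lf (nat_lit 3116) (nat_lit 6) (nat_lit 41) (nat_lit 4) (nat_lit 165) (nat_lit 173) (nat_lit 172))))))))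
noncomputable def pc4 : PT := (PT.nd (nat_lit 53040) (PT.nd (nat_lit 624) (PT.nd (nat_lit 312) (PT.nd (nat_lit 156) (PT.nd (nat_lit 78) (PT.lf (nat_lit 3420) (nat_lit 6) (nat_lit 45) (nat_lit 4) (nat_lit 166) (nat_lit 173) (nat_lit 171)) (PT.lf (nat_lit 3648) (nat_lit 6) (nat_lit 48) (nat_lit 4) (nat_lit 167) (nat_lit 173) (nat_lit 170))) (PT.nd (nat_lit 78) (PT.lf (nat_lit 3572) (nat_lit 6) (nat_lit 47) (nat_lit 4) (nat_lit 168) (nat_lit 173) (nat_lit 169)) (PT.lf (nat_lit 3572) (nat_lit 6) (nat_lit 47) (nat_lit 2) (nat_lit 169) (nat_lit 173) (nat_lit 168)))) (PT.nd (nat_lit 156) (PT.nd (nat_lit 78) (PT.lf (nat_lit 3648) (nat_lit 6) (nat_lit 48) (nat_lit 2) (nat_lit 170) (nat_lit 173) (nat_lit 167)) (PT.lf (nat_lit 3420) (nat_lit 6) (nat_lit 45) (nat_lit 2) (nat_lit 171) (nat_lit 173) (nat_lit 166))) (PT.nd (nat_lit 78) (PT.lf (nat_lit 3116) (nat_lit 6) (nat_lit 41) (nat_lit 2) (nat_lit 172)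 (nat_lit 173) (nat_lit 165)) (PT.lf (nat_lit 2964) (nat_lit 3) (nat_lit 39) (nat_lit 0) (nat_lit 173) (nat_lit 173) (nat_lit 164))))) (PT.nd (nat_lit 52104) (PT.nd (nat_lit 156) (PT.nd (nat_lit 78) (PT.lf (nat_lit 2736) (nat_lit 6) (nat_lit 36) (nat_lit 0) (nat_lit 174) (nat_lit 173) (nat_lit 163)) (PT.lf (nat_lit 2508) (nat_lit 6) (nat_lit 33) (nat_lit 0) (nat_lit 175) (nat_lit 173) (nat_lit 162))) (PT.nd (nat_lit 51870) (PT.lf (nat_lit 2356) (nat_lit 6) (nat_lit 31) (nat_lit 0) (nat_lit 176) (nat_lit 173) (nat_lit 161)) (PT.lf (nat_lit 2204) (nat_lit 6) (nat_lit 29) (nat_lit 5) (nat_lit 160) (nat_lit 174) (nat_lit 176)))) (PT.nd (nat_lit 156) (PT.nd (nat_lit 78) (PT.lf (nat_lit 2432) (nat_lit 6) (nat_lit 32) (nat_lit 5) (nat_lit 161) (nat_lit 174) (nat_lit 175)) (PT.lf (nat_lit 2584) (nat_lit 3) (nat_lit 34) (nat_lit 4) (nat_lit 162) (nat_lit 174) (nat_lit 174))) (PT.nd (nat_lit 78) (PT.lf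 (nat_lit 2736) (nat_lit 6) (nat_lit 36) (nat_lit 4) (nat_lit 163) (nat_lit 174) (nat_lit 173)) (PT.lf (nat_lit 2888) (nat_lit 6) (nat_lit 38) (nat_lit 4) (nat_lit 164) (nat_lit 174) (nat_lit 172)))))) (PT.nd (nat_lit 624) (PT.nd (nat_lit 312) (PT.nd (nat_lit 156) (PT.nd (nat_lit 78) (PT.lf (nat_lit 3040) (nat_lit 6) (nat_lit 40) (nat_lit 4) (nat_lit 165) (nat_lit 174) (nat_lit 171)) (PT.lf (nat_lit 3344) (nat_lit 6) (nat_lit 44) (nat_lit 4) (nat_lit 166) (nat_lit 174) (nat_lit 170))) (PT.nd (nat_lit 78) (PT.lf (nat_lit 3268) (nat_lit 6) (nat_lit 43) (nat_lit 4) (nat_lit 167) (nat_lit 174) (nat_lit 169)) (PT.lf (nat_lit 3192) (nat_lit 3) (nat_lit 42) (nat_lit 2) (nat_lit 168) (nat_lit 174) (nat_lit 168)))) (PT.nd (nat_lit 156) (PT.nd (nat_lit 78) (PT.lf (nat_lit 3268) (nat_lit 6) (nat_lit 43) (nat_lit 2) (nat_lit 169) (nat_lit 174) (nat_lit 167)) (PT.lf (nat_lit 3344) (nat_lit 6) (nat_lit 44)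 (nat_lit 2) (nat_lit 170) (nat_lit 174) (nat_lit 166))) (PT.nd (nat_lit 78) (PT.lf (nat_lit 3040) (nat_lit 6) (nat_lit 40) (nat_lit 2) (nat_lit 171) (nat_lit 174) (nat_lit 165)) (PT.lf (nat_lit 2888) (nat_lit 6) (nat_lit 38) (nat_lit 2) (nat_lit 172) (nat_lit 174) (nat_lit 164))))) (PT.nd (nat_lit 51948) (PT.nd (nat_lit 156) (PT.nd (nat_lit 78) (PT.lf (nat_lit 2736) (nat_lit 6) (nat_lit 36) (nat_lit 2) (nat_lit 173) (nat_lit 174) (nat_lit 163)) (PT.lf (nat_lit 2584) (nat_lit 3) (nat_lit 34) (nat_lit 0) (nat_lit 174) (nat_lit 174) (nat_lit 162))) (PT.nd (nat_lit 78) (PT.lf (nat_lit 2432) (nat_lit 6) (nat_lit 32) (nat_lit 0) (nat_lit 175) (nat_lit 174) (nat_lit 161)) (PT.lf (nat_lit 2204) (nat_lit 6) (nat_lit 29) (nat_lit 0) (nat_lit 176) (nat_lit 174) (nat_lit 160)))) (PT.nd (nat_lit 156) (PT.nd (nat_lit 78) (PT.lf (nat_lit 1976) (nat_lit 6) (nat_lit 26) (nat_lit 5) (nat_lit 158) (nat_lit 175)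 (nat_lit 177)) (PT.lf (nat_lit 2128) (nat_lit 6) (nat_lit 28) (nat_lit 5) (nat_lit 159) (nat_lit 175) (nat_lit 176))) (PT.nd (nat_lit 78) (PT.lf (nat_lit 2280) (nat_lit 3) (nat_lit 30) (nat_lit 4) (nat_lit 160) (nat_lit 175) (nat_lit 175)) (PT.nd (nat_lit 78) (PT.lf (nat_lit 2432) (nat_lit 6) (nat_lit 32) (nat_lit 4) (nat_lit 161) (nat_lit 175) (nat_lit 174)) (PT.lf (nat_lit 2508) (nat_lit 6) (nat_lit 33) (nat_lit 4) (nat_lit 162) (nat_lit 175) (nat_lit 173))))))))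
noncomputable def pc5 : PT := (PT.nd (nat_lit 54054) (PT.nd (nat_lit 1092) (PT.nd (nat_lit 780) (PT.nd (nat_lit 624) (PT.nd (nat_lit 78) (PT.lf (nat_lit 2660) (nat_lit 6) (nat_lit 35) (nat_lit 4) (nat_lit 163) (nat_lit 175) (nat_lit 172)) (PT.lf (nat_lit 2812) (nat_lit 6) (nat_lit 37) (nat_lit 4) (nat_lit 164) (nat_lit 175) (nat_lit 171))) (PT.nd (nat_lit 78) (PT.lf (nat_lit 2812) (nat_lit 6) (nat_lit 37) (nat_lit 2) (nat_lit 171) (nat_lit 175) (nat_lit 164)) (PT.lf (nat_lit 2660) (nat_lit 6) (nat_lit 35) (nat_lit 2) (nat_lit 172) (nat_lit 175) (nat_lit 163)))) (PT.nd (nat_lit 156) (PT.nd (nat_lit 78) (PT.lf (nat_lit 2508) (nat_lit 6) (nat_lit 33) (nat_lit 2) (nat_lit 173) (nat_lit 175) (nat_lit 162)) (PT.lf (nat_lit 2432) (nat_lit 6) (nat_lit 32) (nat_lit 2) (nat_lit 174) (nat_lit 175) (nat_lit 161))) (PT.nd (nat_lit 78) (PT.lf (nat_lit 2280) (nat_lit 3) (nat_lit 30) (nat_lit 0) (nat_lit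 175) (nat_lit 175) (nat_lit 160)) (PT.lf (nat_lit 2128) (nat_lit 6) (nat_lit 28) (nat_lit 0) (nat_lit 176) (nat_lit 175) (nat_lit 159))))) (PT.nd (nat_lit 51714) (PT.nd (nat_lit 51558) (PT.nd (nat_lit 51480) (PT.lf (nat_lit 1976) (nat_lit 6) (nat_lit 26) (nat_lit 0) (nat_lit 177) (nat_lit 175) (nat_lit 158)) (PT.lf (nat_lit 1748) (nat_lit 6) (nat_lit 23) (nat_lit 5) (nat_lit 156) (nat_lit 176) (nat_lit 178))) (PT.nd (nat_lit 78) (PT.lf (nat_lit 1900) (nat_lit 6) (nat_lit 25) (nat_lit 5) (nat_lit 157) (nat_lit 176) (nat_lit 177)) (PT.lf (nat_lit 2052) (nat_lit 3) (nat_lit 27) (nat_lit 4) (nat_lit 158) (nat_lit 176) (nat_lit 176)))) (PT.nd (nat_lit 156) (PT.nd (nat_lit 78) (PT.lf (nat_lit 2128) (nat_lit 6) (nat_lit 28) (nat_lit 4) (nat_lit 159) (nat_lit 176) (nat_lit 175)) (PT.lf (nat_lit 2204) (nat_lit 6) (nat_lit 29) (nat_lit 4) (nat_lit 160) (nat_lit 176) (nat_lit 174))) (PT.nd (nat_lit 936)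 (PT.lf (nat_lit 2356) (nat_lit 6) (nat_lit 31) (nat_lit 4) (nat_lit 161) (nat_lit 176) (nat_lit 173)) (PT.nd (nat_lit 78) (PT.lf (nat_lit 2356) (nat_lit 6) (nat_lit 31) (nat_lit 2) (nat_lit 173) (nat_lit 176) (nat_lit 161)) (PT.lf (nat_lit 2204) (nat_lit 6) (nat_lit 29) (nat_lit 2) (nat_lit 174) (nat_lit 176) (nat_lit 160))))))) (PT.nd (nat_lit 51792) (PT.nd (nat_lit 51480) (PT.nd (nat_lit 156) (PT.nd (nat_lit 78) (PT.lf (nat_lit 2128) (nat_lit 6) (nat_lit 28) (nat_lit 2) (nat_lit 175) (nat_lit 176) (nat_lit 159)) (PT.lf (nat_lit 2052) (nat_lit 3) (nat_lit 27) (nat_lit 0) (nat_lit 176) (nat_lit 176) (nat_lit 158))) (PT.nd (nat_lit 78) (PT.lf (nat_lit 1900) (nat_lit 6) (nat_lit 25) (nat_lit 0) (nat_lit 177) (nat_lit 176) (nat_lit 157)) (PT.lf (nat_lit 1748) (nat_lit 6) (nat_lit 23) (nat_lit 0) (nat_lit 178) (nat_lit 176) (nat_lit 156)))) (PT.nd (nat_lit 156) (PT.nd (nat_lit 78) (PT.lf (nat_lit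 1520) (nat_lit 6) (nat_lit 20) (nat_lit 5) (nat_lit 154) (nat_lit 177) (nat_lit 179)) (PT.lf (nat_lit 1672) (nat_lit 6) (nat_lit 22) (nat_lit 5) (nat_lit 155) (nat_lit 177) (nat_lit 178))) (PT.nd (nat_lit 78) (PT.lf (nat_lit 1824) (nat_lit 3) (nat_lit 24) (nat_lit 4) (nat_lit 156) (nat_lit 177) (nat_lit 177)) (PT.lf (nat_lit 1900) (nat_lit 6) (nat_lit 25) (nat_lit 4) (nat_lit 157) (nat_lit 177) (nat_lit 176))))) (PT.nd (nat_lit 1560) (PT.nd (nat_lit 1404) (PT.nd (nat_lit 1326) (PT.lf (nat_lit 1976) (nat_lit 6) (nat_lit 26) (nat_lit 4) (nat_lit 158) (nat_lit 177) (nat_lit 175)) (PT.lf (nat_lit 1976) (nat_lit 6) (nat_lit 26) (nat_lit 2) (nat_lit 175) (nat_lit 177) (nat_lit 158))) (PT.nd (nat_lit 78) (PT.lf (nat_lit 1900) (nat_lit 6) (nat_lit 25) (nat_lit 2) (nat_lit 176) (nat_lit 177) (nat_lit 157)) (PT.lf (nat_lit 1824) (nat_lit 3) (nat_lit 24) (nat_lit 0) (nat_lit 177) (nat_lit 177) (nat_lit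 156)))) (PT.nd (nat_lit 51090) (PT.nd (nat_lit 78) (PT.lf (nat_lit 1672) (nat_lit 6) (nat_lit 22) (nat_lit 0) (nat_lit 178) (nat_lit 177) (nat_lit 155)) (PT.lf (nat_lit 1520) (nat_lit 6) (nat_lit 20) (nat_lit 0) (nat_lit 179) (nat_lit 177) (nat_lit 154))) (PT.nd (nat_lit 78) (PT.lf (nat_lit 1292) (nat_lit 6) (nat_lit 17) (nat_lit 5) (nat_lit 152) (nat_lit 178) (nat_lit 180)) (PT.nd (nat_lit 78) (PT.lf (nat_lit 1444) (nat_lit 6) (nat_lit 19) (nat_lit 5) (nat_lit 153) (nat_lit 178) (nat_lit 179)) (PT.lf (nat_lit 1596) (nat_lit 3) (nat_lit 21) (nat_lit 4) (nat_lit 154) (nat_lit 178) (nat_lit 178))))))))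
noncomputable def pc6 : PT := (PT.nd (nat_lit 55146) (PT.nd (nat_lit 52806) (PT.nd (nat_lit 1794) (PT.nd (nat_lit 1638) (PT.nd (nat_lit 78) (PT.lf (nat_lit 1672) (nat_lit 6) (nat_lit 22) (nat_lit 4) (nat_lit 155) (nat_lit 178) (nat_lit 177)) (PT.lf (nat_lit 1748) (nat_lit 6) (nat_lit 23) (nat_lit 4) (nat_lit 156) (nat_lit 178) (nat_lit 176))) (PT.nd (nat_lit 78) (PT.lf (nat_lit 1748) (nat_lit 6) (nat_lit 23) (nat_lit 2) (nat_lit 176) (nat_lit 178) (nat_lit 156)) (PT.lf (nat_lit 1672) (nat_lit 6) (nat_lit 22) (nat_lit 2) (nat_lit 177) (nat_lit 178) (nat_lit 155)))) (PT.nd (nat_lit 156) (PT.nd (nat_lit 78) (PT.lf (nat_lit 1596) (nat_lit 3) (nat_lit 21) (nat_lit 0) (nat_lit 178) (nat_lit 178) (nat_lit 154)) (PT.lf (nat_lit 1444) (nat_lit 6) (nat_lit 19) (nat_lit 0) (nat_lit 179) (nat_lit 178) (nat_lit 153))) (PT.nd (nat_lit 50778) (PT.lf (nat_lit 1292) (nat_lit 6) (nat_lit 17) (nat_lit 0) (nat_lit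 180) (nat_lit 178) (nat_lit 152)) (PT.lf (nat_lit 1064) (nat_lit 6) (nat_lit 14) (nat_lit 5) (nat_lit 150) (nat_lit 179) (nat_lit 181))))) (PT.nd (nat_lit 2028) (PT.nd (nat_lit 156) (PT.nd (nat_lit 78) (PT.lf (nat_lit 1216) (nat_lit 6) (nat_lit 16) (nat_lit 5) (nat_lit 151) (nat_lit 179) (nat_lit 180)) (PT.lf (nat_lit 1368) (nat_lit 3) (nat_lit 18) (nat_lit 4) (nat_lit 152) (nat_lit 179) (nat_lit 179))) (PT.nd (nat_lit 78) (PT.lf (nat_lit 1444) (nat_lit 6) (nat_lit 19) (nat_lit 4) (nat_lit 153) (nat_lit 179) (nat_lit 178)) (PT.lf (nat_lit 1520) (nat_lit 6) (nat_lit 20) (nat_lit 4) (nat_lit 154) (nat_lit 179) (nat_lit 177)))) (PT.nd (nat_lit 156) (PT.nd (nat_lit 78) (PT.lf (nat_lit 1520) (nat_lit 6) (nat_lit 20) (nat_lit 2) (nat_lit 177) (nat_lit 179) (nat_lit 154)) (PT.lf (nat_lit 1444) (nat_lit 6) (nat_lit 19) (nat_lit 2) (nat_lit 178) (nat_lit 179) (nat_lit 153))) (PT.nd (nat_lit 78) (PT.lf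 (nat_lit 1368) (nat_lit 3) (nat_lit 18) (nat_lit 0) (nat_lit 179) (nat_lit 179) (nat_lit 152)) (PT.lf (nat_lit 1216) (nat_lit 6) (nat_lit 16) (nat_lit 0) (nat_lit 180) (nat_lit 179) (nat_lit 151)))))) (PT.nd (nat_lit 53040) (PT.nd (nat_lit 50778) (PT.nd (nat_lit 50622) (PT.nd (nat_lit 50544) (PT.lf (nat_lit 1064) (nat_lit 6) (nat_lit 14) (nat_lit 0) (nat_lit 181) (nat_lit 179) (nat_lit 150)) (PT.lf (nat_lit 836) (nat_lit 6) (nat_lit 11) (nat_lit 5) (nat_lit 148) (nat_lit 180) (nat_lit 182))) (PT.nd (nat_lit 78) (PT.lf (nat_lit 988) (nat_lit 6) (nat_lit 13) (nat_lit 5) (nat_lit 149) (nat_lit 180) (nat_lit 181)) (PT.lf (nat_lit 1140) (nat_lit 3) (nat_lit 15) (nat_lit 4) (nat_lit 150) (nat_lit 180) (nat_lit 180)))) (PT.nd (nat_lit 2106) (PT.nd (nat_lit 78) (PT.lf (nat_lit 1216) (nat_lit 6) (nat_lit 16) (nat_lit 4) (nat_lit 151) (nat_lit 180) (nat_lit 179)) (PT.lf (nat_lit 1292) (nat_lit 6) (nat_lit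 17) (nat_lit 4) (nat_lit 152) (nat_lit 180) (nat_lit 178))) (PT.nd (nat_lit 78) (PT.lf (nat_lit 1292) (nat_lit 6) (nat_lit 17) (nat_lit 2) (nat_lit 178) (nat_lit 180) (nat_lit 152)) (PT.lf (nat_lit 1216) (nat_lit 6) (nat_lit 16) (nat_lit 2) (nat_lit 179) (nat_lit 180) (nat_lit 151))))) (PT.nd (nat_lit 50544) (PT.nd (nat_lit 156) (PT.nd (nat_lit 78) (PT.lf (nat_lit 1140) (nat_lit 3) (nat_lit 15) (nat_lit 0) (nat_lit 180) (nat_lit 180) (nat_lit 150)) (PT.lf (nat_lit 988) (nat_lit 6) (nat_lit 13) (nat_lit 0) (nat_lit 181) (nat_lit 180) (nat_lit 149))) (PT.nd (nat_lit 50310) (PT.lf (nat_lit 836) (nat_lit 6) (nat_lit 11) (nat_lit 0) (nat_lit 182) (nat_lit 180) (nat_lit 148)) (PT.lf (nat_lit 608) (nat_lit 6) (nat_lit 8) (nat_lit 5) (nat_lit 146) (nat_lit 181) (nat_lit 183)))) (PT.nd (nat_lit 156) (PT.nd (nat_lit 78) (PT.lf (nat_lit 760) (nat_lit 6) (nat_lit 10) (nat_lit 5) (nat_lit 147) (nat_lit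 181) (nat_lit 182)) (PT.lf (nat_lit 912) (nat_lit 3) (nat_lit 12) (nat_lit 4) (nat_lit 148) (nat_lit 181) (nat_lit 181))) (PT.nd (nat_lit 78) (PT.lf (nat_lit 988) (nat_lit 6) (nat_lit 13) (nat_lit 4) (nat_lit 149) (nat_lit 181) (nat_lit 180)) (PT.nd (nat_lit 2262) (PT.lf (nat_lit 1064) (nat_lit 6) (nat_lit 14) (nat_lit 4) (nat_lit 150) (nat_lit 181) (nat_lit 179)) (PT.lf (nat_lit 1064) (nat_lit 6) (nat_lit 14) (nat_lit 2) (nat_lit 179) (nat_lit 181) (nat_lit 150))))))))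
noncomputable def pc7 : PT := (PT.nd (nat_lit 106314) (PT.nd (nat_lit 53118) (PT.nd (nat_lit 50388) (PT.nd (nat_lit 156) (PT.nd (nat_lit 78) (PT.lf (nat_lit 988) (nat_lit 6) (nat_lit 13) (nat_lit 2) (nat_lit 180) (nat_lit 181) (nat_lit 149)) (PT.lf (nat_lit 912) (nat_lit 3) (nat_lit 12) (nat_lit 0) (nat_lit 181) (nat_lit 181) (nat_lit 148))) (PT.nd (nat_lit 78) (PT.lf (nat_lit 760) (nat_lit 6) (nat_lit 10) (nat_lit 0) (nat_lit 182) (nat_lit 181) (nat_lit 147)) (PT.lf (nat_lit 608) (nat_lit 6) (nat_lit 8) (nat_lit 0) (nat_lit 183) (nat_lit 181) (nat_lit 146)))) (PT.nd (nat_lit 156) (PT.nd (nat_lit 78) (PT.lf (nat_lit 532) (nat_lit 6) (nat_lit 7) (nat_lit 5) (nat_lit 145) (nat_lit 182) (nat_lit 183)) (PT.lf (nat_lit 684) (nat_lit 3) (nat_lit 9) (nat_lit 4) (nat_lit 146) (nat_lit 182) (nat_lit 182))) (PT.nd (nat_lit 78) (PT.lf (nat_lit 760) (nat_lit 6) (nat_lit 10) (nat_lit 4) (nat_lit 147) (nat_lit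 182) (nat_lit 181)) (PT.lf (nat_lit 836) (nat_lit 6) (nat_lit 11) (nat_lit 4) (nat_lit 148) (nat_lit 182) (nat_lit 180))))) (PT.nd (nat_lit 50154) (PT.nd (nat_lit 156) (PT.nd (nat_lit 78) (PT.lf (nat_lit 836) (nat_lit 6) (nat_lit 11) (nat_lit 2) (nat_lit 180) (nat_lit 182) (nat_lit 148)) (PT.lf (nat_lit 760) (nat_lit 6) (nat_lit 10) (nat_lit 2) (nat_lit 181) (nat_lit 182) (nat_lit 147))) (PT.nd (nat_lit 78) (PT.lf (nat_lit 684) (nat_lit 3) (nat_lit 9) (nat_lit 0) (nat_lit 182) (nat_lit 182) (nat_lit 146)) (PT.lf (nat_lit 532) (nat_lit 6) (nat_lit 7) (nat_lit 0) (nat_lit 183) (nat_lit 182) (nat_lit 145)))) (PT.nd (nat_lit 156) (PT.nd (nat_lit 78) (PT.lf (nat_lit 228) (nat_lit 6) (nat_lit 3) (nat_lit 5) (nat_lit 142) (nat_lit 183) (nat_lit 185)) (PT.lf (nat_lit 380) (nat_lit 6) (nat_lit 5) (nat_lit 5) (nat_lit 143) (nat_lit 183) (nat_lit 184))) (PT.nd (nat_lit 78) (PT.lf (nat_lit 456) (nat_lit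 3) (nat_lit 6) (nat_lit 4) (nat_lit 144) (nat_lit 183) (nat_lit 183)) (PT.nd (nat_lit 78) (PT.lf (nat_lit 532) (nat_lit 6) (nat_lit 7) (nat_lit 4) (nat_lit 145) (nat_lit 183) (nat_lit 182)) (PT.lf (nat_lit 608) (nat_lit 6) (nat_lit 8) (nat_lit 4) (nat_lit 146) (nat_lit 183) (nat_lit 181))))))) (PT.nd (nat_lit 53274) (PT.nd (nat_lit 312) (PT.nd (nat_lit 156) (PT.nd (nat_lit 78) (PT.lf (nat_lit 608) (nat_lit 6) (nat_lit 8) (nat_lit 2) (nat_lit 181) (nat_lit 183) (nat_lit 146)) (PT.lf (nat_lit 532) (nat_lit 6) (nat_lit 7) (nat_lit 2) (nat_lit 182) (nat_lit 183) (nat_lit 145))) (PT.nd (nat_lit 78) (PT.lf (nat_lit 456) (nat_lit 3) (nat_lit 6) (nat_lit 0) (nat_lit 183) (nat_lit 183) (nat_lit 144)) (PT.lf (nat_lit 380) (nat_lit 6) (nat_lit 5) (nat_lit 0) (nat_lit 184) (nat_lit 183) (nat_lit 143)))) (PT.nd (nat_lit 49764) (PT.nd (nat_lit 49686) (PT.lf (nat_lit 228) (nat_lit 6) (nat_lit 3) (nat_lit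 0) (nat_lit 185) (nat_lit 183) (nat_lit 142)) (PT.lf (nat_lit 152) (nat_lit 6) (nat_lit 2) (nat_lit 5) (nat_lit 141) (nat_lit 184) (nat_lit 185))) (PT.nd (nat_lit 78) (PT.lf (nat_lit 304) (nat_lit 3) (nat_lit 4) (nat_lit 4) (nat_lit 142) (nat_lit 184) (nat_lit 184)) (PT.lf (nat_lit 380) (nat_lit 6) (nat_lit 5) (nat_lit 4) (nat_lit 143) (nat_lit 184) (nat_lit 183))))) (PT.nd (nat_lit 49842) (PT.nd (nat_lit 156) (PT.nd (nat_lit 78) (PT.lf (nat_lit 380) (nat_lit 6) (nat_lit 5) (nat_lit 2) (nat_lit 183) (nat_lit 184) (nat_lit 143)) (PT.lf (nat_lit 304) (nat_lit 3) (nat_lit 4) (nat_lit 0) (nat_lit 184) (nat_lit 184) (nat_lit 142))) (PT.nd (nat_lit 49608) (PT.lf (nat_lit 152) (nat_lit 6) (nat_lit 2) (nat_lit 0) (nat_lit 185) (nat_lit 184) (nat_lit 141)) (PT.lf (nat_lit 76) (nat_lit 3) (nat_lit 1) (nat_lit 4) (nat_lit 140) (nat_lit 185) (nat_lit 185)))) (PT.nd (nat_lit 3276) (PT.nd (nat_lit 78) (PT.lf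 (nat_lit 152) (nat_lit 6) (nat_lit 2) (nat_lit 4) (nat_lit 141) (nat_lit 185) (nat_lit 184)) (PT.lf (nat_lit 228) (nat_lit 6) (nat_lit 3) (nat_lit 4) (nat_lit 142) (nat_lit 185) (nat_lit 183))) (PT.nd (nat_lit 78) (PT.lf (nat_lit 228) (nat_lit 6) (nat_lit 3) (nat_lit 2) (nat_lit 183) (nat_lit 185) (nat_lit 142)) (PT.nd (nat_lit 78) (PT.lf (nat_lit 152) (nat_lit 6) (nat_lit 2) (nat_lit 2) (nat_lit 184) (nat_lit 185) (nat_lit 141)) (PT.lf (nat_lit 76) (nat_lit 3) (nat_lit 1) (nat_lit 0) (nat_lit 185) (nat_lit 185) (nat_lit 140))))))))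
noncomputable def xc0 : XT := (XT.nd (nat_lit 212238) (nat_lit 0) (nat_lit 0) (XT.nd (nat_lit 158964) (nat_lit 0) (nat_lit 0) (XT.nd (nat_lit 106002) (nat_lit 0) (nat_lit 0) (XT.nd (nat_lit 53040) (nat_lit 0) (nat_lit 0) (XT.nd (nat_lit 52962) (nat_lit 0) (nat_lit 0) (XT.lf (nat_lit 0) (nat_lit 36770627879806) (nat_lit 76) (nat_lit 3862997193365) (nat_lit 76) (nat_lit 3862997193365) (nat_lit 1) (nat_lit 4) (nat_lit 2) (nat_lit 5) (nat_lit 2) (nat_lit 4) (nat_lit 428) (nat_lit 296) (nat_lit 296)) (XT.lf (nat_lit 0) (nat_lit 27802458651956) (nat_lit 76) (nat_lit 2921717617474) (nat_lit 76) (nat_lit 2921717617474) (nat_lit 1) (nat_lit 4) (nat_lit 2) (nat_lit 5) (nat_lit 2) (nat_lit 4) (nat_lit 426) (nat_lit 297) (nat_lit 297))) (XT.nd (nat_lit 78) (nat_lit 0) (nat_lit 0) (XT.lf (nat_lit 0) (nat_lit 63947438004340) (nat_lit 76) (nat_lit 6719025435459) (nat_lit 76) (nat_lit 6719023697678) (nat_lit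 1) (nat_lit 4) (nat_lit 2) (nat_lit 5) (nat_lit 2) (nat_lit 4) (nat_lit 427) (nat_lit 297) (nat_lit 296)) (XT.nd (nat_lit 52806) (nat_lit 0) (nat_lit 0) (XT.lf (nat_lit 0) (nat_lit 73541185281161) (nat_lit 76) (nat_lit 7726032610136) (nat_lit 76) (nat_lit 7726029361242) (nat_lit 1) (nat_lit 4) (nat_lit 2) (nat_lit 5) (nat_lit 2) (nat_lit 4) (nat_lit 428) (nat_lit 297) (nat_lit 295)) (XT.lf (nat_lit 0) (nat_lit 21021021468787) (nat_lit 76) (nat_lit 2210085539947) (nat_lit 76) (nat_lit 2210085539947) (nat_lit 1) (nat_lit 4) (nat_lit 2) (nat_lit 5) (nat_lit 2) (nat_lit 4) (nat_lit 424) (nat_lit 298) (nat_lit 298))))) (XT.nd (nat_lit 156) (nat_lit 0) (nat_lit 0) (XT.nd (nat_lit 78) (nat_lit 0) (nat_lit 0) (XT.lf (nat_lit 0) (nat_lit 48350399948780) (nat_lit 76) (nat_lit 5082132894437) (nat_lit 76) (nat_lit 5082130895989) (nat_lit 1) (nat_lit 4) (nat_lit 2) (nat_lit 5) (nat_lit 2) (nat_lit 4) (nat_lit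 425) (nat_lit 298) (nat_lit 297)) (XT.lf (nat_lit 0) (nat_lit 55604836253692) (nat_lit 76) (nat_lit 5843479191864) (nat_lit 76) (nat_lit 5843475455636) (nat_lit 1) (nat_lit 4) (nat_lit 2) (nat_lit 5) (nat_lit 2) (nat_lit 4) (nat_lit 426) (nat_lit 298) (nat_lit 296))) (XT.nd (nat_lit 78) (nat_lit 0) (nat_lit 0) (XT.lf (nat_lit 0) (nat_lit 63947286475668) (nat_lit 76) (nat_lit 6719105877998) (nat_lit 76) (nat_lit 6719100630656) (nat_lit 1) (nat_lit 4) (nat_lit 2) (nat_lit 5) (nat_lit 2) (nat_lit 4) (nat_lit 427) (nat_lit 298) (nat_lit 295)) (XT.nd (nat_lit 52650) (nat_lit 0) (nat_lit 0) (XT.lf (nat_lit 0) (nat_lit 73540972466878) (nat_lit 76) (nat_lit 7726144779305) (nat_lit 76) (nat_lit 7726138217951) (nat_lit 1) (nat_lit 4) (nat_lit 2) (nat_lit 5) (nat_lit 2) (nat_lit 4) (nat_lit 428) (nat_lit 298) (nat_lit 294)) (XT.lf (nat_lit 0) (nat_lit 15893035951138) (nat_lit 76) (nat_lit 1672116540960)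 (nat_lit 76) (nat_lit 1672116540960) (nat_lit 1) (nat_lit 4) (nat_lit 2) (nat_lit 5) (nat_lit 2) (nat_lit 4) (nat_lit 422) (nat_lit 299) (nat_lit 299)))))) (XT.nd (nat_lit 390) (nat_lit 0) (nat_lit 0) (XT.nd (nat_lit 156) (nat_lit 0) (nat_lit 0) (XT.nd (nat_lit 78) (nat_lit 0) (nat_lit 0) (XT.lf (nat_lit 0) (nat_lit 36556340843772) (nat_lit 76) (nat_lit 3844644619649) (nat_lit 76) (nat_lit 3844642321434) (nat_lit 1) (nat_lit 4) (nat_lit 2) (nat_lit 5) (nat_lit 2) (nat_lit 4) (nat_lit 423) (nat_lit 299) (nat_lit 298)) (XT.lf (nat_lit 0) (nat_lit 42041949729822) (nat_lit 76) (nat_lit 4420221630348) (nat_lit 76) (nat_lit 4420217333685) (nat_lit 1) (nat_lit 4) (nat_lit 2) (nat_lit 5) (nat_lit 2) (nat_lit 4) (nat_lit 424) (nat_lit 299) (nat_lit 297))) (XT.nd (nat_lit 78) (nat_lit 0) (nat_lit 0) (XT.lf (nat_lit 0) (nat_lit 48350225690806) (nat_lit 76) (nat_lit 5082225403357) (nat_lit 76) (nat_lit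 5082219368914) (nat_lit 1) (nat_lit 4) (nat_lit 2) (nat_lit 5) (nat_lit 2) (nat_lit 4) (nat_lit 425) (nat_lit 299) (nat_lit 296)) (XT.nd (nat_lit 78) (nat_lit 0) (nat_lit 0) (XT.lf (nat_lit 0) (nat_lit 55604591517266) (nat_lit 76) (nat_lit 5843608186408) (nat_lit 76) (nat_lit 5843600640852) (nat_lit 1) (nat_lit 4) (nat_lit 2) (nat_lit 5) (nat_lit 2) (nat_lit 4) (nat_lit 426) (nat_lit 299) (nat_lit 295)) (XT.lf (nat_lit 0) (nat_lit 63946980453632) (nat_lit 76) (nat_lit 6719266599171) (nat_lit 76) (nat_lit 6719257739603) (nat_lit 1) (nat_lit 4) (nat_lit 2) (nat_lit 5) (nat_lit 2) (nat_lit 4) (nat_lit 427) (nat_lit 299) (nat_lit 294))))) (XT.nd (nat_lit 52650) (nat_lit 0) (nat_lit 0) (XT.nd (nat_lit 52494) (nat_lit 0) (nat_lit 0) (XT.lf (nat_lit 0) (nat_lit 73540613153006) (nat_lit 76) (nat_lit 7726333088851) (nat_lit 76) (nat_lit 7726323086664) (nat_lit 1) (nat_lit 4) (nat_lit 2) (nat_lit 5)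 (nat_lit 2) (nat_lit 4) (nat_lit 428) (nat_lit 299) (nat_lit 293)) (XT.nd (nat_lit 78) (nat_lit 0) (nat_lit 0) (XT.lf (nat_lit 0) (nat_lit 12015260729089) (nat_lit 76) (nat_lit 1265480842535) (nat_lit 76) (nat_lit 1265480842535) (nat_lit 1) (nat_lit 4) (nat_lit 2) (nat_lit 5) (nat_lit 2) (nat_lit 4) (nat_lit 420) (nat_lit 300) (nat_lit 300)) (XT.lf (nat_lit 0) (nat_lit 27637811556482) (nat_lit 76) (nat_lit 2909198999588) (nat_lit 76) (nat_lit 2909196356641) (nat_lit 1) (nat_lit 4) (nat_lit 2) (nat_lit 5) (nat_lit 2) (nat_lit 4) (nat_lit 421) (nat_lit 300) (nat_lit 299)))) (XT.nd (nat_lit 78) (nat_lit 0) (nat_lit 0) (XT.lf (nat_lit 0) (nat_lit 31785964713361) (nat_lit 76) (nat_lit 3344291214941) (nat_lit 76) (nat_lit 3344286273779) (nat_lit 1) (nat_lit 4) (nat_lit 2) (nat_lit 5) (nat_lit 2) (nat_lit 4) (nat_lit 422) (nat_lit 300) (nat_lit 298)) (XT.nd (nat_lit 78) (nat_lit 0) (nat_lit 0) (XT.lf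 (nat_lit 0) (nat_lit 36556140447103) (nat_lit 76) (nat_lit 3844751004907) (nat_lit 76) (nat_lit 3844744065297) (nat_lit 1) (nat_lit 4) (nat_lit 2) (nat_lit 5) (nat_lit 2) (nat_lit 4) (nat_lit 423) (nat_lit 300) (nat_lit 297)) (XT.lf (nat_lit 0) (nat_lit 42041668282933) (nat_lit 76) (nat_lit 4420369974073) (nat_lit 76) (nat_lit 4420361296683) (nat_lit 1) (nat_lit 4) (nat_lit 2) (nat_lit 5) (nat_lit 2) (nat_lit 4) (nat_lit 424) (nat_lit 300) (nat_lit 296))))))) (XT.nd (nat_lit 53040) (nat_lit 0) (nat_lit 0) (XT.nd (nat_lit 52650) (nat_lit 0) (nat_lit 0) (XT.nd (nat_lit 156) (nat_lit 0) (nat_lit 0) (XT.nd (nat_lit 78) (nat_lit 0) (nat_lit 0) (XT.lf (nat_lit 0) (nat_lit 48349873765465) (nat_lit 76) (nat_lit 5082410232706) (nat_lit 76) (nat_lit 5082400044202) (nat_lit 1) (nat_lit 4) (nat_lit 2) (nat_lit 5) (nat_lit 2) (nat_lit 4) (nat_lit 425) (nat_lit 300) (nat_lit 295)) (XT.lf (nat_lit 0) (nat_lit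 55604178306314) (nat_lit 76) (nat_lit 5843824742387) (nat_lit 76) (nat_lit 5843813239872) (nat_lit 1) (nat_lit 4) (nat_lit 2) (nat_lit 5) (nat_lit 2) (nat_lit 4) (nat_lit 426) (nat_lit 300) (nat_lit 294))) (XT.nd (nat_lit 78) (nat_lit 0) (nat_lit 0) (XT.lf (nat_lit 0) (nat_lit 63946513950845) (nat_lit 76) (nat_lit 6719510743523) (nat_lit 76) (nat_lit 6719498098389) (nat_lit 1) (nat_lit 4) (nat_lit 2) (nat_lit 5) (nat_lit 2) (nat_lit 4) (nat_lit 427) (nat_lit 300) (nat_lit 293)) (XT.nd (nat_lit 52338) (nat_lit 0) (nat_lit 0) (XT.lf (nat_lit 0) (nat_lit 73540100309493) (nat_lit 76) (nat_lit 7726601223094) (nat_lit 76) (nat_lit 7726587584378) (nat_lit 1) (nat_lit 4) (nat_lit 2) (nat_lit 5) (nat_lit 2) (nat_lit 4) (nat_lit 428) (nat_lit 300) (nat_lit 292)) (XT.lf (nat_lit 0) (nat_lit 9082781887814) (nat_lit 76) (nat_lit 958173910640) (nat_lit 76) (nat_lit 958173910640) (nat_lit 1) (nat_lit 4)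 (nat_lit 2) (nat_lit 5) (nat_lit 2) (nat_lit 4) (nat_lit 418) (nat_lit 301) (nat_lit 301))))) (XT.nd (nat_lit 156) (nat_lit 0) (nat_lit 0) (XT.nd (nat_lit 78) (nat_lit 0) (nat_lit 0) (XT.lf (nat_lit 0) (nat_lit 20893517003485) (nat_lit 76) (nat_lit 2202182015494) (nat_lit 76) (nat_lit 2202178976105) (nat_lit 1) (nat_lit 4) (nat_lit 2) (nat_lit 5) (nat_lit 2) (nat_lit 4) (nat_lit 419) (nat_lit 301) (nat_lit 300)) (XT.lf (nat_lit 0) (nat_lit 24030398190925) (nat_lit 76) (nat_lit 2531028538044) (nat_lit 76) (nat_lit 2531022855708) (nat_lit 1) (nat_lit 4) (nat_lit 2) (nat_lit 5) (nat_lit 2) (nat_lit 4) (nat_lit 420) (nat_lit 301) (nat_lit 299))) (XT.nd (nat_lit 78) (nat_lit 0) (nat_lit 0) (XT.lf (nat_lit 0) (nat_lit 27637581100312) (nat_lit 76) (nat_lit 2909321342635) (nat_lit 76) (nat_lit 2909313362084) (nat_lit 1) (nat_lit 4) (nat_lit 2) (nat_lit 5) (nat_lit 2) (nat_lit 4) (nat_lit 421) (nat_lit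 301) (nat_lit 298)) (XT.nd (nat_lit 78) (nat_lit 0) (nat_lit 0) (XT.lf (nat_lit 0) (nat_lit 31785641049438) (nat_lit 76) (nat_lit 3344461810225) (nat_lit 76) (nat_lit 3344451831226) (nat_lit 1) (nat_lit 4) (nat_lit 2) (nat_lit 5) (nat_lit 2) (nat_lit 4) (nat_lit 422) (nat_lit 301) (nat_lit 297)) (XT.lf (nat_lit 0) (nat_lit 36555735732960) (nat_lit 76) (nat_lit 3844963558659) (nat_lit 76) (nat_lit 3844951841880) (nat_lit 1) (nat_lit 4) (nat_lit 2) (nat_lit 5) (nat_lit 2) (nat_lit 4) (nat_lit 423) (nat_lit 301) (nat_lit 296)))))) (XT.nd (nat_lit 52494) (nat_lit 0) (nat_lit 0) (XT.nd (nat_lit 156) (nat_lit 0) (nat_lit 0) (XT.nd (nat_lit 78) (nat_lit 0) (nat_lit 0) (XT.lf (nat_lit 0) (nat_lit 42041193090338) (nat_lit 76) (nat_lit 4420619013449) (nat_lit 76) (nat_lit 4420605785556) (nat_lit 1) (nat_lit 4) (nat_lit 2) (nat_lit 5) (nat_lit 2) (nat_lit 4) (nat_lit 424) (nat_lit 301) (nat_lit 295))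 (XT.lf (nat_lit 0) (nat_lit 48349337287259) (nat_lit 76) (nat_lit 5082690998711) (nat_lit 76) (nat_lit 5082676456807) (nat_lit 1) (nat_lit 4) (nat_lit 2) (nat_lit 5) (nat_lit 2) (nat_lit 4) (nat_lit 425) (nat_lit 301) (nat_lit 294))) (XT.nd (nat_lit 78) (nat_lit 0) (nat_lit 0) (XT.lf (nat_lit 0) (nat_lit 55603588536273) (nat_lit 76) (nat_lit 5844133096766) (nat_lit 76) (nat_lit 5844117412243) (nat_lit 1) (nat_lit 4) (nat_lit 2) (nat_lit 5) (nat_lit 2) (nat_lit 4) (nat_lit 426) (nat_lit 301) (nat_lit 293)) (XT.nd (nat_lit 78) (nat_lit 0) (nat_lit 0) (XT.lf (nat_lit 0) (nat_lit 63945877840077) (nat_lit 76) (nat_lit 6719843087792) (nat_lit 76) (nat_lit 6719826409687) (nat_lit 1) (nat_lit 4) (nat_lit 2) (nat_lit 5) (nat_lit 2) (nat_lit 4) (nat_lit 427) (nat_lit 301) (nat_lit 292)) (XT.lf (nat_lit 0) (nat_lit 73539423902442) (nat_lit 76) (nat_lit 7726954428136) (nat_lit 76) (nat_lit 7726936886047)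 (nat_lit 1) (nat_lit 4) (nat_lit 2) (nat_lit 5) (nat_lit 2) (nat_lit 4) (nat_lit 428) (nat_lit 301) (nat_lit 291))))) (XT.nd (nat_lit 234) (nat_lit 0) (nat_lit 0) (XT.nd (nat_lit 78) (nat_lit 0) (nat_lit 0) (XT.lf (nat_lit 0) (nat_lit 6865034368990) (nat_lit 76) (nat_lit 725999007993) (nat_lit 76) (nat_lit 725999007993) (nat_lit 1) (nat_lit 4) (nat_lit 2) (nat_lit 5) (nat_lit 2) (nat_lit 4) (nat_lit 416) (nat_lit 302) (nat_lit 302)) (XT.nd (nat_lit 78) (nat_lit 0) (nat_lit 0) (XT.lf (nat_lit 0) (nat_lit 15793165509418) (nat_lit 76) (nat_lit 1667937042557) (nat_lit 76) (nat_lit 1667933547259) (nat_lit 1) (nat_lit 4) (nat_lit 2) (nat_lit 5) (nat_lit 2) (nat_lit 4) (nat_lit 417) (nat_lit 302) (nat_lit 301)) (XT.lf (nat_lit 0) (nat_lit 18165422018286) (nat_lit 76) (nat_lit 1916424702201) (nat_lit 76) (nat_lit 1916418167514) (nat_lit 1) (nat_lit 4) (nat_lit 2) (nat_lit 5) (nat_lit 2) (nat_lit 4)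 (nat_lit 418) (nat_lit 302) (nat_lit 300)))) (XT.nd (nat_lit 78) (nat_lit 0) (nat_lit 0) (XT.lf (nat_lit 0) (nat_lit 20893251978890) (nat_lit 76) (nat_lit 2202322709997) (nat_lit 76) (nat_lit 2202313532364) (nat_lit 1) (nat_lit 4) (nat_lit 2) (nat_lit 5) (nat_lit 2) (nat_lit 4) (nat_lit 419) (nat_lit 302) (nat_lit 299)) (XT.nd (nat_lit 78) (nat_lit 0) (nat_lit 0) (XT.lf (nat_lit 0) (nat_lit 24030025977414) (nat_lit 76) (nat_lit 2531224722621) (nat_lit 76) (nat_lit 2531213246773) (nat_lit 1) (nat_lit 4) (nat_lit 2) (nat_lit 5) (nat_lit 2) (nat_lit 4) (nat_lit 420) (nat_lit 302) (nat_lit 298)) (XT.lf (nat_lit 0) (nat_lit 27637115679048) (nat_lit 76) (nat_lit 2909565779449) (nat_lit 76) (nat_lit 2909552305153) (nat_lit 1) (nat_lit 4) (nat_lit 2) (nat_lit 5) (nat_lit 2) (nat_lit 4) (nat_lit 421) (nat_lit 302) (nat_lit 297))))))))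
noncomputable def xc1 : XT := (XT.nd (nat_lit 53586) (nat_lit 0) (nat_lit 0) (XT.nd (nat_lit 52728) (nat_lit 0) (nat_lit 0) (XT.nd (nat_lit 390) (nat_lit 0) (nat_lit 0) (XT.nd (nat_lit 156) (nat_lit 0) (nat_lit 0) (XT.nd (nat_lit 78) (nat_lit 0) (nat_lit 0) (XT.lf (nat_lit 0) (nat_lit 31785094577954) (nat_lit 76) (nat_lit 3344748205507) (nat_lit 76) (nat_lit 3344732993430) (nat_lit 1) (nat_lit 4) (nat_lit 2) (nat_lit 5) (nat_lit 2) (nat_lit 4) (nat_lit 422) (nat_lit 302) (nat_lit 296)) (XT.lf (nat_lit 0) (nat_lit 36555118783024) (nat_lit 76) (nat_lit 3845286439565) (nat_lit 76) (nat_lit 3845269716375) (nat_lit 1) (nat_lit 4) (nat_lit 2) (nat_lit 5) (nat_lit 2) (nat_lit 4) (nat_lit 423) (nat_lit 302) (nat_lit 295))) (XT.nd (nat_lit 78) (nat_lit 0) (nat_lit 0) (XT.lf (nat_lit 0) (nat_lit 42040514854791) (nat_lit 76) (nat_lit 4420973620984) (nat_lit 76) (nat_lit 4420955583783) (nat_lit 1) (nat_lit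 4) (nat_lit 2) (nat_lit 5) (nat_lit 2) (nat_lit 4) (nat_lit 424) (nat_lit 302) (nat_lit 294)) (XT.nd (nat_lit 78) (nat_lit 0) (nat_lit 0) (XT.lf (nat_lit 0) (nat_lit 48348605759877) (nat_lit 76) (nat_lit 5083073194620) (nat_lit 76) (nat_lit 5083054014800) (nat_lit 1) (nat_lit 4) (nat_lit 2) (nat_lit 5) (nat_lit 2) (nat_lit 4) (nat_lit 425) (nat_lit 302) (nat_lit 293)) (XT.lf (nat_lit 0) (nat_lit 55602810668164) (nat_lit 76) (nat_lit 5844539282565) (nat_lit 76) (nat_lit 5844519109162) (nat_lit 1) (nat_lit 4) (nat_lit 2) (nat_lit 5) (nat_lit 2) (nat_lit 4) (nat_lit 426) (nat_lit 302) (nat_lit 292))))) (XT.nd (nat_lit 52104) (nat_lit 0) (nat_lit 0) (XT.nd (nat_lit 78) (nat_lit 0) (nat_lit 0) (XT.lf (nat_lit 0) (nat_lit 63945059675685) (nat_lit 76) (nat_lit 6720270134365) (nat_lit 76) (nat_lit 6720249096979) (nat_lit 1) (nat_lit 4) (nat_lit 2) (nat_lit 5) (nat_lit 2) (nat_lit 4) (nat_lit 427)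 (nat_lit 302) (nat_lit 291)) (XT.lf (nat_lit 0) (nat_lit 73538570697802) (nat_lit 76) (nat_lit 7727399614513) (nat_lit 76) (nat_lit 7727377825836) (nat_lit 1) (nat_lit 4) (nat_lit 2) (nat_lit 5) (nat_lit 2) (nat_lit 4) (nat_lit 428) (nat_lit 302) (nat_lit 290))) (XT.nd (nat_lit 78) (nat_lit 0) (nat_lit 0) (XT.lf (nat_lit 0) (nat_lit 5187670581431) (nat_lit 76) (nat_lit 550663706644) (nat_lit 76) (nat_lit 550663706644) (nat_lit 1) (nat_lit 4) (nat_lit 2) (nat_lit 5) (nat_lit 2) (nat_lit 4) (nat_lit 414) (nat_lit 303) (nat_lit 303)) (XT.nd (nat_lit 78) (nat_lit 0) (nat_lit 0) (XT.lf (nat_lit 0) (nat_lit 11935766767143) (nat_lit 76) (nat_lit 1264386748081) (nat_lit 76) (nat_lit 1264382728489) (nat_lit 1) (nat_lit 4) (nat_lit 2) (nat_lit 5) (nat_lit 2) (nat_lit 4) (nat_lit 415) (nat_lit 303) (nat_lit 302)) (XT.lf (nat_lit 0) (nat_lit 13729905717038) (nat_lit 76) (nat_lit 1452086429043) (nat_lit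 76) (nat_lit 1452078914153) (nat_lit 1) (nat_lit 4) (nat_lit 2) (nat_lit 5) (nat_lit 2) (nat_lit 4) (nat_lit 416) (nat_lit 303) (nat_lit 301)))))) (XT.nd (nat_lit 390) (nat_lit 0) (nat_lit 0) (XT.nd (nat_lit 156) (nat_lit 0) (nat_lit 0) (XT.nd (nat_lit 78) (nat_lit 0) (nat_lit 0) (XT.lf (nat_lit 0) (nat_lit 15792860731134) (nat_lit 76) (nat_lit 1668098841236) (nat_lit 76) (nat_lit 1668088286957) (nat_lit 1) (nat_lit 4) (nat_lit 2) (nat_lit 5) (nat_lit 2) (nat_lit 4) (nat_lit 417) (nat_lit 303) (nat_lit 300)) (XT.lf (nat_lit 0) (nat_lit 18164993972748) (nat_lit 76) (nat_lit 1916650314464) (nat_lit 76) (nat_lit 1916637117238) (nat_lit 1) (nat_lit 4) (nat_lit 2) (nat_lit 5) (nat_lit 2) (nat_lit 4) (nat_lit 418) (nat_lit 303) (nat_lit 299))) (XT.nd (nat_lit 78) (nat_lit 0) (nat_lit 0) (XT.lf (nat_lit 0) (nat_lit 20892716744436) (nat_lit 76) (nat_lit 2202603812334) (nat_lit 76) (nat_lit 2202588316894)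 (nat_lit 1) (nat_lit 4) (nat_lit 2) (nat_lit 5) (nat_lit 2) (nat_lit 4) (nat_lit 419) (nat_lit 303) (nat_lit 298)) (XT.nd (nat_lit 78) (nat_lit 0) (nat_lit 0) (XT.lf (nat_lit 0) (nat_lit 24029397535207) (nat_lit 76) (nat_lit 2531554077195) (nat_lit 76) (nat_lit 2531536583307) (nat_lit 1) (nat_lit 4) (nat_lit 2) (nat_lit 5) (nat_lit 2) (nat_lit 4) (nat_lit 420) (nat_lit 303) (nat_lit 297)) (XT.lf (nat_lit 0) (nat_lit 27636406186621) (nat_lit 76) (nat_lit 2909937092491) (nat_lit 76) (nat_lit 2909917860823) (nat_lit 1) (nat_lit 4) (nat_lit 2) (nat_lit 5) (nat_lit 2) (nat_lit 4) (nat_lit 421) (nat_lit 303) (nat_lit 296))))) (XT.nd (nat_lit 234) (nat_lit 0) (nat_lit 0) (XT.nd (nat_lit 78) (nat_lit 0) (nat_lit 0) (XT.lf (nat_lit 0) (nat_lit 31784314607075) (nat_lit 76) (nat_lit 3345156004173) (nat_lit 76) (nat_lit 3345135261391) (nat_lit 1) (nat_lit 4) (nat_lit 2) (nat_lit 5) (nat_lit 2) (nat_lit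 4) (nat_lit 422) (nat_lit 303) (nat_lit 295)) (XT.nd (nat_lit 78) (nat_lit 0) (nat_lit 0) (XT.lf (nat_lit 0) (nat_lit 36554277526534) (nat_lit 76) (nat_lit 3845725964860) (nat_lit 76) (nat_lit 3845703908066) (nat_lit 1) (nat_lit 4) (nat_lit 2) (nat_lit 5) (nat_lit 2) (nat_lit 4) (nat_lit 423) (nat_lit 303) (nat_lit 294)) (XT.lf (nat_lit 0) (nat_lit 42039620306466) (nat_lit 76) (nat_lit 4421440734653) (nat_lit 76) (nat_lit 4421417535241) (nat_lit 1) (nat_lit 4) (nat_lit 2) (nat_lit 5) (nat_lit 2) (nat_lit 4) (nat_lit 424) (nat_lit 303) (nat_lit 293)))) (XT.nd (nat_lit 78) (nat_lit 0) (nat_lit 0) (XT.lf (nat_lit 0) (nat_lit 48347664870825) (nat_lit 76) (nat_lit 5083564298179) (nat_lit 76) (nat_lit 5083540105185) (nat_lit 1) (nat_lit 4) (nat_lit 2) (nat_lit 5) (nat_lit 2) (nat_lit 4) (nat_lit 425) (nat_lit 303) (nat_lit 292)) (XT.nd (nat_lit 78) (nat_lit 0) (nat_lit 0) (XT.lf (nat_lit 0) (nat_lit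 55601829482829) (nat_lit 76) (nat_lit 5845051246898) (nat_lit 76) (nat_lit 5845026189919) (nat_lit 1) (nat_lit 4) (nat_lit 2) (nat_lit 5) (nat_lit 2) (nat_lit 4) (nat_lit 426) (nat_lit 303) (nat_lit 291)) (XT.lf (nat_lit 0) (nat_lit 63944043450102) (nat_lit 76) (nat_lit 6720800238501) (nat_lit 76) (nat_lit 6720774430232) (nat_lit 1) (nat_lit 4) (nat_lit 2) (nat_lit 5) (nat_lit 2) (nat_lit 4) (nat_lit 427) (nat_lit 303) (nat_lit 290))))))) (XT.nd (nat_lit 52572) (nat_lit 0) (nat_lit 0) (XT.nd (nat_lit 52182) (nat_lit 0) (nat_lit 0) (XT.nd (nat_lit 51948) (nat_lit 0) (nat_lit 0) (XT.nd (nat_lit 51870) (nat_lit 0) (nat_lit 0) (XT.lf (nat_lit 0) (nat_lit 73537524002440) (nat_lit 76) (nat_lit 7727945492391) (nat_lit 76) (nat_lit 7727919030826) (nat_lit 1) (nat_lit 4) (nat_lit 2) (nat_lit 5) (nat_lit 2) (nat_lit 4) (nat_lit 428) (nat_lit 303) (nat_lit 289)) (XT.lf (nat_lit 0) (nat_lit 3918850323347)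 (nat_lit 76) (nat_lit 418340652019) (nat_lit 76) (nat_lit 418340652019) (nat_lit 1) (nat_lit 4) (nat_lit 2) (nat_lit 5) (nat_lit 2) (nat_lit 4) (nat_lit 412) (nat_lit 304) (nat_lit 304))) (XT.nd (nat_lit 78) (nat_lit 0) (nat_lit 0) (XT.lf (nat_lit 0) (nat_lit 9018098838027) (nat_lit 76) (nat_lit 959722755863) (nat_lit 76) (nat_lit 959718133333) (nat_lit 1) (nat_lit 4) (nat_lit 2) (nat_lit 5) (nat_lit 2) (nat_lit 4) (nat_lit 413) (nat_lit 304) (nat_lit 303)) (XT.nd (nat_lit 78) (nat_lit 0) (nat_lit 0) (XT.lf (nat_lit 0) (nat_lit 10375153688779) (nat_lit 76) (nat_lit 1101429088305) (nat_lit 76) (nat_lit 1101420446182) (nat_lit 1) (nat_lit 4) (nat_lit 2) (nat_lit 5) (nat_lit 2) (nat_lit 4) (nat_lit 414) (nat_lit 304) (nat_lit 302)) (XT.lf (nat_lit 0) (nat_lit 11935416272116) (nat_lit 76) (nat_lit 1264572816562) (nat_lit 76) (nat_lit 1264560679142) (nat_lit 1) (nat_lit 4) (nat_lit 2) (nat_lit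 5) (nat_lit 2) (nat_lit 4) (nat_lit 415) (nat_lit 304) (nat_lit 301))))) (XT.nd (nat_lit 156) (nat_lit 0) (nat_lit 0) (XT.nd (nat_lit 78) (nat_lit 0) (nat_lit 0) (XT.lf (nat_lit 0) (nat_lit 13729413464670) (nat_lit 76) (nat_lit 1452345883146) (nat_lit 76) (nat_lit 1452330706337) (nat_lit 1) (nat_lit 4) (nat_lit 2) (nat_lit 5) (nat_lit 2) (nat_lit 4) (nat_lit 416) (nat_lit 304) (nat_lit 300)) (XT.lf (nat_lit 0) (nat_lit 15792245211512) (nat_lit 76) (nat_lit 1668422108923) (nat_lit 76) (nat_lit 1668404289167) (nat_lit 1) (nat_lit 4) (nat_lit 2) (nat_lit 5) (nat_lit 2) (nat_lit 4) (nat_lit 417) (nat_lit 304) (nat_lit 299))) (XT.nd (nat_lit 78) (nat_lit 0) (nat_lit 0) (XT.lf (nat_lit 0) (nat_lit 18164271264211) (nat_lit 76) (nat_lit 1917029072225) (nat_lit 76) (nat_lit 1917008954253) (nat_lit 1) (nat_lit 4) (nat_lit 2) (nat_lit 5) (nat_lit 2) (nat_lit 4) (nat_lit 418) (nat_lit 304) (nat_lit 298))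 (XT.nd (nat_lit 78) (nat_lit 0) (nat_lit 0) (XT.lf (nat_lit 0) (nat_lit 20891900828145) (nat_lit 76) (nat_lit 2203030822332) (nat_lit 76) (nat_lit 2203008705913) (nat_lit 1) (nat_lit 4) (nat_lit 2) (nat_lit 5) (nat_lit 2) (nat_lit 4) (nat_lit 419) (nat_lit 304) (nat_lit 297)) (XT.lf (nat_lit 0) (nat_lit 24028500568696) (nat_lit 76) (nat_lit 2532023045661) (nat_lit 76) (nat_lit 2531999191462) (nat_lit 1) (nat_lit 4) (nat_lit 2) (nat_lit 5) (nat_lit 2) (nat_lit 4) (nat_lit 420) (nat_lit 304) (nat_lit 296)))))) (XT.nd (nat_lit 390) (nat_lit 0) (nat_lit 0) (XT.nd (nat_lit 156) (nat_lit 0) (nat_lit 0) (XT.nd (nat_lit 78) (nat_lit 0) (nat_lit 0) (XT.lf (nat_lit 0) (nat_lit 27635438741658) (nat_lit 76) (nat_lit 2910442546581) (nat_lit 76) (nat_lit 2910417181268) (nat_lit 1) (nat_lit 4) (nat_lit 2) (nat_lit 5) (nat_lit 2) (nat_lit 4) (nat_lit 421) (nat_lit 304) (nat_lit 295)) (XT.lf (nat_lit 0) (nat_lit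 31783285876501) (nat_lit 76) (nat_lit 3345693184892) (nat_lit 76) (nat_lit 3345666505567) (nat_lit 1) (nat_lit 4) (nat_lit 2) (nat_lit 5) (nat_lit 2) (nat_lit 4) (nat_lit 422) (nat_lit 304) (nat_lit 294))) (XT.nd (nat_lit 78) (nat_lit 0) (nat_lit 0) (XT.lf (nat_lit 0) (nat_lit 36553195504125) (nat_lit 76) (nat_lit 3846290733953) (nat_lit 76) (nat_lit 3846262912009) (nat_lit 1) (nat_lit 4) (nat_lit 2) (nat_lit 5) (nat_lit 2) (nat_lit 4) (nat_lit 423) (nat_lit 304) (nat_lit 293)) (XT.nd (nat_lit 78) (nat_lit 0) (nat_lit 0) (XT.lf (nat_lit 0) (nat_lit 42038491943330) (nat_lit 76) (nat_lit 4422029493636) (nat_lit 76) (nat_lit 4422000678111) (nat_lit 1) (nat_lit 4) (nat_lit 2) (nat_lit 5) (nat_lit 2) (nat_lit 4) (nat_lit 424) (nat_lit 304) (nat_lit 292)) (XT.lf (nat_lit 0) (nat_lit 48346496211406) (nat_lit 76) (nat_lit 5084173917936) (nat_lit 76) (nat_lit 5084144238426) (nat_lit 1) (nat_lit 4)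 (nat_lit 2) (nat_lit 5) (nat_lit 2) (nat_lit 4) (nat_lit 425) (nat_lit 304) (nat_lit 291))))) (XT.nd (nat_lit 51870) (nat_lit 0) (nat_lit 0) (XT.nd (nat_lit 78) (nat_lit 0) (nat_lit 0) (XT.lf (nat_lit 0) (nat_lit 55600625783163) (nat_lit 76) (nat_lit 5845679006458) (nat_lit 76) (nat_lit 5845648575658) (nat_lit 1) (nat_lit 4) (nat_lit 2) (nat_lit 5) (nat_lit 2) (nat_lit 4) (nat_lit 426) (nat_lit 304) (nat_lit 290)) (XT.nd (nat_lit 78) (nat_lit 0) (nat_lit 0) (XT.lf (nat_lit 0) (nat_lit 63942809280656) (nat_lit 76) (nat_lit 6721443771803) (nat_lit 76) (nat_lit 6721412687707) (nat_lit 1) (nat_lit 4) (nat_lit 2) (nat_lit 5) (nat_lit 2) (nat_lit 4) (nat_lit 427) (nat_lit 304) (nat_lit 289)) (XT.lf (nat_lit 0) (nat_lit 73536263337533) (nat_lit 76) (nat_lit 7728602741990) (nat_lit 76) (nat_lit 7728571089811) (nat_lit 1) (nat_lit 4) (nat_lit 2) (nat_lit 5) (nat_lit 2) (nat_lit 4) (nat_lit 428) (nat_lit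 304) (nat_lit 288)))) (XT.nd (nat_lit 78) (nat_lit 0) (nat_lit 0) (XT.lf (nat_lit 0) (nat_lit 2958873830035) (nat_lit 76) (nat_lit 318579378841) (nat_lit 76) (nat_lit 318579378841) (nat_lit 1) (nat_lit 4) (nat_lit 2) (nat_lit 5) (nat_lit 2) (nat_lit 4) (nat_lit 410) (nat_lit 305) (nat_lit 305)) (XT.nd (nat_lit 78) (nat_lit 0) (nat_lit 0) (XT.lf (nat_lit 0) (nat_lit 6810864367559) (nat_lit 76) (nat_lit 729902715988) (nat_lit 76) (nat_lit 729897400077) (nat_lit 1) (nat_lit 4) (nat_lit 2) (nat_lit 5) (nat_lit 2) (nat_lit 4) (nat_lit 411) (nat_lit 305) (nat_lit 304)) (XT.lf (nat_lit 0) (nat_lit 7837485051498) (nat_lit 76) (nat_lit 836798230307) (nat_lit 76) (nat_lit 836788291865) (nat_lit 1) (nat_lit 4) (nat_lit 2) (nat_lit 5) (nat_lit 2) (nat_lit 4) (nat_lit 412) (nat_lit 305) (nat_lit 303))))))))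
noncomputable def xc2 : XT := (XT.nd (nat_lit 53118) (nat_lit 0) (nat_lit 0) (XT.nd (nat_lit 780) (nat_lit 0) (nat_lit 0) (XT.nd (nat_lit 390) (nat_lit 0) (nat_lit 0) (XT.nd (nat_lit 156) (nat_lit 0) (nat_lit 0) (XT.nd (nat_lit 78) (nat_lit 0) (nat_lit 0) (XT.lf (nat_lit 0) (nat_lit 9017695768746) (nat_lit 76) (nat_lit 959936734617) (nat_lit 76) (nat_lit 959922776583) (nat_lit 1) (nat_lit 4) (nat_lit 2) (nat_lit 5) (nat_lit 2) (nat_lit 4) (nat_lit 413) (nat_lit 305) (nat_lit 302)) (XT.lf (nat_lit 0) (nat_lit 10374587598555) (nat_lit 76) (nat_lit 1101727460523) (nat_lit 76) (nat_lit 1101710007192) (nat_lit 1) (nat_lit 4) (nat_lit 2) (nat_lit 5) (nat_lit 2) (nat_lit 4) (nat_lit 414) (nat_lit 305) (nat_lit 301))) (XT.nd (nat_lit 78) (nat_lit 0) (nat_lit 0) (XT.lf (nat_lit 0) (nat_lit 11934708424551) (nat_lit 76) (nat_lit 1264944574403) (nat_lit 76) (nat_lit 1264924081683) (nat_lit 1) (nat_lit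 4) (nat_lit 2) (nat_lit 5) (nat_lit 2) (nat_lit 4) (nat_lit 415) (nat_lit 305) (nat_lit 300)) (XT.nd (nat_lit 78) (nat_lit 0) (nat_lit 0) (XT.lf (nat_lit 0) (nat_lit 13728582349851) (nat_lit 76) (nat_lit 1452781454571) (nat_lit 76) (nat_lit 1452758318904) (nat_lit 1) (nat_lit 4) (nat_lit 2) (nat_lit 5) (nat_lit 2) (nat_lit 4) (nat_lit 416) (nat_lit 305) (nat_lit 299)) (XT.lf (nat_lit 0) (nat_lit 15791306907777) (nat_lit 76) (nat_lit 1668913170421) (nat_lit 76) (nat_lit 1668887736539) (nat_lit 1) (nat_lit 4) (nat_lit 2) (nat_lit 5) (nat_lit 2) (nat_lit 4) (nat_lit 417) (nat_lit 305) (nat_lit 298))))) (XT.nd (nat_lit 156) (nat_lit 0) (nat_lit 0) (XT.nd (nat_lit 78) (nat_lit 0) (nat_lit 0) (XT.lf (nat_lit 0) (nat_lit 18163239752723) (nat_lit 76) (nat_lit 1917568385960) (nat_lit 76) (nat_lit 1917540953631) (nat_lit 1) (nat_lit 4) (nat_lit 2) (nat_lit 5) (nat_lit 2) (nat_lit 4) (nat_lit 418) (nat_lit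 305) (nat_lit 297)) (XT.lf (nat_lit 0) (nat_lit 20890788266437) (nat_lit 76) (nat_lit 2203612094535) (nat_lit 76) (nat_lit 2203582924426) (nat_lit 1) (nat_lit 4) (nat_lit 2) (nat_lit 5) (nat_lit 2) (nat_lit 4) (nat_lit 419) (nat_lit 305) (nat_lit 296))) (XT.nd (nat_lit 78) (nat_lit 0) (nat_lit 0) (XT.lf (nat_lit 0) (nat_lit 24027317528536) (nat_lit 76) (nat_lit 2532640803488) (nat_lit 76) (nat_lit 2532610122265) (nat_lit 1) (nat_lit 4) (nat_lit 2) (nat_lit 5) (nat_lit 2) (nat_lit 4) (nat_lit 420) (nat_lit 305) (nat_lit 295)) (XT.nd (nat_lit 78) (nat_lit 0) (nat_lit 0) (XT.lf (nat_lit 0) (nat_lit 27634194415887) (nat_lit 76) (nat_lit 2911092031037) (nat_lit 76) (nat_lit 2911060035802) (nat_lit 1) (nat_lit 4) (nat_lit 2) (nat_lit 5) (nat_lit 2) (nat_lit 4) (nat_lit 421) (nat_lit 305) (nat_lit 294)) (XT.lf (nat_lit 0) (nat_lit 31781988258895) (nat_lit 76) (nat_lit 3346370257722) (nat_lit 76)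 (nat_lit 3346337119868) (nat_lit 1) (nat_lit 4) (nat_lit 2) (nat_lit 5) (nat_lit 2) (nat_lit 4) (nat_lit 422) (nat_lit 305) (nat_lit 293)))))) (XT.nd (nat_lit 390) (nat_lit 0) (nat_lit 0) (XT.nd (nat_lit 156) (nat_lit 0) (nat_lit 0) (XT.nd (nat_lit 78) (nat_lit 0) (nat_lit 0) (XT.lf (nat_lit 0) (nat_lit 36551851545792) (nat_lit 76) (nat_lit 3846991796673) (nat_lit 76) (nat_lit 3846957665237) (nat_lit 1) (nat_lit 4) (nat_lit 2) (nat_lit 5) (nat_lit 2) (nat_lit 4) (nat_lit 423) (nat_lit 305) (nat_lit 292)) (XT.lf (nat_lit 0) (nat_lit 42037107688714) (nat_lit 76) (nat_lit 4422751417130) (nat_lit 76) (nat_lit 4422716421710) (nat_lit 1) (nat_lit 4) (nat_lit 2) (nat_lit 5) (nat_lit 2) (nat_lit 4) (nat_lit 424) (nat_lit 305) (nat_lit 291))) (XT.nd (nat_lit 78) (nat_lit 0) (nat_lit 0) (XT.lf (nat_lit 0) (nat_lit 48345076916543) (nat_lit 76) (nat_lit 5084913981233) (nat_lit 76) (nat_lit 5084878234523)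 (nat_lit 1) (nat_lit 4) (nat_lit 2) (nat_lit 5) (nat_lit 2) (nat_lit 4) (nat_lit 425) (nat_lit 305) (nat_lit 290)) (XT.nd (nat_lit 78) (nat_lit 0) (nat_lit 0) (XT.lf (nat_lit 0) (nat_lit 55599176018520) (nat_lit 76) (nat_lit 5846434843497) (nat_lit 76) (nat_lit 5846398443490) (nat_lit 1) (nat_lit 4) (nat_lit 2) (nat_lit 5) (nat_lit 2) (nat_lit 4) (nat_lit 426) (nat_lit 305) (nat_lit 289)) (XT.lf (nat_lit 0) (nat_lit 63941333020553) (nat_lit 76) (nat_lit 6722213325140) (nat_lit 76) (nat_lit 6722176357050) (nat_lit 1) (nat_lit 4) (nat_lit 2) (nat_lit 5) (nat_lit 2) (nat_lit 4) (nat_lit 427) (nat_lit 305) (nat_lit 288))))) (XT.nd (nat_lit 51714) (nat_lit 0) (nat_lit 0) (XT.nd (nat_lit 51558) (nat_lit 0) (nat_lit 0) (XT.lf (nat_lit 0) (nat_lit 73534764037899) (nat_lit 76) (nat_lit 7729384222542) (nat_lit 76) (nat_lit 7729346760467) (nat_lit 1) (nat_lit 4) (nat_lit 2) (nat_lit 5) (nat_lit 2) (nat_lit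 4) (nat_lit 428) (nat_lit 305) (nat_lit 287)) (XT.nd (nat_lit 78) (nat_lit 0) (nat_lit 0) (XT.lf (nat_lit 0) (nat_lit 2232342680107) (nat_lit 76) (nat_lit 243483585493) (nat_lit 76) (nat_lit 243483585493) (nat_lit 1) (nat_lit 4) (nat_lit 2) (nat_lit 5) (nat_lit 2) (nat_lit 4) (nat_lit 408) (nat_lit 306) (nat_lit 306)) (XT.lf (nat_lit 0) (nat_lit 5140660906495) (nat_lit 76) (nat_lit 556757912985) (nat_lit 76) (nat_lit 556751799688) (nat_lit 1) (nat_lit 4) (nat_lit 2) (nat_lit 5) (nat_lit 2) (nat_lit 4) (nat_lit 409) (nat_lit 306) (nat_lit 305)))) (XT.nd (nat_lit 78) (nat_lit 0) (nat_lit 0) (XT.lf (nat_lit 0) (nat_lit 5917499725595) (nat_lit 76) (nat_lit 637293222892) (nat_lit 76) (nat_lit 637281793684) (nat_lit 1) (nat_lit 4) (nat_lit 2) (nat_lit 5) (nat_lit 2) (nat_lit 4) (nat_lit 410) (nat_lit 306) (nat_lit 304)) (XT.nd (nat_lit 78) (nat_lit 0) (nat_lit 0) (XT.lf (nat_lit 0) (nat_lit 6810400837886)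 (nat_lit 76) (nat_lit 730148791554) (nat_lit 76) (nat_lit 730132739815) (nat_lit 1) (nat_lit 4) (nat_lit 2) (nat_lit 5) (nat_lit 2) (nat_lit 4) (nat_lit 411) (nat_lit 306) (nat_lit 303)) (XT.lf (nat_lit 0) (nat_lit 7836834047741) (nat_lit 76) (nat_lit 837141358358) (nat_lit 76) (nat_lit 837121287028) (nat_lit 1) (nat_lit 4) (nat_lit 2) (nat_lit 5) (nat_lit 2) (nat_lit 4) (nat_lit 412) (nat_lit 306) (nat_lit 302))))))) (XT.nd (nat_lit 780) (nat_lit 0) (nat_lit 0) (XT.nd (nat_lit 390) (nat_lit 0) (nat_lit 0) (XT.nd (nat_lit 156) (nat_lit 0) (nat_lit 0) (XT.nd (nat_lit 78) (nat_lit 0) (nat_lit 0) (XT.lf (nat_lit 0) (nat_lit 9016881744046) (nat_lit 76) (nat_lit 960364256133) (nat_lit 76) (nat_lit 960340689505) (nat_lit 1) (nat_lit 4) (nat_lit 2) (nat_lit 5) (nat_lit 2) (nat_lit 4) (nat_lit 413) (nat_lit 306) (nat_lit 301)) (XT.lf (nat_lit 0) (nat_lit 10373631816514) (nat_lit 76) (nat_lit 1102228367662)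 (nat_lit 76) (nat_lit 1102201761645) (nat_lit 1) (nat_lit 4) (nat_lit 2) (nat_lit 5) (nat_lit 2) (nat_lit 4) (nat_lit 414) (nat_lit 306) (nat_lit 300))) (XT.nd (nat_lit 78) (nat_lit 0) (nat_lit 0) (XT.lf (nat_lit 0) (nat_lit 11933629375256) (nat_lit 76) (nat_lit 1265509295126) (nat_lit 76) (nat_lit 1265480046162) (nat_lit 1) (nat_lit 4) (nat_lit 2) (nat_lit 5) (nat_lit 2) (nat_lit 4) (nat_lit 415) (nat_lit 306) (nat_lit 299)) (XT.nd (nat_lit 78) (nat_lit 0) (nat_lit 0) (XT.lf (nat_lit 0) (nat_lit 13727396111641) (nat_lit 76) (nat_lit 1453401665367) (nat_lit 76) (nat_lit 1453370118188) (nat_lit 1) (nat_lit 4) (nat_lit 2) (nat_lit 5) (nat_lit 2) (nat_lit 4) (nat_lit 416) (nat_lit 306) (nat_lit 298)) (XT.lf (nat_lit 0) (nat_lit 15790027461813) (nat_lit 76) (nat_lit 1669581633455) (nat_lit 76) (nat_lit 1669548087828) (nat_lit 1) (nat_lit 4) (nat_lit 2) (nat_lit 5) (nat_lit 2) (nat_lit 4) (nat_lit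 417) (nat_lit 306) (nat_lit 297))))) (XT.nd (nat_lit 156) (nat_lit 0) (nat_lit 0) (XT.nd (nat_lit 78) (nat_lit 0) (nat_lit 0) (XT.lf (nat_lit 0) (nat_lit 18161879256539) (nat_lit 76) (nat_lit 1918278807461) (nat_lit 76) (nat_lit 1918243524054) (nat_lit 1) (nat_lit 4) (nat_lit 2) (nat_lit 5) (nat_lit 2) (nat_lit 4) (nat_lit 418) (nat_lit 306) (nat_lit 296)) (XT.lf (nat_lit 0) (nat_lit 20889357291801) (nat_lit 76) (nat_lit 2204359001661) (nat_lit 76) (nat_lit 2204322207140) (nat_lit 1) (nat_lit 4) (nat_lit 2) (nat_lit 5) (nat_lit 2) (nat_lit 4) (nat_lit 419) (nat_lit 306) (nat_lit 295))) (XT.nd (nat_lit 78) (nat_lit 0) (nat_lit 0) (XT.lf (nat_lit 0) (nat_lit 24025825268289) (nat_lit 76) (nat_lit 2533419437243) (nat_lit 76) (nat_lit 2533381328711) (nat_lit 1) (nat_lit 4) (nat_lit 2) (nat_lit 5) (nat_lit 2) (nat_lit 4) (nat_lit 420) (nat_lit 306) (nat_lit 294)) (XT.nd (nat_lit 78) (nat_lit 0)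 (nat_lit 0) (XT.lf (nat_lit 0) (nat_lit 27632648863805) (nat_lit 76) (nat_lit 2911898253166) (nat_lit 76) (nat_lit 2911859002014) (nat_lit 1) (nat_lit 4) (nat_lit 2) (nat_lit 5) (nat_lit 2) (nat_lit 4) (nat_lit 421) (nat_lit 306) (nat_lit 293)) (XT.lf (nat_lit 0) (nat_lit 31780396366086) (nat_lit 76) (nat_lit 3347200469740) (nat_lit 76) (nat_lit 3347160225007) (nat_lit 1) (nat_lit 4) (nat_lit 2) (nat_lit 5) (nat_lit 2) (nat_lit 4) (nat_lit 422) (nat_lit 306) (nat_lit 292)))))) (XT.nd (nat_lit 390) (nat_lit 0) (nat_lit 0) (XT.nd (nat_lit 156) (nat_lit 0) (nat_lit 0) (XT.nd (nat_lit 78) (nat_lit 0) (nat_lit 0) (XT.lf (nat_lit 0) (nat_lit 36550219356700) (nat_lit 76) (nat_lit 3847842869465) (nat_lit 76) (nat_lit 3847801760748) (nat_lit 1) (nat_lit 4) (nat_lit 2) (nat_lit 5) (nat_lit 2) (nat_lit 4) (nat_lit 423) (nat_lit 306) (nat_lit 291)) (XT.lf (nat_lit 0) (nat_lit 42035440459375) (nat_lit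 76) (nat_lit 4423620629725) (nat_lit 76) (nat_lit 4423578769718) (nat_lit 1) (nat_lit 4) (nat_lit 2) (nat_lit 5) (nat_lit 2) (nat_lit 4) (nat_lit 424) (nat_lit 306) (nat_lit 290))) (XT.nd (nat_lit 78) (nat_lit 0) (nat_lit 0) (XT.lf (nat_lit 0) (nat_lit 48343379217424) (nat_lit 76) (nat_lit 5085798967571) (nat_lit 76) (nat_lit 5085756454267) (nat_lit 1) (nat_lit 4) (nat_lit 2) (nat_lit 5) (nat_lit 2) (nat_lit 4) (nat_lit 425) (nat_lit 306) (nat_lit 289)) (XT.nd (nat_lit 78) (nat_lit 0) (nat_lit 0) (XT.lf (nat_lit 0) (nat_lit 55597451823940) (nat_lit 76) (nat_lit 5847333546132) (nat_lit 76) (nat_lit 5847290464745) (nat_lit 1) (nat_lit 4) (nat_lit 2) (nat_lit 5) (nat_lit 2) (nat_lit 4) (nat_lit 426) (nat_lit 306) (nat_lit 288)) (XT.lf (nat_lit 0) (nat_lit 63939585786442) (nat_lit 76) (nat_lit 6723123954990) (nat_lit 76) (nat_lit 6723080379617) (nat_lit 1) (nat_lit 4) (nat_lit 2) (nat_lit 5) (nat_lit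 2) (nat_lit 4) (nat_lit 427) (nat_lit 306) (nat_lit 287))))) (XT.nd (nat_lit 51558) (nat_lit 0) (nat_lit 0) (XT.nd (nat_lit 51402) (nat_lit 0) (nat_lit 0) (XT.lf (nat_lit 0) (nat_lit 73532996769413) (nat_lit 76) (nat_lit 7730305223884) (nat_lit 76) (nat_lit 7730261218958) (nat_lit 1) (nat_lit 4) (nat_lit 2) (nat_lit 5) (nat_lit 2) (nat_lit 4) (nat_lit 428) (nat_lit 306) (nat_lit 286)) (XT.nd (nat_lit 78) (nat_lit 0) (nat_lit 0) (XT.lf (nat_lit 0) (nat_lit 1682232097674) (nat_lit 76) (nat_lit 187089147760) (nat_lit 76) (nat_lit 187089147760) (nat_lit 1) (nat_lit 4) (nat_lit 2) (nat_lit 5) (nat_lit 2) (nat_lit 4) (nat_lit 406) (nat_lit 307) (nat_lit 307)) (XT.lf (nat_lit 0) (nat_lit 3876347478237) (nat_lit 76) (nat_lit 426562556151) (nat_lit 76) (nat_lit 426555525859) (nat_lit 1) (nat_lit 4) (nat_lit 2) (nat_lit 5) (nat_lit 2) (nat_lit 4) (nat_lit 407) (nat_lit 307) (nat_lit 306)))) (XT.nd (nat_lit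 78) (nat_lit 0) (nat_lit 0) (XT.lf (nat_lit 0) (nat_lit 4464400235566) (nat_lit 76) (nat_lit 487121805977) (nat_lit 76) (nat_lit 487108662388) (nat_lit 1) (nat_lit 4) (nat_lit 2) (nat_lit 5) (nat_lit 2) (nat_lit 4) (nat_lit 408) (nat_lit 307) (nat_lit 305)) (XT.nd (nat_lit 78) (nat_lit 0) (nat_lit 0) (XT.lf (nat_lit 0) (nat_lit 5140127847371) (nat_lit 76) (nat_lit 557040899886) (nat_lit 76) (nat_lit 557022440387) (nat_lit 1) (nat_lit 4) (nat_lit 2) (nat_lit 5) (nat_lit 2) (nat_lit 4) (nat_lit 409) (nat_lit 307) (nat_lit 304)) (XT.lf (nat_lit 0) (nat_lit 5916751071274) (nat_lit 76) (nat_lit 637687820151) (nat_lit 76) (nat_lit 637664738121) (nat_lit 1) (nat_lit 4) (nat_lit 2) (nat_lit 5) (nat_lit 2) (nat_lit 4) (nat_lit 410) (nat_lit 307) (nat_lit 303))))))))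
noncomputable def xc3 : XT := (XT.nd (nat_lit 52806) (nat_lit 0) (nat_lit 0) (XT.nd (nat_lit 780) (nat_lit 0) (nat_lit 0) (XT.nd (nat_lit 390) (nat_lit 0) (nat_lit 0) (XT.nd (nat_lit 156) (nat_lit 0) (nat_lit 0) (XT.nd (nat_lit 78) (nat_lit 0) (nat_lit 0) (XT.lf (nat_lit 0) (nat_lit 6809464709482) (nat_lit 76) (nat_lit 730640441298) (nat_lit 76) (nat_lit 730613339676) (nat_lit 1) (nat_lit 4) (nat_lit 2) (nat_lit 5) (nat_lit 2) (nat_lit 4) (nat_lit 411) (nat_lit 307) (nat_lit 302)) (XT.lf (nat_lit 0) (nat_lit 7835734898393) (nat_lit 76) (nat_lit 837717401567) (nat_lit 76) (nat_lit 837686804648) (nat_lit 1) (nat_lit 4) (nat_lit 2) (nat_lit 5) (nat_lit 2) (nat_lit 4) (nat_lit 412) (nat_lit 307) (nat_lit 301))) (XT.nd (nat_lit 78) (nat_lit 0) (nat_lit 0) (XT.lf (nat_lit 0) (nat_lit 9015640837357) (nat_lit 76) (nat_lit 961013684964) (nat_lit 76) (nat_lit 960980048656) (nat_lit 1) (nat_lit 4) (nat_lit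 2) (nat_lit 5) (nat_lit 2) (nat_lit 4) (nat_lit 413) (nat_lit 307) (nat_lit 300)) (XT.nd (nat_lit 78) (nat_lit 0) (nat_lit 0) (XT.lf (nat_lit 0) (nat_lit 10372267642571) (nat_lit 76) (nat_lit 1102941610077) (nat_lit 76) (nat_lit 1102905330821) (nat_lit 1) (nat_lit 4) (nat_lit 2) (nat_lit 5) (nat_lit 2) (nat_lit 4) (nat_lit 414) (nat_lit 307) (nat_lit 299)) (XT.lf (nat_lit 0) (nat_lit 11932158012398) (nat_lit 76) (nat_lit 1266278027614) (nat_lit 76) (nat_lit 1266239450144) (nat_lit 1) (nat_lit 4) (nat_lit 2) (nat_lit 5) (nat_lit 2) (nat_lit 4) (nat_lit 415) (nat_lit 307) (nat_lit 298))))) (XT.nd (nat_lit 156) (nat_lit 0) (nat_lit 0) (XT.nd (nat_lit 78) (nat_lit 0) (nat_lit 0) (XT.lf (nat_lit 0) (nat_lit 13725831541029) (nat_lit 76) (nat_lit 1454218650093) (nat_lit 76) (nat_lit 1454178074175) (nat_lit 1) (nat_lit 4) (nat_lit 2) (nat_lit 5) (nat_lit 2) (nat_lit 4) (nat_lit 416) (nat_lit 307)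 (nat_lit 297)) (XT.lf (nat_lit 0) (nat_lit 15788381840982) (nat_lit 76) (nat_lit 1670440576649) (nat_lit 76) (nat_lit 1670398262950) (nat_lit 1) (nat_lit 4) (nat_lit 2) (nat_lit 5) (nat_lit 2) (nat_lit 4) (nat_lit 417) (nat_lit 307) (nat_lit 296))) (XT.nd (nat_lit 78) (nat_lit 0) (nat_lit 0) (XT.lf (nat_lit 0) (nat_lit 18160163157255) (nat_lit 76) (nat_lit 1919174236279) (nat_lit 76) (nat_lit 1919130411467) (nat_lit 1) (nat_lit 4) (nat_lit 2) (nat_lit 5) (nat_lit 2) (nat_lit 4) (nat_lit 418) (nat_lit 307) (nat_lit 295)) (XT.nd (nat_lit 78) (nat_lit 0) (nat_lit 0) (XT.lf (nat_lit 0) (nat_lit 20887579906906) (nat_lit 76) (nat_lit 2205286157108) (nat_lit 76) (nat_lit 2205241018284) (nat_lit 1) (nat_lit 4) (nat_lit 2) (nat_lit 5) (nat_lit 2) (nat_lit 4) (nat_lit 419) (nat_lit 307) (nat_lit 294)) (XT.lf (nat_lit 0) (nat_lit 24023994591559) (nat_lit 76) (nat_lit 2534374181064) (nat_lit 76) (nat_lit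 2534327899621) (nat_lit 1) (nat_lit 4) (nat_lit 2) (nat_lit 5) (nat_lit 2) (nat_lit 4) (nat_lit 420) (nat_lit 307) (nat_lit 293)))))) (XT.nd (nat_lit 390) (nat_lit 0) (nat_lit 0) (XT.nd (nat_lit 156) (nat_lit 0) (nat_lit 0) (XT.nd (nat_lit 78) (nat_lit 0) (nat_lit 0) (XT.lf (nat_lit 0) (nat_lit 27630771846349) (nat_lit 76) (nat_lit 2912876986876) (nat_lit 76) (nat_lit 2912829711852) (nat_lit 1) (nat_lit 4) (nat_lit 2) (nat_lit 5) (nat_lit 2) (nat_lit 4) (nat_lit 421) (nat_lit 307) (nat_lit 292)) (XT.lf (nat_lit 0) (nat_lit 31778479052346) (nat_lit 76) (nat_lit 3348200064225) (nat_lit 76) (nat_lit 3348151925216) (nat_lit 1) (nat_lit 4) (nat_lit 2) (nat_lit 5) (nat_lit 2) (nat_lit 4) (nat_lit 422) (nat_lit 307) (nat_lit 291))) (XT.nd (nat_lit 78) (nat_lit 0) (nat_lit 0) (XT.lf (nat_lit 0) (nat_lit 36548267002713) (nat_lit 76) (nat_lit 3848860603753) (nat_lit 76) (nat_lit 3848811713454) (nat_lit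 1) (nat_lit 4) (nat_lit 2) (nat_lit 5) (nat_lit 2) (nat_lit 4) (nat_lit 423) (nat_lit 307) (nat_lit 290)) (XT.nd (nat_lit 78) (nat_lit 0) (nat_lit 0) (XT.lf (nat_lit 0) (nat_lit 42033457635608) (nat_lit 76) (nat_lit 4424654137755) (nat_lit 76) (nat_lit 4424604594160) (nat_lit 1) (nat_lit 4) (nat_lit 2) (nat_lit 5) (nat_lit 2) (nat_lit 4) (nat_lit 424) (nat_lit 307) (nat_lit 289)) (XT.lf (nat_lit 0) (nat_lit 48341369898196) (nat_lit 76) (nat_lit 5086846191898) (nat_lit 76) (nat_lit 5086796080219) (nat_lit 1) (nat_lit 4) (nat_lit 2) (nat_lit 5) (nat_lit 2) (nat_lit 4) (nat_lit 425) (nat_lit 307) (nat_lit 288))))) (XT.nd (nat_lit 51402) (nat_lit 0) (nat_lit 0) (XT.nd (nat_lit 78) (nat_lit 0) (nat_lit 0) (XT.lf (nat_lit 0) (nat_lit 55595419465181) (nat_lit 76) (nat_lit 5848392697675) (nat_lit 76) (nat_lit 5848342092010) (nat_lit 1) (nat_lit 4) (nat_lit 2) (nat_lit 5) (nat_lit 2) (nat_lit 4) (nat_lit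 426) (nat_lit 307) (nat_lit 287)) (XT.nd (nat_lit 78) (nat_lit 0) (nat_lit 0) (XT.lf (nat_lit 0) (nat_lit 63937533393308) (nat_lit 76) (nat_lit 6724193478024) (nat_lit 76) (nat_lit 6724142442807) (nat_lit 1) (nat_lit 4) (nat_lit 2) (nat_lit 5) (nat_lit 2) (nat_lit 4) (nat_lit 427) (nat_lit 307) (nat_lit 286)) (XT.lf (nat_lit 0) (nat_lit 73530926955084) (nat_lit 76) (nat_lit 7731383765606) (nat_lit 76) (nat_lit 7731332356865) (nat_lit 1) (nat_lit 4) (nat_lit 2) (nat_lit 5) (nat_lit 2) (nat_lit 4) (nat_lit 428) (nat_lit 307) (nat_lit 285)))) (XT.nd (nat_lit 78) (nat_lit 0) (nat_lit 0) (XT.lf (nat_lit 0) (nat_lit 1265408511985) (nat_lit 76) (nat_lit 144893937272) (nat_lit 76) (nat_lit 144893937272) (nat_lit 1) (nat_lit 4) (nat_lit 2) (nat_lit 5) (nat_lit 2) (nat_lit 4) (nat_lit 404) (nat_lit 308) (nat_lit 308)) (XT.nd (nat_lit 78) (nat_lit 0) (nat_lit 0) (XT.lf (nat_lit 0) (nat_lit 2918735279191)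 (nat_lit 76) (nat_lit 328952199474) (nat_lit 76) (nat_lit 328944114639) (nat_lit 1) (nat_lit 4) (nat_lit 2) (nat_lit 5) (nat_lit 2) (nat_lit 4) (nat_lit 405) (nat_lit 308) (nat_lit 307)) (XT.lf (nat_lit 0) (nat_lit 3364136302003) (nat_lit 76) (nat_lit 374356125759) (nat_lit 76) (nat_lit 374341010632) (nat_lit 1) (nat_lit 4) (nat_lit 2) (nat_lit 5) (nat_lit 2) (nat_lit 4) (nat_lit 406) (nat_lit 308) (nat_lit 306))))))) (XT.nd (nat_lit 780) (nat_lit 0) (nat_lit 0) (XT.nd (nat_lit 390) (nat_lit 0) (nat_lit 0) (XT.nd (nat_lit 156) (nat_lit 0) (nat_lit 0) (XT.nd (nat_lit 78) (nat_lit 0) (nat_lit 0) (XT.lf (nat_lit 0) (nat_lit 3875734460244) (nat_lit 76) (nat_lit 426887991087) (nat_lit 76) (nat_lit 426866762663) (nat_lit 1) (nat_lit 4) (nat_lit 2) (nat_lit 5) (nat_lit 2) (nat_lit 4) (nat_lit 407) (nat_lit 308) (nat_lit 305)) (XT.lf (nat_lit 0) (nat_lit 4463539283098) (nat_lit 76) (nat_lit 487575592825)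 (nat_lit 76) (nat_lit 487549048490) (nat_lit 1) (nat_lit 4) (nat_lit 2) (nat_lit 5) (nat_lit 2) (nat_lit 4) (nat_lit 408) (nat_lit 308) (nat_lit 304))) (XT.nd (nat_lit 78) (nat_lit 0) (nat_lit 0) (XT.lf (nat_lit 0) (nat_lit 5139051299706) (nat_lit 76) (nat_lit 557606297091) (nat_lit 76) (nat_lit 557575130226) (nat_lit 1) (nat_lit 4) (nat_lit 2) (nat_lit 5) (nat_lit 2) (nat_lit 4) (nat_lit 409) (nat_lit 308) (nat_lit 303)) (XT.nd (nat_lit 78) (nat_lit 0) (nat_lit 0) (XT.lf (nat_lit 0) (nat_lit 5915487049525) (nat_lit 76) (nat_lit 638350269841) (nat_lit 76) (nat_lit 638315083384) (nat_lit 1) (nat_lit 4) (nat_lit 2) (nat_lit 5) (nat_lit 2) (nat_lit 4) (nat_lit 410) (nat_lit 308) (nat_lit 302)) (XT.lf (nat_lit 0) (nat_lit 6808037666789) (nat_lit 76) (nat_lit 731387284454) (nat_lit 76) (nat_lit 731348602699) (nat_lit 1) (nat_lit 4) (nat_lit 2) (nat_lit 5) (nat_lit 2) (nat_lit 4) (nat_lit 411) (nat_lit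 308) (nat_lit 301))))) (XT.nd (nat_lit 156) (nat_lit 0) (nat_lit 0) (XT.nd (nat_lit 78) (nat_lit 0) (nat_lit 0) (XT.lf (nat_lit 0) (nat_lit 7834166098359) (nat_lit 76) (nat_lit 838537630345) (nat_lit 76) (nat_lit 838495909201) (nat_lit 1) (nat_lit 4) (nat_lit 2) (nat_lit 5) (nat_lit 2) (nat_lit 4) (nat_lit 412) (nat_lit 308) (nat_lit 300)) (XT.lf (nat_lit 0) (nat_lit 9013948770070) (nat_lit 76) (nat_lit 961897727326) (nat_lit 76) (nat_lit 961853363235) (nat_lit 1) (nat_lit 4) (nat_lit 2) (nat_lit 5) (nat_lit 2) (nat_lit 4) (nat_lit 413) (nat_lit 308) (nat_lit 299))) (XT.nd (nat_lit 78) (nat_lit 0) (nat_lit 0) (XT.lf (nat_lit 0) (nat_lit 10370468386368) (nat_lit 76) (nat_lit 1103881142512) (nat_lit 76) (nat_lit 1103834480206) (nat_lit 1) (nat_lit 4) (nat_lit 2) (nat_lit 5) (nat_lit 2) (nat_lit 4) (nat_lit 414) (nat_lit 308) (nat_lit 298)) (XT.nd (nat_lit 78) (nat_lit 0) (nat_lit 0) (XT.lf (nat_lit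 0) (nat_lit 11930265548441) (nat_lit 76) (nat_lit 1267265812287) (nat_lit 76) (nat_lit 1267217151534) (nat_lit 1) (nat_lit 4) (nat_lit 2) (nat_lit 5) (nat_lit 2) (nat_lit 4) (nat_lit 415) (nat_lit 308) (nat_lit 297)) (XT.lf (nat_lit 0) (nat_lit 13723858026852) (nat_lit 76) (nat_lit 1455248393233) (nat_lit 76) (nat_lit 1455197994699) (nat_lit 1) (nat_lit 4) (nat_lit 2) (nat_lit 5) (nat_lit 2) (nat_lit 4) (nat_lit 416) (nat_lit 308) (nat_lit 296)))))) (XT.nd (nat_lit 390) (nat_lit 0) (nat_lit 0) (XT.nd (nat_lit 156) (nat_lit 0) (nat_lit 0) (XT.nd (nat_lit 78) (nat_lit 0) (nat_lit 0) (XT.lf (nat_lit 0) (nat_lit 15786337848353) (nat_lit 76) (nat_lit 1671506805413) (nat_lit 76) (nat_lit 1671454895765) (nat_lit 1) (nat_lit 4) (nat_lit 2) (nat_lit 5) (nat_lit 2) (nat_lit 4) (nat_lit 417) (nat_lit 308) (nat_lit 295)) (XT.lf (nat_lit 0) (nat_lit 18158057879015) (nat_lit 76) (nat_lit 1920272191673)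 (nat_lit 76) (nat_lit 1920218968014) (nat_lit 1) (nat_lit 4) (nat_lit 2) (nat_lit 5) (nat_lit 2) (nat_lit 4) (nat_lit 418) (nat_lit 308) (nat_lit 294))) (XT.nd (nat_lit 78) (nat_lit 0) (nat_lit 0) (XT.lf (nat_lit 0) (nat_lit 20885421336831) (nat_lit 76) (nat_lit 2206411700875) (nat_lit 76) (nat_lit 2206357334597) (nat_lit 1) (nat_lit 4) (nat_lit 2) (nat_lit 5) (nat_lit 2) (nat_lit 4) (nat_lit 419) (nat_lit 308) (nat_lit 293)) (XT.nd (nat_lit 78) (nat_lit 0) (nat_lit 0) (XT.lf (nat_lit 0) (nat_lit 24021789680758) (nat_lit 76) (nat_lit 2535523714721) (nat_lit 76) (nat_lit 2535468354861) (nat_lit 1) (nat_lit 4) (nat_lit 2) (nat_lit 5) (nat_lit 2) (nat_lit 4) (nat_lit 420) (nat_lit 308) (nat_lit 292)) (XT.lf (nat_lit 0) (nat_lit 27628526639264) (nat_lit 76) (nat_lit 2914047381307) (nat_lit 76) (nat_lit 2913991157463) (nat_lit 1) (nat_lit 4) (nat_lit 2) (nat_lit 5) (nat_lit 2) (nat_lit 4) (nat_lit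 421) (nat_lit 308) (nat_lit 291))))) (XT.nd (nat_lit 234) (nat_lit 0) (nat_lit 0) (XT.nd (nat_lit 78) (nat_lit 0) (nat_lit 0) (XT.lf (nat_lit 0) (nat_lit 31776198805015) (nat_lit 76) (nat_lit 3349388598459) (nat_lit 76) (nat_lit 3349331623325) (nat_lit 1) (nat_lit 4) (nat_lit 2) (nat_lit 5) (nat_lit 2) (nat_lit 4) (nat_lit 422) (nat_lit 308) (nat_lit 290)) (XT.nd (nat_lit 78) (nat_lit 0) (nat_lit 0) (XT.lf (nat_lit 0) (nat_lit 36545956285601) (nat_lit 76) (nat_lit 3850064911729) (nat_lit 76) (nat_lit 3850007283299) (nat_lit 1) (nat_lit 4) (nat_lit 2) (nat_lit 5) (nat_lit 2) (nat_lit 4) (nat_lit 423) (nat_lit 308) (nat_lit 289)) (XT.lf (nat_lit 0) (nat_lit 42031120423035) (nat_lit 76) (nat_lit 4425872162029) (nat_lit 76) (nat_lit 4425813965515) (nat_lit 1) (nat_lit 4) (nat_lit 2) (nat_lit 5) (nat_lit 2) (nat_lit 4) (nat_lit 424) (nat_lit 308) (nat_lit 288)))) (XT.nd (nat_lit 78) (nat_lit 0)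 (nat_lit 0) (XT.lf (nat_lit 0) (nat_lit 48339009646093) (nat_lit 76) (nat_lit 5088076143387) (nat_lit 76) (nat_lit 5088017452887) (nat_lit 1) (nat_lit 4) (nat_lit 2) (nat_lit 5) (nat_lit 2) (nat_lit 4) (nat_lit 425) (nat_lit 308) (nat_lit 287)) (XT.nd (nat_lit 78) (nat_lit 0) (nat_lit 0) (XT.lf (nat_lit 0) (nat_lit 55593039178703) (nat_lit 76) (nat_lit 5849633020655) (nat_lit 76) (nat_lit 5849573900603) (nat_lit 1) (nat_lit 4) (nat_lit 2) (nat_lit 5) (nat_lit 2) (nat_lit 4) (nat_lit 426) (nat_lit 308) (nat_lit 286)) (XT.lf (nat_lit 0) (nat_lit 63935135685635) (nat_lit 76) (nat_lit 6725442819693) (nat_lit 76) (nat_lit 6725383326117) (nat_lit 1) (nat_lit 4) (nat_lit 2) (nat_lit 5) (nat_lit 2) (nat_lit 4) (nat_lit 427) (nat_lit 308) (nat_lit 285))))))))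
noncomputable def xc4 : XT := (XT.nd (nat_lit 1638) (nat_lit 0) (nat_lit 0) (XT.nd (nat_lit 780) (nat_lit 0) (nat_lit 0) (XT.nd (nat_lit 390) (nat_lit 0) (nat_lit 0) (XT.nd (nat_lit 156) (nat_lit 0) (nat_lit 0) (XT.nd (nat_lit 78) (nat_lit 0) (nat_lit 0) (XT.lf (nat_lit 0) (nat_lit 949239901948) (nat_lit 76) (nat_lit 113502445518) (nat_lit 76) (nat_lit 113502445518) (nat_lit 1) (nat_lit 4) (nat_lit 2) (nat_lit 5) (nat_lit 2) (nat_lit 4) (nat_lit 402) (nat_lit 309) (nat_lit 309)) (XT.lf (nat_lit 0) (nat_lit 2192791831349) (nat_lit 76) (nat_lit 256106190001) (nat_lit 76) (nat_lit 256096892440) (nat_lit 1) (nat_lit 4) (nat_lit 2) (nat_lit 5) (nat_lit 2) (nat_lit 4) (nat_lit 403) (nat_lit 309) (nat_lit 308))) (XT.nd (nat_lit 78) (nat_lit 0) (nat_lit 0) (XT.lf (nat_lit 0) (nat_lit 2530439946625) (nat_lit 76) (nat_lit 289992379319) (nat_lit 76) (nat_lit 289974996923) (nat_lit 1) (nat_lit 4) (nat_lit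 2) (nat_lit 5) (nat_lit 2) (nat_lit 4) (nat_lit 404) (nat_lit 309) (nat_lit 307)) (XT.nd (nat_lit 78) (nat_lit 0) (nat_lit 0) (XT.lf (nat_lit 0) (nat_lit 2918030308500) (nat_lit 76) (nat_lit 329326449651) (nat_lit 76) (nat_lit 329302036964) (nat_lit 1) (nat_lit 4) (nat_lit 2) (nat_lit 5) (nat_lit 2) (nat_lit 4) (nat_lit 405) (nat_lit 309) (nat_lit 306)) (XT.lf (nat_lit 0) (nat_lit 3363146206664) (nat_lit 76) (nat_lit 374877980634) (nat_lit 76) (nat_lit 374847454649) (nat_lit 1) (nat_lit 4) (nat_lit 2) (nat_lit 5) (nat_lit 2) (nat_lit 4) (nat_lit 406) (nat_lit 309) (nat_lit 305))))) (XT.nd (nat_lit 156) (nat_lit 0) (nat_lit 0) (XT.nd (nat_lit 78) (nat_lit 0) (nat_lit 0) (XT.lf (nat_lit 0) (nat_lit 3874496430429) (nat_lit 76) (nat_lit 427538197874) (nat_lit 76) (nat_lit 427502355979) (nat_lit 1) (nat_lit 4) (nat_lit 2) (nat_lit 5) (nat_lit 2) (nat_lit 4) (nat_lit 407) (nat_lit 309) (nat_lit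 304)) (XT.lf (nat_lit 0) (nat_lit 4462085658085) (nat_lit 76) (nat_lit 488337409969) (nat_lit 76) (nat_lit 488296945543) (nat_lit 1) (nat_lit 4) (nat_lit 2) (nat_lit 5) (nat_lit 2) (nat_lit 4) (nat_lit 408) (nat_lit 309) (nat_lit 303))) (XT.nd (nat_lit 78) (nat_lit 0) (nat_lit 0) (XT.lf (nat_lit 0) (nat_lit 5137410200610) (nat_lit 76) (nat_lit 558465166721) (nat_lit 76) (nat_lit 558420682702) (nat_lit 1) (nat_lit 4) (nat_lit 2) (nat_lit 5) (nat_lit 2) (nat_lit 4) (nat_lit 409) (nat_lit 309) (nat_lit 302)) (XT.nd (nat_lit 78) (nat_lit 0) (nat_lit 0) (XT.lf (nat_lit 0) (nat_lit 5913682929486) (nat_lit 76) (nat_lit 639293532935) (nat_lit 76) (nat_lit 639245553620) (nat_lit 1) (nat_lit 4) (nat_lit 2) (nat_lit 5) (nat_lit 2) (nat_lit 4) (nat_lit 410) (nat_lit 309) (nat_lit 301)) (XT.lf (nat_lit 0) (nat_lit 6806091789409) (nat_lit 76) (nat_lit 732403933170) (nat_lit 76) (nat_lit 732352914465) (nat_lit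 1) (nat_lit 4) (nat_lit 2) (nat_lit 5) (nat_lit 2) (nat_lit 4) (nat_lit 411) (nat_lit 309) (nat_lit 300)))))) (XT.nd (nat_lit 390) (nat_lit 0) (nat_lit 0) (XT.nd (nat_lit 156) (nat_lit 0) (nat_lit 0) (XT.nd (nat_lit 78) (nat_lit 0) (nat_lit 0) (XT.lf (nat_lit 0) (nat_lit 7832096953725) (nat_lit 76) (nat_lit 839618092645) (nat_lit 76) (nat_lit 839564430994) (nat_lit 1) (nat_lit 4) (nat_lit 2) (nat_lit 5) (nat_lit 2) (nat_lit 4) (nat_lit 412) (nat_lit 309) (nat_lit 299)) (XT.lf (nat_lit 0) (nat_lit 9011772436520) (nat_lit 76) (nat_lit 963033679700) (nat_lit 76) (nat_lit 962977719833) (nat_lit 1) (nat_lit 4) (nat_lit 2) (nat_lit 5) (nat_lit 2) (nat_lit 4) (nat_lit 413) (nat_lit 309) (nat_lit 298))) (XT.nd (nat_lit 78) (nat_lit 0) (nat_lit 0) (XT.lf (nat_lit 0) (nat_lit 10368198845065) (nat_lit 76) (nat_lit 1105065347124) (nat_lit 76) (nat_lit 1105007388809) (nat_lit 1) (nat_lit 4) (nat_lit 2)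 (nat_lit 5) (nat_lit 2) (nat_lit 4) (nat_lit 414) (nat_lit 309) (nat_lit 297)) (XT.nd (nat_lit 78) (nat_lit 0) (nat_lit 0) (XT.lf (nat_lit 0) (nat_lit 11927914956918) (nat_lit 76) (nat_lit 1268491975366) (nat_lit 76) (nat_lit 1268432279271) (nat_lit 1) (nat_lit 4) (nat_lit 2) (nat_lit 5) (nat_lit 2) (nat_lit 4) (nat_lit 415) (nat_lit 309) (nat_lit 296)) (XT.lf (nat_lit 0) (nat_lit 13721436956877) (nat_lit 76) (nat_lit 1456511041936) (nat_lit 76) (nat_lit 1456449834728) (nat_lit 1) (nat_lit 4) (nat_lit 2) (nat_lit 5) (nat_lit 2) (nat_lit 4) (nat_lit 416) (nat_lit 309) (nat_lit 295))))) (XT.nd (nat_lit 234) (nat_lit 0) (nat_lit 0) (XT.nd (nat_lit 78) (nat_lit 0) (nat_lit 0) (XT.lf (nat_lit 0) (nat_lit 15783855492767) (nat_lit 76) (nat_lit 1672801180745) (nat_lit 76) (nat_lit 1672738659525) (nat_lit 1) (nat_lit 4) (nat_lit 2) (nat_lit 5) (nat_lit 2) (nat_lit 4) (nat_lit 417) (nat_lit 309) (nat_lit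 294)) (XT.nd (nat_lit 78) (nat_lit 0) (nat_lit 0) (XT.lf (nat_lit 0) (nat_lit 18155522231594) (nat_lit 76) (nat_lit 1921594155379) (nat_lit 76) (nat_lit 1921530491540) (nat_lit 1) (nat_lit 4) (nat_lit 2) (nat_lit 5) (nat_lit 2) (nat_lit 4) (nat_lit 418) (nat_lit 309) (nat_lit 293)) (XT.lf (nat_lit 0) (nat_lit 20882839348684) (nat_lit 76) (nat_lit 2207757654471) (nat_lit 76) (nat_lit 2207692997050) (nat_lit 1) (nat_lit 4) (nat_lit 2) (nat_lit 5) (nat_lit 2) (nat_lit 4) (nat_lit 419) (nat_lit 309) (nat_lit 292)))) (XT.nd (nat_lit 78) (nat_lit 0) (nat_lit 0) (XT.lf (nat_lit 0) (nat_lit 24019167396327) (nat_lit 76) (nat_lit 2536890529091) (nat_lit 76) (nat_lit 2536825007686) (nat_lit 1) (nat_lit 4) (nat_lit 2) (nat_lit 5) (nat_lit 2) (nat_lit 4) (nat_lit 420) (nat_lit 309) (nat_lit 291)) (XT.nd (nat_lit 78) (nat_lit 0) (nat_lit 0) (XT.lf (nat_lit 0) (nat_lit 27625869314585) (nat_lit 76) (nat_lit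 2915432335481) (nat_lit 76) (nat_lit 2915366062785) (nat_lit 1) (nat_lit 4) (nat_lit 2) (nat_lit 5) (nat_lit 2) (nat_lit 4) (nat_lit 421) (nat_lit 309) (nat_lit 290)) (XT.lf (nat_lit 0) (nat_lit 31773511010556) (nat_lit 76) (nat_lit 3350789326375) (nat_lit 76) (nat_lit 3350722400383) (nat_lit 1) (nat_lit 4) (nat_lit 2) (nat_lit 5) (nat_lit 2) (nat_lit 4) (nat_lit 422) (nat_lit 309) (nat_lit 289))))))) (XT.nd (nat_lit 51714) (nat_lit 0) (nat_lit 0) (XT.nd (nat_lit 51324) (nat_lit 0) (nat_lit 0) (XT.nd (nat_lit 156) (nat_lit 0) (nat_lit 0) (XT.nd (nat_lit 78) (nat_lit 0) (nat_lit 0) (XT.lf (nat_lit 0) (nat_lit 36543241995682) (nat_lit 76) (nat_lit 3851479355942) (nat_lit 76) (nat_lit 3851411861867) (nat_lit 1) (nat_lit 4) (nat_lit 2) (nat_lit 5) (nat_lit 2) (nat_lit 4) (nat_lit 423) (nat_lit 309) (nat_lit 288)) (XT.lf (nat_lit 0) (nat_lit 42028383093585) (nat_lit 76) (nat_lit 4427298533457)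 (nat_lit 76) (nat_lit 4427230545397) (nat_lit 1) (nat_lit 4) (nat_lit 2) (nat_lit 5) (nat_lit 2) (nat_lit 4) (nat_lit 424) (nat_lit 309) (nat_lit 287))) (XT.nd (nat_lit 78) (nat_lit 0) (nat_lit 0) (XT.lf (nat_lit 0) (nat_lit 48336252282268) (nat_lit 76) (nat_lit 5089512886307) (nat_lit 76) (nat_lit 5089444468693) (nat_lit 1) (nat_lit 4) (nat_lit 2) (nat_lit 5) (nat_lit 2) (nat_lit 4) (nat_lit 425) (nat_lit 309) (nat_lit 286)) (XT.nd (nat_lit 78) (nat_lit 0) (nat_lit 0) (XT.lf (nat_lit 0) (nat_lit 55590264393683) (nat_lit 76) (nat_lit 5851078782263) (nat_lit 76) (nat_lit 5851009991126) (nat_lit 1) (nat_lit 4) (nat_lit 2) (nat_lit 5) (nat_lit 2) (nat_lit 4) (nat_lit 426) (nat_lit 309) (nat_lit 285)) (XT.lf (nat_lit 0) (nat_lit 63932345751749) (nat_lit 76) (nat_lit 6726896423639) (nat_lit 76) (nat_lit 6726827307697) (nat_lit 1) (nat_lit 4) (nat_lit 2) (nat_lit 5) (nat_lit 2) (nat_lit 4) (nat_lit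 427) (nat_lit 309) (nat_lit 284))))) (XT.nd (nat_lit 156) (nat_lit 0) (nat_lit 0) (XT.nd (nat_lit 78) (nat_lit 0) (nat_lit 0) (XT.lf (nat_lit 0) (nat_lit 709032400030) (nat_lit 76) (nat_lit 90357239684) (nat_lit 76) (nat_lit 90357239684) (nat_lit 1) (nat_lit 4) (nat_lit 2) (nat_lit 5) (nat_lit 2) (nat_lit 4) (nat_lit 400) (nat_lit 310) (nat_lit 310)) (XT.lf (nat_lit 0) (nat_lit 1641745585469) (nat_lit 76) (nat_lit 202129801379) (nat_lit 76) (nat_lit 202119109184) (nat_lit 1) (nat_lit 4) (nat_lit 2) (nat_lit 5) (nat_lit 2) (nat_lit 4) (nat_lit 401) (nat_lit 310) (nat_lit 309))) (XT.nd (nat_lit 78) (nat_lit 0) (nat_lit 0) (XT.lf (nat_lit 0) (nat_lit 1898046164948) (nat_lit 76) (nat_lit 227240071526) (nat_lit 76) (nat_lit 227220081771) (nat_lit 1) (nat_lit 4) (nat_lit 2) (nat_lit 5) (nat_lit 2) (nat_lit 4) (nat_lit 402) (nat_lit 310) (nat_lit 308)) (XT.nd (nat_lit 78) (nat_lit 0) (nat_lit 0)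 (XT.lf (nat_lit 0) (nat_lit 2191981115054) (nat_lit 76) (nat_lit 256536577704) (nat_lit 76) (nat_lit 256508503113) (nat_lit 1) (nat_lit 4) (nat_lit 2) (nat_lit 5) (nat_lit 2) (nat_lit 4) (nat_lit 403) (nat_lit 310) (nat_lit 307)) (XT.lf (nat_lit 0) (nat_lit 2529301336985) (nat_lit 76) (nat_lit 290592512425) (nat_lit 76) (nat_lit 290557407543) (nat_lit 1) (nat_lit 4) (nat_lit 2) (nat_lit 5) (nat_lit 2) (nat_lit 4) (nat_lit 404) (nat_lit 310) (nat_lit 306)))))) (XT.nd (nat_lit 390) (nat_lit 0) (nat_lit 0) (XT.nd (nat_lit 156) (nat_lit 0) (nat_lit 0) (XT.nd (nat_lit 78) (nat_lit 0) (nat_lit 0) (XT.lf (nat_lit 0) (nat_lit 2916606574212) (nat_lit 76) (nat_lit 330074187455) (nat_lit 76) (nat_lit 330032969276) (nat_lit 1) (nat_lit 4) (nat_lit 2) (nat_lit 5) (nat_lit 2) (nat_lit 4) (nat_lit 405) (nat_lit 310) (nat_lit 305)) (XT.lf (nat_lit 0) (nat_lit 3361474537900) (nat_lit 76) (nat_lit 375754070350)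 (nat_lit 76) (nat_lit 375707536260) (nat_lit 1) (nat_lit 4) (nat_lit 2) (nat_lit 5) (nat_lit 2) (nat_lit 4) (nat_lit 406) (nat_lit 310) (nat_lit 304))) (XT.nd (nat_lit 78) (nat_lit 0) (nat_lit 0) (XT.lf (nat_lit 0) (nat_lit 3872609166468) (nat_lit 76) (nat_lit 428525897947) (nat_lit 76) (nat_lit 428474741326) (nat_lit 1) (nat_lit 4) (nat_lit 2) (nat_lit 5) (nat_lit 2) (nat_lit 4) (nat_lit 407) (nat_lit 310) (nat_lit 303)) (XT.nd (nat_lit 78) (nat_lit 0) (nat_lit 0) (XT.lf (nat_lit 0) (nat_lit 4460010920041) (nat_lit 76) (nat_lit 489422162527) (nat_lit 76) (nat_lit 489366986314) (nat_lit 1) (nat_lit 4) (nat_lit 2) (nat_lit 5) (nat_lit 2) (nat_lit 4) (nat_lit 408) (nat_lit 310) (nat_lit 302)) (XT.lf (nat_lit 0) (nat_lit 5135172441622) (nat_lit 76) (nat_lit 559634312744) (nat_lit 76) (nat_lit 559575641234) (nat_lit 1) (nat_lit 4) (nat_lit 2) (nat_lit 5) (nat_lit 2) (nat_lit 4) (nat_lit 409) (nat_lit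 310) (nat_lit 301))))) (XT.nd (nat_lit 234) (nat_lit 0) (nat_lit 0) (XT.nd (nat_lit 78) (nat_lit 0) (nat_lit 0) (XT.lf (nat_lit 0) (nat_lit 5911303413157) (nat_lit 76) (nat_lit 640536064581) (nat_lit 76) (nat_lit 640474353682) (nat_lit 1) (nat_lit 4) (nat_lit 2) (nat_lit 5) (nat_lit 2) (nat_lit 4) (nat_lit 410) (nat_lit 310) (nat_lit 300)) (XT.nd (nat_lit 78) (nat_lit 0) (nat_lit 0) (XT.lf (nat_lit 0) (nat_lit 6803589005826) (nat_lit 76) (nat_lit 733710278400) (nat_lit 76) (nat_lit 733645924553) (nat_lit 1) (nat_lit 4) (nat_lit 2) (nat_lit 5) (nat_lit 2) (nat_lit 4) (nat_lit 411) (nat_lit 310) (nat_lit 299)) (XT.lf (nat_lit 0) (nat_lit 7829486981227) (nat_lit 76) (nat_lit 840979927949) (nat_lit 76) (nat_lit 840913275887) (nat_lit 1) (nat_lit 4) (nat_lit 2) (nat_lit 5) (nat_lit 2) (nat_lit 4) (nat_lit 412) (nat_lit 310) (nat_lit 298)))) (XT.nd (nat_lit 78) (nat_lit 0) (nat_lit 0) (XT.lf (nat_lit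 0) (nat_lit 9009069256269) (nat_lit 76) (nat_lit 964443767241) (nat_lit 76) (nat_lit 964375116732) (nat_lit 1) (nat_lit 4) (nat_lit 2) (nat_lit 5) (nat_lit 2) (nat_lit 4) (nat_lit 413) (nat_lit 310) (nat_lit 297)) (XT.nd (nat_lit 78) (nat_lit 0) (nat_lit 0) (XT.lf (nat_lit 0) (nat_lit 10365414614593) (nat_lit 76) (nat_lit 1106517393132) (nat_lit 76) (nat_lit 1106447004842) (nat_lit 1) (nat_lit 4) (nat_lit 2) (nat_lit 5) (nat_lit 2) (nat_lit 4) (nat_lit 414) (nat_lit 310) (nat_lit 296)) (XT.lf (nat_lit 0) (nat_lit 11925060247994) (nat_lit 76) (nat_lit 1269980506998) (nat_lit 76) (nat_lit 1269908607595) (nat_lit 1) (nat_lit 4) (nat_lit 2) (nat_lit 5) (nat_lit 2) (nat_lit 4) (nat_lit 415) (nat_lit 310) (nat_lit 295))))))))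
noncomputable def xc5 : XT := (XT.nd (nat_lit 52416) (nat_lit 0) (nat_lit 0) (XT.nd (nat_lit 780) (nat_lit 0) (nat_lit 0) (XT.nd (nat_lit 390) (nat_lit 0) (nat_lit 0) (XT.nd (nat_lit 156) (nat_lit 0) (nat_lit 0) (XT.nd (nat_lit 78) (nat_lit 0) (nat_lit 0) (XT.lf (nat_lit 0) (nat_lit 13718520962342) (nat_lit 76) (nat_lit 1458031300198) (nat_lit 76) (nat_lit 1457958086783) (nat_lit 1) (nat_lit 4) (nat_lit 2) (nat_lit 5) (nat_lit 2) (nat_lit 4) (nat_lit 416) (nat_lit 310) (nat_lit 294)) (XT.lf (nat_lit 0) (nat_lit 15780886206397) (nat_lit 76) (nat_lit 1674349027381) (nat_lit 76) (nat_lit 1674274671347) (nat_lit 1) (nat_lit 4) (nat_lit 2) (nat_lit 5) (nat_lit 2) (nat_lit 4) (nat_lit 417) (nat_lit 310) (nat_lit 293))) (XT.nd (nat_lit 78) (nat_lit 0) (nat_lit 0) (XT.lf (nat_lit 0) (nat_lit 18152506604498) (nat_lit 76) (nat_lit 1923165991904) (nat_lit 76) (nat_lit 1923090642289) (nat_lit 1) (nat_lit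 4) (nat_lit 2) (nat_lit 5) (nat_lit 2) (nat_lit 4) (nat_lit 418) (nat_lit 310) (nat_lit 292)) (XT.nd (nat_lit 78) (nat_lit 0) (nat_lit 0) (XT.lf (nat_lit 0) (nat_lit 20879783425304) (nat_lit 76) (nat_lit 2209350351770) (nat_lit 76) (nat_lit 2209274138171) (nat_lit 1) (nat_lit 4) (nat_lit 2) (nat_lit 5) (nat_lit 2) (nat_lit 4) (nat_lit 419) (nat_lit 310) (nat_lit 291)) (XT.lf (nat_lit 0) (nat_lit 24016076432700) (nat_lit 76) (nat_lit 2538501366193) (nat_lit 76) (nat_lit 2538424401303) (nat_lit 1) (nat_lit 4) (nat_lit 2) (nat_lit 5) (nat_lit 2) (nat_lit 4) (nat_lit 420) (nat_lit 310) (nat_lit 290))))) (XT.nd (nat_lit 156) (nat_lit 0) (nat_lit 0) (XT.nd (nat_lit 78) (nat_lit 0) (nat_lit 0) (XT.lf (nat_lit 0) (nat_lit 27622747881179) (nat_lit 76) (nat_lit 2917058946325) (nat_lit 76) (nat_lit 2916981328139) (nat_lit 1) (nat_lit 4) (nat_lit 2) (nat_lit 5) (nat_lit 2) (nat_lit 4) (nat_lit 421) (nat_lit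 310) (nat_lit 289)) (XT.lf (nat_lit 0) (nat_lit 31770363081689) (nat_lit 76) (nat_lit 3352429653517) (nat_lit 76) (nat_lit 3352351467247) (nat_lit 1) (nat_lit 4) (nat_lit 2) (nat_lit 5) (nat_lit 2) (nat_lit 4) (nat_lit 422) (nat_lit 310) (nat_lit 288))) (XT.nd (nat_lit 78) (nat_lit 0) (nat_lit 0) (XT.lf (nat_lit 0) (nat_lit 36540071027284) (nat_lit 76) (nat_lit 3853131610299) (nat_lit 76) (nat_lit 3853052930044) (nat_lit 1) (nat_lit 4) (nat_lit 2) (nat_lit 5) (nat_lit 2) (nat_lit 4) (nat_lit 423) (nat_lit 310) (nat_lit 287)) (XT.nd (nat_lit 78) (nat_lit 0) (nat_lit 0) (XT.lf (nat_lit 0) (nat_lit 42025192090812) (nat_lit 76) (nat_lit 4428961159306) (nat_lit 76) (nat_lit 4428882049498) (nat_lit 1) (nat_lit 4) (nat_lit 2) (nat_lit 5) (nat_lit 2) (nat_lit 4) (nat_lit 424) (nat_lit 310) (nat_lit 286)) (XT.lf (nat_lit 0) (nat_lit 48333043858299) (nat_lit 76) (nat_lit 5091184530844) (nat_lit 76)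 (nat_lit 5091105047511) (nat_lit 1) (nat_lit 4) (nat_lit 2) (nat_lit 5) (nat_lit 2) (nat_lit 4) (nat_lit 425) (nat_lit 310) (nat_lit 285)))))) (XT.nd (nat_lit 51168) (nat_lit 0) (nat_lit 0) (XT.nd (nat_lit 50934) (nat_lit 0) (nat_lit 0) (XT.nd (nat_lit 78) (nat_lit 0) (nat_lit 0) (XT.lf (nat_lit 0) (nat_lit 55587040820848) (nat_lit 76) (nat_lit 5852758269137) (nat_lit 76) (nat_lit 5852678461002) (nat_lit 1) (nat_lit 4) (nat_lit 2) (nat_lit 5) (nat_lit 2) (nat_lit 4) (nat_lit 426) (nat_lit 310) (nat_lit 284)) (XT.lf (nat_lit 0) (nat_lit 63929109005987) (nat_lit 76) (nat_lit 6728582729937) (nat_lit 76) (nat_lit 6728502639363) (nat_lit 1) (nat_lit 4) (nat_lit 2) (nat_lit 5) (nat_lit 2) (nat_lit 4) (nat_lit 427) (nat_lit 310) (nat_lit 283))) (XT.nd (nat_lit 78) (nat_lit 0) (nat_lit 0) (XT.lf (nat_lit 0) (nat_lit 526091617532) (nat_lit 76) (nat_lit 73536101506) (nat_lit 76) (nat_lit 73536101506)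 (nat_lit 1) (nat_lit 4) (nat_lit 2) (nat_lit 5) (nat_lit 2) (nat_lit 4) (nat_lit 398) (nat_lit 311) (nat_lit 311)) (XT.nd (nat_lit 78) (nat_lit 0) (nat_lit 0) (XT.lf (nat_lit 0) (nat_lit 1222627445532) (nat_lit 76) (nat_lit 162587406086) (nat_lit 76) (nat_lit 162575110062) (nat_lit 1) (nat_lit 4) (nat_lit 2) (nat_lit 5) (nat_lit 2) (nat_lit 4) (nat_lit 399) (nat_lit 311) (nat_lit 310)) (XT.lf (nat_lit 0) (nat_lit 1417566115270) (nat_lit 76) (nat_lit 180984936931) (nat_lit 76) (nat_lit 180961948712) (nat_lit 1) (nat_lit 4) (nat_lit 2) (nat_lit 5) (nat_lit 2) (nat_lit 4) (nat_lit 400) (nat_lit 311) (nat_lit 309))))) (XT.nd (nat_lit 234) (nat_lit 0) (nat_lit 0) (XT.nd (nat_lit 78) (nat_lit 0) (nat_lit 0) (XT.lf (nat_lit 0) (nat_lit 1640813261729) (nat_lit 76) (nat_lit 202624747237) (nat_lit 76) (nat_lit 202592461458) (nat_lit 1) (nat_lit 4) (nat_lit 2) (nat_lit 5) (nat_lit 2) (nat_lit 4) (nat_lit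 401) (nat_lit 311) (nat_lit 308)) (XT.nd (nat_lit 78) (nat_lit 0) (nat_lit 0) (XT.lf (nat_lit 0) (nat_lit 1896736763862) (nat_lit 76) (nat_lit 227930224598) (nat_lit 76) (nat_lit 227889853983) (nat_lit 1) (nat_lit 4) (nat_lit 2) (nat_lit 5) (nat_lit 2) (nat_lit 4) (nat_lit 402) (nat_lit 311) (nat_lit 307)) (XT.lf (nat_lit 0) (nat_lit 2190343820623) (nat_lit 76) (nat_lit 257396476179) (nat_lit 76) (nat_lit 257349075273) (nat_lit 1) (nat_lit 4) (nat_lit 2) (nat_lit 5) (nat_lit 2) (nat_lit 4) (nat_lit 403) (nat_lit 311) (nat_lit 306)))) (XT.nd (nat_lit 78) (nat_lit 0) (nat_lit 0) (XT.lf (nat_lit 0) (nat_lit 2527378917906) (nat_lit 76) (nat_lit 291600015598) (nat_lit 76) (nat_lit 291546501395) (nat_lit 1) (nat_lit 4) (nat_lit 2) (nat_lit 5) (nat_lit 2) (nat_lit 4) (nat_lit 404) (nat_lit 311) (nat_lit 305)) (XT.nd (nat_lit 78) (nat_lit 0) (nat_lit 0) (XT.lf (nat_lit 0) (nat_lit 2914436220658) (nat_lit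 76) (nat_lit 331210042540) (nat_lit 76) (nat_lit 331151212426) (nat_lit 1) (nat_lit 4) (nat_lit 2) (nat_lit 5) (nat_lit 2) (nat_lit 4) (nat_lit 405) (nat_lit 311) (nat_lit 304)) (XT.lf (nat_lit 0) (nat_lit 3359088589149) (nat_lit 76) (nat_lit 377001535792) (nat_lit 76) (nat_lit 376938083147) (nat_lit 1) (nat_lit 4) (nat_lit 2) (nat_lit 5) (nat_lit 2) (nat_lit 4) (nat_lit 406) (nat_lit 311) (nat_lit 303))))))) (XT.nd (nat_lit 780) (nat_lit 0) (nat_lit 0) (XT.nd (nat_lit 390) (nat_lit 0) (nat_lit 0) (XT.nd (nat_lit 156) (nat_lit 0) (nat_lit 0) (XT.nd (nat_lit 78) (nat_lit 0) (nat_lit 0) (XT.lf (nat_lit 0) (nat_lit 3870035743633) (nat_lit 76) (nat_lit 429870415874) (nat_lit 76) (nat_lit 429802943638) (nat_lit 1) (nat_lit 4) (nat_lit 2) (nat_lit 5) (nat_lit 2) (nat_lit 4) (nat_lit 407) (nat_lit 311) (nat_lit 302)) (XT.lf (nat_lit 0) (nat_lit 4457274476262) (nat_lit 76) (nat_lit 490851073920) (nat_lit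 76) (nat_lit 490780106385) (nat_lit 1) (nat_lit 4) (nat_lit 2) (nat_lit 5) (nat_lit 2) (nat_lit 4) (nat_lit 408) (nat_lit 311) (nat_lit 301))) (XT.nd (nat_lit 78) (nat_lit 0) (nat_lit 0) (XT.lf (nat_lit 0) (nat_lit 5132294240502) (nat_lit 76) (nat_lit 561136609759) (nat_lit 76) (nat_lit 561062602835) (nat_lit 1) (nat_lit 4) (nat_lit 2) (nat_lit 5) (nat_lit 2) (nat_lit 4) (nat_lit 409) (nat_lit 311) (nat_lit 300)) (XT.nd (nat_lit 78) (nat_lit 0) (nat_lit 0) (XT.lf (nat_lit 0) (nat_lit 5908301944783) (nat_lit 76) (nat_lit 642102175180) (nat_lit 76) (nat_lit 642025525309) (nat_lit 1) (nat_lit 4) (nat_lit 2) (nat_lit 5) (nat_lit 2) (nat_lit 4) (nat_lit 410) (nat_lit 311) (nat_lit 299)) (XT.lf (nat_lit 0) (nat_lit 6800480348537) (nat_lit 76) (nat_lit 735331879072) (nat_lit 76) (nat_lit 735252930986) (nat_lit 1) (nat_lit 4) (nat_lit 2) (nat_lit 5) (nat_lit 2) (nat_lit 4) (nat_lit 411) (nat_lit 311)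 (nat_lit 298))))) (XT.nd (nat_lit 156) (nat_lit 0) (nat_lit 0) (XT.nd (nat_lit 78) (nat_lit 0) (nat_lit 0) (XT.lf (nat_lit 0) (nat_lit 7826285116185) (nat_lit 76) (nat_lit 842649780858) (nat_lit 76) (nat_lit 842568834325) (nat_lit 1) (nat_lit 4) (nat_lit 2) (nat_lit 5) (nat_lit 2) (nat_lit 4) (nat_lit 412) (nat_lit 311) (nat_lit 297)) (XT.lf (nat_lit 0) (nat_lit 9005786341006) (nat_lit 76) (nat_lit 966155578618) (nat_lit 76) (nat_lit 966072894304) (nat_lit 1) (nat_lit 4) (nat_lit 2) (nat_lit 5) (nat_lit 2) (nat_lit 4) (nat_lit 413) (nat_lit 311) (nat_lit 296))) (XT.nd (nat_lit 78) (nat_lit 0) (nat_lit 0) (XT.lf (nat_lit 0) (nat_lit 10362061220878) (nat_lit 76) (nat_lit 1108265690133) (nat_lit 76) (nat_lit 1108181494706) (nat_lit 1) (nat_lit 4) (nat_lit 2) (nat_lit 5) (nat_lit 2) (nat_lit 4) (nat_lit 414) (nat_lit 311) (nat_lit 295)) (XT.nd (nat_lit 78) (nat_lit 0) (nat_lit 0) (XT.lf (nat_lit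 0) (nat_lit 11921645568669) (nat_lit 76) (nat_lit 1271760530629) (nat_lit 76) (nat_lit 1271675021190) (nat_lit 1) (nat_lit 4) (nat_lit 2) (nat_lit 5) (nat_lit 2) (nat_lit 4) (nat_lit 415) (nat_lit 311) (nat_lit 294)) (XT.lf (nat_lit 0) (nat_lit 13715052991182) (nat_lit 76) (nat_lit 1459838912202) (nat_lit 76) (nat_lit 1459752260144) (nat_lit 1) (nat_lit 4) (nat_lit 2) (nat_lit 5) (nat_lit 2) (nat_lit 4) (nat_lit 416) (nat_lit 311) (nat_lit 293)))))) (XT.nd (nat_lit 390) (nat_lit 0) (nat_lit 0) (XT.nd (nat_lit 156) (nat_lit 0) (nat_lit 0) (XT.nd (nat_lit 78) (nat_lit 0) (nat_lit 0) (XT.lf (nat_lit 0) (nat_lit 15777371894510) (nat_lit 76) (nat_lit 1676180629275) (nat_lit 76) (nat_lit 1676092983635) (nat_lit 1) (nat_lit 4) (nat_lit 2) (nat_lit 5) (nat_lit 2) (nat_lit 4) (nat_lit 417) (nat_lit 311) (nat_lit 292)) (XT.lf (nat_lit 0) (nat_lit 18148951996327) (nat_lit 76) (nat_lit 1925018454572)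 (nat_lit 76) (nat_lit 1924929944949) (nat_lit 1) (nat_lit 4) (nat_lit 2) (nat_lit 5) (nat_lit 2) (nat_lit 4) (nat_lit 418) (nat_lit 311) (nat_lit 291))) (XT.nd (nat_lit 78) (nat_lit 0) (nat_lit 0) (XT.lf (nat_lit 0) (nat_lit 20876193776886) (nat_lit 76) (nat_lit 2211220954241) (nat_lit 76) (nat_lit 2211131693327) (nat_lit 1) (nat_lit 4) (nat_lit 2) (nat_lit 5) (nat_lit 2) (nat_lit 4) (nat_lit 419) (nat_lit 311) (nat_lit 290)) (XT.nd (nat_lit 78) (nat_lit 0) (nat_lit 0) (XT.lf (nat_lit 0) (nat_lit 24012456314502) (nat_lit 76) (nat_lit 2540387742407) (nat_lit 76) (nat_lit 2540297828197) (nat_lit 1) (nat_lit 4) (nat_lit 2) (nat_lit 5) (nat_lit 2) (nat_lit 4) (nat_lit 420) (nat_lit 311) (nat_lit 289)) (XT.lf (nat_lit 0) (nat_lit 27619101267520) (nat_lit 76) (nat_lit 2918959038836) (nat_lit 76) (nat_lit 2918868556542) (nat_lit 1) (nat_lit 4) (nat_lit 2) (nat_lit 5) (nat_lit 2) (nat_lit 4) (nat_lit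 421) (nat_lit 311) (nat_lit 288))))) (XT.nd (nat_lit 234) (nat_lit 0) (nat_lit 0) (XT.nd (nat_lit 78) (nat_lit 0) (nat_lit 0) (XT.lf (nat_lit 0) (nat_lit 31766693428499) (nat_lit 76) (nat_lit 3354341673243) (nat_lit 76) (nat_lit 3354250696963) (nat_lit 1) (nat_lit 4) (nat_lit 2) (nat_lit 5) (nat_lit 2) (nat_lit 4) (nat_lit 422) (nat_lit 311) (nat_lit 287)) (XT.nd (nat_lit 78) (nat_lit 0) (nat_lit 0) (XT.lf (nat_lit 0) (nat_lit 36536381339719) (nat_lit 76) (nat_lit 3855054001517) (nat_lit 76) (nat_lit 3854962595685) (nat_lit 1) (nat_lit 4) (nat_lit 2) (nat_lit 5) (nat_lit 2) (nat_lit 4) (nat_lit 423) (nat_lit 311) (nat_lit 286)) (XT.lf (nat_lit 0) (nat_lit 42021484982052) (nat_lit 76) (nat_lit 4430892569212) (nat_lit 76) (nat_lit 4430800789856) (nat_lit 1) (nat_lit 4) (nat_lit 2) (nat_lit 5) (nat_lit 2) (nat_lit 4) (nat_lit 424) (nat_lit 311) (nat_lit 285)))) (XT.nd (nat_lit 78) (nat_lit 0)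 (nat_lit 0) (XT.lf (nat_lit 0) (nat_lit 48329321600674) (nat_lit 76) (nat_lit 5093123783087) (nat_lit 76) (nat_lit 5093031678927) (nat_lit 1) (nat_lit 4) (nat_lit 2) (nat_lit 5) (nat_lit 2) (nat_lit 4) (nat_lit 425) (nat_lit 311) (nat_lit 284)) (XT.nd (nat_lit 78) (nat_lit 0) (nat_lit 0) (XT.lf (nat_lit 0) (nat_lit 55583305390296) (nat_lit 76) (nat_lit 5854704340805) (nat_lit 76) (nat_lit 5854611954207) (nat_lit 1) (nat_lit 4) (nat_lit 2) (nat_lit 5) (nat_lit 2) (nat_lit 4) (nat_lit 426) (nat_lit 311) (nat_lit 283)) (XT.lf (nat_lit 0) (nat_lit 63925362120717) (nat_lit 76) (nat_lit 6730534731538) (nat_lit 76) (nat_lit 6730442099342) (nat_lit 1) (nat_lit 4) (nat_lit 2) (nat_lit 5) (nat_lit 2) (nat_lit 4) (nat_lit 427) (nat_lit 311) (nat_lit 282))))))))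
noncomputable def xc6 : XT := (XT.nd (nat_lit 1638) (nat_lit 0) (nat_lit 0) (XT.nd (nat_lit 780) (nat_lit 0) (nat_lit 0) (XT.nd (nat_lit 390) (nat_lit 0) (nat_lit 0) (XT.nd (nat_lit 156) (nat_lit 0) (nat_lit 0) (XT.nd (nat_lit 78) (nat_lit 0) (nat_lit 0) (XT.lf (nat_lit 0) (nat_lit 386256292107) (nat_lit 76) (nat_lit 61598861435) (nat_lit 76) (nat_lit 61598861435) (nat_lit 1) (nat_lit 4) (nat_lit 2) (nat_lit 5) (nat_lit 2) (nat_lit 4) (nat_lit 396) (nat_lit 312) (nat_lit 312)) (XT.lf (nat_lit 0) (nat_lit 902898705836) (nat_lit 76) (nat_lit 134149909817) (nat_lit 76) (nat_lit 134135769389) (nat_lit 1) (nat_lit 4) (nat_lit 2) (nat_lit 5) (nat_lit 2) (nat_lit 4) (nat_lit 397) (nat_lit 312) (nat_lit 311))) (XT.nd (nat_lit 78) (nat_lit 0) (nat_lit 0) (XT.lf (nat_lit 0) (nat_lit 1051609747555) (nat_lit 76) (nat_lit 147383229211) (nat_lit 76) (nat_lit 147356792759) (nat_lit 1) (nat_lit 4) (nat_lit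 2) (nat_lit 5) (nat_lit 2) (nat_lit 4) (nat_lit 398) (nat_lit 312) (nat_lit 310)) (XT.nd (nat_lit 78) (nat_lit 0) (nat_lit 0) (XT.lf (nat_lit 0) (nat_lit 1221555273232) (nat_lit 76) (nat_lit 163156593824) (nat_lit 76) (nat_lit 163119465178) (nat_lit 1) (nat_lit 4) (nat_lit 2) (nat_lit 5) (nat_lit 2) (nat_lit 4) (nat_lit 399) (nat_lit 312) (nat_lit 309)) (XT.lf (nat_lit 0) (nat_lit 1416060304021) (nat_lit 76) (nat_lit 181778612964) (nat_lit 76) (nat_lit 181732186757) (nat_lit 1) (nat_lit 4) (nat_lit 2) (nat_lit 5) (nat_lit 2) (nat_lit 4) (nat_lit 400) (nat_lit 312) (nat_lit 308))))) (XT.nd (nat_lit 156) (nat_lit 0) (nat_lit 0) (XT.nd (nat_lit 78) (nat_lit 0) (nat_lit 0) (XT.lf (nat_lit 0) (nat_lit 1638930373134) (nat_lit 76) (nat_lit 203613630484) (nat_lit 76) (nat_lit 203559119441) (nat_lit 1) (nat_lit 4) (nat_lit 2) (nat_lit 5) (nat_lit 2) (nat_lit 4) (nat_lit 401) (nat_lit 312) (nat_lit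 307)) (XT.lf (nat_lit 0) (nat_lit 1894525981922) (nat_lit 76) (nat_lit 229088853247) (nat_lit 76) (nat_lit 229027311913) (nat_lit 1) (nat_lit 4) (nat_lit 2) (nat_lit 5) (nat_lit 2) (nat_lit 4) (nat_lit 402) (nat_lit 312) (nat_lit 306))) (XT.nd (nat_lit 78) (nat_lit 0) (nat_lit 0) (XT.lf (nat_lit 0) (nat_lit 2187847914035) (nat_lit 76) (nat_lit 258702709526) (nat_lit 76) (nat_lit 258635054895) (nat_lit 1) (nat_lit 4) (nat_lit 2) (nat_lit 5) (nat_lit 2) (nat_lit 4) (nat_lit 403) (nat_lit 312) (nat_lit 305)) (XT.nd (nat_lit 78) (nat_lit 0) (nat_lit 0) (XT.lf (nat_lit 0) (nat_lit 2524635076842) (nat_lit 76) (nat_lit 293034600857) (nat_lit 76) (nat_lit 292961630315) (nat_lit 1) (nat_lit 4) (nat_lit 2) (nat_lit 5) (nat_lit 2) (nat_lit 4) (nat_lit 404) (nat_lit 312) (nat_lit 304)) (XT.lf (nat_lit 0) (nat_lit 2911476784397) (nat_lit 76) (nat_lit 332756238156) (nat_lit 76) (nat_lit 332678645084) (nat_lit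 1) (nat_lit 4) (nat_lit 2) (nat_lit 5) (nat_lit 2) (nat_lit 4) (nat_lit 405) (nat_lit 312) (nat_lit 303)))))) (XT.nd (nat_lit 390) (nat_lit 0) (nat_lit 0) (XT.nd (nat_lit 156) (nat_lit 0) (nat_lit 0) (XT.nd (nat_lit 78) (nat_lit 0) (nat_lit 0) (XT.lf (nat_lit 0) (nat_lit 3355941678804) (nat_lit 76) (nat_lit 378644783893) (nat_lit 76) (nat_lit 378563171229) (nat_lit 1) (nat_lit 4) (nat_lit 2) (nat_lit 5) (nat_lit 2) (nat_lit 4) (nat_lit 406) (nat_lit 312) (nat_lit 302)) (XT.lf (nat_lit 0) (nat_lit 3866725812345) (nat_lit 76) (nat_lit 431598057441) (nat_lit 76) (nat_lit 431512949479) (nat_lit 1) (nat_lit 4) (nat_lit 2) (nat_lit 5) (nat_lit 2) (nat_lit 4) (nat_lit 407) (nat_lit 312) (nat_lit 301))) (XT.nd (nat_lit 78) (nat_lit 0) (nat_lit 0) (XT.lf (nat_lit 0) (nat_lit 4453822787633) (nat_lit 76) (nat_lit 492652101108) (nat_lit 76) (nat_lit 492563953757) (nat_lit 1) (nat_lit 4) (nat_lit 2) (nat_lit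 5) (nat_lit 2) (nat_lit 4) (nat_lit 408) (nat_lit 312) (nat_lit 300)) (XT.nd (nat_lit 78) (nat_lit 0) (nat_lit 0) (XT.lf (nat_lit 0) (nat_lit 5128719284620) (nat_lit 76) (nat_lit 563001450531) (nat_lit 76) (nat_lit 562910660233) (nat_lit 1) (nat_lit 4) (nat_lit 2) (nat_lit 5) (nat_lit 2) (nat_lit 4) (nat_lit 409) (nat_lit 312) (nat_lit 299)) (XT.lf (nat_lit 0) (nat_lit 5904619799985) (nat_lit 76) (nat_lit 644022506026) (nat_lit 76) (nat_lit 643929417513) (nat_lit 1) (nat_lit 4) (nat_lit 2) (nat_lit 5) (nat_lit 2) (nat_lit 4) (nat_lit 410) (nat_lit 312) (nat_lit 298))))) (XT.nd (nat_lit 234) (nat_lit 0) (nat_lit 0) (XT.nd (nat_lit 78) (nat_lit 0) (nat_lit 0) (XT.lf (nat_lit 0) (nat_lit 6796704995985) (nat_lit 76) (nat_lit 737300462155) (nat_lit 76) (nat_lit 737205375195) (nat_lit 1) (nat_lit 4) (nat_lit 2) (nat_lit 5) (nat_lit 2) (nat_lit 4) (nat_lit 411) (nat_lit 312) (nat_lit 297)) (XT.nd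 (nat_lit 78) (nat_lit 0) (nat_lit 0) (XT.lf (nat_lit 0) (nat_lit 7822428713413) (nat_lit 76) (nat_lit 844660322409) (nat_lit 76) (nat_lit 844563497668) (nat_lit 1) (nat_lit 4) (nat_lit 2) (nat_lit 5) (nat_lit 2) (nat_lit 4) (nat_lit 412) (nat_lit 312) (nat_lit 296)) (XT.lf (nat_lit 0) (nat_lit 9001859459782) (nat_lit 76) (nat_lit 968202605793) (nat_lit 76) (nat_lit 968104269938) (nat_lit 1) (nat_lit 4) (nat_lit 2) (nat_lit 5) (nat_lit 2) (nat_lit 4) (nat_lit 413) (nat_lit 312) (nat_lit 295)))) (XT.nd (nat_lit 78) (nat_lit 0) (nat_lit 0) (XT.lf (nat_lit 0) (nat_lit 10358073054044) (nat_lit 76) (nat_lit 1110344443938) (nat_lit 76) (nat_lit 1110244794071) (nat_lit 1) (nat_lit 4) (nat_lit 2) (nat_lit 5) (nat_lit 2) (nat_lit 4) (nat_lit 414) (nat_lit 312) (nat_lit 294)) (XT.nd (nat_lit 78) (nat_lit 0) (nat_lit 0) (XT.lf (nat_lit 0) (nat_lit 11917604109999) (nat_lit 76) (nat_lit 1273866872807) (nat_lit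 76) (nat_lit 1273766080322) (nat_lit 1) (nat_lit 4) (nat_lit 2) (nat_lit 5) (nat_lit 2) (nat_lit 4) (nat_lit 415) (nat_lit 312) (nat_lit 293)) (XT.lf (nat_lit 0) (nat_lit 13710965191785) (nat_lit 76) (nat_lit 1461969244270) (nat_lit 76) (nat_lit 1461867458203) (nat_lit 1) (nat_lit 4) (nat_lit 2) (nat_lit 5) (nat_lit 2) (nat_lit 4) (nat_lit 416) (nat_lit 312) (nat_lit 292))))))) (XT.nd (nat_lit 780) (nat_lit 0) (nat_lit 0) (XT.nd (nat_lit 390) (nat_lit 0) (nat_lit 0) (XT.nd (nat_lit 156) (nat_lit 0) (nat_lit 0) (XT.nd (nat_lit 78) (nat_lit 0) (nat_lit 0) (XT.lf (nat_lit 0) (nat_lit 15773243798829) (nat_lit 76) (nat_lit 1678331822117) (nat_lit 76) (nat_lit 1678229172066) (nat_lit 1) (nat_lit 4) (nat_lit 2) (nat_lit 5) (nat_lit 2) (nat_lit 4) (nat_lit 417) (nat_lit 312) (nat_lit 291)) (XT.lf (nat_lit 0) (nat_lit 18144788860400) (nat_lit 76) (nat_lit 1927187787217) (nat_lit 76) (nat_lit 1927084385876)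 (nat_lit 1) (nat_lit 4) (nat_lit 2) (nat_lit 5) (nat_lit 2) (nat_lit 4) (nat_lit 418) (nat_lit 312) (nat_lit 290))) (XT.nd (nat_lit 78) (nat_lit 0) (nat_lit 0) (XT.lf (nat_lit 0) (nat_lit 20872000171179) (nat_lit 76) (nat_lit 2213406060629) (nat_lit 76) (nat_lit 2213302005991) (nat_lit 1) (nat_lit 4) (nat_lit 2) (nat_lit 5) (nat_lit 2) (nat_lit 4) (nat_lit 419) (nat_lit 312) (nat_lit 289)) (XT.nd (nat_lit 78) (nat_lit 0) (nat_lit 0) (XT.lf (nat_lit 0) (nat_lit 24008236213334) (nat_lit 76) (nat_lit 2542586565091) (nat_lit 76) (nat_lit 2542481942370) (nat_lit 1) (nat_lit 4) (nat_lit 2) (nat_lit 5) (nat_lit 2) (nat_lit 4) (nat_lit 420) (nat_lit 312) (nat_lit 288)) (XT.lf (nat_lit 0) (nat_lit 27614858126822) (nat_lit 76) (nat_lit 2921169788736) (nat_lit 76) (nat_lit 2921064672029) (nat_lit 1) (nat_lit 4) (nat_lit 2) (nat_lit 5) (nat_lit 2) (nat_lit 4) (nat_lit 421) (nat_lit 312) (nat_lit 287)))))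 (XT.nd (nat_lit 156) (nat_lit 0) (nat_lit 0) (XT.nd (nat_lit 78) (nat_lit 0) (nat_lit 0) (XT.lf (nat_lit 0) (nat_lit 31762430253426) (nat_lit 76) (nat_lit 3356562794634) (nat_lit 76) (nat_lit 3356457248375) (nat_lit 1) (nat_lit 4) (nat_lit 2) (nat_lit 5) (nat_lit 2) (nat_lit 4) (nat_lit 422) (nat_lit 312) (nat_lit 286)) (XT.lf (nat_lit 0) (nat_lit 36532100743450) (nat_lit 76) (nat_lit 3857284141597) (nat_lit 76) (nat_lit 3857178221813) (nat_lit 1) (nat_lit 4) (nat_lit 2) (nat_lit 5) (nat_lit 2) (nat_lit 4) (nat_lit 423) (nat_lit 312) (nat_lit 285))) (XT.nd (nat_lit 78) (nat_lit 0) (nat_lit 0) (XT.lf (nat_lit 0) (nat_lit 42017189236918) (nat_lit 76) (nat_lit 4433130551629) (nat_lit 76) (nat_lit 4433024307042) (nat_lit 1) (nat_lit 4) (nat_lit 2) (nat_lit 5) (nat_lit 2) (nat_lit 4) (nat_lit 424) (nat_lit 312) (nat_lit 284)) (XT.nd (nat_lit 78) (nat_lit 0) (nat_lit 0) (XT.lf (nat_lit 0) (nat_lit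 48325012682612) (nat_lit 76) (nat_lit 5095368584928) (nat_lit 76) (nat_lit 5095262057903) (nat_lit 1) (nat_lit 4) (nat_lit 2) (nat_lit 5) (nat_lit 2) (nat_lit 4) (nat_lit 425) (nat_lit 312) (nat_lit 283)) (XT.lf (nat_lit 0) (nat_lit 55578985017516) (nat_lit 76) (nat_lit 5856955072580) (nat_lit 76) (nat_lit 5856848299957) (nat_lit 1) (nat_lit 4) (nat_lit 2) (nat_lit 5) (nat_lit 2) (nat_lit 4) (nat_lit 426) (nat_lit 312) (nat_lit 282)))))) (XT.nd (nat_lit 50856) (nat_lit 0) (nat_lit 0) (XT.nd (nat_lit 50622) (nat_lit 0) (nat_lit 0) (XT.nd (nat_lit 50544) (nat_lit 0) (nat_lit 0) (XT.lf (nat_lit 0) (nat_lit 63921031787311) (nat_lit 76) (nat_lit 6732790619778) (nat_lit 76) (nat_lit 6732683633591) (nat_lit 1) (nat_lit 4) (nat_lit 2) (nat_lit 5) (nat_lit 2) (nat_lit 4) (nat_lit 427) (nat_lit 312) (nat_lit 281)) (XT.lf (nat_lit 0) (nat_lit 278789013386) (nat_lit 76) (nat_lit 53471843545) (nat_lit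 76) (nat_lit 53471843545) (nat_lit 1) (nat_lit 4) (nat_lit 2) (nat_lit 5) (nat_lit 2) (nat_lit 4) (nat_lit 394) (nat_lit 313) (nat_lit 313))) (XT.nd (nat_lit 78) (nat_lit 0) (nat_lit 0) (XT.lf (nat_lit 0) (nat_lit 657900349876) (nat_lit 76) (nat_lit 114328647947) (nat_lit 76) (nat_lit 114312386455) (nat_lit 1) (nat_lit 4) (nat_lit 2) (nat_lit 5) (nat_lit 2) (nat_lit 4) (nat_lit 395) (nat_lit 313) (nat_lit 312)) (XT.nd (nat_lit 78) (nat_lit 0) (nat_lit 0) (XT.lf (nat_lit 0) (nat_lit 771853073578) (nat_lit 76) (nat_lit 123555402999) (nat_lit 76) (nat_lit 123525001079) (nat_lit 1) (nat_lit 4) (nat_lit 2) (nat_lit 5) (nat_lit 2) (nat_lit 4) (nat_lit 396) (nat_lit 313) (nat_lit 311)) (XT.lf (nat_lit 0) (nat_lit 901665707690) (nat_lit 76) (nat_lit 134804475715) (nat_lit 76) (nat_lit 134761777772) (nat_lit 1) (nat_lit 4) (nat_lit 2) (nat_lit 5) (nat_lit 2) (nat_lit 4) (nat_lit 397) (nat_lit 313)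 (nat_lit 310))))) (XT.nd (nat_lit 234) (nat_lit 0) (nat_lit 0) (XT.nd (nat_lit 78) (nat_lit 0) (nat_lit 0) (XT.lf (nat_lit 0) (nat_lit 1049878064619) (nat_lit 76) (nat_lit 148295956648) (nat_lit 76) (nat_lit 148242566510) (nat_lit 1) (nat_lit 4) (nat_lit 2) (nat_lit 5) (nat_lit 2) (nat_lit 4) (nat_lit 398) (nat_lit 313) (nat_lit 309)) (XT.nd (nat_lit 78) (nat_lit 0) (nat_lit 0) (XT.lf (nat_lit 0) (nat_lit 1219389951347) (nat_lit 76) (nat_lit 164293809557) (nat_lit 76) (nat_lit 164231121858) (nat_lit 1) (nat_lit 4) (nat_lit 2) (nat_lit 5) (nat_lit 2) (nat_lit 4) (nat_lit 399) (nat_lit 313) (nat_lit 308)) (XT.lf (nat_lit 0) (nat_lit 1413517904790) (nat_lit 76) (nat_lit 183111035910) (nat_lit 76) (nat_lit 183040263376) (nat_lit 1) (nat_lit 4) (nat_lit 2) (nat_lit 5) (nat_lit 2) (nat_lit 4) (nat_lit 400) (nat_lit 313) (nat_lit 307)))) (XT.nd (nat_lit 78) (nat_lit 0) (nat_lit 0) (XT.lf (nat_lit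 0) (nat_lit 1636060080558) (nat_lit 76) (nat_lit 205115798833) (nat_lit 76) (nat_lit 205037996007) (nat_lit 1) (nat_lit 4) (nat_lit 2) (nat_lit 5) (nat_lit 2) (nat_lit 4) (nat_lit 401) (nat_lit 313) (nat_lit 306)) (XT.nd (nat_lit 78) (nat_lit 0) (nat_lit 0) (XT.lf (nat_lit 0) (nat_lit 1891370564698) (nat_lit 76) (nat_lit 230738626295) (nat_lit 76) (nat_lit 230654710172) (nat_lit 1) (nat_lit 4) (nat_lit 2) (nat_lit 5) (nat_lit 2) (nat_lit 4) (nat_lit 402) (nat_lit 313) (nat_lit 305)) (XT.lf (nat_lit 0) (nat_lit 2184444562335) (nat_lit 76) (nat_lit 260480834485) (nat_lit 76) (nat_lit 260391602452) (nat_lit 1) (nat_lit 4) (nat_lit 2) (nat_lit 5) (nat_lit 2) (nat_lit 4) (nat_lit 403) (nat_lit 313) (nat_lit 304))))))))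
noncomputable def xc7 : XT := (XT.nd (nat_lit 1638) (nat_lit 0) (nat_lit 0) (XT.nd (nat_lit 780) (nat_lit 0) (nat_lit 0) (XT.nd (nat_lit 390) (nat_lit 0) (nat_lit 0) (XT.nd (nat_lit 156) (nat_lit 0) (nat_lit 0) (XT.nd (nat_lit 78) (nat_lit 0) (nat_lit 0) (XT.lf (nat_lit 0) (nat_lit 2521016129945) (nat_lit 76) (nat_lit 294924336173) (nat_lit 76) (nat_lit 294830481609) (nat_lit 1) (nat_lit 4) (nat_lit 2) (nat_lit 5) (nat_lit 2) (nat_lit 4) (nat_lit 404) (nat_lit 313) (nat_lit 303)) (XT.lf (nat_lit 0) (nat_lit 2907670363416) (nat_lit 76) (nat_lit 334743025958) (nat_lit 76) (nat_lit 334645151802) (nat_lit 1) (nat_lit 4) (nat_lit 2) (nat_lit 5) (nat_lit 2) (nat_lit 4) (nat_lit 405) (nat_lit 313) (nat_lit 302))) (XT.nd (nat_lit 78) (nat_lit 0) (nat_lit 0) (XT.lf (nat_lit 0) (nat_lit 3351972236880) (nat_lit 76) (nat_lit 380715965160) (nat_lit 76) (nat_lit 380614595706) (nat_lit 1) (nat_lit 4) (nat_lit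 2) (nat_lit 5) (nat_lit 2) (nat_lit 4) (nat_lit 406) (nat_lit 313) (nat_lit 301)) (XT.nd (nat_lit 78) (nat_lit 0) (nat_lit 0) (XT.lf (nat_lit 0) (nat_lit 3862614613080) (nat_lit 76) (nat_lit 433742624330) (nat_lit 76) (nat_lit 433638215487) (nat_lit 1) (nat_lit 4) (nat_lit 2) (nat_lit 5) (nat_lit 2) (nat_lit 4) (nat_lit 407) (nat_lit 313) (nat_lit 300)) (XT.lf (nat_lit 0) (nat_lit 4449588321115) (nat_lit 76) (nat_lit 494860481581) (nat_lit 76) (nat_lit 494753429791) (nat_lit 1) (nat_lit 4) (nat_lit 2) (nat_lit 5) (nat_lit 2) (nat_lit 4) (nat_lit 408) (nat_lit 313) (nat_lit 299))))) (XT.nd (nat_lit 156) (nat_lit 0) (nat_lit 0) (XT.nd (nat_lit 78) (nat_lit 0) (nat_lit 0) (XT.lf (nat_lit 0) (nat_lit 5124377629185) (nat_lit 76) (nat_lit 565265321078) (nat_lit 76) (nat_lit 565155971073) (nat_lit 1) (nat_lit 4) (nat_lit 2) (nat_lit 5) (nat_lit 2) (nat_lit 4) (nat_lit 409) (nat_lit 313) (nat_lit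 298)) (XT.lf (nat_lit 0) (nat_lit 5900184936797) (nat_lit 76) (nat_lit 646334628810) (nat_lit 76) (nat_lit 646223280357) (nat_lit 1) (nat_lit 4) (nat_lit 2) (nat_lit 5) (nat_lit 2) (nat_lit 4) (nat_lit 410) (nat_lit 313) (nat_lit 297))) (XT.nd (nat_lit 78) (nat_lit 0) (nat_lit 0) (XT.lf (nat_lit 0) (nat_lit 6792189082577) (nat_lit 76) (nat_lit 739654543407) (nat_lit 76) (nat_lit 739541457174) (nat_lit 1) (nat_lit 4) (nat_lit 2) (nat_lit 5) (nat_lit 2) (nat_lit 4) (nat_lit 411) (nat_lit 313) (nat_lit 296)) (XT.nd (nat_lit 78) (nat_lit 0) (nat_lit 0) (XT.lf (nat_lit 0) (nat_lit 7817842321552) (nat_lit 76) (nat_lit 847050889285) (nat_lit 76) (nat_lit 846936291938) (nat_lit 1) (nat_lit 4) (nat_lit 2) (nat_lit 5) (nat_lit 2) (nat_lit 4) (nat_lit 412) (nat_lit 313) (nat_lit 295)) (XT.lf (nat_lit 0) (nat_lit 8997211782311) (nat_lit 76) (nat_lit 970624899298) (nat_lit 76) (nat_lit 970508987940) (nat_lit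 1) (nat_lit 4) (nat_lit 2) (nat_lit 5) (nat_lit 2) (nat_lit 4) (nat_lit 413) (nat_lit 313) (nat_lit 294)))))) (XT.nd (nat_lit 390) (nat_lit 0) (nat_lit 0) (XT.nd (nat_lit 156) (nat_lit 0) (nat_lit 0) (XT.nd (nat_lit 78) (nat_lit 0) (nat_lit 0) (XT.lf (nat_lit 0) (nat_lit 10353372084737) (nat_lit 76) (nat_lit 1112794325816) (nat_lit 76) (nat_lit 1112677271839) (nat_lit 1) (nat_lit 4) (nat_lit 2) (nat_lit 5) (nat_lit 2) (nat_lit 4) (nat_lit 414) (nat_lit 313) (nat_lit 293)) (XT.lf (nat_lit 0) (nat_lit 11912856799966) (nat_lit 76) (nat_lit 1276340744575) (nat_lit 76) (nat_lit 1276222697017) (nat_lit 1) (nat_lit 4) (nat_lit 2) (nat_lit 5) (nat_lit 2) (nat_lit 4) (nat_lit 415) (nat_lit 313) (nat_lit 292))) (XT.nd (nat_lit 78) (nat_lit 0) (nat_lit 0) (XT.lf (nat_lit 0) (nat_lit 13706177585469) (nat_lit 76) (nat_lit 1464463976812) (nat_lit 76) (nat_lit 1464345065270) (nat_lit 1) (nat_lit 4) (nat_lit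 2) (nat_lit 5) (nat_lit 2) (nat_lit 4) (nat_lit 416) (nat_lit 313) (nat_lit 291)) (XT.nd (nat_lit 78) (nat_lit 0) (nat_lit 0) (XT.lf (nat_lit 0) (nat_lit 15768421152266) (nat_lit 76) (nat_lit 1680844694462) (nat_lit 76) (nat_lit 1680725031629) (nat_lit 1) (nat_lit 4) (nat_lit 2) (nat_lit 5) (nat_lit 2) (nat_lit 4) (nat_lit 417) (nat_lit 313) (nat_lit 290)) (XT.lf (nat_lit 0) (nat_lit 18139935744057) (nat_lit 76) (nat_lit 1929716433305) (nat_lit 76) (nat_lit 1929596117176) (nat_lit 1) (nat_lit 4) (nat_lit 2) (nat_lit 5) (nat_lit 2) (nat_lit 4) (nat_lit 418) (nat_lit 313) (nat_lit 289))))) (XT.nd (nat_lit 234) (nat_lit 0) (nat_lit 0) (XT.nd (nat_lit 78) (nat_lit 0) (nat_lit 0) (XT.lf (nat_lit 0) (nat_lit 20867120559375) (nat_lit 76) (nat_lit 2215948423014) (nat_lit 76) (nat_lit 2215827538801) (nat_lit 1) (nat_lit 4) (nat_lit 2) (nat_lit 5) (nat_lit 2) (nat_lit 4) (nat_lit 419) (nat_lit 313)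 (nat_lit 288)) (XT.nd (nat_lit 78) (nat_lit 0) (nat_lit 0) (XT.lf (nat_lit 0) (nat_lit 24003333562000) (nat_lit 76) (nat_lit 2545140854692) (nat_lit 76) (nat_lit 2545019476493) (nat_lit 1) (nat_lit 4) (nat_lit 2) (nat_lit 5) (nat_lit 2) (nat_lit 4) (nat_lit 420) (nat_lit 313) (nat_lit 287)) (XT.lf (nat_lit 0) (nat_lit 27609935441112) (nat_lit 76) (nat_lit 2923734449828) (nat_lit 76) (nat_lit 2923612642077) (nat_lit 1) (nat_lit 4) (nat_lit 2) (nat_lit 5) (nat_lit 2) (nat_lit 4) (nat_lit 421) (nat_lit 313) (nat_lit 286)))) (XT.nd (nat_lit 78) (nat_lit 0) (nat_lit 0) (XT.lf (nat_lit 0) (nat_lit 31757490146521) (nat_lit 76) (nat_lit 3359136474414) (nat_lit 76) (nat_lit 3359014293139) (nat_lit 1) (nat_lit 4) (nat_lit 2) (nat_lit 5) (nat_lit 2) (nat_lit 4) (nat_lit 422) (nat_lit 313) (nat_lit 285)) (XT.nd (nat_lit 78) (nat_lit 0) (nat_lit 0) (XT.lf (nat_lit 0) (nat_lit 36527145487680) (nat_lit 76)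 (nat_lit 3859865663714) (nat_lit 76) (nat_lit 3859743157635) (nat_lit 1) (nat_lit 4) (nat_lit 2) (nat_lit 5) (nat_lit 2) (nat_lit 4) (nat_lit 423) (nat_lit 313) (nat_lit 284)) (XT.lf (nat_lit 0) (nat_lit 42012220808220) (nat_lit 76) (nat_lit 4435718893171) (nat_lit 76) (nat_lit 4435596104654) (nat_lit 1) (nat_lit 4) (nat_lit 2) (nat_lit 5) (nat_lit 2) (nat_lit 4) (nat_lit 424) (nat_lit 313) (nat_lit 283))))))) (XT.nd (nat_lit 51090) (nat_lit 0) (nat_lit 0) (XT.nd (nat_lit 50700) (nat_lit 0) (nat_lit 0) (XT.nd (nat_lit 156) (nat_lit 0) (nat_lit 0) (XT.nd (nat_lit 78) (nat_lit 0) (nat_lit 0) (XT.lf (nat_lit 0) (nat_lit 48320032799196) (nat_lit 76) (nat_lit 5097962856404) (nat_lit 76) (nat_lit 5097839822288) (nat_lit 1) (nat_lit 4) (nat_lit 2) (nat_lit 5) (nat_lit 2) (nat_lit 4) (nat_lit 425) (nat_lit 313) (nat_lit 282)) (XT.lf (nat_lit 0) (nat_lit 55573995173475) (nat_lit 76) (nat_lit 5859554500520)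 (nat_lit 76) (nat_lit 5859431252841) (nat_lit 1) (nat_lit 4) (nat_lit 2) (nat_lit 5) (nat_lit 2) (nat_lit 4) (nat_lit 426) (nat_lit 313) (nat_lit 281))) (XT.nd (nat_lit 50388) (nat_lit 0) (nat_lit 0) (XT.lf (nat_lit 0) (nat_lit 63916033281857) (nat_lit 76) (nat_lit 6735394531599) (nat_lit 76) (nat_lit 6735271098213) (nat_lit 1) (nat_lit 4) (nat_lit 2) (nat_lit 5) (nat_lit 2) (nat_lit 4) (nat_lit 427) (nat_lit 313) (nat_lit 280)) (XT.nd (nat_lit 78) (nat_lit 0) (nat_lit 0) (XT.lf (nat_lit 0) (nat_lit 195536875763) (nat_lit 76) (nat_lit 48360788617) (nat_lit 76) (nat_lit 48360788617) (nat_lit 1) (nat_lit 4) (nat_lit 2) (nat_lit 5) (nat_lit 2) (nat_lit 4) (nat_lit 392) (nat_lit 314) (nat_lit 314)) (XT.lf (nat_lit 0) (nat_lit 468923276206) (nat_lit 76) (nat_lit 101274732782) (nat_lit 76) (nat_lit 101256032066) (nat_lit 1) (nat_lit 4) (nat_lit 2) (nat_lit 5) (nat_lit 2) (nat_lit 4) (nat_lit 393)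 (nat_lit 314) (nat_lit 313))))) (XT.nd (nat_lit 156) (nat_lit 0) (nat_lit 0) (XT.nd (nat_lit 78) (nat_lit 0) (nat_lit 0) (XT.lf (nat_lit 0) (nat_lit 556819589541) (nat_lit 76) (nat_lit 107355019238) (nat_lit 76) (nat_lit 107320057031) (nat_lit 1) (nat_lit 4) (nat_lit 2) (nat_lit 5) (nat_lit 2) (nat_lit 4) (nat_lit 394) (nat_lit 314) (nat_lit 312)) (XT.lf (nat_lit 0) (nat_lit 656482402009) (nat_lit 76) (nat_lit 115081398730) (nat_lit 76) (nat_lit 115032296095) (nat_lit 1) (nat_lit 4) (nat_lit 2) (nat_lit 5) (nat_lit 2) (nat_lit 4) (nat_lit 395) (nat_lit 314) (nat_lit 311))) (XT.nd (nat_lit 78) (nat_lit 0) (nat_lit 0) (XT.lf (nat_lit 0) (nat_lit 769861638202) (nat_lit 76) (nat_lit 124605039552) (nat_lit 76) (nat_lit 124543640893) (nat_lit 1) (nat_lit 4) (nat_lit 2) (nat_lit 5) (nat_lit 2) (nat_lit 4) (nat_lit 396) (nat_lit 314) (nat_lit 310)) (XT.nd (nat_lit 78) (nat_lit 0) (nat_lit 0) (XT.lf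 (nat_lit 0) (nat_lit 899175587523) (nat_lit 76) (nat_lit 136112273808) (nat_lit 76) (nat_lit 136040182954) (nat_lit 1) (nat_lit 4) (nat_lit 2) (nat_lit 5) (nat_lit 2) (nat_lit 4) (nat_lit 397) (nat_lit 314) (nat_lit 309)) (XT.lf (nat_lit 0) (nat_lit 1046954305503) (nat_lit 76) (nat_lit 149828243037) (nat_lit 76) (nat_lit 149746854623) (nat_lit 1) (nat_lit 4) (nat_lit 2) (nat_lit 5) (nat_lit 2) (nat_lit 4) (nat_lit 398) (nat_lit 314) (nat_lit 308)))))) (XT.nd (nat_lit 390) (nat_lit 0) (nat_lit 0) (XT.nd (nat_lit 156) (nat_lit 0) (nat_lit 0) (XT.nd (nat_lit 78) (nat_lit 0) (nat_lit 0) (XT.lf (nat_lit 0) (nat_lit 1216089114885) (nat_lit 76) (nat_lit 166021303159) (nat_lit 76) (nat_lit 165931829909) (nat_lit 1) (nat_lit 4) (nat_lit 2) (nat_lit 5) (nat_lit 2) (nat_lit 4) (nat_lit 399) (nat_lit 314) (nat_lit 307)) (XT.lf (nat_lit 0) (nat_lit 1409889174983) (nat_lit 76) (nat_lit 185008274915) (nat_lit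 76) (nat_lit 184911771374) (nat_lit 1) (nat_lit 4) (nat_lit 2) (nat_lit 5) (nat_lit 2) (nat_lit 4) (nat_lit 400) (nat_lit 314) (nat_lit 306))) (XT.nd (nat_lit 78) (nat_lit 0) (nat_lit 0) (XT.lf (nat_lit 0) (nat_lit 1632146226102) (nat_lit 76) (nat_lit 207160642535) (nat_lit 76) (nat_lit 207058025697) (nat_lit 1) (nat_lit 4) (nat_lit 2) (nat_lit 5) (nat_lit 2) (nat_lit 4) (nat_lit 401) (nat_lit 314) (nat_lit 305)) (XT.nd (nat_lit 78) (nat_lit 0) (nat_lit 0) (XT.lf (nat_lit 0) (nat_lit 1887208775766) (nat_lit 76) (nat_lit 232911821908) (nat_lit 76) (nat_lit 232803889160) (nat_lit 1) (nat_lit 4) (nat_lit 2) (nat_lit 5) (nat_lit 2) (nat_lit 4) (nat_lit 402) (nat_lit 314) (nat_lit 304)) (XT.lf (nat_lit 0) (nat_lit 2180067178207) (nat_lit 76) (nat_lit 262765640457) (nat_lit 76) (nat_lit 262653085177) (nat_lit 1) (nat_lit 4) (nat_lit 2) (nat_lit 5) (nat_lit 2) (nat_lit 4) (nat_lit 403) (nat_lit 314)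 (nat_lit 303))))) (XT.nd (nat_lit 234) (nat_lit 0) (nat_lit 0) (XT.nd (nat_lit 78) (nat_lit 0) (nat_lit 0) (XT.lf (nat_lit 0) (nat_lit 2516451271733) (nat_lit 76) (nat_lit 297306194630) (nat_lit 76) (nat_lit 297189619758) (nat_lit 1) (nat_lit 4) (nat_lit 2) (nat_lit 5) (nat_lit 2) (nat_lit 4) (nat_lit 404) (nat_lit 314) (nat_lit 302)) (XT.nd (nat_lit 78) (nat_lit 0) (nat_lit 0) (XT.lf (nat_lit 0) (nat_lit 2902942484261) (nat_lit 76) (nat_lit 337209277880) (nat_lit 76) (nat_lit 337089207711) (nat_lit 1) (nat_lit 4) (nat_lit 2) (nat_lit 5) (nat_lit 2) (nat_lit 4) (nat_lit 405) (nat_lit 314) (nat_lit 301)) (XT.lf (nat_lit 0) (nat_lit 3347102600384) (nat_lit 76) (nat_lit 383255602704) (nat_lit 76) (nat_lit 383132493146) (nat_lit 1) (nat_lit 4) (nat_lit 2) (nat_lit 5) (nat_lit 2) (nat_lit 4) (nat_lit 406) (nat_lit 314) (nat_lit 300)))) (XT.nd (nat_lit 78) (nat_lit 0) (nat_lit 0) (XT.lf (nat_lit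 0) (nat_lit 3857621709330) (nat_lit 76) (nat_lit 436346075458) (nat_lit 76) (nat_lit 436220322953) (nat_lit 1) (nat_lit 4) (nat_lit 2) (nat_lit 5) (nat_lit 2) (nat_lit 4) (nat_lit 407) (nat_lit 314) (nat_lit 299)) (XT.nd (nat_lit 78) (nat_lit 0) (nat_lit 0) (XT.lf (nat_lit 0) (nat_lit 4444488228449) (nat_lit 76) (nat_lit 497519422782) (nat_lit 76) (nat_lit 497391372062) (nat_lit 1) (nat_lit 4) (nat_lit 2) (nat_lit 5) (nat_lit 2) (nat_lit 4) (nat_lit 408) (nat_lit 314) (nat_lit 298)) (XT.lf (nat_lit 0) (nat_lit 5119184328766) (nat_lit 76) (nat_lit 567972514517) (nat_lit 76) (nat_lit 567842465349) (nat_lit 1) (nat_lit 4) (nat_lit 2) (nat_lit 5) (nat_lit 2) (nat_lit 4) (nat_lit 409) (nat_lit 314) (nat_lit 297))))))))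
noncomputable def xc8 : XT := (XT.nd (nat_lit 51792) (nat_lit 0) (nat_lit 0) (XT.nd (nat_lit 780) (nat_lit 0) (nat_lit 0) (XT.nd (nat_lit 390) (nat_lit 0) (nat_lit 0) (XT.nd (nat_lit 156) (nat_lit 0) (nat_lit 0) (XT.nd (nat_lit 78) (nat_lit 0) (nat_lit 0) (XT.lf (nat_lit 0) (nat_lit 5894910586158) (nat_lit 76) (nat_lit 649083780716) (nat_lit 76) (nat_lit 648951993768) (nat_lit 1) (nat_lit 4) (nat_lit 2) (nat_lit 5) (nat_lit 2) (nat_lit 4) (nat_lit 410) (nat_lit 314) (nat_lit 296)) (XT.lf (nat_lit 0) (nat_lit 6786844253486) (nat_lit 76) (nat_lit 742440180937) (nat_lit 76) (nat_lit 742306882875) (nat_lit 1) (nat_lit 4) (nat_lit 2) (nat_lit 5) (nat_lit 2) (nat_lit 4) (nat_lit 411) (nat_lit 314) (nat_lit 295))) (XT.nd (nat_lit 78) (nat_lit 0) (nat_lit 0) (XT.lf (nat_lit 0) (nat_lit 7812436206851) (nat_lit 76) (nat_lit 849868253445) (nat_lit 76) (nat_lit 849733641371) (nat_lit 1) (nat_lit 4) (nat_lit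 2) (nat_lit 5) (nat_lit 2) (nat_lit 4) (nat_lit 412) (nat_lit 314) (nat_lit 294)) (XT.nd (nat_lit 78) (nat_lit 0) (nat_lit 0) (XT.lf (nat_lit 0) (nat_lit 8991752375774) (nat_lit 76) (nat_lit 973469851831) (nat_lit 76) (nat_lit 973334097139) (nat_lit 1) (nat_lit 4) (nat_lit 2) (nat_lit 5) (nat_lit 2) (nat_lit 4) (nat_lit 413) (nat_lit 314) (nat_lit 293)) (XT.lf (nat_lit 0) (nat_lit 10347866337474) (nat_lit 76) (nat_lit 1115663268239) (nat_lit 76) (nat_lit 1115526519965) (nat_lit 1) (nat_lit 4) (nat_lit 2) (nat_lit 5) (nat_lit 2) (nat_lit 4) (nat_lit 414) (nat_lit 314) (nat_lit 292))))) (XT.nd (nat_lit 156) (nat_lit 0) (nat_lit 0) (XT.nd (nat_lit 78) (nat_lit 0) (nat_lit 0) (XT.lf (nat_lit 0) (nat_lit 11907310756418) (nat_lit 76) (nat_lit 1279230547773) (nat_lit 76) (nat_lit 1279092935514) (nat_lit 1) (nat_lit 4) (nat_lit 2) (nat_lit 5) (nat_lit 2) (nat_lit 4) (nat_lit 415) (nat_lit 314) (nat_lit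 291)) (XT.lf (nat_lit 0) (nat_lit 13700596501674) (nat_lit 76) (nat_lit 1467371919813) (nat_lit 76) (nat_lit 1467233556264) (nat_lit 1) (nat_lit 4) (nat_lit 2) (nat_lit 5) (nat_lit 2) (nat_lit 4) (nat_lit 416) (nat_lit 314) (nat_lit 290))) (XT.nd (nat_lit 78) (nat_lit 0) (nat_lit 0) (XT.lf (nat_lit 0) (nat_lit 15762809598692) (nat_lit 76) (nat_lit 1683768411205) (nat_lit 76) (nat_lit 1683629394360) (nat_lit 1) (nat_lit 4) (nat_lit 2) (nat_lit 5) (nat_lit 2) (nat_lit 4) (nat_lit 417) (nat_lit 314) (nat_lit 289)) (XT.nd (nat_lit 78) (nat_lit 0) (nat_lit 0) (XT.lf (nat_lit 0) (nat_lit 18134297695022) (nat_lit 76) (nat_lit 1932653866345) (nat_lit 76) (nat_lit 1932514281417) (nat_lit 1) (nat_lit 4) (nat_lit 2) (nat_lit 5) (nat_lit 2) (nat_lit 4) (nat_lit 418) (nat_lit 314) (nat_lit 288)) (XT.lf (nat_lit 0) (nat_lit 20861459470809) (nat_lit 76) (nat_lit 2218897783269) (nat_lit 76) (nat_lit 2218757704355)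 (nat_lit 1) (nat_lit 4) (nat_lit 2) (nat_lit 5) (nat_lit 2) (nat_lit 4) (nat_lit 419) (nat_lit 314) (nat_lit 287)))))) (XT.nd (nat_lit 390) (nat_lit 0) (nat_lit 0) (XT.nd (nat_lit 156) (nat_lit 0) (nat_lit 0) (XT.nd (nat_lit 78) (nat_lit 0) (nat_lit 0) (XT.lf (nat_lit 0) (nat_lit 23997652439059) (nat_lit 76) (nat_lit 2548100586439) (nat_lit 76) (nat_lit 2547960077972) (nat_lit 1) (nat_lit 4) (nat_lit 2) (nat_lit 5) (nat_lit 2) (nat_lit 4) (nat_lit 420) (nat_lit 314) (nat_lit 286)) (XT.lf (nat_lit 0) (nat_lit 27604236896976) (nat_lit 76) (nat_lit 2926703200263) (nat_lit 76) (nat_lit 2926562318272) (nat_lit 1) (nat_lit 4) (nat_lit 2) (nat_lit 5) (nat_lit 2) (nat_lit 4) (nat_lit 421) (nat_lit 314) (nat_lit 285))) (XT.nd (nat_lit 78) (nat_lit 0) (nat_lit 0) (XT.lf (nat_lit 0) (nat_lit 31751776453519) (nat_lit 76) (nat_lit 3362113067187) (nat_lit 76) (nat_lit 3361971860392) (nat_lit 1) (nat_lit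 4) (nat_lit 2) (nat_lit 5) (nat_lit 2) (nat_lit 4) (nat_lit 422) (nat_lit 314) (nat_lit 284)) (XT.nd (nat_lit 78) (nat_lit 0) (nat_lit 0) (XT.lf (nat_lit 0) (nat_lit 36521418621751) (nat_lit 76) (nat_lit 3862849075911) (nat_lit 76) (nat_lit 3862707586678) (nat_lit 1) (nat_lit 4) (nat_lit 2) (nat_lit 5) (nat_lit 2) (nat_lit 4) (nat_lit 423) (nat_lit 314) (nat_lit 283)) (XT.lf (nat_lit 0) (nat_lit 42006482487573) (nat_lit 76) (nat_lit 4438708235301) (nat_lit 76) (nat_lit 4438566500471) (nat_lit 1) (nat_lit 4) (nat_lit 2) (nat_lit 5) (nat_lit 2) (nat_lit 4) (nat_lit 424) (nat_lit 314) (nat_lit 282))))) (XT.nd (nat_lit 50388) (nat_lit 0) (nat_lit 0) (XT.nd (nat_lit 78) (nat_lit 0) (nat_lit 0) (XT.lf (nat_lit 0) (nat_lit 48314284517924) (nat_lit 76) (nat_lit 5100957354999) (nat_lit 76) (nat_lit 5100815406604) (nat_lit 1) (nat_lit 4) (nat_lit 2) (nat_lit 5) (nat_lit 2) (nat_lit 4) (nat_lit 425)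 (nat_lit 314) (nat_lit 281)) (XT.nd (nat_lit 78) (nat_lit 0) (nat_lit 0) (XT.lf (nat_lit 0) (nat_lit 55568238230789) (nat_lit 76) (nat_lit 5862553482997) (nat_lit 76) (nat_lit 5862411348895) (nat_lit 1) (nat_lit 4) (nat_lit 2) (nat_lit 5) (nat_lit 2) (nat_lit 4) (nat_lit 426) (nat_lit 314) (nat_lit 280)) (XT.lf (nat_lit 0) (nat_lit 63910268807508) (nat_lit 76) (nat_lit 6738397413104) (nat_lit 76) (nat_lit 6738255117518) (nat_lit 1) (nat_lit 4) (nat_lit 2) (nat_lit 5) (nat_lit 2) (nat_lit 4) (nat_lit 427) (nat_lit 314) (nat_lit 279)))) (XT.nd (nat_lit 78) (nat_lit 0) (nat_lit 0) (XT.lf (nat_lit 0) (nat_lit 130296148427) (nat_lit 76) (nat_lit 45685355712) (nat_lit 76) (nat_lit 45685355712) (nat_lit 1) (nat_lit 4) (nat_lit 2) (nat_lit 5) (nat_lit 2) (nat_lit 4) (nat_lit 390) (nat_lit 315) (nat_lit 315)) (XT.nd (nat_lit 78) (nat_lit 0) (nat_lit 0) (XT.lf (nat_lit 0) (nat_lit 321747872627) (nat_lit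 76) (nat_lit 93627974943) (nat_lit 76) (nat_lit 93606469120) (nat_lit 1) (nat_lit 4) (nat_lit 2) (nat_lit 5) (nat_lit 2) (nat_lit 4) (nat_lit 391) (nat_lit 315) (nat_lit 314)) (XT.lf (nat_lit 0) (nat_lit 390201548711) (nat_lit 76) (nat_lit 97194609204) (nat_lit 76) (nat_lit 97154402666) (nat_lit 1) (nat_lit 4) (nat_lit 2) (nat_lit 5) (nat_lit 2) (nat_lit 4) (nat_lit 392) (nat_lit 315) (nat_lit 313))))))) (XT.nd (nat_lit 780) (nat_lit 0) (nat_lit 0) (XT.nd (nat_lit 390) (nat_lit 0) (nat_lit 0) (XT.nd (nat_lit 156) (nat_lit 0) (nat_lit 0) (XT.nd (nat_lit 78) (nat_lit 0) (nat_lit 0) (XT.lf (nat_lit 0) (nat_lit 467292636159) (nat_lit 76) (nat_lit 102140396182) (nat_lit 76) (nat_lit 102083928152) (nat_lit 1) (nat_lit 4) (nat_lit 2) (nat_lit 5) (nat_lit 2) (nat_lit 4) (nat_lit 393) (nat_lit 315) (nat_lit 312)) (XT.lf (nat_lit 0) (nat_lit 554529438858) (nat_lit 76) (nat_lit 108562101274) (nat_lit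 76) (nat_lit 108491492817) (nat_lit 1) (nat_lit 4) (nat_lit 2) (nat_lit 5) (nat_lit 2) (nat_lit 4) (nat_lit 394) (nat_lit 315) (nat_lit 311))) (XT.nd (nat_lit 78) (nat_lit 0) (nat_lit 0) (XT.lf (nat_lit 0) (nat_lit 653618763816) (nat_lit 76) (nat_lit 116585366537) (nat_lit 76) (nat_lit 116502462055) (nat_lit 1) (nat_lit 4) (nat_lit 2) (nat_lit 5) (nat_lit 2) (nat_lit 4) (nat_lit 395) (nat_lit 315) (nat_lit 310)) (XT.nd (nat_lit 78) (nat_lit 0) (nat_lit 0) (XT.lf (nat_lit 0) (nat_lit 766499315218) (nat_lit 76) (nat_lit 126367168899) (nat_lit 76) (nat_lit 126273572222) (nat_lit 1) (nat_lit 4) (nat_lit 2) (nat_lit 5) (nat_lit 2) (nat_lit 4) (nat_lit 396) (nat_lit 315) (nat_lit 309)) (XT.lf (nat_lit 0) (nat_lit 895379625591) (nat_lit 76) (nat_lit 138098891450) (nat_lit 76) (nat_lit 137995997213) (nat_lit 1) (nat_lit 4) (nat_lit 2) (nat_lit 5) (nat_lit 2) (nat_lit 4) (nat_lit 397) (nat_lit 315)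 (nat_lit 308))))) (XT.nd (nat_lit 156) (nat_lit 0) (nat_lit 0) (XT.nd (nat_lit 78) (nat_lit 0) (nat_lit 0) (XT.lf (nat_lit 0) (nat_lit 1042781266224) (nat_lit 76) (nat_lit 152010067892) (nat_lit 76) (nat_lit 151899088820) (nat_lit 1) (nat_lit 4) (nat_lit 2) (nat_lit 5) (nat_lit 2) (nat_lit 4) (nat_lit 398) (nat_lit 315) (nat_lit 307)) (XT.lf (nat_lit 0) (nat_lit 1211588182261) (nat_lit 76) (nat_lit 168372873417) (nat_lit 76) (nat_lit 168254864053) (nat_lit 1) (nat_lit 4) (nat_lit 2) (nat_lit 5) (nat_lit 2) (nat_lit 4) (nat_lit 399) (nat_lit 315) (nat_lit 306))) (XT.nd (nat_lit 78) (nat_lit 0) (nat_lit 0) (XT.lf (nat_lit 0) (nat_lit 1405103117712) (nat_lit 76) (nat_lit 187507449871) (nat_lit 76) (nat_lit 187383327210) (nat_lit 1) (nat_lit 4) (nat_lit 2) (nat_lit 5) (nat_lit 2) (nat_lit 4) (nat_lit 400) (nat_lit 315) (nat_lit 305)) (XT.nd (nat_lit 78) (nat_lit 0) (nat_lit 0) (XT.lf (nat_lit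 0) (nat_lit 1627112234355) (nat_lit 76) (nat_lit 209788169403) (nat_lit 76) (nat_lit 209658730831) (nat_lit 1) (nat_lit 4) (nat_lit 2) (nat_lit 5) (nat_lit 2) (nat_lit 4) (nat_lit 401) (nat_lit 315) (nat_lit 304)) (XT.lf (nat_lit 0) (nat_lit 1881959188822) (nat_lit 76) (nat_lit 235650959134) (nat_lit 76) (nat_lit 235516898031) (nat_lit 1) (nat_lit 4) (nat_lit 2) (nat_lit 5) (nat_lit 2) (nat_lit 4) (nat_lit 402) (nat_lit 315) (nat_lit 303)))))) (XT.nd (nat_lit 390) (nat_lit 0) (nat_lit 0) (XT.nd (nat_lit 156) (nat_lit 0) (nat_lit 0) (XT.nd (nat_lit 78) (nat_lit 0) (nat_lit 0) (XT.lf (nat_lit 0) (nat_lit 2174630117179) (nat_lit 76) (nat_lit 265601830167) (nat_lit 76) (nat_lit 265463749473) (nat_lit 1) (nat_lit 4) (nat_lit 2) (nat_lit 5) (nat_lit 2) (nat_lit 4) (nat_lit 403) (nat_lit 315) (nat_lit 302)) (XT.lf (nat_lit 0) (nat_lit 2510851189762) (nat_lit 76) (nat_lit 300226777806) (nat_lit 76)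 (nat_lit 300085201814) (nat_lit 1) (nat_lit 4) (nat_lit 2) (nat_lit 5) (nat_lit 2) (nat_lit 4) (nat_lit 404) (nat_lit 315) (nat_lit 301))) (XT.nd (nat_lit 78) (nat_lit 0) (nat_lit 0) (XT.lf (nat_lit 0) (nat_lit 2897200644948) (nat_lit 76) (nat_lit 340203246677) (nat_lit 76) (nat_lit 340058631296) (nat_lit 1) (nat_lit 4) (nat_lit 2) (nat_lit 5) (nat_lit 2) (nat_lit 4) (nat_lit 405) (nat_lit 315) (nat_lit 300)) (XT.nd (nat_lit 78) (nat_lit 0) (nat_lit 0) (XT.lf (nat_lit 0) (nat_lit 3341237493818) (nat_lit 76) (nat_lit 386313385085) (nat_lit 76) (nat_lit 386166126757) (nat_lit 1) (nat_lit 4) (nat_lit 2) (nat_lit 5) (nat_lit 2) (nat_lit 4) (nat_lit 406) (nat_lit 315) (nat_lit 299)) (XT.lf (nat_lit 0) (nat_lit 3851649413848) (nat_lit 76) (nat_lit 439459347913) (nat_lit 76) (nat_lit 439309791370) (nat_lit 1) (nat_lit 4) (nat_lit 2) (nat_lit 5) (nat_lit 2) (nat_lit 4) (nat_lit 407) (nat_lit 315)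 (nat_lit 298))))) (XT.nd (nat_lit 234) (nat_lit 0) (nat_lit 0) (XT.nd (nat_lit 78) (nat_lit 0) (nat_lit 0) (XT.lf (nat_lit 0) (nat_lit 4438422725214) (nat_lit 76) (nat_lit 500680947475) (nat_lit 76) (nat_lit 500529392485) (nat_lit 1) (nat_lit 4) (nat_lit 2) (nat_lit 5) (nat_lit 2) (nat_lit 4) (nat_lit 408) (nat_lit 315) (nat_lit 297)) (XT.nd (nat_lit 78) (nat_lit 0) (nat_lit 0) (XT.lf (nat_lit 0) (nat_lit 5113037775311) (nat_lit 76) (nat_lit 571175997677) (nat_lit 76) (nat_lit 571022704906) (nat_lit 1) (nat_lit 4) (nat_lit 2) (nat_lit 5) (nat_lit 2) (nat_lit 4) (nat_lit 409) (nat_lit 315) (nat_lit 296)) (XT.lf (nat_lit 0) (nat_lit 5888693554250) (nat_lit 76) (nat_lit 652323749500) (nat_lit 76) (nat_lit 652168945616) (nat_lit 1) (nat_lit 4) (nat_lit 2) (nat_lit 5) (nat_lit 2) (nat_lit 4) (nat_lit 410) (nat_lit 315) (nat_lit 295)))) (XT.nd (nat_lit 78) (nat_lit 0) (nat_lit 0) (XT.lf (nat_lit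 0) (nat_lit 6780565935968) (nat_lit 76) (nat_lit 745711876351) (nat_lit 76) (nat_lit 745555758454) (nat_lit 1) (nat_lit 4) (nat_lit 2) (nat_lit 5) (nat_lit 2) (nat_lit 4) (nat_lit 411) (nat_lit 315) (nat_lit 294)) (XT.nd (nat_lit 78) (nat_lit 0) (nat_lit 0) (XT.lf (nat_lit 0) (nat_lit 7806104597497) (nat_lit 76) (nat_lit 853167537232) (nat_lit 76) (nat_lit 853010276716) (nat_lit 1) (nat_lit 4) (nat_lit 2) (nat_lit 5) (nat_lit 2) (nat_lit 4) (nat_lit 412) (nat_lit 315) (nat_lit 293)) (XT.lf (nat_lit 0) (nat_lit 8985374425694) (nat_lit 76) (nat_lit 976793125508) (nat_lit 76) (nat_lit 976634871411) (nat_lit 1) (nat_lit 4) (nat_lit 2) (nat_lit 5) (nat_lit 2) (nat_lit 4) (nat_lit 413) (nat_lit 315) (nat_lit 292))))))))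
noncomputable def xc9 : XT := (XT.nd (nat_lit 51636) (nat_lit 0) (nat_lit 0) (XT.nd (nat_lit 780) (nat_lit 0) (nat_lit 0) (XT.nd (nat_lit 390) (nat_lit 0) (nat_lit 0) (XT.nd (nat_lit 156) (nat_lit 0) (nat_lit 0) (XT.nd (nat_lit 78) (nat_lit 0) (nat_lit 0) (XT.lf (nat_lit 0) (nat_lit 10341448091110) (nat_lit 76) (nat_lit 1119007402690) (nat_lit 76) (nat_lit 1118848284609) (nat_lit 1) (nat_lit 4) (nat_lit 2) (nat_lit 5) (nat_lit 2) (nat_lit 4) (nat_lit 414) (nat_lit 315) (nat_lit 291)) (XT.lf (nat_lit 0) (nat_lit 11900857469808) (nat_lit 76) (nat_lit 1282592822027) (nat_lit 76) (nat_lit 1282432952655) (nat_lit 1) (nat_lit 4) (nat_lit 2) (nat_lit 5) (nat_lit 2) (nat_lit 4) (nat_lit 415) (nat_lit 315) (nat_lit 290))) (XT.nd (nat_lit 78) (nat_lit 0) (nat_lit 0) (XT.lf (nat_lit 0) (nat_lit 13694112745284) (nat_lit 76) (nat_lit 1470749967809) (nat_lit 76) (nat_lit 1470589445142) (nat_lit 1) (nat_lit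 4) (nat_lit 2) (nat_lit 5) (nat_lit 2) (nat_lit 4) (nat_lit 416) (nat_lit 315) (nat_lit 289)) (XT.nd (nat_lit 78) (nat_lit 0) (nat_lit 0) (XT.lf (nat_lit 0) (nat_lit 15756299346841) (nat_lit 76) (nat_lit 1687160175499) (nat_lit 76) (nat_lit 1686999084748) (nat_lit 1) (nat_lit 4) (nat_lit 2) (nat_lit 5) (nat_lit 2) (nat_lit 4) (nat_lit 417) (nat_lit 315) (nat_lit 288)) (XT.lf (nat_lit 0) (nat_lit 18127764403640) (nat_lit 76) (nat_lit 1936057557854) (nat_lit 76) (nat_lit 1935895973118) (nat_lit 1) (nat_lit 4) (nat_lit 2) (nat_lit 5) (nat_lit 2) (nat_lit 4) (nat_lit 418) (nat_lit 315) (nat_lit 287))))) (XT.nd (nat_lit 156) (nat_lit 0) (nat_lit 0) (XT.nd (nat_lit 78) (nat_lit 0) (nat_lit 0) (XT.lf (nat_lit 0) (nat_lit 20854906145053) (nat_lit 76) (nat_lit 2222311846270) (nat_lit 76) (nat_lit 2222149831980) (nat_lit 1) (nat_lit 4) (nat_lit 2) (nat_lit 5) (nat_lit 2) (nat_lit 4) (nat_lit 419) (nat_lit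 315) (nat_lit 286)) (XT.lf (nat_lit 0) (nat_lit 23991081692107) (nat_lit 76) (nat_lit 2551523668127) (nat_lit 76) (nat_lit 2551361280314) (nat_lit 1) (nat_lit 4) (nat_lit 2) (nat_lit 5) (nat_lit 2) (nat_lit 4) (nat_lit 420) (nat_lit 315) (nat_lit 285))) (XT.nd (nat_lit 78) (nat_lit 0) (nat_lit 0) (XT.lf (nat_lit 0) (nat_lit 27597651001158) (nat_lit 76) (nat_lit 2930134124289) (nat_lit 76) (nat_lit 2929971411672) (nat_lit 1) (nat_lit 4) (nat_lit 2) (nat_lit 5) (nat_lit 2) (nat_lit 4) (nat_lit 421) (nat_lit 315) (nat_lit 284)) (XT.nd (nat_lit 78) (nat_lit 0) (nat_lit 0) (XT.lf (nat_lit 0) (nat_lit 31745177384774) (nat_lit 76) (nat_lit 3365550810637) (nat_lit 76) (nat_lit 3365387815582) (nat_lit 1) (nat_lit 4) (nat_lit 2) (nat_lit 5) (nat_lit 2) (nat_lit 4) (nat_lit 422) (nat_lit 315) (nat_lit 283)) (XT.lf (nat_lit 0) (nat_lit 36514808098288) (nat_lit 76) (nat_lit 3866292749295) (nat_lit 76)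 (nat_lit 3866129508642) (nat_lit 1) (nat_lit 4) (nat_lit 2) (nat_lit 5) (nat_lit 2) (nat_lit 4) (nat_lit 423) (nat_lit 315) (nat_lit 282)))))) (XT.nd (nat_lit 50388) (nat_lit 0) (nat_lit 0) (XT.nd (nat_lit 156) (nat_lit 0) (nat_lit 0) (XT.nd (nat_lit 78) (nat_lit 0) (nat_lit 0) (XT.lf (nat_lit 0) (nat_lit 41999862003484) (nat_lit 76) (nat_lit 4442157065150) (nat_lit 76) (nat_lit 4441993610933) (nat_lit 1) (nat_lit 4) (nat_lit 2) (nat_lit 5) (nat_lit 2) (nat_lit 4) (nat_lit 424) (nat_lit 315) (nat_lit 281)) (XT.lf (nat_lit 0) (nat_lit 48307655372422) (nat_lit 76) (nat_lit 5104410668729) (nat_lit 76) (nat_lit 5104247028804) (nat_lit 1) (nat_lit 4) (nat_lit 2) (nat_lit 5) (nat_lit 2) (nat_lit 4) (nat_lit 425) (nat_lit 315) (nat_lit 280))) (XT.nd (nat_lit 78) (nat_lit 0) (nat_lit 0) (XT.lf (nat_lit 0) (nat_lit 55561601553624) (nat_lit 76) (nat_lit 5866010695755) (nat_lit 76) (nat_lit 5865846894345)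 (nat_lit 1) (nat_lit 4) (nat_lit 2) (nat_lit 5) (nat_lit 2) (nat_lit 4) (nat_lit 426) (nat_lit 315) (nat_lit 279)) (XT.nd (nat_lit 50076) (nat_lit 0) (nat_lit 0) (XT.lf (nat_lit 0) (nat_lit 63903625581070) (nat_lit 76) (nat_lit 6741858016322) (nat_lit 76) (nat_lit 6741694074490) (nat_lit 1) (nat_lit 4) (nat_lit 2) (nat_lit 5) (nat_lit 2) (nat_lit 4) (nat_lit 427) (nat_lit 315) (nat_lit 278)) (XT.lf (nat_lit 0) (nat_lit 78331112317) (nat_lit 76) (nat_lit 45029991811) (nat_lit 76) (nat_lit 45029991811) (nat_lit 1) (nat_lit 4) (nat_lit 2) (nat_lit 5) (nat_lit 2) (nat_lit 4) (nat_lit 388) (nat_lit 316) (nat_lit 316))))) (XT.nd (nat_lit 234) (nat_lit 0) (nat_lit 0) (XT.nd (nat_lit 78) (nat_lit 0) (nat_lit 0) (XT.lf (nat_lit 0) (nat_lit 205538299260) (nat_lit 76) (nat_lit 90403386492) (nat_lit 76) (nat_lit 90378654796) (nat_lit 1) (nat_lit 4) (nat_lit 2) (nat_lit 5) (nat_lit 2) (nat_lit 4) (nat_lit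 389) (nat_lit 316) (nat_lit 315)) (XT.nd (nat_lit 78) (nat_lit 0) (nat_lit 0) (XT.lf (nat_lit 0) (nat_lit 259589263617) (nat_lit 76) (nat_lit 91914698189) (nat_lit 76) (nat_lit 91868460670) (nat_lit 1) (nat_lit 4) (nat_lit 2) (nat_lit 5) (nat_lit 2) (nat_lit 4) (nat_lit 390) (nat_lit 316) (nat_lit 314)) (XT.lf (nat_lit 0) (nat_lit 319872636573) (nat_lit 76) (nat_lit 94623487854) (nat_lit 76) (nat_lit 94558549619) (nat_lit 1) (nat_lit 4) (nat_lit 2) (nat_lit 5) (nat_lit 2) (nat_lit 4) (nat_lit 391) (nat_lit 316) (nat_lit 313)))) (XT.nd (nat_lit 78) (nat_lit 0) (nat_lit 0) (XT.lf (nat_lit 0) (nat_lit 387567875425) (nat_lit 76) (nat_lit 98582753546) (nat_lit 76) (nat_lit 98501553820) (nat_lit 1) (nat_lit 4) (nat_lit 2) (nat_lit 5) (nat_lit 2) (nat_lit 4) (nat_lit 392) (nat_lit 316) (nat_lit 312)) (XT.nd (nat_lit 78) (nat_lit 0) (nat_lit 0) (XT.lf (nat_lit 0) (nat_lit 463999452238) (nat_lit 76)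 (nat_lit 103869959160) (nat_lit 76) (nat_lit 103774619006) (nat_lit 1) (nat_lit 4) (nat_lit 2) (nat_lit 5) (nat_lit 2) (nat_lit 4) (nat_lit 393) (nat_lit 316) (nat_lit 311)) (XT.lf (nat_lit 0) (nat_lit 550662767427) (nat_lit 76) (nat_lit 110588550023) (nat_lit 76) (nat_lit 110480913845) (nat_lit 1) (nat_lit 4) (nat_lit 2) (nat_lit 5) (nat_lit 2) (nat_lit 4) (nat_lit 394) (nat_lit 316) (nat_lit 310))))))) (XT.nd (nat_lit 780) (nat_lit 0) (nat_lit 0) (XT.nd (nat_lit 390) (nat_lit 0) (nat_lit 0) (XT.nd (nat_lit 156) (nat_lit 0) (nat_lit 0) (XT.nd (nat_lit 78) (nat_lit 0) (nat_lit 0) (XT.lf (nat_lit 0) (nat_lit 649253407595) (nat_lit 76) (nat_lit 118869976825) (nat_lit 76) (nat_lit 118751648452) (nat_lit 1) (nat_lit 4) (nat_lit 2) (nat_lit 5) (nat_lit 2) (nat_lit 4) (nat_lit 395) (nat_lit 316) (nat_lit 309)) (XT.lf (nat_lit 0) (nat_lit 761700320048) (nat_lit 76) (nat_lit 128876267482) (nat_lit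 76) (nat_lit 128748641549) (nat_lit 1) (nat_lit 4) (nat_lit 2) (nat_lit 5) (nat_lit 2) (nat_lit 4) (nat_lit 396) (nat_lit 316) (nat_lit 308))) (XT.nd (nat_lit 78) (nat_lit 0) (nat_lit 0) (XT.lf (nat_lit 0) (nat_lit 890203553074) (nat_lit 76) (nat_lit 140803197246) (nat_lit 76) (nat_lit 140667486478) (nat_lit 1) (nat_lit 4) (nat_lit 2) (nat_lit 5) (nat_lit 2) (nat_lit 4) (nat_lit 397) (nat_lit 316) (nat_lit 307)) (XT.nd (nat_lit 78) (nat_lit 0) (nat_lit 0) (XT.lf (nat_lit 0) (nat_lit 1037277300363) (nat_lit 76) (nat_lit 154884119091) (nat_lit 76) (nat_lit 154741378031) (nat_lit 1) (nat_lit 4) (nat_lit 2) (nat_lit 5) (nat_lit 2) (nat_lit 4) (nat_lit 398) (nat_lit 316) (nat_lit 306)) (XT.lf (nat_lit 0) (nat_lit 1205799091752) (nat_lit 76) (nat_lit 171394529314) (nat_lit 76) (nat_lit 171245674957) (nat_lit 1) (nat_lit 4) (nat_lit 2) (nat_lit 5) (nat_lit 2) (nat_lit 4) (nat_lit 399) (nat_lit 316)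 (nat_lit 305))))) (XT.nd (nat_lit 156) (nat_lit 0) (nat_lit 0) (XT.nd (nat_lit 78) (nat_lit 0) (nat_lit 0) (XT.lf (nat_lit 0) (nat_lit 1399066092726) (nat_lit 76) (nat_lit 190657457680) (nat_lit 76) (nat_lit 190503287412) (nat_lit 1) (nat_lit 4) (nat_lit 2) (nat_lit 5) (nat_lit 2) (nat_lit 4) (nat_lit 400) (nat_lit 316) (nat_lit 304)) (XT.lf (nat_lit 0) (nat_lit 1620859614173) (nat_lit 76) (nat_lit 213049787570) (nat_lit 76) (nat_lit 212890994771) (nat_lit 1) (nat_lit 4) (nat_lit 2) (nat_lit 5) (nat_lit 2) (nat_lit 4) (nat_lit 401) (nat_lit 316) (nat_lit 303))) (XT.nd (nat_lit 78) (nat_lit 0) (nat_lit 0) (XT.lf (nat_lit 0) (nat_lit 1875519094556) (nat_lit 76) (nat_lit 239009629785) (nat_lit 76) (nat_lit 238846817395) (nat_lit 1) (nat_lit 4) (nat_lit 2) (nat_lit 5) (nat_lit 2) (nat_lit 4) (nat_lit 402) (nat_lit 316) (nat_lit 302)) (XT.nd (nat_lit 78) (nat_lit 0) (nat_lit 0) (XT.lf (nat_lit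 0) (nat_lit 2168027001970) (nat_lit 76) (nat_lit 269044894284) (nat_lit 76) (nat_lit 268878586596) (nat_lit 1) (nat_lit 4) (nat_lit 2) (nat_lit 5) (nat_lit 2) (nat_lit 4) (nat_lit 403) (nat_lit 316) (nat_lit 301)) (XT.lf (nat_lit 0) (nat_lit 2504106317211) (nat_lit 76) (nat_lit 303743227544) (nat_lit 76) (nat_lit 303573880467) (nat_lit 1) (nat_lit 4) (nat_lit 2) (nat_lit 5) (nat_lit 2) (nat_lit 4) (nat_lit 404) (nat_lit 316) (nat_lit 300)))))) (XT.nd (nat_lit 390) (nat_lit 0) (nat_lit 0) (XT.nd (nat_lit 156) (nat_lit 0) (nat_lit 0) (XT.nd (nat_lit 78) (nat_lit 0) (nat_lit 0) (XT.lf (nat_lit 0) (nat_lit 2890332505144) (nat_lit 76) (nat_lit 343783510000) (nat_lit 76) (nat_lit 343611519976) (nat_lit 1) (nat_lit 4) (nat_lit 2) (nat_lit 5) (nat_lit 2) (nat_lit 4) (nat_lit 405) (nat_lit 316) (nat_lit 299)) (XT.lf (nat_lit 0) (nat_lit 3334262165098) (nat_lit 76) (nat_lit 389949138482) (nat_lit 76)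 (nat_lit 389774850243) (nat_lit 1) (nat_lit 4) (nat_lit 2) (nat_lit 5) (nat_lit 2) (nat_lit 4) (nat_lit 406) (nat_lit 316) (nat_lit 298))) (XT.nd (nat_lit 78) (nat_lit 0) (nat_lit 0) (XT.lf (nat_lit 0) (nat_lit 3844580877375) (nat_lit 76) (nat_lit 443143353547) (nat_lit 76) (nat_lit 442967066860) (nat_lit 1) (nat_lit 4) (nat_lit 2) (nat_lit 5) (nat_lit 2) (nat_lit 4) (nat_lit 407) (nat_lit 316) (nat_lit 297)) (XT.nd (nat_lit 78) (nat_lit 0) (nat_lit 0) (XT.lf (nat_lit 0) (nat_lit 4431273138520) (nat_lit 76) (nat_lit 504406911577) (nat_lit 76) (nat_lit 504228887109) (nat_lit 1) (nat_lit 4) (nat_lit 2) (nat_lit 5) (nat_lit 2) (nat_lit 4) (nat_lit 408) (nat_lit 316) (nat_lit 296)) (XT.lf (nat_lit 0) (nat_lit 5105817710165) (nat_lit 76) (nat_lit 574938447402) (nat_lit 76) (nat_lit 574758911822) (nat_lit 1) (nat_lit 4) (nat_lit 2) (nat_lit 5) (nat_lit 2) (nat_lit 4) (nat_lit 409) (nat_lit 316)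 (nat_lit 295))))) (XT.nd (nat_lit 234) (nat_lit 0) (nat_lit 0) (XT.nd (nat_lit 78) (nat_lit 0) (nat_lit 0) (XT.lf (nat_lit 0) (nat_lit 5881412203494) (nat_lit 76) (nat_lit 656117925855) (nat_lit 76) (nat_lit 655937076263) (nat_lit 1) (nat_lit 4) (nat_lit 2) (nat_lit 5) (nat_lit 2) (nat_lit 4) (nat_lit 410) (nat_lit 316) (nat_lit 294)) (XT.nd (nat_lit 78) (nat_lit 0) (nat_lit 0) (XT.lf (nat_lit 0) (nat_lit 6773231293376) (nat_lit 76) (nat_lit 749533641079) (nat_lit 76) (nat_lit 749351648868) (nat_lit 1) (nat_lit 4) (nat_lit 2) (nat_lit 5) (nat_lit 2) (nat_lit 4) (nat_lit 411) (nat_lit 316) (nat_lit 293)) (XT.lf (nat_lit 0) (nat_lit 7798723614179) (nat_lit 76) (nat_lit 857013291850) (nat_lit 76) (nat_lit 856830306057) (nat_lit 1) (nat_lit 4) (nat_lit 2) (nat_lit 5) (nat_lit 2) (nat_lit 4) (nat_lit 412) (nat_lit 316) (nat_lit 292)))) (XT.nd (nat_lit 78) (nat_lit 0) (nat_lit 0) (XT.lf (nat_lit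 0) (nat_lit 8977953146092) (nat_lit 76) (nat_lit 980659740901) (nat_lit 76) (nat_lit 980475891124) (nat_lit 1) (nat_lit 4) (nat_lit 2) (nat_lit 5) (nat_lit 2) (nat_lit 4) (nat_lit 413) (nat_lit 316) (nat_lit 291)) (XT.nd (nat_lit 78) (nat_lit 0) (nat_lit 0) (XT.lf (nat_lit 0) (nat_lit 10333991771262) (nat_lit 76) (nat_lit 1122892157886) (nat_lit 76) (nat_lit 1122707556818) (nat_lit 1) (nat_lit 4) (nat_lit 2) (nat_lit 5) (nat_lit 2) (nat_lit 4) (nat_lit 414) (nat_lit 316) (nat_lit 290)) (XT.lf (nat_lit 0) (nat_lit 11893370680180) (nat_lit 76) (nat_lit 1286493350965) (nat_lit 76) (nat_lit 1286308096601) (nat_lit 1) (nat_lit 4) (nat_lit 2) (nat_lit 5) (nat_lit 2) (nat_lit 4) (nat_lit 415) (nat_lit 316) (nat_lit 289))))))))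
noncomputable def xc10 : XT := (XT.nd (nat_lit 51480) (nat_lit 0) (nat_lit 0) (XT.nd (nat_lit 780) (nat_lit 0) (nat_lit 0) (XT.nd (nat_lit 390) (nat_lit 0) (nat_lit 0) (XT.nd (nat_lit 156) (nat_lit 0) (nat_lit 0) (XT.nd (nat_lit 78) (nat_lit 0) (nat_lit 0) (XT.lf (nat_lit 0) (nat_lit 13686599460195) (nat_lit 76) (nat_lit 1474664213045) (nat_lit 76) (nat_lit 1474478390597) (nat_lit 1) (nat_lit 4) (nat_lit 2) (nat_lit 5) (nat_lit 2) (nat_lit 4) (nat_lit 416) (nat_lit 316) (nat_lit 288)) (XT.lf (nat_lit 0) (nat_lit 15748763022221) (nat_lit 76) (nat_lit 1691086347949) (nat_lit 76) (nat_lit 1690900031516) (nat_lit 1) (nat_lit 4) (nat_lit 2) (nat_lit 5) (nat_lit 2) (nat_lit 4) (nat_lit 417) (nat_lit 316) (nat_lit 287))) (XT.nd (nat_lit 78) (nat_lit 0) (nat_lit 0) (XT.lf (nat_lit 0) (nat_lit 18120208044645) (nat_lit 76) (nat_lit 1939994101796) (nat_lit 76) (nat_lit 1939807355811) (nat_lit 1) (nat_lit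 4) (nat_lit 2) (nat_lit 5) (nat_lit 2) (nat_lit 4) (nat_lit 418) (nat_lit 316) (nat_lit 286)) (XT.nd (nat_lit 78) (nat_lit 0) (nat_lit 0) (XT.lf (nat_lit 0) (nat_lit 20847332364862) (nat_lit 76) (nat_lit 2226257408900) (nat_lit 76) (nat_lit 2226070289390) (nat_lit 1) (nat_lit 4) (nat_lit 2) (nat_lit 5) (nat_lit 2) (nat_lit 4) (nat_lit 419) (nat_lit 316) (nat_lit 285)) (XT.lf (nat_lit 0) (nat_lit 23983492763050) (nat_lit 76) (nat_lit 2555477073095) (nat_lit 76) (nat_lit 2555289628782) (nat_lit 1) (nat_lit 4) (nat_lit 2) (nat_lit 5) (nat_lit 2) (nat_lit 4) (nat_lit 420) (nat_lit 316) (nat_lit 284))))) (XT.nd (nat_lit 156) (nat_lit 0) (nat_lit 0) (XT.nd (nat_lit 78) (nat_lit 0) (nat_lit 0) (XT.lf (nat_lit 0) (nat_lit 27590048899175) (nat_lit 76) (nat_lit 2934094348681) (nat_lit 76) (nat_lit 2933906621930) (nat_lit 1) (nat_lit 4) (nat_lit 2) (nat_lit 5) (nat_lit 2) (nat_lit 4) (nat_lit 421) (nat_lit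 316) (nat_lit 283)) (XT.lf (nat_lit 0) (nat_lit 31737563828073) (nat_lit 76) (nat_lit 3369516964963) (nat_lit 76) (nat_lit 3369328992613) (nat_lit 1) (nat_lit 4) (nat_lit 2) (nat_lit 5) (nat_lit 2) (nat_lit 4) (nat_lit 422) (nat_lit 316) (nat_lit 282))) (XT.nd (nat_lit 78) (nat_lit 0) (nat_lit 0) (XT.lf (nat_lit 0) (nat_lit 36507184580961) (nat_lit 76) (nat_lit 3870264060085) (nat_lit 76) (nat_lit 3870075874172) (nat_lit 1) (nat_lit 4) (nat_lit 2) (nat_lit 5) (nat_lit 2) (nat_lit 4) (nat_lit 423) (nat_lit 316) (nat_lit 281)) (XT.nd (nat_lit 78) (nat_lit 0) (nat_lit 0) (XT.lf (nat_lit 0) (nat_lit 41992229824744) (nat_lit 76) (nat_lit 4446132859822) (nat_lit 76) (nat_lit 4445944488201) (nat_lit 1) (nat_lit 4) (nat_lit 2) (nat_lit 5) (nat_lit 2) (nat_lit 4) (nat_lit 424) (nat_lit 316) (nat_lit 280)) (XT.lf (nat_lit 0) (nat_lit 48300015662019) (nat_lit 76) (nat_lit 5108390362429) (nat_lit 76)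 (nat_lit 5108201829323) (nat_lit 1) (nat_lit 4) (nat_lit 2) (nat_lit 5) (nat_lit 2) (nat_lit 4) (nat_lit 425) (nat_lit 316) (nat_lit 279)))))) (XT.nd (nat_lit 50232) (nat_lit 0) (nat_lit 0) (XT.nd (nat_lit 49998) (nat_lit 0) (nat_lit 0) (XT.nd (nat_lit 78) (nat_lit 0) (nat_lit 0) (XT.lf (nat_lit 0) (nat_lit 55553955293948) (nat_lit 76) (nat_lit 5869993779914) (nat_lit 76) (nat_lit 5869805106386) (nat_lit 1) (nat_lit 4) (nat_lit 2) (nat_lit 5) (nat_lit 2) (nat_lit 4) (nat_lit 426) (nat_lit 316) (nat_lit 278)) (XT.lf (nat_lit 0) (nat_lit 63895973626374) (nat_lit 76) (nat_lit 6745844048705) (nat_lit 76) (nat_lit 6745655253072) (nat_lit 1) (nat_lit 4) (nat_lit 2) (nat_lit 5) (nat_lit 2) (nat_lit 4) (nat_lit 427) (nat_lit 316) (nat_lit 277))) (XT.nd (nat_lit 78) (nat_lit 0) (nat_lit 0) (XT.lf (nat_lit 0) (nat_lit 36009355063) (nat_lit 76) (nat_lit 46107237458) (nat_lit 76) (nat_lit 46107237458)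 (nat_lit 1) (nat_lit 4) (nat_lit 2) (nat_lit 5) (nat_lit 2) (nat_lit 4) (nat_lit 386) (nat_lit 317) (nat_lit 317)) (XT.nd (nat_lit 78) (nat_lit 0) (nat_lit 0) (XT.lf (nat_lit 0) (nat_lit 112004768716) (nat_lit 76) (nat_lit 90906212279) (nat_lit 76) (nat_lit 90877770828) (nat_lit 1) (nat_lit 4) (nat_lit 2) (nat_lit 5) (nat_lit 2) (nat_lit 4) (nat_lit 387) (nat_lit 317) (nat_lit 316)) (XT.lf (nat_lit 0) (nat_lit 155508736411) (nat_lit 76) (nat_lit 90685568402) (nat_lit 76) (nat_lit 90632395255) (nat_lit 1) (nat_lit 4) (nat_lit 2) (nat_lit 5) (nat_lit 2) (nat_lit 4) (nat_lit 388) (nat_lit 317) (nat_lit 315))))) (XT.nd (nat_lit 234) (nat_lit 0) (nat_lit 0) (XT.nd (nat_lit 78) (nat_lit 0) (nat_lit 0) (XT.lf (nat_lit 0) (nat_lit 203381777798) (nat_lit 76) (nat_lit 91548226339) (nat_lit 76) (nat_lit 91473547370) (nat_lit 1) (nat_lit 4) (nat_lit 2) (nat_lit 5) (nat_lit 2) (nat_lit 4) (nat_lit 389)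 (nat_lit 317) (nat_lit 314)) (XT.nd (nat_lit 78) (nat_lit 0) (nat_lit 0) (XT.lf (nat_lit 0) (nat_lit 256560539339) (nat_lit 76) (nat_lit 93511064182) (nat_lit 76) (nat_lit 93417684497) (nat_lit 1) (nat_lit 4) (nat_lit 2) (nat_lit 5) (nat_lit 2) (nat_lit 4) (nat_lit 390) (nat_lit 317) (nat_lit 313)) (XT.lf (nat_lit 0) (nat_lit 316085475063) (nat_lit 76) (nat_lit 96612485279) (nat_lit 76) (nat_lit 96502844102) (nat_lit 1) (nat_lit 4) (nat_lit 2) (nat_lit 5) (nat_lit 2) (nat_lit 4) (nat_lit 391) (nat_lit 317) (nat_lit 312)))) (XT.nd (nat_lit 78) (nat_lit 0) (nat_lit 0) (XT.lf (nat_lit 0) (nat_lit 383121203279) (nat_lit 76) (nat_lit 100913169607) (nat_lit 76) (nat_lit 100789388003) (nat_lit 1) (nat_lit 4) (nat_lit 2) (nat_lit 5) (nat_lit 2) (nat_lit 4) (nat_lit 392) (nat_lit 317) (nat_lit 311)) (XT.nd (nat_lit 78) (nat_lit 0) (nat_lit 0) (XT.lf (nat_lit 0) (nat_lit 458979292583) (nat_lit 76) (nat_lit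 106497260992) (nat_lit 76) (nat_lit 106361183363) (nat_lit 1) (nat_lit 4) (nat_lit 2) (nat_lit 5) (nat_lit 2) (nat_lit 4) (nat_lit 393) (nat_lit 317) (nat_lit 310)) (XT.lf (nat_lit 0) (nat_lit 545143922981) (nat_lit 76) (nat_lit 113474013394) (nat_lit 76) (nat_lit 113327243571) (nat_lit 1) (nat_lit 4) (nat_lit 2) (nat_lit 5) (nat_lit 2) (nat_lit 4) (nat_lit 394) (nat_lit 317) (nat_lit 309))))))) (XT.nd (nat_lit 780) (nat_lit 0) (nat_lit 0) (XT.nd (nat_lit 390) (nat_lit 0) (nat_lit 0) (XT.nd (nat_lit 156) (nat_lit 0) (nat_lit 0) (XT.nd (nat_lit 78) (nat_lit 0) (nat_lit 0) (XT.lf (nat_lit 0) (nat_lit 643300924200) (nat_lit 76) (nat_lit 121979928491) (nat_lit 76) (nat_lit 121823861107) (nat_lit 1) (nat_lit 4) (nat_lit 2) (nat_lit 5) (nat_lit 2) (nat_lit 4) (nat_lit 395) (nat_lit 317) (nat_lit 308)) (XT.lf (nat_lit 0) (nat_lit 755370759307) (nat_lit 76) (nat_lit 132181426361) (nat_lit 76) (nat_lit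 132017274142) (nat_lit 1) (nat_lit 4) (nat_lit 2) (nat_lit 5) (nat_lit 2) (nat_lit 4) (nat_lit 396) (nat_lit 317) (nat_lit 307))) (XT.nd (nat_lit 78) (nat_lit 0) (nat_lit 0) (XT.lf (nat_lit 0) (nat_lit 883546098988) (nat_lit 76) (nat_lit 144278101529) (nat_lit 76) (nat_lit 144106919018) (nat_lit 1) (nat_lit 4) (nat_lit 2) (nat_lit 5) (nat_lit 2) (nat_lit 4) (nat_lit 397) (nat_lit 317) (nat_lit 306)) (XT.nd (nat_lit 78) (nat_lit 0) (nat_lit 0) (XT.lf (nat_lit 0) (nat_lit 1030334721629) (nat_lit 76) (nat_lit 158506628072) (nat_lit 76) (nat_lit 158329332264) (nat_lit 1) (nat_lit 4) (nat_lit 2) (nat_lit 5) (nat_lit 2) (nat_lit 4) (nat_lit 398) (nat_lit 317) (nat_lit 305)) (XT.lf (nat_lit 0) (nat_lit 1198608578542) (nat_lit 76) (nat_lit 175145390206) (nat_lit 76) (nat_lit 174962778487) (nat_lit 1) (nat_lit 4) (nat_lit 2) (nat_lit 5) (nat_lit 2) (nat_lit 4) (nat_lit 399) (nat_lit 317) (nat_lit 304)))))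 (XT.nd (nat_lit 156) (nat_lit 0) (nat_lit 0) (XT.nd (nat_lit 78) (nat_lit 0) (nat_lit 0) (XT.lf (nat_lit 0) (nat_lit 1391659984319) (nat_lit 76) (nat_lit 194519928929) (nat_lit 76) (nat_lit 194332694680) (nat_lit 1) (nat_lit 4) (nat_lit 2) (nat_lit 5) (nat_lit 2) (nat_lit 4) (nat_lit 400) (nat_lit 317) (nat_lit 303)) (XT.lf (nat_lit 0) (nat_lit 1613266031682) (nat_lit 76) (nat_lit 217009311304) (nat_lit 76) (nat_lit 216818057463) (nat_lit 1) (nat_lit 4) (nat_lit 2) (nat_lit 5) (nat_lit 2) (nat_lit 4) (nat_lit 401) (nat_lit 317) (nat_lit 302))) (XT.nd (nat_lit 78) (nat_lit 0) (nat_lit 0) (XT.lf (nat_lit 0) (nat_lit 1867762491123) (nat_lit 76) (nat_lit 243053546985) (nat_lit 76) (nat_lit 242858797846) (nat_lit 1) (nat_lit 4) (nat_lit 2) (nat_lit 5) (nat_lit 2) (nat_lit 4) (nat_lit 402) (nat_lit 317) (nat_lit 301)) (XT.nd (nat_lit 78) (nat_lit 0) (nat_lit 0) (XT.lf (nat_lit 0) (nat_lit 2160128641195)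 (nat_lit 76) (nat_lit 273162197106) (nat_lit 76) (nat_lit 272964408578) (nat_lit 1) (nat_lit 4) (nat_lit 2) (nat_lit 5) (nat_lit 2) (nat_lit 4) (nat_lit 403) (nat_lit 317) (nat_lit 300)) (XT.lf (nat_lit 0) (nat_lit 2496084689183) (nat_lit 76) (nat_lit 307924343950) (nat_lit 76) (nat_lit 307723912476) (nat_lit 1) (nat_lit 4) (nat_lit 2) (nat_lit 5) (nat_lit 2) (nat_lit 4) (nat_lit 404) (nat_lit 317) (nat_lit 299)))))) (XT.nd (nat_lit 390) (nat_lit 0) (nat_lit 0) (XT.nd (nat_lit 156) (nat_lit 0) (nat_lit 0) (XT.nd (nat_lit 78) (nat_lit 0) (nat_lit 0) (XT.lf (nat_lit 0) (nat_lit 2882203688200) (nat_lit 76) (nat_lit 348020116480) (nat_lit 76) (nat_lit 347817386790) (nat_lit 1) (nat_lit 4) (nat_lit 2) (nat_lit 5) (nat_lit 2) (nat_lit 4) (nat_lit 405) (nat_lit 317) (nat_lit 298)) (XT.lf (nat_lit 0) (nat_lit 3326040140400) (nat_lit 76) (nat_lit 394233997199) (nat_lit 76) (nat_lit 394029269062) (nat_lit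 1) (nat_lit 4) (nat_lit 2) (nat_lit 5) (nat_lit 2) (nat_lit 4) (nat_lit 406) (nat_lit 317) (nat_lit 297))) (XT.nd (nat_lit 78) (nat_lit 0) (nat_lit 0) (XT.lf (nat_lit 0) (nat_lit 3836277802457) (nat_lit 76) (nat_lit 447470170731) (nat_lit 76) (nat_lit 447263704813) (nat_lit 1) (nat_lit 4) (nat_lit 2) (nat_lit 5) (nat_lit 2) (nat_lit 4) (nat_lit 407) (nat_lit 317) (nat_lit 296)) (XT.nd (nat_lit 78) (nat_lit 0) (nat_lit 0) (XT.lf (nat_lit 0) (nat_lit 4422899585150) (nat_lit 76) (nat_lit 508770214385) (nat_lit 76) (nat_lit 508562237354) (nat_lit 1) (nat_lit 4) (nat_lit 2) (nat_lit 5) (nat_lit 2) (nat_lit 4) (nat_lit 408) (nat_lit 317) (nat_lit 295)) (XT.lf (nat_lit 0) (nat_lit 5097382871185) (nat_lit 76) (nat_lit 579333476840) (nat_lit 76) (nat_lit 579124185797) (nat_lit 1) (nat_lit 4) (nat_lit 2) (nat_lit 5) (nat_lit 2) (nat_lit 4) (nat_lit 409) (nat_lit 317) (nat_lit 294))))) (XT.nd (nat_lit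 234) (nat_lit 0) (nat_lit 0) (XT.nd (nat_lit 78) (nat_lit 0) (nat_lit 0) (XT.lf (nat_lit 0) (nat_lit 5872924072678) (nat_lit 76) (nat_lit 660540543667) (nat_lit 76) (nat_lit 660330110005) (nat_lit 1) (nat_lit 4) (nat_lit 2) (nat_lit 5) (nat_lit 2) (nat_lit 4) (nat_lit 410) (nat_lit 317) (nat_lit 293)) (XT.nd (nat_lit 78) (nat_lit 0) (nat_lit 0) (XT.lf (nat_lit 0) (nat_lit 6764696821834) (nat_lit 76) (nat_lit 753980248781) (nat_lit 76) (nat_lit 753768821537) (nat_lit 1) (nat_lit 4) (nat_lit 2) (nat_lit 5) (nat_lit 2) (nat_lit 4) (nat_lit 411) (nat_lit 317) (nat_lit 292)) (XT.lf (nat_lit 0) (nat_lit 7790148846353) (nat_lit 76) (nat_lit 861480760326) (nat_lit 76) (nat_lit 861268469098) (nat_lit 1) (nat_lit 4) (nat_lit 2) (nat_lit 5) (nat_lit 2) (nat_lit 4) (nat_lit 412) (nat_lit 317) (nat_lit 291)))) (XT.nd (nat_lit 78) (nat_lit 0) (nat_lit 0) (XT.lf (nat_lit 0) (nat_lit 8969343338019) (nat_lit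 76) (nat_lit 985145349179) (nat_lit 76) (nat_lit 984932306661) (nat_lit 1) (nat_lit 4) (nat_lit 2) (nat_lit 5) (nat_lit 2) (nat_lit 4) (nat_lit 413) (nat_lit 317) (nat_lit 290)) (XT.nd (nat_lit 78) (nat_lit 0) (nat_lit 0) (XT.lf (nat_lit 0) (nat_lit 10325351493409) (nat_lit 76) (nat_lit 1127393539907) (nat_lit 76) (nat_lit 1127179844092) (nat_lit 1) (nat_lit 4) (nat_lit 2) (nat_lit 5) (nat_lit 2) (nat_lit 4) (nat_lit 414) (nat_lit 317) (nat_lit 289)) (XT.lf (nat_lit 0) (nat_lit 11884703906866) (nat_lit 76) (nat_lit 1291008449283) (nat_lit 76) (nat_lit 1290794185385) (nat_lit 1) (nat_lit 4) (nat_lit 2) (nat_lit 5) (nat_lit 2) (nat_lit 4) (nat_lit 415) (nat_lit 317) (nat_lit 288))))))))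
noncomputable def xc11 : XT := (XT.nd (nat_lit 51324) (nat_lit 0) (nat_lit 0) (XT.nd (nat_lit 780) (nat_lit 0) (nat_lit 0) (XT.nd (nat_lit 390) (nat_lit 0) (nat_lit 0) (XT.nd (nat_lit 156) (nat_lit 0) (nat_lit 0) (XT.nd (nat_lit 78) (nat_lit 0) (nat_lit 0) (XT.lf (nat_lit 0) (nat_lit 13677909647351) (nat_lit 76) (nat_lit 1479191238578) (nat_lit 76) (nat_lit 1478976480694) (nat_lit 1) (nat_lit 4) (nat_lit 2) (nat_lit 5) (nat_lit 2) (nat_lit 4) (nat_lit 416) (nat_lit 317) (nat_lit 287)) (XT.lf (nat_lit 0) (nat_lit 15740053175002) (nat_lit 76) (nat_lit 1695623744974) (nat_lit 76) (nat_lit 1695408557538) (nat_lit 1) (nat_lit 4) (nat_lit 2) (nat_lit 5) (nat_lit 2) (nat_lit 4) (nat_lit 417) (nat_lit 317) (nat_lit 286))) (XT.nd (nat_lit 78) (nat_lit 0) (nat_lit 0) (XT.lf (nat_lit 0) (nat_lit 18111480776230) (nat_lit 76) (nat_lit 1944540517510) (nat_lit 76) (nat_lit 1944324956549) (nat_lit 1) (nat_lit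 4) (nat_lit 2) (nat_lit 5) (nat_lit 2) (nat_lit 4) (nat_lit 418) (nat_lit 317) (nat_lit 285)) (XT.nd (nat_lit 78) (nat_lit 0) (nat_lit 0) (XT.lf (nat_lit 0) (nat_lit 20838589947582) (nat_lit 76) (nat_lit 2230811666951) (nat_lit 76) (nat_lit 2230595781187) (nat_lit 1) (nat_lit 4) (nat_lit 2) (nat_lit 5) (nat_lit 2) (nat_lit 4) (nat_lit 419) (nat_lit 317) (nat_lit 284)) (XT.lf (nat_lit 0) (nat_lit 23974737172843) (nat_lit 76) (nat_lit 2560038150570) (nat_lit 76) (nat_lit 2559821982368) (nat_lit 1) (nat_lit 4) (nat_lit 2) (nat_lit 5) (nat_lit 2) (nat_lit 4) (nat_lit 420) (nat_lit 317) (nat_lit 283))))) (XT.nd (nat_lit 156) (nat_lit 0) (nat_lit 0) (XT.nd (nat_lit 78) (nat_lit 0) (nat_lit 0) (XT.lf (nat_lit 0) (nat_lit 27581281854249) (nat_lit 76) (nat_lit 2938661356090) (nat_lit 76) (nat_lit 2938444942289) (nat_lit 1) (nat_lit 4) (nat_lit 2) (nat_lit 5) (nat_lit 2) (nat_lit 4) (nat_lit 421) (nat_lit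 317) (nat_lit 282)) (XT.lf (nat_lit 0) (nat_lit 31728786822522) (nat_lit 76) (nat_lit 3374089128836) (nat_lit 76) (nat_lit 3373872501472) (nat_lit 1) (nat_lit 4) (nat_lit 2) (nat_lit 5) (nat_lit 2) (nat_lit 4) (nat_lit 422) (nat_lit 317) (nat_lit 281))) (XT.nd (nat_lit 78) (nat_lit 0) (nat_lit 0) (XT.lf (nat_lit 0) (nat_lit 36498398913997) (nat_lit 76) (nat_lit 3874840707840) (nat_lit 76) (nat_lit 3874623894768) (nat_lit 1) (nat_lit 4) (nat_lit 2) (nat_lit 5) (nat_lit 2) (nat_lit 4) (nat_lit 423) (nat_lit 317) (nat_lit 280)) (XT.nd (nat_lit 78) (nat_lit 0) (nat_lit 0) (XT.lf (nat_lit 0) (nat_lit 41983436626117) (nat_lit 76) (nat_lit 4450713406605) (nat_lit 76) (nat_lit 4450496432048) (nat_lit 1) (nat_lit 4) (nat_lit 2) (nat_lit 5) (nat_lit 2) (nat_lit 4) (nat_lit 424) (nat_lit 317) (nat_lit 279)) (XT.lf (nat_lit 0) (nat_lit 48291215914119) (nat_lit 76) (nat_lit 5112974299670) (nat_lit 76)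 (nat_lit 5112757184692) (nat_lit 1) (nat_lit 4) (nat_lit 2) (nat_lit 5) (nat_lit 2) (nat_lit 4) (nat_lit 425) (nat_lit 317) (nat_lit 278)))))) (XT.nd (nat_lit 50076) (nat_lit 0) (nat_lit 0) (XT.nd (nat_lit 49842) (nat_lit 0) (nat_lit 0) (XT.nd (nat_lit 78) (nat_lit 0) (nat_lit 0) (XT.lf (nat_lit 0) (nat_lit 55545149851028) (nat_lit 76) (nat_lit 5874580665380) (nat_lit 76) (nat_lit 5874363428297) (nat_lit 1) (nat_lit 4) (nat_lit 2) (nat_lit 5) (nat_lit 2) (nat_lit 4) (nat_lit 426) (nat_lit 317) (nat_lit 277)) (XT.lf (nat_lit 0) (nat_lit 63887163231263) (nat_lit 76) (nat_lit 6750433497846) (nat_lit 76) (nat_lit 6750216154584) (nat_lit 1) (nat_lit 4) (nat_lit 2) (nat_lit 5) (nat_lit 2) (nat_lit 4) (nat_lit 427) (nat_lit 317) (nat_lit 276))) (XT.nd (nat_lit 78) (nat_lit 0) (nat_lit 0) (XT.lf (nat_lit 0) (nat_lit 524993407) (nat_lit 76) (nat_lit 48730504079) (nat_lit 76) (nat_lit 48730504079) (nat_lit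 1) (nat_lit 4) (nat_lit 2) (nat_lit 5) (nat_lit 2) (nat_lit 4) (nat_lit 384) (nat_lit 318) (nat_lit 318)) (XT.nd (nat_lit 78) (nat_lit 0) (nat_lit 0) (XT.lf (nat_lit 0) (nat_lit 34768224716) (nat_lit 76) (nat_lit 94668660426) (nat_lit 76) (nat_lit 94635952757) (nat_lit 1) (nat_lit 4) (nat_lit 2) (nat_lit 5) (nat_lit 2) (nat_lit 4) (nat_lit 385) (nat_lit 318) (nat_lit 317)) (XT.lf (nat_lit 0) (nat_lit 70692198669) (nat_lit 76) (nat_lit 92933897412) (nat_lit 76) (nat_lit 92872748294) (nat_lit 1) (nat_lit 4) (nat_lit 2) (nat_lit 5) (nat_lit 2) (nat_lit 4) (nat_lit 386) (nat_lit 318) (nat_lit 316))))) (XT.nd (nat_lit 234) (nat_lit 0) (nat_lit 0) (XT.nd (nat_lit 78) (nat_lit 0) (nat_lit 0) (XT.lf (nat_lit 0) (nat_lit 109524769034) (nat_lit 76) (nat_lit 92222778103) (nat_lit 76) (nat_lit 92136897288) (nat_lit 1) (nat_lit 4) (nat_lit 2) (nat_lit 5) (nat_lit 2) (nat_lit 4) (nat_lit 387) (nat_lit 318)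 (nat_lit 315)) (XT.nd (nat_lit 78) (nat_lit 0) (nat_lit 0) (XT.lf (nat_lit 0) (nat_lit 152025703491) (nat_lit 76) (nat_lit 92521389294) (nat_lit 76) (nat_lit 92414002656) (nat_lit 1) (nat_lit 4) (nat_lit 2) (nat_lit 5) (nat_lit 2) (nat_lit 4) (nat_lit 388) (nat_lit 318) (nat_lit 314)) (XT.lf (nat_lit 0) (nat_lit 199026542062) (nat_lit 76) (nat_lit 93835573378) (nat_lit 76) (nat_lit 93709486024) (nat_lit 1) (nat_lit 4) (nat_lit 2) (nat_lit 5) (nat_lit 2) (nat_lit 4) (nat_lit 389) (nat_lit 318) (nat_lit 313)))) (XT.nd (nat_lit 78) (nat_lit 0) (nat_lit 0) (XT.lf (nat_lit 0) (nat_lit 251446866371) (nat_lit 76) (nat_lit 96191042652) (nat_lit 76) (nat_lit 96048693807) (nat_lit 1) (nat_lit 4) (nat_lit 2) (nat_lit 5) (nat_lit 2) (nat_lit 4) (nat_lit 390) (nat_lit 318) (nat_lit 312)) (XT.nd (nat_lit 78) (nat_lit 0) (nat_lit 0) (XT.lf (nat_lit 0) (nat_lit 310312291460) (nat_lit 76) (nat_lit 99633882385)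 (nat_lit 76) (nat_lit 99477393112) (nat_lit 1) (nat_lit 4) (nat_lit 2) (nat_lit 5) (nat_lit 2) (nat_lit 4) (nat_lit 391) (nat_lit 318) (nat_lit 311)) (XT.lf (nat_lit 0) (nat_lit 376774532167) (nat_lit 76) (nat_lit 104231452484) (nat_lit 76) (nat_lit 104062667187) (nat_lit 1) (nat_lit 4) (nat_lit 2) (nat_lit 5) (nat_lit 2) (nat_lit 4) (nat_lit 392) (nat_lit 318) (nat_lit 310))))))) (XT.nd (nat_lit 780) (nat_lit 0) (nat_lit 0) (XT.nd (nat_lit 390) (nat_lit 0) (nat_lit 0) (XT.nd (nat_lit 156) (nat_lit 0) (nat_lit 0) (XT.nd (nat_lit 78) (nat_lit 0) (nat_lit 0) (XT.lf (nat_lit 0) (nat_lit 452133936679) (nat_lit 76) (nat_lit 110073705408) (nat_lit 76) (nat_lit 109894227916) (nat_lit 1) (nat_lit 4) (nat_lit 2) (nat_lit 5) (nat_lit 2) (nat_lit 4) (nat_lit 393) (nat_lit 318) (nat_lit 309)) (XT.lf (nat_lit 0) (nat_lit 537864928129) (nat_lit 76) (nat_lit 117274946105) (nat_lit 76) (nat_lit 117086171053)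 (nat_lit 1) (nat_lit 4) (nat_lit 2) (nat_lit 5) (nat_lit 2) (nat_lit 4) (nat_lit 394) (nat_lit 318) (nat_lit 308))) (XT.nd (nat_lit 78) (nat_lit 0) (nat_lit 0) (XT.lf (nat_lit 0) (nat_lit 635644852002) (nat_lit 76) (nat_lit 125976068416) (nat_lit 76) (nat_lit 125779208528) (nat_lit 1) (nat_lit 4) (nat_lit 2) (nat_lit 5) (nat_lit 2) (nat_lit 4) (nat_lit 395) (nat_lit 318) (nat_lit 307)) (XT.nd (nat_lit 78) (nat_lit 0) (nat_lit 0) (XT.lf (nat_lit 0) (nat_lit 747386793764) (nat_lit 76) (nat_lit 136347311689) (nat_lit 76) (nat_lit 136143421510) (nat_lit 1) (nat_lit 4) (nat_lit 2) (nat_lit 5) (nat_lit 2) (nat_lit 4) (nat_lit 396) (nat_lit 318) (nat_lit 306)) (XT.lf (nat_lit 0) (nat_lit 875277008797) (nat_lit 76) (nat_lit 148591591554) (nat_lit 76) (nat_lit 148381588078) (nat_lit 1) (nat_lit 4) (nat_lit 2) (nat_lit 5) (nat_lit 2) (nat_lit 4) (nat_lit 397) (nat_lit 318) (nat_lit 305))))) (XT.nd (nat_lit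 156) (nat_lit 0) (nat_lit 0) (XT.nd (nat_lit 78) (nat_lit 0) (nat_lit 0) (XT.lf (nat_lit 0) (nat_lit 1021817696962) (nat_lit 76) (nat_lit 162948470009) (nat_lit 76) (nat_lit 162733150622) (nat_lit 1) (nat_lit 4) (nat_lit 2) (nat_lit 5) (nat_lit 2) (nat_lit 4) (nat_lit 398) (nat_lit 318) (nat_lit 304)) (XT.lf (nat_lit 0) (nat_lit 1189875958678) (nat_lit 76) (nat_lit 179698842501) (nat_lit 76) (nat_lit 179478900583) (nat_lit 1) (nat_lit 4) (nat_lit 2) (nat_lit 5) (nat_lit 2) (nat_lit 4) (nat_lit 399) (nat_lit 318) (nat_lit 303))) (XT.nd (nat_lit 78) (nat_lit 0) (nat_lit 0) (XT.lf (nat_lit 0) (nat_lit 1382739890371) (nat_lit 76) (nat_lit 199170433709) (nat_lit 76) (nat_lit 198946472199) (nat_lit 1) (nat_lit 4) (nat_lit 2) (nat_lit 5) (nat_lit 2) (nat_lit 4) (nat_lit 400) (nat_lit 318) (nat_lit 302)) (XT.nd (nat_lit 78) (nat_lit 0) (nat_lit 0) (XT.lf (nat_lit 0) (nat_lit 1604182916791) (nat_lit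 76) (nat_lit 221744209549) (nat_lit 76) (nat_lit 221516752742) (nat_lit 1) (nat_lit 4) (nat_lit 2) (nat_lit 5) (nat_lit 2) (nat_lit 4) (nat_lit 401) (nat_lit 318) (nat_lit 301)) (XT.lf (nat_lit 0) (nat_lit 1858537618890) (nat_lit 76) (nat_lit 247861830852) (nat_lit 76) (nat_lit 247631334656) (nat_lit 1) (nat_lit 4) (nat_lit 2) (nat_lit 5) (nat_lit 2) (nat_lit 4) (nat_lit 402) (nat_lit 318) (nat_lit 300)))))) (XT.nd (nat_lit 390) (nat_lit 0) (nat_lit 0) (XT.nd (nat_lit 156) (nat_lit 0) (nat_lit 0) (XT.nd (nat_lit 78) (nat_lit 0) (nat_lit 0) (XT.lf (nat_lit 0) (nat_lit 2150780501709) (nat_lit 76) (nat_lit 278034294557) (nat_lit 76) (nat_lit 277801155414) (nat_lit 1) (nat_lit 4) (nat_lit 2) (nat_lit 5) (nat_lit 2) (nat_lit 4) (nat_lit 403) (nat_lit 318) (nat_lit 299)) (XT.lf (nat_lit 0) (nat_lit 2486629360781) (nat_lit 76) (nat_lit 312851931475) (nat_lit 76) (nat_lit 312616494117) (nat_lit 1)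 (nat_lit 4) (nat_lit 2) (nat_lit 5) (nat_lit 2) (nat_lit 4) (nat_lit 404) (nat_lit 318) (nat_lit 298))) (XT.nd (nat_lit 78) (nat_lit 0) (nat_lit 0) (XT.lf (nat_lit 0) (nat_lit 2872655152045) (nat_lit 76) (nat_lit 352995956242) (nat_lit 76) (nat_lit 352758520436) (nat_lit 1) (nat_lit 4) (nat_lit 2) (nat_lit 5) (nat_lit 2) (nat_lit 4) (nat_lit 405) (nat_lit 318) (nat_lit 297)) (XT.nd (nat_lit 78) (nat_lit 0) (nat_lit 0) (XT.lf (nat_lit 0) (nat_lit 3316410554025) (nat_lit 76) (nat_lit 399251795428) (nat_lit 76) (nat_lit 399012621842) (nat_lit 1) (nat_lit 4) (nat_lit 2) (nat_lit 5) (nat_lit 2) (nat_lit 4) (nat_lit 406) (nat_lit 318) (nat_lit 296)) (XT.lf (nat_lit 0) (nat_lit 3826577737630) (nat_lit 76) (nat_lit 452524454585) (nat_lit 76) (nat_lit 452283769885) (nat_lit 1) (nat_lit 4) (nat_lit 2) (nat_lit 5) (nat_lit 2) (nat_lit 4) (nat_lit 407) (nat_lit 318) (nat_lit 295))))) (XT.nd (nat_lit 234)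 (nat_lit 0) (nat_lit 0) (XT.nd (nat_lit 78) (nat_lit 0) (nat_lit 0) (XT.lf (nat_lit 0) (nat_lit 4413138234712) (nat_lit 76) (nat_lit 513856224868) (nat_lit 76) (nat_lit 513614226157) (nat_lit 1) (nat_lit 4) (nat_lit 2) (nat_lit 5) (nat_lit 2) (nat_lit 4) (nat_lit 408) (nat_lit 318) (nat_lit 294)) (XT.nd (nat_lit 78) (nat_lit 0) (nat_lit 0) (XT.lf (nat_lit 0) (nat_lit 5087568228911) (nat_lit 76) (nat_lit 584447075697) (nat_lit 76) (nat_lit 584203934366) (nat_lit 1) (nat_lit 4) (nat_lit 2) (nat_lit 5) (nat_lit 2) (nat_lit 4) (nat_lit 409) (nat_lit 318) (nat_lit 293)) (XT.lf (nat_lit 0) (nat_lit 5863063089679) (nat_lit 76) (nat_lit 665678132413) (nat_lit 76) (nat_lit 665433997501) (nat_lit 1) (nat_lit 4) (nat_lit 2) (nat_lit 5) (nat_lit 2) (nat_lit 4) (nat_lit 410) (nat_lit 318) (nat_lit 292)))) (XT.nd (nat_lit 78) (nat_lit 0) (nat_lit 0) (XT.lf (nat_lit 0) (nat_lit 6754795542551) (nat_lit 76)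 (nat_lit 759138698301) (nat_lit 76) (nat_lit 758893699405) (nat_lit 1) (nat_lit 4) (nat_lit 2) (nat_lit 5) (nat_lit 2) (nat_lit 4) (nat_lit 411) (nat_lit 318) (nat_lit 291)) (XT.nd (nat_lit 78) (nat_lit 0) (nat_lit 0) (XT.lf (nat_lit 0) (nat_lit 7780212526823) (nat_lit 76) (nat_lit 866657349649) (nat_lit 76) (nat_lit 866411599463) (nat_lit 1) (nat_lit 4) (nat_lit 2) (nat_lit 5) (nat_lit 2) (nat_lit 4) (nat_lit 412) (nat_lit 318) (nat_lit 290)) (XT.lf (nat_lit 0) (nat_lit 8959376548709) (nat_lit 76) (nat_lit 990337712245) (nat_lit 76) (nat_lit 990091308763) (nat_lit 1) (nat_lit 4) (nat_lit 2) (nat_lit 5) (nat_lit 2) (nat_lit 4) (nat_lit 413) (nat_lit 318) (nat_lit 289))))))))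
noncomputable def xc12 : XT := (XT.nd (nat_lit 51168) (nat_lit 0) (nat_lit 0) (XT.nd (nat_lit 780) (nat_lit 0) (nat_lit 0) (XT.nd (nat_lit 390) (nat_lit 0) (nat_lit 0) (XT.nd (nat_lit 156) (nat_lit 0) (nat_lit 0) (XT.nd (nat_lit 78) (nat_lit 0) (nat_lit 0) (XT.lf (nat_lit 0) (nat_lit 10315358208638) (nat_lit 76) (nat_lit 1132599619270) (nat_lit 76) (nat_lit 1132352647704) (nat_lit 1) (nat_lit 4) (nat_lit 2) (nat_lit 5) (nat_lit 2) (nat_lit 4) (nat_lit 414) (nat_lit 318) (nat_lit 288)) (XT.lf (nat_lit 0) (nat_lit 11874687582564) (nat_lit 76) (nat_lit 1296226455862) (nat_lit 76) (nat_lit 1295978990310) (nat_lit 1) (nat_lit 4) (nat_lit 2) (nat_lit 5) (nat_lit 2) (nat_lit 4) (nat_lit 415) (nat_lit 318) (nat_lit 287))) (XT.nd (nat_lit 78) (nat_lit 0) (nat_lit 0) (XT.lf (nat_lit 0) (nat_lit 13667873288674) (nat_lit 76) (nat_lit 1484419616648) (nat_lit 76) (nat_lit 1484171721543) (nat_lit 1) (nat_lit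 4) (nat_lit 2) (nat_lit 5) (nat_lit 2) (nat_lit 4) (nat_lit 416) (nat_lit 318) (nat_lit 286)) (XT.nd (nat_lit 78) (nat_lit 0) (nat_lit 0) (XT.lf (nat_lit 0) (nat_lit 15729999395129) (nat_lit 76) (nat_lit 1700861141733) (nat_lit 76) (nat_lit 1700612873104) (nat_lit 1) (nat_lit 4) (nat_lit 2) (nat_lit 5) (nat_lit 2) (nat_lit 4) (nat_lit 417) (nat_lit 318) (nat_lit 285)) (XT.lf (nat_lit 0) (nat_lit 18101411847492) (nat_lit 76) (nat_lit 1949785756605) (nat_lit 76) (nat_lit 1949537163173) (nat_lit 1) (nat_lit 4) (nat_lit 2) (nat_lit 5) (nat_lit 2) (nat_lit 4) (nat_lit 418) (nat_lit 318) (nat_lit 284))))) (XT.nd (nat_lit 156) (nat_lit 0) (nat_lit 0) (XT.nd (nat_lit 78) (nat_lit 0) (nat_lit 0) (XT.lf (nat_lit 0) (nat_lit 20828507845917) (nat_lit 76) (nat_lit 2236063725471) (nat_lit 76) (nat_lit 2235814849600) (nat_lit 1) (nat_lit 4) (nat_lit 2) (nat_lit 5) (nat_lit 2) (nat_lit 4) (nat_lit 419) (nat_lit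 318) (nat_lit 283)) (XT.lf (nat_lit 0) (nat_lit 23964643616460) (nat_lit 76) (nat_lit 2565296139024) (nat_lit 76) (nat_lit 2565047017555) (nat_lit 1) (nat_lit 4) (nat_lit 2) (nat_lit 5) (nat_lit 2) (nat_lit 4) (nat_lit 420) (nat_lit 318) (nat_lit 282))) (XT.nd (nat_lit 78) (nat_lit 0) (nat_lit 0) (XT.lf (nat_lit 0) (nat_lit 27571178337241) (nat_lit 76) (nat_lit 2943924501008) (nat_lit 76) (nat_lit 2943675165975) (nat_lit 1) (nat_lit 4) (nat_lit 2) (nat_lit 5) (nat_lit 2) (nat_lit 4) (nat_lit 421) (nat_lit 318) (nat_lit 281)) (XT.nd (nat_lit 78) (nat_lit 0) (nat_lit 0) (XT.lf (nat_lit 0) (nat_lit 31718674644100) (nat_lit 76) (nat_lit 3379356757636) (nat_lit 76) (nat_lit 3379107236896) (nat_lit 1) (nat_lit 4) (nat_lit 2) (nat_lit 5) (nat_lit 2) (nat_lit 4) (nat_lit 422) (nat_lit 318) (nat_lit 280)) (XT.lf (nat_lit 0) (nat_lit 36488279203912) (nat_lit 76) (nat_lit 3880112235668) (nat_lit 76)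 (nat_lit 3879862553443) (nat_lit 1) (nat_lit 4) (nat_lit 2) (nat_lit 5) (nat_lit 2) (nat_lit 4) (nat_lit 423) (nat_lit 318) (nat_lit 279)))))) (XT.nd (nat_lit 49920) (nat_lit 0) (nat_lit 0) (XT.nd (nat_lit 156) (nat_lit 0) (nat_lit 0) (XT.nd (nat_lit 78) (nat_lit 0) (nat_lit 0) (XT.lf (nat_lit 0) (nat_lit 41973310366759) (nat_lit 76) (nat_lit 4455988324891) (nat_lit 76) (nat_lit 4455738502245) (nat_lit 1) (nat_lit 4) (nat_lit 2) (nat_lit 5) (nat_lit 2) (nat_lit 4) (nat_lit 424) (nat_lit 318) (nat_lit 278)) (XT.lf (nat_lit 0) (nat_lit 48281083959741) (nat_lit 76) (nat_lit 5118252166182) (nat_lit 76) (nat_lit 5118002221430) (nat_lit 1) (nat_lit 4) (nat_lit 2) (nat_lit 5) (nat_lit 2) (nat_lit 4) (nat_lit 425) (nat_lit 318) (nat_lit 277))) (XT.nd (nat_lit 78) (nat_lit 0) (nat_lit 0) (XT.lf (nat_lit 0) (nat_lit 55535012944459) (nat_lit 76) (nat_lit 5879861095566) (nat_lit 76) (nat_lit 5879611044636)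 (nat_lit 1) (nat_lit 4) (nat_lit 2) (nat_lit 5) (nat_lit 2) (nat_lit 4) (nat_lit 426) (nat_lit 318) (nat_lit 276)) (XT.nd (nat_lit 49608) (nat_lit 0) (nat_lit 76) (XT.lf (nat_lit 0) (nat_lit 63877022018441) (nat_lit 76) (nat_lit 6755716157314) (nat_lit 76) (nat_lit 6755466014054) (nat_lit 1) (nat_lit 4) (nat_lit 2) (nat_lit 5) (nat_lit 2) (nat_lit 4) (nat_lit 427) (nat_lit 318) (nat_lit 275)) (XT.lf (nat_lit 0) (nat_lit 23211320778) (nat_lit 152) (nat_lit 28795452316) (nat_lit 0) (nat_lit 23211320778) (nat_lit 2) (nat_lit 5) (nat_lit 4) (nat_lit 4) (nat_lit 2) (nat_lit 4) (nat_lit 382) (nat_lit 319) (nat_lit 319))))) (XT.nd (nat_lit 234) (nat_lit 0) (nat_lit 0) (XT.nd (nat_lit 78) (nat_lit 76) (nat_lit 0) (XT.lf (nat_lit 0) (nat_lit 71029457760) (nat_lit 152) (nat_lit 29565360216) (nat_lit 0) (nat_lit 70991843941) (nat_lit 2) (nat_lit 5) (nat_lit 4) (nat_lit 4) (nat_lit 2) (nat_lit 4) (nat_lit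 383) (nat_lit 319) (nat_lit 318)) (XT.nd (nat_lit 78) (nat_lit 76) (nat_lit 0) (XT.lf (nat_lit 0) (nat_lit 97824278485) (nat_lit 152) (nat_lit 451714858) (nat_lit 0) (nat_lit 97753956999) (nat_lit 2) (nat_lit 5) (nat_lit 4) (nat_lit 4) (nat_lit 2) (nat_lit 4) (nat_lit 384) (nat_lit 319) (nat_lit 317)) (XT.lf (nat_lit 0) (nat_lit 31916225082) (nat_lit 76) (nat_lit 96182711123) (nat_lit 76) (nat_lit 96083948186) (nat_lit 1) (nat_lit 4) (nat_lit 2) (nat_lit 5) (nat_lit 2) (nat_lit 4) (nat_lit 385) (nat_lit 319) (nat_lit 316)))) (XT.nd (nat_lit 78) (nat_lit 0) (nat_lit 0) (XT.lf (nat_lit 0) (nat_lit 66686710811) (nat_lit 76) (nat_lit 95045091439) (nat_lit 76) (nat_lit 94921596805) (nat_lit 1) (nat_lit 4) (nat_lit 2) (nat_lit 5) (nat_lit 2) (nat_lit 4) (nat_lit 386) (nat_lit 319) (nat_lit 315)) (XT.nd (nat_lit 78) (nat_lit 0) (nat_lit 0) (XT.lf (nat_lit 0) (nat_lit 104516247937) (nat_lit 76) (nat_lit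 94853227197) (nat_lit 76) (nat_lit 94708226741) (nat_lit 1) (nat_lit 4) (nat_lit 2) (nat_lit 5) (nat_lit 2) (nat_lit 4) (nat_lit 387) (nat_lit 319) (nat_lit 314)) (XT.lf (nat_lit 0) (nat_lit 146144979578) (nat_lit 76) (nat_lit 95603364535) (nat_lit 76) (nat_lit 95439663363) (nat_lit 1) (nat_lit 4) (nat_lit 2) (nat_lit 5) (nat_lit 2) (nat_lit 4) (nat_lit 388) (nat_lit 319) (nat_lit 313))))))) (XT.nd (nat_lit 780) (nat_lit 0) (nat_lit 0) (XT.nd (nat_lit 390) (nat_lit 0) (nat_lit 0) (XT.nd (nat_lit 156) (nat_lit 0) (nat_lit 0) (XT.nd (nat_lit 78) (nat_lit 0) (nat_lit 0) (XT.lf (nat_lit 0) (nat_lit 192387380918) (nat_lit 76) (nat_lit 97310180050) (nat_lit 76) (nat_lit 97130217386) (nat_lit 1) (nat_lit 4) (nat_lit 2) (nat_lit 5) (nat_lit 2) (nat_lit 4) (nat_lit 389) (nat_lit 319) (nat_lit 312)) (XT.lf (nat_lit 0) (nat_lit 244148194592) (nat_lit 76) (nat_lit 100007067960) (nat_lit 76) (nat_lit 99812964869)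 (nat_lit 1) (nat_lit 4) (nat_lit 2) (nat_lit 5) (nat_lit 2) (nat_lit 4) (nat_lit 390) (nat_lit 319) (nat_lit 311))) (XT.nd (nat_lit 78) (nat_lit 0) (nat_lit 0) (XT.lf (nat_lit 0) (nat_lit 302440132171) (nat_lit 76) (nat_lit 103746793463) (nat_lit 76) (nat_lit 103540394348) (nat_lit 1) (nat_lit 4) (nat_lit 2) (nat_lit 5) (nat_lit 2) (nat_lit 4) (nat_lit 391) (nat_lit 319) (nat_lit 310)) (XT.nd (nat_lit 78) (nat_lit 0) (nat_lit 0) (XT.lf (nat_lit 0) (nat_lit 368403688087) (nat_lit 76) (nat_lit 108602525102) (nat_lit 76) (nat_lit 108385433792) (nat_lit 1) (nat_lit 4) (nat_lit 2) (nat_lit 5) (nat_lit 2) (nat_lit 4) (nat_lit 392) (nat_lit 319) (nat_lit 309)) (XT.lf (nat_lit 0) (nat_lit 443329453651) (nat_lit 76) (nat_lit 114669266321) (nat_lit 76) (nat_lit 114442877450) (nat_lit 1) (nat_lit 4) (nat_lit 2) (nat_lit 5) (nat_lit 2) (nat_lit 4) (nat_lit 393) (nat_lit 319) (nat_lit 308))))) (XT.nd (nat_lit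 156) (nat_lit 0) (nat_lit 0) (XT.nd (nat_lit 78) (nat_lit 0) (nat_lit 0) (XT.lf (nat_lit 0) (nat_lit 528683367754) (nat_lit 76) (nat_lit 122065714232) (nat_lit 76) (nat_lit 121831240526) (nat_lit 1) (nat_lit 4) (nat_lit 2) (nat_lit 5) (nat_lit 2) (nat_lit 4) (nat_lit 394) (nat_lit 319) (nat_lit 307)) (XT.lf (nat_lit 0) (nat_lit 626135398282) (nat_lit 76) (nat_lit 130936581945) (nat_lit 76) (nat_lit 130695077947) (nat_lit 1) (nat_lit 4) (nat_lit 2) (nat_lit 5) (nat_lit 2) (nat_lit 4) (nat_lit 395) (nat_lit 319) (nat_lit 306))) (XT.nd (nat_lit 78) (nat_lit 0) (nat_lit 0) (XT.lf (nat_lit 0) (nat_lit 737592215396) (nat_lit 76) (nat_lit 141455429916) (nat_lit 76) (nat_lit 141207812622) (nat_lit 1) (nat_lit 4) (nat_lit 2) (nat_lit 5) (nat_lit 2) (nat_lit 4) (nat_lit 396) (nat_lit 319) (nat_lit 305)) (XT.nd (nat_lit 78) (nat_lit 0) (nat_lit 0) (XT.lf (nat_lit 0) (nat_lit 865234495953) (nat_lit 76)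 (nat_lit 153828061693) (nat_lit 76) (nat_lit 153575128488) (nat_lit 1) (nat_lit 4) (nat_lit 2) (nat_lit 5) (nat_lit 2) (nat_lit 4) (nat_lit 397) (nat_lit 319) (nat_lit 304)) (XT.lf (nat_lit 0) (nat_lit 1011559588921) (nat_lit 76) (nat_lit 168296550505) (nat_lit 76) (nat_lit 168038994769) (nat_lit 1) (nat_lit 4) (nat_lit 2) (nat_lit 5) (nat_lit 2) (nat_lit 4) (nat_lit 398) (nat_lit 319) (nat_lit 303)))))) (XT.nd (nat_lit 390) (nat_lit 0) (nat_lit 0) (XT.nd (nat_lit 156) (nat_lit 0) (nat_lit 0) (XT.nd (nat_lit 78) (nat_lit 0) (nat_lit 0) (XT.lf (nat_lit 0) (nat_lit 1179430376554) (nat_lit 76) (nat_lit 185143975482) (nat_lit 76) (nat_lit 184882400154) (nat_lit 1) (nat_lit 4) (nat_lit 2) (nat_lit 5) (nat_lit 2) (nat_lit 4) (nat_lit 399) (nat_lit 319) (nat_lit 302)) (XT.lf (nat_lit 0) (nat_lit 1372131287304) (nat_lit 76) (nat_lit 204699960156) (nat_lit 76) (nat_lit 204434889530) (nat_lit 1) (nat_lit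 4) (nat_lit 2) (nat_lit 5) (nat_lit 2) (nat_lit 4) (nat_lit 400) (nat_lit 319) (nat_lit 301))) (XT.nd (nat_lit 78) (nat_lit 0) (nat_lit 0) (XT.lf (nat_lit 0) (nat_lit 1593432556382) (nat_lit 76) (nat_lit 227347121618) (nat_lit 76) (nat_lit 227079011603) (nat_lit 1) (nat_lit 4) (nat_lit 2) (nat_lit 5) (nat_lit 2) (nat_lit 4) (nat_lit 401) (nat_lit 319) (nat_lit 300)) (XT.nd (nat_lit 78) (nat_lit 0) (nat_lit 0) (XT.lf (nat_lit 0) (nat_lit 1847663991228) (nat_lit 76) (nat_lit 253528556505) (nat_lit 76) (nat_lit 253257803544) (nat_lit 1) (nat_lit 4) (nat_lit 2) (nat_lit 5) (nat_lit 2) (nat_lit 4) (nat_lit 402) (nat_lit 319) (nat_lit 299)) (XT.lf (nat_lit 0) (nat_lit 2139799685131) (nat_lit 76) (nat_lit 283756510283) (nat_lit 76) (nat_lit 283483459107) (nat_lit 1) (nat_lit 4) (nat_lit 2) (nat_lit 5) (nat_lit 2) (nat_lit 4) (nat_lit 403) (nat_lit 319) (nat_lit 298))))) (XT.nd (nat_lit 234) (nat_lit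 0) (nat_lit 0) (XT.nd (nat_lit 78) (nat_lit 0) (nat_lit 0) (XT.lf (nat_lit 0) (nat_lit 2475555336450) (nat_lit 76) (nat_lit 318622399439) (nat_lit 76) (nat_lit 318347349815) (nat_lit 1) (nat_lit 4) (nat_lit 2) (nat_lit 5) (nat_lit 2) (nat_lit 4) (nat_lit 404) (nat_lit 319) (nat_lit 297)) (XT.nd (nat_lit 78) (nat_lit 0) (nat_lit 0) (XT.lf (nat_lit 0) (nat_lit 2861500077493) (nat_lit 76) (nat_lit 358808382673) (nat_lit 76) (nat_lit 358531595269) (nat_lit 1) (nat_lit 4) (nat_lit 2) (nat_lit 5) (nat_lit 2) (nat_lit 4) (nat_lit 405) (nat_lit 319) (nat_lit 296)) (XT.lf (nat_lit 0) (nat_lit 3305185001021) (nat_lit 76) (nat_lit 405100707484) (nat_lit 76) (nat_lit 404822408966) (nat_lit 1) (nat_lit 4) (nat_lit 2) (nat_lit 5) (nat_lit 2) (nat_lit 4) (nat_lit 406) (nat_lit 319) (nat_lit 295)))) (XT.nd (nat_lit 78) (nat_lit 0) (nat_lit 0) (XT.lf (nat_lit 0) (nat_lit 3815290899015) (nat_lit 76) (nat_lit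 458405093270) (nat_lit 76) (nat_lit 458125480740) (nat_lit 1) (nat_lit 4) (nat_lit 2) (nat_lit 5) (nat_lit 2) (nat_lit 4) (nat_lit 407) (nat_lit 319) (nat_lit 294)) (XT.nd (nat_lit 78) (nat_lit 0) (nat_lit 0) (XT.lf (nat_lit 0) (nat_lit 4401798104263) (nat_lit 76) (nat_lit 519764451927) (nat_lit 76) (nat_lit 519483696778) (nat_lit 1) (nat_lit 4) (nat_lit 2) (nat_lit 5) (nat_lit 2) (nat_lit 4) (nat_lit 408) (nat_lit 319) (nat_lit 293)) (XT.lf (nat_lit 0) (nat_lit 5076181757735) (nat_lit 76) (nat_lit 590379292645) (nat_lit 76) (nat_lit 590097543915) (nat_lit 1) (nat_lit 4) (nat_lit 2) (nat_lit 5) (nat_lit 2) (nat_lit 4) (nat_lit 409) (nat_lit 319) (nat_lit 292))))))))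
noncomputable def xc13 : XT := (XT.nd (nat_lit 51012) (nat_lit 0) (nat_lit 0) (XT.nd (nat_lit 780) (nat_lit 0) (nat_lit 0) (XT.nd (nat_lit 390) (nat_lit 0) (nat_lit 0) (XT.nd (nat_lit 156) (nat_lit 0) (nat_lit 0) (XT.nd (nat_lit 78) (nat_lit 0) (nat_lit 0) (XT.lf (nat_lit 0) (nat_lit 5851636322219) (nat_lit 76) (nat_lit 671631210136) (nat_lit 76) (nat_lit 671348597421) (nat_lit 1) (nat_lit 4) (nat_lit 2) (nat_lit 5) (nat_lit 2) (nat_lit 4) (nat_lit 410) (nat_lit 319) (nat_lit 291)) (XT.lf (nat_lit 0) (nat_lit 6743333734844) (nat_lit 76) (nat_lit 765109915827) (nat_lit 76) (nat_lit 764826551822) (nat_lit 1) (nat_lit 4) (nat_lit 2) (nat_lit 5) (nat_lit 2) (nat_lit 4) (nat_lit 411) (nat_lit 319) (nat_lit 290))) (XT.nd (nat_lit 78) (nat_lit 0) (nat_lit 0) (XT.lf (nat_lit 0) (nat_lit 7768720249336) (nat_lit 76) (nat_lit 872644340917) (nat_lit 76) (nat_lit 872360323616) (nat_lit 1) (nat_lit 4) (nat_lit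 2) (nat_lit 5) (nat_lit 2) (nat_lit 4) (nat_lit 412) (nat_lit 319) (nat_lit 289)) (XT.nd (nat_lit 78) (nat_lit 0) (nat_lit 0) (XT.lf (nat_lit 0) (nat_lit 8947857775762) (nat_lit 76) (nat_lit 996338419811) (nat_lit 76) (nat_lit 996053834426) (nat_lit 1) (nat_lit 4) (nat_lit 2) (nat_lit 5) (nat_lit 2) (nat_lit 4) (nat_lit 413) (nat_lit 319) (nat_lit 288)) (XT.lf (nat_lit 0) (nat_lit 10303816396160) (nat_lit 76) (nat_lit 1138612254051) (nat_lit 76) (nat_lit 1138327174680) (nat_lit 1) (nat_lit 4) (nat_lit 2) (nat_lit 5) (nat_lit 2) (nat_lit 4) (nat_lit 414) (nat_lit 319) (nat_lit 287))))) (XT.nd (nat_lit 156) (nat_lit 0) (nat_lit 0) (XT.nd (nat_lit 78) (nat_lit 0) (nat_lit 0) (XT.lf (nat_lit 0) (nat_lit 11863125735711) (nat_lit 76) (nat_lit 1302249462133) (nat_lit 76) (nat_lit 1301963953210) (nat_lit 1) (nat_lit 4) (nat_lit 2) (nat_lit 5) (nat_lit 2) (nat_lit 4) (nat_lit 415) (nat_lit 319) (nat_lit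 286)) (XT.lf (nat_lit 0) (nat_lit 13656294020625) (nat_lit 76) (nat_lit 1490451641608) (nat_lit 76) (nat_lit 1490165759161) (nat_lit 1) (nat_lit 4) (nat_lit 2) (nat_lit 5) (nat_lit 2) (nat_lit 4) (nat_lit 416) (nat_lit 319) (nat_lit 285))) (XT.nd (nat_lit 78) (nat_lit 0) (nat_lit 0) (XT.lf (nat_lit 0) (nat_lit 15718404978215) (nat_lit 76) (nat_lit 1706901009030) (nat_lit 76) (nat_lit 1706614801779) (nat_lit 1) (nat_lit 4) (nat_lit 2) (nat_lit 5) (nat_lit 2) (nat_lit 4) (nat_lit 417) (nat_lit 319) (nat_lit 284)) (XT.nd (nat_lit 78) (nat_lit 0) (nat_lit 0) (XT.lf (nat_lit 0) (nat_lit 18089804257651) (nat_lit 76) (nat_lit 1955832443327) (nat_lit 76) (nat_lit 1955545953638) (nat_lit 1) (nat_lit 4) (nat_lit 2) (nat_lit 5) (nat_lit 2) (nat_lit 4) (nat_lit 418) (nat_lit 319) (nat_lit 283)) (XT.lf (nat_lit 0) (nat_lit 20816888801357) (nat_lit 76) (nat_lit 2242116342126) (nat_lit 76) (nat_lit 2241829606839)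 (nat_lit 1) (nat_lit 4) (nat_lit 2) (nat_lit 5) (nat_lit 2) (nat_lit 4) (nat_lit 419) (nat_lit 319) (nat_lit 282)))))) (XT.nd (nat_lit 390) (nat_lit 0) (nat_lit 0) (XT.nd (nat_lit 156) (nat_lit 0) (nat_lit 0) (XT.nd (nat_lit 78) (nat_lit 0) (nat_lit 0) (XT.lf (nat_lit 0) (nat_lit 23953014611275) (nat_lit 76) (nat_lit 2571353912143) (nat_lit 76) (nat_lit 2571066963293) (nat_lit 1) (nat_lit 4) (nat_lit 2) (nat_lit 5) (nat_lit 2) (nat_lit 4) (nat_lit 420) (nat_lit 319) (nat_lit 281)) (XT.lf (nat_lit 0) (nat_lit 27559540670642) (nat_lit 76) (nat_lit 2949986758010) (nat_lit 76) (nat_lit 2949699623451) (nat_lit 1) (nat_lit 4) (nat_lit 2) (nat_lit 5) (nat_lit 2) (nat_lit 4) (nat_lit 421) (nat_lit 319) (nat_lit 280))) (XT.nd (nat_lit 78) (nat_lit 0) (nat_lit 0) (XT.lf (nat_lit 0) (nat_lit 31707029445838) (nat_lit 76) (nat_lit 3385422913665) (nat_lit 76) (nat_lit 3385135617622) (nat_lit 1) (nat_lit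 4) (nat_lit 2) (nat_lit 5) (nat_lit 2) (nat_lit 4) (nat_lit 422) (nat_lit 319) (nat_lit 279)) (XT.nd (nat_lit 78) (nat_lit 0) (nat_lit 0) (XT.lf (nat_lit 0) (nat_lit 36476627456377) (nat_lit 76) (nat_lit 3886181782156) (nat_lit 76) (nat_lit 3885894345692) (nat_lit 1) (nat_lit 4) (nat_lit 2) (nat_lit 5) (nat_lit 2) (nat_lit 4) (nat_lit 423) (nat_lit 319) (nat_lit 278)) (XT.lf (nat_lit 0) (nat_lit 41961652924205) (nat_lit 76) (nat_lit 4462060819605) (nat_lit 76) (nat_lit 4461773261035) (nat_lit 1) (nat_lit 4) (nat_lit 2) (nat_lit 5) (nat_lit 2) (nat_lit 4) (nat_lit 424) (nat_lit 319) (nat_lit 277))))) (XT.nd (nat_lit 49608) (nat_lit 0) (nat_lit 76) (XT.nd (nat_lit 78) (nat_lit 0) (nat_lit 0) (XT.lf (nat_lit 0) (nat_lit 48269421564996) (nat_lit 76) (nat_lit 5124327224570) (nat_lit 76) (nat_lit 5124039559821) (nat_lit 1) (nat_lit 4) (nat_lit 2) (nat_lit 5) (nat_lit 2) (nat_lit 4) (nat_lit 425)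 (nat_lit 319) (nat_lit 276)) (XT.nd (nat_lit 78) (nat_lit 0) (nat_lit 0) (XT.lf (nat_lit 0) (nat_lit 55523346243461) (nat_lit 76) (nat_lit 5885938383236) (nat_lit 76) (nat_lit 5885650626157) (nat_lit 1) (nat_lit 4) (nat_lit 2) (nat_lit 5) (nat_lit 2) (nat_lit 4) (nat_lit 426) (nat_lit 319) (nat_lit 275)) (XT.lf (nat_lit 0) (nat_lit 63865351572875) (nat_lit 76) (nat_lit 6761795383490) (nat_lit 76) (nat_lit 6761507546124) (nat_lit 1) (nat_lit 4) (nat_lit 2) (nat_lit 5) (nat_lit 2) (nat_lit 4) (nat_lit 427) (nat_lit 319) (nat_lit 274)))) (XT.nd (nat_lit 78) (nat_lit 0) (nat_lit 0) (XT.lf (nat_lit 0) (nat_lit 1424223952) (nat_lit 152) (nat_lit 55321948307) (nat_lit 0) (nat_lit 1424223952) (nat_lit 2) (nat_lit 5) (nat_lit 4) (nat_lit 4) (nat_lit 2) (nat_lit 4) (nat_lit 380) (nat_lit 320) (nat_lit 320)) (XT.nd (nat_lit 78) (nat_lit 0) (nat_lit 0) (XT.lf (nat_lit 0) (nat_lit 23565648056) (nat_lit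 152) (nat_lit 85076673977) (nat_lit 0) (nat_lit 23522392165) (nat_lit 2) (nat_lit 5) (nat_lit 4) (nat_lit 4) (nat_lit 2) (nat_lit 4) (nat_lit 381) (nat_lit 320) (nat_lit 319)) (XT.lf (nat_lit 0) (nat_lit 45661957635) (nat_lit 152) (nat_lit 59257458274) (nat_lit 0) (nat_lit 45581087925) (nat_lit 2) (nat_lit 5) (nat_lit 4) (nat_lit 4) (nat_lit 2) (nat_lit 4) (nat_lit 382) (nat_lit 320) (nat_lit 318))))))) (XT.nd (nat_lit 780) (nat_lit 0) (nat_lit 0) (XT.nd (nat_lit 390) (nat_lit 0) (nat_lit 0) (XT.nd (nat_lit 156) (nat_lit 76) (nat_lit 0) (XT.nd (nat_lit 78) (nat_lit 0) (nat_lit 0) (XT.lf (nat_lit 0) (nat_lit 69569695742) (nat_lit 152) (nat_lit 32681090937) (nat_lit 0) (nat_lit 69456118364) (nat_lit 2) (nat_lit 5) (nat_lit 4) (nat_lit 4) (nat_lit 2) (nat_lit 4) (nat_lit 383) (nat_lit 320) (nat_lit 317)) (XT.lf (nat_lit 0) (nat_lit 95756622470) (nat_lit 152) (nat_lit 4827599561) (nat_lit 0) (nat_lit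 95614603641) (nat_lit 2) (nat_lit 5) (nat_lit 4) (nat_lit 4) (nat_lit 2) (nat_lit 4) (nat_lit 384) (nat_lit 320) (nat_lit 316))) (XT.nd (nat_lit 78) (nat_lit 0) (nat_lit 0) (XT.lf (nat_lit 0) (nat_lit 26156425821) (nat_lit 76) (nat_lit 99207727582) (nat_lit 76) (nat_lit 99040977057) (nat_lit 1) (nat_lit 4) (nat_lit 2) (nat_lit 5) (nat_lit 2) (nat_lit 4) (nat_lit 385) (nat_lit 320) (nat_lit 315)) (XT.nd (nat_lit 78) (nat_lit 0) (nat_lit 0) (XT.lf (nat_lit 0) (nat_lit 59923878312) (nat_lit 76) (nat_lit 98589362965) (nat_lit 76) (nat_lit 98401106617) (nat_lit 1) (nat_lit 4) (nat_lit 2) (nat_lit 5) (nat_lit 2) (nat_lit 4) (nat_lit 386) (nat_lit 320) (nat_lit 314)) (XT.lf (nat_lit 0) (nat_lit 96881212622) (nat_lit 76) (nat_lit 98849024870) (nat_lit 76) (nat_lit 98642067807) (nat_lit 1) (nat_lit 4) (nat_lit 2) (nat_lit 5) (nat_lit 2) (nat_lit 4) (nat_lit 387) (nat_lit 320) (nat_lit 313))))) (XT.nd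 (nat_lit 156) (nat_lit 0) (nat_lit 0) (XT.nd (nat_lit 78) (nat_lit 0) (nat_lit 0) (XT.lf (nat_lit 0) (nat_lit 137751507032) (nat_lit 76) (nat_lit 99991793639) (nat_lit 76) (nat_lit 99768575084) (nat_lit 1) (nat_lit 4) (nat_lit 2) (nat_lit 5) (nat_lit 2) (nat_lit 4) (nat_lit 388) (nat_lit 320) (nat_lit 312)) (XT.lf (nat_lit 0) (nat_lit 183334397736) (nat_lit 76) (nat_lit 102040027790) (nat_lit 76) (nat_lit 101802668807) (nat_lit 1) (nat_lit 4) (nat_lit 2) (nat_lit 5) (nat_lit 2) (nat_lit 4) (nat_lit 389) (nat_lit 320) (nat_lit 311))) (XT.nd (nat_lit 78) (nat_lit 0) (nat_lit 0) (XT.lf (nat_lit 0) (nat_lit 234521723900) (nat_lit 76) (nat_lit 105033801471) (nat_lit 76) (nat_lit 104784146464) (nat_lit 1) (nat_lit 4) (nat_lit 2) (nat_lit 5) (nat_lit 2) (nat_lit 4) (nat_lit 390) (nat_lit 320) (nat_lit 310)) (XT.nd (nat_lit 78) (nat_lit 0) (nat_lit 0) (XT.lf (nat_lit 0) (nat_lit 292314976688) (nat_lit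 76) (nat_lit 109031688513) (nat_lit 76) (nat_lit 108771341312) (nat_lit 1) (nat_lit 4) (nat_lit 2) (nat_lit 5) (nat_lit 2) (nat_lit 4) (nat_lit 391) (nat_lit 320) (nat_lit 309)) (XT.lf (nat_lit 0) (nat_lit 357844893656) (nat_lit 76) (nat_lit 114111908447) (nat_lit 76) (nat_lit 113842263685) (nat_lit 1) (nat_lit 4) (nat_lit 2) (nat_lit 5) (nat_lit 2) (nat_lit 4) (nat_lit 392) (nat_lit 320) (nat_lit 308)))))) (XT.nd (nat_lit 390) (nat_lit 0) (nat_lit 0) (XT.nd (nat_lit 156) (nat_lit 0) (nat_lit 0) (XT.nd (nat_lit 78) (nat_lit 0) (nat_lit 0) (XT.lf (nat_lit 0) (nat_lit 432393581873) (nat_lit 76) (nat_lit 120373856880) (nat_lit 76) (nat_lit 120096127282) (nat_lit 1) (nat_lit 4) (nat_lit 2) (nat_lit 5) (nat_lit 2) (nat_lit 4) (nat_lit 393) (nat_lit 320) (nat_lit 307)) (XT.lf (nat_lit 0) (nat_lit 517419602632) (nat_lit 76) (nat_lit 127940050193) (nat_lit 76) (nat_lit 127655290304) (nat_lit 1) (nat_lit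 4) (nat_lit 2) (nat_lit 5) (nat_lit 2) (nat_lit 4) (nat_lit 394) (nat_lit 320) (nat_lit 306))) (XT.nd (nat_lit 78) (nat_lit 0) (nat_lit 0) (XT.lf (nat_lit 0) (nat_lit 614586508511) (nat_lit 76) (nat_lit 136958522605) (nat_lit 76) (nat_lit 136667649419) (nat_lit 1) (nat_lit 4) (nat_lit 2) (nat_lit 5) (nat_lit 2) (nat_lit 4) (nat_lit 395) (nat_lit 320) (nat_lit 305)) (XT.nd (nat_lit 78) (nat_lit 0) (nat_lit 0) (XT.lf (nat_lit 0) (nat_lit 725795391149) (nat_lit 76) (nat_lit 147605722488) (nat_lit 76) (nat_lit 147309533391) (nat_lit 1) (nat_lit 4) (nat_lit 2) (nat_lit 5) (nat_lit 2) (nat_lit 4) (nat_lit 396) (nat_lit 320) (nat_lit 304)) (XT.lf (nat_lit 0) (nat_lit 853222076510) (nat_lit 76) (nat_lit 160089964622) (nat_lit 76) (nat_lit 159789152995) (nat_lit 1) (nat_lit 4) (nat_lit 2) (nat_lit 5) (nat_lit 2) (nat_lit 4) (nat_lit 397) (nat_lit 320) (nat_lit 303))))) (XT.nd (nat_lit 234) (nat_lit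 0) (nat_lit 0) (XT.nd (nat_lit 78) (nat_lit 0) (nat_lit 0) (XT.lf (nat_lit 0) (nat_lit 999359695394) (nat_lit 76) (nat_lit 174655505919) (nat_lit 76) (nat_lit 174350674700) (nat_lit 1) (nat_lit 4) (nat_lit 2) (nat_lit 5) (nat_lit 2) (nat_lit 4) (nat_lit 398) (nat_lit 320) (nat_lit 302)) (XT.nd (nat_lit 78) (nat_lit 0) (nat_lit 0) (XT.lf (nat_lit 0) (nat_lit 1167067462083) (nat_lit 76) (nat_lit 191587324361) (nat_lit 76) (nat_lit 191278997845) (nat_lit 1) (nat_lit 4) (nat_lit 2) (nat_lit 5) (nat_lit 2) (nat_lit 4) (nat_lit 399) (nat_lit 320) (nat_lit 301)) (XT.lf (nat_lit 0) (nat_lit 1359626615492) (nat_lit 76) (nat_lit 211216694657) (nat_lit 76) (nat_lit 210905328751) (nat_lit 1) (nat_lit 4) (nat_lit 2) (nat_lit 5) (nat_lit 2) (nat_lit 4) (nat_lit 400) (nat_lit 320) (nat_lit 300)))) (XT.nd (nat_lit 78) (nat_lit 0) (nat_lit 0) (XT.lf (nat_lit 0) (nat_lit 1580804617317) (nat_lit 76) (nat_lit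 233927669703) (nat_lit 76) (nat_lit 233613660850) (nat_lit 1) (nat_lit 4) (nat_lit 2) (nat_lit 5) (nat_lit 2) (nat_lit 4) (nat_lit 401) (nat_lit 320) (nat_lit 299)) (XT.nd (nat_lit 78) (nat_lit 0) (nat_lit 0) (XT.lf (nat_lit 0) (nat_lit 1834928863247) (nat_lit 76) (nat_lit 260164594664) (nat_lit 76) (nat_lit 259848287596) (nat_lit 1) (nat_lit 4) (nat_lit 2) (nat_lit 5) (nat_lit 2) (nat_lit 4) (nat_lit 402) (nat_lit 320) (nat_lit 298)) (XT.lf (nat_lit 0) (nat_lit 2126971349396) (nat_lit 76) (nat_lit 290440800680) (nat_lit 76) (nat_lit 290122495164) (nat_lit 1) (nat_lit 4) (nat_lit 2) (nat_lit 5) (nat_lit 2) (nat_lit 4) (nat_lit 403) (nat_lit 320) (nat_lit 297))))))))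
noncomputable def xc14 : XT := (XT.nd (nat_lit 1638) (nat_lit 0) (nat_lit 0) (XT.nd (nat_lit 780) (nat_lit 0) (nat_lit 0) (XT.nd (nat_lit 390) (nat_lit 0) (nat_lit 0) (XT.nd (nat_lit 156) (nat_lit 0) (nat_lit 0) (XT.nd (nat_lit 78) (nat_lit 0) (nat_lit 0) (XT.lf (nat_lit 0) (nat_lit 2462645950495) (nat_lit 76) (nat_lit 325348648303) (nat_lit 76) (nat_lit 325028605007) (nat_lit 1) (nat_lit 4) (nat_lit 2) (nat_lit 5) (nat_lit 2) (nat_lit 4) (nat_lit 404) (nat_lit 320) (nat_lit 296)) (XT.lf (nat_lit 0) (nat_lit 2848520213087) (nat_lit 76) (nat_lit 365571117161) (nat_lit 76) (nat_lit 365249562751) (nat_lit 1) (nat_lit 4) (nat_lit 2) (nat_lit 5) (nat_lit 2) (nat_lit 4) (nat_lit 405) (nat_lit 320) (nat_lit 295))) (XT.nd (nat_lit 78) (nat_lit 0) (nat_lit 0) (XT.lf (nat_lit 0) (nat_lit 3292143851004) (nat_lit 76) (nat_lit 411895168601) (nat_lit 76) (nat_lit 411572300180) (nat_lit 1) (nat_lit 4) (nat_lit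 2) (nat_lit 5) (nat_lit 2) (nat_lit 4) (nat_lit 406) (nat_lit 320) (nat_lit 294)) (XT.nd (nat_lit 78) (nat_lit 0) (nat_lit 0) (XT.lf (nat_lit 0) (nat_lit 3802196457163) (nat_lit 76) (nat_lit 465227142761) (nat_lit 76) (nat_lit 464903131720) (nat_lit 1) (nat_lit 4) (nat_lit 2) (nat_lit 5) (nat_lit 2) (nat_lit 4) (nat_lit 407) (nat_lit 320) (nat_lit 293)) (XT.lf (nat_lit 0) (nat_lit 4388657321684) (nat_lit 76) (nat_lit 526610491307) (nat_lit 76) (nat_lit 526285486685) (nat_lit 1) (nat_lit 4) (nat_lit 2) (nat_lit 5) (nat_lit 2) (nat_lit 4) (nat_lit 408) (nat_lit 320) (nat_lit 292))))) (XT.nd (nat_lit 156) (nat_lit 0) (nat_lit 0) (XT.nd (nat_lit 78) (nat_lit 0) (nat_lit 0) (XT.lf (nat_lit 0) (nat_lit 5063000678872) (nat_lit 76) (nat_lit 597246192800) (nat_lit 76) (nat_lit 596920324194) (nat_lit 1) (nat_lit 4) (nat_lit 2) (nat_lit 5) (nat_lit 2) (nat_lit 4) (nat_lit 409) (nat_lit 320) (nat_lit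 291)) (XT.lf (nat_lit 0) (nat_lit 5838420203109) (nat_lit 76) (nat_lit 678516250094) (nat_lit 76) (nat_lit 678189630197) (nat_lit 1) (nat_lit 4) (nat_lit 2) (nat_lit 5) (nat_lit 2) (nat_lit 4) (nat_lit 410) (nat_lit 320) (nat_lit 290))) (XT.nd (nat_lit 78) (nat_lit 0) (nat_lit 0) (XT.lf (nat_lit 0) (nat_lit 6730087145954) (nat_lit 76) (nat_lit 772010729527) (nat_lit 76) (nat_lit 771683456334) (nat_lit 1) (nat_lit 4) (nat_lit 2) (nat_lit 5) (nat_lit 2) (nat_lit 4) (nat_lit 411) (nat_lit 320) (nat_lit 289)) (XT.nd (nat_lit 78) (nat_lit 0) (nat_lit 0) (XT.lf (nat_lit 0) (nat_lit 7755447164986) (nat_lit 76) (nat_lit 879558870915) (nat_lit 76) (nat_lit 879231029639) (nat_lit 1) (nat_lit 4) (nat_lit 2) (nat_lit 5) (nat_lit 2) (nat_lit 4) (nat_lit 412) (nat_lit 320) (nat_lit 288)) (XT.lf (nat_lit 0) (nat_lit 8934561651881) (nat_lit 76) (nat_lit 1003264877023) (nat_lit 76) (nat_lit 1002936541762)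 (nat_lit 1) (nat_lit 4) (nat_lit 2) (nat_lit 5) (nat_lit 2) (nat_lit 4) (nat_lit 413) (nat_lit 320) (nat_lit 287)))))) (XT.nd (nat_lit 390) (nat_lit 0) (nat_lit 0) (XT.nd (nat_lit 156) (nat_lit 0) (nat_lit 0) (XT.nd (nat_lit 78) (nat_lit 0) (nat_lit 0) (XT.lf (nat_lit 0) (nat_lit 10290500237904) (nat_lit 76) (nat_lit 1145549082755) (nat_lit 76) (nat_lit 1145220317940) (nat_lit 1) (nat_lit 4) (nat_lit 2) (nat_lit 5) (nat_lit 2) (nat_lit 4) (nat_lit 414) (nat_lit 320) (nat_lit 286)) (XT.lf (nat_lit 0) (nat_lit 11849792156260) (nat_lit 76) (nat_lit 1309195309526) (nat_lit 76) (nat_lit 1308866171187) (nat_lit 1) (nat_lit 4) (nat_lit 2) (nat_lit 5) (nat_lit 2) (nat_lit 4) (nat_lit 415) (nat_lit 320) (nat_lit 285))) (XT.nd (nat_lit 78) (nat_lit 0) (nat_lit 0) (XT.lf (nat_lit 0) (nat_lit 13642945292308) (nat_lit 76) (nat_lit 1497405331338) (nat_lit 76) (nat_lit 1497075868196) (nat_lit 1) (nat_lit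 4) (nat_lit 2) (nat_lit 5) (nat_lit 2) (nat_lit 4) (nat_lit 416) (nat_lit 320) (nat_lit 284)) (XT.nd (nat_lit 78) (nat_lit 0) (nat_lit 0) (XT.lf (nat_lit 0) (nat_lit 15705043076971) (nat_lit 76) (nat_lit 1713861518184) (nat_lit 76) (nat_lit 1713531772604) (nat_lit 1) (nat_lit 4) (nat_lit 2) (nat_lit 5) (nat_lit 2) (nat_lit 4) (nat_lit 417) (nat_lit 320) (nat_lit 283)) (XT.lf (nat_lit 0) (nat_lit 18076430901688) (nat_lit 76) (nat_lit 1962798882415) (nat_lit 76) (nat_lit 1962468891237) (nat_lit 1) (nat_lit 4) (nat_lit 2) (nat_lit 5) (nat_lit 2) (nat_lit 4) (nat_lit 418) (nat_lit 320) (nat_lit 282))))) (XT.nd (nat_lit 234) (nat_lit 0) (nat_lit 0) (XT.nd (nat_lit 78) (nat_lit 0) (nat_lit 0) (XT.lf (nat_lit 0) (nat_lit 20803505484769) (nat_lit 76) (nat_lit 2249087937678) (nat_lit 76) (nat_lit 2248757732936) (nat_lit 1) (nat_lit 4) (nat_lit 2) (nat_lit 5) (nat_lit 2) (nat_lit 4) (nat_lit 419) (nat_lit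 320) (nat_lit 281)) (XT.nd (nat_lit 78) (nat_lit 0) (nat_lit 0) (XT.lf (nat_lit 0) (nat_lit 23939622633274) (nat_lit 76) (nat_lit 2578329991578) (nat_lit 76) (nat_lit 2577999601128) (nat_lit 1) (nat_lit 4) (nat_lit 2) (nat_lit 5) (nat_lit 2) (nat_lit 4) (nat_lit 420) (nat_lit 320) (nat_lit 280)) (XT.lf (nat_lit 0) (nat_lit 27546141160978) (nat_lit 76) (nat_lit 2956966736472) (nat_lit 76) (nat_lit 2956636184537) (nat_lit 1) (nat_lit 4) (nat_lit 2) (nat_lit 5) (nat_lit 2) (nat_lit 4) (nat_lit 421) (nat_lit 320) (nat_lit 279)))) (XT.nd (nat_lit 78) (nat_lit 0) (nat_lit 0) (XT.lf (nat_lit 0) (nat_lit 31693623386901) (nat_lit 76) (nat_lit 3392406282586) (nat_lit 76) (nat_lit 3392075590230) (nat_lit 1) (nat_lit 4) (nat_lit 2) (nat_lit 5) (nat_lit 2) (nat_lit 4) (nat_lit 422) (nat_lit 320) (nat_lit 278)) (XT.nd (nat_lit 78) (nat_lit 0) (nat_lit 0) (XT.lf (nat_lit 0) (nat_lit 36463215702420) (nat_lit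 76) (nat_lit 3893168099302) (nat_lit 76) (nat_lit 3892837284841) (nat_lit 1) (nat_lit 4) (nat_lit 2) (nat_lit 5) (nat_lit 2) (nat_lit 4) (nat_lit 423) (nat_lit 320) (nat_lit 277)) (XT.lf (nat_lit 0) (nat_lit 41948236218057) (nat_lit 76) (nat_lit 4469049700425) (nat_lit 76) (nat_lit 4468718779785) (nat_lit 1) (nat_lit 4) (nat_lit 2) (nat_lit 5) (nat_lit 2) (nat_lit 4) (nat_lit 424) (nat_lit 320) (nat_lit 276))))))) (XT.nd (nat_lit 49998) (nat_lit 0) (nat_lit 0) (XT.nd (nat_lit 49608) (nat_lit 0) (nat_lit 76) (XT.nd (nat_lit 156) (nat_lit 0) (nat_lit 0) (XT.nd (nat_lit 78) (nat_lit 0) (nat_lit 0) (XT.lf (nat_lit 0) (nat_lit 48256000552595) (nat_lit 76) (nat_lit 5131318334672) (nat_lit 76) (nat_lit 5130987321702) (nat_lit 1) (nat_lit 4) (nat_lit 2) (nat_lit 5) (nat_lit 2) (nat_lit 4) (nat_lit 425) (nat_lit 320) (nat_lit 275)) (XT.lf (nat_lit 0) (nat_lit 55509921486492) (nat_lit 76) (nat_lit 5892931431844)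 (nat_lit 76) (nat_lit 5892600338587) (nat_lit 1) (nat_lit 4) (nat_lit 2) (nat_lit 5) (nat_lit 2) (nat_lit 4) (nat_lit 426) (nat_lit 320) (nat_lit 274))) (XT.nd (nat_lit 49296) (nat_lit 0) (nat_lit 228) (XT.lf (nat_lit 0) (nat_lit 63851923559760) (nat_lit 76) (nat_lit 6768790117755) (nat_lit 76) (nat_lit 6768458954684) (nat_lit 1) (nat_lit 4) (nat_lit 2) (nat_lit 5) (nat_lit 2) (nat_lit 4) (nat_lit 427) (nat_lit 320) (nat_lit 273)) (XT.nd (nat_lit 78) (nat_lit 0) (nat_lit 0) (XT.lf (nat_lit 0) (nat_lit 11284356802) (nat_lit 76) (nat_lit 17026729029) (nat_lit 76) (nat_lit 17026729029) (nat_lit 4) (nat_lit 4) (nat_lit 5) (nat_lit 5) (nat_lit 5) (nat_lit 4) (nat_lit 378) (nat_lit 321) (nat_lit 321)) (XT.lf (nat_lit 0) (nat_lit 69701500865) (nat_lit 76) (nat_lit 16469877794) (nat_lit 76) (nat_lit 16416153977) (nat_lit 4) (nat_lit 4) (nat_lit 5) (nat_lit 5) (nat_lit 5) (nat_lit 4) (nat_lit 379)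 (nat_lit 321) (nat_lit 320))))) (XT.nd (nat_lit 156) (nat_lit 0) (nat_lit 0) (XT.nd (nat_lit 78) (nat_lit 0) (nat_lit 0) (XT.lf (nat_lit 0) (nat_lit 1973661395) (nat_lit 152) (nat_lit 112560433301) (nat_lit 0) (nat_lit 1880661229) (nat_lit 2) (nat_lit 5) (nat_lit 4) (nat_lit 4) (nat_lit 2) (nat_lit 4) (nat_lit 380) (nat_lit 321) (nat_lit 319)) (XT.lf (nat_lit 0) (nat_lit 21886921735) (nat_lit 152) (nat_lit 88659764306) (nat_lit 0) (nat_lit 21756307750) (nat_lit 2) (nat_lit 5) (nat_lit 4) (nat_lit 4) (nat_lit 2) (nat_lit 4) (nat_lit 381) (nat_lit 321) (nat_lit 318))) (XT.nd (nat_lit 78) (nat_lit 0) (nat_lit 0) (XT.lf (nat_lit 0) (nat_lit 43284153217) (nat_lit 152) (nat_lit 64289725683) (nat_lit 0) (nat_lit 43120831564) (nat_lit 2) (nat_lit 5) (nat_lit 4) (nat_lit 4) (nat_lit 2) (nat_lit 4) (nat_lit 382) (nat_lit 321) (nat_lit 317)) (XT.nd (nat_lit 78) (nat_lit 0) (nat_lit 0) (XT.lf (nat_lit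 0) (nat_lit 66583997326) (nat_lit 152) (nat_lit 38973512328) (nat_lit 0) (nat_lit 66392234223) (nat_lit 2) (nat_lit 5) (nat_lit 4) (nat_lit 4) (nat_lit 2) (nat_lit 4) (nat_lit 383) (nat_lit 321) (nat_lit 316)) (XT.lf (nat_lit 0) (nat_lit 92242320578) (nat_lit 152) (nat_lit 12215807023) (nat_lit 0) (nat_lit 92025825778) (nat_lit 2) (nat_lit 5) (nat_lit 4) (nat_lit 4) (nat_lit 2) (nat_lit 4) (nat_lit 384) (nat_lit 321) (nat_lit 315)))))) (XT.nd (nat_lit 390) (nat_lit 0) (nat_lit 0) (XT.nd (nat_lit 156) (nat_lit 0) (nat_lit 0) (XT.nd (nat_lit 78) (nat_lit 0) (nat_lit 0) (XT.lf (nat_lit 0) (nat_lit 17376135208) (nat_lit 76) (nat_lit 103802894905) (nat_lit 76) (nat_lit 103564894283) (nat_lit 1) (nat_lit 4) (nat_lit 2) (nat_lit 5) (nat_lit 2) (nat_lit 4) (nat_lit 385) (nat_lit 321) (nat_lit 314)) (XT.lf (nat_lit 0) (nat_lit 50271384883) (nat_lit 76) (nat_lit 103636056435) (nat_lit 76) (nat_lit 103379355097)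 (nat_lit 1) (nat_lit 4) (nat_lit 2) (nat_lit 5) (nat_lit 2) (nat_lit 4) (nat_lit 386) (nat_lit 321) (nat_lit 313))) (XT.nd (nat_lit 78) (nat_lit 0) (nat_lit 0) (XT.lf (nat_lit 0) (nat_lit 86470281962) (nat_lit 76) (nat_lit 104288349771) (nat_lit 76) (nat_lit 104015386942) (nat_lit 1) (nat_lit 4) (nat_lit 2) (nat_lit 5) (nat_lit 2) (nat_lit 4) (nat_lit 387) (nat_lit 321) (nat_lit 312)) (XT.nd (nat_lit 78) (nat_lit 0) (nat_lit 0) (XT.lf (nat_lit 0) (nat_lit 126681065736) (nat_lit 76) (nat_lit 105772537176) (nat_lit 76) (nat_lit 105485433919) (nat_lit 1) (nat_lit 4) (nat_lit 2) (nat_lit 5) (nat_lit 2) (nat_lit 4) (nat_lit 388) (nat_lit 321) (nat_lit 311)) (XT.lf (nat_lit 0) (nat_lit 171690468930) (nat_lit 76) (nat_lit 108117657098) (nat_lit 76) (nat_lit 107818257816) (nat_lit 1) (nat_lit 4) (nat_lit 2) (nat_lit 5) (nat_lit 2) (nat_lit 4) (nat_lit 389) (nat_lit 321) (nat_lit 310))))) (XT.nd (nat_lit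 234) (nat_lit 0) (nat_lit 0) (XT.nd (nat_lit 78) (nat_lit 0) (nat_lit 0) (XT.lf (nat_lit 0) (nat_lit 222379110304) (nat_lit 76) (nat_lit 111369592318) (nat_lit 76) (nat_lit 111059500842) (nat_lit 1) (nat_lit 4) (nat_lit 2) (nat_lit 5) (nat_lit 2) (nat_lit 4) (nat_lit 390) (nat_lit 321) (nat_lit 309)) (XT.nd (nat_lit 78) (nat_lit 0) (nat_lit 0) (XT.lf (nat_lit 0) (nat_lit 279738724144) (nat_lit 76) (nat_lit 115591967656) (nat_lit 76) (nat_lit 115272578619) (nat_lit 1) (nat_lit 4) (nat_lit 2) (nat_lit 5) (nat_lit 2) (nat_lit 4) (nat_lit 391) (nat_lit 321) (nat_lit 308)) (XT.lf (nat_lit 0) (nat_lit 344891563765) (nat_lit 76) (nat_lit 120867394803) (nat_lit 76) (nat_lit 120539920931) (nat_lit 1) (nat_lit 4) (nat_lit 2) (nat_lit 5) (nat_lit 2) (nat_lit 4) (nat_lit 392) (nat_lit 321) (nat_lit 307)))) (XT.nd (nat_lit 78) (nat_lit 0) (nat_lit 0) (XT.lf (nat_lit 0) (nat_lit 419112358637) (nat_lit 76)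 (nat_lit 127299088638) (nat_lit 76) (nat_lit 126964584475) (nat_lit 1) (nat_lit 4) (nat_lit 2) (nat_lit 5) (nat_lit 2) (nat_lit 4) (nat_lit 393) (nat_lit 321) (nat_lit 306)) (XT.nd (nat_lit 78) (nat_lit 0) (nat_lit 0) (XT.lf (nat_lit 0) (nat_lit 503853254748) (nat_lit 76) (nat_lit 135012886650) (nat_lit 76) (nat_lit 134672269189) (nat_lit 1) (nat_lit 4) (nat_lit 2) (nat_lit 5) (nat_lit 2) (nat_lit 4) (nat_lit 394) (nat_lit 321) (nat_lit 305)) (XT.lf (nat_lit 0) (nat_lit 600772226152) (nat_lit 76) (nat_lit 144159710973) (nat_lit 76) (nat_lit 143813777602) (nat_lit 1) (nat_lit 4) (nat_lit 2) (nat_lit 5) (nat_lit 2) (nat_lit 4) (nat_lit 395) (nat_lit 321) (nat_lit 304))))))))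
noncomputable def xc15 : XT := (XT.nd (nat_lit 1638) (nat_lit 0) (nat_lit 0) (XT.nd (nat_lit 780) (nat_lit 0) (nat_lit 0) (XT.nd (nat_lit 390) (nat_lit 0) (nat_lit 0) (XT.nd (nat_lit 156) (nat_lit 0) (nat_lit 0) (XT.nd (nat_lit 78) (nat_lit 0) (nat_lit 0) (XT.lf (nat_lit 0) (nat_lit 711765513593) (nat_lit 76) (nat_lit 154918521214) (nat_lit 76) (nat_lit 154567965311) (nat_lit 1) (nat_lit 4) (nat_lit 2) (nat_lit 5) (nat_lit 2) (nat_lit 4) (nat_lit 396) (nat_lit 321) (nat_lit 303)) (XT.lf (nat_lit 0) (nat_lit 839004724869) (nat_lit 76) (nat_lit 167499815833) (nat_lit 76) (nat_lit 167145240339) (nat_lit 1) (nat_lit 4) (nat_lit 2) (nat_lit 5) (nat_lit 2) (nat_lit 4) (nat_lit 397) (nat_lit 321) (nat_lit 302))) (XT.nd (nat_lit 78) (nat_lit 0) (nat_lit 0) (XT.lf (nat_lit 0) (nat_lit 984979322810) (nat_lit 76) (nat_lit 182149750596) (nat_lit 76) (nat_lit 181791679804) (nat_lit 1) (nat_lit 4) (nat_lit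 2) (nat_lit 5) (nat_lit 2) (nat_lit 4) (nat_lit 398) (nat_lit 321) (nat_lit 301)) (XT.nd (nat_lit 78) (nat_lit 0) (nat_lit 0) (XT.lf (nat_lit 0) (nat_lit 1152545332158) (nat_lit 76) (nat_lit 199154954660) (nat_lit 76) (nat_lit 198793844479) (nat_lit 1) (nat_lit 4) (nat_lit 2) (nat_lit 5) (nat_lit 2) (nat_lit 4) (nat_lit 399) (nat_lit 321) (nat_lit 300)) (XT.lf (nat_lit 0) (nat_lit 1344981218314) (nat_lit 76) (nat_lit 218848138540) (nat_lit 76) (nat_lit 218484385412) (nat_lit 1) (nat_lit 4) (nat_lit 2) (nat_lit 5) (nat_lit 2) (nat_lit 4) (nat_lit 400) (nat_lit 321) (nat_lit 299))))) (XT.nd (nat_lit 156) (nat_lit 0) (nat_lit 0) (XT.nd (nat_lit 78) (nat_lit 0) (nat_lit 0) (XT.lf (nat_lit 0) (nat_lit 1566052031223) (nat_lit 76) (nat_lit 241614603659) (nat_lit 76) (nat_lit 241248552316) (nat_lit 1) (nat_lit 4) (nat_lit 2) (nat_lit 5) (nat_lit 2) (nat_lit 4) (nat_lit 401) (nat_lit 321) (nat_lit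 298)) (XT.lf (nat_lit 0) (nat_lit 1820083069399) (nat_lit 76) (nat_lit 267899780857) (nat_lit 76) (nat_lit 267531731067) (nat_lit 1) (nat_lit 4) (nat_lit 2) (nat_lit 5) (nat_lit 2) (nat_lit 4) (nat_lit 402) (nat_lit 321) (nat_lit 297))) (XT.nd (nat_lit 78) (nat_lit 0) (nat_lit 0) (XT.lf (nat_lit 0) (nat_lit 2112044505329) (nat_lit 76) (nat_lit 298217945341) (nat_lit 76) (nat_lit 297848157770) (nat_lit 1) (nat_lit 4) (nat_lit 2) (nat_lit 5) (nat_lit 2) (nat_lit 4) (nat_lit 403) (nat_lit 321) (nat_lit 296)) (XT.nd (nat_lit 78) (nat_lit 0) (nat_lit 0) (XT.lf (nat_lit 0) (nat_lit 2447648627975) (nat_lit 76) (nat_lit 333162278588) (nat_lit 76) (nat_lit 332790979903) (nat_lit 1) (nat_lit 4) (nat_lit 2) (nat_lit 5) (nat_lit 2) (nat_lit 4) (nat_lit 404) (nat_lit 321) (nat_lit 295)) (XT.lf (nat_lit 0) (nat_lit 2833461604956) (nat_lit 76) (nat_lit 373416474075) (nat_lit 76) (nat_lit 373043861379) (nat_lit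 1) (nat_lit 4) (nat_lit 2) (nat_lit 5) (nat_lit 2) (nat_lit 4) (nat_lit 405) (nat_lit 321) (nat_lit 294)))))) (XT.nd (nat_lit 390) (nat_lit 0) (nat_lit 0) (XT.nd (nat_lit 156) (nat_lit 0) (nat_lit 0) (XT.nd (nat_lit 78) (nat_lit 0) (nat_lit 0) (XT.lf (nat_lit 0) (nat_lit 3277031951038) (nat_lit 76) (nat_lit 419768113889) (nat_lit 76) (nat_lit 419394358574) (nat_lit 1) (nat_lit 4) (nat_lit 2) (nat_lit 5) (nat_lit 2) (nat_lit 4) (nat_lit 406) (nat_lit 321) (nat_lit 293)) (XT.lf (nat_lit 0) (nat_lit 3787038216470) (nat_lit 76) (nat_lit 473124077938) (nat_lit 76) (nat_lit 472749329042) (nat_lit 1) (nat_lit 4) (nat_lit 2) (nat_lit 5) (nat_lit 2) (nat_lit 4) (nat_lit 407) (nat_lit 321) (nat_lit 292))) (XT.nd (nat_lit 78) (nat_lit 0) (nat_lit 0) (XT.lf (nat_lit 0) (nat_lit 4373458784707) (nat_lit 76) (nat_lit 534528287259) (nat_lit 76) (nat_lit 534152674378) (nat_lit 1) (nat_lit 4) (nat_lit 2) (nat_lit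 5) (nat_lit 2) (nat_lit 4) (nat_lit 408) (nat_lit 321) (nat_lit 291)) (XT.nd (nat_lit 78) (nat_lit 0) (nat_lit 0) (XT.lf (nat_lit 0) (nat_lit 5047767101650) (nat_lit 76) (nat_lit 605182128555) (nat_lit 76) (nat_lit 604805764384) (nat_lit 1) (nat_lit 4) (nat_lit 2) (nat_lit 5) (nat_lit 2) (nat_lit 4) (nat_lit 409) (nat_lit 321) (nat_lit 290)) (XT.lf (nat_lit 0) (nat_lit 5823156156106) (nat_lit 76) (nat_lit 686467959591) (nat_lit 76) (nat_lit 686090942123) (nat_lit 1) (nat_lit 4) (nat_lit 2) (nat_lit 5) (nat_lit 2) (nat_lit 4) (nat_lit 410) (nat_lit 321) (nat_lit 289))))) (XT.nd (nat_lit 234) (nat_lit 0) (nat_lit 0) (XT.nd (nat_lit 78) (nat_lit 0) (nat_lit 0) (XT.lf (nat_lit 0) (nat_lit 6714796603491) (nat_lit 76) (nat_lit 779976155322) (nat_lit 76) (nat_lit 779598569771) (nat_lit 1) (nat_lit 4) (nat_lit 2) (nat_lit 5) (nat_lit 2) (nat_lit 4) (nat_lit 411) (nat_lit 321) (nat_lit 288)) (XT.nd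 (nat_lit 78) (nat_lit 0) (nat_lit 0) (XT.lf (nat_lit 0) (nat_lit 7740133582992) (nat_lit 76) (nat_lit 887536223925) (nat_lit 76) (nat_lit 887158144388) (nat_lit 1) (nat_lit 4) (nat_lit 2) (nat_lit 5) (nat_lit 2) (nat_lit 4) (nat_lit 412) (nat_lit 321) (nat_lit 287)) (XT.lf (nat_lit 0) (nat_lit 8919228035511) (nat_lit 76) (nat_lit 1011252601525) (nat_lit 76) (nat_lit 1010874092435) (nat_lit 1) (nat_lit 4) (nat_lit 2) (nat_lit 5) (nat_lit 2) (nat_lit 4) (nat_lit 413) (nat_lit 321) (nat_lit 286)))) (XT.nd (nat_lit 78) (nat_lit 0) (nat_lit 0) (XT.lf (nat_lit 0) (nat_lit 10275149200339) (nat_lit 76) (nat_lit 1153545825944) (nat_lit 76) (nat_lit 1153166943331) (nat_lit 1) (nat_lit 4) (nat_lit 2) (nat_lit 5) (nat_lit 2) (nat_lit 4) (nat_lit 414) (nat_lit 321) (nat_lit 285)) (XT.nd (nat_lit 78) (nat_lit 0) (nat_lit 0) (XT.lf (nat_lit 0) (nat_lit 11834425969829) (nat_lit 76) (nat_lit 1317199895053)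 (nat_lit 76) (nat_lit 1316820687636) (nat_lit 1) (nat_lit 4) (nat_lit 2) (nat_lit 5) (nat_lit 2) (nat_lit 4) (nat_lit 415) (nat_lit 321) (nat_lit 284)) (XT.lf (nat_lit 0) (nat_lit 13627565932951) (nat_lit 76) (nat_lit 1505416736289) (nat_lit 76) (nat_lit 1505037246434) (nat_lit 1) (nat_lit 4) (nat_lit 2) (nat_lit 5) (nat_lit 2) (nat_lit 4) (nat_lit 416) (nat_lit 321) (nat_lit 283))))))) (XT.nd (nat_lit 780) (nat_lit 0) (nat_lit 0) (XT.nd (nat_lit 390) (nat_lit 0) (nat_lit 0) (XT.nd (nat_lit 156) (nat_lit 0) (nat_lit 0) (XT.nd (nat_lit 78) (nat_lit 0) (nat_lit 0) (XT.lf (nat_lit 0) (nat_lit 15689652262895) (nat_lit 76) (nat_lit 1721878853069) (nat_lit 76) (nat_lit 1721499117616) (nat_lit 1) (nat_lit 4) (nat_lit 2) (nat_lit 5) (nat_lit 2) (nat_lit 4) (nat_lit 417) (nat_lit 321) (nat_lit 282)) (XT.lf (nat_lit 0) (nat_lit 18061030126987) (nat_lit 76) (nat_lit 1970821373764) (nat_lit 76) (nat_lit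 1970441424747) (nat_lit 1) (nat_lit 4) (nat_lit 2) (nat_lit 5) (nat_lit 2) (nat_lit 4) (nat_lit 418) (nat_lit 321) (nat_lit 281))) (XT.nd (nat_lit 78) (nat_lit 0) (nat_lit 0) (XT.lf (nat_lit 0) (nat_lit 20788096048655) (nat_lit 76) (nat_lit 2257114912910) (nat_lit 76) (nat_lit 2256734778185) (nat_lit 1) (nat_lit 4) (nat_lit 2) (nat_lit 5) (nat_lit 2) (nat_lit 4) (nat_lit 419) (nat_lit 321) (nat_lit 280)) (XT.nd (nat_lit 78) (nat_lit 0) (nat_lit 0) (XT.lf (nat_lit 0) (nat_lit 23924205665496) (nat_lit 76) (nat_lit 2586360865837) (nat_lit 76) (nat_lit 2585980569627) (nat_lit 1) (nat_lit 4) (nat_lit 2) (nat_lit 5) (nat_lit 2) (nat_lit 4) (nat_lit 420) (nat_lit 321) (nat_lit 279)) (XT.lf (nat_lit 0) (nat_lit 27530717643928) (nat_lit 76) (nat_lit 2965001001190) (nat_lit 76) (nat_lit 2964620564559) (nat_lit 1) (nat_lit 4) (nat_lit 2) (nat_lit 5) (nat_lit 2) (nat_lit 4) (nat_lit 421) (nat_lit 321)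 (nat_lit 278))))) (XT.nd (nat_lit 156) (nat_lit 0) (nat_lit 0) (XT.nd (nat_lit 78) (nat_lit 0) (nat_lit 0) (XT.lf (nat_lit 0) (nat_lit 31678194174831) (nat_lit 76) (nat_lit 3400443495529) (nat_lit 76) (nat_lit 3400062936793) (nat_lit 1) (nat_lit 4) (nat_lit 2) (nat_lit 5) (nat_lit 2) (nat_lit 4) (nat_lit 422) (nat_lit 321) (nat_lit 277)) (XT.lf (nat_lit 0) (nat_lit 36447781538159) (nat_lit 76) (nat_lit 3901207875920) (nat_lit 76) (nat_lit 3900827211004) (nat_lit 1) (nat_lit 4) (nat_lit 2) (nat_lit 5) (nat_lit 2) (nat_lit 4) (nat_lit 423) (nat_lit 321) (nat_lit 276))) (XT.nd (nat_lit 78) (nat_lit 0) (nat_lit 0) (XT.lf (nat_lit 0) (nat_lit 41932797747543) (nat_lit 76) (nat_lit 4477091706324) (nat_lit 76) (nat_lit 4476710949079) (nat_lit 1) (nat_lit 4) (nat_lit 2) (nat_lit 5) (nat_lit 2) (nat_lit 4) (nat_lit 424) (nat_lit 321) (nat_lit 275)) (XT.nd (nat_lit 78) (nat_lit 0) (nat_lit 0) (XT.lf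 (nat_lit 0) (nat_lit 48240558337513) (nat_lit 76) (nat_lit 5139362279077) (nat_lit 76) (nat_lit 5138981441546) (nat_lit 1) (nat_lit 4) (nat_lit 2) (nat_lit 5) (nat_lit 2) (nat_lit 4) (nat_lit 425) (nat_lit 321) (nat_lit 274)) (XT.lf (nat_lit 0) (nat_lit 55494476015264) (nat_lit 76) (nat_lit 5900977061906) (nat_lit 76) (nat_lit 5900596154560) (nat_lit 1) (nat_lit 4) (nat_lit 2) (nat_lit 5) (nat_lit 2) (nat_lit 4) (nat_lit 426) (nat_lit 321) (nat_lit 273)))))) (XT.nd (nat_lit 49452) (nat_lit 0) (nat_lit 0) (XT.nd (nat_lit 49218) (nat_lit 0) (nat_lit 228) (XT.nd (nat_lit 49140) (nat_lit 0) (nat_lit 304) (XT.lf (nat_lit 0) (nat_lit 63836475257101) (nat_lit 76) (nat_lit 6776837213606) (nat_lit 76) (nat_lit 6776456245552) (nat_lit 1) (nat_lit 4) (nat_lit 2) (nat_lit 5) (nat_lit 2) (nat_lit 4) (nat_lit 427) (nat_lit 321) (nat_lit 272)) (XT.lf (nat_lit 0) (nat_lit 2922788733) (nat_lit 152) (nat_lit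 29921595828) (nat_lit 0) (nat_lit 2922788733) (nat_lit 5) (nat_lit 5) (nat_lit 7) (nat_lit 4) (nat_lit 5) (nat_lit 4) (nat_lit 376) (nat_lit 322) (nat_lit 322))) (XT.nd (nat_lit 78) (nat_lit 76) (nat_lit 0) (XT.lf (nat_lit 0) (nat_lit 29726730376) (nat_lit 152) (nat_lit 21026758213) (nat_lit 0) (nat_lit 29664947987) (nat_lit 5) (nat_lit 5) (nat_lit 7) (nat_lit 4) (nat_lit 5) (nat_lit 4) (nat_lit 377) (nat_lit 322) (nat_lit 321)) (XT.nd (nat_lit 78) (nat_lit 0) (nat_lit 0) (XT.lf (nat_lit 0) (nat_lit 20580191777) (nat_lit 76) (nat_lit 35143868474) (nat_lit 76) (nat_lit 35028362267) (nat_lit 4) (nat_lit 4) (nat_lit 5) (nat_lit 5) (nat_lit 5) (nat_lit 4) (nat_lit 378) (nat_lit 322) (nat_lit 320)) (XT.lf (nat_lit 0) (nat_lit 65983829621) (nat_lit 76) (nat_lit 18454747363) (nat_lit 76) (nat_lit 18292524794) (nat_lit 4) (nat_lit 4) (nat_lit 5) (nat_lit 5) (nat_lit 5) (nat_lit 4) (nat_lit 379) (nat_lit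 322) (nat_lit 319))))) (XT.nd (nat_lit 234) (nat_lit 76) (nat_lit 0) (XT.nd (nat_lit 78) (nat_lit 152) (nat_lit 0) (XT.lf (nat_lit 0) (nat_lit 114965255539) (nat_lit 76) (nat_lit 934507809) (nat_lit 76) (nat_lit 731662315) (nat_lit 4) (nat_lit 4) (nat_lit 5) (nat_lit 5) (nat_lit 5) (nat_lit 4) (nat_lit 380) (nat_lit 322) (nat_lit 318)) (XT.nd (nat_lit 78) (nat_lit 0) (nat_lit 0) (XT.lf (nat_lit 0) (nat_lit 18453368557) (nat_lit 152) (nat_lit 95896048906) (nat_lit 0) (nat_lit 18232840988) (nat_lit 2) (nat_lit 5) (nat_lit 4) (nat_lit 4) (nat_lit 2) (nat_lit 4) (nat_lit 381) (nat_lit 322) (nat_lit 317)) (XT.lf (nat_lit 0) (nat_lit 39242706041) (nat_lit 152) (nat_lit 72786164265) (nat_lit 0) (nat_lit 38993737022) (nat_lit 2) (nat_lit 5) (nat_lit 4) (nat_lit 4) (nat_lit 2) (nat_lit 4) (nat_lit 382) (nat_lit 322) (nat_lit 316)))) (XT.nd (nat_lit 78) (nat_lit 76) (nat_lit 0) (XT.lf (nat_lit 0) (nat_lit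 62013946674) (nat_lit 152) (nat_lit 48565736981) (nat_lit 0) (nat_lit 61740245958) (nat_lit 2) (nat_lit 5) (nat_lit 4) (nat_lit 4) (nat_lit 2) (nat_lit 4) (nat_lit 383) (nat_lit 322) (nat_lit 315)) (XT.nd (nat_lit 78) (nat_lit 76) (nat_lit 0) (XT.lf (nat_lit 0) (nat_lit 87212614729) (nat_lit 152) (nat_lit 22760889130) (nat_lit 0) (nat_lit 86917408190) (nat_lit 2) (nat_lit 5) (nat_lit 4) (nat_lit 4) (nat_lit 2) (nat_lit 4) (nat_lit 384) (nat_lit 322) (nat_lit 314)) (XT.lf (nat_lit 0) (nat_lit 5403564949) (nat_lit 76) (nat_lit 110058118542) (nat_lit 76) (nat_lit 109744211287) (nat_lit 1) (nat_lit 4) (nat_lit 2) (nat_lit 5) (nat_lit 2) (nat_lit 4) (nat_lit 385) (nat_lit 322) (nat_lit 313))))))))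
noncomputable def xc16 : XT := (XT.nd (nat_lit 1638) (nat_lit 0) (nat_lit 0) (XT.nd (nat_lit 780) (nat_lit 0) (nat_lit 0) (XT.nd (nat_lit 390) (nat_lit 0) (nat_lit 0) (XT.nd (nat_lit 156) (nat_lit 0) (nat_lit 0) (XT.nd (nat_lit 78) (nat_lit 0) (nat_lit 0) (XT.lf (nat_lit 0) (nat_lit 37540377393) (nat_lit 76) (nat_lit 110283911503) (nat_lit 76) (nat_lit 109953742757) (nat_lit 1) (nat_lit 4) (nat_lit 2) (nat_lit 5) (nat_lit 2) (nat_lit 4) (nat_lit 386) (nat_lit 322) (nat_lit 312)) (XT.lf (nat_lit 0) (nat_lit 73079763836) (nat_lit 76) (nat_lit 111277623475) (nat_lit 76) (nat_lit 110933314302) (nat_lit 1) (nat_lit 4) (nat_lit 2) (nat_lit 5) (nat_lit 2) (nat_lit 4) (nat_lit 387) (nat_lit 322) (nat_lit 311))) (XT.nd (nat_lit 78) (nat_lit 0) (nat_lit 0) (XT.lf (nat_lit 0) (nat_lit 112717060101) (nat_lit 76) (nat_lit 113058696650) (nat_lit 76) (nat_lit 112702091453) (nat_lit 1) (nat_lit 4) (nat_lit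 2) (nat_lit 5) (nat_lit 2) (nat_lit 4) (nat_lit 388) (nat_lit 322) (nat_lit 310)) (XT.nd (nat_lit 78) (nat_lit 0) (nat_lit 0) (XT.lf (nat_lit 0) (nat_lit 157227778504) (nat_lit 76) (nat_lit 115661978112) (nat_lit 76) (nat_lit 115294680719) (nat_lit 1) (nat_lit 4) (nat_lit 2) (nat_lit 5) (nat_lit 2) (nat_lit 4) (nat_lit 389) (nat_lit 322) (nat_lit 309)) (XT.lf (nat_lit 0) (nat_lit 207482780929) (nat_lit 76) (nat_lit 119138401627) (nat_lit 76) (nat_lit 118761806674) (nat_lit 1) (nat_lit 4) (nat_lit 2) (nat_lit 5) (nat_lit 2) (nat_lit 4) (nat_lit 390) (nat_lit 322) (nat_lit 308))))) (XT.nd (nat_lit 156) (nat_lit 0) (nat_lit 0) (XT.nd (nat_lit 78) (nat_lit 0) (nat_lit 0) (XT.lf (nat_lit 0) (nat_lit 264465317422) (nat_lit 76) (nat_lit 123555984178) (nat_lit 76) (nat_lit 123171304390) (nat_lit 1) (nat_lit 4) (nat_lit 2) (nat_lit 5) (nat_lit 2) (nat_lit 4) (nat_lit 391) (nat_lit 322) (nat_lit 307))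 (XT.lf (nat_lit 0) (nat_lit 329290263698) (nat_lit 76) (nat_lit 129001156728) (nat_lit 76) (nat_lit 128609446648) (nat_lit 1) (nat_lit 4) (nat_lit 2) (nat_lit 5) (nat_lit 2) (nat_lit 4) (nat_lit 392) (nat_lit 322) (nat_lit 306))) (XT.nd (nat_lit 78) (nat_lit 0) (nat_lit 0) (XT.lf (nat_lit 0) (nat_lit 403225933923) (nat_lit 76) (nat_lit 135580455262) (nat_lit 76) (nat_lit 135182631885) (nat_lit 1) (nat_lit 4) (nat_lit 2) (nat_lit 5) (nat_lit 2) (nat_lit 4) (nat_lit 393) (nat_lit 322) (nat_lit 305)) (XT.nd (nat_lit 78) (nat_lit 0) (nat_lit 0) (XT.lf (nat_lit 0) (nat_lit 487718895558) (nat_lit 76) (nat_lit 143422605185) (nat_lit 76) (nat_lit 143019465897) (nat_lit 1) (nat_lit 4) (nat_lit 2) (nat_lit 5) (nat_lit 2) (nat_lit 4) (nat_lit 394) (nat_lit 322) (nat_lit 304)) (XT.lf (nat_lit 0) (nat_lit 584422271765) (nat_lit 76) (nat_lit 152681039866) (nat_lit 76) (nat_lit 152273278047) (nat_lit 1)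 (nat_lit 4) (nat_lit 2) (nat_lit 5) (nat_lit 2) (nat_lit 4) (nat_lit 395) (nat_lit 322) (nat_lit 303)))))) (XT.nd (nat_lit 390) (nat_lit 0) (nat_lit 0) (XT.nd (nat_lit 156) (nat_lit 0) (nat_lit 0) (XT.nd (nat_lit 78) (nat_lit 0) (nat_lit 0) (XT.lf (nat_lit 0) (nat_lit 695228085122) (nat_lit 76) (nat_lit 163536902591) (nat_lit 76) (nat_lit 163125121181) (nat_lit 1) (nat_lit 4) (nat_lit 2) (nat_lit 5) (nat_lit 2) (nat_lit 4) (nat_lit 396) (nat_lit 322) (nat_lit 302)) (XT.lf (nat_lit 0) (nat_lit 822304275456) (nat_lit 76) (nat_lit 176202590676) (nat_lit 76) (nat_lit 175787313968) (nat_lit 1) (nat_lit 4) (nat_lit 2) (nat_lit 5) (nat_lit 2) (nat_lit 4) (nat_lit 397) (nat_lit 322) (nat_lit 301))) (XT.nd (nat_lit 78) (nat_lit 0) (nat_lit 0) (XT.lf (nat_lit 0) (nat_lit 968137116055) (nat_lit 76) (nat_lit 190925911060) (nat_lit 76) (nat_lit 190507594963) (nat_lit 1) (nat_lit 4) (nat_lit 2) (nat_lit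 5) (nat_lit 2) (nat_lit 4) (nat_lit 398) (nat_lit 322) (nat_lit 300)) (XT.nd (nat_lit 78) (nat_lit 0) (nat_lit 0) (XT.lf (nat_lit 0) (nat_lit 1135579858150) (nat_lit 76) (nat_lit 207994928709) (nat_lit 76) (nat_lit 207573969665) (nat_lit 1) (nat_lit 4) (nat_lit 2) (nat_lit 5) (nat_lit 2) (nat_lit 4) (nat_lit 399) (nat_lit 322) (nat_lit 299)) (XT.lf (nat_lit 0) (nat_lit 1327908555389) (nat_lit 76) (nat_lit 227743602662) (nat_lit 76) (nat_lit 227320345403) (nat_lit 1) (nat_lit 4) (nat_lit 2) (nat_lit 5) (nat_lit 2) (nat_lit 4) (nat_lit 400) (nat_lit 322) (nat_lit 298))))) (XT.nd (nat_lit 234) (nat_lit 0) (nat_lit 0) (XT.nd (nat_lit 78) (nat_lit 0) (nat_lit 0) (XT.lf (nat_lit 0) (nat_lit 1548886160545) (nat_lit 76) (nat_lit 250558320019) (nat_lit 76) (nat_lit 250133064312) (nat_lit 1) (nat_lit 4) (nat_lit 2) (nat_lit 5) (nat_lit 2) (nat_lit 4) (nat_lit 401) (nat_lit 322) (nat_lit 297)) (XT.nd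 (nat_lit 78) (nat_lit 0) (nat_lit 0) (XT.lf (nat_lit 0) (nat_lit 1802836148501) (nat_lit 76) (nat_lit 276885455685) (nat_lit 76) (nat_lit 276458462198) (nat_lit 1) (nat_lit 4) (nat_lit 2) (nat_lit 5) (nat_lit 2) (nat_lit 4) (nat_lit 402) (nat_lit 322) (nat_lit 296)) (XT.lf (nat_lit 0) (nat_lit 2094727105979) (nat_lit 76) (nat_lit 307240105792) (nat_lit 76) (nat_lit 306811601191) (nat_lit 1) (nat_lit 4) (nat_lit 2) (nat_lit 5) (nat_lit 2) (nat_lit 4) (nat_lit 403) (nat_lit 322) (nat_lit 295)))) (XT.nd (nat_lit 78) (nat_lit 0) (nat_lit 0) (XT.lf (nat_lit 0) (nat_lit 2430269943015) (nat_lit 76) (nat_lit 342216165669) (nat_lit 76) (nat_lit 341786347056) (nat_lit 1) (nat_lit 4) (nat_lit 2) (nat_lit 5) (nat_lit 2) (nat_lit 4) (nat_lit 404) (nat_lit 322) (nat_lit 294)) (XT.nd (nat_lit 78) (nat_lit 0) (nat_lit 0) (XT.lf (nat_lit 0) (nat_lit 2816029628160) (nat_lit 76) (nat_lit 382497949530) (nat_lit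 76) (nat_lit 382066988298) (nat_lit 1) (nat_lit 4) (nat_lit 2) (nat_lit 5) (nat_lit 2) (nat_lit 4) (nat_lit 405) (nat_lit 322) (nat_lit 293)) (XT.lf (nat_lit 0) (nat_lit 3259553633515) (nat_lit 76) (nat_lit 428873579234) (nat_lit 76) (nat_lit 428441624421) (nat_lit 1) (nat_lit 4) (nat_lit 2) (nat_lit 5) (nat_lit 2) (nat_lit 4) (nat_lit 406) (nat_lit 322) (nat_lit 292))))))) (XT.nd (nat_lit 780) (nat_lit 0) (nat_lit 0) (XT.nd (nat_lit 390) (nat_lit 0) (nat_lit 0) (XT.nd (nat_lit 156) (nat_lit 0) (nat_lit 0) (XT.nd (nat_lit 78) (nat_lit 0) (nat_lit 0) (XT.lf (nat_lit 0) (nat_lit 3769519602664) (nat_lit 76) (nat_lit 482250404057) (nat_lit 76) (nat_lit 481817585260) (nat_lit 1) (nat_lit 4) (nat_lit 2) (nat_lit 5) (nat_lit 2) (nat_lit 4) (nat_lit 407) (nat_lit 322) (nat_lit 291)) (XT.lf (nat_lit 0) (nat_lit 4355905130654) (nat_lit 76) (nat_lit 543672753181) (nat_lit 76) (nat_lit 543239183093) (nat_lit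 1) (nat_lit 4) (nat_lit 2) (nat_lit 5) (nat_lit 2) (nat_lit 4) (nat_lit 408) (nat_lit 322) (nat_lit 290))) (XT.nd (nat_lit 78) (nat_lit 0) (nat_lit 0) (XT.lf (nat_lit 0) (nat_lit 5030182977817) (nat_lit 76) (nat_lit 614342368219) (nat_lit 76) (nat_lit 613908144835) (nat_lit 1) (nat_lit 4) (nat_lit 2) (nat_lit 5) (nat_lit 2) (nat_lit 4) (nat_lit 409) (nat_lit 322) (nat_lit 289)) (XT.nd (nat_lit 78) (nat_lit 0) (nat_lit 0) (XT.lf (nat_lit 0) (nat_lit 5805545536813) (nat_lit 76) (nat_lit 695641915552) (nat_lit 76) (nat_lit 695207124085) (nat_lit 1) (nat_lit 4) (nat_lit 2) (nat_lit 5) (nat_lit 2) (nat_lit 4) (nat_lit 410) (nat_lit 322) (nat_lit 288)) (XT.lf (nat_lit 0) (nat_lit 6697162944666) (nat_lit 76) (nat_lit 789162038498) (nat_lit 76) (nat_lit 788726753045) (nat_lit 1) (nat_lit 4) (nat_lit 2) (nat_lit 5) (nat_lit 2) (nat_lit 4) (nat_lit 411) (nat_lit 322) (nat_lit 287))))) (XT.nd (nat_lit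 156) (nat_lit 0) (nat_lit 0) (XT.nd (nat_lit 78) (nat_lit 0) (nat_lit 0) (XT.lf (nat_lit 0) (nat_lit 7722479889792) (nat_lit 76) (nat_lit 896732478592) (nat_lit 76) (nat_lit 896296763587) (nat_lit 1) (nat_lit 4) (nat_lit 2) (nat_lit 5) (nat_lit 2) (nat_lit 4) (nat_lit 412) (nat_lit 322) (nat_lit 286)) (XT.lf (nat_lit 0) (nat_lit 8901556921116) (nat_lit 76) (nat_lit 1020457874881) (nat_lit 76) (nat_lit 1020021786351) (nat_lit 1) (nat_lit 4) (nat_lit 2) (nat_lit 5) (nat_lit 2) (nat_lit 4) (nat_lit 413) (nat_lit 322) (nat_lit 285))) (XT.nd (nat_lit 78) (nat_lit 0) (nat_lit 0) (XT.lf (nat_lit 0) (nat_lit 10257462937078) (nat_lit 76) (nat_lit 1162758941638) (nat_lit 76) (nat_lit 1162322528305) (nat_lit 1) (nat_lit 4) (nat_lit 2) (nat_lit 5) (nat_lit 2) (nat_lit 4) (nat_lit 414) (nat_lit 322) (nat_lit 284)) (XT.nd (nat_lit 78) (nat_lit 0) (nat_lit 0) (XT.lf (nat_lit 0) (nat_lit 11816726533642) (nat_lit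 76) (nat_lit 1326419830171) (nat_lit 76) (nat_lit 1325983134399) (nat_lit 1) (nat_lit 4) (nat_lit 2) (nat_lit 5) (nat_lit 2) (nat_lit 4) (nat_lit 415) (nat_lit 322) (nat_lit 283)) (XT.lf (nat_lit 0) (nat_lit 13609855042045) (nat_lit 76) (nat_lit 1514642601341) (nat_lit 76) (nat_lit 1514205659972) (nat_lit 1) (nat_lit 4) (nat_lit 2) (nat_lit 5) (nat_lit 2) (nat_lit 4) (nat_lit 416) (nat_lit 322) (nat_lit 282)))))) (XT.nd (nat_lit 390) (nat_lit 0) (nat_lit 0) (XT.nd (nat_lit 156) (nat_lit 0) (nat_lit 0) (XT.nd (nat_lit 78) (nat_lit 0) (nat_lit 0) (XT.lf (nat_lit 0) (nat_lit 15671931411364) (nat_lit 76) (nat_lit 1731109874585) (nat_lit 76) (nat_lit 1730672719652) (nat_lit 1) (nat_lit 4) (nat_lit 2) (nat_lit 5) (nat_lit 2) (nat_lit 4) (nat_lit 417) (nat_lit 322) (nat_lit 281)) (XT.lf (nat_lit 0) (nat_lit 18043300614043) (nat_lit 76) (nat_lit 1980056879162) (nat_lit 76) (nat_lit 1979619538521)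 (nat_lit 1) (nat_lit 4) (nat_lit 2) (nat_lit 5) (nat_lit 2) (nat_lit 4) (nat_lit 418) (nat_lit 322) (nat_lit 280))) (XT.nd (nat_lit 78) (nat_lit 0) (nat_lit 0) (XT.lf (nat_lit 0) (nat_lit 20770359004047) (nat_lit 76) (nat_lit 2266354317335) (nat_lit 76) (nat_lit 2265916815210) (nat_lit 1) (nat_lit 4) (nat_lit 2) (nat_lit 5) (nat_lit 2) (nat_lit 4) (nat_lit 419) (nat_lit 322) (nat_lit 279)) (XT.nd (nat_lit 78) (nat_lit 0) (nat_lit 0) (XT.lf (nat_lit 0) (nat_lit 23906462071616) (nat_lit 76) (nat_lit 2595603660721) (nat_lit 76) (nat_lit 2595166018174) (nat_lit 1) (nat_lit 4) (nat_lit 2) (nat_lit 5) (nat_lit 2) (nat_lit 4) (nat_lit 420) (nat_lit 322) (nat_lit 278)) (XT.lf (nat_lit 0) (nat_lit 27512968355027) (nat_lit 76) (nat_lit 2974246744299) (nat_lit 76) (nat_lit 2973808979647) (nat_lit 1) (nat_lit 4) (nat_lit 2) (nat_lit 5) (nat_lit 2) (nat_lit 4) (nat_lit 421) (nat_lit 322) (nat_lit 277)))))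 (XT.nd (nat_lit 234) (nat_lit 0) (nat_lit 0) (XT.nd (nat_lit 78) (nat_lit 0) (nat_lit 0) (XT.lf (nat_lit 0) (nat_lit 31660439933740) (nat_lit 76) (nat_lit 3409691802313) (nat_lit 76) (nat_lit 3409253931482) (nat_lit 1) (nat_lit 4) (nat_lit 2) (nat_lit 5) (nat_lit 2) (nat_lit 4) (nat_lit 422) (nat_lit 322) (nat_lit 276)) (XT.nd (nat_lit 78) (nat_lit 0) (nat_lit 0) (XT.lf (nat_lit 0) (nat_lit 36430022990815) (nat_lit 76) (nat_lit 3910458411985) (nat_lit 76) (nat_lit 3910020448824) (nat_lit 1) (nat_lit 4) (nat_lit 2) (nat_lit 5) (nat_lit 2) (nat_lit 4) (nat_lit 423) (nat_lit 322) (nat_lit 275)) (XT.lf (nat_lit 0) (nat_lit 41915035455630) (nat_lit 76) (nat_lit 4486344180896) (nat_lit 76) (nat_lit 4485906137448) (nat_lit 1) (nat_lit 4) (nat_lit 2) (nat_lit 5) (nat_lit 2) (nat_lit 4) (nat_lit 424) (nat_lit 322) (nat_lit 274)))) (XT.nd (nat_lit 78) (nat_lit 0) (nat_lit 0) (XT.lf (nat_lit 0) (nat_lit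 48222792789454) (nat_lit 76) (nat_lit 5148616439306) (nat_lit 76) (nat_lit 5148178326044) (nat_lit 1) (nat_lit 4) (nat_lit 2) (nat_lit 5) (nat_lit 2) (nat_lit 4) (nat_lit 425) (nat_lit 322) (nat_lit 273)) (XT.nd (nat_lit 78) (nat_lit 0) (nat_lit 0) (XT.lf (nat_lit 0) (nat_lit 55476707635774) (nat_lit 76) (nat_lit 5910232687924) (nat_lit 76) (nat_lit 5909794513954) (nat_lit 1) (nat_lit 4) (nat_lit 2) (nat_lit 5) (nat_lit 2) (nat_lit 4) (nat_lit 426) (nat_lit 322) (nat_lit 272)) (XT.lf (nat_lit 0) (nat_lit 63818704415497) (nat_lit 76) (nat_lit 6786094114223) (nat_lit 76) (nat_lit 6785655887463) (nat_lit 1) (nat_lit 4) (nat_lit 2) (nat_lit 5) (nat_lit 2) (nat_lit 4) (nat_lit 427) (nat_lit 322) (nat_lit 271))))))))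
noncomputable def xc17 : XT := (XT.nd (nat_lit 1638) (nat_lit 0) (nat_lit 0) (XT.nd (nat_lit 780) (nat_lit 76) (nat_lit 0) (XT.nd (nat_lit 390) (nat_lit 152) (nat_lit 0) (XT.nd (nat_lit 156) (nat_lit 228) (nat_lit 0) (XT.nd (nat_lit 78) (nat_lit 76) (nat_lit 0) (XT.lf (nat_lit 0) (nat_lit 10447071938) (nat_lit 152) (nat_lit 7677861394) (nat_lit 0) (nat_lit 10447071938) (nat_lit 8) (nat_lit 5) (nat_lit 10) (nat_lit 4) (nat_lit 8) (nat_lit 4) (nat_lit 374) (nat_lit 323) (nat_lit 323)) (XT.lf (nat_lit 0) (nat_lit 30995340007) (nat_lit 76) (nat_lit 16457951797) (nat_lit 76) (nat_lit 16381218069) (nat_lit 7) (nat_lit 4) (nat_lit 8) (nat_lit 5) (nat_lit 8) (nat_lit 4) (nat_lit 375) (nat_lit 323) (nat_lit 322))) (XT.nd (nat_lit 78) (nat_lit 76) (nat_lit 0) (XT.lf (nat_lit 0) (nat_lit 4867746940) (nat_lit 152) (nat_lit 62015596756) (nat_lit 0) (nat_lit 4734914802) (nat_lit 5) (nat_lit 5) (nat_lit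 7) (nat_lit 4) (nat_lit 5) (nat_lit 4) (nat_lit 376) (nat_lit 323) (nat_lit 321)) (XT.nd (nat_lit 78) (nat_lit 76) (nat_lit 0) (XT.lf (nat_lit 0) (nat_lit 27836830046) (nat_lit 152) (nat_lit 25088211225) (nat_lit 0) (nat_lit 27650274091) (nat_lit 5) (nat_lit 5) (nat_lit 7) (nat_lit 4) (nat_lit 5) (nat_lit 4) (nat_lit 377) (nat_lit 323) (nat_lit 320)) (XT.lf (nat_lit 0) (nat_lit 14575720431) (nat_lit 76) (nat_lit 38320927632) (nat_lit 76) (nat_lit 38087655315) (nat_lit 4) (nat_lit 4) (nat_lit 5) (nat_lit 5) (nat_lit 5) (nat_lit 4) (nat_lit 378) (nat_lit 323) (nat_lit 319))))) (XT.nd (nat_lit 156) (nat_lit 152) (nat_lit 0) (XT.nd (nat_lit 78) (nat_lit 0) (nat_lit 0) (XT.lf (nat_lit 0) (nat_lit 58475750087) (nat_lit 76) (nat_lit 22409597090) (nat_lit 76) (nat_lit 22135701849) (nat_lit 4) (nat_lit 4) (nat_lit 5) (nat_lit 5) (nat_lit 5) (nat_lit 4) (nat_lit 379) (nat_lit 323) (nat_lit 318)) (XT.lf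 (nat_lit 0) (nat_lit 106149690624) (nat_lit 76) (nat_lit 5565697160) (nat_lit 76) (nat_lit 5256477637) (nat_lit 4) (nat_lit 4) (nat_lit 5) (nat_lit 5) (nat_lit 5) (nat_lit 4) (nat_lit 380) (nat_lit 323) (nat_lit 317))) (XT.nd (nat_lit 78) (nat_lit 0) (nat_lit 0) (XT.lf (nat_lit 0) (nat_lit 13197810308) (nat_lit 152) (nat_lit 106927107257) (nat_lit 0) (nat_lit 12883054484) (nat_lit 2) (nat_lit 5) (nat_lit 4) (nat_lit 4) (nat_lit 2) (nat_lit 4) (nat_lit 381) (nat_lit 323) (nat_lit 316)) (XT.nd (nat_lit 78) (nat_lit 0) (nat_lit 0) (XT.lf (nat_lit 0) (nat_lit 33458544316) (nat_lit 152) (nat_lit 84913008687) (nat_lit 0) (nat_lit 33119056796) (nat_lit 2) (nat_lit 5) (nat_lit 4) (nat_lit 4) (nat_lit 2) (nat_lit 4) (nat_lit 382) (nat_lit 323) (nat_lit 315)) (XT.lf (nat_lit 0) (nat_lit 55770129752) (nat_lit 152) (nat_lit 61645438857) (nat_lit 0) (nat_lit 55409136409) (nat_lit 2) (nat_lit 5) (nat_lit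 4) (nat_lit 4) (nat_lit 2) (nat_lit 4) (nat_lit 383) (nat_lit 323) (nat_lit 314)))))) (XT.nd (nat_lit 390) (nat_lit 0) (nat_lit 0) (XT.nd (nat_lit 156) (nat_lit 76) (nat_lit 0) (XT.nd (nat_lit 78) (nat_lit 0) (nat_lit 0) (XT.lf (nat_lit 0) (nat_lit 80569097636) (nat_lit 152) (nat_lit 36669162704) (nat_lit 0) (nat_lit 80189403578) (nat_lit 2) (nat_lit 5) (nat_lit 4) (nat_lit 4) (nat_lit 2) (nat_lit 4) (nat_lit 384) (nat_lit 323) (nat_lit 313)) (XT.lf (nat_lit 0) (nat_lit 108340645165) (nat_lit 152) (nat_lit 9495513957) (nat_lit 0) (nat_lit 107944689615) (nat_lit 2) (nat_lit 5) (nat_lit 4) (nat_lit 4) (nat_lit 2) (nat_lit 4) (nat_lit 385) (nat_lit 323) (nat_lit 312))) (XT.nd (nat_lit 78) (nat_lit 0) (nat_lit 0) (XT.lf (nat_lit 0) (nat_lit 21481770913) (nat_lit 76) (nat_lit 118662994898) (nat_lit 76) (nat_lit 118252898921) (nat_lit 1) (nat_lit 4) (nat_lit 2) (nat_lit 5) (nat_lit 2) (nat_lit 4)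 (nat_lit 386) (nat_lit 323) (nat_lit 311)) (XT.nd (nat_lit 78) (nat_lit 0) (nat_lit 0) (XT.lf (nat_lit 0) (nat_lit 56447669846) (nat_lit 76) (nat_lit 119953592641) (nat_lit 76) (nat_lit 119531200640) (nat_lit 1) (nat_lit 4) (nat_lit 2) (nat_lit 5) (nat_lit 2) (nat_lit 4) (nat_lit 387) (nat_lit 323) (nat_lit 310)) (XT.lf (nat_lit 0) (nat_lit 95586281320) (nat_lit 76) (nat_lit 121992827356) (nat_lit 76) (nat_lit 121559743160) (nat_lit 1) (nat_lit 4) (nat_lit 2) (nat_lit 5) (nat_lit 2) (nat_lit 4) (nat_lit 388) (nat_lit 323) (nat_lit 309))))) (XT.nd (nat_lit 234) (nat_lit 0) (nat_lit 0) (XT.nd (nat_lit 78) (nat_lit 0) (nat_lit 0) (XT.lf (nat_lit 0) (nat_lit 139663360775) (nat_lit 76) (nat_lit 124820597113) (nat_lit 76) (nat_lit 124378215356) (nat_lit 1) (nat_lit 4) (nat_lit 2) (nat_lit 5) (nat_lit 2) (nat_lit 4) (nat_lit 389) (nat_lit 323) (nat_lit 308)) (XT.nd (nat_lit 78) (nat_lit 0) (nat_lit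 0) (XT.lf (nat_lit 0) (nat_lit 189541285853) (nat_lit 76) (nat_lit 128492227841) (nat_lit 76) (nat_lit 128041761249) (nat_lit 1) (nat_lit 4) (nat_lit 2) (nat_lit 5) (nat_lit 2) (nat_lit 4) (nat_lit 390) (nat_lit 323) (nat_lit 307)) (XT.lf (nat_lit 0) (nat_lit 246195929002) (nat_lit 76) (nat_lit 133079555795) (nat_lit 76) (nat_lit 132622058912) (nat_lit 1) (nat_lit 4) (nat_lit 2) (nat_lit 5) (nat_lit 2) (nat_lit 4) (nat_lit 391) (nat_lit 323) (nat_lit 306)))) (XT.nd (nat_lit 78) (nat_lit 0) (nat_lit 0) (XT.lf (nat_lit 0) (nat_lit 310735750630) (nat_lit 76) (nat_lit 138672333044) (nat_lit 76) (nat_lit 138208722863) (nat_lit 1) (nat_lit 4) (nat_lit 2) (nat_lit 5) (nat_lit 2) (nat_lit 4) (nat_lit 392) (nat_lit 323) (nat_lit 305)) (XT.nd (nat_lit 78) (nat_lit 0) (nat_lit 0) (XT.lf (nat_lit 0) (nat_lit 384423486378) (nat_lit 76) (nat_lit 145379983489) (nat_lit 76) (nat_lit 144911057397) (nat_lit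 1) (nat_lit 4) (nat_lit 2) (nat_lit 5) (nat_lit 2) (nat_lit 4) (nat_lit 393) (nat_lit 323) (nat_lit 304)) (XT.lf (nat_lit 0) (nat_lit 468700852816) (nat_lit 76) (nat_lit 153333743769) (nat_lit 76) (nat_lit 152860195147) (nat_lit 1) (nat_lit 4) (nat_lit 2) (nat_lit 5) (nat_lit 2) (nat_lit 4) (nat_lit 394) (nat_lit 323) (nat_lit 303))))))) (XT.nd (nat_lit 780) (nat_lit 0) (nat_lit 0) (XT.nd (nat_lit 390) (nat_lit 0) (nat_lit 0) (XT.nd (nat_lit 156) (nat_lit 0) (nat_lit 0) (XT.nd (nat_lit 78) (nat_lit 0) (nat_lit 0) (XT.lf (nat_lit 0) (nat_lit 565216754939) (nat_lit 76) (nat_lit 162689230935) (nat_lit 76) (nat_lit 162211662721) (nat_lit 1) (nat_lit 4) (nat_lit 2) (nat_lit 5) (nat_lit 2) (nat_lit 4) (nat_lit 395) (nat_lit 323) (nat_lit 302)) (XT.lf (nat_lit 0) (nat_lit 675859547353) (nat_lit 76) (nat_lit 173629487126) (nat_lit 76) (nat_lit 173148423614) (nat_lit 1) (nat_lit 4) (nat_lit 2) (nat_lit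 5) (nat_lit 2) (nat_lit 4) (nat_lit 396) (nat_lit 323) (nat_lit 301))) (XT.nd (nat_lit 78) (nat_lit 0) (nat_lit 0) (XT.lf (nat_lit 0) (nat_lit 802793980346) (nat_lit 76) (nat_lit 186368560832) (nat_lit 76) (nat_lit 185884457932) (nat_lit 1) (nat_lit 4) (nat_lit 2) (nat_lit 5) (nat_lit 2) (nat_lit 4) (nat_lit 397) (nat_lit 323) (nat_lit 300)) (XT.nd (nat_lit 78) (nat_lit 0) (nat_lit 0) (XT.lf (nat_lit 0) (nat_lit 948503553692) (nat_lit 76) (nat_lit 201155694801) (nat_lit 76) (nat_lit 200668948953) (nat_lit 1) (nat_lit 4) (nat_lit 2) (nat_lit 5) (nat_lit 2) (nat_lit 4) (nat_lit 398) (nat_lit 323) (nat_lit 299)) (XT.lf (nat_lit 0) (nat_lit 1115839106870) (nat_lit 76) (nat_lit 218280202523) (nat_lit 76) (nat_lit 217791158460) (nat_lit 1) (nat_lit 4) (nat_lit 2) (nat_lit 5) (nat_lit 2) (nat_lit 4) (nat_lit 399) (nat_lit 323) (nat_lit 298))))) (XT.nd (nat_lit 156) (nat_lit 0) (nat_lit 0) (XT.nd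 (nat_lit 78) (nat_lit 0) (nat_lit 0) (XT.lf (nat_lit 0) (nat_lit 1308074596357) (nat_lit 76) (nat_lit 238077128714) (nat_lit 76) (nat_lit 237586086203) (nat_lit 1) (nat_lit 4) (nat_lit 2) (nat_lit 5) (nat_lit 2) (nat_lit 4) (nat_lit 400) (nat_lit 323) (nat_lit 297)) (XT.lf (nat_lit 0) (nat_lit 1528971151292) (nat_lit 76) (nat_lit 260933804538) (nat_lit 76) (nat_lit 260441024248) (nat_lit 1) (nat_lit 4) (nat_lit 2) (nat_lit 5) (nat_lit 2) (nat_lit 4) (nat_lit 401) (nat_lit 323) (nat_lit 296))) (XT.nd (nat_lit 78) (nat_lit 0) (nat_lit 0) (XT.lf (nat_lit 0) (nat_lit 1782850660796) (nat_lit 76) (nat_lit 287297425828) (nat_lit 76) (nat_lit 286803134424) (nat_lit 1) (nat_lit 4) (nat_lit 2) (nat_lit 5) (nat_lit 2) (nat_lit 4) (nat_lit 402) (nat_lit 323) (nat_lit 295)) (XT.nd (nat_lit 78) (nat_lit 0) (nat_lit 0) (XT.lf (nat_lit 0) (nat_lit 2074680332663) (nat_lit 76) (nat_lit 317683802565) (nat_lit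 76) (nat_lit 317188197149) (nat_lit 1) (nat_lit 4) (nat_lit 2) (nat_lit 5) (nat_lit 2) (nat_lit 4) (nat_lit 403) (nat_lit 323) (nat_lit 294)) (XT.lf (nat_lit 0) (nat_lit 2410169877864) (nat_lit 76) (nat_lit 352687450815) (nat_lit 76) (nat_lit 352190702780) (nat_lit 1) (nat_lit 4) (nat_lit 2) (nat_lit 5) (nat_lit 2) (nat_lit 4) (nat_lit 404) (nat_lit 323) (nat_lit 293)))))) (XT.nd (nat_lit 390) (nat_lit 0) (nat_lit 0) (XT.nd (nat_lit 156) (nat_lit 0) (nat_lit 0) (XT.nd (nat_lit 78) (nat_lit 0) (nat_lit 0) (XT.lf (nat_lit 0) (nat_lit 2795883222283) (nat_lit 76) (nat_lit 392993224566) (nat_lit 76) (nat_lit 392495482949) (nat_lit 1) (nat_lit 4) (nat_lit 2) (nat_lit 5) (nat_lit 2) (nat_lit 4) (nat_lit 405) (nat_lit 323) (nat_lit 292)) (XT.lf (nat_lit 0) (nat_lit 3239366931354) (nat_lit 76) (nat_lit 439389715044) (nat_lit 76) (nat_lit 438891109443) (nat_lit 1) (nat_lit 4) (nat_lit 2) (nat_lit 5)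 (nat_lit 2) (nat_lit 4) (nat_lit 406) (nat_lit 323) (nat_lit 291))) (XT.nd (nat_lit 78) (nat_lit 0) (nat_lit 0) (XT.lf (nat_lit 0) (nat_lit 3749297860256) (nat_lit 76) (nat_lit 492784679670) (nat_lit 76) (nat_lit 492285322779) (nat_lit 1) (nat_lit 4) (nat_lit 2) (nat_lit 5) (nat_lit 2) (nat_lit 4) (nat_lit 407) (nat_lit 323) (nat_lit 290)) (XT.nd (nat_lit 78) (nat_lit 0) (nat_lit 0) (XT.lf (nat_lit 0) (nat_lit 4335652918467) (nat_lit 76) (nat_lit 554222802536) (nat_lit 76) (nat_lit 553722792349) (nat_lit 1) (nat_lit 4) (nat_lit 2) (nat_lit 5) (nat_lit 2) (nat_lit 4) (nat_lit 408) (nat_lit 323) (nat_lit 289)) (XT.lf (nat_lit 0) (nat_lit 5009904270168) (nat_lit 76) (nat_lit 624906133872) (nat_lit 76) (nat_lit 624405555601) (nat_lit 1) (nat_lit 4) (nat_lit 2) (nat_lit 5) (nat_lit 2) (nat_lit 4) (nat_lit 409) (nat_lit 323) (nat_lit 288))))) (XT.nd (nat_lit 234) (nat_lit 0) (nat_lit 0) (XT.nd (nat_lit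 78) (nat_lit 0) (nat_lit 0) (XT.lf (nat_lit 0) (nat_lit 5785243789633) (nat_lit 76) (nat_lit 706217608420) (nat_lit 76) (nat_lit 705716536164) (nat_lit 1) (nat_lit 4) (nat_lit 2) (nat_lit 5) (nat_lit 2) (nat_lit 4) (nat_lit 410) (nat_lit 323) (nat_lit 287)) (XT.nd (nat_lit 78) (nat_lit 0) (nat_lit 0) (XT.lf (nat_lit 0) (nat_lit 6676841163112) (nat_lit 76) (nat_lit 799748102858) (nat_lit 76) (nat_lit 799246601048) (nat_lit 1) (nat_lit 4) (nat_lit 2) (nat_lit 5) (nat_lit 2) (nat_lit 4) (nat_lit 411) (nat_lit 323) (nat_lit 286)) (XT.lf (nat_lit 0) (nat_lit 7702140687042) (nat_lit 76) (nat_lit 907327561640) (nat_lit 76) (nat_lit 906825686307) (nat_lit 1) (nat_lit 4) (nat_lit 2) (nat_lit 5) (nat_lit 2) (nat_lit 4) (nat_lit 412) (nat_lit 323) (nat_lit 285)))) (XT.nd (nat_lit 78) (nat_lit 0) (nat_lit 0) (XT.lf (nat_lit 0) (nat_lit 8881202569501) (nat_lit 76) (nat_lit 1031060800266) (nat_lit 76) (nat_lit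 1030558600129) (nat_lit 1) (nat_lit 4) (nat_lit 2) (nat_lit 5) (nat_lit 2) (nat_lit 4) (nat_lit 413) (nat_lit 323) (nat_lit 284)) (XT.nd (nat_lit 78) (nat_lit 0) (nat_lit 0) (XT.lf (nat_lit 0) (nat_lit 10237095412536) (nat_lit 76) (nat_lit 1173368686448) (nat_lit 76) (nat_lit 1172866203873) (nat_lit 1) (nat_lit 4) (nat_lit 2) (nat_lit 5) (nat_lit 2) (nat_lit 4) (nat_lit 414) (nat_lit 323) (nat_lit 283)) (XT.lf (nat_lit 0) (nat_lit 11796347554381) (nat_lit 76) (nat_lit 1337035504914) (nat_lit 76) (nat_lit 1336532776741) (nat_lit 1) (nat_lit 4) (nat_lit 2) (nat_lit 5) (nat_lit 2) (nat_lit 4) (nat_lit 415) (nat_lit 323) (nat_lit 282))))))))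
noncomputable def xc18 : XT := (XT.nd (nat_lit 50388) (nat_lit 0) (nat_lit 0) (XT.nd (nat_lit 780) (nat_lit 0) (nat_lit 0) (XT.nd (nat_lit 390) (nat_lit 0) (nat_lit 0) (XT.nd (nat_lit 156) (nat_lit 0) (nat_lit 0) (XT.nd (nat_lit 78) (nat_lit 0) (nat_lit 0) (XT.lf (nat_lit 0) (nat_lit 13589466102159) (nat_lit 76) (nat_lit 1525263432549) (nat_lit 76) (nat_lit 1524760490812) (nat_lit 1) (nat_lit 4) (nat_lit 2) (nat_lit 5) (nat_lit 2) (nat_lit 4) (nat_lit 416) (nat_lit 323) (nat_lit 281)) (XT.lf (nat_lit 0) (nat_lit 15651533810065) (nat_lit 76) (nat_lit 1741735189675) (nat_lit 76) (nat_lit 1741232062230) (nat_lit 1) (nat_lit 4) (nat_lit 2) (nat_lit 5) (nat_lit 2) (nat_lit 4) (nat_lit 417) (nat_lit 323) (nat_lit 280))) (XT.nd (nat_lit 78) (nat_lit 0) (nat_lit 0) (XT.lf (nat_lit 0) (nat_lit 18022895481080) (nat_lit 76) (nat_lit 1990686093280) (nat_lit 76) (nat_lit 1990182804350) (nat_lit 1) (nat_lit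 4) (nat_lit 2) (nat_lit 5) (nat_lit 2) (nat_lit 4) (nat_lit 418) (nat_lit 323) (nat_lit 279)) (XT.nd (nat_lit 78) (nat_lit 0) (nat_lit 0) (XT.lf (nat_lit 0) (nat_lit 20749947321812) (nat_lit 76) (nat_lit 2276986921912) (nat_lit 76) (nat_lit 2276483492561) (nat_lit 1) (nat_lit 4) (nat_lit 2) (nat_lit 5) (nat_lit 2) (nat_lit 4) (nat_lit 419) (nat_lit 323) (nat_lit 278)) (XT.lf (nat_lit 0) (nat_lit 23886044694361) (nat_lit 76) (nat_lit 2606239213523) (nat_lit 76) (nat_lit 2605735662066) (nat_lit 1) (nat_lit 4) (nat_lit 2) (nat_lit 5) (nat_lit 2) (nat_lit 4) (nat_lit 420) (nat_lit 323) (nat_lit 277))))) (XT.nd (nat_lit 156) (nat_lit 0) (nat_lit 0) (XT.nd (nat_lit 78) (nat_lit 0) (nat_lit 0) (XT.lf (nat_lit 0) (nat_lit 27492546025581) (nat_lit 76) (nat_lit 2984884860775) (nat_lit 76) (nat_lit 2984381203140) (nat_lit 1) (nat_lit 4) (nat_lit 2) (nat_lit 5) (nat_lit 2) (nat_lit 4) (nat_lit 421) (nat_lit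 323) (nat_lit 276)) (XT.lf (nat_lit 0) (nat_lit 31640013298041) (nat_lit 76) (nat_lit 3420332148071) (nat_lit 76) (nat_lit 3419828398106) (nat_lit 1) (nat_lit 4) (nat_lit 2) (nat_lit 5) (nat_lit 2) (nat_lit 4) (nat_lit 422) (nat_lit 323) (nat_lit 275))) (XT.nd (nat_lit 78) (nat_lit 0) (nat_lit 0) (XT.lf (nat_lit 0) (nat_lit 36409592610548) (nat_lit 76) (nat_lit 3921100696249) (nat_lit 76) (nat_lit 3920596865997) (nat_lit 1) (nat_lit 4) (nat_lit 2) (nat_lit 5) (nat_lit 2) (nat_lit 4) (nat_lit 423) (nat_lit 323) (nat_lit 274)) (XT.nd (nat_lit 78) (nat_lit 0) (nat_lit 0) (XT.lf (nat_lit 0) (nat_lit 41894601819217) (nat_lit 76) (nat_lit 4496988150816) (nat_lit 76) (nat_lit 4496484250751) (nat_lit 1) (nat_lit 4) (nat_lit 2) (nat_lit 5) (nat_lit 2) (nat_lit 4) (nat_lit 424) (nat_lit 323) (nat_lit 273)) (XT.lf (nat_lit 0) (nat_lit 48202356321610) (nat_lit 76) (nat_lit 5159261875015) (nat_lit 76)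 (nat_lit 5158757914242) (nat_lit 1) (nat_lit 4) (nat_lit 2) (nat_lit 5) (nat_lit 2) (nat_lit 4) (nat_lit 425) (nat_lit 323) (nat_lit 272)))))) (XT.nd (nat_lit 49140) (nat_lit 0) (nat_lit 228) (XT.nd (nat_lit 48906) (nat_lit 0) (nat_lit 532) (XT.nd (nat_lit 78) (nat_lit 0) (nat_lit 0) (XT.lf (nat_lit 0) (nat_lit 55456268705816) (nat_lit 76) (nat_lit 5920879398233) (nat_lit 76) (nat_lit 5920375384669) (nat_lit 1) (nat_lit 4) (nat_lit 2) (nat_lit 5) (nat_lit 2) (nat_lit 4) (nat_lit 426) (nat_lit 323) (nat_lit 271)) (XT.lf (nat_lit 0) (nat_lit 63798263344569) (nat_lit 76) (nat_lit 6796741932879) (nat_lit 76) (nat_lit 6796237873411) (nat_lit 1) (nat_lit 4) (nat_lit 2) (nat_lit 5) (nat_lit 2) (nat_lit 4) (nat_lit 427) (nat_lit 323) (nat_lit 270))) (XT.nd (nat_lit 78) (nat_lit 228) (nat_lit 0) (XT.lf (nat_lit 0) (nat_lit 10721700709) (nat_lit 152) (nat_lit 1724332047) (nat_lit 0) (nat_lit 10721700709)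 (nat_lit 11) (nat_lit 5) (nat_lit 13) (nat_lit 4) (nat_lit 11) (nat_lit 4) (nat_lit 372) (nat_lit 324) (nat_lit 324)) (XT.nd (nat_lit 78) (nat_lit 152) (nat_lit 0) (XT.lf (nat_lit 0) (nat_lit 44690090228) (nat_lit 76) (nat_lit 3403734314) (nat_lit 76) (nat_lit 3308431024) (nat_lit 10) (nat_lit 4) (nat_lit 11) (nat_lit 5) (nat_lit 11) (nat_lit 4) (nat_lit 373) (nat_lit 324) (nat_lit 323)) (XT.lf (nat_lit 0) (nat_lit 19947486233) (nat_lit 152) (nat_lit 17496809550) (nat_lit 0) (nat_lit 19782508718) (nat_lit 8) (nat_lit 5) (nat_lit 10) (nat_lit 4) (nat_lit 8) (nat_lit 4) (nat_lit 374) (nat_lit 324) (nat_lit 322))))) (XT.nd (nat_lit 234) (nat_lit 76) (nat_lit 0) (XT.nd (nat_lit 78) (nat_lit 152) (nat_lit 0) (XT.lf (nat_lit 0) (nat_lit 26781652978) (nat_lit 76) (nat_lit 18723727622) (nat_lit 76) (nat_lit 18492025126) (nat_lit 7) (nat_lit 4) (nat_lit 8) (nat_lit 5) (nat_lit 8) (nat_lit 4) (nat_lit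 375) (nat_lit 324) (nat_lit 321)) (XT.nd (nat_lit 78) (nat_lit 0) (nat_lit 0) (XT.lf (nat_lit 0) (nat_lit 1782291756) (nat_lit 152) (nat_lit 68575315633) (nat_lit 0) (nat_lit 1514028591) (nat_lit 5) (nat_lit 5) (nat_lit 7) (nat_lit 4) (nat_lit 5) (nat_lit 4) (nat_lit 376) (nat_lit 324) (nat_lit 320)) (XT.lf (nat_lit 0) (nat_lit 23958270685) (nat_lit 152) (nat_lit 33290580461) (nat_lit 0) (nat_lit 23643291158) (nat_lit 5) (nat_lit 5) (nat_lit 7) (nat_lit 4) (nat_lit 5) (nat_lit 4) (nat_lit 377) (nat_lit 324) (nat_lit 319)))) (XT.nd (nat_lit 78) (nat_lit 0) (nat_lit 0) (XT.lf (nat_lit 0) (nat_lit 4437820779) (nat_lit 76) (nat_lit 43646795386) (nat_lit 76) (nat_lit 43291192935) (nat_lit 4) (nat_lit 4) (nat_lit 5) (nat_lit 5) (nat_lit 5) (nat_lit 4) (nat_lit 378) (nat_lit 324) (nat_lit 318)) (XT.nd (nat_lit 78) (nat_lit 0) (nat_lit 0) (XT.lf (nat_lit 0) (nat_lit 47030365055) (nat_lit 76) (nat_lit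 28411804468) (nat_lit 76) (nat_lit 28020877736) (nat_lit 4) (nat_lit 4) (nat_lit 5) (nat_lit 5) (nat_lit 5) (nat_lit 4) (nat_lit 379) (nat_lit 324) (nat_lit 317)) (XT.lf (nat_lit 0) (nat_lit 93567361783) (nat_lit 76) (nat_lit 12156025951) (nat_lit 76) (nat_lit 11734382451) (nat_lit 4) (nat_lit 4) (nat_lit 5) (nat_lit 5) (nat_lit 5) (nat_lit 4) (nat_lit 380) (nat_lit 324) (nat_lit 316))))))) (XT.nd (nat_lit 780) (nat_lit 0) (nat_lit 0) (XT.nd (nat_lit 390) (nat_lit 76) (nat_lit 0) (XT.nd (nat_lit 156) (nat_lit 0) (nat_lit 0) (XT.nd (nat_lit 78) (nat_lit 0) (nat_lit 0) (XT.lf (nat_lit 0) (nat_lit 6017420847) (nat_lit 152) (nat_lit 121968764414) (nat_lit 0) (nat_lit 5602278503) (nat_lit 2) (nat_lit 5) (nat_lit 4) (nat_lit 4) (nat_lit 2) (nat_lit 4) (nat_lit 381) (nat_lit 324) (nat_lit 315)) (XT.lf (nat_lit 0) (nat_lit 25818499658) (nat_lit 152) (nat_lit 100907523298) (nat_lit 0) (nat_lit 25381851491)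 (nat_lit 2) (nat_lit 5) (nat_lit 4) (nat_lit 4) (nat_lit 2) (nat_lit 4) (nat_lit 382) (nat_lit 324) (nat_lit 314))) (XT.nd (nat_lit 78) (nat_lit 0) (nat_lit 0) (XT.lf (nat_lit 0) (nat_lit 47730384923) (nat_lit 152) (nat_lit 78468525166) (nat_lit 0) (nat_lit 47275036041) (nat_lit 2) (nat_lit 5) (nat_lit 4) (nat_lit 4) (nat_lit 2) (nat_lit 4) (nat_lit 383) (nat_lit 324) (nat_lit 313)) (XT.nd (nat_lit 78) (nat_lit 0) (nat_lit 0) (XT.lf (nat_lit 0) (nat_lit 72181787441) (nat_lit 152) (nat_lit 54212746143) (nat_lit 0) (nat_lit 71710177067) (nat_lit 2) (nat_lit 5) (nat_lit 4) (nat_lit 4) (nat_lit 2) (nat_lit 4) (nat_lit 384) (nat_lit 324) (nat_lit 312)) (XT.lf (nat_lit 0) (nat_lit 99651104217) (nat_lit 152) (nat_lit 27665616638) (nat_lit 0) (nat_lit 99165353415) (nat_lit 2) (nat_lit 5) (nat_lit 4) (nat_lit 4) (nat_lit 2) (nat_lit 4) (nat_lit 385) (nat_lit 324) (nat_lit 311))))) (XT.nd (nat_lit 156)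 (nat_lit 0) (nat_lit 0) (XT.nd (nat_lit 78) (nat_lit 0) (nat_lit 0) (XT.lf (nat_lit 0) (nat_lit 1781375314) (nat_lit 76) (nat_lit 128937245210) (nat_lit 76) (nat_lit 128439198384) (nat_lit 1) (nat_lit 4) (nat_lit 2) (nat_lit 5) (nat_lit 2) (nat_lit 4) (nat_lit 386) (nat_lit 324) (nat_lit 310)) (XT.lf (nat_lit 0) (nat_lit 36248589457) (nat_lit 76) (nat_lit 130486004493) (nat_lit 76) (nat_lit 129977265472) (nat_lit 1) (nat_lit 4) (nat_lit 2) (nat_lit 5) (nat_lit 2) (nat_lit 4) (nat_lit 387) (nat_lit 324) (nat_lit 309))) (XT.nd (nat_lit 78) (nat_lit 0) (nat_lit 0) (XT.lf (nat_lit 0) (nat_lit 74953561982) (nat_lit 76) (nat_lit 132749727502) (nat_lit 76) (nat_lit 132231690922) (nat_lit 1) (nat_lit 4) (nat_lit 2) (nat_lit 5) (nat_lit 2) (nat_lit 4) (nat_lit 388) (nat_lit 324) (nat_lit 308)) (XT.nd (nat_lit 78) (nat_lit 0) (nat_lit 0) (XT.lf (nat_lit 0) (nat_lit 118653564091) (nat_lit 76) (nat_lit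 135772704472) (nat_lit 76) (nat_lit 135246583056) (nat_lit 1) (nat_lit 4) (nat_lit 2) (nat_lit 5) (nat_lit 2) (nat_lit 4) (nat_lit 389) (nat_lit 324) (nat_lit 307)) (XT.lf (nat_lit 0) (nat_lit 168203595824) (nat_lit 76) (nat_lit 139614080604) (nat_lit 76) (nat_lit 139080928896) (nat_lit 1) (nat_lit 4) (nat_lit 2) (nat_lit 5) (nat_lit 2) (nat_lit 4) (nat_lit 390) (nat_lit 324) (nat_lit 306)))))) (XT.nd (nat_lit 390) (nat_lit 0) (nat_lit 0) (XT.nd (nat_lit 156) (nat_lit 0) (nat_lit 0) (XT.nd (nat_lit 78) (nat_lit 0) (nat_lit 0) (XT.lf (nat_lit 0) (nat_lit 224573114325) (nat_lit 76) (nat_lit 144349013256) (nat_lit 76) (nat_lit 143809748251) (nat_lit 1) (nat_lit 4) (nat_lit 2) (nat_lit 5) (nat_lit 2) (nat_lit 4) (nat_lit 391) (nat_lit 324) (nat_lit 305)) (XT.lf (nat_lit 0) (nat_lit 288865001477) (nat_lit 76) (nat_lit 150070142416) (nat_lit 76) (nat_lit 149525561500) (nat_lit 1) (nat_lit 4) (nat_lit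 2) (nat_lit 5) (nat_lit 2) (nat_lit 4) (nat_lit 392) (nat_lit 324) (nat_lit 304))) (XT.nd (nat_lit 78) (nat_lit 0) (nat_lit 0) (XT.lf (nat_lit 0) (nat_lit 362337142029) (nat_lit 76) (nat_lit 156889403218) (nat_lit 76) (nat_lit 156340199772) (nat_lit 1) (nat_lit 4) (nat_lit 2) (nat_lit 5) (nat_lit 2) (nat_lit 4) (nat_lit 393) (nat_lit 324) (nat_lit 303)) (XT.nd (nat_lit 78) (nat_lit 0) (nat_lit 0) (XT.lf (nat_lit 0) (nat_lit 446427034383) (nat_lit 76) (nat_lit 164940215984) (nat_lit 76) (nat_lit 164386992946) (nat_lit 1) (nat_lit 4) (nat_lit 2) (nat_lit 5) (nat_lit 2) (nat_lit 4) (nat_lit 394) (nat_lit 324) (nat_lit 302)) (XT.lf (nat_lit 0) (nat_lit 542779915563) (nat_lit 76) (nat_lit 174380096615) (nat_lit 76) (nat_lit 173823378279) (nat_lit 1) (nat_lit 4) (nat_lit 2) (nat_lit 5) (nat_lit 2) (nat_lit 4) (nat_lit 395) (nat_lit 324) (nat_lit 301))))) (XT.nd (nat_lit 234) (nat_lit 0) (nat_lit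 0) (XT.nd (nat_lit 78) (nat_lit 0) (nat_lit 0) (XT.lf (nat_lit 0) (nat_lit 653280950636) (nat_lit 76) (nat_lit 185393738428) (nat_lit 76) (nat_lit 184833980703) (nat_lit 1) (nat_lit 4) (nat_lit 2) (nat_lit 5) (nat_lit 2) (nat_lit 4) (nat_lit 396) (nat_lit 324) (nat_lit 300)) (XT.nd (nat_lit 78) (nat_lit 0) (nat_lit 0) (XT.lf (nat_lit 0) (nat_lit 780092116374) (nat_lit 76) (nat_lit 198196625719) (nat_lit 76) (nat_lit 197634225047) (nat_lit 1) (nat_lit 4) (nat_lit 2) (nat_lit 5) (nat_lit 2) (nat_lit 4) (nat_lit 397) (nat_lit 324) (nat_lit 299)) (XT.lf (nat_lit 0) (nat_lit 925694500804) (nat_lit 76) (nat_lit 213039249761) (nat_lit 76) (nat_lit 212474550874) (nat_lit 1) (nat_lit 4) (nat_lit 2) (nat_lit 5) (nat_lit 2) (nat_lit 4) (nat_lit 398) (nat_lit 324) (nat_lit 298)))) (XT.nd (nat_lit 78) (nat_lit 0) (nat_lit 0) (XT.lf (nat_lit 0) (nat_lit 1092936846230) (nat_lit 76) (nat_lit 230212009720)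 (nat_lit 76) (nat_lit 229645312386) (nat_lit 1) (nat_lit 4) (nat_lit 2) (nat_lit 5) (nat_lit 2) (nat_lit 4) (nat_lit 399) (nat_lit 324) (nat_lit 297)) (XT.nd (nat_lit 78) (nat_lit 0) (nat_lit 0) (XT.lf (nat_lit 0) (nat_lit 1285091285496) (nat_lit 76) (nat_lit 250050894378) (nat_lit 76) (nat_lit 249482459263) (nat_lit 1) (nat_lit 4) (nat_lit 2) (nat_lit 5) (nat_lit 2) (nat_lit 4) (nat_lit 400) (nat_lit 324) (nat_lit 296)) (XT.lf (nat_lit 0) (nat_lit 1505917361980) (nat_lit 76) (nat_lit 272944055827) (nat_lit 76) (nat_lit 272374109598) (nat_lit 1) (nat_lit 4) (nat_lit 2) (nat_lit 5) (nat_lit 2) (nat_lit 4) (nat_lit 401) (nat_lit 324) (nat_lit 295))))))))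
noncomputable def xc19 : XT := (XT.nd (nat_lit 1638) (nat_lit 0) (nat_lit 0) (XT.nd (nat_lit 780) (nat_lit 0) (nat_lit 0) (XT.nd (nat_lit 390) (nat_lit 0) (nat_lit 0) (XT.nd (nat_lit 156) (nat_lit 0) (nat_lit 0) (XT.nd (nat_lit 78) (nat_lit 0) (nat_lit 0) (XT.lf (nat_lit 0) (nat_lit 1759735585873) (nat_lit 76) (nat_lit 299339403746) (nat_lit 76) (nat_lit 298768143506) (nat_lit 1) (nat_lit 4) (nat_lit 2) (nat_lit 5) (nat_lit 2) (nat_lit 4) (nat_lit 402) (nat_lit 324) (nat_lit 294)) (XT.lf (nat_lit 0) (nat_lit 2051511965904) (nat_lit 76) (nat_lit 329753368856) (nat_lit 76) (nat_lit 329180965997) (nat_lit 1) (nat_lit 4) (nat_lit 2) (nat_lit 5) (nat_lit 2) (nat_lit 4) (nat_lit 403) (nat_lit 324) (nat_lit 293))) (XT.nd (nat_lit 78) (nat_lit 0) (nat_lit 0) (XT.lf (nat_lit 0) (nat_lit 2386955170379) (nat_lit 76) (nat_lit 364781006996) (nat_lit 76) (nat_lit 364207610555) (nat_lit 1) (nat_lit 4) (nat_lit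 2) (nat_lit 5) (nat_lit 2) (nat_lit 4) (nat_lit 404) (nat_lit 324) (nat_lit 292)) (XT.nd (nat_lit 78) (nat_lit 0) (nat_lit 0) (XT.lf (nat_lit 0) (nat_lit 2772628218514) (nat_lit 76) (nat_lit 405107641521) (nat_lit 76) (nat_lit 404533381096) (nat_lit 1) (nat_lit 4) (nat_lit 2) (nat_lit 5) (nat_lit 2) (nat_lit 4) (nat_lit 405) (nat_lit 324) (nat_lit 291)) (XT.lf (nat_lit 0) (nat_lit 3216076887339) (nat_lit 76) (nat_lit 451522271802) (nat_lit 76) (nat_lit 450947260087) (nat_lit 1) (nat_lit 4) (nat_lit 2) (nat_lit 5) (nat_lit 2) (nat_lit 4) (nat_lit 406) (nat_lit 324) (nat_lit 290))))) (XT.nd (nat_lit 156) (nat_lit 0) (nat_lit 0) (XT.nd (nat_lit 78) (nat_lit 0) (nat_lit 0) (XT.lf (nat_lit 0) (nat_lit 3725977346461) (nat_lit 76) (nat_lit 504933010171) (nat_lit 76) (nat_lit 504357345160) (nat_lit 1) (nat_lit 4) (nat_lit 2) (nat_lit 5) (nat_lit 2) (nat_lit 4) (nat_lit 407) (nat_lit 324) (nat_lit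 289)) (XT.lf (nat_lit 0) (nat_lit 4312305909210) (nat_lit 76) (nat_lit 566384849335) (nat_lit 76) (nat_lit 565808616240) (nat_lit 1) (nat_lit 4) (nat_lit 2) (nat_lit 5) (nat_lit 2) (nat_lit 4) (nat_lit 408) (nat_lit 324) (nat_lit 288))) (XT.nd (nat_lit 78) (nat_lit 0) (nat_lit 0) (XT.lf (nat_lit 0) (nat_lit 4986534221381) (nat_lit 76) (nat_lit 637080107885) (nat_lit 76) (nat_lit 636503380805) (nat_lit 1) (nat_lit 4) (nat_lit 2) (nat_lit 5) (nat_lit 2) (nat_lit 4) (nat_lit 409) (nat_lit 324) (nat_lit 287)) (XT.nd (nat_lit 78) (nat_lit 0) (nat_lit 0) (XT.lf (nat_lit 0) (nat_lit 5761853706471) (nat_lit 76) (nat_lit 718401953925) (nat_lit 76) (nat_lit 717824797292) (nat_lit 1) (nat_lit 4) (nat_lit 2) (nat_lit 5) (nat_lit 2) (nat_lit 4) (nat_lit 410) (nat_lit 324) (nat_lit 286)) (XT.lf (nat_lit 0) (nat_lit 6653433658754) (nat_lit 76) (nat_lit 811941467051) (nat_lit 76) (nat_lit 811363936893) (nat_lit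 1) (nat_lit 4) (nat_lit 2) (nat_lit 5) (nat_lit 2) (nat_lit 4) (nat_lit 411) (nat_lit 324) (nat_lit 285)))))) (XT.nd (nat_lit 390) (nat_lit 0) (nat_lit 0) (XT.nd (nat_lit 156) (nat_lit 0) (nat_lit 0) (XT.nd (nat_lit 78) (nat_lit 0) (nat_lit 0) (XT.lf (nat_lit 0) (nat_lit 7678718033819) (nat_lit 76) (nat_lit 919528768171) (nat_lit 76) (nat_lit 918950913210) (nat_lit 1) (nat_lit 4) (nat_lit 2) (nat_lit 5) (nat_lit 2) (nat_lit 4) (nat_lit 412) (nat_lit 324) (nat_lit 284)) (XT.lf (nat_lit 0) (nat_lit 8857766743351) (nat_lit 76) (nat_lit 1043268826221) (nat_lit 76) (nat_lit 1042690688822) (nat_lit 1) (nat_lit 4) (nat_lit 2) (nat_lit 5) (nat_lit 2) (nat_lit 4) (nat_lit 413) (nat_lit 324) (nat_lit 283))) (XT.nd (nat_lit 78) (nat_lit 0) (nat_lit 0) (XT.lf (nat_lit 0) (nat_lit 10213648131667) (nat_lit 76) (nat_lit 1185582642336) (nat_lit 76) (nat_lit 1185004259339) (nat_lit 1) (nat_lit 4) (nat_lit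 2) (nat_lit 5) (nat_lit 2) (nat_lit 4) (nat_lit 414) (nat_lit 324) (nat_lit 282)) (XT.nd (nat_lit 78) (nat_lit 0) (nat_lit 0) (XT.lf (nat_lit 0) (nat_lit 11772890312887) (nat_lit 76) (nat_lit 1349254617267) (nat_lit 76) (nat_lit 1348676020706) (nat_lit 1) (nat_lit 4) (nat_lit 2) (nat_lit 5) (nat_lit 2) (nat_lit 4) (nat_lit 415) (nat_lit 324) (nat_lit 281)) (XT.lf (nat_lit 0) (nat_lit 13566000199252) (nat_lit 76) (nat_lit 1537487028784) (nat_lit 76) (nat_lit 1536908246515) (nat_lit 1) (nat_lit 4) (nat_lit 2) (nat_lit 5) (nat_lit 2) (nat_lit 4) (nat_lit 416) (nat_lit 324) (nat_lit 280))))) (XT.nd (nat_lit 234) (nat_lit 0) (nat_lit 0) (XT.nd (nat_lit 78) (nat_lit 0) (nat_lit 0) (XT.lf (nat_lit 0) (nat_lit 15628060375494) (nat_lit 76) (nat_lit 1753962684938) (nat_lit 76) (nat_lit 1753383741184) (nat_lit 1) (nat_lit 4) (nat_lit 2) (nat_lit 5) (nat_lit 2) (nat_lit 4) (nat_lit 417) (nat_lit 324)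 (nat_lit 279)) (XT.nd (nat_lit 78) (nat_lit 0) (nat_lit 0) (XT.lf (nat_lit 0) (nat_lit 17999415497237) (nat_lit 76) (nat_lit 2002916979001) (nat_lit 76) (nat_lit 2002337894826) (nat_lit 1) (nat_lit 4) (nat_lit 2) (nat_lit 5) (nat_lit 2) (nat_lit 4) (nat_lit 418) (nat_lit 324) (nat_lit 278)) (XT.lf (nat_lit 0) (nat_lit 20726461642949) (nat_lit 76) (nat_lit 2289220755859) (nat_lit 76) (nat_lit 2288641549578) (nat_lit 1) (nat_lit 4) (nat_lit 2) (nat_lit 5) (nat_lit 2) (nat_lit 4) (nat_lit 419) (nat_lit 324) (nat_lit 277)))) (XT.nd (nat_lit 78) (nat_lit 0) (nat_lit 0) (XT.lf (nat_lit 0) (nat_lit 23862554063307) (nat_lit 76) (nat_lit 2618475611144) (nat_lit 76) (nat_lit 2617896298684) (nat_lit 1) (nat_lit 4) (nat_lit 2) (nat_lit 5) (nat_lit 2) (nat_lit 4) (nat_lit 420) (nat_lit 324) (nat_lit 276)) (XT.nd (nat_lit 78) (nat_lit 0) (nat_lit 0) (XT.lf (nat_lit 0) (nat_lit 27469051088274) (nat_lit 76)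 (nat_lit 2997123487678) (nat_lit 76) (nat_lit 2996544082889) (nat_lit 1) (nat_lit 4) (nat_lit 2) (nat_lit 5) (nat_lit 2) (nat_lit 4) (nat_lit 421) (nat_lit 324) (nat_lit 275)) (XT.lf (nat_lit 0) (nat_lit 31616514616165) (nat_lit 76) (nat_lit 3432572713479) (nat_lit 76) (nat_lit 3431993228404) (nat_lit 1) (nat_lit 4) (nat_lit 2) (nat_lit 5) (nat_lit 2) (nat_lit 4) (nat_lit 422) (nat_lit 324) (nat_lit 274))))))) (XT.nd (nat_lit 49374) (nat_lit 0) (nat_lit 76) (XT.nd (nat_lit 48984) (nat_lit 0) (nat_lit 532) (XT.nd (nat_lit 156) (nat_lit 0) (nat_lit 0) (XT.nd (nat_lit 78) (nat_lit 0) (nat_lit 0) (XT.lf (nat_lit 0) (nat_lit 36386090672527) (nat_lit 76) (nat_lit 3933342947315) (nat_lit 76) (nat_lit 3932763392425) (nat_lit 1) (nat_lit 4) (nat_lit 2) (nat_lit 5) (nat_lit 2) (nat_lit 4) (nat_lit 423) (nat_lit 324) (nat_lit 273)) (XT.lf (nat_lit 0) (nat_lit 41871097049765) (nat_lit 76) (nat_lit 4509231867671)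 (nat_lit 76) (nat_lit 4508652252073) (nat_lit 1) (nat_lit 4) (nat_lit 2) (nat_lit 5) (nat_lit 2) (nat_lit 4) (nat_lit 424) (nat_lit 324) (nat_lit 272))) (XT.nd (nat_lit 78) (nat_lit 0) (nat_lit 0) (XT.lf (nat_lit 0) (nat_lit 48178849090043) (nat_lit 76) (nat_lit 5171506866470) (nat_lit 76) (nat_lit 5170927198082) (nat_lit 1) (nat_lit 4) (nat_lit 2) (nat_lit 5) (nat_lit 2) (nat_lit 4) (nat_lit 425) (nat_lit 324) (nat_lit 271)) (XT.nd (nat_lit 78) (nat_lit 0) (nat_lit 0) (XT.lf (nat_lit 0) (nat_lit 55432759333280) (nat_lit 76) (nat_lit 5933125498034) (nat_lit 76) (nat_lit 5932545783742) (nat_lit 1) (nat_lit 4) (nat_lit 2) (nat_lit 5) (nat_lit 2) (nat_lit 4) (nat_lit 426) (nat_lit 324) (nat_lit 270)) (XT.lf (nat_lit 0) (nat_lit 63774752110322) (nat_lit 76) (nat_lit 6808988996460) (nat_lit 76) (nat_lit 6808409242252) (nat_lit 1) (nat_lit 4) (nat_lit 2) (nat_lit 5) (nat_lit 2) (nat_lit 4) (nat_lit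 427) (nat_lit 324) (nat_lit 269))))) (XT.nd (nat_lit 156) (nat_lit 380) (nat_lit 0) (XT.nd (nat_lit 78) (nat_lit 76) (nat_lit 0) (XT.lf (nat_lit 0) (nat_lit 7188706459) (nat_lit 152) (nat_lit 4680015463) (nat_lit 0) (nat_lit 7188706459) (nat_lit 14) (nat_lit 5) (nat_lit 16) (nat_lit 4) (nat_lit 14) (nat_lit 4) (nat_lit 370) (nat_lit 325) (nat_lit 325)) (XT.lf (nat_lit 0) (nat_lit 36819352363) (nat_lit 76) (nat_lit 2642942780) (nat_lit 76) (nat_lit 2524576094) (nat_lit 13) (nat_lit 4) (nat_lit 14) (nat_lit 5) (nat_lit 14) (nat_lit 4) (nat_lit 371) (nat_lit 325) (nat_lit 324))) (XT.nd (nat_lit 78) (nat_lit 228) (nat_lit 0) (XT.lf (nat_lit 0) (nat_lit 20531695022) (nat_lit 152) (nat_lit 5558685670) (nat_lit 0) (nat_lit 20326792949) (nat_lit 11) (nat_lit 5) (nat_lit 13) (nat_lit 4) (nat_lit 11) (nat_lit 4) (nat_lit 372) (nat_lit 325) (nat_lit 323)) (XT.nd (nat_lit 78) (nat_lit 152) (nat_lit 0)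 (XT.lf (nat_lit 0) (nat_lit 40537539900) (nat_lit 76) (nat_lit 5656617850) (nat_lit 76) (nat_lit 5368843351) (nat_lit 10) (nat_lit 4) (nat_lit 11) (nat_lit 5) (nat_lit 11) (nat_lit 4) (nat_lit 373) (nat_lit 325) (nat_lit 322)) (XT.lf (nat_lit 0) (nat_lit 16924014226) (nat_lit 152) (nat_lit 23961960666) (nat_lit 0) (nat_lit 16590831376) (nat_lit 8) (nat_lit 5) (nat_lit 10) (nat_lit 4) (nat_lit 8) (nat_lit 4) (nat_lit 374) (nat_lit 325) (nat_lit 321)))))) (XT.nd (nat_lit 390) (nat_lit 152) (nat_lit 0) (XT.nd (nat_lit 156) (nat_lit 228) (nat_lit 0) (XT.nd (nat_lit 78) (nat_lit 0) (nat_lit 0) (XT.lf (nat_lit 0) (nat_lit 18271837217) (nat_lit 76) (nat_lit 23222875940) (nat_lit 76) (nat_lit 22831671368) (nat_lit 7) (nat_lit 4) (nat_lit 8) (nat_lit 5) (nat_lit 8) (nat_lit 4) (nat_lit 375) (nat_lit 325) (nat_lit 320)) (XT.lf (nat_lit 0) (nat_lit 65105615561) (nat_lit 76) (nat_lit 3803402366) (nat_lit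 76) (nat_lit 3361744122) (nat_lit 7) (nat_lit 4) (nat_lit 8) (nat_lit 5) (nat_lit 8) (nat_lit 4) (nat_lit 376) (nat_lit 325) (nat_lit 319))) (XT.nd (nat_lit 78) (nat_lit 76) (nat_lit 0) (XT.lf (nat_lit 0) (nat_lit 18015167436) (nat_lit 152) (nat_lit 45794347058) (nat_lit 0) (nat_lit 17565601693) (nat_lit 5) (nat_lit 5) (nat_lit 7) (nat_lit 4) (nat_lit 5) (nat_lit 4) (nat_lit 377) (nat_lit 325) (nat_lit 318)) (XT.nd (nat_lit 78) (nat_lit 76) (nat_lit 0) (XT.lf (nat_lit 0) (nat_lit 41435082519) (nat_lit 152) (nat_lit 9530023252) (nat_lit 0) (nat_lit 40950192495) (nat_lit 5) (nat_lit 5) (nat_lit 7) (nat_lit 4) (nat_lit 5) (nat_lit 4) (nat_lit 378) (nat_lit 325) (nat_lit 317)) (XT.lf (nat_lit 0) (nat_lit 31423743078) (nat_lit 76) (nat_lit 36578803991) (nat_lit 76) (nat_lit 36063197200) (nat_lit 4) (nat_lit 4) (nat_lit 5) (nat_lit 5) (nat_lit 5) (nat_lit 4) (nat_lit 379) (nat_lit 325) (nat_lit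 316))))) (XT.nd (nat_lit 234) (nat_lit 0) (nat_lit 0) (XT.nd (nat_lit 78) (nat_lit 152) (nat_lit 0) (XT.lf (nat_lit 0) (nat_lit 76972093016) (nat_lit 76) (nat_lit 20834435397) (nat_lit 76) (nat_lit 20292118374) (nat_lit 4) (nat_lit 4) (nat_lit 5) (nat_lit 5) (nat_lit 5) (nat_lit 4) (nat_lit 380) (nat_lit 325) (nat_lit 315)) (XT.nd (nat_lit 78) (nat_lit 152) (nat_lit 0) (XT.lf (nat_lit 0) (nat_lit 127504355792) (nat_lit 76) (nat_lit 3684525720) (nat_lit 76) (nat_lit 3118982408) (nat_lit 4) (nat_lit 4) (nat_lit 5) (nat_lit 5) (nat_lit 5) (nat_lit 4) (nat_lit 381) (nat_lit 325) (nat_lit 314)) (XT.lf (nat_lit 0) (nat_lit 16173092934) (nat_lit 152) (nat_lit 121082644253) (nat_lit 0) (nat_lit 15630741004) (nat_lit 2) (nat_lit 5) (nat_lit 4) (nat_lit 4) (nat_lit 2) (nat_lit 4) (nat_lit 382) (nat_lit 325) (nat_lit 313)))) (XT.nd (nat_lit 78) (nat_lit 0) (nat_lit 0) (XT.lf (nat_lit 0) (nat_lit 37737412833)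 (nat_lit 152) (nat_lit 99364143250) (nat_lit 0) (nat_lit 37178799411) (nat_lit 2) (nat_lit 5) (nat_lit 4) (nat_lit 4) (nat_lit 2) (nat_lit 4) (nat_lit 383) (nat_lit 325) (nat_lit 312)) (XT.nd (nat_lit 78) (nat_lit 0) (nat_lit 0) (XT.lf (nat_lit 0) (nat_lit 61886584597) (nat_lit 152) (nat_lit 75734883470) (nat_lit 0) (nat_lit 61313830748) (nat_lit 2) (nat_lit 5) (nat_lit 4) (nat_lit 4) (nat_lit 2) (nat_lit 4) (nat_lit 384) (nat_lit 325) (nat_lit 311)) (XT.lf (nat_lit 0) (nat_lit 89093092023) (nat_lit 152) (nat_lit 49732553307) (nat_lit 0) (nat_lit 88508042150) (nat_lit 2) (nat_lit 5) (nat_lit 4) (nat_lit 4) (nat_lit 2) (nat_lit 4) (nat_lit 385) (nat_lit 325) (nat_lit 310))))))))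
noncomputable def xc20 : XT := (XT.nd (nat_lit 1638) (nat_lit 0) (nat_lit 0) (XT.nd (nat_lit 780) (nat_lit 0) (nat_lit 0) (XT.nd (nat_lit 390) (nat_lit 0) (nat_lit 0) (XT.nd (nat_lit 156) (nat_lit 0) (nat_lit 0) (XT.nd (nat_lit 78) (nat_lit 76) (nat_lit 0) (XT.lf (nat_lit 0) (nat_lit 119889236342) (nat_lit 152) (nat_lit 20848411519) (nat_lit 0) (nat_lit 119293494274) (nat_lit 2) (nat_lit 5) (nat_lit 4) (nat_lit 4) (nat_lit 2) (nat_lit 4) (nat_lit 386) (nat_lit 325) (nat_lit 309)) (XT.lf (nat_lit 0) (nat_lit 12087323271) (nat_lit 76) (nat_lit 143080927956) (nat_lit 76) (nat_lit 142475888327) (nat_lit 1) (nat_lit 4) (nat_lit 2) (nat_lit 5) (nat_lit 2) (nat_lit 4) (nat_lit 387) (nat_lit 325) (nat_lit 308))) (XT.nd (nat_lit 78) (nat_lit 0) (nat_lit 0) (XT.lf (nat_lit 0) (nat_lit 50415218449) (nat_lit 76) (nat_lit 145539858179) (nat_lit 76) (nat_lit 144926733715) (nat_lit 1) (nat_lit 4) (nat_lit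 2) (nat_lit 5) (nat_lit 2) (nat_lit 4) (nat_lit 388) (nat_lit 325) (nat_lit 307)) (XT.nd (nat_lit 78) (nat_lit 0) (nat_lit 0) (XT.lf (nat_lit 0) (nat_lit 93787327213) (nat_lit 76) (nat_lit 148732580552) (nat_lit 76) (nat_lit 148112425796) (nat_lit 1) (nat_lit 4) (nat_lit 2) (nat_lit 5) (nat_lit 2) (nat_lit 4) (nat_lit 389) (nat_lit 325) (nat_lit 306)) (XT.lf (nat_lit 0) (nat_lit 143052234298) (nat_lit 76) (nat_lit 152721561382) (nat_lit 76) (nat_lit 152095293329) (nat_lit 1) (nat_lit 4) (nat_lit 2) (nat_lit 5) (nat_lit 2) (nat_lit 4) (nat_lit 390) (nat_lit 325) (nat_lit 305))))) (XT.nd (nat_lit 156) (nat_lit 0) (nat_lit 0) (XT.nd (nat_lit 78) (nat_lit 0) (nat_lit 0) (XT.lf (nat_lit 0) (nat_lit 199173818323) (nat_lit 76) (nat_lit 157584845945) (nat_lit 76) (nat_lit 156953261982) (nat_lit 1) (nat_lit 4) (nat_lit 2) (nat_lit 5) (nat_lit 2) (nat_lit 4) (nat_lit 391) (nat_lit 325) (nat_lit 304))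 (XT.lf (nat_lit 0) (nat_lit 263250110278) (nat_lit 76) (nat_lit 163417585463) (nat_lit 76) (nat_lit 162781378968) (nat_lit 1) (nat_lit 4) (nat_lit 2) (nat_lit 5) (nat_lit 2) (nat_lit 4) (nat_lit 392) (nat_lit 325) (nat_lit 303))) (XT.nd (nat_lit 78) (nat_lit 0) (nat_lit 0) (XT.lf (nat_lit 0) (nat_lit 336534776746) (nat_lit 76) (nat_lit 170333898750) (nat_lit 76) (nat_lit 169693672664) (nat_lit 1) (nat_lit 4) (nat_lit 2) (nat_lit 5) (nat_lit 2) (nat_lit 4) (nat_lit 393) (nat_lit 325) (nat_lit 302)) (XT.nd (nat_lit 78) (nat_lit 0) (nat_lit 0) (XT.lf (nat_lit 0) (nat_lit 420461648157) (nat_lit 76) (nat_lit 178469104981) (nat_lit 76) (nat_lit 177825383598) (nat_lit 1) (nat_lit 4) (nat_lit 2) (nat_lit 5) (nat_lit 2) (nat_lit 4) (nat_lit 394) (nat_lit 325) (nat_lit 301)) (XT.lf (nat_lit 0) (nat_lit 516672771996) (nat_lit 76) (nat_lit 187982371234) (nat_lit 76) (nat_lit 187335610461) (nat_lit 1)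 (nat_lit 4) (nat_lit 2) (nat_lit 5) (nat_lit 2) (nat_lit 4) (nat_lit 395) (nat_lit 325) (nat_lit 300)))))) (XT.nd (nat_lit 390) (nat_lit 0) (nat_lit 0) (XT.nd (nat_lit 156) (nat_lit 0) (nat_lit 0) (XT.nd (nat_lit 78) (nat_lit 0) (nat_lit 0) (XT.lf (nat_lit 0) (nat_lit 627050539815) (nat_lit 76) (nat_lit 199059826631) (nat_lit 76) (nat_lit 198410422911) (nat_lit 1) (nat_lit 4) (nat_lit 2) (nat_lit 5) (nat_lit 2) (nat_lit 4) (nat_lit 396) (nat_lit 325) (nat_lit 299)) (XT.lf (nat_lit 0) (nat_lit 753754516638) (nat_lit 76) (nat_lit 211918203995) (nat_lit 76) (nat_lit 211266502061) (nat_lit 1) (nat_lit 4) (nat_lit 2) (nat_lit 5) (nat_lit 2) (nat_lit 4) (nat_lit 397) (nat_lit 325) (nat_lit 298))) (XT.nd (nat_lit 78) (nat_lit 0) (nat_lit 0) (XT.lf (nat_lit 0) (nat_lit 899263693315) (nat_lit 76) (nat_lit 226809080275) (nat_lit 76) (nat_lit 226155379893) (nat_lit 1) (nat_lit 4) (nat_lit 2) (nat_lit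 5) (nat_lit 2) (nat_lit 4) (nat_lit 398) (nat_lit 325) (nat_lit 297)) (XT.nd (nat_lit 78) (nat_lit 0) (nat_lit 0) (XT.lf (nat_lit 0) (nat_lit 1066424988520) (nat_lit 76) (nat_lit 244023798702) (nat_lit 76) (nat_lit 243368360539) (nat_lit 1) (nat_lit 4) (nat_lit 2) (nat_lit 5) (nat_lit 2) (nat_lit 4) (nat_lit 399) (nat_lit 325) (nat_lit 296)) (XT.lf (nat_lit 0) (nat_lit 1258508949334) (nat_lit 76) (nat_lit 263899168984) (nat_lit 76) (nat_lit 263242219708) (nat_lit 1) (nat_lit 4) (nat_lit 2) (nat_lit 5) (nat_lit 2) (nat_lit 4) (nat_lit 400) (nat_lit 325) (nat_lit 295))))) (XT.nd (nat_lit 234) (nat_lit 0) (nat_lit 0) (XT.nd (nat_lit 78) (nat_lit 0) (nat_lit 0) (XT.lf (nat_lit 0) (nat_lit 1479273740207) (nat_lit 76) (nat_lit 286824057062) (nat_lit 76) (nat_lit 286165793774) (nat_lit 1) (nat_lit 4) (nat_lit 2) (nat_lit 5) (nat_lit 2) (nat_lit 4) (nat_lit 401) (nat_lit 325) (nat_lit 294)) (XT.nd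 (nat_lit 78) (nat_lit 0) (nat_lit 0) (XT.lf (nat_lit 0) (nat_lit 1733038672265) (nat_lit 76) (nat_lit 313246993355) (nat_lit 76) (nat_lit 312587587448) (nat_lit 1) (nat_lit 4) (nat_lit 2) (nat_lit 5) (nat_lit 2) (nat_lit 4) (nat_lit 402) (nat_lit 325) (nat_lit 293)) (XT.lf (nat_lit 0) (nat_lit 2024768711570) (nat_lit 76) (nat_lit 343684948355) (nat_lit 76) (nat_lit 343024548866) (nat_lit 1) (nat_lit 4) (nat_lit 2) (nat_lit 5) (nat_lit 2) (nat_lit 4) (nat_lit 403) (nat_lit 325) (nat_lit 292)))) (XT.nd (nat_lit 78) (nat_lit 0) (nat_lit 0) (XT.lf (nat_lit 0) (nat_lit 2360171619760) (nat_lit 76) (nat_lit 378733447269) (nat_lit 76) (nat_lit 378072183796) (nat_lit 1) (nat_lit 4) (nat_lit 2) (nat_lit 5) (nat_lit 2) (nat_lit 4) (nat_lit 404) (nat_lit 325) (nat_lit 291)) (XT.nd (nat_lit 78) (nat_lit 0) (nat_lit 0) (XT.lf (nat_lit 0) (nat_lit 2745809627649) (nat_lit 76) (nat_lit 419078221597) (nat_lit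 76) (nat_lit 418416206834) (nat_lit 1) (nat_lit 4) (nat_lit 2) (nat_lit 5) (nat_lit 2) (nat_lit 4) (nat_lit 405) (nat_lit 325) (nat_lit 290)) (XT.lf (nat_lit 0) (nat_lit 3189227826694) (nat_lit 76) (nat_lit 465508625620) (nat_lit 76) (nat_lit 464845957561) (nat_lit 1) (nat_lit 4) (nat_lit 2) (nat_lit 5) (nat_lit 2) (nat_lit 4) (nat_lit 406) (nat_lit 325) (nat_lit 289))))))) (XT.nd (nat_lit 780) (nat_lit 0) (nat_lit 0) (XT.nd (nat_lit 390) (nat_lit 0) (nat_lit 0) (XT.nd (nat_lit 156) (nat_lit 0) (nat_lit 0) (XT.nd (nat_lit 78) (nat_lit 0) (nat_lit 0) (XT.lf (nat_lit 0) (nat_lit 3699101790355) (nat_lit 76) (nat_lit 518933080287) (nat_lit 76) (nat_lit 518269844144) (nat_lit 1) (nat_lit 4) (nat_lit 2) (nat_lit 5) (nat_lit 2) (nat_lit 4) (nat_lit 407) (nat_lit 325) (nat_lit 288)) (XT.lf (nat_lit 0) (nat_lit 4285407313574) (nat_lit 76) (nat_lit 580396846665) (nat_lit 76) (nat_lit 579733116537) (nat_lit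 1) (nat_lit 4) (nat_lit 2) (nat_lit 5) (nat_lit 2) (nat_lit 4) (nat_lit 408) (nat_lit 325) (nat_lit 287))) (XT.nd (nat_lit 78) (nat_lit 0) (nat_lit 0) (XT.lf (nat_lit 0) (nat_lit 4959615591369) (nat_lit 76) (nat_lit 651102476707) (nat_lit 76) (nat_lit 650438317026) (nat_lit 1) (nat_lit 4) (nat_lit 2) (nat_lit 5) (nat_lit 2) (nat_lit 4) (nat_lit 409) (nat_lit 325) (nat_lit 286)) (XT.nd (nat_lit 78) (nat_lit 0) (nat_lit 0) (XT.lf (nat_lit 0) (nat_lit 5734917655264) (nat_lit 76) (nat_lit 732433341436) (nat_lit 76) (nat_lit 731768808230) (nat_lit 1) (nat_lit 4) (nat_lit 2) (nat_lit 5) (nat_lit 2) (nat_lit 4) (nat_lit 410) (nat_lit 325) (nat_lit 285)) (XT.lf (nat_lit 0) (nat_lit 6626482458682) (nat_lit 76) (nat_lit 825980696899) (nat_lit 76) (nat_lit 825315838890) (nat_lit 1) (nat_lit 4) (nat_lit 2) (nat_lit 5) (nat_lit 2) (nat_lit 4) (nat_lit 411) (nat_lit 325) (nat_lit 284))))) (XT.nd (nat_lit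 156) (nat_lit 0) (nat_lit 0) (XT.nd (nat_lit 78) (nat_lit 0) (nat_lit 0) (XT.lf (nat_lit 0) (nat_lit 7651753660820) (nat_lit 76) (nat_lit 933574817443) (nat_lit 76) (nat_lit 932909676996) (nat_lit 1) (nat_lit 4) (nat_lit 2) (nat_lit 5) (nat_lit 2) (nat_lit 4) (nat_lit 412) (nat_lit 325) (nat_lit 283)) (XT.lf (nat_lit 0) (nat_lit 8830790915633) (nat_lit 76) (nat_lit 1057320805427) (nat_lit 76) (nat_lit 1056655419382) (nat_lit 1) (nat_lit 4) (nat_lit 2) (nat_lit 5) (nat_lit 2) (nat_lit 4) (nat_lit 413) (nat_lit 325) (nat_lit 282))) (XT.nd (nat_lit 78) (nat_lit 0) (nat_lit 0) (XT.lf (nat_lit 0) (nat_lit 10186662343324) (nat_lit 76) (nat_lit 1199639778006) (nat_lit 76) (nat_lit 1198974178398) (nat_lit 1) (nat_lit 4) (nat_lit 2) (nat_lit 5) (nat_lit 2) (nat_lit 4) (nat_lit 414) (nat_lit 325) (nat_lit 281)) (XT.nd (nat_lit 78) (nat_lit 0) (nat_lit 0) (XT.lf (nat_lit 0) (nat_lit 11745895863131) (nat_lit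 76) (nat_lit 1363316236819) (nat_lit 76) (nat_lit 1362650451503) (nat_lit 1) (nat_lit 4) (nat_lit 2) (nat_lit 5) (nat_lit 2) (nat_lit 4) (nat_lit 415) (nat_lit 325) (nat_lit 280)) (XT.lf (nat_lit 0) (nat_lit 13538998217832) (nat_lit 76) (nat_lit 1551552547364) (nat_lit 76) (nat_lit 1550886600562) (nat_lit 1) (nat_lit 4) (nat_lit 2) (nat_lit 5) (nat_lit 2) (nat_lit 4) (nat_lit 416) (nat_lit 325) (nat_lit 279)))))) (XT.nd (nat_lit 390) (nat_lit 0) (nat_lit 0) (XT.nd (nat_lit 156) (nat_lit 0) (nat_lit 0) (XT.nd (nat_lit 78) (nat_lit 0) (nat_lit 0) (XT.lf (nat_lit 0) (nat_lit 15601051844802) (nat_lit 76) (nat_lit 1768031593976) (nat_lit 76) (nat_lit 1767365506754) (nat_lit 1) (nat_lit 4) (nat_lit 2) (nat_lit 5) (nat_lit 2) (nat_lit 4) (nat_lit 417) (nat_lit 325) (nat_lit 278)) (XT.lf (nat_lit 0) (nat_lit 17972401271525) (nat_lit 76) (nat_lit 2016988836265) (nat_lit 76) (nat_lit 2016322626937)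 (nat_lit 1) (nat_lit 4) (nat_lit 2) (nat_lit 5) (nat_lit 2) (nat_lit 4) (nat_lit 418) (nat_lit 325) (nat_lit 277))) (XT.nd (nat_lit 78) (nat_lit 0) (nat_lit 0) (XT.lf (nat_lit 0) (nat_lit 20699442465045) (nat_lit 76) (nat_lit 2303295176797) (nat_lit 76) (nat_lit 2302628861289) (nat_lit 1) (nat_lit 4) (nat_lit 2) (nat_lit 5) (nat_lit 2) (nat_lit 4) (nat_lit 419) (nat_lit 325) (nat_lit 276)) (XT.nd (nat_lit 78) (nat_lit 0) (nat_lit 0) (XT.lf (nat_lit 0) (nat_lit 23835530579150) (nat_lit 76) (nat_lit 2632552261364) (nat_lit 76) (nat_lit 2631885853527) (nat_lit 1) (nat_lit 4) (nat_lit 2) (nat_lit 5) (nat_lit 2) (nat_lit 4) (nat_lit 420) (nat_lit 325) (nat_lit 275)) (XT.lf (nat_lit 0) (nat_lit 27442023859550) (nat_lit 76) (nat_lit 3011202076404) (nat_lit 76) (nat_lit 3010535588280) (nat_lit 1) (nat_lit 4) (nat_lit 2) (nat_lit 5) (nat_lit 2) (nat_lit 4) (nat_lit 421) (nat_lit 325) (nat_lit 274)))))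 (XT.nd (nat_lit 234) (nat_lit 0) (nat_lit 0) (XT.nd (nat_lit 78) (nat_lit 0) (nat_lit 0) (XT.lf (nat_lit 0) (nat_lit 31589484131295) (nat_lit 76) (nat_lit 3446652987863) (nat_lit 76) (nat_lit 3445986429925) (nat_lit 1) (nat_lit 4) (nat_lit 2) (nat_lit 5) (nat_lit 2) (nat_lit 4) (nat_lit 422) (nat_lit 325) (nat_lit 273)) (XT.nd (nat_lit 78) (nat_lit 0) (nat_lit 0) (XT.lf (nat_lit 0) (nat_lit 36359057356225) (nat_lit 76) (nat_lit 3947424687487) (nat_lit 76) (nat_lit 3946758068841) (nat_lit 1) (nat_lit 4) (nat_lit 2) (nat_lit 5) (nat_lit 2) (nat_lit 4) (nat_lit 423) (nat_lit 325) (nat_lit 272)) (XT.lf (nat_lit 0) (nat_lit 41844061271349) (nat_lit 76) (nat_lit 4523314882443) (nat_lit 76) (nat_lit 4522648211007) (nat_lit 1) (nat_lit 4) (nat_lit 2) (nat_lit 5) (nat_lit 2) (nat_lit 4) (nat_lit 424) (nat_lit 325) (nat_lit 271)))) (XT.nd (nat_lit 78) (nat_lit 0) (nat_lit 0) (XT.lf (nat_lit 0) (nat_lit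 48151811170659) (nat_lit 76) (nat_lit 5185590989588) (nat_lit 76) (nat_lit 5184924272248) (nat_lit 1) (nat_lit 4) (nat_lit 2) (nat_lit 5) (nat_lit 2) (nat_lit 4) (nat_lit 425) (nat_lit 325) (nat_lit 270)) (XT.nd (nat_lit 78) (nat_lit 0) (nat_lit 0) (XT.lf (nat_lit 0) (nat_lit 55405719552184) (nat_lit 76) (nat_lit 5947210584932) (nat_lit 76) (nat_lit 5946543827676) (nat_lit 1) (nat_lit 4) (nat_lit 2) (nat_lit 5) (nat_lit 2) (nat_lit 4) (nat_lit 426) (nat_lit 325) (nat_lit 269)) (XT.lf (nat_lit 0) (nat_lit 63747710710345) (nat_lit 76) (nat_lit 6823074921428) (nat_lit 76) (nat_lit 6822408129462) (nat_lit 1) (nat_lit 4) (nat_lit 2) (nat_lit 5) (nat_lit 2) (nat_lit 4) (nat_lit 427) (nat_lit 325) (nat_lit 268))))))))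
noncomputable def xc21 : XT := (XT.nd (nat_lit 1638) (nat_lit 0) (nat_lit 0) (XT.nd (nat_lit 780) (nat_lit 304) (nat_lit 0) (XT.nd (nat_lit 390) (nat_lit 456) (nat_lit 0) (XT.nd (nat_lit 156) (nat_lit 380) (nat_lit 0) (XT.nd (nat_lit 78) (nat_lit 76) (nat_lit 0) (XT.lf (nat_lit 0) (nat_lit 1916505037) (nat_lit 152) (nat_lit 12061781963) (nat_lit 0) (nat_lit 1916505037) (nat_lit 17) (nat_lit 5) (nat_lit 19) (nat_lit 4) (nat_lit 17) (nat_lit 4) (nat_lit 368) (nat_lit 326) (nat_lit 326)) (XT.lf (nat_lit 0) (nat_lit 18235924566) (nat_lit 76) (nat_lit 8340994519) (nat_lit 76) (nat_lit 8193983095) (nat_lit 16) (nat_lit 4) (nat_lit 17) (nat_lit 5) (nat_lit 17) (nat_lit 4) (nat_lit 369) (nat_lit 326) (nat_lit 325))) (XT.nd (nat_lit 78) (nat_lit 228) (nat_lit 0) (XT.lf (nat_lit 0) (nat_lit 13505403442) (nat_lit 152) (nat_lit 11439191600) (nat_lit 0) (nat_lit 13250915067) (nat_lit 14) (nat_lit 5) (nat_lit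 16) (nat_lit 4) (nat_lit 14) (nat_lit 4) (nat_lit 370) (nat_lit 326) (nat_lit 324)) (XT.nd (nat_lit 78) (nat_lit 152) (nat_lit 0) (XT.lf (nat_lit 0) (nat_lit 32727536696) (nat_lit 76) (nat_lit 4887704907) (nat_lit 76) (nat_lit 4530288979) (nat_lit 13) (nat_lit 4) (nat_lit 14) (nat_lit 5) (nat_lit 14) (nat_lit 4) (nat_lit 371) (nat_lit 326) (nat_lit 323)) (XT.lf (nat_lit 0) (nat_lit 17573836027) (nat_lit 152) (nat_lit 11930033423) (nat_lit 0) (nat_lit 17160022926) (nat_lit 11) (nat_lit 5) (nat_lit 13) (nat_lit 4) (nat_lit 11) (nat_lit 4) (nat_lit 372) (nat_lit 326) (nat_lit 322))))) (XT.nd (nat_lit 156) (nat_lit 228) (nat_lit 0) (XT.nd (nat_lit 78) (nat_lit 152) (nat_lit 0) (XT.lf (nat_lit 0) (nat_lit 32151193693) (nat_lit 76) (nat_lit 10111159789) (nat_lit 76) (nat_lit 9625283710) (nat_lit 10) (nat_lit 4) (nat_lit 11) (nat_lit 5) (nat_lit 11) (nat_lit 4) (nat_lit 373) (nat_lit 326) (nat_lit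 321)) (XT.lf (nat_lit 0) (nat_lit 11764572969) (nat_lit 152) (nat_lit 34877668221) (nat_lit 0) (nat_lit 11256665988) (nat_lit 8) (nat_lit 5) (nat_lit 10) (nat_lit 4) (nat_lit 8) (nat_lit 4) (nat_lit 374) (nat_lit 326) (nat_lit 320))) (XT.nd (nat_lit 78) (nat_lit 152) (nat_lit 0) (XT.lf (nat_lit 0) (nat_lit 5299396328) (nat_lit 76) (nat_lit 30043423567) (nat_lit 76) (nat_lit 29485062915) (nat_lit 7) (nat_lit 4) (nat_lit 8) (nat_lit 5) (nat_lit 8) (nat_lit 4) (nat_lit 375) (nat_lit 326) (nat_lit 319)) (XT.nd (nat_lit 78) (nat_lit 152) (nat_lit 0) (XT.lf (nat_lit 0) (nat_lit 50844538570) (nat_lit 76) (nat_lit 11289886115) (nat_lit 76) (nat_lit 10687652705) (nat_lit 7) (nat_lit 4) (nat_lit 8) (nat_lit 5) (nat_lit 8) (nat_lit 4) (nat_lit 376) (nat_lit 326) (nat_lit 318)) (XT.lf (nat_lit 0) (nat_lit 9891242192) (nat_lit 152) (nat_lit 62844149927) (nat_lit 0) (nat_lit 9298294382) (nat_lit 5) (nat_lit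 5) (nat_lit 7) (nat_lit 4) (nat_lit 5) (nat_lit 4) (nat_lit 377) (nat_lit 326) (nat_lit 317)))))) (XT.nd (nat_lit 390) (nat_lit 76) (nat_lit 0) (XT.nd (nat_lit 156) (nat_lit 152) (nat_lit 0) (XT.nd (nat_lit 78) (nat_lit 76) (nat_lit 0) (XT.lf (nat_lit 0) (nat_lit 32789678405) (nat_lit 152) (nat_lit 27659895396) (nat_lit 0) (nat_lit 32166013828) (nat_lit 5) (nat_lit 5) (nat_lit 7) (nat_lit 4) (nat_lit 5) (nat_lit 4) (nat_lit 378) (nat_lit 326) (nat_lit 316)) (XT.lf (nat_lit 0) (nat_lit 11350537205) (nat_lit 76) (nat_lit 47070384778) (nat_lit 76) (nat_lit 46420009970) (nat_lit 4) (nat_lit 4) (nat_lit 5) (nat_lit 5) (nat_lit 5) (nat_lit 4) (nat_lit 379) (nat_lit 326) (nat_lit 315))) (XT.nd (nat_lit 78) (nat_lit 152) (nat_lit 0) (XT.lf (nat_lit 0) (nat_lit 56039194281) (nat_lit 76) (nat_lit 31770720466) (nat_lit 76) (nat_lit 31097119369) (nat_lit 4) (nat_lit 4) (nat_lit 5) (nat_lit 5) (nat_lit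 5) (nat_lit 4) (nat_lit 380) (nat_lit 326) (nat_lit 314)) (XT.nd (nat_lit 78) (nat_lit 152) (nat_lit 0) (XT.lf (nat_lit 0) (nat_lit 105823898047) (nat_lit 76) (nat_lit 15007510165) (nat_lit 76) (nat_lit 14313712295) (nat_lit 4) (nat_lit 4) (nat_lit 5) (nat_lit 5) (nat_lit 5) (nat_lit 4) (nat_lit 381) (nat_lit 326) (nat_lit 313)) (XT.lf (nat_lit 0) (nat_lit 4333609664) (nat_lit 152) (nat_lit 145833102178) (nat_lit 0) (nat_lit 3674942737) (nat_lit 2) (nat_lit 5) (nat_lit 4) (nat_lit 4) (nat_lit 2) (nat_lit 4) (nat_lit 382) (nat_lit 326) (nat_lit 312))))) (XT.nd (nat_lit 234) (nat_lit 76) (nat_lit 0) (XT.nd (nat_lit 78) (nat_lit 0) (nat_lit 0) (XT.lf (nat_lit 0) (nat_lit 25595698810) (nat_lit 152) (nat_lit 124741120419) (nat_lit 0) (nat_lit 24922891455) (nat_lit 2) (nat_lit 5) (nat_lit 4) (nat_lit 4) (nat_lit 2) (nat_lit 4) (nat_lit 383) (nat_lit 326) (nat_lit 311)) (XT.nd (nat_lit 78) (nat_lit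 0) (nat_lit 0) (XT.lf (nat_lit 0) (nat_lit 49482061224) (nat_lit 152) (nat_lit 101656659980) (nat_lit 0) (nat_lit 48796957845) (nat_lit 2) (nat_lit 5) (nat_lit 4) (nat_lit 4) (nat_lit 2) (nat_lit 4) (nat_lit 384) (nat_lit 326) (nat_lit 310)) (XT.lf (nat_lit 0) (nat_lit 76460038779) (nat_lit 152) (nat_lit 76128068375) (nat_lit 0) (nat_lit 75764243206) (nat_lit 2) (nat_lit 5) (nat_lit 4) (nat_lit 4) (nat_lit 2) (nat_lit 4) (nat_lit 385) (nat_lit 326) (nat_lit 309)))) (XT.nd (nat_lit 78) (nat_lit 76) (nat_lit 0) (XT.lf (nat_lit 0) (nat_lit 107057461472) (nat_lit 152) (nat_lit 47655873159) (nat_lit 0) (nat_lit 106352368338) (nat_lit 2) (nat_lit 5) (nat_lit 4) (nat_lit 4) (nat_lit 2) (nat_lit 4) (nat_lit 386) (nat_lit 326) (nat_lit 308)) (XT.nd (nat_lit 78) (nat_lit 76) (nat_lit 0) (XT.lf (nat_lit 0) (nat_lit 141872974528) (nat_lit 152) (nat_lit 15683009643) (nat_lit 0) (nat_lit 141159796559) (nat_lit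 2) (nat_lit 5) (nat_lit 4) (nat_lit 4) (nat_lit 2) (nat_lit 4) (nat_lit 387) (nat_lit 326) (nat_lit 307)) (XT.lf (nat_lit 0) (nat_lit 21491152694) (nat_lit 76) (nat_lit 160613461074) (nat_lit 76) (nat_lit 159893252813) (nat_lit 1) (nat_lit 4) (nat_lit 2) (nat_lit 5) (nat_lit 2) (nat_lit 4) (nat_lit 388) (nat_lit 326) (nat_lit 306))))))) (XT.nd (nat_lit 780) (nat_lit 0) (nat_lit 0) (XT.nd (nat_lit 390) (nat_lit 0) (nat_lit 0) (XT.nd (nat_lit 156) (nat_lit 0) (nat_lit 0) (XT.nd (nat_lit 78) (nat_lit 0) (nat_lit 0) (XT.lf (nat_lit 0) (nat_lit 64578136810) (nat_lit 76) (nat_lit 163953788145) (nat_lit 76) (nat_lit 163227466587) (nat_lit 1) (nat_lit 4) (nat_lit 2) (nat_lit 5) (nat_lit 2) (nat_lit 4) (nat_lit 389) (nat_lit 326) (nat_lit 305)) (XT.lf (nat_lit 0) (nat_lit 113595109420) (nat_lit 76) (nat_lit 168071120886) (nat_lit 76) (nat_lit 167339483417) (nat_lit 1) (nat_lit 4) (nat_lit 2) (nat_lit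 5) (nat_lit 2) (nat_lit 4) (nat_lit 390) (nat_lit 326) (nat_lit 304))) (XT.nd (nat_lit 78) (nat_lit 0) (nat_lit 0) (XT.lf (nat_lit 0) (nat_lit 169501098248) (nat_lit 76) (nat_lit 173046015807) (nat_lit 76) (nat_lit 172309755808) (nat_lit 1) (nat_lit 4) (nat_lit 2) (nat_lit 5) (nat_lit 2) (nat_lit 4) (nat_lit 391) (nat_lit 326) (nat_lit 303)) (XT.nd (nat_lit 78) (nat_lit 0) (nat_lit 0) (XT.lf (nat_lit 0) (nat_lit 233389916119) (nat_lit 76) (nat_lit 178975807809) (nat_lit 76) (nat_lit 178235528218) (nat_lit 1) (nat_lit 4) (nat_lit 2) (nat_lit 5) (nat_lit 2) (nat_lit 4) (nat_lit 392) (nat_lit 326) (nat_lit 302)) (XT.lf (nat_lit 0) (nat_lit 306511561644) (nat_lit 76) (nat_lit 185976514562) (nat_lit 76) (nat_lit 185232739674) (nat_lit 1) (nat_lit 4) (nat_lit 2) (nat_lit 5) (nat_lit 2) (nat_lit 4) (nat_lit 393) (nat_lit 326) (nat_lit 301))))) (XT.nd (nat_lit 156) (nat_lit 0) (nat_lit 0) (XT.nd (nat_lit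 78) (nat_lit 0) (nat_lit 0) (XT.lf (nat_lit 0) (nat_lit 390296675714) (nat_lit 76) (nat_lit 194185106415) (nat_lit 76) (nat_lit 193438292138) (nat_lit 1) (nat_lit 4) (nat_lit 2) (nat_lit 5) (nat_lit 2) (nat_lit 4) (nat_lit 394) (nat_lit 326) (nat_lit 300)) (XT.lf (nat_lit 0) (nat_lit 486384532299) (nat_lit 76) (nat_lit 203762186252) (nat_lit 76) (nat_lit 203012729028) (nat_lit 1) (nat_lit 4) (nat_lit 2) (nat_lit 5) (nat_lit 2) (nat_lit 4) (nat_lit 395) (nat_lit 326) (nat_lit 299))) (XT.nd (nat_lit 78) (nat_lit 0) (nat_lit 0) (XT.lf (nat_lit 0) (nat_lit 596655111202) (nat_lit 76) (nat_lit 214895131723) (nat_lit 76) (nat_lit 214143376283) (nat_lit 1) (nat_lit 4) (nat_lit 2) (nat_lit 5) (nat_lit 2) (nat_lit 4) (nat_lit 396) (nat_lit 326) (nat_lit 298)) (XT.nd (nat_lit 78) (nat_lit 0) (nat_lit 0) (XT.lf (nat_lit 0) (nat_lit 723265880272) (nat_lit 76) (nat_lit 227801761324) (nat_lit 76) (nat_lit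 227048007437) (nat_lit 1) (nat_lit 4) (nat_lit 2) (nat_lit 5) (nat_lit 2) (nat_lit 4) (nat_lit 397) (nat_lit 326) (nat_lit 297)) (XT.lf (nat_lit 0) (nat_lit 868694006728) (nat_lit 76) (nat_lit 242734596072) (nat_lit 76) (nat_lit 241979104404) (nat_lit 1) (nat_lit 4) (nat_lit 2) (nat_lit 5) (nat_lit 2) (nat_lit 4) (nat_lit 398) (nat_lit 326) (nat_lit 296)))))) (XT.nd (nat_lit 390) (nat_lit 0) (nat_lit 0) (XT.nd (nat_lit 156) (nat_lit 0) (nat_lit 0) (XT.nd (nat_lit 78) (nat_lit 0) (nat_lit 0) (XT.lf (nat_lit 0) (nat_lit 1035784823482) (nat_lit 76) (nat_lit 259985800122) (nat_lit 76) (nat_lit 259228797341) (nat_lit 1) (nat_lit 4) (nat_lit 2) (nat_lit 5) (nat_lit 2) (nat_lit 4) (nat_lit 399) (nat_lit 326) (nat_lit 295)) (XT.lf (nat_lit 0) (nat_lit 1227807498685) (nat_lit 76) (nat_lit 279892897034) (nat_lit 76) (nat_lit 279134580241) (nat_lit 1) (nat_lit 4) (nat_lit 2) (nat_lit 5) (nat_lit 2) (nat_lit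 4) (nat_lit 400) (nat_lit 326) (nat_lit 294))) (XT.nd (nat_lit 78) (nat_lit 0) (nat_lit 0) (XT.lf (nat_lit 0) (nat_lit 1448518997722) (nat_lit 76) (nat_lit 302845373486) (nat_lit 76) (nat_lit 302085914074) (nat_lit 1) (nat_lit 4) (nat_lit 2) (nat_lit 5) (nat_lit 2) (nat_lit 4) (nat_lit 401) (nat_lit 326) (nat_lit 293)) (XT.nd (nat_lit 78) (nat_lit 0) (nat_lit 0) (XT.lf (nat_lit 0) (nat_lit 1702237589054) (nat_lit 76) (nat_lit 329292299668) (nat_lit 76) (nat_lit 328531846675) (nat_lit 1) (nat_lit 4) (nat_lit 2) (nat_lit 5) (nat_lit 2) (nat_lit 4) (nat_lit 402) (nat_lit 326) (nat_lit 292)) (XT.lf (nat_lit 0) (nat_lit 1993927332075) (nat_lit 76) (nat_lit 359751115442) (nat_lit 76) (nat_lit 358989798465) (nat_lit 1) (nat_lit 4) (nat_lit 2) (nat_lit 5) (nat_lit 2) (nat_lit 4) (nat_lit 403) (nat_lit 326) (nat_lit 291))))) (XT.nd (nat_lit 234) (nat_lit 0) (nat_lit 0) (XT.nd (nat_lit 78) (nat_lit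 0) (nat_lit 0) (XT.lf (nat_lit 0) (nat_lit 2329295200019) (nat_lit 76) (nat_lit 394817754160) (nat_lit 76) (nat_lit 394055685892) (nat_lit 1) (nat_lit 4) (nat_lit 2) (nat_lit 5) (nat_lit 2) (nat_lit 4) (nat_lit 404) (nat_lit 326) (nat_lit 290)) (XT.nd (nat_lit 78) (nat_lit 0) (nat_lit 0) (XT.lf (nat_lit 0) (nat_lit 2714902738127) (nat_lit 76) (nat_lit 435178302230) (nat_lit 76) (nat_lit 434415580666) (nat_lit 1) (nat_lit 4) (nat_lit 2) (nat_lit 5) (nat_lit 2) (nat_lit 4) (nat_lit 405) (nat_lit 326) (nat_lit 289)) (XT.lf (nat_lit 0) (nat_lit 3158294441712) (nat_lit 76) (nat_lit 481622422551) (nat_lit 76) (nat_lit 480859132903) (nat_lit 1) (nat_lit 4) (nat_lit 2) (nat_lit 5) (nat_lit 2) (nat_lit 4) (nat_lit 406) (nat_lit 326) (nat_lit 288)))) (XT.nd (nat_lit 78) (nat_lit 0) (nat_lit 0) (XT.lf (nat_lit 0) (nat_lit 3668145365842) (nat_lit 76) (nat_lit 535058804432) (nat_lit 76) (nat_lit 534295020799)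 (nat_lit 1) (nat_lit 4) (nat_lit 2) (nat_lit 5) (nat_lit 2) (nat_lit 4) (nat_lit 407) (nat_lit 326) (nat_lit 287)) (XT.nd (nat_lit 78) (nat_lit 0) (nat_lit 0) (XT.lf (nat_lit 0) (nat_lit 4254430854686) (nat_lit 76) (nat_lit 596532942302) (nat_lit 76) (nat_lit 595768729116) (nat_lit 1) (nat_lit 4) (nat_lit 2) (nat_lit 5) (nat_lit 2) (nat_lit 4) (nat_lit 408) (nat_lit 326) (nat_lit 286)) (XT.lf (nat_lit 0) (nat_lit 4928621711286) (nat_lit 76) (nat_lit 667247591033) (nat_lit 76) (nat_lit 666483004322) (nat_lit 1) (nat_lit 4) (nat_lit 2) (nat_lit 5) (nat_lit 2) (nat_lit 4) (nat_lit 409) (nat_lit 326) (nat_lit 285))))))))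
noncomputable def xc22 : XT := (XT.nd (nat_lit 49920) (nat_lit 0) (nat_lit 0) (XT.nd (nat_lit 780) (nat_lit 0) (nat_lit 0) (XT.nd (nat_lit 390) (nat_lit 0) (nat_lit 0) (XT.nd (nat_lit 156) (nat_lit 0) (nat_lit 0) (XT.nd (nat_lit 78) (nat_lit 0) (nat_lit 0) (XT.lf (nat_lit 0) (nat_lit 5703908626315) (nat_lit 76) (nat_lit 748586298098) (nat_lit 76) (nat_lit 747821386584) (nat_lit 1) (nat_lit 4) (nat_lit 2) (nat_lit 5) (nat_lit 2) (nat_lit 4) (nat_lit 410) (nat_lit 326) (nat_lit 284)) (XT.lf (nat_lit 0) (nat_lit 6595460256806) (nat_lit 76) (nat_lit 842140472986) (nat_lit 76) (nat_lit 841375279034) (nat_lit 1) (nat_lit 4) (nat_lit 2) (nat_lit 5) (nat_lit 2) (nat_lit 4) (nat_lit 411) (nat_lit 326) (nat_lit 283))) (XT.nd (nat_lit 78) (nat_lit 0) (nat_lit 0) (XT.lf (nat_lit 0) (nat_lit 7620720004225) (nat_lit 76) (nat_lit 949740523464) (nat_lit 76) (nat_lit 948975083914) (nat_lit 1) (nat_lit 4) (nat_lit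 2) (nat_lit 5) (nat_lit 2) (nat_lit 4) (nat_lit 412) (nat_lit 326) (nat_lit 282)) (XT.nd (nat_lit 78) (nat_lit 0) (nat_lit 0) (XT.lf (nat_lit 0) (nat_lit 8799747298413) (nat_lit 76) (nat_lit 1073491667912) (nat_lit 76) (nat_lit 1072726014798) (nat_lit 1) (nat_lit 4) (nat_lit 2) (nat_lit 5) (nat_lit 2) (nat_lit 4) (nat_lit 413) (nat_lit 326) (nat_lit 281)) (XT.lf (nat_lit 0) (nat_lit 10155610064691) (nat_lit 76) (nat_lit 1215815124373) (nat_lit 76) (nat_lit 1215049285552) (nat_lit 1) (nat_lit 4) (nat_lit 2) (nat_lit 5) (nat_lit 2) (nat_lit 4) (nat_lit 414) (nat_lit 326) (nat_lit 280))))) (XT.nd (nat_lit 156) (nat_lit 0) (nat_lit 0) (XT.nd (nat_lit 78) (nat_lit 0) (nat_lit 0) (XT.lf (nat_lit 0) (nat_lit 11714836052834) (nat_lit 76) (nat_lit 1379495482214) (nat_lit 76) (nat_lit 1378729481908) (nat_lit 1) (nat_lit 4) (nat_lit 2) (nat_lit 5) (nat_lit 2) (nat_lit 4) (nat_lit 415) (nat_lit 326) (nat_lit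 279)) (XT.lf (nat_lit 0) (nat_lit 13507931858263) (nat_lit 76) (nat_lit 1567735183217) (nat_lit 76) (nat_lit 1566969042490) (nat_lit 1) (nat_lit 4) (nat_lit 2) (nat_lit 5) (nat_lit 2) (nat_lit 4) (nat_lit 416) (nat_lit 326) (nat_lit 278))) (XT.nd (nat_lit 78) (nat_lit 0) (nat_lit 0) (XT.lf (nat_lit 0) (nat_lit 15569979790213) (nat_lit 76) (nat_lit 1784217178055) (nat_lit 76) (nat_lit 1783450915222) (nat_lit 1) (nat_lit 4) (nat_lit 2) (nat_lit 5) (nat_lit 2) (nat_lit 4) (nat_lit 417) (nat_lit 326) (nat_lit 277)) (XT.nd (nat_lit 78) (nat_lit 0) (nat_lit 0) (XT.lf (nat_lit 0) (nat_lit 17941324264745) (nat_lit 76) (nat_lit 2033176984018) (nat_lit 76) (nat_lit 2032410615006) (nat_lit 1) (nat_lit 4) (nat_lit 2) (nat_lit 5) (nat_lit 2) (nat_lit 4) (nat_lit 418) (nat_lit 326) (nat_lit 276)) (XT.lf (nat_lit 0) (nat_lit 20668361152012) (nat_lit 76) (nat_lit 2319485553831) (nat_lit 76) (nat_lit 2318719092490)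 (nat_lit 1) (nat_lit 4) (nat_lit 2) (nat_lit 5) (nat_lit 2) (nat_lit 4) (nat_lit 419) (nat_lit 326) (nat_lit 275)))))) (XT.nd (nat_lit 390) (nat_lit 0) (nat_lit 0) (XT.nd (nat_lit 156) (nat_lit 0) (nat_lit 0) (XT.nd (nat_lit 78) (nat_lit 0) (nat_lit 0) (XT.lf (nat_lit 0) (nat_lit 23804445521549) (nat_lit 76) (nat_lit 2648744576904) (nat_lit 76) (nat_lit 2647978035276) (nat_lit 1) (nat_lit 4) (nat_lit 2) (nat_lit 5) (nat_lit 2) (nat_lit 4) (nat_lit 420) (nat_lit 326) (nat_lit 274)) (XT.lf (nat_lit 0) (nat_lit 27410935545803) (nat_lit 76) (nat_lit 3027396077602) (nat_lit 76) (nat_lit 3026629466159) (nat_lit 1) (nat_lit 4) (nat_lit 2) (nat_lit 5) (nat_lit 2) (nat_lit 4) (nat_lit 421) (nat_lit 326) (nat_lit 273))) (XT.nd (nat_lit 78) (nat_lit 0) (nat_lit 0) (XT.lf (nat_lit 0) (nat_lit 31558392986117) (nat_lit 76) (nat_lit 3462848454850) (nat_lit 76) (nat_lit 3462081782699) (nat_lit 1) (nat_lit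 4) (nat_lit 2) (nat_lit 5) (nat_lit 2) (nat_lit 4) (nat_lit 422) (nat_lit 326) (nat_lit 272)) (XT.nd (nat_lit 78) (nat_lit 0) (nat_lit 0) (XT.lf (nat_lit 0) (nat_lit 36327963748933) (nat_lit 76) (nat_lit 3963621429073) (nat_lit 76) (nat_lit 3962854704132) (nat_lit 1) (nat_lit 4) (nat_lit 2) (nat_lit 5) (nat_lit 2) (nat_lit 4) (nat_lit 423) (nat_lit 326) (nat_lit 271)) (XT.lf (nat_lit 0) (nat_lit 41812965523088) (nat_lit 76) (nat_lit 4539512732376) (nat_lit 76) (nat_lit 4538745961531) (nat_lit 1) (nat_lit 4) (nat_lit 2) (nat_lit 5) (nat_lit 2) (nat_lit 4) (nat_lit 424) (nat_lit 326) (nat_lit 270))))) (XT.nd (nat_lit 48516) (nat_lit 0) (nat_lit 1216) (XT.nd (nat_lit 78) (nat_lit 0) (nat_lit 0) (XT.lf (nat_lit 0) (nat_lit 48120713560685) (nat_lit 76) (nat_lit 5201789803301) (nat_lit 76) (nat_lit 5201022992540) (nat_lit 1) (nat_lit 4) (nat_lit 2) (nat_lit 5) (nat_lit 2) (nat_lit 4) (nat_lit 425)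 (nat_lit 326) (nat_lit 269)) (XT.nd (nat_lit 78) (nat_lit 0) (nat_lit 0) (XT.lf (nat_lit 0) (nat_lit 55374620323330) (nat_lit 76) (nat_lit 5963410236715) (nat_lit 76) (nat_lit 5962643391244) (nat_lit 1) (nat_lit 4) (nat_lit 2) (nat_lit 5) (nat_lit 2) (nat_lit 4) (nat_lit 426) (nat_lit 326) (nat_lit 268)) (XT.lf (nat_lit 0) (nat_lit 63716610073770) (nat_lit 76) (nat_lit 6839275301967) (nat_lit 76) (nat_lit 6838508426313) (nat_lit 1) (nat_lit 4) (nat_lit 2) (nat_lit 5) (nat_lit 2) (nat_lit 4) (nat_lit 427) (nat_lit 326) (nat_lit 267)))) (XT.nd (nat_lit 78) (nat_lit 380) (nat_lit 0) (XT.lf (nat_lit 0) (nat_lit 5828573564) (nat_lit 76) (nat_lit 3788376850) (nat_lit 76) (nat_lit 3788376850) (nat_lit 22) (nat_lit 4) (nat_lit 23) (nat_lit 5) (nat_lit 23) (nat_lit 4) (nat_lit 366) (nat_lit 327) (nat_lit 327)) (XT.nd (nat_lit 78) (nat_lit 228) (nat_lit 0) (XT.lf (nat_lit 0) (nat_lit 12482215658) (nat_lit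 152) (nat_lit 4389510352) (nat_lit 0) (nat_lit 12299627470) (nat_lit 20) (nat_lit 5) (nat_lit 22) (nat_lit 4) (nat_lit 20) (nat_lit 4) (nat_lit 367) (nat_lit 327) (nat_lit 326)) (XT.lf (nat_lit 0) (nat_lit 3006643839) (nat_lit 152) (nat_lit 26172008848) (nat_lit 0) (nat_lit 2690569277) (nat_lit 17) (nat_lit 5) (nat_lit 19) (nat_lit 4) (nat_lit 17) (nat_lit 4) (nat_lit 368) (nat_lit 327) (nat_lit 325))))))) (XT.nd (nat_lit 780) (nat_lit 304) (nat_lit 0) (XT.nd (nat_lit 390) (nat_lit 380) (nat_lit 0) (XT.nd (nat_lit 156) (nat_lit 304) (nat_lit 0) (XT.nd (nat_lit 78) (nat_lit 152) (nat_lit 0) (XT.lf (nat_lit 0) (nat_lit 14204557903) (nat_lit 76) (nat_lit 10583449722) (nat_lit 76) (nat_lit 10139539140) (nat_lit 16) (nat_lit 4) (nat_lit 17) (nat_lit 5) (nat_lit 17) (nat_lit 4) (nat_lit 369) (nat_lit 327) (nat_lit 324)) (XT.lf (nat_lit 0) (nat_lit 10617825579) (nat_lit 152) (nat_lit 17717352849)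 (nat_lit 0) (nat_lit 10103869708) (nat_lit 14) (nat_lit 5) (nat_lit 16) (nat_lit 4) (nat_lit 14) (nat_lit 4) (nat_lit 370) (nat_lit 327) (nat_lit 323))) (XT.nd (nat_lit 78) (nat_lit 228) (nat_lit 0) (XT.lf (nat_lit 0) (nat_lit 24463848099) (nat_lit 76) (nat_lit 9302781734) (nat_lit 76) (nat_lit 8699323644) (nat_lit 13) (nat_lit 4) (nat_lit 14) (nat_lit 5) (nat_lit 14) (nat_lit 4) (nat_lit 371) (nat_lit 327) (nat_lit 322)) (XT.nd (nat_lit 78) (nat_lit 76) (nat_lit 0) (XT.lf (nat_lit 0) (nat_lit 12511953277) (nat_lit 152) (nat_lit 22687364158) (nat_lit 0) (nat_lit 11881132807) (nat_lit 11) (nat_lit 5) (nat_lit 13) (nat_lit 4) (nat_lit 11) (nat_lit 4) (nat_lit 372) (nat_lit 327) (nat_lit 321)) (XT.lf (nat_lit 0) (nat_lit 19366970922) (nat_lit 76) (nat_lit 16854514212) (nat_lit 76) (nat_lit 16161030281) (nat_lit 10) (nat_lit 4) (nat_lit 11) (nat_lit 5) (nat_lit 11) (nat_lit 4) (nat_lit 373) (nat_lit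 327) (nat_lit 320))))) (XT.nd (nat_lit 156) (nat_lit 228) (nat_lit 0) (XT.nd (nat_lit 78) (nat_lit 0) (nat_lit 0) (XT.lf (nat_lit 0) (nat_lit 4368216871) (nat_lit 152) (nat_lit 50457500408) (nat_lit 0) (nat_lit 3675648450) (nat_lit 8) (nat_lit 5) (nat_lit 10) (nat_lit 4) (nat_lit 8) (nat_lit 4) (nat_lit 374) (nat_lit 327) (nat_lit 319)) (XT.lf (nat_lit 0) (nat_lit 27227304937) (nat_lit 152) (nat_lit 11769706431) (nat_lit 0) (nat_lit 26490863757) (nat_lit 8) (nat_lit 5) (nat_lit 10) (nat_lit 4) (nat_lit 8) (nat_lit 4) (nat_lit 375) (nat_lit 327) (nat_lit 318))) (XT.nd (nat_lit 78) (nat_lit 152) (nat_lit 0) (XT.lf (nat_lit 0) (nat_lit 32035110795) (nat_lit 76) (nat_lit 21144353436) (nat_lit 76) (nat_lit 20369762032) (nat_lit 7) (nat_lit 4) (nat_lit 8) (nat_lit 5) (nat_lit 8) (nat_lit 4) (nat_lit 376) (nat_lit 327) (nat_lit 317)) (XT.nd (nat_lit 78) (nat_lit 152) (nat_lit 0) (XT.lf (nat_lit 0)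 (nat_lit 81028441110) (nat_lit 76) (nat_lit 1326339757) (nat_lit 76) (nat_lit 518574245) (nat_lit 7) (nat_lit 4) (nat_lit 8) (nat_lit 5) (nat_lit 8) (nat_lit 4) (nat_lit 377) (nat_lit 327) (nat_lit 316)) (XT.lf (nat_lit 0) (nat_lit 21872524916) (nat_lit 152) (nat_lit 50528508311) (nat_lit 0) (nat_lit 21097883654) (nat_lit 5) (nat_lit 5) (nat_lit 7) (nat_lit 4) (nat_lit 5) (nat_lit 4) (nat_lit 378) (nat_lit 327) (nat_lit 315)))))) (XT.nd (nat_lit 390) (nat_lit 76) (nat_lit 0) (XT.nd (nat_lit 156) (nat_lit 152) (nat_lit 0) (XT.nd (nat_lit 78) (nat_lit 76) (nat_lit 0) (XT.lf (nat_lit 0) (nat_lit 46836474856) (nat_lit 152) (nat_lit 12902563092) (nat_lit 0) (nat_lit 46038607306) (nat_lit 5) (nat_lit 5) (nat_lit 7) (nat_lit 4) (nat_lit 5) (nat_lit 4) (nat_lit 379) (nat_lit 327) (nat_lit 314)) (XT.lf (nat_lit 0) (nat_lit 30359108865) (nat_lit 76) (nat_lit 45178851953) (nat_lit 76) (nat_lit 44360787630)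 (nat_lit 4) (nat_lit 4) (nat_lit 5) (nat_lit 5) (nat_lit 5) (nat_lit 4) (nat_lit 380) (nat_lit 327) (nat_lit 313))) (XT.nd (nat_lit 78) (nat_lit 152) (nat_lit 0) (XT.lf (nat_lit 0) (nat_lit 79493761318) (nat_lit 76) (nat_lit 28751901978) (nat_lit 76) (nat_lit 27916275244) (nat_lit 4) (nat_lit 4) (nat_lit 5) (nat_lit 5) (nat_lit 5) (nat_lit 4) (nat_lit 381) (nat_lit 327) (nat_lit 312)) (XT.nd (nat_lit 78) (nat_lit 152) (nat_lit 0) (XT.lf (nat_lit 0) (nat_lit 134783298315) (nat_lit 76) (nat_lit 10489570117) (nat_lit 76) (nat_lit 9638671721) (nat_lit 4) (nat_lit 4) (nat_lit 5) (nat_lit 5) (nat_lit 5) (nat_lit 4) (nat_lit 382) (nat_lit 327) (nat_lit 311)) (XT.lf (nat_lit 0) (nat_lit 11067687579) (nat_lit 152) (nat_lit 155095962747) (nat_lit 0) (nat_lit 10267522670) (nat_lit 2) (nat_lit 5) (nat_lit 4) (nat_lit 4) (nat_lit 2) (nat_lit 4) (nat_lit 383) (nat_lit 327) (nat_lit 310))))) (XT.nd (nat_lit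 234) (nat_lit 76) (nat_lit 0) (XT.nd (nat_lit 78) (nat_lit 0) (nat_lit 0) (XT.lf (nat_lit 0) (nat_lit 34725520123) (nat_lit 152) (nat_lit 132485240866) (nat_lit 0) (nat_lit 33914663019) (nat_lit 2) (nat_lit 5) (nat_lit 4) (nat_lit 4) (nat_lit 2) (nat_lit 4) (nat_lit 384) (nat_lit 327) (nat_lit 309)) (XT.nd (nat_lit 78) (nat_lit 0) (nat_lit 0) (XT.lf (nat_lit 0) (nat_lit 61504776053) (nat_lit 152) (nat_lit 107368595833) (nat_lit 0) (nat_lit 60684621388) (nat_lit 2) (nat_lit 5) (nat_lit 4) (nat_lit 4) (nat_lit 2) (nat_lit 4) (nat_lit 385) (nat_lit 327) (nat_lit 308)) (XT.lf (nat_lit 0) (nat_lit 91929397331) (nat_lit 152) (nat_lit 79254615027) (nat_lit 0) (nat_lit 91101157831) (nat_lit 2) (nat_lit 5) (nat_lit 4) (nat_lit 4) (nat_lit 2) (nat_lit 4) (nat_lit 386) (nat_lit 327) (nat_lit 307)))) (XT.nd (nat_lit 78) (nat_lit 76) (nat_lit 0) (XT.lf (nat_lit 0) (nat_lit 126594648288) (nat_lit 152) (nat_lit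 47593242303) (nat_lit 0) (nat_lit 125759378497) (nat_lit 2) (nat_lit 5) (nat_lit 4) (nat_lit 4) (nat_lit 2) (nat_lit 4) (nat_lit 387) (nat_lit 327) (nat_lit 306)) (XT.nd (nat_lit 78) (nat_lit 76) (nat_lit 0) (XT.lf (nat_lit 0) (nat_lit 166178762095) (nat_lit 152) (nat_lit 11765016021) (nat_lit 0) (nat_lit 165337379006) (nat_lit 2) (nat_lit 5) (nat_lit 4) (nat_lit 4) (nat_lit 2) (nat_lit 4) (nat_lit 388) (nat_lit 327) (nat_lit 305)) (XT.lf (nat_lit 0) (nat_lit 30454508724) (nat_lit 76) (nat_lit 181734133486) (nat_lit 76) (nat_lit 180887434487) (nat_lit 1) (nat_lit 4) (nat_lit 2) (nat_lit 5) (nat_lit 2) (nat_lit 4) (nat_lit 389) (nat_lit 327) (nat_lit 304))))))))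
noncomputable def xc23 : XT := (XT.nd (nat_lit 1638) (nat_lit 0) (nat_lit 0) (XT.nd (nat_lit 780) (nat_lit 0) (nat_lit 0) (XT.nd (nat_lit 390) (nat_lit 0) (nat_lit 0) (XT.nd (nat_lit 156) (nat_lit 0) (nat_lit 0) (XT.nd (nat_lit 78) (nat_lit 0) (nat_lit 0) (XT.lf (nat_lit 0) (nat_lit 79255886137) (nat_lit 76) (nat_lit 185963076584) (nat_lit 76) (nat_lit 185111755055) (nat_lit 1) (nat_lit 4) (nat_lit 2) (nat_lit 5) (nat_lit 2) (nat_lit 4) (nat_lit 390) (nat_lit 327) (nat_lit 303)) (XT.lf (nat_lit 0) (nat_lit 134974400880) (nat_lit 76) (nat_lit 191035023991) (nat_lit 76) (nat_lit 190179682869) (nat_lit 1) (nat_lit 4) (nat_lit 2) (nat_lit 5) (nat_lit 2) (nat_lit 4) (nat_lit 391) (nat_lit 327) (nat_lit 302))) (XT.nd (nat_lit 78) (nat_lit 0) (nat_lit 0) (XT.lf (nat_lit 0) (nat_lit 198700197809) (nat_lit 76) (nat_lit 197049209458) (nat_lit 76) (nat_lit 196190373039) (nat_lit 1) (nat_lit 4) (nat_lit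 2) (nat_lit 5) (nat_lit 2) (nat_lit 4) (nat_lit 392) (nat_lit 327) (nat_lit 301)) (XT.nd (nat_lit 78) (nat_lit 0) (nat_lit 0) (XT.lf (nat_lit 0) (nat_lit 271680085992) (nat_lit 76) (nat_lit 204123301833) (nat_lit 76) (nat_lit 203261426025) (nat_lit 1) (nat_lit 4) (nat_lit 2) (nat_lit 5) (nat_lit 2) (nat_lit 4) (nat_lit 393) (nat_lit 327) (nat_lit 300)) (XT.lf (nat_lit 0) (nat_lit 355341932808) (nat_lit 76) (nat_lit 212395707270) (nat_lit 76) (nat_lit 211531188515) (nat_lit 1) (nat_lit 4) (nat_lit 2) (nat_lit 5) (nat_lit 2) (nat_lit 4) (nat_lit 394) (nat_lit 327) (nat_lit 299))))) (XT.nd (nat_lit 156) (nat_lit 0) (nat_lit 0) (XT.nd (nat_lit 78) (nat_lit 0) (nat_lit 0) (XT.lf (nat_lit 0) (nat_lit 451322600477) (nat_lit 76) (nat_lit 222028277181) (nat_lit 76) (nat_lit 221161460211) (nat_lit 1) (nat_lit 4) (nat_lit 2) (nat_lit 5) (nat_lit 2) (nat_lit 4) (nat_lit 395) (nat_lit 327) (nat_lit 298))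 (XT.lf (nat_lit 0) (nat_lit 561499971628) (nat_lit 76) (nat_lit 233209474889) (nat_lit 76) (nat_lit 232340659471) (nat_lit 1) (nat_lit 4) (nat_lit 2) (nat_lit 5) (nat_lit 2) (nat_lit 4) (nat_lit 396) (nat_lit 327) (nat_lit 297))) (XT.nd (nat_lit 78) (nat_lit 0) (nat_lit 0) (XT.lf (nat_lit 0) (nat_lit 688029690477) (nat_lit 76) (nat_lit 246158062958) (nat_lit 76) (nat_lit 245287509760) (nat_lit 1) (nat_lit 4) (nat_lit 2) (nat_lit 5) (nat_lit 2) (nat_lit 4) (nat_lit 397) (nat_lit 327) (nat_lit 296)) (XT.nd (nat_lit 78) (nat_lit 0) (nat_lit 0) (XT.lf (nat_lit 0) (nat_lit 833387338482) (nat_lit 76) (nat_lit 261127383329) (nat_lit 76) (nat_lit 260255319017) (nat_lit 1) (nat_lit 4) (nat_lit 2) (nat_lit 5) (nat_lit 2) (nat_lit 4) (nat_lit 398) (nat_lit 327) (nat_lit 295)) (XT.lf (nat_lit 0) (nat_lit 1000416869624) (nat_lit 76) (nat_lit 278410314009) (nat_lit 76) (nat_lit 277536935686) (nat_lit 1)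 (nat_lit 4) (nat_lit 2) (nat_lit 5) (nat_lit 2) (nat_lit 4) (nat_lit 399) (nat_lit 327) (nat_lit 294)))))) (XT.nd (nat_lit 390) (nat_lit 0) (nat_lit 0) (XT.nd (nat_lit 156) (nat_lit 0) (nat_lit 0) (XT.nd (nat_lit 78) (nat_lit 0) (nat_lit 0) (XT.lf (nat_lit 0) (nat_lit 1192386252992) (nat_lit 76) (nat_lit 298344999295) (nat_lit 76) (nat_lit 297470478352) (nat_lit 1) (nat_lit 4) (nat_lit 2) (nat_lit 5) (nat_lit 2) (nat_lit 4) (nat_lit 400) (nat_lit 327) (nat_lit 293)) (XT.lf (nat_lit 0) (nat_lit 1413051411303) (nat_lit 76) (nat_lit 321321465636) (nat_lit 76) (nat_lit 320445951112) (nat_lit 1) (nat_lit 4) (nat_lit 2) (nat_lit 5) (nat_lit 2) (nat_lit 4) (nat_lit 401) (nat_lit 327) (nat_lit 292))) (XT.nd (nat_lit 78) (nat_lit 0) (nat_lit 0) (XT.lf (nat_lit 0) (nat_lit 1666729706351) (nat_lit 76) (nat_lit 347789252593) (nat_lit 76) (nat_lit 346912874084) (nat_lit 1) (nat_lit 4) (nat_lit 2) (nat_lit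 5) (nat_lit 2) (nat_lit 4) (nat_lit 402) (nat_lit 327) (nat_lit 291)) (XT.nd (nat_lit 78) (nat_lit 0) (nat_lit 0) (XT.lf (nat_lit 0) (nat_lit 1958384409126) (nat_lit 76) (nat_lit 378266208170) (nat_lit 76) (nat_lit 377389078371) (nat_lit 1) (nat_lit 4) (nat_lit 2) (nat_lit 5) (nat_lit 2) (nat_lit 4) (nat_lit 403) (nat_lit 327) (nat_lit 290)) (XT.lf (nat_lit 0) (nat_lit 2293721807289) (nat_lit 76) (nat_lit 413348620630) (nat_lit 76) (nat_lit 412470837535) (nat_lit 1) (nat_lit 4) (nat_lit 2) (nat_lit 5) (nat_lit 2) (nat_lit 4) (nat_lit 404) (nat_lit 327) (nat_lit 289))))) (XT.nd (nat_lit 234) (nat_lit 0) (nat_lit 0) (XT.nd (nat_lit 78) (nat_lit 0) (nat_lit 0) (XT.lf (nat_lit 0) (nat_lit 2679302849937) (nat_lit 76) (nat_lit 453722884998) (nat_lit 76) (nat_lit 452844533819) (nat_lit 1) (nat_lit 4) (nat_lit 2) (nat_lit 5) (nat_lit 2) (nat_lit 4) (nat_lit 405) (nat_lit 327) (nat_lit 288)) (XT.nd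 (nat_lit 78) (nat_lit 0) (nat_lit 0) (XT.lf (nat_lit 0) (nat_lit 3122671513991) (nat_lit 76) (nat_lit 500178932533) (nat_lit 76) (nat_lit 499300087369) (nat_lit 1) (nat_lit 4) (nat_lit 2) (nat_lit 5) (nat_lit 2) (nat_lit 4) (nat_lit 406) (nat_lit 327) (nat_lit 287)) (XT.lf (nat_lit 0) (nat_lit 3632502403746) (nat_lit 76) (nat_lit 553625685906) (nat_lit 76) (nat_lit 552746411189) (nat_lit 1) (nat_lit 4) (nat_lit 2) (nat_lit 5) (nat_lit 2) (nat_lit 4) (nat_lit 407) (nat_lit 327) (nat_lit 286)))) (XT.nd (nat_lit 78) (nat_lit 0) (nat_lit 0) (XT.lf (nat_lit 0) (nat_lit 4218770471394) (nat_lit 76) (nat_lit 615108842465) (nat_lit 76) (nat_lit 614229194223) (nat_lit 1) (nat_lit 4) (nat_lit 2) (nat_lit 5) (nat_lit 2) (nat_lit 4) (nat_lit 408) (nat_lit 327) (nat_lit 285)) (XT.nd (nat_lit 78) (nat_lit 0) (nat_lit 0) (XT.lf (nat_lit 0) (nat_lit 4892946179129) (nat_lit 76) (nat_lit 685831333533) (nat_lit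 76) (nat_lit 684951360488) (nat_lit 1) (nat_lit 4) (nat_lit 2) (nat_lit 5) (nat_lit 2) (nat_lit 4) (nat_lit 409) (nat_lit 327) (nat_lit 284)) (XT.lf (nat_lit 0) (nat_lit 5668219921231) (nat_lit 76) (nat_lit 767176860022) (nat_lit 76) (nat_lit 766296604540) (nat_lit 1) (nat_lit 4) (nat_lit 2) (nat_lit 5) (nat_lit 2) (nat_lit 4) (nat_lit 410) (nat_lit 327) (nat_lit 283))))))) (XT.nd (nat_lit 780) (nat_lit 0) (nat_lit 0) (XT.nd (nat_lit 390) (nat_lit 0) (nat_lit 0) (XT.nd (nat_lit 156) (nat_lit 0) (nat_lit 0) (XT.nd (nat_lit 78) (nat_lit 0) (nat_lit 0) (XT.lf (nat_lit 0) (nat_lit 6559760097003) (nat_lit 76) (nat_lit 860736964843) (nat_lit 76) (nat_lit 859856463762) (nat_lit 1) (nat_lit 4) (nat_lit 2) (nat_lit 5) (nat_lit 2) (nat_lit 4) (nat_lit 411) (nat_lit 327) (nat_lit 282)) (XT.lf (nat_lit 0) (nat_lit 7585009883797) (nat_lit 76) (nat_lit 968342171786) (nat_lit 76) (nat_lit 967461457141) (nat_lit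 1) (nat_lit 4) (nat_lit 2) (nat_lit 5) (nat_lit 2) (nat_lit 4) (nat_lit 412) (nat_lit 327) (nat_lit 281))) (XT.nd (nat_lit 78) (nat_lit 0) (nat_lit 0) (XT.lf (nat_lit 0) (nat_lit 8764028516572) (nat_lit 76) (nat_lit 1092097800116) (nat_lit 76) (nat_lit 1091216899764) (nat_lit 1) (nat_lit 4) (nat_lit 2) (nat_lit 5) (nat_lit 2) (nat_lit 4) (nat_lit 413) (nat_lit 327) (nat_lit 280)) (XT.nd (nat_lit 78) (nat_lit 0) (nat_lit 0) (XT.lf (nat_lit 0) (nat_lit 10119883751187) (nat_lit 76) (nat_lit 1234425155605) (nat_lit 76) (nat_lit 1233544093768) (nat_lit 1) (nat_lit 4) (nat_lit 2) (nat_lit 5) (nat_lit 2) (nat_lit 4) (nat_lit 414) (nat_lit 327) (nat_lit 279)) (XT.lf (nat_lit 0) (nat_lit 11679103190057) (nat_lit 76) (nat_lit 1398108903905) (nat_lit 76) (nat_lit 1397227701646) (nat_lit 1) (nat_lit 4) (nat_lit 2) (nat_lit 5) (nat_lit 2) (nat_lit 4) (nat_lit 415) (nat_lit 327) (nat_lit 278))))) (XT.nd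 (nat_lit 156) (nat_lit 0) (nat_lit 0) (XT.nd (nat_lit 78) (nat_lit 0) (nat_lit 0) (XT.lf (nat_lit 0) (nat_lit 13472193300466) (nat_lit 76) (nat_lit 1586351553133) (nat_lit 76) (nat_lit 1585470228769) (nat_lit 1) (nat_lit 4) (nat_lit 2) (nat_lit 5) (nat_lit 2) (nat_lit 4) (nat_lit 416) (nat_lit 327) (nat_lit 277)) (XT.lf (nat_lit 0) (nat_lit 15534236280225) (nat_lit 76) (nat_lit 1802836111645) (nat_lit 76) (nat_lit 1801954681102) (nat_lit 1) (nat_lit 4) (nat_lit 2) (nat_lit 5) (nat_lit 2) (nat_lit 4) (nat_lit 417) (nat_lit 327) (nat_lit 276))) (XT.nd (nat_lit 78) (nat_lit 0) (nat_lit 0) (XT.lf (nat_lit 0) (nat_lit 17905576448504) (nat_lit 76) (nat_lit 2051798146890) (nat_lit 76) (nat_lit 2050916624018) (nat_lit 1) (nat_lit 4) (nat_lit 2) (nat_lit 5) (nat_lit 2) (nat_lit 4) (nat_lit 418) (nat_lit 327) (nat_lit 275)) (XT.nd (nat_lit 78) (nat_lit 0) (nat_lit 0) (XT.lf (nat_lit 0) (nat_lit 20632609591204)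 (nat_lit 76) (nat_lit 2338108655209) (nat_lit 76) (nat_lit 2337227052050) (nat_lit 1) (nat_lit 4) (nat_lit 2) (nat_lit 5) (nat_lit 2) (nat_lit 4) (nat_lit 419) (nat_lit 327) (nat_lit 274)) (XT.lf (nat_lit 0) (nat_lit 23768690704595) (nat_lit 76) (nat_lit 2667369363939) (nat_lit 76) (nat_lit 2666487690966) (nat_lit 1) (nat_lit 4) (nat_lit 2) (nat_lit 5) (nat_lit 2) (nat_lit 4) (nat_lit 420) (nat_lit 327) (nat_lit 273)))))) (XT.nd (nat_lit 390) (nat_lit 0) (nat_lit 0) (XT.nd (nat_lit 156) (nat_lit 0) (nat_lit 0) (XT.nd (nat_lit 78) (nat_lit 0) (nat_lit 0) (XT.lf (nat_lit 0) (nat_lit 27375177897417) (nat_lit 76) (nat_lit 3046022330426) (nat_lit 76) (nat_lit 3045140596744) (nat_lit 1) (nat_lit 4) (nat_lit 2) (nat_lit 5) (nat_lit 2) (nat_lit 4) (nat_lit 421) (nat_lit 327) (nat_lit 272)) (XT.lf (nat_lit 0) (nat_lit 31522632875617) (nat_lit 76) (nat_lit 3481475982273) (nat_lit 76) (nat_lit 3480594195801)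 (nat_lit 1) (nat_lit 4) (nat_lit 2) (nat_lit 5) (nat_lit 2) (nat_lit 4) (nat_lit 422) (nat_lit 327) (nat_lit 271))) (XT.nd (nat_lit 78) (nat_lit 0) (nat_lit 0) (XT.lf (nat_lit 0) (nat_lit 36292201497463) (nat_lit 76) (nat_lit 3982250064843) (nat_lit 76) (nat_lit 3981368232468) (nat_lit 1) (nat_lit 4) (nat_lit 2) (nat_lit 5) (nat_lit 2) (nat_lit 4) (nat_lit 423) (nat_lit 327) (nat_lit 270)) (XT.nd (nat_lit 78) (nat_lit 0) (nat_lit 0) (XT.lf (nat_lit 0) (nat_lit 41777201409907) (nat_lit 76) (nat_lit 4558142331926) (nat_lit 76) (nat_lit 4557260459634) (nat_lit 1) (nat_lit 4) (nat_lit 2) (nat_lit 5) (nat_lit 2) (nat_lit 4) (nat_lit 424) (nat_lit 327) (nat_lit 269)) (XT.lf (nat_lit 0) (nat_lit 48084947828624) (nat_lit 76) (nat_lit 5220420240921) (nat_lit 76) (nat_lit 5219538333919) (nat_lit 1) (nat_lit 4) (nat_lit 2) (nat_lit 5) (nat_lit 2) (nat_lit 4) (nat_lit 425) (nat_lit 327) (nat_lit 268)))))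 (XT.nd (nat_lit 48360) (nat_lit 0) (nat_lit 1444) (XT.nd (nat_lit 78) (nat_lit 0) (nat_lit 0) (XT.lf (nat_lit 0) (nat_lit 55338853183547) (nat_lit 76) (nat_lit 5982041403091) (nat_lit 76) (nat_lit 5981159465906) (nat_lit 1) (nat_lit 4) (nat_lit 2) (nat_lit 5) (nat_lit 2) (nat_lit 4) (nat_lit 426) (nat_lit 327) (nat_lit 267)) (XT.nd (nat_lit 48204) (nat_lit 0) (nat_lit 1900) (XT.lf (nat_lit 0) (nat_lit 63680841709881) (nat_lit 76) (nat_lit 6857907102044) (nat_lit 76) (nat_lit 6857025138613) (nat_lit 1) (nat_lit 4) (nat_lit 2) (nat_lit 5) (nat_lit 2) (nat_lit 4) (nat_lit 427) (nat_lit 327) (nat_lit 266)) (XT.lf (nat_lit 0) (nat_lit 2299519844) (nat_lit 152) (nat_lit 6818369875) (nat_lit 0) (nat_lit 2299519844) (nat_lit 26) (nat_lit 5) (nat_lit 28) (nat_lit 4) (nat_lit 26) (nat_lit 4) (nat_lit 364) (nat_lit 328) (nat_lit 328)))) (XT.nd (nat_lit 78) (nat_lit 380) (nat_lit 0) (XT.lf (nat_lit 0)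 (nat_lit 22888875286) (nat_lit 76) (nat_lit 1050684043) (nat_lit 76) (nat_lit 805767551) (nat_lit 25) (nat_lit 4) (nat_lit 26) (nat_lit 5) (nat_lit 26) (nat_lit 4) (nat_lit 365) (nat_lit 328) (nat_lit 327)) (XT.nd (nat_lit 78) (nat_lit 152) (nat_lit 0) (XT.lf (nat_lit 0) (nat_lit 9838203799) (nat_lit 76) (nat_lit 8733761047) (nat_lit 76) (nat_lit 8309791273) (nat_lit 22) (nat_lit 4) (nat_lit 23) (nat_lit 5) (nat_lit 23) (nat_lit 4) (nat_lit 366) (nat_lit 328) (nat_lit 326)) (XT.lf (nat_lit 0) (nat_lit 10853918498) (nat_lit 152) (nat_lit 8161923532) (nat_lit 0) (nat_lit 10302581554) (nat_lit 20) (nat_lit 5) (nat_lit 22) (nat_lit 4) (nat_lit 20) (nat_lit 4) (nat_lit 367) (nat_lit 328) (nat_lit 325))))))))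
noncomputable def xc24 : XT := (XT.nd (nat_lit 1638) (nat_lit 76) (nat_lit 0) (XT.nd (nat_lit 780) (nat_lit 380) (nat_lit 0) (XT.nd (nat_lit 390) (nat_lit 304) (nat_lit 0) (XT.nd (nat_lit 156) (nat_lit 380) (nat_lit 0) (XT.nd (nat_lit 78) (nat_lit 152) (nat_lit 0) (XT.lf (nat_lit 0) (nat_lit 212767692) (nat_lit 152) (nat_lit 246843045) (nat_lit 76) (nat_lit 31648685814) (nat_lit 18) (nat_lit 5) (nat_lit 20) (nat_lit 5) (nat_lit 19) (nat_lit 4) (nat_lit 368) (nat_lit 328) (nat_lit 324)) (XT.lf (nat_lit 0) (nat_lit 6062950012) (nat_lit 76) (nat_lit 14965222828) (nat_lit 76) (nat_lit 14215727879) (nat_lit 16) (nat_lit 4) (nat_lit 17) (nat_lit 5) (nat_lit 17) (nat_lit 4) (nat_lit 369) (nat_lit 328) (nat_lit 323))) (XT.nd (nat_lit 78) (nat_lit 228) (nat_lit 0) (XT.lf (nat_lit 0) (nat_lit 5658183242) (nat_lit 152) (nat_lit 28317348265) (nat_lit 0) (nat_lit 4874704218) (nat_lit 14) (nat_lit 5) (nat_lit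 16) (nat_lit 4) (nat_lit 14) (nat_lit 4) (nat_lit 370) (nat_lit 328) (nat_lit 322)) (XT.nd (nat_lit 78) (nat_lit 152) (nat_lit 0) (XT.lf (nat_lit 0) (nat_lit 11866605707) (nat_lit 76) (nat_lit 15974555200) (nat_lit 76) (nat_lit 15113248159) (nat_lit 13) (nat_lit 4) (nat_lit 14) (nat_lit 5) (nat_lit 14) (nat_lit 4) (nat_lit 371) (nat_lit 328) (nat_lit 321)) (XT.lf (nat_lit 0) (nat_lit 5247009938) (nat_lit 152) (nat_lit 38041147391) (nat_lit 0) (nat_lit 4386839958) (nat_lit 11) (nat_lit 5) (nat_lit 13) (nat_lit 4) (nat_lit 11) (nat_lit 4) (nat_lit 372) (nat_lit 328) (nat_lit 320))))) (XT.nd (nat_lit 156) (nat_lit 228) (nat_lit 0) (XT.nd (nat_lit 78) (nat_lit 0) (nat_lit 0) (XT.lf (nat_lit 0) (nat_lit 1934745489) (nat_lit 76) (nat_lit 26018616314) (nat_lit 76) (nat_lit 25103956368) (nat_lit 10) (nat_lit 4) (nat_lit 11) (nat_lit 5) (nat_lit 11) (nat_lit 4) (nat_lit 373) (nat_lit 328) (nat_lit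 319)) (XT.lf (nat_lit 0) (nat_lit 47836444493) (nat_lit 76) (nat_lit 6187944917) (nat_lit 76) (nat_lit 5225902393) (nat_lit 10) (nat_lit 4) (nat_lit 11) (nat_lit 5) (nat_lit 11) (nat_lit 4) (nat_lit 374) (nat_lit 328) (nat_lit 318))) (XT.nd (nat_lit 78) (nat_lit 76) (nat_lit 0) (XT.lf (nat_lit 0) (nat_lit 16934793770) (nat_lit 152) (nat_lit 33382984579) (nat_lit 0) (nat_lit 16005863431) (nat_lit 8) (nat_lit 5) (nat_lit 10) (nat_lit 4) (nat_lit 8) (nat_lit 4) (nat_lit 375) (nat_lit 328) (nat_lit 317)) (XT.nd (nat_lit 78) (nat_lit 0) (nat_lit 0) (XT.lf (nat_lit 0) (nat_lit 8309321693) (nat_lit 76) (nat_lit 33559609125) (nat_lit 76) (nat_lit 32597504678) (nat_lit 7) (nat_lit 4) (nat_lit 8) (nat_lit 5) (nat_lit 8) (nat_lit 4) (nat_lit 376) (nat_lit 328) (nat_lit 316)) (XT.lf (nat_lit 0) (nat_lit 56455352853) (nat_lit 76) (nat_lit 14179459256) (nat_lit 76) (nat_lit 13188507758) (nat_lit 7) (nat_lit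 4) (nat_lit 8) (nat_lit 5) (nat_lit 8) (nat_lit 4) (nat_lit 377) (nat_lit 328) (nat_lit 315)))))) (XT.nd (nat_lit 390) (nat_lit 152) (nat_lit 0) (XT.nd (nat_lit 156) (nat_lit 76) (nat_lit 0) (XT.nd (nat_lit 78) (nat_lit 0) (nat_lit 0) (XT.lf (nat_lit 0) (nat_lit 8470025570) (nat_lit 152) (nat_lit 78583291380) (nat_lit 0) (nat_lit 7529251598) (nat_lit 5) (nat_lit 5) (nat_lit 7) (nat_lit 4) (nat_lit 5) (nat_lit 4) (nat_lit 378) (nat_lit 328) (nat_lit 314)) (XT.lf (nat_lit 0) (nat_lit 33091094688) (nat_lit 152) (nat_lit 41667509242) (nat_lit 0) (nat_lit 32130123944) (nat_lit 5) (nat_lit 5) (nat_lit 7) (nat_lit 4) (nat_lit 5) (nat_lit 4) (nat_lit 379) (nat_lit 328) (nat_lit 313))) (XT.nd (nat_lit 78) (nat_lit 76) (nat_lit 0) (XT.lf (nat_lit 0) (nat_lit 60764286116) (nat_lit 152) (nat_lit 542055977) (nat_lit 0) (nat_lit 59785752961) (nat_lit 5) (nat_lit 5) (nat_lit 7) (nat_lit 4) (nat_lit 5) (nat_lit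 4) (nat_lit 380) (nat_lit 328) (nat_lit 312)) (XT.nd (nat_lit 78) (nat_lit 0) (nat_lit 0) (XT.lf (nat_lit 0) (nat_lit 47998790756) (nat_lit 76) (nat_lit 45186613174) (nat_lit 76) (nat_lit 44192808357) (nat_lit 4) (nat_lit 4) (nat_lit 5) (nat_lit 5) (nat_lit 5) (nat_lit 4) (nat_lit 381) (nat_lit 328) (nat_lit 311)) (XT.lf (nat_lit 0) (nat_lit 102796795569) (nat_lit 76) (nat_lit 27178542429) (nat_lit 76) (nat_lit 26171457906) (nat_lit 4) (nat_lit 4) (nat_lit 5) (nat_lit 5) (nat_lit 5) (nat_lit 4) (nat_lit 382) (nat_lit 328) (nat_lit 310))))) (XT.nd (nat_lit 234) (nat_lit 0) (nat_lit 0) (XT.nd (nat_lit 78) (nat_lit 152) (nat_lit 0) (XT.lf (nat_lit 0) (nat_lit 164895549630) (nat_lit 76) (nat_lit 6944618813) (nat_lit 76) (nat_lit 5925986719) (nat_lit 4) (nat_lit 4) (nat_lit 5) (nat_lit 5) (nat_lit 5) (nat_lit 4) (nat_lit 383) (nat_lit 328) (nat_lit 309)) (XT.nd (nat_lit 78) (nat_lit 0) (nat_lit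 0) (XT.lf (nat_lit 0) (nat_lit 17328246362) (nat_lit 152) (nat_lit 168823794015) (nat_lit 0) (nat_lit 16375770937) (nat_lit 2) (nat_lit 5) (nat_lit 4) (nat_lit 4) (nat_lit 2) (nat_lit 4) (nat_lit 384) (nat_lit 328) (nat_lit 308)) (XT.lf (nat_lit 0) (nat_lit 43934700877) (nat_lit 152) (nat_lit 144065363392) (nat_lit 0) (nat_lit 42974140617) (nat_lit 2) (nat_lit 5) (nat_lit 4) (nat_lit 4) (nat_lit 2) (nat_lit 4) (nat_lit 385) (nat_lit 328) (nat_lit 307)))) (XT.nd (nat_lit 78) (nat_lit 0) (nat_lit 0) (XT.lf (nat_lit 0) (nat_lit 74209060056) (nat_lit 152) (nat_lit 116262873379) (nat_lit 0) (nat_lit 73241469504) (nat_lit 2) (nat_lit 5) (nat_lit 4) (nat_lit 4) (nat_lit 2) (nat_lit 4) (nat_lit 386) (nat_lit 328) (nat_lit 306)) (XT.nd (nat_lit 78) (nat_lit 0) (nat_lit 0) (XT.lf (nat_lit 0) (nat_lit 108743648318) (nat_lit 152) (nat_lit 84872362213) (nat_lit 0) (nat_lit 107769944470) (nat_lit 2) (nat_lit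 5) (nat_lit 4) (nat_lit 4) (nat_lit 2) (nat_lit 4) (nat_lit 387) (nat_lit 328) (nat_lit 305)) (XT.lf (nat_lit 0) (nat_lit 148214142390) (nat_lit 152) (nat_lit 49279667720) (nat_lit 0) (nat_lit 147235122631) (nat_lit 2) (nat_lit 5) (nat_lit 4) (nat_lit 4) (nat_lit 2) (nat_lit 4) (nat_lit 388) (nat_lit 328) (nat_lit 304))))))) (XT.nd (nat_lit 780) (nat_lit 0) (nat_lit 0) (XT.nd (nat_lit 390) (nat_lit 0) (nat_lit 0) (XT.nd (nat_lit 156) (nat_lit 0) (nat_lit 0) (XT.nd (nat_lit 78) (nat_lit 76) (nat_lit 0) (XT.lf (nat_lit 0) (nat_lit 193392791069) (nat_lit 152) (nat_lit 8788411094) (nat_lit 0) (nat_lit 192409148779) (nat_lit 2) (nat_lit 5) (nat_lit 4) (nat_lit 4) (nat_lit 2) (nat_lit 4) (nat_lit 389) (nat_lit 328) (nat_lit 303)) (XT.lf (nat_lit 0) (nat_lit 39362710080) (nat_lit 76) (nat_lit 206747488481) (nat_lit 76) (nat_lit 205759826598) (nat_lit 1) (nat_lit 4) (nat_lit 2) (nat_lit 5) (nat_lit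 2) (nat_lit 4) (nat_lit 390) (nat_lit 328) (nat_lit 302))) (XT.nd (nat_lit 78) (nat_lit 0) (nat_lit 0) (XT.lf (nat_lit 0) (nat_lit 94918203881) (nat_lit 76) (nat_lit 211903829352) (nat_lit 76) (nat_lit 210912672173) (nat_lit 1) (nat_lit 4) (nat_lit 2) (nat_lit 5) (nat_lit 2) (nat_lit 4) (nat_lit 391) (nat_lit 328) (nat_lit 301)) (XT.nd (nat_lit 78) (nat_lit 0) (nat_lit 0) (XT.lf (nat_lit 0) (nat_lit 158502243468) (nat_lit 76) (nat_lit 217991400442) (nat_lit 76) (nat_lit 216997203873) (nat_lit 1) (nat_lit 4) (nat_lit 2) (nat_lit 5) (nat_lit 2) (nat_lit 4) (nat_lit 392) (nat_lit 328) (nat_lit 300)) (XT.lf (nat_lit 0) (nat_lit 231358864398) (nat_lit 76) (nat_lit 225129306401) (nat_lit 76) (nat_lit 224132466885) (nat_lit 1) (nat_lit 4) (nat_lit 2) (nat_lit 5) (nat_lit 2) (nat_lit 4) (nat_lit 393) (nat_lit 328) (nat_lit 299))))) (XT.nd (nat_lit 156) (nat_lit 0) (nat_lit 0) (XT.nd (nat_lit 78) (nat_lit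 0) (nat_lit 0) (XT.lf (nat_lit 0) (nat_lit 314913522298) (nat_lit 76) (nat_lit 233457201911) (nat_lit 76) (nat_lit 232458064181) (nat_lit 1) (nat_lit 4) (nat_lit 2) (nat_lit 5) (nat_lit 2) (nat_lit 4) (nat_lit 394) (nat_lit 328) (nat_lit 298)) (XT.lf (nat_lit 0) (nat_lit 410800982214) (nat_lit 76) (nat_lit 243138024060) (nat_lit 76) (nat_lit 242136887881) (nat_lit 1) (nat_lit 4) (nat_lit 2) (nat_lit 5) (nat_lit 2) (nat_lit 4) (nat_lit 395) (nat_lit 328) (nat_lit 297))) (XT.nd (nat_lit 78) (nat_lit 0) (nat_lit 0) (XT.lf (nat_lit 0) (nat_lit 520897303144) (nat_lit 76) (nat_lit 254361180235) (nat_lit 76) (nat_lit 253358306276) (nat_lit 1) (nat_lit 4) (nat_lit 2) (nat_lit 5) (nat_lit 2) (nat_lit 4) (nat_lit 396) (nat_lit 328) (nat_lit 296)) (XT.nd (nat_lit 78) (nat_lit 0) (nat_lit 0) (XT.lf (nat_lit 0) (nat_lit 647356543541) (nat_lit 76) (nat_lit 267346253928) (nat_lit 76) (nat_lit 266341868856)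 (nat_lit 1) (nat_lit 4) (nat_lit 2) (nat_lit 5) (nat_lit 2) (nat_lit 4) (nat_lit 397) (nat_lit 328) (nat_lit 295)) (XT.lf (nat_lit 0) (nat_lit 792652905935) (nat_lit 76) (nat_lit 282347300929) (nat_lit 76) (nat_lit 281341601845) (nat_lit 1) (nat_lit 4) (nat_lit 2) (nat_lit 5) (nat_lit 2) (nat_lit 4) (nat_lit 398) (nat_lit 328) (nat_lit 294)))))) (XT.nd (nat_lit 390) (nat_lit 0) (nat_lit 0) (XT.nd (nat_lit 156) (nat_lit 0) (nat_lit 0) (XT.nd (nat_lit 78) (nat_lit 0) (nat_lit 0) (XT.lf (nat_lit 0) (nat_lit 959629145243) (nat_lit 76) (nat_lit 299657819983) (nat_lit 76) (nat_lit 298650978280) (nat_lit 1) (nat_lit 4) (nat_lit 2) (nat_lit 5) (nat_lit 2) (nat_lit 4) (nat_lit 399) (nat_lit 328) (nat_lit 293)) (XT.lf (nat_lit 0) (nat_lit 1151552187884) (nat_lit 76) (nat_lit 319616495158) (nat_lit 76) (nat_lit 318608659873) (nat_lit 1) (nat_lit 4) (nat_lit 2) (nat_lit 5) (nat_lit 2) (nat_lit 4) (nat_lit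 400) (nat_lit 328) (nat_lit 292))) (XT.nd (nat_lit 78) (nat_lit 0) (nat_lit 0) (XT.lf (nat_lit 0) (nat_lit 1372177049911) (nat_lit 76) (nat_lit 342613822273) (nat_lit 76) (nat_lit 341605123004) (nat_lit 1) (nat_lit 4) (nat_lit 2) (nat_lit 5) (nat_lit 2) (nat_lit 4) (nat_lit 401) (nat_lit 328) (nat_lit 291)) (XT.nd (nat_lit 78) (nat_lit 0) (nat_lit 0) (XT.lf (nat_lit 0) (nat_lit 1625820304712) (nat_lit 76) (nat_lit 369099749033) (nat_lit 76) (nat_lit 368090298474) (nat_lit 1) (nat_lit 4) (nat_lit 2) (nat_lit 5) (nat_lit 2) (nat_lit 4) (nat_lit 402) (nat_lit 328) (nat_lit 290)) (XT.lf (nat_lit 0) (nat_lit 1917444537707) (nat_lit 76) (nat_lit 399592478353) (nat_lit 76) (nat_lit 398582374497) (nat_lit 1) (nat_lit 4) (nat_lit 2) (nat_lit 5) (nat_lit 2) (nat_lit 4) (nat_lit 403) (nat_lit 328) (nat_lit 289))))) (XT.nd (nat_lit 234) (nat_lit 0) (nat_lit 0) (XT.nd (nat_lit 78) (nat_lit 0) (nat_lit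 0) (XT.lf (nat_lit 0) (nat_lit 2252755440410) (nat_lit 76) (nat_lit 434688607110) (nat_lit 76) (nat_lit 433677935171) (nat_lit 1) (nat_lit 4) (nat_lit 2) (nat_lit 5) (nat_lit 2) (nat_lit 4) (nat_lit 404) (nat_lit 328) (nat_lit 288)) (XT.nd (nat_lit 78) (nat_lit 0) (nat_lit 0) (XT.lf (nat_lit 0) (nat_lit 2638313443527) (nat_lit 76) (nat_lit 475074798693) (nat_lit 76) (nat_lit 474063632768) (nat_lit 1) (nat_lit 4) (nat_lit 2) (nat_lit 5) (nat_lit 2) (nat_lit 4) (nat_lit 405) (nat_lit 328) (nat_lit 287)) (XT.lf (nat_lit 0) (nat_lit 3081662073205) (nat_lit 76) (nat_lit 521541217720) (nat_lit 76) (nat_lit 520529622243) (nat_lit 1) (nat_lit 4) (nat_lit 2) (nat_lit 5) (nat_lit 2) (nat_lit 4) (nat_lit 406) (nat_lit 328) (nat_lit 286)))) (XT.nd (nat_lit 78) (nat_lit 0) (nat_lit 0) (XT.lf (nat_lit 0) (nat_lit 3591475541765) (nat_lit 76) (nat_lit 574996989781) (nat_lit 76) (nat_lit 573985020779) (nat_lit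 1) (nat_lit 4) (nat_lit 2) (nat_lit 5) (nat_lit 2) (nat_lit 4) (nat_lit 407) (nat_lit 328) (nat_lit 285)) (XT.nd (nat_lit 78) (nat_lit 0) (nat_lit 0) (XT.lf (nat_lit 0) (nat_lit 4177728460548) (nat_lit 76) (nat_lit 636487988677) (nat_lit 76) (nat_lit 635475694872) (nat_lit 1) (nat_lit 4) (nat_lit 2) (nat_lit 5) (nat_lit 2) (nat_lit 4) (nat_lit 408) (nat_lit 328) (nat_lit 284)) (XT.lf (nat_lit 0) (nat_lit 4851890995356) (nat_lit 76) (nat_lit 707217299169) (nat_lit 76) (nat_lit 706204722926) (nat_lit 1) (nat_lit 4) (nat_lit 2) (nat_lit 5) (nat_lit 2) (nat_lit 4) (nat_lit 409) (nat_lit 328) (nat_lit 283))))))))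
noncomputable def xc25 : XT := (XT.nd (nat_lit 49608) (nat_lit 0) (nat_lit 76) (XT.nd (nat_lit 780) (nat_lit 0) (nat_lit 0) (XT.nd (nat_lit 390) (nat_lit 0) (nat_lit 0) (XT.nd (nat_lit 156) (nat_lit 0) (nat_lit 0) (XT.nd (nat_lit 78) (nat_lit 0) (nat_lit 0) (XT.lf (nat_lit 0) (nat_lit 5627153282739) (nat_lit 76) (nat_lit 788568755593) (nat_lit 76) (nat_lit 787555933751) (nat_lit 1) (nat_lit 4) (nat_lit 2) (nat_lit 5) (nat_lit 2) (nat_lit 4) (nat_lit 410) (nat_lit 328) (nat_lit 282)) (XT.lf (nat_lit 0) (nat_lit 6518683497886) (nat_lit 76) (nat_lit 882134016878) (nat_lit 76) (nat_lit 881120981473) (nat_lit 1) (nat_lit 4) (nat_lit 2) (nat_lit 5) (nat_lit 2) (nat_lit 4) (nat_lit 411) (nat_lit 328) (nat_lit 281))) (XT.nd (nat_lit 78) (nat_lit 0) (nat_lit 0) (XT.lf (nat_lit 0) (nat_lit 7543924623267) (nat_lit 76) (nat_lit 989743707702) (nat_lit 76) (nat_lit 988730486590) (nat_lit 1) (nat_lit 4)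 (nat_lit 2) (nat_lit 5) (nat_lit 2) (nat_lit 4) (nat_lit 412) (nat_lit 328) (nat_lit 280)) (XT.nd (nat_lit 78) (nat_lit 0) (nat_lit 0) (XT.lf (nat_lit 0) (nat_lit 8722935724378) (nat_lit 76) (nat_lit 1113503235060) (nat_lit 76) (nat_lit 1112489852463) (nat_lit 1) (nat_lit 4) (nat_lit 2) (nat_lit 5) (nat_lit 2) (nat_lit 4) (nat_lit 413) (nat_lit 328) (nat_lit 279)) (XT.lf (nat_lit 0) (nat_lit 10078784409720) (nat_lit 76) (nat_lit 1255833981009) (nat_lit 76) (nat_lit 1254820457990) (nat_lit 1) (nat_lit 4) (nat_lit 2) (nat_lit 5) (nat_lit 2) (nat_lit 4) (nat_lit 414) (nat_lit 328) (nat_lit 278))))) (XT.nd (nat_lit 156) (nat_lit 0) (nat_lit 0) (XT.nd (nat_lit 78) (nat_lit 0) (nat_lit 0) (XT.lf (nat_lit 0) (nat_lit 11637998153571) (nat_lit 76) (nat_lit 1419520677533) (nat_lit 76) (nat_lit 1418507032409) (nat_lit 1) (nat_lit 4) (nat_lit 2) (nat_lit 5) (nat_lit 2) (nat_lit 4) (nat_lit 415) (nat_lit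 328) (nat_lit 277)) (XT.lf (nat_lit 0) (nat_lit 13431083311789) (nat_lit 76) (nat_lit 1607765890436) (nat_lit 76) (nat_lit 1606752139132) (nat_lit 1) (nat_lit 4) (nat_lit 2) (nat_lit 5) (nat_lit 2) (nat_lit 4) (nat_lit 416) (nat_lit 328) (nat_lit 276))) (XT.nd (nat_lit 78) (nat_lit 0) (nat_lit 0) (XT.lf (nat_lit 0) (nat_lit 15493121985295) (nat_lit 76) (nat_lit 1824252678230) (nat_lit 76) (nat_lit 1823238834597) (nat_lit 1) (nat_lit 4) (nat_lit 2) (nat_lit 5) (nat_lit 2) (nat_lit 4) (nat_lit 417) (nat_lit 328) (nat_lit 275)) (XT.nd (nat_lit 78) (nat_lit 0) (nat_lit 0) (XT.lf (nat_lit 0) (nat_lit 17864458409006) (nat_lit 76) (nat_lit 2073216651980) (nat_lit 76) (nat_lit 2072202728061) (nat_lit 1) (nat_lit 4) (nat_lit 2) (nat_lit 5) (nat_lit 2) (nat_lit 4) (nat_lit 418) (nat_lit 328) (nat_lit 274)) (XT.lf (nat_lit 0) (nat_lit 20591488295560) (nat_lit 76) (nat_lit 2359528845957) (nat_lit 76)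 (nat_lit 2358514852223) (nat_lit 1) (nat_lit 4) (nat_lit 2) (nat_lit 5) (nat_lit 2) (nat_lit 4) (nat_lit 419) (nat_lit 328) (nat_lit 273)))))) (XT.nd (nat_lit 390) (nat_lit 0) (nat_lit 0) (XT.nd (nat_lit 156) (nat_lit 0) (nat_lit 0) (XT.nd (nat_lit 78) (nat_lit 0) (nat_lit 0) (XT.lf (nat_lit 0) (nat_lit 23727566577519) (nat_lit 76) (nat_lit 2688791020476) (nat_lit 76) (nat_lit 2687776966034) (nat_lit 1) (nat_lit 4) (nat_lit 2) (nat_lit 5) (nat_lit 2) (nat_lit 4) (nat_lit 420) (nat_lit 328) (nat_lit 272)) (XT.lf (nat_lit 0) (nat_lit 27334051308227) (nat_lit 76) (nat_lit 3067445261561) (nat_lit 76) (nat_lit 3066431154330) (nat_lit 1) (nat_lit 4) (nat_lit 2) (nat_lit 5) (nat_lit 2) (nat_lit 4) (nat_lit 421) (nat_lit 328) (nat_lit 271))) (XT.nd (nat_lit 78) (nat_lit 0) (nat_lit 0) (XT.lf (nat_lit 0) (nat_lit 31481504145458) (nat_lit 76) (nat_lit 3502900021755) (nat_lit 76) (nat_lit 3501885868620)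 (nat_lit 1) (nat_lit 4) (nat_lit 2) (nat_lit 5) (nat_lit 2) (nat_lit 4) (nat_lit 422) (nat_lit 328) (nat_lit 270)) (XT.nd (nat_lit 78) (nat_lit 0) (nat_lit 0) (XT.lf (nat_lit 0) (nat_lit 36251070905593) (nat_lit 76) (nat_lit 4003675068106) (nat_lit 76) (nat_lit 4002660875054) (nat_lit 1) (nat_lit 4) (nat_lit 2) (nat_lit 5) (nat_lit 2) (nat_lit 4) (nat_lit 423) (nat_lit 328) (nat_lit 269)) (XT.lf (nat_lit 0) (nat_lit 41736069199156) (nat_lit 76) (nat_lit 4579568173258) (nat_lit 76) (nat_lit 4578553945496) (nat_lit 1) (nat_lit 4) (nat_lit 2) (nat_lit 5) (nat_lit 2) (nat_lit 4) (nat_lit 424) (nat_lit 328) (nat_lit 268))))) (XT.nd (nat_lit 48204) (nat_lit 0) (nat_lit 1900) (XT.nd (nat_lit 78) (nat_lit 0) (nat_lit 0) (XT.lf (nat_lit 0) (nat_lit 48043814210152) (nat_lit 76) (nat_lit 5241846811009) (nat_lit 76) (nat_lit 5240832553064) (nat_lit 1) (nat_lit 4) (nat_lit 2) (nat_lit 5) (nat_lit 2) (nat_lit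 4) (nat_lit 425) (nat_lit 328) (nat_lit 267)) (XT.nd (nat_lit 78) (nat_lit 0) (nat_lit 0) (XT.lf (nat_lit 0) (nat_lit 55297718340969) (nat_lit 76) (nat_lit 6003468606880) (nat_lit 76) (nat_lit 6002454322690) (nat_lit 1) (nat_lit 4) (nat_lit 2) (nat_lit 5) (nat_lit 2) (nat_lit 4) (nat_lit 426) (nat_lit 328) (nat_lit 266)) (XT.lf (nat_lit 0) (nat_lit 63639705802863) (nat_lit 76) (nat_lit 6879334856877) (nat_lit 76) (nat_lit 6878320549864) (nat_lit 1) (nat_lit 4) (nat_lit 2) (nat_lit 5) (nat_lit 2) (nat_lit 4) (nat_lit 427) (nat_lit 328) (nat_lit 265)))) (XT.nd (nat_lit 78) (nat_lit 380) (nat_lit 0) (XT.lf (nat_lit 0) (nat_lit 1955864702) (nat_lit 76) (nat_lit 3920347689) (nat_lit 76) (nat_lit 3920347689) (nat_lit 31) (nat_lit 4) (nat_lit 32) (nat_lit 5) (nat_lit 32) (nat_lit 4) (nat_lit 362) (nat_lit 329) (nat_lit 329)) (XT.nd (nat_lit 78) (nat_lit 228) (nat_lit 0) (XT.lf (nat_lit 0) (nat_lit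 8589615289) (nat_lit 152) (nat_lit 4273817352) (nat_lit 0) (nat_lit 8285429005) (nat_lit 29) (nat_lit 5) (nat_lit 31) (nat_lit 4) (nat_lit 29) (nat_lit 4) (nat_lit 363) (nat_lit 329) (nat_lit 328)) (XT.lf (nat_lit 0) (nat_lit 4045155489) (nat_lit 152) (nat_lit 15337927558) (nat_lit 0) (nat_lit 3518585030) (nat_lit 26) (nat_lit 5) (nat_lit 28) (nat_lit 4) (nat_lit 26) (nat_lit 4) (nat_lit 364) (nat_lit 329) (nat_lit 327))))))) (XT.nd (nat_lit 780) (nat_lit 608) (nat_lit 0) (XT.nd (nat_lit 390) (nat_lit 532) (nat_lit 0) (XT.nd (nat_lit 156) (nat_lit 380) (nat_lit 0) (XT.nd (nat_lit 78) (nat_lit 228) (nat_lit 0) (XT.lf (nat_lit 0) (nat_lit 19540915211) (nat_lit 76) (nat_lit 3037686471) (nat_lit 76) (nat_lit 2298145149) (nat_lit 25) (nat_lit 4) (nat_lit 26) (nat_lit 5) (nat_lit 26) (nat_lit 4) (nat_lit 365) (nat_lit 329) (nat_lit 326)) (XT.lf (nat_lit 0) (nat_lit 4345785786) (nat_lit 76) (nat_lit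 11803450412) (nat_lit 76) (nat_lit 10947215803) (nat_lit 22) (nat_lit 4) (nat_lit 23) (nat_lit 5) (nat_lit 23) (nat_lit 4) (nat_lit 366) (nat_lit 329) (nat_lit 325))) (XT.nd (nat_lit 78) (nat_lit 228) (nat_lit 0) (XT.lf (nat_lit 0) (nat_lit 7382878000) (nat_lit 152) (nat_lit 15780557975) (nat_lit 0) (nat_lit 6452005274) (nat_lit 20) (nat_lit 5) (nat_lit 22) (nat_lit 4) (nat_lit 20) (nat_lit 4) (nat_lit 367) (nat_lit 329) (nat_lit 324)) (XT.nd (nat_lit 78) (nat_lit 152) (nat_lit 0) (XT.lf (nat_lit 0) (nat_lit 22450851227) (nat_lit 76) (nat_lit 5537831163) (nat_lit 76) (nat_lit 4486903739) (nat_lit 19) (nat_lit 4) (nat_lit 20) (nat_lit 5) (nat_lit 20) (nat_lit 4) (nat_lit 368) (nat_lit 329) (nat_lit 323)) (XT.lf (nat_lit 0) (nat_lit 15376526899) (nat_lit 152) (nat_lit 6030629190) (nat_lit 0) (nat_lit 14306783554) (nat_lit 17) (nat_lit 5) (nat_lit 19) (nat_lit 4) (nat_lit 17) (nat_lit 4) (nat_lit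 369) (nat_lit 329) (nat_lit 322))))) (XT.nd (nat_lit 156) (nat_lit 304) (nat_lit 0) (XT.nd (nat_lit 78) (nat_lit 152) (nat_lit 0) (XT.lf (nat_lit 0) (nat_lit 35513532426) (nat_lit 76) (nat_lit 2530871861) (nat_lit 76) (nat_lit 1377074257) (nat_lit 16) (nat_lit 4) (nat_lit 17) (nat_lit 5) (nat_lit 17) (nat_lit 4) (nat_lit 370) (nat_lit 329) (nat_lit 321)) (XT.lf (nat_lit 0) (nat_lit 19850623197) (nat_lit 152) (nat_lit 5044997629) (nat_lit 0) (nat_lit 18714615545) (nat_lit 14) (nat_lit 5) (nat_lit 16) (nat_lit 4) (nat_lit 14) (nat_lit 4) (nat_lit 371) (nat_lit 329) (nat_lit 320))) (XT.nd (nat_lit 78) (nat_lit 228) (nat_lit 0) (XT.lf (nat_lit 0) (nat_lit 38837122498) (nat_lit 76) (nat_lit 5389273534) (nat_lit 76) (nat_lit 4194416720) (nat_lit 13) (nat_lit 4) (nat_lit 14) (nat_lit 5) (nat_lit 14) (nat_lit 4) (nat_lit 372) (nat_lit 329) (nat_lit 319)) (XT.nd (nat_lit 78) (nat_lit 76) (nat_lit 0)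 (XT.lf (nat_lit 0) (nat_lit 17788917828) (nat_lit 152) (nat_lit 19461727790) (nat_lit 0) (nat_lit 16635186347) (nat_lit 11) (nat_lit 5) (nat_lit 13) (nat_lit 4) (nat_lit 11) (nat_lit 4) (nat_lit 373) (nat_lit 329) (nat_lit 318)) (XT.lf (nat_lit 0) (nat_lit 24454894645) (nat_lit 76) (nat_lit 18447716216) (nat_lit 76) (nat_lit 17252782493) (nat_lit 10) (nat_lit 4) (nat_lit 11) (nat_lit 5) (nat_lit 11) (nat_lit 4) (nat_lit 374) (nat_lit 329) (nat_lit 317)))))) (XT.nd (nat_lit 390) (nat_lit 228) (nat_lit 0) (XT.nd (nat_lit 156) (nat_lit 228) (nat_lit 0) (XT.nd (nat_lit 78) (nat_lit 0) (nat_lit 0) (XT.lf (nat_lit 0) (nat_lit 4136460565) (nat_lit 152) (nat_lit 60228403869) (nat_lit 0) (nat_lit 2996866343) (nat_lit 8) (nat_lit 5) (nat_lit 10) (nat_lit 4) (nat_lit 8) (nat_lit 4) (nat_lit 375) (nat_lit 329) (nat_lit 316)) (XT.lf (nat_lit 0) (nat_lit 28481700447) (nat_lit 152) (nat_lit 19756677340)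 (nat_lit 0) (nat_lit 27313259175) (nat_lit 8) (nat_lit 5) (nat_lit 10) (nat_lit 4) (nat_lit 8) (nat_lit 4) (nat_lit 376) (nat_lit 329) (nat_lit 315))) (XT.nd (nat_lit 78) (nat_lit 152) (nat_lit 0) (XT.lf (nat_lit 0) (nat_lit 26612220329) (nat_lit 76) (nat_lit 29779161628) (nat_lit 76) (nat_lit 28585635964) (nat_lit 7) (nat_lit 4) (nat_lit 8) (nat_lit 5) (nat_lit 8) (nat_lit 4) (nat_lit 377) (nat_lit 329) (nat_lit 314)) (XT.nd (nat_lit 78) (nat_lit 152) (nat_lit 0) (XT.lf (nat_lit 0) (nat_lit 79755395244) (nat_lit 76) (nat_lit 8641692174) (nat_lit 76) (nat_lit 7426353995) (nat_lit 7) (nat_lit 4) (nat_lit 8) (nat_lit 5) (nat_lit 8) (nat_lit 4) (nat_lit 378) (nat_lit 329) (nat_lit 313)) (XT.lf (nat_lit 0) (nat_lit 16642869436) (nat_lit 152) (nat_lit 76074893508) (nat_lit 0) (nat_lit 15499993897) (nat_lit 5) (nat_lit 5) (nat_lit 7) (nat_lit 4) (nat_lit 5) (nat_lit 4) (nat_lit 379) (nat_lit 329)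 (nat_lit 312))))) (XT.nd (nat_lit 234) (nat_lit 152) (nat_lit 0) (XT.nd (nat_lit 78) (nat_lit 76) (nat_lit 0) (XT.lf (nat_lit 0) (nat_lit 44056793701) (nat_lit 152) (nat_lit 35486425560) (nat_lit 0) (nat_lit 42898646500) (nat_lit 5) (nat_lit 5) (nat_lit 7) (nat_lit 4) (nat_lit 5) (nat_lit 4) (nat_lit 380) (nat_lit 329) (nat_lit 311)) (XT.nd (nat_lit 78) (nat_lit 0) (nat_lit 0) (XT.lf (nat_lit 0) (nat_lit 10722780414) (nat_lit 76) (nat_lit 64633192449) (nat_lit 76) (nat_lit 63461765542) (nat_lit 4) (nat_lit 4) (nat_lit 5) (nat_lit 5) (nat_lit 5) (nat_lit 4) (nat_lit 381) (nat_lit 329) (nat_lit 310)) (XT.lf (nat_lit 0) (nat_lit 65093365937) (nat_lit 76) (nat_lit 46846218328) (nat_lit 76) (nat_lit 45663243850) (nat_lit 4) (nat_lit 4) (nat_lit 5) (nat_lit 5) (nat_lit 5) (nat_lit 4) (nat_lit 382) (nat_lit 329) (nat_lit 309)))) (XT.nd (nat_lit 78) (nat_lit 152) (nat_lit 0) (XT.lf (nat_lit 0) (nat_lit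 126820451050) (nat_lit 76) (nat_lit 26804552644) (nat_lit 76) (nat_lit 25611536801) (nat_lit 4) (nat_lit 4) (nat_lit 5) (nat_lit 5) (nat_lit 5) (nat_lit 4) (nat_lit 383) (nat_lit 329) (nat_lit 308)) (XT.nd (nat_lit 78) (nat_lit 152) (nat_lit 0) (XT.lf (nat_lit 0) (nat_lit 197111739593) (nat_lit 76) (nat_lit 4116075852) (nat_lit 76) (nat_lit 2914328387) (nat_lit 4) (nat_lit 4) (nat_lit 5) (nat_lit 5) (nat_lit 5) (nat_lit 4) (nat_lit 384) (nat_lit 329) (nat_lit 307)) (XT.lf (nat_lit 0) (nat_lit 23406050912) (nat_lit 152) (nat_lit 186936351288) (nat_lit 0) (nat_lit 22286291485) (nat_lit 2) (nat_lit 5) (nat_lit 4) (nat_lit 4) (nat_lit 2) (nat_lit 4) (nat_lit 385) (nat_lit 329) (nat_lit 306))))))))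
noncomputable def xc26 : XT := (XT.nd (nat_lit 1638) (nat_lit 0) (nat_lit 0) (XT.nd (nat_lit 780) (nat_lit 0) (nat_lit 0) (XT.nd (nat_lit 390) (nat_lit 76) (nat_lit 0) (XT.nd (nat_lit 156) (nat_lit 0) (nat_lit 0) (XT.nd (nat_lit 78) (nat_lit 0) (nat_lit 0) (XT.lf (nat_lit 0) (nat_lit 53549747396) (nat_lit 152) (nat_lit 159404722833) (nat_lit 0) (nat_lit 52423874673) (nat_lit 2) (nat_lit 5) (nat_lit 4) (nat_lit 4) (nat_lit 2) (nat_lit 4) (nat_lit 386) (nat_lit 329) (nat_lit 305)) (XT.lf (nat_lit 0) (nat_lit 87970715923) (nat_lit 152) (nat_lit 128249743456) (nat_lit 0) (nat_lit 86839527290) (nat_lit 2) (nat_lit 5) (nat_lit 4) (nat_lit 4) (nat_lit 2) (nat_lit 4) (nat_lit 387) (nat_lit 329) (nat_lit 304))) (XT.nd (nat_lit 78) (nat_lit 0) (nat_lit 0) (XT.lf (nat_lit 0) (nat_lit 127342410226) (nat_lit 152) (nat_lit 92861859215) (nat_lit 0) (nat_lit 126206599061) (nat_lit 2) (nat_lit 5) (nat_lit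 4) (nat_lit 4) (nat_lit 2) (nat_lit 4) (nat_lit 388) (nat_lit 329) (nat_lit 303)) (XT.nd (nat_lit 78) (nat_lit 0) (nat_lit 0) (XT.lf (nat_lit 0) (nat_lit 172435146062) (nat_lit 152) (nat_lit 52548698460) (nat_lit 0) (nat_lit 171295315305) (nat_lit 2) (nat_lit 5) (nat_lit 4) (nat_lit 4) (nat_lit 2) (nat_lit 4) (nat_lit 389) (nat_lit 329) (nat_lit 302)) (XT.lf (nat_lit 0) (nat_lit 224131172610) (nat_lit 152) (nat_lit 6521525439) (nat_lit 0) (nat_lit 222987846556) (nat_lit 2) (nat_lit 5) (nat_lit 4) (nat_lit 4) (nat_lit 2) (nat_lit 4) (nat_lit 390) (nat_lit 329) (nat_lit 301))))) (XT.nd (nat_lit 156) (nat_lit 0) (nat_lit 0) (XT.nd (nat_lit 78) (nat_lit 0) (nat_lit 0) (XT.lf (nat_lit 0) (nat_lit 48548799047) (nat_lit 76) (nat_lit 236060734605) (nat_lit 76) (nat_lit 234914369162) (nat_lit 1) (nat_lit 4) (nat_lit 2) (nat_lit 5) (nat_lit 2) (nat_lit 4) (nat_lit 391) (nat_lit 329) (nat_lit 300)) (XT.lf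 (nat_lit 0) (nat_lit 112009571381) (nat_lit 76) (nat_lit 242212119279) (nat_lit 76) (nat_lit 241063110889) (nat_lit 1) (nat_lit 4) (nat_lit 2) (nat_lit 5) (nat_lit 2) (nat_lit 4) (nat_lit 392) (nat_lit 329) (nat_lit 299))) (XT.nd (nat_lit 78) (nat_lit 0) (nat_lit 0) (XT.lf (nat_lit 0) (nat_lit 184759003395) (nat_lit 76) (nat_lit 249405515311) (nat_lit 76) (nat_lit 248254208706) (nat_lit 1) (nat_lit 4) (nat_lit 2) (nat_lit 5) (nat_lit 2) (nat_lit 4) (nat_lit 393) (nat_lit 329) (nat_lit 298)) (XT.nd (nat_lit 78) (nat_lit 0) (nat_lit 0) (XT.lf (nat_lit 0) (nat_lit 268220453542) (nat_lit 76) (nat_lit 257781663060) (nat_lit 76) (nat_lit 256628358007) (nat_lit 1) (nat_lit 4) (nat_lit 2) (nat_lit 5) (nat_lit 2) (nat_lit 4) (nat_lit 394) (nat_lit 329) (nat_lit 297)) (XT.lf (nat_lit 0) (nat_lit 364026863238) (nat_lit 76) (nat_lit 267504443675) (nat_lit 76) (nat_lit 266349400842) (nat_lit 1) (nat_lit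 4) (nat_lit 2) (nat_lit 5) (nat_lit 2) (nat_lit 4) (nat_lit 395) (nat_lit 329) (nat_lit 296)))))) (XT.nd (nat_lit 390) (nat_lit 0) (nat_lit 0) (XT.nd (nat_lit 156) (nat_lit 0) (nat_lit 0) (XT.nd (nat_lit 78) (nat_lit 0) (nat_lit 0) (XT.lf (nat_lit 0) (nat_lit 474052705716) (nat_lit 76) (nat_lit 278764085475) (nat_lit 76) (nat_lit 277607531528) (nat_lit 1) (nat_lit 4) (nat_lit 2) (nat_lit 5) (nat_lit 2) (nat_lit 4) (nat_lit 396) (nat_lit 329) (nat_lit 295)) (XT.lf (nat_lit 0) (nat_lit 600450660502) (nat_lit 76) (nat_lit 291780885797) (nat_lit 76) (nat_lit 290623017839) (nat_lit 1) (nat_lit 4) (nat_lit 2) (nat_lit 5) (nat_lit 2) (nat_lit 4) (nat_lit 397) (nat_lit 329) (nat_lit 294))) (XT.nd (nat_lit 78) (nat_lit 0) (nat_lit 0) (XT.lf (nat_lit 0) (nat_lit 745693731061) (nat_lit 76) (nat_lit 306809521171) (nat_lit 76) (nat_lit 305650510594) (nat_lit 1) (nat_lit 4) (nat_lit 2) (nat_lit 5) (nat_lit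 2) (nat_lit 4) (nat_lit 398) (nat_lit 329) (nat_lit 293)) (XT.nd (nat_lit 78) (nat_lit 0) (nat_lit 0) (XT.lf (nat_lit 0) (nat_lit 912623629642) (nat_lit 76) (nat_lit 324144030115) (nat_lit 76) (nat_lit 322984025956) (nat_lit 1) (nat_lit 4) (nat_lit 2) (nat_lit 5) (nat_lit 2) (nat_lit 4) (nat_lit 399) (nat_lit 329) (nat_lit 292)) (XT.lf (nat_lit 0) (nat_lit 1104506375999) (nat_lit 76) (nat_lit 344123566064) (nat_lit 76) (nat_lit 342962697921) (nat_lit 1) (nat_lit 4) (nat_lit 2) (nat_lit 5) (nat_lit 2) (nat_lit 4) (nat_lit 400) (nat_lit 329) (nat_lit 291))))) (XT.nd (nat_lit 234) (nat_lit 0) (nat_lit 0) (XT.nd (nat_lit 78) (nat_lit 0) (nat_lit 0) (XT.lf (nat_lit 0) (nat_lit 1325096197780) (nat_lit 76) (nat_lit 367139032983) (nat_lit 76) (nat_lit 365977413549) (nat_lit 1) (nat_lit 4) (nat_lit 2) (nat_lit 5) (nat_lit 2) (nat_lit 4) (nat_lit 401) (nat_lit 329) (nat_lit 290)) (XT.nd (nat_lit 78)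 (nat_lit 0) (nat_lit 0) (XT.lf (nat_lit 0) (nat_lit 1578708982801) (nat_lit 76) (nat_lit 393640733485) (nat_lit 76) (nat_lit 392478460755) (nat_lit 1) (nat_lit 4) (nat_lit 2) (nat_lit 5) (nat_lit 2) (nat_lit 4) (nat_lit 402) (nat_lit 329) (nat_lit 289)) (XT.lf (nat_lit 0) (nat_lit 1870306720335) (nat_lit 76) (nat_lit 424147179102) (nat_lit 76) (nat_lit 422984338289) (nat_lit 1) (nat_lit 4) (nat_lit 2) (nat_lit 5) (nat_lit 2) (nat_lit 4) (nat_lit 403) (nat_lit 329) (nat_lit 288)))) (XT.nd (nat_lit 78) (nat_lit 0) (nat_lit 0) (XT.lf (nat_lit 0) (nat_lit 2205594583507) (nat_lit 76) (nat_lit 459255235074) (nat_lit 76) (nat_lit 458091900275) (nat_lit 1) (nat_lit 4) (nat_lit 2) (nat_lit 5) (nat_lit 2) (nat_lit 4) (nat_lit 404) (nat_lit 329) (nat_lit 287)) (XT.nd (nat_lit 78) (nat_lit 0) (nat_lit 0) (XT.lf (nat_lit 0) (nat_lit 2591132552249) (nat_lit 76) (nat_lit 499651798149) (nat_lit 76) (nat_lit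 498488033797) (nat_lit 1) (nat_lit 4) (nat_lit 2) (nat_lit 5) (nat_lit 2) (nat_lit 4) (nat_lit 405) (nat_lit 329) (nat_lit 286)) (XT.lf (nat_lit 0) (nat_lit 3034463760732) (nat_lit 76) (nat_lit 546127235864) (nat_lit 76) (nat_lit 544963097988) (nat_lit 1) (nat_lit 4) (nat_lit 2) (nat_lit 5) (nat_lit 2) (nat_lit 4) (nat_lit 406) (nat_lit 329) (nat_lit 285))))))) (XT.nd (nat_lit 780) (nat_lit 0) (nat_lit 0) (XT.nd (nat_lit 390) (nat_lit 0) (nat_lit 0) (XT.nd (nat_lit 156) (nat_lit 0) (nat_lit 0) (XT.nd (nat_lit 78) (nat_lit 0) (nat_lit 0) (XT.lf (nat_lit 0) (nat_lit 3544262080426) (nat_lit 76) (nat_lit 599590850263) (nat_lit 76) (nat_lit 598426387583) (nat_lit 1) (nat_lit 4) (nat_lit 2) (nat_lit 5) (nat_lit 2) (nat_lit 4) (nat_lit 407) (nat_lit 329) (nat_lit 284)) (XT.lf (nat_lit 0) (nat_lit 4130501826282) (nat_lit 76) (nat_lit 661088668583) (nat_lit 76) (nat_lit 659923923465) (nat_lit 1) (nat_lit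 4) (nat_lit 2) (nat_lit 5) (nat_lit 2) (nat_lit 4) (nat_lit 408) (nat_lit 329) (nat_lit 283))) (XT.nd (nat_lit 78) (nat_lit 0) (nat_lit 0) (XT.lf (nat_lit 0) (nat_lit 4804652906371) (nat_lit 76) (nat_lit 731823909009) (nat_lit 76) (nat_lit 730658918293) (nat_lit 1) (nat_lit 4) (nat_lit 2) (nat_lit 5) (nat_lit 2) (nat_lit 4) (nat_lit 409) (nat_lit 329) (nat_lit 282)) (XT.nd (nat_lit 78) (nat_lit 0) (nat_lit 0) (XT.lf (nat_lit 0) (nat_lit 5579905233129) (nat_lit 76) (nat_lit 813180521897) (nat_lit 76) (nat_lit 812015317617) (nat_lit 1) (nat_lit 4) (nat_lit 2) (nat_lit 5) (nat_lit 2) (nat_lit 4) (nat_lit 410) (nat_lit 329) (nat_lit 281)) (XT.lf (nat_lit 0) (nat_lit 6471426786863) (nat_lit 76) (nat_lit 906750267064) (nat_lit 76) (nat_lit 905584877077) (nat_lit 1) (nat_lit 4) (nat_lit 2) (nat_lit 5) (nat_lit 2) (nat_lit 4) (nat_lit 411) (nat_lit 329) (nat_lit 280))))) (XT.nd (nat_lit 156) (nat_lit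 0) (nat_lit 0) (XT.nd (nat_lit 78) (nat_lit 0) (nat_lit 0) (XT.lf (nat_lit 0) (nat_lit 7496660380581) (nat_lit 76) (nat_lit 1014363856916) (nat_lit 76) (nat_lit 1013198305445) (nat_lit 1) (nat_lit 4) (nat_lit 2) (nat_lit 5) (nat_lit 2) (nat_lit 4) (nat_lit 412) (nat_lit 329) (nat_lit 279)) (XT.lf (nat_lit 0) (nat_lit 8675664932419) (nat_lit 76) (nat_lit 1138126774733) (nat_lit 76) (nat_lit 1136961082840) (nat_lit 1) (nat_lit 4) (nat_lit 2) (nat_lit 5) (nat_lit 2) (nat_lit 4) (nat_lit 413) (nat_lit 329) (nat_lit 278))) (XT.nd (nat_lit 78) (nat_lit 0) (nat_lit 0) (XT.lf (nat_lit 0) (nat_lit 10031507922742) (nat_lit 76) (nat_lit 1280460468906) (nat_lit 76) (nat_lit 1279294654908) (nat_lit 1) (nat_lit 4) (nat_lit 2) (nat_lit 5) (nat_lit 2) (nat_lit 4) (nat_lit 414) (nat_lit 329) (nat_lit 277)) (XT.nd (nat_lit 78) (nat_lit 0) (nat_lit 0) (XT.lf (nat_lit 0) (nat_lit 11590716714401) (nat_lit 76)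 (nat_lit 1444149729105) (nat_lit 76) (nat_lit 1442983808927) (nat_lit 1) (nat_lit 4) (nat_lit 2) (nat_lit 5) (nat_lit 2) (nat_lit 4) (nat_lit 415) (nat_lit 329) (nat_lit 276)) (XT.lf (nat_lit 0) (nat_lit 13383797566366) (nat_lit 76) (nat_lit 1632397171290) (nat_lit 76) (nat_lit 1631231158782) (nat_lit 1) (nat_lit 4) (nat_lit 2) (nat_lit 5) (nat_lit 2) (nat_lit 4) (nat_lit 416) (nat_lit 329) (nat_lit 275)))))) (XT.nd (nat_lit 390) (nat_lit 0) (nat_lit 0) (XT.nd (nat_lit 156) (nat_lit 0) (nat_lit 0) (XT.nd (nat_lit 78) (nat_lit 0) (nat_lit 0) (XT.lf (nat_lit 0) (nat_lit 15445832495304) (nat_lit 76) (nat_lit 1848885897589) (nat_lit 76) (nat_lit 1847719804796) (nat_lit 1) (nat_lit 4) (nat_lit 2) (nat_lit 5) (nat_lit 2) (nat_lit 4) (nat_lit 417) (nat_lit 329) (nat_lit 274)) (XT.lf (nat_lit 0) (nat_lit 17817165662869) (nat_lit 76) (nat_lit 2097851556997) (nat_lit 76) (nat_lit 2096685394389) (nat_lit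 1) (nat_lit 4) (nat_lit 2) (nat_lit 5) (nat_lit 2) (nat_lit 4) (nat_lit 418) (nat_lit 329) (nat_lit 273))) (XT.nd (nat_lit 78) (nat_lit 0) (nat_lit 0) (XT.lf (nat_lit 0) (nat_lit 20544192717992) (nat_lit 76) (nat_lit 2384165216763) (nat_lit 76) (nat_lit 2382998993447) (nat_lit 1) (nat_lit 4) (nat_lit 2) (nat_lit 5) (nat_lit 2) (nat_lit 4) (nat_lit 419) (nat_lit 329) (nat_lit 272)) (XT.nd (nat_lit 78) (nat_lit 0) (nat_lit 0) (XT.lf (nat_lit 0) (nat_lit 23680268537837) (nat_lit 76) (nat_lit 2713428665881) (nat_lit 76) (nat_lit 2712262389775) (nat_lit 1) (nat_lit 4) (nat_lit 2) (nat_lit 5) (nat_lit 2) (nat_lit 4) (nat_lit 420) (nat_lit 329) (nat_lit 271)) (XT.lf (nat_lit 0) (nat_lit 27286751127576) (nat_lit 76) (nat_lit 3092084015313) (nat_lit 76) (nat_lit 3090917693303) (nat_lit 1) (nat_lit 4) (nat_lit 2) (nat_lit 5) (nat_lit 2) (nat_lit 4) (nat_lit 421) (nat_lit 329) (nat_lit 270))))) (XT.nd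 (nat_lit 234) (nat_lit 0) (nat_lit 0) (XT.nd (nat_lit 78) (nat_lit 0) (nat_lit 0) (XT.lf (nat_lit 0) (nat_lit 31434202103095) (nat_lit 76) (nat_lit 3527539739287) (nat_lit 76) (nat_lit 3526373377361) (nat_lit 1) (nat_lit 4) (nat_lit 2) (nat_lit 5) (nat_lit 2) (nat_lit 4) (nat_lit 422) (nat_lit 329) (nat_lit 269)) (XT.nd (nat_lit 78) (nat_lit 0) (nat_lit 0) (XT.lf (nat_lit 0) (nat_lit 36203767244350) (nat_lit 76) (nat_lit 4028315623707) (nat_lit 76) (nat_lit 4027149227071) (nat_lit 1) (nat_lit 4) (nat_lit 2) (nat_lit 5) (nat_lit 2) (nat_lit 4) (nat_lit 423) (nat_lit 329) (nat_lit 268)) (XT.lf (nat_lit 0) (nat_lit 41688764130191) (nat_lit 76) (nat_lit 4604209457616) (nat_lit 76) (nat_lit 4603043030797) (nat_lit 1) (nat_lit 4) (nat_lit 2) (nat_lit 5) (nat_lit 2) (nat_lit 4) (nat_lit 424) (nat_lit 329) (nat_lit 267)))) (XT.nd (nat_lit 78) (nat_lit 0) (nat_lit 0) (XT.lf (nat_lit 0) (nat_lit 47996507917081)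 (nat_lit 76) (nat_lit 5266488729068) (nat_lit 76) (nat_lit 5265322276003) (nat_lit 1) (nat_lit 4) (nat_lit 2) (nat_lit 5) (nat_lit 2) (nat_lit 4) (nat_lit 425) (nat_lit 329) (nat_lit 266)) (XT.nd (nat_lit 78) (nat_lit 0) (nat_lit 0) (XT.lf (nat_lit 0) (nat_lit 55250410983458) (nat_lit 76) (nat_lit 6028111075984) (nat_lit 76) (nat_lit 6026944600096) (nat_lit 1) (nat_lit 4) (nat_lit 2) (nat_lit 5) (nat_lit 2) (nat_lit 4) (nat_lit 426) (nat_lit 329) (nat_lit 265)) (XT.lf (nat_lit 0) (nat_lit 63592397519752) (nat_lit 76) (nat_lit 6903977805150) (nat_lit 76) (nat_lit 6902811309417) (nat_lit 1) (nat_lit 4) (nat_lit 2) (nat_lit 5) (nat_lit 2) (nat_lit 4) (nat_lit 427) (nat_lit 329) (nat_lit 264))))))))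
noncomputable def xc27 : XT := (XT.nd (nat_lit 1638) (nat_lit 304) (nat_lit 0) (XT.nd (nat_lit 780) (nat_lit 912) (nat_lit 0) (XT.nd (nat_lit 390) (nat_lit 684) (nat_lit 0) (XT.nd (nat_lit 156) (nat_lit 608) (nat_lit 0) (XT.nd (nat_lit 78) (nat_lit 228) (nat_lit 0) (XT.lf (nat_lit 0) (nat_lit 7541645839) (nat_lit 76) (nat_lit 459775346) (nat_lit 76) (nat_lit 459775346) (nat_lit 37) (nat_lit 4) (nat_lit 38) (nat_lit 5) (nat_lit 38) (nat_lit 4) (nat_lit 360) (nat_lit 330) (nat_lit 330)) (XT.lf (nat_lit 0) (nat_lit 9823874840) (nat_lit 76) (nat_lit 4395627011) (nat_lit 76) (nat_lit 3987603697) (nat_lit 34) (nat_lit 4) (nat_lit 35) (nat_lit 5) (nat_lit 35) (nat_lit 4) (nat_lit 361) (nat_lit 330) (nat_lit 329))) (XT.nd (nat_lit 78) (nat_lit 380) (nat_lit 0) (XT.lf (nat_lit 0) (nat_lit 2404273780) (nat_lit 76) (nat_lit 8977524458) (nat_lit 76) (nat_lit 8271203907) (nat_lit 31) (nat_lit 4) (nat_lit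 32) (nat_lit 5) (nat_lit 32) (nat_lit 4) (nat_lit 362) (nat_lit 330) (nat_lit 328)) (XT.nd (nat_lit 78) (nat_lit 228) (nat_lit 0) (XT.lf (nat_lit 0) (nat_lit 7393602308) (nat_lit 152) (nat_lit 7403847219) (nat_lit 0) (nat_lit 6475091985) (nat_lit 29) (nat_lit 5) (nat_lit 31) (nat_lit 4) (nat_lit 29) (nat_lit 4) (nat_lit 363) (nat_lit 330) (nat_lit 327)) (XT.lf (nat_lit 0) (nat_lit 1846095567) (nat_lit 152) (nat_lit 20474775089) (nat_lit 0) (nat_lit 782652182) (nat_lit 26) (nat_lit 5) (nat_lit 28) (nat_lit 4) (nat_lit 26) (nat_lit 4) (nat_lit 364) (nat_lit 330) (nat_lit 326))))) (XT.nd (nat_lit 156) (nat_lit 456) (nat_lit 0) (XT.nd (nat_lit 78) (nat_lit 152) (nat_lit 0) (XT.lf (nat_lit 0) (nat_lit 12779491495) (nat_lit 76) (nat_lit 6805650969) (nat_lit 76) (nat_lit 5557015530) (nat_lit 25) (nat_lit 4) (nat_lit 26) (nat_lit 5) (nat_lit 26) (nat_lit 4) (nat_lit 365) (nat_lit 330) (nat_lit 325))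 (XT.lf (nat_lit 0) (nat_lit 12036821785) (nat_lit 152) (nat_lit 4681070390) (nat_lit 0) (nat_lit 10731569925) (nat_lit 23) (nat_lit 5) (nat_lit 25) (nat_lit 4) (nat_lit 23) (nat_lit 4) (nat_lit 366) (nat_lit 330) (nat_lit 324))) (XT.nd (nat_lit 78) (nat_lit 228) (nat_lit 0) (XT.lf (nat_lit 0) (nat_lit 2001182502) (nat_lit 152) (nat_lit 27394473922) (nat_lit 0) (nat_lit 672561267) (nat_lit 20) (nat_lit 5) (nat_lit 22) (nat_lit 4) (nat_lit 20) (nat_lit 4) (nat_lit 367) (nat_lit 330) (nat_lit 323)) (XT.nd (nat_lit 78) (nat_lit 152) (nat_lit 0) (XT.lf (nat_lit 0) (nat_lit 9010930967) (nat_lit 76) (nat_lit 12710641931) (nat_lit 76) (nat_lit 11277625306) (nat_lit 19) (nat_lit 4) (nat_lit 20) (nat_lit 5) (nat_lit 20) (nat_lit 4) (nat_lit 368) (nat_lit 330) (nat_lit 322)) (XT.lf (nat_lit 0) (nat_lit 7821169329) (nat_lit 152) (nat_lit 22107548780) (nat_lit 0) (nat_lit 6410247825) (nat_lit 17) (nat_lit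 5) (nat_lit 19) (nat_lit 4) (nat_lit 17) (nat_lit 4) (nat_lit 369) (nat_lit 330) (nat_lit 321)))))) (XT.nd (nat_lit 390) (nat_lit 456) (nat_lit 0) (XT.nd (nat_lit 156) (nat_lit 228) (nat_lit 0) (XT.nd (nat_lit 78) (nat_lit 152) (nat_lit 0) (XT.lf (nat_lit 0) (nat_lit 17517962380) (nat_lit 76) (nat_lit 12043386118) (nat_lit 76) (nat_lit 10559373954) (nat_lit 16) (nat_lit 4) (nat_lit 17) (nat_lit 5) (nat_lit 17) (nat_lit 4) (nat_lit 370) (nat_lit 330) (nat_lit 320)) (XT.lf (nat_lit 0) (nat_lit 9912084177) (nat_lit 152) (nat_lit 26033160615) (nat_lit 0) (nat_lit 8479149678) (nat_lit 14) (nat_lit 5) (nat_lit 16) (nat_lit 4) (nat_lit 14) (nat_lit 4) (nat_lit 371) (nat_lit 330) (nat_lit 319))) (XT.nd (nat_lit 78) (nat_lit 152) (nat_lit 0) (XT.lf (nat_lit 0) (nat_lit 15797548156) (nat_lit 76) (nat_lit 17500363615) (nat_lit 76) (nat_lit 16016255931) (nat_lit 13) (nat_lit 4) (nat_lit 14) (nat_lit 5)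 (nat_lit 14) (nat_lit 4) (nat_lit 372) (nat_lit 330) (nat_lit 318)) (XT.nd (nat_lit 78) (nat_lit 0) (nat_lit 0) (XT.lf (nat_lit 0) (nat_lit 5204009945) (nat_lit 152) (nat_lit 45917644877) (nat_lit 0) (nat_lit 3788633921) (nat_lit 11) (nat_lit 5) (nat_lit 13) (nat_lit 4) (nat_lit 11) (nat_lit 4) (nat_lit 373) (nat_lit 330) (nat_lit 317)) (XT.lf (nat_lit 0) (nat_lit 29345615728) (nat_lit 152) (nat_lit 4017590580) (nat_lit 0) (nat_lit 27894411668) (nat_lit 11) (nat_lit 5) (nat_lit 13) (nat_lit 4) (nat_lit 11) (nat_lit 4) (nat_lit 374) (nat_lit 330) (nat_lit 316))))) (XT.nd (nat_lit 234) (nat_lit 228) (nat_lit 0) (XT.nd (nat_lit 78) (nat_lit 152) (nat_lit 0) (XT.lf (nat_lit 0) (nat_lit 44932155180) (nat_lit 76) (nat_lit 12539113690) (nat_lit 76) (nat_lit 11056754815) (nat_lit 10) (nat_lit 4) (nat_lit 11) (nat_lit 5) (nat_lit 11) (nat_lit 4) (nat_lit 375) (nat_lit 330) (nat_lit 315)) (XT.nd (nat_lit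 78) (nat_lit 0) (nat_lit 0) (XT.lf (nat_lit 0) (nat_lit 12588831922) (nat_lit 152) (nat_lit 53059399296) (nat_lit 0) (nat_lit 11191193016) (nat_lit 8) (nat_lit 5) (nat_lit 10) (nat_lit 4) (nat_lit 8) (nat_lit 4) (nat_lit 376) (nat_lit 330) (nat_lit 314)) (XT.lf (nat_lit 0) (nat_lit 39564305316) (nat_lit 152) (nat_lit 8630383155) (nat_lit 0) (nat_lit 38144853896) (nat_lit 8) (nat_lit 5) (nat_lit 10) (nat_lit 4) (nat_lit 8) (nat_lit 4) (nat_lit 377) (nat_lit 330) (nat_lit 313)))) (XT.nd (nat_lit 78) (nat_lit 152) (nat_lit 0) (XT.lf (nat_lit 0) (nat_lit 43501218128) (nat_lit 76) (nat_lit 27581091550) (nat_lit 76) (nat_lit 26142672726) (nat_lit 7) (nat_lit 4) (nat_lit 8) (nat_lit 5) (nat_lit 8) (nat_lit 4) (nat_lit 378) (nat_lit 330) (nat_lit 312)) (XT.nd (nat_lit 78) (nat_lit 152) (nat_lit 0) (XT.lf (nat_lit 0) (nat_lit 102933630400) (nat_lit 76) (nat_lit 4142342242) (nat_lit 76) (nat_lit 2687430023)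 (nat_lit 7) (nat_lit 4) (nat_lit 8) (nat_lit 5) (nat_lit 8) (nat_lit 4) (nat_lit 379) (nat_lit 330) (nat_lit 311)) (XT.lf (nat_lit 0) (nat_lit 24358460555) (nat_lit 152) (nat_lit 76676379649) (nat_lit 0) (nat_lit 22998039906) (nat_lit 5) (nat_lit 5) (nat_lit 7) (nat_lit 4) (nat_lit 5) (nat_lit 4) (nat_lit 380) (nat_lit 330) (nat_lit 310))))))) (XT.nd (nat_lit 780) (nat_lit 76) (nat_lit 0) (XT.nd (nat_lit 390) (nat_lit 152) (nat_lit 0) (XT.nd (nat_lit 156) (nat_lit 0) (nat_lit 0) (XT.nd (nat_lit 78) (nat_lit 76) (nat_lit 0) (XT.lf (nat_lit 0) (nat_lit 55203713368) (nat_lit 152) (nat_lit 31409608624) (nat_lit 0) (nat_lit 53831745149) (nat_lit 5) (nat_lit 5) (nat_lit 7) (nat_lit 4) (nat_lit 5) (nat_lit 4) (nat_lit 381) (nat_lit 330) (nat_lit 309)) (XT.lf (nat_lit 0) (nat_lit 20935333622) (nat_lit 76) (nat_lit 69877400167) (nat_lit 76) (nat_lit 68495390582) (nat_lit 4) (nat_lit 4) (nat_lit 5)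 (nat_lit 5) (nat_lit 5) (nat_lit 4) (nat_lit 382) (nat_lit 330) (nat_lit 308))) (XT.nd (nat_lit 78) (nat_lit 0) (nat_lit 0) (XT.lf (nat_lit 0) (nat_lit 82339228346) (nat_lit 76) (nat_lit 50002915295) (nat_lit 76) (nat_lit 48612174087) (nat_lit 4) (nat_lit 4) (nat_lit 5) (nat_lit 5) (nat_lit 5) (nat_lit 4) (nat_lit 383) (nat_lit 330) (nat_lit 307)) (XT.nd (nat_lit 78) (nat_lit 0) (nat_lit 0) (XT.lf (nat_lit 0) (nat_lit 152349481767) (nat_lit 76) (nat_lit 27459813121) (nat_lit 76) (nat_lit 26061479199) (nat_lit 4) (nat_lit 4) (nat_lit 5) (nat_lit 5) (nat_lit 5) (nat_lit 4) (nat_lit 384) (nat_lit 330) (nat_lit 306)) (XT.lf (nat_lit 0) (nat_lit 232335859714) (nat_lit 76) (nat_lit 1807032952) (nat_lit 76) (nat_lit 402096669) (nat_lit 4) (nat_lit 4) (nat_lit 5) (nat_lit 5) (nat_lit 5) (nat_lit 4) (nat_lit 385) (nat_lit 330) (nat_lit 305))))) (XT.nd (nat_lit 156) (nat_lit 0) (nat_lit 0) (XT.nd (nat_lit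 78) (nat_lit 0) (nat_lit 0) (XT.lf (nat_lit 0) (nat_lit 29547255407) (nat_lit 152) (nat_lit 209524243052) (nat_lit 0) (nat_lit 28241072568) (nat_lit 2) (nat_lit 5) (nat_lit 4) (nat_lit 4) (nat_lit 2) (nat_lit 4) (nat_lit 386) (nat_lit 330) (nat_lit 304)) (XT.lf (nat_lit 0) (nat_lit 63869424165) (nat_lit 152) (nat_lit 178574073928) (nat_lit 0) (nat_lit 62558618795) (nat_lit 2) (nat_lit 5) (nat_lit 4) (nat_lit 4) (nat_lit 2) (nat_lit 4) (nat_lit 387) (nat_lit 330) (nat_lit 303))) (XT.nd (nat_lit 78) (nat_lit 0) (nat_lit 0) (XT.lf (nat_lit 0) (nat_lit 103155205625) (nat_lit 152) (nat_lit 143364285557) (nat_lit 0) (nat_lit 101840380663) (nat_lit 2) (nat_lit 5) (nat_lit 4) (nat_lit 4) (nat_lit 2) (nat_lit 4) (nat_lit 388) (nat_lit 330) (nat_lit 302)) (XT.nd (nat_lit 78) (nat_lit 0) (nat_lit 0) (XT.lf (nat_lit 0) (nat_lit 148173234641) (nat_lit 152) (nat_lit 103205990778) (nat_lit 0) (nat_lit 146854914381)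 (nat_lit 2) (nat_lit 5) (nat_lit 4) (nat_lit 4) (nat_lit 2) (nat_lit 4) (nat_lit 389) (nat_lit 330) (nat_lit 301)) (XT.lf (nat_lit 0) (nat_lit 199804298737) (nat_lit 152) (nat_lit 57313483821) (nat_lit 0) (nat_lit 198482939088) (nat_lit 2) (nat_lit 5) (nat_lit 4) (nat_lit 4) (nat_lit 2) (nat_lit 4) (nat_lit 390) (nat_lit 330) (nat_lit 300)))))) (XT.nd (nat_lit 390) (nat_lit 0) (nat_lit 0) (XT.nd (nat_lit 156) (nat_lit 0) (nat_lit 0) (XT.nd (nat_lit 78) (nat_lit 76) (nat_lit 0) (XT.lf (nat_lit 0) (nat_lit 259058570907) (nat_lit 152) (nat_lit 4788867813) (nat_lit 0) (nat_lit 257734568311) (nat_lit 2) (nat_lit 5) (nat_lit 4) (nat_lit 4) (nat_lit 2) (nat_lit 4) (nat_lit 391) (nat_lit 330) (nat_lit 299)) (XT.lf (nat_lit 0) (nat_lit 58312542311) (nat_lit 76) (nat_lit 270185249599) (nat_lit 76) (nat_lit 268858948789) (nat_lit 1) (nat_lit 4) (nat_lit 2) (nat_lit 5) (nat_lit 2) (nat_lit 4) (nat_lit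 392) (nat_lit 330) (nat_lit 298))) (XT.nd (nat_lit 78) (nat_lit 0) (nat_lit 0) (XT.lf (nat_lit 0) (nat_lit 130968766572) (nat_lit 76) (nat_lit 277426897869) (nat_lit 76) (nat_lit 276098598611) (nat_lit 1) (nat_lit 4) (nat_lit 2) (nat_lit 5) (nat_lit 2) (nat_lit 4) (nat_lit 393) (nat_lit 330) (nat_lit 297)) (XT.nd (nat_lit 78) (nat_lit 0) (nat_lit 0) (XT.lf (nat_lit 0) (nat_lit 214349166499) (nat_lit 76) (nat_lit 285845004085) (nat_lit 76) (nat_lit 284514967046) (nat_lit 1) (nat_lit 4) (nat_lit 2) (nat_lit 5) (nat_lit 2) (nat_lit 4) (nat_lit 394) (nat_lit 330) (nat_lit 296)) (XT.lf (nat_lit 0) (nat_lit 310085097743) (nat_lit 76) (nat_lit 295604270325) (nat_lit 76) (nat_lit 294272722172) (nat_lit 1) (nat_lit 4) (nat_lit 2) (nat_lit 5) (nat_lit 2) (nat_lit 4) (nat_lit 395) (nat_lit 330) (nat_lit 295))))) (XT.nd (nat_lit 234) (nat_lit 0) (nat_lit 0) (XT.nd (nat_lit 78) (nat_lit 0) (nat_lit 0)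 (XT.lf (nat_lit 0) (nat_lit 420049654610) (nat_lit 76) (nat_lit 306895638754) (nat_lit 76) (nat_lit 305562776590) (nat_lit 1) (nat_lit 4) (nat_lit 2) (nat_lit 5) (nat_lit 2) (nat_lit 4) (nat_lit 396) (nat_lit 330) (nat_lit 294)) (XT.nd (nat_lit 78) (nat_lit 0) (nat_lit 0) (XT.lf (nat_lit 0) (nat_lit 546394317561) (nat_lit 76) (nat_lit 319940027450) (nat_lit 76) (nat_lit 318606022667) (nat_lit 1) (nat_lit 4) (nat_lit 2) (nat_lit 5) (nat_lit 2) (nat_lit 4) (nat_lit 397) (nat_lit 330) (nat_lit 293)) (XT.lf (nat_lit 0) (nat_lit 691591047394) (nat_lit 76) (nat_lit 334992652714) (nat_lit 76) (nat_lit 333657654349) (nat_lit 1) (nat_lit 4) (nat_lit 2) (nat_lit 5) (nat_lit 2) (nat_lit 4) (nat_lit 398) (nat_lit 330) (nat_lit 292)))) (XT.nd (nat_lit 78) (nat_lit 0) (nat_lit 0) (XT.lf (nat_lit 0) (nat_lit 858480649691) (nat_lit 76) (nat_lit 352348022431) (nat_lit 76) (nat_lit 351012160083) (nat_lit 1)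 (nat_lit 4) (nat_lit 2) (nat_lit 5) (nat_lit 2) (nat_lit 4) (nat_lit 399) (nat_lit 330) (nat_lit 291)) (XT.nd (nat_lit 78) (nat_lit 0) (nat_lit 0) (XT.lf (nat_lit 0) (nat_lit 1050328355801) (nat_lit 76) (nat_lit 372345698184) (nat_lit 76) (nat_lit 371009084545) (nat_lit 1) (nat_lit 4) (nat_lit 2) (nat_lit 5) (nat_lit 2) (nat_lit 4) (nat_lit 400) (nat_lit 330) (nat_lit 290)) (XT.lf (nat_lit 0) (nat_lit 1270887707802) (nat_lit 76) (nat_lit 395376938845) (nat_lit 76) (nat_lit 394039671910) (nat_lit 1) (nat_lit 4) (nat_lit 2) (nat_lit 5) (nat_lit 2) (nat_lit 4) (nat_lit 401) (nat_lit 330) (nat_lit 289))))))))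
noncomputable def xc28 : XT := (XT.nd (nat_lit 1638) (nat_lit 0) (nat_lit 0) (XT.nd (nat_lit 780) (nat_lit 0) (nat_lit 0) (XT.nd (nat_lit 390) (nat_lit 0) (nat_lit 0) (XT.nd (nat_lit 156) (nat_lit 0) (nat_lit 0) (XT.nd (nat_lit 78) (nat_lit 0) (nat_lit 0) (XT.lf (nat_lit 0) (nat_lit 1524473997363) (nat_lit 76) (nat_lit 421892355644) (nat_lit 76) (nat_lit 420554520626) (nat_lit 1) (nat_lit 4) (nat_lit 2) (nat_lit 5) (nat_lit 2) (nat_lit 4) (nat_lit 402) (nat_lit 330) (nat_lit 288)) (XT.lf (nat_lit 0) (nat_lit 1816048695365) (nat_lit 76) (nat_lit 452410728477) (nat_lit 76) (nat_lit 451072399472) (nat_lit 1) (nat_lit 4) (nat_lit 2) (nat_lit 5) (nat_lit 2) (nat_lit 4) (nat_lit 403) (nat_lit 330) (nat_lit 287))) (XT.nd (nat_lit 78) (nat_lit 0) (nat_lit 0) (XT.lf (nat_lit 0) (nat_lit 2151316524163) (nat_lit 76) (nat_lit 487529155940) (nat_lit 76) (nat_lit 486190397383) (nat_lit 1) (nat_lit 4) (nat_lit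 2) (nat_lit 5) (nat_lit 2) (nat_lit 4) (nat_lit 404) (nat_lit 330) (nat_lit 286)) (XT.nd (nat_lit 78) (nat_lit 0) (nat_lit 0) (XT.lf (nat_lit 0) (nat_lit 2536837071709) (nat_lit 76) (nat_lit 527934737703) (nat_lit 76) (nat_lit 526595605621) (nat_lit 1) (nat_lit 4) (nat_lit 2) (nat_lit 5) (nat_lit 2) (nat_lit 4) (nat_lit 405) (nat_lit 330) (nat_lit 285)) (XT.lf (nat_lit 0) (nat_lit 2980153131326) (nat_lit 76) (nat_lit 574418017756) (nat_lit 76) (nat_lit 573078560871) (nat_lit 1) (nat_lit 4) (nat_lit 2) (nat_lit 5) (nat_lit 2) (nat_lit 4) (nat_lit 406) (nat_lit 330) (nat_lit 284))))) (XT.nd (nat_lit 156) (nat_lit 0) (nat_lit 0) (XT.nd (nat_lit 78) (nat_lit 0) (nat_lit 0) (XT.lf (nat_lit 0) (nat_lit 3489938278094) (nat_lit 76) (nat_lit 627888451579) (nat_lit 76) (nat_lit 626548712256) (nat_lit 1) (nat_lit 4) (nat_lit 2) (nat_lit 5) (nat_lit 2) (nat_lit 4) (nat_lit 407) (nat_lit 330) (nat_lit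 283)) (XT.lf (nat_lit 0) (nat_lit 4076166569231) (nat_lit 76) (nat_lit 689392199832) (nat_lit 76) (nat_lit 688052214911) (nat_lit 1) (nat_lit 4) (nat_lit 2) (nat_lit 5) (nat_lit 2) (nat_lit 4) (nat_lit 408) (nat_lit 330) (nat_lit 282))) (XT.nd (nat_lit 78) (nat_lit 0) (nat_lit 0) (XT.lf (nat_lit 0) (nat_lit 4750307688695) (nat_lit 76) (nat_lit 760132596723) (nat_lit 76) (nat_lit 758792398238) (nat_lit 1) (nat_lit 4) (nat_lit 2) (nat_lit 5) (nat_lit 2) (nat_lit 4) (nat_lit 409) (nat_lit 330) (nat_lit 281)) (XT.nd (nat_lit 78) (nat_lit 0) (nat_lit 0) (XT.lf (nat_lit 0) (nat_lit 5525551354040) (nat_lit 76) (nat_lit 841493693493) (nat_lit 76) (nat_lit 840153309300) (nat_lit 1) (nat_lit 4) (nat_lit 2) (nat_lit 5) (nat_lit 2) (nat_lit 4) (nat_lit 410) (nat_lit 330) (nat_lit 280)) (XT.lf (nat_lit 0) (nat_lit 6417065376111) (nat_lit 76) (nat_lit 935067337688) (nat_lit 76) (nat_lit 933726792010) (nat_lit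 1) (nat_lit 4) (nat_lit 2) (nat_lit 5) (nat_lit 2) (nat_lit 4) (nat_lit 411) (nat_lit 330) (nat_lit 279)))))) (XT.nd (nat_lit 390) (nat_lit 0) (nat_lit 0) (XT.nd (nat_lit 156) (nat_lit 0) (nat_lit 0) (XT.nd (nat_lit 78) (nat_lit 0) (nat_lit 0) (XT.lf (nat_lit 0) (nat_lit 7442292420555) (nat_lit 76) (nat_lit 1042684317999) (nat_lit 76) (nat_lit 1041343631900) (nat_lit 1) (nat_lit 4) (nat_lit 2) (nat_lit 5) (nat_lit 2) (nat_lit 4) (nat_lit 412) (nat_lit 330) (nat_lit 278)) (XT.lf (nat_lit 0) (nat_lit 8621291277374) (nat_lit 76) (nat_lit 1166450184041) (nat_lit 76) (nat_lit 1165109375836) (nat_lit 1) (nat_lit 4) (nat_lit 2) (nat_lit 5) (nat_lit 2) (nat_lit 4) (nat_lit 413) (nat_lit 330) (nat_lit 277))) (XT.nd (nat_lit 78) (nat_lit 0) (nat_lit 0) (XT.lf (nat_lit 0) (nat_lit 9977129315505) (nat_lit 76) (nat_lit 1308786441888) (nat_lit 76) (nat_lit 1307445527505) (nat_lit 1) (nat_lit 4) (nat_lit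 2) (nat_lit 5) (nat_lit 2) (nat_lit 4) (nat_lit 414) (nat_lit 330) (nat_lit 276)) (XT.nd (nat_lit 78) (nat_lit 0) (nat_lit 0) (XT.lf (nat_lit 0) (nat_lit 11536333800912) (nat_lit 76) (nat_lit 1472477931369) (nat_lit 76) (nat_lit 1471136924656) (nat_lit 1) (nat_lit 4) (nat_lit 2) (nat_lit 5) (nat_lit 2) (nat_lit 4) (nat_lit 415) (nat_lit 330) (nat_lit 275)) (XT.lf (nat_lit 0) (nat_lit 13329410908309) (nat_lit 76) (nat_lit 1660727312059) (nat_lit 76) (nat_lit 1659386225060) (nat_lit 1) (nat_lit 4) (nat_lit 2) (nat_lit 5) (nat_lit 2) (nat_lit 4) (nat_lit 416) (nat_lit 330) (nat_lit 274))))) (XT.nd (nat_lit 234) (nat_lit 0) (nat_lit 0) (XT.nd (nat_lit 78) (nat_lit 0) (nat_lit 0) (XT.lf (nat_lit 0) (nat_lit 15391442581101) (nat_lit 76) (nat_lit 1877217724016) (nat_lit 76) (nat_lit 1875876567203) (nat_lit 1) (nat_lit 4) (nat_lit 2) (nat_lit 5) (nat_lit 2) (nat_lit 4) (nat_lit 417) (nat_lit 330)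 (nat_lit 273)) (XT.nd (nat_lit 78) (nat_lit 0) (nat_lit 0) (XT.lf (nat_lit 0) (nat_lit 17762772917235) (nat_lit 76) (nat_lit 2126184849213) (nat_lit 76) (nat_lit 2124843631691) (nat_lit 1) (nat_lit 4) (nat_lit 2) (nat_lit 5) (nat_lit 2) (nat_lit 4) (nat_lit 418) (nat_lit 330) (nat_lit 272)) (XT.lf (nat_lit 0) (nat_lit 20489797510243) (nat_lit 76) (nat_lit 2412499783578) (nat_lit 76) (nat_lit 2411158513266) (nat_lit 1) (nat_lit 4) (nat_lit 2) (nat_lit 5) (nat_lit 2) (nat_lit 4) (nat_lit 419) (nat_lit 330) (nat_lit 271)))) (XT.nd (nat_lit 78) (nat_lit 0) (nat_lit 0) (XT.lf (nat_lit 0) (nat_lit 23625871189119) (nat_lit 76) (nat_lit 2741764341043) (nat_lit 76) (nat_lit 2740423024828) (nat_lit 1) (nat_lit 4) (nat_lit 2) (nat_lit 5) (nat_lit 2) (nat_lit 4) (nat_lit 420) (nat_lit 330) (nat_lit 270)) (XT.nd (nat_lit 78) (nat_lit 0) (nat_lit 0) (XT.lf (nat_lit 0) (nat_lit 27232351917146) (nat_lit 76)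 (nat_lit 3120420654255) (nat_lit 76) (nat_lit 3119079298123) (nat_lit 1) (nat_lit 4) (nat_lit 2) (nat_lit 5) (nat_lit 2) (nat_lit 4) (nat_lit 421) (nat_lit 330) (nat_lit 269)) (XT.lf (nat_lit 0) (nat_lit 31379801273785) (nat_lit 76) (nat_lit 3555877216299) (nat_lit 76) (nat_lit 3554535825457) (nat_lit 1) (nat_lit 4) (nat_lit 2) (nat_lit 5) (nat_lit 2) (nat_lit 4) (nat_lit 422) (nat_lit 330) (nat_lit 268))))))) (XT.nd (nat_lit 48438) (nat_lit 0) (nat_lit 912) (XT.nd (nat_lit 48048) (nat_lit 0) (nat_lit 2356) (XT.nd (nat_lit 156) (nat_lit 0) (nat_lit 0) (XT.nd (nat_lit 78) (nat_lit 0) (nat_lit 0) (XT.lf (nat_lit 0) (nat_lit 36149365007318) (nat_lit 76) (nat_lit 4056653829475) (nat_lit 76) (nat_lit 4055312408451) (nat_lit 1) (nat_lit 4) (nat_lit 2) (nat_lit 5) (nat_lit 2) (nat_lit 4) (nat_lit 423) (nat_lit 330) (nat_lit 267)) (XT.lf (nat_lit 0) (nat_lit 41634360669054) (nat_lit 76) (nat_lit 4632548297085)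 (nat_lit 76) (nat_lit 4631206849814) (nat_lit 1) (nat_lit 4) (nat_lit 2) (nat_lit 5) (nat_lit 2) (nat_lit 4) (nat_lit 424) (nat_lit 330) (nat_lit 266))) (XT.nd (nat_lit 78) (nat_lit 0) (nat_lit 0) (XT.lf (nat_lit 0) (nat_lit 47942103391504) (nat_lit 76) (nat_lit 5294828119581) (nat_lit 76) (nat_lit 5293486649489) (nat_lit 1) (nat_lit 4) (nat_lit 2) (nat_lit 5) (nat_lit 2) (nat_lit 4) (nat_lit 425) (nat_lit 330) (nat_lit 265)) (XT.nd (nat_lit 78) (nat_lit 0) (nat_lit 0) (XT.lf (nat_lit 0) (nat_lit 55196005532281) (nat_lit 76) (nat_lit 6056450945666) (nat_lit 76) (nat_lit 6055109455727) (nat_lit 1) (nat_lit 4) (nat_lit 2) (nat_lit 5) (nat_lit 2) (nat_lit 4) (nat_lit 426) (nat_lit 330) (nat_lit 264)) (XT.lf (nat_lit 0) (nat_lit 63537991263706) (nat_lit 76) (nat_lit 6932318091501) (nat_lit 76) (nat_lit 6930976584305) (nat_lit 1) (nat_lit 4) (nat_lit 2) (nat_lit 5) (nat_lit 2) (nat_lit 4) (nat_lit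 427) (nat_lit 330) (nat_lit 263))))) (XT.nd (nat_lit 156) (nat_lit 456) (nat_lit 0) (XT.nd (nat_lit 78) (nat_lit 228) (nat_lit 0) (XT.lf (nat_lit 0) (nat_lit 1882300581) (nat_lit 152) (nat_lit 3574978016) (nat_lit 0) (nat_lit 1882300581) (nat_lit 41) (nat_lit 5) (nat_lit 43) (nat_lit 4) (nat_lit 41) (nat_lit 4) (nat_lit 358) (nat_lit 331) (nat_lit 331)) (XT.lf (nat_lit 0) (nat_lit 1739456429) (nat_lit 152) (nat_lit 12793078368) (nat_lit 0) (nat_lit 1232691473) (nat_lit 38) (nat_lit 5) (nat_lit 40) (nat_lit 4) (nat_lit 38) (nat_lit 4) (nat_lit 359) (nat_lit 331) (nat_lit 330))) (XT.nd (nat_lit 78) (nat_lit 380) (nat_lit 0) (XT.lf (nat_lit 0) (nat_lit 13817451440) (nat_lit 76) (nat_lit 2051805210) (nat_lit 76) (nat_lit 1104375075) (nat_lit 37) (nat_lit 4) (nat_lit 38) (nat_lit 5) (nat_lit 38) (nat_lit 4) (nat_lit 360) (nat_lit 331) (nat_lit 329)) (XT.nd (nat_lit 78) (nat_lit 152) (nat_lit 0)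 (XT.lf (nat_lit 0) (nat_lit 7053309281) (nat_lit 76) (nat_lit 6248414032) (nat_lit 76) (nat_lit 5016361026) (nat_lit 34) (nat_lit 4) (nat_lit 35) (nat_lit 5) (nat_lit 35) (nat_lit 4) (nat_lit 361) (nat_lit 331) (nat_lit 328)) (XT.lf (nat_lit 0) (nat_lit 9607996172) (nat_lit 152) (nat_lit 2040155805) (nat_lit 0) (nat_lit 8181535754) (nat_lit 32) (nat_lit 5) (nat_lit 34) (nat_lit 4) (nat_lit 32) (nat_lit 4) (nat_lit 362) (nat_lit 331) (nat_lit 327)))))) (XT.nd (nat_lit 390) (nat_lit 684) (nat_lit 0) (XT.nd (nat_lit 156) (nat_lit 456) (nat_lit 0) (XT.nd (nat_lit 78) (nat_lit 76) (nat_lit 0) (XT.lf (nat_lit 0) (nat_lit 4673989808) (nat_lit 152) (nat_lit 13725146668) (nat_lit 0) (nat_lit 3123184592) (nat_lit 29) (nat_lit 5) (nat_lit 31) (nat_lit 4) (nat_lit 29) (nat_lit 4) (nat_lit 363) (nat_lit 331) (nat_lit 326)) (XT.lf (nat_lit 0) (nat_lit 17863023882) (nat_lit 76) (nat_lit 3654937276) (nat_lit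 76) (nat_lit 1904124641) (nat_lit 28) (nat_lit 4) (nat_lit 29) (nat_lit 5) (nat_lit 29) (nat_lit 4) (nat_lit 364) (nat_lit 331) (nat_lit 325))) (XT.nd (nat_lit 78) (nat_lit 228) (nat_lit 0) (XT.lf (nat_lit 0) (nat_lit 2472315412) (nat_lit 76) (nat_lit 12428298582) (nat_lit 76) (nat_lit 10646139202) (nat_lit 25) (nat_lit 4) (nat_lit 26) (nat_lit 5) (nat_lit 26) (nat_lit 4) (nat_lit 365) (nat_lit 331) (nat_lit 324)) (XT.nd (nat_lit 78) (nat_lit 76) (nat_lit 0) (XT.lf (nat_lit 0) (nat_lit 6233245928) (nat_lit 152) (nat_lit 17254689159) (nat_lit 0) (nat_lit 4453439280) (nat_lit 23) (nat_lit 5) (nat_lit 25) (nat_lit 4) (nat_lit 23) (nat_lit 4) (nat_lit 366) (nat_lit 331) (nat_lit 323)) (XT.lf (nat_lit 0) (nat_lit 18408990974) (nat_lit 76) (nat_lit 7060120002) (nat_lit 76) (nat_lit 5167566334) (nat_lit 22) (nat_lit 4) (nat_lit 23) (nat_lit 5) (nat_lit 23) (nat_lit 4) (nat_lit 367) (nat_lit 331)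 (nat_lit 322))))) (XT.nd (nat_lit 234) (nat_lit 304) (nat_lit 0) (XT.nd (nat_lit 78) (nat_lit 228) (nat_lit 0) (XT.lf (nat_lit 0) (nat_lit 13618359958) (nat_lit 152) (nat_lit 8279462943) (nat_lit 0) (nat_lit 11775216851) (nat_lit 20) (nat_lit 5) (nat_lit 22) (nat_lit 4) (nat_lit 20) (nat_lit 4) (nat_lit 368) (nat_lit 331) (nat_lit 321)) (XT.nd (nat_lit 78) (nat_lit 152) (nat_lit 0) (XT.lf (nat_lit 0) (nat_lit 31620941341) (nat_lit 76) (nat_lit 3711001453) (nat_lit 76) (nat_lit 1788920434) (nat_lit 19) (nat_lit 4) (nat_lit 20) (nat_lit 5) (nat_lit 20) (nat_lit 4) (nat_lit 369) (nat_lit 331) (nat_lit 320)) (XT.lf (nat_lit 0) (nat_lit 18956983988) (nat_lit 152) (nat_lit 4922058034) (nat_lit 0) (nat_lit 17113722244) (nat_lit 17) (nat_lit 5) (nat_lit 19) (nat_lit 4) (nat_lit 17) (nat_lit 4) (nat_lit 370) (nat_lit 331) (nat_lit 319)))) (XT.nd (nat_lit 78) (nat_lit 228) (nat_lit 0) (XT.lf (nat_lit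 0) (nat_lit 38911919522) (nat_lit 76) (nat_lit 4198124896) (nat_lit 76) (nat_lit 2299596113) (nat_lit 16) (nat_lit 4) (nat_lit 17) (nat_lit 5) (nat_lit 17) (nat_lit 4) (nat_lit 371) (nat_lit 331) (nat_lit 318)) (XT.nd (nat_lit 78) (nat_lit 76) (nat_lit 0) (XT.lf (nat_lit 0) (nat_lit 20172604353) (nat_lit 152) (nat_lit 11843318976) (nat_lit 0) (nat_lit 18370208910) (nat_lit 14) (nat_lit 5) (nat_lit 16) (nat_lit 4) (nat_lit 14) (nat_lit 4) (nat_lit 372) (nat_lit 331) (nat_lit 317)) (XT.lf (nat_lit 0) (nat_lit 34730360085) (nat_lit 76) (nat_lit 11589894235) (nat_lit 76) (nat_lit 9748804512) (nat_lit 13) (nat_lit 4) (nat_lit 14) (nat_lit 5) (nat_lit 14) (nat_lit 4) (nat_lit 373) (nat_lit 331) (nat_lit 316))))))))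
noncomputable def xc29 : XT := (XT.nd (nat_lit 1638) (nat_lit 0) (nat_lit 0) (XT.nd (nat_lit 780) (nat_lit 228) (nat_lit 0) (XT.nd (nat_lit 390) (nat_lit 228) (nat_lit 0) (XT.nd (nat_lit 156) (nat_lit 228) (nat_lit 0) (XT.nd (nat_lit 78) (nat_lit 76) (nat_lit 0) (XT.lf (nat_lit 0) (nat_lit 13713620329) (nat_lit 152) (nat_lit 36837120845) (nat_lit 0) (nat_lit 11977752808) (nat_lit 11) (nat_lit 5) (nat_lit 13) (nat_lit 4) (nat_lit 11) (nat_lit 4) (nat_lit 374) (nat_lit 331) (nat_lit 315)) (XT.lf (nat_lit 0) (nat_lit 9753022394) (nat_lit 76) (nat_lit 30949873413) (nat_lit 76) (nat_lit 29186914749) (nat_lit 10) (nat_lit 4) (nat_lit 11) (nat_lit 5) (nat_lit 11) (nat_lit 4) (nat_lit 375) (nat_lit 331) (nat_lit 314))) (XT.nd (nat_lit 78) (nat_lit 228) (nat_lit 0) (XT.lf (nat_lit 0) (nat_lit 64382017276) (nat_lit 76) (nat_lit 7859859792) (nat_lit 76) (nat_lit 6073343612) (nat_lit 10) (nat_lit 4) (nat_lit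 11) (nat_lit 5) (nat_lit 11) (nat_lit 4) (nat_lit 376) (nat_lit 331) (nat_lit 313)) (XT.nd (nat_lit 78) (nat_lit 76) (nat_lit 0) (XT.lf (nat_lit 0) (nat_lit 20399200016) (nat_lit 152) (nat_lit 48766312855) (nat_lit 0) (nat_lit 18726050964) (nat_lit 8) (nat_lit 5) (nat_lit 10) (nat_lit 4) (nat_lit 8) (nat_lit 4) (nat_lit 377) (nat_lit 331) (nat_lit 312)) (XT.lf (nat_lit 0) (nat_lit 767355455) (nat_lit 76) (nat_lit 49899653449) (nat_lit 76) (nat_lit 48210011003) (nat_lit 7) (nat_lit 4) (nat_lit 8) (nat_lit 5) (nat_lit 8) (nat_lit 4) (nat_lit 378) (nat_lit 331) (nat_lit 311))))) (XT.nd (nat_lit 156) (nat_lit 76) (nat_lit 0) (XT.nd (nat_lit 78) (nat_lit 152) (nat_lit 0) (XT.lf (nat_lit 0) (nat_lit 59778510299) (nat_lit 76) (nat_lit 26678599841) (nat_lit 76) (nat_lit 24974615312) (nat_lit 7) (nat_lit 4) (nat_lit 8) (nat_lit 5) (nat_lit 8) (nat_lit 4) (nat_lit 379) (nat_lit 331) (nat_lit 310)) (XT.lf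 (nat_lit 0) (nat_lit 970107093) (nat_lit 76) (nat_lit 321509732) (nat_lit 152) (nat_lit 124604031235) (nat_lit 5) (nat_lit 5) (nat_lit 6) (nat_lit 5) (nat_lit 7) (nat_lit 4) (nat_lit 380) (nat_lit 331) (nat_lit 309))) (XT.nd (nat_lit 78) (nat_lit 76) (nat_lit 0) (XT.lf (nat_lit 0) (nat_lit 31958664954) (nat_lit 152) (nat_lit 80004114188) (nat_lit 0) (nat_lit 30359312565) (nat_lit 5) (nat_lit 5) (nat_lit 7) (nat_lit 4) (nat_lit 5) (nat_lit 4) (nat_lit 381) (nat_lit 331) (nat_lit 308)) (XT.nd (nat_lit 78) (nat_lit 76) (nat_lit 0) (XT.lf (nat_lit 0) (nat_lit 66915953256) (nat_lit 152) (nat_lit 29013465214) (nat_lit 0) (nat_lit 65307869246) (nat_lit 5) (nat_lit 5) (nat_lit 7) (nat_lit 4) (nat_lit 5) (nat_lit 4) (nat_lit 382) (nat_lit 331) (nat_lit 307)) (XT.lf (nat_lit 0) (nat_lit 30581596725) (nat_lit 76) (nat_lit 76993587772) (nat_lit 76) (nat_lit 75377911047) (nat_lit 4) (nat_lit 4) (nat_lit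 5) (nat_lit 5) (nat_lit 5) (nat_lit 4) (nat_lit 383) (nat_lit 331) (nat_lit 306)))))) (XT.nd (nat_lit 390) (nat_lit 76) (nat_lit 0) (XT.nd (nat_lit 156) (nat_lit 152) (nat_lit 0) (XT.nd (nat_lit 78) (nat_lit 0) (nat_lit 0) (XT.lf (nat_lit 0) (nat_lit 100347471780) (nat_lit 76) (nat_lit 54576898311) (nat_lit 76) (nat_lit 52954619225) (nat_lit 4) (nat_lit 4) (nat_lit 5) (nat_lit 5) (nat_lit 5) (nat_lit 4) (nat_lit 384) (nat_lit 331) (nat_lit 305)) (XT.lf (nat_lit 0) (nat_lit 180121346799) (nat_lit 76) (nat_lit 29034042239) (nat_lit 76) (nat_lit 27406021970) (nat_lit 4) (nat_lit 4) (nat_lit 5) (nat_lit 5) (nat_lit 5) (nat_lit 4) (nat_lit 385) (nat_lit 331) (nat_lit 304))) (XT.nd (nat_lit 78) (nat_lit 0) (nat_lit 0) (XT.lf (nat_lit 0) (nat_lit 1731970116) (nat_lit 152) (nat_lit 267602033346) (nat_lit 0) (nat_lit 219921409) (nat_lit 2) (nat_lit 5) (nat_lit 4) (nat_lit 4) (nat_lit 2) (nat_lit 4)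 (nat_lit 386) (nat_lit 331) (nat_lit 303)) (XT.nd (nat_lit 78) (nat_lit 0) (nat_lit 0) (XT.lf (nat_lit 0) (nat_lit 35968226031) (nat_lit 152) (nat_lit 236829960093) (nat_lit 0) (nat_lit 34452157733) (nat_lit 2) (nat_lit 5) (nat_lit 4) (nat_lit 4) (nat_lit 2) (nat_lit 4) (nat_lit 387) (nat_lit 331) (nat_lit 302)) (XT.lf (nat_lit 0) (nat_lit 75179300671) (nat_lit 152) (nat_lit 201775037697) (nat_lit 0) (nat_lit 73659737075) (nat_lit 2) (nat_lit 5) (nat_lit 4) (nat_lit 4) (nat_lit 2) (nat_lit 4) (nat_lit 388) (nat_lit 331) (nat_lit 301))))) (XT.nd (nat_lit 234) (nat_lit 76) (nat_lit 0) (XT.nd (nat_lit 78) (nat_lit 0) (nat_lit 0) (XT.lf (nat_lit 0) (nat_lit 120132367235) (nat_lit 152) (nat_lit 161751408983) (nat_lit 0) (nat_lit 118609764250) (nat_lit 2) (nat_lit 5) (nat_lit 4) (nat_lit 4) (nat_lit 2) (nat_lit 4) (nat_lit 389) (nat_lit 331) (nat_lit 300)) (XT.nd (nat_lit 78) (nat_lit 0) (nat_lit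 0) (XT.lf (nat_lit 0) (nat_lit 171706942242) (nat_lit 152) (nat_lit 115976002953) (nat_lit 0) (nat_lit 170181696310) (nat_lit 2) (nat_lit 5) (nat_lit 4) (nat_lit 4) (nat_lit 2) (nat_lit 4) (nat_lit 390) (nat_lit 331) (nat_lit 299)) (XT.lf (nat_lit 0) (nat_lit 230912093465) (nat_lit 152) (nat_lit 63553213836) (nat_lit 0) (nat_lit 229384549318) (nat_lit 2) (nat_lit 5) (nat_lit 4) (nat_lit 4) (nat_lit 2) (nat_lit 4) (nat_lit 391) (nat_lit 331) (nat_lit 298)))) (XT.nd (nat_lit 78) (nat_lit 76) (nat_lit 0) (XT.lf (nat_lit 0) (nat_lit 298906182558) (nat_lit 152) (nat_lit 3457378369) (nat_lit 0) (nat_lit 297376639963) (nat_lit 2) (nat_lit 5) (nat_lit 4) (nat_lit 4) (nat_lit 2) (nat_lit 4) (nat_lit 392) (nat_lit 331) (nat_lit 297)) (XT.nd (nat_lit 78) (nat_lit 0) (nat_lit 0) (XT.lf (nat_lit 0) (nat_lit 68935736253) (nat_lit 76) (nat_lit 309741698516) (nat_lit 76) (nat_lit 308210418141) (nat_lit 1)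 (nat_lit 4) (nat_lit 2) (nat_lit 5) (nat_lit 2) (nat_lit 4) (nat_lit 393) (nat_lit 331) (nat_lit 296)) (XT.lf (nat_lit 0) (nat_lit 152245657728) (nat_lit 76) (nat_lit 318196290356) (nat_lit 76) (nat_lit 316663498867) (nat_lit 1) (nat_lit 4) (nat_lit 2) (nat_lit 5) (nat_lit 2) (nat_lit 4) (nat_lit 394) (nat_lit 331) (nat_lit 295))))))) (XT.nd (nat_lit 780) (nat_lit 0) (nat_lit 0) (XT.nd (nat_lit 390) (nat_lit 0) (nat_lit 0) (XT.nd (nat_lit 156) (nat_lit 0) (nat_lit 0) (XT.nd (nat_lit 78) (nat_lit 0) (nat_lit 0) (XT.lf (nat_lit 0) (nat_lit 247920303361) (nat_lit 76) (nat_lit 327987283225) (nat_lit 76) (nat_lit 326453177725) (nat_lit 1) (nat_lit 4) (nat_lit 2) (nat_lit 5) (nat_lit 2) (nat_lit 4) (nat_lit 395) (nat_lit 331) (nat_lit 294)) (XT.lf (nat_lit 0) (nat_lit 357831568393) (nat_lit 76) (nat_lit 339306240027) (nat_lit 76) (nat_lit 337770991908) (nat_lit 1) (nat_lit 4) (nat_lit 2) (nat_lit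 5) (nat_lit 2) (nat_lit 4) (nat_lit 396) (nat_lit 331) (nat_lit 293))) (XT.nd (nat_lit 78) (nat_lit 0) (nat_lit 0) (XT.lf (nat_lit 0) (nat_lit 484129890618) (nat_lit 76) (nat_lit 352374618614) (nat_lit 76) (nat_lit 350838376913) (nat_lit 1) (nat_lit 4) (nat_lit 2) (nat_lit 5) (nat_lit 2) (nat_lit 4) (nat_lit 397) (nat_lit 331) (nat_lit 292)) (XT.nd (nat_lit 78) (nat_lit 0) (nat_lit 0) (XT.lf (nat_lit 0) (nat_lit 629286324166) (nat_lit 76) (nat_lit 367448104652) (nat_lit 76) (nat_lit 365910998966) (nat_lit 1) (nat_lit 4) (nat_lit 2) (nat_lit 5) (nat_lit 2) (nat_lit 4) (nat_lit 398) (nat_lit 331) (nat_lit 291)) (XT.lf (nat_lit 0) (nat_lit 796140886216) (nat_lit 76) (nat_lit 384821614173) (nat_lit 76) (nat_lit 383283757197) (nat_lit 1) (nat_lit 4) (nat_lit 2) (nat_lit 5) (nat_lit 2) (nat_lit 4) (nat_lit 399) (nat_lit 331) (nat_lit 290))))) (XT.nd (nat_lit 156) (nat_lit 0) (nat_lit 0) (XT.nd (nat_lit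 78) (nat_lit 0) (nat_lit 0) (XT.lf (nat_lit 0) (nat_lit 987958122547) (nat_lit 76) (nat_lit 404835063667) (nat_lit 76) (nat_lit 403296553395) (nat_lit 1) (nat_lit 4) (nat_lit 2) (nat_lit 5) (nat_lit 2) (nat_lit 4) (nat_lit 400) (nat_lit 331) (nat_lit 289)) (XT.lf (nat_lit 0) (nat_lit 1208490979087) (nat_lit 76) (nat_lit 427880020626) (nat_lit 76) (nat_lit 426340942270) (nat_lit 1) (nat_lit 4) (nat_lit 2) (nat_lit 5) (nat_lit 2) (nat_lit 4) (nat_lit 401) (nat_lit 331) (nat_lit 288))) (XT.nd (nat_lit 78) (nat_lit 0) (nat_lit 0) (XT.lf (nat_lit 0) (nat_lit 1462054229117) (nat_lit 76) (nat_lit 454407364640) (nat_lit 76) (nat_lit 452867792299) (nat_lit 1) (nat_lit 4) (nat_lit 2) (nat_lit 5) (nat_lit 2) (nat_lit 4) (nat_lit 402) (nat_lit 331) (nat_lit 287)) (XT.nd (nat_lit 78) (nat_lit 0) (nat_lit 0) (XT.lf (nat_lit 0) (nat_lit 1753608892744) (nat_lit 76) (nat_lit 484936108964) (nat_lit 76) (nat_lit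 483396107070) (nat_lit 1) (nat_lit 4) (nat_lit 2) (nat_lit 5) (nat_lit 2) (nat_lit 4) (nat_lit 403) (nat_lit 331) (nat_lit 286)) (XT.lf (nat_lit 0) (nat_lit 2088859300346) (nat_lit 76) (nat_lit 520063555116) (nat_lit 76) (nat_lit 518523179698) (nat_lit 1) (nat_lit 4) (nat_lit 2) (nat_lit 5) (nat_lit 2) (nat_lit 4) (nat_lit 404) (nat_lit 331) (nat_lit 285)))))) (XT.nd (nat_lit 390) (nat_lit 0) (nat_lit 0) (XT.nd (nat_lit 156) (nat_lit 0) (nat_lit 0) (XT.nd (nat_lit 78) (nat_lit 0) (nat_lit 0) (XT.lf (nat_lit 0) (nat_lit 2474364699027) (nat_lit 76) (nat_lit 560476979216) (nat_lit 76) (nat_lit 558936278995) (nat_lit 1) (nat_lit 4) (nat_lit 2) (nat_lit 5) (nat_lit 2) (nat_lit 4) (nat_lit 405) (nat_lit 331) (nat_lit 284)) (XT.lf (nat_lit 0) (nat_lit 2917667585718) (nat_lit 76) (nat_lit 606967078693) (nat_lit 76) (nat_lit 605426096034) (nat_lit 1) (nat_lit 4) (nat_lit 2) (nat_lit 5) (nat_lit 2)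 (nat_lit 4) (nat_lit 406) (nat_lit 331) (nat_lit 283))) (XT.nd (nat_lit 78) (nat_lit 0) (nat_lit 0) (XT.lf (nat_lit 0) (nat_lit 3427441277766) (nat_lit 76) (nat_lit 660443442450) (nat_lit 76) (nat_lit 658902214192) (nat_lit 1) (nat_lit 4) (nat_lit 2) (nat_lit 5) (nat_lit 2) (nat_lit 4) (nat_lit 407) (nat_lit 331) (nat_lit 282)) (XT.nd (nat_lit 78) (nat_lit 0) (nat_lit 0) (XT.lf (nat_lit 0) (nat_lit 4013659608279) (nat_lit 76) (nat_lit 721952347168) (nat_lit 76) (nat_lit 720410905346) (nat_lit 1) (nat_lit 4) (nat_lit 2) (nat_lit 5) (nat_lit 2) (nat_lit 4) (nat_lit 408) (nat_lit 331) (nat_lit 281)) (XT.lf (nat_lit 0) (nat_lit 4687792066329) (nat_lit 76) (nat_lit 792697227940) (nat_lit 76) (nat_lit 791155600411) (nat_lit 1) (nat_lit 4) (nat_lit 2) (nat_lit 5) (nat_lit 2) (nat_lit 4) (nat_lit 409) (nat_lit 331) (nat_lit 280))))) (XT.nd (nat_lit 234) (nat_lit 0) (nat_lit 0) (XT.nd (nat_lit 78)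 (nat_lit 0) (nat_lit 0) (XT.lf (nat_lit 0) (nat_lit 5463028200011) (nat_lit 76) (nat_lit 874062223738) (nat_lit 76) (nat_lit 872520434724) (nat_lit 1) (nat_lit 4) (nat_lit 2) (nat_lit 5) (nat_lit 2) (nat_lit 4) (nat_lit 410) (nat_lit 331) (nat_lit 279)) (XT.nd (nat_lit 78) (nat_lit 0) (nat_lit 0) (XT.lf (nat_lit 0) (nat_lit 6354535672809) (nat_lit 76) (nat_lit 967639258392) (nat_lit 76) (nat_lit 966097328956) (nat_lit 1) (nat_lit 4) (nat_lit 2) (nat_lit 5) (nat_lit 2) (nat_lit 4) (nat_lit 411) (nat_lit 331) (nat_lit 278)) (XT.lf (nat_lit 0) (nat_lit 7379757022234) (nat_lit 76) (nat_lit 1075259186928) (nat_lit 76) (nat_lit 1073717135387) (nat_lit 1) (nat_lit 4) (nat_lit 2) (nat_lit 5) (nat_lit 2) (nat_lit 4) (nat_lit 412) (nat_lit 331) (nat_lit 277)))) (XT.nd (nat_lit 78) (nat_lit 0) (nat_lit 0) (XT.lf (nat_lit 0) (nat_lit 8558750926862) (nat_lit 76) (nat_lit 1199027616644) (nat_lit 76) (nat_lit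 1197485458924) (nat_lit 1) (nat_lit 4) (nat_lit 2) (nat_lit 5) (nat_lit 2) (nat_lit 4) (nat_lit 413) (nat_lit 331) (nat_lit 276)) (XT.nd (nat_lit 78) (nat_lit 0) (nat_lit 0) (XT.lf (nat_lit 0) (nat_lit 9914584658740) (nat_lit 76) (nat_lit 1341366103773) (nat_lit 76) (nat_lit 1339823853724) (nat_lit 1) (nat_lit 4) (nat_lit 2) (nat_lit 5) (nat_lit 2) (nat_lit 4) (nat_lit 414) (nat_lit 331) (nat_lit 275)) (XT.lf (nat_lit 0) (nat_lit 11473785399578) (nat_lit 76) (nat_lit 1505059531760) (nat_lit 76) (nat_lit 1503517201424) (nat_lit 1) (nat_lit 4) (nat_lit 2) (nat_lit 5) (nat_lit 2) (nat_lit 4) (nat_lit 415) (nat_lit 331) (nat_lit 274))))))))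
noncomputable def xc30 : XT := (XT.nd (nat_lit 49140) (nat_lit 0) (nat_lit 228) (XT.nd (nat_lit 780) (nat_lit 0) (nat_lit 0) (XT.nd (nat_lit 390) (nat_lit 0) (nat_lit 0) (XT.nd (nat_lit 156) (nat_lit 0) (nat_lit 0) (XT.nd (nat_lit 78) (nat_lit 0) (nat_lit 0) (XT.lf (nat_lit 0) (nat_lit 13266859250829) (nat_lit 76) (nat_lit 1693310598107) (nat_lit 76) (nat_lit 1691768197957) (nat_lit 1) (nat_lit 4) (nat_lit 2) (nat_lit 5) (nat_lit 2) (nat_lit 4) (nat_lit 416) (nat_lit 331) (nat_lit 273)) (XT.lf (nat_lit 0) (nat_lit 15328888092190) (nat_lit 76) (nat_lit 1909802475853) (nat_lit 76) (nat_lit 1908260014995) (nat_lit 1) (nat_lit 4) (nat_lit 2) (nat_lit 5) (nat_lit 2) (nat_lit 4) (nat_lit 417) (nat_lit 331) (nat_lit 272))) (XT.nd (nat_lit 78) (nat_lit 0) (nat_lit 0) (XT.lf (nat_lit 0) (nat_lit 17700215966209) (nat_lit 76) (nat_lit 2158770875649) (nat_lit 76) (nat_lit 2157228362002) (nat_lit 1) (nat_lit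 4) (nat_lit 2) (nat_lit 5) (nat_lit 2) (nat_lit 4) (nat_lit 418) (nat_lit 331) (nat_lit 271)) (XT.nd (nat_lit 78) (nat_lit 0) (nat_lit 0) (XT.lf (nat_lit 0) (nat_lit 20427238418249) (nat_lit 76) (nat_lit 2445086918361) (nat_lit 76) (nat_lit 2443544358809) (nat_lit 1) (nat_lit 4) (nat_lit 2) (nat_lit 5) (nat_lit 2) (nat_lit 4) (nat_lit 419) (nat_lit 331) (nat_lit 270)) (XT.lf (nat_lit 0) (nat_lit 23563310235413) (nat_lit 76) (nat_lit 2774352439606) (nat_lit 76) (nat_lit 2772809840138) (nat_lit 1) (nat_lit 4) (nat_lit 2) (nat_lit 5) (nat_lit 2) (nat_lit 4) (nat_lit 420) (nat_lit 331) (nat_lit 269))))) (XT.nd (nat_lit 156) (nat_lit 0) (nat_lit 0) (XT.nd (nat_lit 78) (nat_lit 0) (nat_lit 0) (XT.lf (nat_lit 0) (nat_lit 27169789344560) (nat_lit 76) (nat_lit 3153009590888) (nat_lit 76) (nat_lit 3151466956710) (nat_lit 1) (nat_lit 4) (nat_lit 2) (nat_lit 5) (nat_lit 2) (nat_lit 4) (nat_lit 421) (nat_lit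 331) (nat_lit 268)) (XT.lf (nat_lit 0) (nat_lit 31317237293478) (nat_lit 76) (nat_lit 3588466881688) (nat_lit 76) (nat_lit 3586924217327) (nat_lit 1) (nat_lit 4) (nat_lit 2) (nat_lit 5) (nat_lit 2) (nat_lit 4) (nat_lit 422) (nat_lit 331) (nat_lit 267))) (XT.nd (nat_lit 78) (nat_lit 0) (nat_lit 0) (XT.lf (nat_lit 0) (nat_lit 36086799802905) (nat_lit 76) (nat_lit 4089244128566) (nat_lit 76) (nat_lit 4087701437958) (nat_lit 1) (nat_lit 4) (nat_lit 2) (nat_lit 5) (nat_lit 2) (nat_lit 4) (nat_lit 423) (nat_lit 331) (nat_lit 266)) (XT.nd (nat_lit 78) (nat_lit 0) (nat_lit 0) (XT.lf (nat_lit 0) (nat_lit 41571794400200) (nat_lit 76) (nat_lit 4665139147220) (nat_lit 76) (nat_lit 4663596433790) (nat_lit 1) (nat_lit 4) (nat_lit 2) (nat_lit 5) (nat_lit 2) (nat_lit 4) (nat_lit 424) (nat_lit 331) (nat_lit 265)) (XT.lf (nat_lit 0) (nat_lit 47879536197050) (nat_lit 76) (nat_lit 5327419448885) (nat_lit 76)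 (nat_lit 5325876715610) (nat_lit 1) (nat_lit 4) (nat_lit 2) (nat_lit 5) (nat_lit 2) (nat_lit 4) (nat_lit 425) (nat_lit 331) (nat_lit 264)))))) (XT.nd (nat_lit 47892) (nat_lit 0) (nat_lit 2052) (XT.nd (nat_lit 47658) (nat_lit 0) (nat_lit 3040) (XT.nd (nat_lit 78) (nat_lit 0) (nat_lit 0) (XT.lf (nat_lit 0) (nat_lit 55133437532958) (nat_lit 76) (nat_lit 6089042691638) (nat_lit 76) (nat_lit 6087499941106) (nat_lit 1) (nat_lit 4) (nat_lit 2) (nat_lit 5) (nat_lit 2) (nat_lit 4) (nat_lit 426) (nat_lit 331) (nat_lit 263)) (XT.lf (nat_lit 0) (nat_lit 63475422564496) (nat_lit 76) (nat_lit 6964910199794) (nat_lit 76) (nat_lit 6963367434255) (nat_lit 1) (nat_lit 4) (nat_lit 2) (nat_lit 5) (nat_lit 2) (nat_lit 4) (nat_lit 427) (nat_lit 331) (nat_lit 262))) (XT.nd (nat_lit 78) (nat_lit 380) (nat_lit 0) (XT.lf (nat_lit 0) (nat_lit 647186709) (nat_lit 76) (nat_lit 2877173918) (nat_lit 76) (nat_lit 2877173918)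 (nat_lit 46) (nat_lit 4) (nat_lit 47) (nat_lit 5) (nat_lit 47) (nat_lit 4) (nat_lit 356) (nat_lit 332) (nat_lit 332)) (XT.nd (nat_lit 78) (nat_lit 228) (nat_lit 0) (XT.lf (nat_lit 0) (nat_lit 5740954646) (nat_lit 152) (nat_lit 2909015469) (nat_lit 0) (nat_lit 5061200405) (nat_lit 44) (nat_lit 5) (nat_lit 46) (nat_lit 4) (nat_lit 44) (nat_lit 4) (nat_lit 357) (nat_lit 332) (nat_lit 331)) (XT.lf (nat_lit 0) (nat_lit 3787188165) (nat_lit 152) (nat_lit 8330048638) (nat_lit 0) (nat_lit 2610479937) (nat_lit 41) (nat_lit 5) (nat_lit 43) (nat_lit 4) (nat_lit 41) (nat_lit 4) (nat_lit 358) (nat_lit 332) (nat_lit 330))))) (XT.nd (nat_lit 234) (nat_lit 456) (nat_lit 0) (XT.nd (nat_lit 78) (nat_lit 304) (nat_lit 0) (XT.lf (nat_lit 0) (nat_lit 477463636) (nat_lit 76) (nat_lit 546618217) (nat_lit 152) (nat_lit 14845019565) (nat_lit 38) (nat_lit 5) (nat_lit 39) (nat_lit 5) (nat_lit 40) (nat_lit 4) (nat_lit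 359) (nat_lit 332) (nat_lit 329)) (XT.nd (nat_lit 78) (nat_lit 228) (nat_lit 0) (XT.lf (nat_lit 0) (nat_lit 9995164284) (nat_lit 76) (nat_lit 4523291434) (nat_lit 76) (nat_lit 2609894487) (nat_lit 37) (nat_lit 4) (nat_lit 38) (nat_lit 5) (nat_lit 38) (nat_lit 4) (nat_lit 360) (nat_lit 332) (nat_lit 328)) (XT.lf (nat_lit 0) (nat_lit 1457971447) (nat_lit 76) (nat_lit 9582214941) (nat_lit 76) (nat_lit 7502026857) (nat_lit 34) (nat_lit 4) (nat_lit 35) (nat_lit 5) (nat_lit 35) (nat_lit 4) (nat_lit 361) (nat_lit 332) (nat_lit 327)))) (XT.nd (nat_lit 78) (nat_lit 304) (nat_lit 0) (XT.lf (nat_lit 0) (nat_lit 6476836420) (nat_lit 152) (nat_lit 9341028455) (nat_lit 0) (nat_lit 4302327127) (nat_lit 32) (nat_lit 5) (nat_lit 34) (nat_lit 4) (nat_lit 32) (nat_lit 4) (nat_lit 362) (nat_lit 332) (nat_lit 326)) (XT.nd (nat_lit 78) (nat_lit 152) (nat_lit 0) (XT.lf (nat_lit 0) (nat_lit 460325312) (nat_lit 152)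 (nat_lit 1433040656) (nat_lit 76) (nat_lit 20003100751) (nat_lit 30) (nat_lit 5) (nat_lit 32) (nat_lit 5) (nat_lit 31) (nat_lit 4) (nat_lit 363) (nat_lit 332) (nat_lit 325)) (XT.lf (nat_lit 0) (nat_lit 6711713084) (nat_lit 76) (nat_lit 9768889752) (nat_lit 76) (nat_lit 7381528307) (nat_lit 28) (nat_lit 4) (nat_lit 29) (nat_lit 5) (nat_lit 29) (nat_lit 4) (nat_lit 364) (nat_lit 332) (nat_lit 324))))))) (XT.nd (nat_lit 780) (nat_lit 684) (nat_lit 0) (XT.nd (nat_lit 390) (nat_lit 456) (nat_lit 0) (XT.nd (nat_lit 156) (nat_lit 456) (nat_lit 0) (XT.nd (nat_lit 78) (nat_lit 76) (nat_lit 0) (XT.lf (nat_lit 0) (nat_lit 8711916450) (nat_lit 152) (nat_lit 11002882864) (nat_lit 0) (nat_lit 6361364794) (nat_lit 26) (nat_lit 5) (nat_lit 28) (nat_lit 4) (nat_lit 26) (nat_lit 4) (nat_lit 365) (nat_lit 332) (nat_lit 323)) (XT.lf (nat_lit 0) (nat_lit 23454275724) (nat_lit 76) (nat_lit 3793872818) (nat_lit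 76) (nat_lit 1321554380) (nat_lit 25) (nat_lit 4) (nat_lit 26) (nat_lit 5) (nat_lit 26) (nat_lit 4) (nat_lit 366) (nat_lit 332) (nat_lit 322))) (XT.nd (nat_lit 78) (nat_lit 228) (nat_lit 0) (XT.lf (nat_lit 0) (nat_lit 47601410) (nat_lit 76) (nat_lit 16847019046) (nat_lit 76) (nat_lit 14459794419) (nat_lit 22) (nat_lit 4) (nat_lit 23) (nat_lit 5) (nat_lit 23) (nat_lit 4) (nat_lit 367) (nat_lit 332) (nat_lit 321)) (XT.nd (nat_lit 78) (nat_lit 76) (nat_lit 0) (XT.lf (nat_lit 0) (nat_lit 3634938293) (nat_lit 152) (nat_lit 29520594258) (nat_lit 0) (nat_lit 1345607208) (nat_lit 20) (nat_lit 5) (nat_lit 22) (nat_lit 4) (nat_lit 20) (nat_lit 4) (nat_lit 368) (nat_lit 332) (nat_lit 320)) (XT.lf (nat_lit 0) (nat_lit 8462778257) (nat_lit 76) (nat_lit 15959143658) (nat_lit 76) (nat_lit 13601170910) (nat_lit 19) (nat_lit 4) (nat_lit 20) (nat_lit 5) (nat_lit 20) (nat_lit 4) (nat_lit 369) (nat_lit 332) (nat_lit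 319))))) (XT.nd (nat_lit 156) (nat_lit 228) (nat_lit 0) (XT.nd (nat_lit 78) (nat_lit 76) (nat_lit 0) (XT.lf (nat_lit 0) (nat_lit 6441897969) (nat_lit 152) (nat_lit 31375999759) (nat_lit 0) (nat_lit 4203322829) (nat_lit 17) (nat_lit 5) (nat_lit 19) (nat_lit 4) (nat_lit 17) (nat_lit 4) (nat_lit 370) (nat_lit 332) (nat_lit 318)) (XT.lf (nat_lit 0) (nat_lit 10360057757) (nat_lit 76) (nat_lit 19222820053) (nat_lit 76) (nat_lit 16936186617) (nat_lit 16) (nat_lit 4) (nat_lit 17) (nat_lit 5) (nat_lit 17) (nat_lit 4) (nat_lit 371) (nat_lit 332) (nat_lit 317))) (XT.nd (nat_lit 78) (nat_lit 76) (nat_lit 0) (XT.lf (nat_lit 0) (nat_lit 4806868234) (nat_lit 152) (nat_lit 44182835061) (nat_lit 0) (nat_lit 2650920773) (nat_lit 14) (nat_lit 5) (nat_lit 16) (nat_lit 4) (nat_lit 14) (nat_lit 4) (nat_lit 372) (nat_lit 332) (nat_lit 316)) (XT.nd (nat_lit 78) (nat_lit 0) (nat_lit 0) (XT.lf (nat_lit 0) (nat_lit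 65752720) (nat_lit 76) (nat_lit 29768507043) (nat_lit 76) (nat_lit 27578912382) (nat_lit 13) (nat_lit 4) (nat_lit 14) (nat_lit 5) (nat_lit 14) (nat_lit 4) (nat_lit 373) (nat_lit 332) (nat_lit 315)) (XT.lf (nat_lit 0) (nat_lit 52464057543) (nat_lit 76) (nat_lit 6874296009) (nat_lit 76) (nat_lit 4655442914) (nat_lit 13) (nat_lit 4) (nat_lit 14) (nat_lit 5) (nat_lit 14) (nat_lit 4) (nat_lit 374) (nat_lit 332) (nat_lit 314)))))) (XT.nd (nat_lit 390) (nat_lit 228) (nat_lit 0) (XT.nd (nat_lit 156) (nat_lit 228) (nat_lit 0) (XT.nd (nat_lit 78) (nat_lit 76) (nat_lit 0) (XT.lf (nat_lit 0) (nat_lit 21614904507) (nat_lit 152) (nat_lit 30288457770) (nat_lit 0) (nat_lit 19536853385) (nat_lit 11) (nat_lit 5) (nat_lit 13) (nat_lit 4) (nat_lit 11) (nat_lit 4) (nat_lit 375) (nat_lit 332) (nat_lit 313)) (XT.lf (nat_lit 0) (nat_lit 22268183422) (nat_lit 76) (nat_lit 29887901424) (nat_lit 76) (nat_lit 27789365506)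 (nat_lit 10) (nat_lit 4) (nat_lit 11) (nat_lit 5) (nat_lit 11) (nat_lit 4) (nat_lit 376) (nat_lit 332) (nat_lit 312))) (XT.nd (nat_lit 78) (nat_lit 228) (nat_lit 0) (XT.lf (nat_lit 0) (nat_lit 83649935232) (nat_lit 76) (nat_lit 4078444846) (nat_lit 76) (nat_lit 1962096062) (nat_lit 10) (nat_lit 4) (nat_lit 11) (nat_lit 5) (nat_lit 11) (nat_lit 4) (nat_lit 377) (nat_lit 332) (nat_lit 311)) (XT.nd (nat_lit 78) (nat_lit 76) (nat_lit 0) (XT.lf (nat_lit 0) (nat_lit 27936995561) (nat_lit 152) (nat_lit 46816990343) (nat_lit 0) (nat_lit 25963071271) (nat_lit 8) (nat_lit 5) (nat_lit 10) (nat_lit 4) (nat_lit 8) (nat_lit 4) (nat_lit 378) (nat_lit 332) (nat_lit 310)) (XT.lf (nat_lit 0) (nat_lit 9362553949) (nat_lit 76) (nat_lit 53002292387) (nat_lit 76) (nat_lit 51015896720) (nat_lit 7) (nat_lit 4) (nat_lit 8) (nat_lit 5) (nat_lit 8) (nat_lit 4) (nat_lit 379) (nat_lit 332) (nat_lit 309))))) (XT.nd (nat_lit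 234) (nat_lit 76) (nat_lit 0) (XT.nd (nat_lit 78) (nat_lit 152) (nat_lit 0) (XT.lf (nat_lit 0) (nat_lit 76119282649) (nat_lit 76) (nat_lit 26869686269) (nat_lit 76) (nat_lit 24872445928) (nat_lit 7) (nat_lit 4) (nat_lit 8) (nat_lit 5) (nat_lit 8) (nat_lit 4) (nat_lit 380) (nat_lit 332) (nat_lit 308)) (XT.nd (nat_lit 78) (nat_lit 0) (nat_lit 0) (XT.lf (nat_lit 0) (nat_lit 4908150067) (nat_lit 152) (nat_lit 136547895245) (nat_lit 0) (nat_lit 3050121833) (nat_lit 5) (nat_lit 5) (nat_lit 7) (nat_lit 4) (nat_lit 5) (nat_lit 4) (nat_lit 381) (nat_lit 332) (nat_lit 307)) (XT.lf (nat_lit 0) (nat_lit 39736536769) (nat_lit 152) (nat_lit 85824222878) (nat_lit 0) (nat_lit 37870915819) (nat_lit 5) (nat_lit 5) (nat_lit 7) (nat_lit 4) (nat_lit 5) (nat_lit 4) (nat_lit 382) (nat_lit 332) (nat_lit 306)))) (XT.nd (nat_lit 78) (nat_lit 76) (nat_lit 0) (XT.lf (nat_lit 0) (nat_lit 79548191525) (nat_lit 152) (nat_lit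 27991129833) (nat_lit 0) (nat_lit 77675968214) (nat_lit 5) (nat_lit 5) (nat_lit 7) (nat_lit 4) (nat_lit 5) (nat_lit 4) (nat_lit 383) (nat_lit 332) (nat_lit 305)) (XT.nd (nat_lit 78) (nat_lit 0) (nat_lit 0) (XT.lf (nat_lit 0) (nat_lit 40088279001) (nat_lit 76) (nat_lit 85997883088) (nat_lit 76) (nat_lit 84119918595) (nat_lit 4) (nat_lit 4) (nat_lit 5) (nat_lit 5) (nat_lit 5) (nat_lit 4) (nat_lit 384) (nat_lit 332) (nat_lit 304)) (XT.lf (nat_lit 0) (nat_lit 119677368866) (nat_lit 76) (nat_lit 60550613188) (nat_lit 76) (nat_lit 58667656361) (nat_lit 4) (nat_lit 4) (nat_lit 5) (nat_lit 5) (nat_lit 5) (nat_lit 4) (nat_lit 385) (nat_lit 332) (nat_lit 303))))))))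
noncomputable def xc31 : XT := (XT.nd (nat_lit 1638) (nat_lit 0) (nat_lit 0) (XT.nd (nat_lit 780) (nat_lit 0) (nat_lit 0) (XT.nd (nat_lit 390) (nat_lit 76) (nat_lit 0) (XT.nd (nat_lit 156) (nat_lit 0) (nat_lit 0) (XT.nd (nat_lit 78) (nat_lit 152) (nat_lit 0) (XT.lf (nat_lit 0) (nat_lit 210859354314) (nat_lit 76) (nat_lit 31464957384) (nat_lit 76) (nat_lit 29577659398) (nat_lit 4) (nat_lit 4) (nat_lit 5) (nat_lit 5) (nat_lit 5) (nat_lit 4) (nat_lit 386) (nat_lit 332) (nat_lit 302)) (XT.lf (nat_lit 0) (nat_lit 3721228514) (nat_lit 152) (nat_lit 304157191029) (nat_lit 0) (nat_lit 1970235081) (nat_lit 2) (nat_lit 5) (nat_lit 4) (nat_lit 4) (nat_lit 2) (nat_lit 4) (nat_lit 387) (nat_lit 332) (nat_lit 301))) (XT.nd (nat_lit 78) (nat_lit 0) (nat_lit 0) (XT.lf (nat_lit 0) (nat_lit 42867340702) (nat_lit 152) (nat_lit 269236934699) (nat_lit 0) (nat_lit 41113307880) (nat_lit 2) (nat_lit 5) (nat_lit 4)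 (nat_lit 4) (nat_lit 2) (nat_lit 4) (nat_lit 388) (nat_lit 332) (nat_lit 300)) (XT.nd (nat_lit 78) (nat_lit 0) (nat_lit 0) (XT.lf (nat_lit 0) (nat_lit 87763918177) (nat_lit 152) (nat_lit 229330406910) (nat_lit 0) (nat_lit 86007242408) (nat_lit 2) (nat_lit 5) (nat_lit 4) (nat_lit 4) (nat_lit 2) (nat_lit 4) (nat_lit 389) (nat_lit 332) (nat_lit 299)) (XT.lf (nat_lit 0) (nat_lit 139289372237) (nat_lit 152) (nat_lit 183656827772) (nat_lit 0) (nat_lit 137530398254) (nat_lit 2) (nat_lit 5) (nat_lit 4) (nat_lit 4) (nat_lit 2) (nat_lit 4) (nat_lit 390) (nat_lit 332) (nat_lit 298))))) (XT.nd (nat_lit 156) (nat_lit 76) (nat_lit 0) (XT.nd (nat_lit 78) (nat_lit 0) (nat_lit 0) (XT.lf (nat_lit 0) (nat_lit 198451809594) (nat_lit 152) (nat_lit 131322583780) (nat_lit 0) (nat_lit 196690837162) (nat_lit 2) (nat_lit 5) (nat_lit 4) (nat_lit 4) (nat_lit 2) (nat_lit 4) (nat_lit 391) (nat_lit 332) (nat_lit 297)) (XT.lf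 (nat_lit 0) (nat_lit 266408756194) (nat_lit 152) (nat_lit 71303744072) (nat_lit 0) (nat_lit 264646045982) (nat_lit 2) (nat_lit 5) (nat_lit 4) (nat_lit 4) (nat_lit 2) (nat_lit 4) (nat_lit 392) (nat_lit 332) (nat_lit 296))) (XT.nd (nat_lit 78) (nat_lit 76) (nat_lit 0) (XT.lf (nat_lit 0) (nat_lit 344489804471) (nat_lit 152) (nat_lit 2426027003) (nat_lit 0) (nat_lit 342725583146) (nat_lit 2) (nat_lit 5) (nat_lit 4) (nat_lit 4) (nat_lit 2) (nat_lit 4) (nat_lit 393) (nat_lit 332) (nat_lit 295)) (XT.nd (nat_lit 78) (nat_lit 0) (nat_lit 0) (XT.lf (nat_lit 0) (nat_lit 80694858578) (nat_lit 76) (nat_lit 355468481821) (nat_lit 76) (nat_lit 353702946484) (nat_lit 1) (nat_lit 4) (nat_lit 2) (nat_lit 5) (nat_lit 2) (nat_lit 4) (nat_lit 394) (nat_lit 332) (nat_lit 294)) (XT.lf (nat_lit 0) (nat_lit 176316212375) (nat_lit 76) (nat_lit 365287063063) (nat_lit 76) (nat_lit 363520385107) (nat_lit 1) (nat_lit 4)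 (nat_lit 2) (nat_lit 5) (nat_lit 2) (nat_lit 4) (nat_lit 395) (nat_lit 332) (nat_lit 293)))))) (XT.nd (nat_lit 390) (nat_lit 0) (nat_lit 0) (XT.nd (nat_lit 156) (nat_lit 0) (nat_lit 0) (XT.nd (nat_lit 78) (nat_lit 0) (nat_lit 0) (XT.lf (nat_lit 0) (nat_lit 286181136681) (nat_lit 76) (nat_lit 376630009756) (nat_lit 76) (nat_lit 374862338218) (nat_lit 1) (nat_lit 4) (nat_lit 2) (nat_lit 5) (nat_lit 2) (nat_lit 4) (nat_lit 396) (nat_lit 332) (nat_lit 292)) (XT.lf (nat_lit 0) (nat_lit 412439162622) (nat_lit 76) (nat_lit 389719249116) (nat_lit 76) (nat_lit 387950713594) (nat_lit 1) (nat_lit 4) (nat_lit 2) (nat_lit 5) (nat_lit 2) (nat_lit 4) (nat_lit 397) (nat_lit 332) (nat_lit 291))) (XT.nd (nat_lit 78) (nat_lit 0) (nat_lit 0) (XT.lf (nat_lit 0) (nat_lit 557560555924) (nat_lit 76) (nat_lit 404810874957) (nat_lit 76) (nat_lit 403041588145) (nat_lit 1) (nat_lit 4) (nat_lit 2) (nat_lit 5) (nat_lit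 2) (nat_lit 4) (nat_lit 398) (nat_lit 332) (nat_lit 290)) (XT.nd (nat_lit 78) (nat_lit 0) (nat_lit 0) (XT.lf (nat_lit 0) (nat_lit 724384648194) (nat_lit 76) (nat_lit 422200158220) (nat_lit 76) (nat_lit 420430218112) (nat_lit 1) (nat_lit 4) (nat_lit 2) (nat_lit 5) (nat_lit 2) (nat_lit 4) (nat_lit 399) (nat_lit 332) (nat_lit 289)) (XT.lf (nat_lit 0) (nat_lit 916175389064) (nat_lit 76) (nat_lit 442227324012) (nat_lit 76) (nat_lit 440456815820) (nat_lit 1) (nat_lit 4) (nat_lit 2) (nat_lit 5) (nat_lit 2) (nat_lit 4) (nat_lit 400) (nat_lit 332) (nat_lit 288))))) (XT.nd (nat_lit 234) (nat_lit 0) (nat_lit 0) (XT.nd (nat_lit 78) (nat_lit 0) (nat_lit 0) (XT.lf (nat_lit 0) (nat_lit 1136685206073) (nat_lit 76) (nat_lit 465284208186) (nat_lit 76) (nat_lit 463513206008) (nat_lit 1) (nat_lit 4) (nat_lit 2) (nat_lit 5) (nat_lit 2) (nat_lit 4) (nat_lit 401) (nat_lit 332) (nat_lit 287)) (XT.nd (nat_lit 78)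 (nat_lit 0) (nat_lit 0) (XT.lf (nat_lit 0) (nat_lit 1390228421728) (nat_lit 76) (nat_lit 491821923692) (nat_lit 76) (nat_lit 490050491961) (nat_lit 1) (nat_lit 4) (nat_lit 2) (nat_lit 5) (nat_lit 2) (nat_lit 4) (nat_lit 402) (nat_lit 332) (nat_lit 286)) (XT.lf (nat_lit 0) (nat_lit 1681765664160) (nat_lit 76) (nat_lit 522359686704) (nat_lit 76) (nat_lit 520587881449) (nat_lit 1) (nat_lit 4) (nat_lit 2) (nat_lit 5) (nat_lit 2) (nat_lit 4) (nat_lit 403) (nat_lit 332) (nat_lit 285)))) (XT.nd (nat_lit 78) (nat_lit 0) (nat_lit 0) (XT.lf (nat_lit 0) (nat_lit 2017000922896) (nat_lit 76) (nat_lit 557494975193) (nat_lit 76) (nat_lit 555722845135) (nat_lit 1) (nat_lit 4) (nat_lit 2) (nat_lit 5) (nat_lit 2) (nat_lit 4) (nat_lit 404) (nat_lit 332) (nat_lit 284)) (XT.nd (nat_lit 78) (nat_lit 0) (nat_lit 0) (XT.lf (nat_lit 0) (nat_lit 2402493148650) (nat_lit 76) (nat_lit 597915218718) (nat_lit 76) (nat_lit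 596142806221) (nat_lit 1) (nat_lit 4) (nat_lit 2) (nat_lit 5) (nat_lit 2) (nat_lit 4) (nat_lit 405) (nat_lit 332) (nat_lit 283)) (XT.lf (nat_lit 0) (nat_lit 2845784580622) (nat_lit 76) (nat_lit 644411248129) (nat_lit 76) (nat_lit 642638590034) (nat_lit 1) (nat_lit 4) (nat_lit 2) (nat_lit 5) (nat_lit 2) (nat_lit 4) (nat_lit 406) (nat_lit 332) (nat_lit 282))))))) (XT.nd (nat_lit 780) (nat_lit 0) (nat_lit 0) (XT.nd (nat_lit 390) (nat_lit 0) (nat_lit 0) (XT.nd (nat_lit 156) (nat_lit 0) (nat_lit 0) (XT.nd (nat_lit 78) (nat_lit 0) (nat_lit 0) (XT.lf (nat_lit 0) (nat_lit 3355548312046) (nat_lit 76) (nat_lit 697892768349) (nat_lit 76) (nat_lit 696119896691) (nat_lit 1) (nat_lit 4) (nat_lit 2) (nat_lit 5) (nat_lit 2) (nat_lit 4) (nat_lit 407) (nat_lit 332) (nat_lit 281)) (XT.lf (nat_lit 0) (nat_lit 3941757981145) (nat_lit 76) (nat_lit 759406156949) (nat_lit 76) (nat_lit 757633099584) (nat_lit 1) (nat_lit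 4) (nat_lit 2) (nat_lit 5) (nat_lit 2) (nat_lit 4) (nat_lit 408) (nat_lit 332) (nat_lit 280))) (XT.nd (nat_lit 78) (nat_lit 0) (nat_lit 0) (XT.lf (nat_lit 0) (nat_lit 4615882907532) (nat_lit 76) (nat_lit 830154936749) (nat_lit 76) (nat_lit 828381717899) (nat_lit 1) (nat_lit 4) (nat_lit 2) (nat_lit 5) (nat_lit 2) (nat_lit 4) (nat_lit 409) (nat_lit 332) (nat_lit 279)) (XT.nd (nat_lit 78) (nat_lit 0) (nat_lit 0) (XT.lf (nat_lit 0) (nat_lit 5391112491941) (nat_lit 76) (nat_lit 911523323006) (nat_lit 76) (nat_lit 909749963734) (nat_lit 1) (nat_lit 4) (nat_lit 2) (nat_lit 5) (nat_lit 2) (nat_lit 4) (nat_lit 410) (nat_lit 332) (nat_lit 278)) (XT.lf (nat_lit 0) (nat_lit 6282614269719) (nat_lit 76) (nat_lit 1005103305885) (nat_lit 76) (nat_lit 1003329824508) (nat_lit 1) (nat_lit 4) (nat_lit 2) (nat_lit 5) (nat_lit 2) (nat_lit 4) (nat_lit 411) (nat_lit 332) (nat_lit 277))))) (XT.nd (nat_lit 156) (nat_lit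 0) (nat_lit 0) (XT.nd (nat_lit 78) (nat_lit 0) (nat_lit 0) (XT.lf (nat_lit 0) (nat_lit 7307830666953) (nat_lit 76) (nat_lit 1112725798096) (nat_lit 76) (nat_lit 1110952210539) (nat_lit 1) (nat_lit 4) (nat_lit 2) (nat_lit 5) (nat_lit 2) (nat_lit 4) (nat_lit 412) (nat_lit 332) (nat_lit 276)) (XT.lf (nat_lit 0) (nat_lit 8486820265328) (nat_lit 76) (nat_lit 1236496457094) (nat_lit 76) (nat_lit 1234722777208) (nat_lit 1) (nat_lit 4) (nat_lit 2) (nat_lit 5) (nat_lit 2) (nat_lit 4) (nat_lit 413) (nat_lit 332) (nat_lit 275))) (XT.nd (nat_lit 78) (nat_lit 0) (nat_lit 0) (XT.lf (nat_lit 0) (nat_lit 9842650252638) (nat_lit 76) (nat_lit 1378836882729) (nat_lit 76) (nat_lit 1377063122556) (nat_lit 1) (nat_lit 4) (nat_lit 2) (nat_lit 5) (nat_lit 2) (nat_lit 4) (nat_lit 414) (nat_lit 332) (nat_lit 274)) (XT.nd (nat_lit 78) (nat_lit 0) (nat_lit 0) (XT.lf (nat_lit 0) (nat_lit 11401847737331) (nat_lit 76) (nat_lit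 1542531996373) (nat_lit 76) (nat_lit 1540758166386) (nat_lit 1) (nat_lit 4) (nat_lit 2) (nat_lit 5) (nat_lit 2) (nat_lit 4) (nat_lit 415) (nat_lit 332) (nat_lit 273)) (XT.lf (nat_lit 0) (nat_lit 13194918757150) (nat_lit 76) (nat_lit 1730784528509) (nat_lit 76) (nat_lit 1729010637814) (nat_lit 1) (nat_lit 4) (nat_lit 2) (nat_lit 5) (nat_lit 2) (nat_lit 4) (nat_lit 416) (nat_lit 332) (nat_lit 272)))))) (XT.nd (nat_lit 390) (nat_lit 0) (nat_lit 0) (XT.nd (nat_lit 156) (nat_lit 0) (nat_lit 0) (XT.nd (nat_lit 78) (nat_lit 0) (nat_lit 0) (XT.lf (nat_lit 0) (nat_lit 15256945136397) (nat_lit 76) (nat_lit 1947277680854) (nat_lit 76) (nat_lit 1945503737370) (nat_lit 1) (nat_lit 4) (nat_lit 2) (nat_lit 5) (nat_lit 2) (nat_lit 4) (nat_lit 417) (nat_lit 332) (nat_lit 271)) (XT.lf (nat_lit 0) (nat_lit 17628270869447) (nat_lit 76) (nat_lit 2196247188997) (nat_lit 76) (nat_lit 2194473199609) (nat_lit 1) (nat_lit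 4) (nat_lit 2) (nat_lit 5) (nat_lit 2) (nat_lit 4) (nat_lit 418) (nat_lit 332) (nat_lit 270))) (XT.nd (nat_lit 78) (nat_lit 0) (nat_lit 0) (XT.lf (nat_lit 0) (nat_lit 20355291459775) (nat_lit 76) (nat_lit 2482564195489) (nat_lit 76) (nat_lit 2480790166184) (nat_lit 1) (nat_lit 4) (nat_lit 2) (nat_lit 5) (nat_lit 2) (nat_lit 4) (nat_lit 419) (nat_lit 332) (nat_lit 269)) (XT.nd (nat_lit 78) (nat_lit 0) (nat_lit 0) (XT.lf (nat_lit 0) (nat_lit 23491361658059) (nat_lit 76) (nat_lit 2811830554804) (nat_lit 76) (nat_lit 2810056490789) (nat_lit 1) (nat_lit 4) (nat_lit 2) (nat_lit 5) (nat_lit 2) (nat_lit 4) (nat_lit 420) (nat_lit 332) (nat_lit 268)) (XT.lf (nat_lit 0) (nat_lit 27097839359484) (nat_lit 76) (nat_lit 3190488434842) (nat_lit 76) (nat_lit 3188714340644) (nat_lit 1) (nat_lit 4) (nat_lit 2) (nat_lit 5) (nat_lit 2) (nat_lit 4) (nat_lit 421) (nat_lit 332) (nat_lit 267))))) (XT.nd (nat_lit 234)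 (nat_lit 0) (nat_lit 0) (XT.nd (nat_lit 78) (nat_lit 0) (nat_lit 0) (XT.lf (nat_lit 0) (nat_lit 31245286084296) (nat_lit 76) (nat_lit 3625946359343) (nat_lit 76) (nat_lit 3624172238899) (nat_lit 1) (nat_lit 4) (nat_lit 2) (nat_lit 5) (nat_lit 2) (nat_lit 4) (nat_lit 422) (nat_lit 332) (nat_lit 266)) (XT.nd (nat_lit 78) (nat_lit 0) (nat_lit 0) (XT.lf (nat_lit 0) (nat_lit 36014847529283) (nat_lit 76) (nat_lit 4126724157265) (nat_lit 76) (nat_lit 4124950013998) (nat_lit 1) (nat_lit 4) (nat_lit 2) (nat_lit 5) (nat_lit 2) (nat_lit 4) (nat_lit 423) (nat_lit 332) (nat_lit 265)) (XT.lf (nat_lit 0) (nat_lit 41499841200979) (nat_lit 76) (nat_lit 4702619655088) (nat_lit 76) (nat_lit 4700845491976) (nat_lit 1) (nat_lit 4) (nat_lit 2) (nat_lit 5) (nat_lit 2) (nat_lit 4) (nat_lit 424) (nat_lit 332) (nat_lit 264)))) (XT.nd (nat_lit 78) (nat_lit 0) (nat_lit 0) (XT.lf (nat_lit 0) (nat_lit 47807582192959) (nat_lit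 76) (nat_lit 5364900373422) (nat_lit 76) (nat_lit 5363126193053) (nat_lit 1) (nat_lit 4) (nat_lit 2) (nat_lit 5) (nat_lit 2) (nat_lit 4) (nat_lit 425) (nat_lit 332) (nat_lit 263)) (XT.nd (nat_lit 78) (nat_lit 0) (nat_lit 0) (XT.lf (nat_lit 0) (nat_lit 55061482828980) (nat_lit 76) (nat_lit 6126523978496) (nat_lit 76) (nat_lit 6124749783121) (nat_lit 1) (nat_lit 4) (nat_lit 2) (nat_lit 5) (nat_lit 2) (nat_lit 4) (nat_lit 426) (nat_lit 332) (nat_lit 262)) (XT.lf (nat_lit 0) (nat_lit 63403467251922) (nat_lit 76) (nat_lit 7002391801712) (nat_lit 76) (nat_lit 7000617593289) (nat_lit 1) (nat_lit 4) (nat_lit 2) (nat_lit 5) (nat_lit 2) (nat_lit 4) (nat_lit 427) (nat_lit 332) (nat_lit 261))))))))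
noncomputable def xc32 : XT := (XT.nd (nat_lit 1638) (nat_lit 912) (nat_lit 0) (XT.nd (nat_lit 780) (nat_lit 1368) (nat_lit 0) (XT.nd (nat_lit 390) (nat_lit 760) (nat_lit 0) (XT.nd (nat_lit 156) (nat_lit 608) (nat_lit 0) (XT.nd (nat_lit 78) (nat_lit 304) (nat_lit 0) (XT.lf (nat_lit 0) (nat_lit 3984319950) (nat_lit 152) (nat_lit 815086458) (nat_lit 152) (nat_lit 815086458) (nat_lit 53) (nat_lit 4) (nat_lit 55) (nat_lit 5) (nat_lit 55) (nat_lit 4) (nat_lit 354) (nat_lit 333) (nat_lit 333)) (XT.lf (nat_lit 0) (nat_lit 4601636752) (nat_lit 152) (nat_lit 4150060789) (nat_lit 152) (nat_lit 3238265640) (nat_lit 49) (nat_lit 4) (nat_lit 51) (nat_lit 5) (nat_lit 51) (nat_lit 4) (nat_lit 355) (nat_lit 333) (nat_lit 332))) (XT.nd (nat_lit 78) (nat_lit 380) (nat_lit 0) (XT.lf (nat_lit 0) (nat_lit 258307108) (nat_lit 76) (nat_lit 7083626211) (nat_lit 76) (nat_lit 5505236863) (nat_lit 46) (nat_lit 4) (nat_lit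 47) (nat_lit 5) (nat_lit 47) (nat_lit 4) (nat_lit 356) (nat_lit 333) (nat_lit 331)) (XT.nd (nat_lit 78) (nat_lit 228) (nat_lit 0) (XT.lf (nat_lit 0) (nat_lit 5391410419) (nat_lit 152) (nat_lit 5071443465) (nat_lit 0) (nat_lit 3338848156) (nat_lit 44) (nat_lit 5) (nat_lit 46) (nat_lit 4) (nat_lit 44) (nat_lit 4) (nat_lit 357) (nat_lit 333) (nat_lit 330)) (XT.lf (nat_lit 0) (nat_lit 2678682863) (nat_lit 152) (nat_lit 11893415219) (nat_lit 0) (nat_lit 302243856) (nat_lit 41) (nat_lit 5) (nat_lit 43) (nat_lit 4) (nat_lit 41) (nat_lit 4) (nat_lit 358) (nat_lit 333) (nat_lit 329))))) (XT.nd (nat_lit 156) (nat_lit 456) (nat_lit 0) (XT.nd (nat_lit 78) (nat_lit 228) (nat_lit 0) (XT.lf (nat_lit 0) (nat_lit 11660970614) (nat_lit 76) (nat_lit 3596873926) (nat_lit 76) (nat_lit 806592837) (nat_lit 40) (nat_lit 4) (nat_lit 41) (nat_lit 5) (nat_lit 41) (nat_lit 4) (nat_lit 359) (nat_lit 333) (nat_lit 328))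 (XT.lf (nat_lit 0) (nat_lit 3541646333) (nat_lit 76) (nat_lit 8382364529) (nat_lit 76) (nat_lit 5465564744) (nat_lit 37) (nat_lit 4) (nat_lit 38) (nat_lit 5) (nat_lit 38) (nat_lit 4) (nat_lit 360) (nat_lit 333) (nat_lit 327))) (XT.nd (nat_lit 78) (nat_lit 304) (nat_lit 0) (XT.lf (nat_lit 0) (nat_lit 7560716068) (nat_lit 152) (nat_lit 6717861957) (nat_lit 0) (nat_lit 4591693574) (nat_lit 35) (nat_lit 5) (nat_lit 37) (nat_lit 4) (nat_lit 35) (nat_lit 4) (nat_lit 361) (nat_lit 333) (nat_lit 326)) (XT.nd (nat_lit 78) (nat_lit 76) (nat_lit 0) (XT.lf (nat_lit 0) (nat_lit 743402733) (nat_lit 76) (nat_lit 1153575094) (nat_lit 152) (nat_lit 18635627257) (nat_lit 32) (nat_lit 5) (nat_lit 33) (nat_lit 5) (nat_lit 34) (nat_lit 4) (nat_lit 362) (nat_lit 333) (nat_lit 325)) (XT.lf (nat_lit 0) (nat_lit 8644967742) (nat_lit 76) (nat_lit 8437671100) (nat_lit 76) (nat_lit 5284735130) (nat_lit 31) (nat_lit 4)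 (nat_lit 32) (nat_lit 5) (nat_lit 32) (nat_lit 4) (nat_lit 363) (nat_lit 333) (nat_lit 324)))))) (XT.nd (nat_lit 390) (nat_lit 684) (nat_lit 0) (XT.nd (nat_lit 156) (nat_lit 380) (nat_lit 0) (XT.nd (nat_lit 78) (nat_lit 152) (nat_lit 0) (XT.lf (nat_lit 0) (nat_lit 9950809869) (nat_lit 152) (nat_lit 7596137350) (nat_lit 0) (nat_lit 6880190368) (nat_lit 29) (nat_lit 5) (nat_lit 31) (nat_lit 4) (nat_lit 29) (nat_lit 4) (nat_lit 364) (nat_lit 333) (nat_lit 323)) (XT.lf (nat_lit 0) (nat_lit 861429633) (nat_lit 152) (nat_lit 1410353988) (nat_lit 76) (nat_lit 24471888111) (nat_lit 27) (nat_lit 5) (nat_lit 29) (nat_lit 5) (nat_lit 28) (nat_lit 4) (nat_lit 365) (nat_lit 333) (nat_lit 322))) (XT.nd (nat_lit 78) (nat_lit 228) (nat_lit 0) (XT.lf (nat_lit 0) (nat_lit 4603090502) (nat_lit 76) (nat_lit 13888704536) (nat_lit 76) (nat_lit 10817887391) (nat_lit 25) (nat_lit 4) (nat_lit 26) (nat_lit 5) (nat_lit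 26) (nat_lit 4) (nat_lit 366) (nat_lit 333) (nat_lit 321)) (XT.nd (nat_lit 78) (nat_lit 76) (nat_lit 0) (XT.lf (nat_lit 0) (nat_lit 6755243664) (nat_lit 152) (nat_lit 21620229329) (nat_lit 0) (nat_lit 3826641510) (nat_lit 23) (nat_lit 5) (nat_lit 25) (nat_lit 4) (nat_lit 23) (nat_lit 4) (nat_lit 367) (nat_lit 333) (nat_lit 320)) (XT.lf (nat_lit 0) (nat_lit 15884900790) (nat_lit 76) (nat_lit 11278309218) (nat_lit 76) (nat_lit 8275574068) (nat_lit 22) (nat_lit 4) (nat_lit 23) (nat_lit 5) (nat_lit 23) (nat_lit 4) (nat_lit 368) (nat_lit 333) (nat_lit 319))))) (XT.nd (nat_lit 234) (nat_lit 304) (nat_lit 0) (XT.nd (nat_lit 78) (nat_lit 228) (nat_lit 0) (XT.lf (nat_lit 0) (nat_lit 11621290292) (nat_lit 152) (nat_lit 18678406702) (nat_lit 0) (nat_lit 8781291565) (nat_lit 20) (nat_lit 5) (nat_lit 22) (nat_lit 4) (nat_lit 20) (nat_lit 4) (nat_lit 369) (nat_lit 333) (nat_lit 318)) (XT.nd (nat_lit 78)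 (nat_lit 152) (nat_lit 0) (XT.lf (nat_lit 0) (nat_lit 23709918825) (nat_lit 76) (nat_lit 11181987498) (nat_lit 76) (nat_lit 8290085812) (nat_lit 19) (nat_lit 4) (nat_lit 20) (nat_lit 5) (nat_lit 20) (nat_lit 4) (nat_lit 370) (nat_lit 333) (nat_lit 317)) (XT.lf (nat_lit 0) (nat_lit 13958779696) (nat_lit 152) (nat_lit 22602249768) (nat_lit 0) (nat_lit 11239303127) (nat_lit 17) (nat_lit 5) (nat_lit 19) (nat_lit 4) (nat_lit 17) (nat_lit 4) (nat_lit 371) (nat_lit 333) (nat_lit 316)))) (XT.nd (nat_lit 78) (nat_lit 228) (nat_lit 0) (XT.lf (nat_lit 0) (nat_lit 24253188823) (nat_lit 76) (nat_lit 15760048180) (nat_lit 76) (nat_lit 13004232636) (nat_lit 16) (nat_lit 4) (nat_lit 17) (nat_lit 5) (nat_lit 17) (nat_lit 4) (nat_lit 372) (nat_lit 333) (nat_lit 315)) (XT.nd (nat_lit 78) (nat_lit 76) (nat_lit 0) (XT.lf (nat_lit 0) (nat_lit 11296753601) (nat_lit 152) (nat_lit 38912625254) (nat_lit 0) (nat_lit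 8715814108) (nat_lit 14) (nat_lit 5) (nat_lit 16) (nat_lit 4) (nat_lit 14) (nat_lit 4) (nat_lit 373) (nat_lit 333) (nat_lit 314)) (XT.lf (nat_lit 0) (nat_lit 10966175145) (nat_lit 76) (nat_lit 28621537568) (nat_lit 76) (nat_lit 26015155957) (nat_lit 13) (nat_lit 4) (nat_lit 14) (nat_lit 5) (nat_lit 14) (nat_lit 4) (nat_lit 374) (nat_lit 333) (nat_lit 313))))))) (XT.nd (nat_lit 780) (nat_lit 304) (nat_lit 0) (XT.nd (nat_lit 390) (nat_lit 228) (nat_lit 0) (XT.nd (nat_lit 156) (nat_lit 228) (nat_lit 0) (XT.nd (nat_lit 78) (nat_lit 152) (nat_lit 0) (XT.lf (nat_lit 0) (nat_lit 69803717928) (nat_lit 76) (nat_lit 3025226905) (nat_lit 76) (nat_lit 396721714) (nat_lit 13) (nat_lit 4) (nat_lit 14) (nat_lit 5) (nat_lit 14) (nat_lit 4) (nat_lit 375) (nat_lit 333) (nat_lit 312)) (XT.lf (nat_lit 0) (nat_lit 29276226102) (nat_lit 152) (nat_lit 25701872976) (nat_lit 0) (nat_lit 26824612133) (nat_lit 11) (nat_lit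 5) (nat_lit 13) (nat_lit 4) (nat_lit 11) (nat_lit 4) (nat_lit 376) (nat_lit 333) (nat_lit 311))) (XT.nd (nat_lit 78) (nat_lit 152) (nat_lit 0) (XT.lf (nat_lit 0) (nat_lit 33965467774) (nat_lit 76) (nat_lit 30057700625) (nat_lit 76) (nat_lit 27590597208) (nat_lit 10) (nat_lit 4) (nat_lit 11) (nat_lit 5) (nat_lit 11) (nat_lit 4) (nat_lit 377) (nat_lit 333) (nat_lit 310)) (XT.nd (nat_lit 78) (nat_lit 0) (nat_lit 0) (XT.lf (nat_lit 0) (nat_lit 594358205) (nat_lit 76) (nat_lit 883973866) (nat_lit 152) (nat_lit 101380300458) (nat_lit 8) (nat_lit 5) (nat_lit 9) (nat_lit 5) (nat_lit 10) (nat_lit 4) (nat_lit 378) (nat_lit 333) (nat_lit 309)) (XT.lf (nat_lit 0) (nat_lit 35513492376) (nat_lit 152) (nat_lit 46834420225) (nat_lit 0) (nat_lit 33205821309) (nat_lit 8) (nat_lit 5) (nat_lit 10) (nat_lit 4) (nat_lit 8) (nat_lit 4) (nat_lit 379) (nat_lit 333) (nat_lit 308))))) (XT.nd (nat_lit 156) (nat_lit 152)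 (nat_lit 0) (XT.nd (nat_lit 78) (nat_lit 0) (nat_lit 0) (XT.lf (nat_lit 0) (nat_lit 17179107306) (nat_lit 76) (nat_lit 57638980986) (nat_lit 76) (nat_lit 55321879767) (nat_lit 7) (nat_lit 4) (nat_lit 8) (nat_lit 5) (nat_lit 8) (nat_lit 4) (nat_lit 380) (nat_lit 333) (nat_lit 307)) (XT.lf (nat_lit 0) (nat_lit 93112975277) (nat_lit 76) (nat_lit 28018699854) (nat_lit 76) (nat_lit 25693398503) (nat_lit 7) (nat_lit 4) (nat_lit 8) (nat_lit 5) (nat_lit 8) (nat_lit 4) (nat_lit 381) (nat_lit 333) (nat_lit 306))) (XT.nd (nat_lit 78) (nat_lit 0) (nat_lit 0) (XT.lf (nat_lit 0) (nat_lit 8239217857) (nat_lit 152) (nat_lit 151655724369) (nat_lit 0) (nat_lit 6079558690) (nat_lit 5) (nat_lit 5) (nat_lit 7) (nat_lit 4) (nat_lit 5) (nat_lit 4) (nat_lit 382) (nat_lit 333) (nat_lit 305)) (XT.nd (nat_lit 78) (nat_lit 0) (nat_lit 0) (XT.lf (nat_lit 0) (nat_lit 47953404484) (nat_lit 152) (nat_lit 94024503994) (nat_lit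 0) (nat_lit 45788004133) (nat_lit 5) (nat_lit 5) (nat_lit 7) (nat_lit 4) (nat_lit 5) (nat_lit 4) (nat_lit 383) (nat_lit 333) (nat_lit 304)) (XT.lf (nat_lit 0) (nat_lit 93442496079) (nat_lit 152) (nat_lit 28126014686) (nat_lit 0) (nat_lit 91272103395) (nat_lit 5) (nat_lit 5) (nat_lit 7) (nat_lit 4) (nat_lit 5) (nat_lit 4) (nat_lit 384) (nat_lit 333) (nat_lit 303)))))) (XT.nd (nat_lit 390) (nat_lit 76) (nat_lit 0) (XT.nd (nat_lit 156) (nat_lit 152) (nat_lit 0) (XT.nd (nat_lit 78) (nat_lit 0) (nat_lit 0) (XT.lf (nat_lit 0) (nat_lit 49821326346) (nat_lit 76) (nat_lit 96973374360) (nat_lit 76) (nat_lit 94798640517) (nat_lit 4) (nat_lit 4) (nat_lit 5) (nat_lit 5) (nat_lit 5) (nat_lit 4) (nat_lit 385) (nat_lit 333) (nat_lit 302)) (XT.lf (nat_lit 0) (nat_lit 140863587670) (nat_lit 76) (nat_lit 67959995435) (nat_lit 76) (nat_lit 65781486670) (nat_lit 4) (nat_lit 4) (nat_lit 5) (nat_lit 5) (nat_lit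 5) (nat_lit 4) (nat_lit 386) (nat_lit 333) (nat_lit 301))) (XT.nd (nat_lit 78) (nat_lit 152) (nat_lit 0) (XT.lf (nat_lit 0) (nat_lit 245300964830) (nat_lit 76) (nat_lit 34729736008) (nat_lit 76) (nat_lit 32547944703) (nat_lit 4) (nat_lit 4) (nat_lit 5) (nat_lit 5) (nat_lit 5) (nat_lit 4) (nat_lit 387) (nat_lit 333) (nat_lit 300)) (XT.nd (nat_lit 78) (nat_lit 0) (nat_lit 0) (XT.lf (nat_lit 0) (nat_lit 5587135196) (nat_lit 152) (nat_lit 347069883241) (nat_lit 0) (nat_lit 3564315115) (nat_lit 2) (nat_lit 5) (nat_lit 4) (nat_lit 4) (nat_lit 2) (nat_lit 4) (nat_lit 388) (nat_lit 333) (nat_lit 299)) (XT.lf (nat_lit 0) (nat_lit 50434591725) (nat_lit 152) (nat_lit 307265182345) (nat_lit 0) (nat_lit 48409473428) (nat_lit 2) (nat_lit 5) (nat_lit 4) (nat_lit 4) (nat_lit 2) (nat_lit 4) (nat_lit 389) (nat_lit 333) (nat_lit 298))))) (XT.nd (nat_lit 234) (nat_lit 76) (nat_lit 0) (XT.nd (nat_lit 78) (nat_lit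 0) (nat_lit 0) (XT.lf (nat_lit 0) (nat_lit 101917331918) (nat_lit 152) (nat_lit 261680148331) (nat_lit 0) (nat_lit 99890215175) (nat_lit 2) (nat_lit 5) (nat_lit 4) (nat_lit 4) (nat_lit 2) (nat_lit 4) (nat_lit 390) (nat_lit 333) (nat_lit 297)) (XT.nd (nat_lit 78) (nat_lit 0) (nat_lit 0) (XT.lf (nat_lit 0) (nat_lit 161042626782) (nat_lit 152) (nat_lit 209422900098) (nat_lit 0) (nat_lit 159013772258) (nat_lit 2) (nat_lit 5) (nat_lit 4) (nat_lit 4) (nat_lit 2) (nat_lit 4) (nat_lit 391) (nat_lit 333) (nat_lit 296)) (XT.lf (nat_lit 0) (nat_lit 228967275562) (nat_lit 152) (nat_lit 149471013225) (nat_lit 0) (nat_lit 226936909924) (nat_lit 2) (nat_lit 5) (nat_lit 4) (nat_lit 4) (nat_lit 2) (nat_lit 4) (nat_lit 392) (nat_lit 333) (nat_lit 295)))) (XT.nd (nat_lit 78) (nat_lit 76) (nat_lit 0) (XT.lf (nat_lit 0) (nat_lit 307020238779) (nat_lit 152) (nat_lit 80651516012) (nat_lit 0) (nat_lit 304988559129)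 (nat_lit 2) (nat_lit 5) (nat_lit 4) (nat_lit 4) (nat_lit 2) (nat_lit 4) (nat_lit 393) (nat_lit 333) (nat_lit 294)) (XT.nd (nat_lit 78) (nat_lit 76) (nat_lit 0) (XT.lf (nat_lit 0) (nat_lit 396728639625) (nat_lit 152) (nat_lit 1617940035) (nat_lit 0) (nat_lit 394695817357) (nat_lit 2) (nat_lit 5) (nat_lit 4) (nat_lit 4) (nat_lit 2) (nat_lit 4) (nat_lit 394) (nat_lit 333) (nat_lit 293)) (XT.lf (nat_lit 0) (nat_lit 93871875180) (nat_lit 76) (nat_lit 408233388141) (nat_lit 76) (nat_lit 406199572291) (nat_lit 1) (nat_lit 4) (nat_lit 2) (nat_lit 5) (nat_lit 2) (nat_lit 4) (nat_lit 395) (nat_lit 333) (nat_lit 292))))))))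
noncomputable def xc33 : XT := (XT.nd (nat_lit 1638) (nat_lit 0) (nat_lit 0) (XT.nd (nat_lit 780) (nat_lit 0) (nat_lit 0) (XT.nd (nat_lit 390) (nat_lit 0) (nat_lit 0) (XT.nd (nat_lit 156) (nat_lit 0) (nat_lit 0) (XT.nd (nat_lit 78) (nat_lit 0) (nat_lit 0) (XT.lf (nat_lit 0) (nat_lit 203696503202) (nat_lit 76) (nat_lit 419597195607) (nat_lit 76) (nat_lit 417562515773) (nat_lit 1) (nat_lit 4) (nat_lit 2) (nat_lit 5) (nat_lit 2) (nat_lit 4) (nat_lit 396) (nat_lit 333) (nat_lit 291)) (XT.lf (nat_lit 0) (nat_lit 329919488896) (nat_lit 76) (nat_lit 432704574771) (nat_lit 76) (nat_lit 430669143646) (nat_lit 1) (nat_lit 4) (nat_lit 2) (nat_lit 5) (nat_lit 2) (nat_lit 4) (nat_lit 397) (nat_lit 333) (nat_lit 290))) (XT.nd (nat_lit 78) (nat_lit 0) (nat_lit 0) (XT.lf (nat_lit 0) (nat_lit 475010412418) (nat_lit 76) (nat_lit 447811974354) (nat_lit 76) (nat_lit 445775889933) (nat_lit 1) (nat_lit 4) (nat_lit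 2) (nat_lit 5) (nat_lit 2) (nat_lit 4) (nat_lit 398) (nat_lit 333) (nat_lit 289)) (XT.nd (nat_lit 78) (nat_lit 0) (nat_lit 0) (XT.lf (nat_lit 0) (nat_lit 641808009228) (nat_lit 76) (nat_lit 465214973915) (nat_lit 76) (nat_lit 463178321410) (nat_lit 1) (nat_lit 4) (nat_lit 2) (nat_lit 5) (nat_lit 2) (nat_lit 4) (nat_lit 399) (nat_lit 333) (nat_lit 288)) (XT.lf (nat_lit 0) (nat_lit 833575710567) (nat_lit 76) (nat_lit 485254066922) (nat_lit 76) (nat_lit 483216920432) (nat_lit 1) (nat_lit 4) (nat_lit 2) (nat_lit 5) (nat_lit 2) (nat_lit 4) (nat_lit 400) (nat_lit 333) (nat_lit 287))))) (XT.nd (nat_lit 156) (nat_lit 0) (nat_lit 0) (XT.nd (nat_lit 78) (nat_lit 0) (nat_lit 0) (XT.lf (nat_lit 0) (nat_lit 1054065493201) (nat_lit 76) (nat_lit 508321322587) (nat_lit 76) (nat_lit 506283746544) (nat_lit 1) (nat_lit 4) (nat_lit 2) (nat_lit 5) (nat_lit 2) (nat_lit 4) (nat_lit 401) (nat_lit 333) (nat_lit 286))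 (XT.lf (nat_lit 0) (nat_lit 1307591287660) (nat_lit 76) (nat_lit 534868056781) (nat_lit 76) (nat_lit 532830107214) (nat_lit 1) (nat_lit 4) (nat_lit 2) (nat_lit 5) (nat_lit 2) (nat_lit 4) (nat_lit 402) (nat_lit 333) (nat_lit 285))) (XT.nd (nat_lit 78) (nat_lit 0) (nat_lit 0) (XT.lf (nat_lit 0) (nat_lit 1599113381227) (nat_lit 76) (nat_lit 565413662131) (nat_lit 76) (nat_lit 563375387760) (nat_lit 1) (nat_lit 4) (nat_lit 2) (nat_lit 5) (nat_lit 2) (nat_lit 4) (nat_lit 403) (nat_lit 333) (nat_lit 284)) (XT.nd (nat_lit 78) (nat_lit 0) (nat_lit 0) (XT.lf (nat_lit 0) (nat_lit 1934335467036) (nat_lit 76) (nat_lit 600555770044) (nat_lit 76) (nat_lit 598517213235) (nat_lit 1) (nat_lit 4) (nat_lit 2) (nat_lit 5) (nat_lit 2) (nat_lit 4) (nat_lit 404) (nat_lit 333) (nat_lit 283)) (XT.lf (nat_lit 0) (nat_lit 2319816238072) (nat_lit 76) (nat_lit 640981943502) (nat_lit 76) (nat_lit 638943141096) (nat_lit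 1) (nat_lit 4) (nat_lit 2) (nat_lit 5) (nat_lit 2) (nat_lit 4) (nat_lit 405) (nat_lit 333) (nat_lit 282)))))) (XT.nd (nat_lit 390) (nat_lit 0) (nat_lit 0) (XT.nd (nat_lit 156) (nat_lit 0) (nat_lit 0) (XT.nd (nat_lit 78) (nat_lit 0) (nat_lit 0) (XT.lf (nat_lit 0) (nat_lit 2763097709418) (nat_lit 76) (nat_lit 687483129378) (nat_lit 76) (nat_lit 685444113407) (nat_lit 1) (nat_lit 4) (nat_lit 2) (nat_lit 5) (nat_lit 2) (nat_lit 4) (nat_lit 406) (nat_lit 333) (nat_lit 281)) (XT.lf (nat_lit 0) (nat_lit 3272852779429) (nat_lit 76) (nat_lit 740969133480) (nat_lit 76) (nat_lit 738929931802) (nat_lit 1) (nat_lit 4) (nat_lit 2) (nat_lit 5) (nat_lit 2) (nat_lit 4) (nat_lit 407) (nat_lit 333) (nat_lit 280))) (XT.nd (nat_lit 78) (nat_lit 0) (nat_lit 0) (XT.lf (nat_lit 0) (nat_lit 3859054916864) (nat_lit 76) (nat_lit 802486421108) (nat_lit 76) (nat_lit 800447057945) (nat_lit 1) (nat_lit 4) (nat_lit 2) (nat_lit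 5) (nat_lit 2) (nat_lit 4) (nat_lit 408) (nat_lit 333) (nat_lit 279)) (XT.nd (nat_lit 78) (nat_lit 0) (nat_lit 0) (XT.lf (nat_lit 0) (nat_lit 4533173293979) (nat_lit 76) (nat_lit 873238591367) (nat_lit 76) (nat_lit 871199087783) (nat_lit 1) (nat_lit 4) (nat_lit 2) (nat_lit 5) (nat_lit 2) (nat_lit 4) (nat_lit 409) (nat_lit 333) (nat_lit 278)) (XT.lf (nat_lit 0) (nat_lit 5308397183368) (nat_lit 76) (nat_lit 954609925849) (nat_lit 76) (nat_lit 952570300159) (nat_lit 1) (nat_lit 4) (nat_lit 2) (nat_lit 5) (nat_lit 2) (nat_lit 4) (nat_lit 410) (nat_lit 333) (nat_lit 277))))) (XT.nd (nat_lit 234) (nat_lit 0) (nat_lit 0) (XT.nd (nat_lit 78) (nat_lit 0) (nat_lit 0) (XT.lf (nat_lit 0) (nat_lit 6199894008955) (nat_lit 76) (nat_lit 1048192472402) (nat_lit 76) (nat_lit 1046152740533) (nat_lit 1) (nat_lit 4) (nat_lit 2) (nat_lit 5) (nat_lit 2) (nat_lit 4) (nat_lit 411) (nat_lit 333) (nat_lit 276)) (XT.nd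 (nat_lit 78) (nat_lit 0) (nat_lit 0) (XT.lf (nat_lit 0) (nat_lit 7225106099936) (nat_lit 76) (nat_lit 1155817193895) (nat_lit 76) (nat_lit 1153777369696) (nat_lit 1) (nat_lit 4) (nat_lit 2) (nat_lit 5) (nat_lit 2) (nat_lit 4) (nat_lit 412) (nat_lit 333) (nat_lit 275)) (XT.lf (nat_lit 0) (nat_lit 8404091953743) (nat_lit 76) (nat_lit 1279589791398) (nat_lit 76) (nat_lit 1277549886913) (nat_lit 1) (nat_lit 4) (nat_lit 2) (nat_lit 5) (nat_lit 2) (nat_lit 4) (nat_lit 413) (nat_lit 333) (nat_lit 274)))) (XT.nd (nat_lit 78) (nat_lit 0) (nat_lit 0) (XT.lf (nat_lit 0) (nat_lit 9759918684907) (nat_lit 76) (nat_lit 1421931902691) (nat_lit 76) (nat_lit 1419891928392) (nat_lit 1) (nat_lit 4) (nat_lit 2) (nat_lit 5) (nat_lit 2) (nat_lit 4) (nat_lit 414) (nat_lit 333) (nat_lit 273)) (XT.nd (nat_lit 78) (nat_lit 0) (nat_lit 0) (XT.lf (nat_lit 0) (nat_lit 11319113338168) (nat_lit 76) (nat_lit 1585628482124)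 (nat_lit 76) (nat_lit 1583588447116) (nat_lit 1) (nat_lit 4) (nat_lit 2) (nat_lit 5) (nat_lit 2) (nat_lit 4) (nat_lit 415) (nat_lit 333) (nat_lit 272)) (XT.lf (nat_lit 0) (nat_lit 13112181895874) (nat_lit 76) (nat_lit 1773882288859) (nat_lit 76) (nat_lit 1771842201062) (nat_lit 1) (nat_lit 4) (nat_lit 2) (nat_lit 5) (nat_lit 2) (nat_lit 4) (nat_lit 416) (nat_lit 333) (nat_lit 271))))))) (XT.nd (nat_lit 780) (nat_lit 0) (nat_lit 0) (XT.nd (nat_lit 390) (nat_lit 0) (nat_lit 0) (XT.nd (nat_lit 156) (nat_lit 0) (nat_lit 0) (XT.nd (nat_lit 78) (nat_lit 0) (nat_lit 0) (XT.lf (nat_lit 0) (nat_lit 15174206134151) (nat_lit 76) (nat_lit 1990376549551) (nat_lit 76) (nat_lit 1988336415850) (nat_lit 1) (nat_lit 4) (nat_lit 2) (nat_lit 5) (nat_lit 2) (nat_lit 4) (nat_lit 417) (nat_lit 333) (nat_lit 270)) (XT.lf (nat_lit 0) (nat_lit 17545530005490) (nat_lit 76) (nat_lit 2239347021475) (nat_lit 76) (nat_lit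 2237306847857) (nat_lit 1) (nat_lit 4) (nat_lit 2) (nat_lit 5) (nat_lit 2) (nat_lit 4) (nat_lit 418) (nat_lit 333) (nat_lit 269))) (XT.nd (nat_lit 78) (nat_lit 0) (nat_lit 0) (XT.lf (nat_lit 0) (nat_lit 20272548976937) (nat_lit 76) (nat_lit 2525664866036) (nat_lit 76) (nat_lit 2523624657708) (nat_lit 1) (nat_lit 4) (nat_lit 2) (nat_lit 5) (nat_lit 2) (nat_lit 4) (nat_lit 419) (nat_lit 333) (nat_lit 268)) (XT.nd (nat_lit 78) (nat_lit 0) (nat_lit 0) (XT.lf (nat_lit 0) (nat_lit 23408617767500) (nat_lit 76) (nat_lit 2854931954107) (nat_lit 76) (nat_lit 2852891715597) (nat_lit 1) (nat_lit 4) (nat_lit 2) (nat_lit 5) (nat_lit 2) (nat_lit 4) (nat_lit 420) (nat_lit 333) (nat_lit 267)) (XT.lf (nat_lit 0) (nat_lit 27015094244819) (nat_lit 76) (nat_lit 3233590467846) (nat_lit 76) (nat_lit 3231550203090) (nat_lit 1) (nat_lit 4) (nat_lit 2) (nat_lit 5) (nat_lit 2) (nat_lit 4) (nat_lit 421) (nat_lit 333)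 (nat_lit 266))))) (XT.nd (nat_lit 156) (nat_lit 0) (nat_lit 0) (XT.nd (nat_lit 78) (nat_lit 0) (nat_lit 0) (XT.lf (nat_lit 0) (nat_lit 31162539905191) (nat_lit 76) (nat_lit 3669048943391) (nat_lit 76) (nat_lit 3667008655813) (nat_lit 1) (nat_lit 4) (nat_lit 2) (nat_lit 5) (nat_lit 2) (nat_lit 4) (nat_lit 422) (nat_lit 333) (nat_lit 265)) (XT.lf (nat_lit 0) (nat_lit 35932100424578) (nat_lit 76) (nat_lit 4169827220482) (nat_lit 76) (nat_lit 4167786913058) (nat_lit 1) (nat_lit 4) (nat_lit 2) (nat_lit 5) (nat_lit 2) (nat_lit 4) (nat_lit 423) (nat_lit 333) (nat_lit 264))) (XT.nd (nat_lit 78) (nat_lit 0) (nat_lit 0) (XT.lf (nat_lit 0) (nat_lit 41417093291404) (nat_lit 76) (nat_lit 4745723134974) (nat_lit 76) (nat_lit 4743682810293) (nat_lit 1) (nat_lit 4) (nat_lit 2) (nat_lit 5) (nat_lit 2) (nat_lit 4) (nat_lit 424) (nat_lit 333) (nat_lit 263)) (XT.nd (nat_lit 78) (nat_lit 0) (nat_lit 0) (XT.lf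 (nat_lit 0) (nat_lit 47724833583498) (nat_lit 76) (nat_lit 5408004215629) (nat_lit 76) (nat_lit 5405963875941) (nat_lit 1) (nat_lit 4) (nat_lit 2) (nat_lit 5) (nat_lit 2) (nat_lit 4) (nat_lit 425) (nat_lit 333) (nat_lit 262)) (XT.lf (nat_lit 0) (nat_lit 54978733610923) (nat_lit 76) (nat_lit 6169628135764) (nat_lit 76) (nat_lit 6167587783028) (nat_lit 1) (nat_lit 4) (nat_lit 2) (nat_lit 5) (nat_lit 2) (nat_lit 4) (nat_lit 426) (nat_lit 333) (nat_lit 261)))))) (XT.nd (nat_lit 47580) (nat_lit 0) (nat_lit 2584) (XT.nd (nat_lit 47346) (nat_lit 0) (nat_lit 3648) (XT.nd (nat_lit 47268) (nat_lit 0) (nat_lit 4408) (XT.lf (nat_lit 0) (nat_lit 63320717504649) (nat_lit 76) (nat_lit 7045496232947) (nat_lit 76) (nat_lit 7043455868864) (nat_lit 1) (nat_lit 4) (nat_lit 2) (nat_lit 5) (nat_lit 2) (nat_lit 4) (nat_lit 427) (nat_lit 333) (nat_lit 260)) (XT.lf (nat_lit 0) (nat_lit 886205425) (nat_lit 152) (nat_lit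 3184203947) (nat_lit 0) (nat_lit 886205425) (nat_lit 59) (nat_lit 5) (nat_lit 61) (nat_lit 4) (nat_lit 59) (nat_lit 4) (nat_lit 352) (nat_lit 334) (nat_lit 334))) (XT.nd (nat_lit 78) (nat_lit 456) (nat_lit 0) (XT.lf (nat_lit 0) (nat_lit 25506499) (nat_lit 76) (nat_lit 574758904) (nat_lit 152) (nat_lit 9953665155) (nat_lit 55) (nat_lit 5) (nat_lit 56) (nat_lit 5) (nat_lit 57) (nat_lit 4) (nat_lit 353) (nat_lit 334) (nat_lit 333)) (XT.nd (nat_lit 78) (nat_lit 304) (nat_lit 0) (XT.lf (nat_lit 0) (nat_lit 7111614499) (nat_lit 152) (nat_lit 3136613033) (nat_lit 152) (nat_lit 1019424697) (nat_lit 53) (nat_lit 4) (nat_lit 55) (nat_lit 5) (nat_lit 55) (nat_lit 4) (nat_lit 354) (nat_lit 334) (nat_lit 332)) (XT.lf (nat_lit 0) (nat_lit 2709967489) (nat_lit 152) (nat_lit 6057925578) (nat_lit 152) (nat_lit 3304700660) (nat_lit 49) (nat_lit 4) (nat_lit 51) (nat_lit 5) (nat_lit 51) (nat_lit 4) (nat_lit 355)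 (nat_lit 334) (nat_lit 331))))) (XT.nd (nat_lit 234) (nat_lit 532) (nat_lit 0) (XT.nd (nat_lit 78) (nat_lit 380) (nat_lit 0) (XT.lf (nat_lit 0) (nat_lit 6717944399) (nat_lit 152) (nat_lit 2726585525) (nat_lit 0) (nat_lit 3530284172) (nat_lit 47) (nat_lit 5) (nat_lit 49) (nat_lit 4) (nat_lit 47) (nat_lit 4) (nat_lit 356) (nat_lit 334) (nat_lit 330)) (XT.nd (nat_lit 78) (nat_lit 152) (nat_lit 0) (XT.lf (nat_lit 0) (nat_lit 4005728816) (nat_lit 152) (nat_lit 9438607830) (nat_lit 0) (nat_lit 540199704) (nat_lit 44) (nat_lit 5) (nat_lit 46) (nat_lit 4) (nat_lit 44) (nat_lit 4) (nat_lit 357) (nat_lit 334) (nat_lit 329)) (XT.lf (nat_lit 0) (nat_lit 567699198) (nat_lit 152) (nat_lit 2731664227) (nat_lit 76) (nat_lit 11810515114) (nat_lit 42) (nat_lit 5) (nat_lit 44) (nat_lit 5) (nat_lit 43) (nat_lit 4) (nat_lit 358) (nat_lit 334) (nat_lit 328)))) (XT.nd (nat_lit 78) (nat_lit 380) (nat_lit 0) (XT.lf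 (nat_lit 0) (nat_lit 4511012088) (nat_lit 76) (nat_lit 7914599263) (nat_lit 76) (nat_lit 3932071251) (nat_lit 40) (nat_lit 4) (nat_lit 41) (nat_lit 5) (nat_lit 41) (nat_lit 4) (nat_lit 359) (nat_lit 334) (nat_lit 327)) (XT.nd (nat_lit 78) (nat_lit 228) (nat_lit 0) (XT.lf (nat_lit 0) (nat_lit 8171509616) (nat_lit 152) (nat_lit 5385762201) (nat_lit 0) (nat_lit 4194239170) (nat_lit 38) (nat_lit 5) (nat_lit 40) (nat_lit 4) (nat_lit 38) (nat_lit 4) (nat_lit 360) (nat_lit 334) (nat_lit 326)) (XT.lf (nat_lit 0) (nat_lit 1514632749) (nat_lit 76) (nat_lit 1246835972) (nat_lit 152) (nat_lit 16549910579) (nat_lit 35) (nat_lit 5) (nat_lit 36) (nat_lit 5) (nat_lit 37) (nat_lit 4) (nat_lit 361) (nat_lit 334) (nat_lit 325))))))))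
noncomputable def xc34 : XT := (XT.nd (nat_lit 1638) (nat_lit 456) (nat_lit 0) (XT.nd (nat_lit 780) (nat_lit 912) (nat_lit 0) (XT.nd (nat_lit 390) (nat_lit 532) (nat_lit 0) (XT.nd (nat_lit 156) (nat_lit 456) (nat_lit 0) (XT.nd (nat_lit 78) (nat_lit 152) (nat_lit 0) (XT.lf (nat_lit 0) (nat_lit 8924133125) (nat_lit 76) (nat_lit 8113955562) (nat_lit 76) (nat_lit 3995149389) (nat_lit 34) (nat_lit 4) (nat_lit 35) (nat_lit 5) (nat_lit 35) (nat_lit 4) (nat_lit 362) (nat_lit 334) (nat_lit 324)) (XT.lf (nat_lit 0) (nat_lit 10346458837) (nat_lit 152) (nat_lit 6243334914) (nat_lit 0) (nat_lit 6369416327) (nat_lit 32) (nat_lit 5) (nat_lit 34) (nat_lit 4) (nat_lit 32) (nat_lit 4) (nat_lit 363) (nat_lit 334) (nat_lit 323))) (XT.nd (nat_lit 78) (nat_lit 304) (nat_lit 0) (XT.lf (nat_lit 0) (nat_lit 1911741342) (nat_lit 152) (nat_lit 142649292) (nat_lit 76) (nat_lit 23064895699) (nat_lit 30) (nat_lit 5) (nat_lit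 32) (nat_lit 5) (nat_lit 31) (nat_lit 4) (nat_lit 364) (nat_lit 334) (nat_lit 322)) (XT.nd (nat_lit 78) (nat_lit 152) (nat_lit 0) (XT.lf (nat_lit 0) (nat_lit 6142182793) (nat_lit 76) (nat_lit 12644890085) (nat_lit 76) (nat_lit 8716580299) (nat_lit 28) (nat_lit 4) (nat_lit 29) (nat_lit 5) (nat_lit 29) (nat_lit 4) (nat_lit 365) (nat_lit 334) (nat_lit 321)) (XT.lf (nat_lit 0) (nat_lit 8157325297) (nat_lit 152) (nat_lit 17596583147) (nat_lit 0) (nat_lit 4427928240) (nat_lit 26) (nat_lit 5) (nat_lit 28) (nat_lit 4) (nat_lit 26) (nat_lit 4) (nat_lit 366) (nat_lit 334) (nat_lit 320))))) (XT.nd (nat_lit 156) (nat_lit 304) (nat_lit 0) (XT.nd (nat_lit 78) (nat_lit 152) (nat_lit 0) (XT.lf (nat_lit 0) (nat_lit 18845695444) (nat_lit 76) (nat_lit 9068963910) (nat_lit 76) (nat_lit 5259503218) (nat_lit 25) (nat_lit 4) (nat_lit 26) (nat_lit 5) (nat_lit 26) (nat_lit 4) (nat_lit 367) (nat_lit 334) (nat_lit 319))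 (XT.lf (nat_lit 0) (nat_lit 14163035235) (nat_lit 152) (nat_lit 11786506777) (nat_lit 0) (nat_lit 10571293341) (nat_lit 23) (nat_lit 5) (nat_lit 25) (nat_lit 4) (nat_lit 23) (nat_lit 4) (nat_lit 368) (nat_lit 334) (nat_lit 318))) (XT.nd (nat_lit 78) (nat_lit 228) (nat_lit 0) (XT.lf (nat_lit 0) (nat_lit 30237510517) (nat_lit 76) (nat_lit 6848495914) (nat_lit 76) (nat_lit 3200698825) (nat_lit 22) (nat_lit 4) (nat_lit 23) (nat_lit 5) (nat_lit 23) (nat_lit 4) (nat_lit 369) (nat_lit 334) (nat_lit 317)) (XT.nd (nat_lit 78) (nat_lit 76) (nat_lit 0) (XT.lf (nat_lit 0) (nat_lit 18991032989) (nat_lit 152) (nat_lit 9933644687) (nat_lit 0) (nat_lit 15568310084) (nat_lit 20) (nat_lit 5) (nat_lit 22) (nat_lit 4) (nat_lit 20) (nat_lit 4) (nat_lit 370) (nat_lit 334) (nat_lit 316)) (XT.lf (nat_lit 0) (nat_lit 37835574006) (nat_lit 76) (nat_lit 7436958433) (nat_lit 76) (nat_lit 3974989433) (nat_lit 19) (nat_lit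 4) (nat_lit 20) (nat_lit 5) (nat_lit 20) (nat_lit 4) (nat_lit 371) (nat_lit 334) (nat_lit 315)))))) (XT.nd (nat_lit 390) (nat_lit 304) (nat_lit 0) (XT.nd (nat_lit 156) (nat_lit 380) (nat_lit 0) (XT.nd (nat_lit 78) (nat_lit 76) (nat_lit 0) (XT.lf (nat_lit 0) (nat_lit 21005789112) (nat_lit 152) (nat_lit 15799657210) (nat_lit 0) (nat_lit 17768663152) (nat_lit 17) (nat_lit 5) (nat_lit 19) (nat_lit 4) (nat_lit 17) (nat_lit 4) (nat_lit 372) (nat_lit 334) (nat_lit 314)) (XT.lf (nat_lit 0) (nat_lit 37221316412) (nat_lit 76) (nat_lit 13325420336) (nat_lit 76) (nat_lit 10060816889) (nat_lit 16) (nat_lit 4) (nat_lit 17) (nat_lit 5) (nat_lit 17) (nat_lit 4) (nat_lit 373) (nat_lit 334) (nat_lit 313))) (XT.nd (nat_lit 78) (nat_lit 228) (nat_lit 0) (XT.lf (nat_lit 0) (nat_lit 17353349917) (nat_lit 152) (nat_lit 35753197631) (nat_lit 0) (nat_lit 14308445368) (nat_lit 14) (nat_lit 5) (nat_lit 16) (nat_lit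 4) (nat_lit 14) (nat_lit 4) (nat_lit 374) (nat_lit 334) (nat_lit 312)) (XT.nd (nat_lit 78) (nat_lit 152) (nat_lit 0) (XT.lf (nat_lit 0) (nat_lit 20845929029) (nat_lit 76) (nat_lit 28671104285) (nat_lit 76) (nat_lit 25606961840) (nat_lit 13) (nat_lit 4) (nat_lit 14) (nat_lit 5) (nat_lit 14) (nat_lit 4) (nat_lit 375) (nat_lit 334) (nat_lit 311)) (XT.lf (nat_lit 0) (nat_lit 3223391560) (nat_lit 152) (nat_lit 80323717019) (nat_lit 0) (nat_lit 370733181) (nat_lit 11) (nat_lit 5) (nat_lit 13) (nat_lit 4) (nat_lit 11) (nat_lit 4) (nat_lit 376) (nat_lit 334) (nat_lit 310))))) (XT.nd (nat_lit 234) (nat_lit 76) (nat_lit 0) (XT.nd (nat_lit 78) (nat_lit 228) (nat_lit 0) (XT.lf (nat_lit 0) (nat_lit 37009123851) (nat_lit 152) (nat_lit 22653673045) (nat_lit 0) (nat_lit 34142996385) (nat_lit 11) (nat_lit 5) (nat_lit 13) (nat_lit 4) (nat_lit 11) (nat_lit 4) (nat_lit 377) (nat_lit 334) (nat_lit 309)) (XT.nd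 (nat_lit 78) (nat_lit 152) (nat_lit 0) (XT.lf (nat_lit 0) (nat_lit 45379423546) (nat_lit 76) (nat_lit 31304816201) (nat_lit 76) (nat_lit 28426976487) (nat_lit 10) (nat_lit 4) (nat_lit 11) (nat_lit 5) (nat_lit 11) (nat_lit 4) (nat_lit 378) (nat_lit 334) (nat_lit 308)) (XT.lf (nat_lit 0) (nat_lit 4619935507) (nat_lit 152) (nat_lit 111488059402) (nat_lit 0) (nat_lit 1945838953) (nat_lit 8) (nat_lit 5) (nat_lit 10) (nat_lit 4) (nat_lit 8) (nat_lit 4) (nat_lit 379) (nat_lit 334) (nat_lit 307)))) (XT.nd (nat_lit 78) (nat_lit 76) (nat_lit 0) (XT.lf (nat_lit 0) (nat_lit 43400778977) (nat_lit 152) (nat_lit 48562707138) (nat_lit 0) (nat_lit 40718482291) (nat_lit 8) (nat_lit 5) (nat_lit 10) (nat_lit 4) (nat_lit 8) (nat_lit 4) (nat_lit 380) (nat_lit 334) (nat_lit 306)) (XT.nd (nat_lit 78) (nat_lit 0) (nat_lit 0) (XT.lf (nat_lit 0) (nat_lit 24604495342) (nat_lit 76) (nat_lit 63779228694) (nat_lit 76) (nat_lit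 61089801458) (nat_lit 7) (nat_lit 4) (nat_lit 8) (nat_lit 5) (nat_lit 8) (nat_lit 4) (nat_lit 381) (nat_lit 334) (nat_lit 305)) (XT.lf (nat_lit 0) (nat_lit 111296027602) (nat_lit 76) (nat_lit 30042722711) (nat_lit 76) (nat_lit 27347094997) (nat_lit 7) (nat_lit 4) (nat_lit 8) (nat_lit 5) (nat_lit 8) (nat_lit 4) (nat_lit 382) (nat_lit 334) (nat_lit 304))))))) (XT.nd (nat_lit 780) (nat_lit 76) (nat_lit 0) (XT.nd (nat_lit 390) (nat_lit 152) (nat_lit 0) (XT.nd (nat_lit 156) (nat_lit 76) (nat_lit 0) (XT.nd (nat_lit 78) (nat_lit 0) (nat_lit 0) (XT.lf (nat_lit 0) (nat_lit 11437176362) (nat_lit 152) (nat_lit 170340298402) (nat_lit 0) (nat_lit 8936232442) (nat_lit 5) (nat_lit 5) (nat_lit 7) (nat_lit 4) (nat_lit 5) (nat_lit 4) (nat_lit 383) (nat_lit 334) (nat_lit 303)) (XT.lf (nat_lit 0) (nat_lit 56852568048) (nat_lit 152) (nat_lit 104594453835) (nat_lit 0) (nat_lit 54347282969) (nat_lit 5) (nat_lit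 5) (nat_lit 7) (nat_lit 4) (nat_lit 5) (nat_lit 4) (nat_lit 384) (nat_lit 334) (nat_lit 302))) (XT.nd (nat_lit 78) (nat_lit 76) (nat_lit 0) (XT.lf (nat_lit 0) (nat_lit 108942481702) (nat_lit 152) (nat_lit 29272111881) (nat_lit 0) (nat_lit 106433421701) (nat_lit 5) (nat_lit 5) (nat_lit 7) (nat_lit 4) (nat_lit 5) (nat_lit 4) (nat_lit 385) (nat_lit 334) (nat_lit 301)) (XT.nd (nat_lit 78) (nat_lit 0) (nat_lit 0) (XT.lf (nat_lit 0) (nat_lit 60107232666) (nat_lit 76) (nat_lit 110064415531) (nat_lit 76) (nat_lit 107552072990) (nat_lit 4) (nat_lit 4) (nat_lit 5) (nat_lit 5) (nat_lit 5) (nat_lit 4) (nat_lit 386) (nat_lit 334) (nat_lit 300)) (XT.lf (nat_lit 0) (nat_lit 164438958315) (nat_lit 76) (nat_lit 76888807808) (nat_lit 76) (nat_lit 74373610884) (nat_lit 4) (nat_lit 4) (nat_lit 5) (nat_lit 5) (nat_lit 5) (nat_lit 4) (nat_lit 387) (nat_lit 334) (nat_lit 299))))) (XT.nd (nat_lit 156) (nat_lit 0)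 (nat_lit 0) (XT.nd (nat_lit 78) (nat_lit 152) (nat_lit 0) (XT.lf (nat_lit 0) (nat_lit 284222920419) (nat_lit 76) (nat_lit 38839033851) (nat_lit 76) (nat_lit 36321354855) (nat_lit 4) (nat_lit 4) (nat_lit 5) (nat_lit 5) (nat_lit 5) (nat_lit 4) (nat_lit 388) (nat_lit 334) (nat_lit 298)) (XT.lf (nat_lit 0) (nat_lit 7414031491) (nat_lit 152) (nat_lit 397080546112) (nat_lit 0) (nat_lit 5080848788) (nat_lit 2) (nat_lit 5) (nat_lit 4) (nat_lit 4) (nat_lit 2) (nat_lit 4) (nat_lit 389) (nat_lit 334) (nat_lit 297))) (XT.nd (nat_lit 78) (nat_lit 0) (nat_lit 0) (XT.lf (nat_lit 0) (nat_lit 58859629192) (nat_lit 152) (nat_lit 351572507857) (nat_lit 0) (nat_lit 56524708709) (nat_lit 2) (nat_lit 5) (nat_lit 4) (nat_lit 4) (nat_lit 2) (nat_lit 4) (nat_lit 390) (nat_lit 334) (nat_lit 296)) (XT.nd (nat_lit 78) (nat_lit 0) (nat_lit 0) (XT.lf (nat_lit 0) (nat_lit 117952626236) (nat_lit 152) (nat_lit 299382212459)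 (nat_lit 0) (nat_lit 115616194639) (nat_lit 2) (nat_lit 5) (nat_lit 4) (nat_lit 4) (nat_lit 2) (nat_lit 4) (nat_lit 391) (nat_lit 334) (nat_lit 295)) (XT.lf (nat_lit 0) (nat_lit 185849189955) (nat_lit 152) (nat_lit 239488545442) (nat_lit 0) (nat_lit 183511444346) (nat_lit 2) (nat_lit 5) (nat_lit 4) (nat_lit 4) (nat_lit 2) (nat_lit 4) (nat_lit 392) (nat_lit 334) (nat_lit 294)))))) (XT.nd (nat_lit 390) (nat_lit 0) (nat_lit 0) (XT.nd (nat_lit 156) (nat_lit 76) (nat_lit 0) (XT.nd (nat_lit 78) (nat_lit 0) (nat_lit 0) (XT.lf (nat_lit 0) (nat_lit 263877731380) (nat_lit 152) (nat_lit 170719674191) (nat_lit 0) (nat_lit 261538843152) (nat_lit 2) (nat_lit 5) (nat_lit 4) (nat_lit 4) (nat_lit 2) (nat_lit 4) (nat_lit 393) (nat_lit 334) (nat_lit 293)) (XT.lf (nat_lit 0) (nat_lit 353564895886) (nat_lit 152) (nat_lit 91730120789) (nat_lit 0) (nat_lit 351225014076) (nat_lit 2) (nat_lit 5) (nat_lit 4) (nat_lit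 4) (nat_lit 2) (nat_lit 4) (nat_lit 394) (nat_lit 334) (nat_lit 292))) (XT.nd (nat_lit 78) (nat_lit 76) (nat_lit 0) (XT.lf (nat_lit 0) (nat_lit 456665432343) (nat_lit 152) (nat_lit 974437453) (nat_lit 0) (nat_lit 454324686550) (nat_lit 2) (nat_lit 5) (nat_lit 4) (nat_lit 4) (nat_lit 2) (nat_lit 4) (nat_lit 395) (nat_lit 334) (nat_lit 291)) (XT.nd (nat_lit 78) (nat_lit 0) (nat_lit 0) (XT.lf (nat_lit 0) (nat_lit 108763838171) (nat_lit 76) (nat_lit 469048459914) (nat_lit 76) (nat_lit 466706962830) (nat_lit 1) (nat_lit 4) (nat_lit 2) (nat_lit 5) (nat_lit 2) (nat_lit 4) (nat_lit 396) (nat_lit 334) (nat_lit 290)) (XT.lf (nat_lit 0) (nat_lit 234956354085) (nat_lit 76) (nat_lit 482171612819) (nat_lit 76) (nat_lit 479829462439) (nat_lit 1) (nat_lit 4) (nat_lit 2) (nat_lit 5) (nat_lit 2) (nat_lit 4) (nat_lit 397) (nat_lit 334) (nat_lit 289))))) (XT.nd (nat_lit 234) (nat_lit 0) (nat_lit 0) (XT.nd (nat_lit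 78) (nat_lit 0) (nat_lit 0) (XT.lf (nat_lit 0) (nat_lit 380020782147) (nat_lit 76) (nat_lit 497292728700) (nat_lit 76) (nat_lit 494950010236) (nat_lit 1) (nat_lit 4) (nat_lit 2) (nat_lit 5) (nat_lit 2) (nat_lit 4) (nat_lit 398) (nat_lit 334) (nat_lit 288)) (XT.nd (nat_lit 78) (nat_lit 0) (nat_lit 0) (XT.lf (nat_lit 0) (nat_lit 546795339425) (nat_lit 76) (nat_lit 514707655476) (nat_lit 76) (nat_lit 512364443026) (nat_lit 1) (nat_lit 4) (nat_lit 2) (nat_lit 5) (nat_lit 2) (nat_lit 4) (nat_lit 399) (nat_lit 334) (nat_lit 287)) (XT.lf (nat_lit 0) (nat_lit 738543006389) (nat_lit 76) (nat_lit 534757119975) (nat_lit 76) (nat_lit 532413477972) (nat_lit 1) (nat_lit 4) (nat_lit 2) (nat_lit 5) (nat_lit 2) (nat_lit 4) (nat_lit 400) (nat_lit 334) (nat_lit 286)))) (XT.nd (nat_lit 78) (nat_lit 0) (nat_lit 0) (XT.lf (nat_lit 0) (nat_lit 959015367828) (nat_lit 76) (nat_lit 557833394328) (nat_lit 76) (nat_lit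 555489378801) (nat_lit 1) (nat_lit 4) (nat_lit 2) (nat_lit 5) (nat_lit 2) (nat_lit 4) (nat_lit 401) (nat_lit 334) (nat_lit 285)) (XT.nd (nat_lit 78) (nat_lit 0) (nat_lit 0) (XT.lf (nat_lit 0) (nat_lit 1212526013422) (nat_lit 76) (nat_lit 584387970860) (nat_lit 76) (nat_lit 582043630530) (nat_lit 1) (nat_lit 4) (nat_lit 2) (nat_lit 5) (nat_lit 2) (nat_lit 4) (nat_lit 402) (nat_lit 334) (nat_lit 284)) (XT.lf (nat_lit 0) (nat_lit 1504034934062) (nat_lit 76) (nat_lit 614940395633) (nat_lit 76) (nat_lit 612595772865) (nat_lit 1) (nat_lit 4) (nat_lit 2) (nat_lit 5) (nat_lit 2) (nat_lit 4) (nat_lit 403) (nat_lit 334) (nat_lit 283))))))))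
noncomputable def xc35 : XT := (XT.nd (nat_lit 1638) (nat_lit 0) (nat_lit 0) (XT.nd (nat_lit 780) (nat_lit 0) (nat_lit 0) (XT.nd (nat_lit 390) (nat_lit 0) (nat_lit 0) (XT.nd (nat_lit 156) (nat_lit 0) (nat_lit 0) (XT.nd (nat_lit 78) (nat_lit 0) (nat_lit 0) (XT.lf (nat_lit 0) (nat_lit 1839245565152) (nat_lit 76) (nat_lit 650088433480) (nat_lit 76) (nat_lit 647743565114) (nat_lit 1) (nat_lit 4) (nat_lit 2) (nat_lit 5) (nat_lit 2) (nat_lit 4) (nat_lit 404) (nat_lit 334) (nat_lit 282)) (XT.lf (nat_lit 0) (nat_lit 2224716375562) (nat_lit 76) (nat_lit 690519763403) (nat_lit 76) (nat_lit 688174681473) (nat_lit 1) (nat_lit 4) (nat_lit 2) (nat_lit 5) (nat_lit 2) (nat_lit 4) (nat_lit 405) (nat_lit 334) (nat_lit 281))) (XT.nd (nat_lit 78) (nat_lit 0) (nat_lit 0) (XT.lf (nat_lit 0) (nat_lit 2667989185496) (nat_lit 76) (nat_lit 737025433160) (nat_lit 76) (nat_lit 734680165523) (nat_lit 1) (nat_lit 4) (nat_lit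 2) (nat_lit 5) (nat_lit 2) (nat_lit 4) (nat_lit 406) (nat_lit 334) (nat_lit 280)) (XT.nd (nat_lit 78) (nat_lit 0) (nat_lit 0) (XT.lf (nat_lit 0) (nat_lit 3177736723843) (nat_lit 76) (nat_lit 790515336291) (nat_lit 76) (nat_lit 788169907169) (nat_lit 1) (nat_lit 4) (nat_lit 2) (nat_lit 5) (nat_lit 2) (nat_lit 4) (nat_lit 407) (nat_lit 334) (nat_lit 279)) (XT.lf (nat_lit 0) (nat_lit 3763932312006) (nat_lit 76) (nat_lit 852036014378) (nat_lit 76) (nat_lit 849690444834) (nat_lit 1) (nat_lit 4) (nat_lit 2) (nat_lit 5) (nat_lit 2) (nat_lit 4) (nat_lit 408) (nat_lit 334) (nat_lit 278))))) (XT.nd (nat_lit 156) (nat_lit 0) (nat_lit 0) (XT.nd (nat_lit 78) (nat_lit 0) (nat_lit 0) (XT.lf (nat_lit 0) (nat_lit 4438044994101) (nat_lit 76) (nat_lit 922791132862) (nat_lit 76) (nat_lit 920445441212) (nat_lit 1) (nat_lit 4) (nat_lit 2) (nat_lit 5) (nat_lit 2) (nat_lit 4) (nat_lit 409) (nat_lit 334) (nat_lit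 277)) (XT.lf (nat_lit 0) (nat_lit 5213263931299) (nat_lit 76) (nat_lit 1004165031018) (nat_lit 76) (nat_lit 1001819233189) (nat_lit 1) (nat_lit 4) (nat_lit 2) (nat_lit 5) (nat_lit 2) (nat_lit 4) (nat_lit 410) (nat_lit 334) (nat_lit 276))) (XT.nd (nat_lit 78) (nat_lit 0) (nat_lit 0) (XT.lf (nat_lit 0) (nat_lit 6104756450633) (nat_lit 76) (nat_lit 1097749806853) (nat_lit 76) (nat_lit 1095403916695) (nat_lit 1) (nat_lit 4) (nat_lit 2) (nat_lit 5) (nat_lit 2) (nat_lit 4) (nat_lit 411) (nat_lit 334) (nat_lit 275)) (XT.nd (nat_lit 78) (nat_lit 0) (nat_lit 0) (XT.lf (nat_lit 0) (nat_lit 7129964797046) (nat_lit 76) (nat_lit 1205376466851) (nat_lit 76) (nat_lit 1203030496407) (nat_lit 1) (nat_lit 4) (nat_lit 2) (nat_lit 5) (nat_lit 2) (nat_lit 4) (nat_lit 412) (nat_lit 334) (nat_lit 274)) (XT.lf (nat_lit 0) (nat_lit 8308947394707) (nat_lit 76) (nat_lit 1329150750012) (nat_lit 76) (nat_lit 1326804709753)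 (nat_lit 1) (nat_lit 4) (nat_lit 2) (nat_lit 5) (nat_lit 2) (nat_lit 4) (nat_lit 413) (nat_lit 334) (nat_lit 273)))))) (XT.nd (nat_lit 390) (nat_lit 0) (nat_lit 0) (XT.nd (nat_lit 156) (nat_lit 0) (nat_lit 0) (XT.nd (nat_lit 78) (nat_lit 0) (nat_lit 0) (XT.lf (nat_lit 0) (nat_lit 9664771294439) (nat_lit 76) (nat_lit 1471494327093) (nat_lit 76) (nat_lit 1469148226127) (nat_lit 1) (nat_lit 4) (nat_lit 2) (nat_lit 5) (nat_lit 2) (nat_lit 4) (nat_lit 414) (nat_lit 334) (nat_lit 272)) (XT.lf (nat_lit 0) (nat_lit 11223963485587) (nat_lit 76) (nat_lit 1635192181125) (nat_lit 76) (nat_lit 1632846027369) (nat_lit 1) (nat_lit 4) (nat_lit 2) (nat_lit 5) (nat_lit 2) (nat_lit 4) (nat_lit 415) (nat_lit 334) (nat_lit 271))) (XT.nd (nat_lit 78) (nat_lit 0) (nat_lit 0) (XT.lf (nat_lit 0) (nat_lit 13017029902323) (nat_lit 76) (nat_lit 1823447096208) (nat_lit 76) (nat_lit 1821100896548) (nat_lit 1) (nat_lit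 4) (nat_lit 2) (nat_lit 5) (nat_lit 2) (nat_lit 4) (nat_lit 416) (nat_lit 334) (nat_lit 270)) (XT.nd (nat_lit 78) (nat_lit 0) (nat_lit 0) (XT.lf (nat_lit 0) (nat_lit 15079052278889) (nat_lit 76) (nat_lit 2039942320680) (nat_lit 76) (nat_lit 2037596081103) (nat_lit 1) (nat_lit 4) (nat_lit 2) (nat_lit 5) (nat_lit 2) (nat_lit 4) (nat_lit 417) (nat_lit 334) (nat_lit 269)) (XT.lf (nat_lit 0) (nat_lit 17450374531347) (nat_lit 76) (nat_lit 2288913630673) (nat_lit 76) (nat_lit 2286567356386) (nat_lit 1) (nat_lit 4) (nat_lit 2) (nat_lit 5) (nat_lit 2) (nat_lit 4) (nat_lit 418) (nat_lit 334) (nat_lit 268))))) (XT.nd (nat_lit 234) (nat_lit 0) (nat_lit 0) (XT.nd (nat_lit 78) (nat_lit 0) (nat_lit 0) (XT.lf (nat_lit 0) (nat_lit 20177392095073) (nat_lit 76) (nat_lit 2575232203990) (nat_lit 76) (nat_lit 2572885899521) (nat_lit 1) (nat_lit 4) (nat_lit 2) (nat_lit 5) (nat_lit 2) (nat_lit 4) (nat_lit 419) (nat_lit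 334) (nat_lit 267)) (XT.nd (nat_lit 78) (nat_lit 0) (nat_lit 0) (XT.lf (nat_lit 0) (nat_lit 23313459661530) (nat_lit 76) (nat_lit 2904499925763) (nat_lit 76) (nat_lit 2902153595047) (nat_lit 1) (nat_lit 4) (nat_lit 2) (nat_lit 5) (nat_lit 2) (nat_lit 4) (nat_lit 420) (nat_lit 334) (nat_lit 266)) (XT.lf (nat_lit 0) (nat_lit 26919935074409) (nat_lit 76) (nat_lit 3283158990546) (nat_lit 76) (nat_lit 3280812637008) (nat_lit 1) (nat_lit 4) (nat_lit 2) (nat_lit 5) (nat_lit 2) (nat_lit 4) (nat_lit 421) (nat_lit 334) (nat_lit 265)))) (XT.nd (nat_lit 78) (nat_lit 0) (nat_lit 0) (XT.lf (nat_lit 0) (nat_lit 31067379809181) (nat_lit 76) (nat_lit 3718617945260) (nat_lit 76) (nat_lit 3716271571877) (nat_lit 1) (nat_lit 4) (nat_lit 2) (nat_lit 5) (nat_lit 2) (nat_lit 4) (nat_lit 422) (nat_lit 334) (nat_lit 264)) (XT.nd (nat_lit 78) (nat_lit 0) (nat_lit 0) (XT.lf (nat_lit 0) (nat_lit 35836939523698) (nat_lit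 76) (nat_lit 4219396639020) (nat_lit 76) (nat_lit 4217050248379) (nat_lit 1) (nat_lit 4) (nat_lit 2) (nat_lit 5) (nat_lit 2) (nat_lit 4) (nat_lit 423) (nat_lit 334) (nat_lit 263)) (XT.lf (nat_lit 0) (nat_lit 41321931690638) (nat_lit 76) (nat_lit 4795292915832) (nat_lit 76) (nat_lit 4792946510186) (nat_lit 1) (nat_lit 4) (nat_lit 2) (nat_lit 5) (nat_lit 2) (nat_lit 4) (nat_lit 424) (nat_lit 334) (nat_lit 262))))))) (XT.nd (nat_lit 47814) (nat_lit 0) (nat_lit 1900) (XT.nd (nat_lit 47424) (nat_lit 0) (nat_lit 3496) (XT.nd (nat_lit 156) (nat_lit 0) (nat_lit 0) (XT.nd (nat_lit 78) (nat_lit 0) (nat_lit 0) (XT.lf (nat_lit 0) (nat_lit 47629671374135) (nat_lit 76) (nat_lit 5457574311548) (nat_lit 76) (nat_lit 5455227892853) (nat_lit 1) (nat_lit 4) (nat_lit 2) (nat_lit 5) (nat_lit 2) (nat_lit 4) (nat_lit 425) (nat_lit 334) (nat_lit 261)) (XT.lf (nat_lit 0) (nat_lit 54883570872345) (nat_lit 76) (nat_lit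 6219198505650) (nat_lit 76) (nat_lit 6216852075608) (nat_lit 1) (nat_lit 4) (nat_lit 2) (nat_lit 5) (nat_lit 2) (nat_lit 4) (nat_lit 426) (nat_lit 334) (nat_lit 260))) (XT.nd (nat_lit 47112) (nat_lit 0) (nat_lit 4712) (XT.lf (nat_lit 0) (nat_lit 63225554305884) (nat_lit 76) (nat_lit 7095066841065) (nat_lit 76) (nat_lit 7092720401156) (nat_lit 1) (nat_lit 4) (nat_lit 2) (nat_lit 5) (nat_lit 2) (nat_lit 4) (nat_lit 427) (nat_lit 334) (nat_lit 259)) (XT.nd (nat_lit 78) (nat_lit 228) (nat_lit 0) (XT.lf (nat_lit 0) (nat_lit 384590026) (nat_lit 152) (nat_lit 2015255565) (nat_lit 152) (nat_lit 2015255565) (nat_lit 66) (nat_lit 4) (nat_lit 68) (nat_lit 5) (nat_lit 68) (nat_lit 4) (nat_lit 350) (nat_lit 335) (nat_lit 335)) (XT.lf (nat_lit 0) (nat_lit 3987492897) (nat_lit 228) (nat_lit 2895875625) (nat_lit 0) (nat_lit 2468470335) (nat_lit 63) (nat_lit 5) (nat_lit 66) (nat_lit 4) (nat_lit 63) (nat_lit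 4) (nat_lit 351) (nat_lit 335) (nat_lit 334))))) (XT.nd (nat_lit 156) (nat_lit 684) (nat_lit 0) (XT.nd (nat_lit 78) (nat_lit 228) (nat_lit 0) (XT.lf (nat_lit 0) (nat_lit 2710738129) (nat_lit 152) (nat_lit 7158784700) (nat_lit 0) (nat_lit 81190216) (nat_lit 59) (nat_lit 5) (nat_lit 61) (nat_lit 4) (nat_lit 59) (nat_lit 4) (nat_lit 352) (nat_lit 335) (nat_lit 333)) (XT.lf (nat_lit 0) (nat_lit 999343787) (nat_lit 228) (nat_lit 1614430696) (nat_lit 76) (nat_lit 8012466130) (nat_lit 56) (nat_lit 5) (nat_lit 59) (nat_lit 5) (nat_lit 57) (nat_lit 4) (nat_lit 353) (nat_lit 335) (nat_lit 332))) (XT.nd (nat_lit 78) (nat_lit 456) (nat_lit 0) (XT.lf (nat_lit 0) (nat_lit 4523770405) (nat_lit 152) (nat_lit 5568218873) (nat_lit 152) (nat_lit 1292418951) (nat_lit 53) (nat_lit 4) (nat_lit 55) (nat_lit 5) (nat_lit 55) (nat_lit 4) (nat_lit 354) (nat_lit 335) (nat_lit 331)) (XT.nd (nat_lit 78) (nat_lit 304) (nat_lit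 0) (XT.lf (nat_lit 0) (nat_lit 7915510552) (nat_lit 152) (nat_lit 1054836154) (nat_lit 0) (nat_lit 3266988422) (nat_lit 51) (nat_lit 5) (nat_lit 53) (nat_lit 4) (nat_lit 51) (nat_lit 4) (nat_lit 355) (nat_lit 335) (nat_lit 330)) (XT.lf (nat_lit 0) (nat_lit 5152174726) (nat_lit 152) (nat_lit 7744436841) (nat_lit 0) (nat_lit 292876355) (nat_lit 47) (nat_lit 5) (nat_lit 49) (nat_lit 4) (nat_lit 47) (nat_lit 4) (nat_lit 356) (nat_lit 335) (nat_lit 329)))))) (XT.nd (nat_lit 390) (nat_lit 836) (nat_lit 0) (XT.nd (nat_lit 156) (nat_lit 456) (nat_lit 0) (XT.nd (nat_lit 78) (nat_lit 152) (nat_lit 0) (XT.lf (nat_lit 0) (nat_lit 1688914202) (nat_lit 152) (nat_lit 1829062232) (nat_lit 76) (nat_lit 10734704965) (nat_lit 45) (nat_lit 5) (nat_lit 47) (nat_lit 5) (nat_lit 46) (nat_lit 4) (nat_lit 357) (nat_lit 335) (nat_lit 328)) (XT.lf (nat_lit 0) (nat_lit 4689686195) (nat_lit 76) (nat_lit 8038758492) (nat_lit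 76) (nat_lit 2703807007) (nat_lit 43) (nat_lit 4) (nat_lit 44) (nat_lit 5) (nat_lit 44) (nat_lit 4) (nat_lit 358) (nat_lit 335) (nat_lit 327))) (XT.nd (nat_lit 78) (nat_lit 304) (nat_lit 0) (XT.lf (nat_lit 0) (nat_lit 8511864164) (nat_lit 152) (nat_lit 4976430764) (nat_lit 0) (nat_lit 3259170201) (nat_lit 41) (nat_lit 5) (nat_lit 43) (nat_lit 4) (nat_lit 41) (nat_lit 4) (nat_lit 359) (nat_lit 335) (nat_lit 326)) (XT.nd (nat_lit 78) (nat_lit 76) (nat_lit 0) (XT.lf (nat_lit 0) (nat_lit 1240878976) (nat_lit 76) (nat_lit 2011852189) (nat_lit 152) (nat_lit 14963290712) (nat_lit 38) (nat_lit 5) (nat_lit 39) (nat_lit 5) (nat_lit 40) (nat_lit 4) (nat_lit 360) (nat_lit 335) (nat_lit 325)) (XT.lf (nat_lit 0) (nat_lit 8049595315) (nat_lit 76) (nat_lit 8561046746) (nat_lit 76) (nat_lit 3226401004) (nat_lit 37) (nat_lit 4) (nat_lit 38) (nat_lit 5) (nat_lit 38) (nat_lit 4) (nat_lit 361) (nat_lit 335) (nat_lit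 324))))) (XT.nd (nat_lit 234) (nat_lit 380) (nat_lit 0) (XT.nd (nat_lit 78) (nat_lit 304) (nat_lit 0) (XT.lf (nat_lit 0) (nat_lit 10209586884) (nat_lit 152) (nat_lit 6341988834) (nat_lit 0) (nat_lit 5093700347) (nat_lit 35) (nat_lit 5) (nat_lit 37) (nat_lit 4) (nat_lit 35) (nat_lit 4) (nat_lit 362) (nat_lit 335) (nat_lit 323)) (XT.nd (nat_lit 78) (nat_lit 152) (nat_lit 0) (XT.lf (nat_lit 0) (nat_lit 2259791034) (nat_lit 152) (nat_lit 568912261) (nat_lit 76) (nat_lit 20838330520) (nat_lit 33) (nat_lit 5) (nat_lit 35) (nat_lit 5) (nat_lit 34) (nat_lit 4) (nat_lit 363) (nat_lit 335) (nat_lit 322)) (XT.lf (nat_lit 0) (nat_lit 5561387048) (nat_lit 76) (nat_lit 12668780289) (nat_lit 76) (nat_lit 7666316254) (nat_lit 31) (nat_lit 4) (nat_lit 32) (nat_lit 5) (nat_lit 32) (nat_lit 4) (nat_lit 364) (nat_lit 335) (nat_lit 321)))) (XT.nd (nat_lit 78) (nat_lit 228) (nat_lit 0) (XT.lf (nat_lit 0) (nat_lit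 8394745603) (nat_lit 152) (nat_lit 16333283399) (nat_lit 0) (nat_lit 3663395423) (nat_lit 29) (nat_lit 5) (nat_lit 31) (nat_lit 4) (nat_lit 29) (nat_lit 4) (nat_lit 365) (nat_lit 335) (nat_lit 320)) (XT.nd (nat_lit 78) (nat_lit 152) (nat_lit 0) (XT.lf (nat_lit 0) (nat_lit 18661044993) (nat_lit 76) (nat_lit 8664160570) (nat_lit 76) (nat_lit 3846341664) (nat_lit 28) (nat_lit 4) (nat_lit 29) (nat_lit 5) (nat_lit 29) (nat_lit 4) (nat_lit 366) (nat_lit 335) (nat_lit 319)) (XT.lf (nat_lit 0) (nat_lit 14879329078) (nat_lit 152) (nat_lit 9041106821) (nat_lit 0) (nat_lit 10348765092) (nat_lit 26) (nat_lit 5) (nat_lit 28) (nat_lit 4) (nat_lit 26) (nat_lit 4) (nat_lit 367) (nat_lit 335) (nat_lit 318))))))))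
noncomputable def xc36 : XT := (XT.nd (nat_lit 1638) (nat_lit 228) (nat_lit 0) (XT.nd (nat_lit 780) (nat_lit 532) (nat_lit 0) (XT.nd (nat_lit 390) (nat_lit 608) (nat_lit 0) (XT.nd (nat_lit 156) (nat_lit 304) (nat_lit 0) (XT.nd (nat_lit 78) (nat_lit 152) (nat_lit 0) (XT.lf (nat_lit 0) (nat_lit 31919915633) (nat_lit 76) (nat_lit 5209613747) (nat_lit 76) (nat_lit 618510151) (nat_lit 25) (nat_lit 4) (nat_lit 26) (nat_lit 5) (nat_lit 26) (nat_lit 4) (nat_lit 368) (nat_lit 335) (nat_lit 317)) (XT.lf (nat_lit 0) (nat_lit 21122654998) (nat_lit 152) (nat_lit 3666575836) (nat_lit 0) (nat_lit 16822889501) (nat_lit 23) (nat_lit 5) (nat_lit 25) (nat_lit 4) (nat_lit 23) (nat_lit 4) (nat_lit 369) (nat_lit 335) (nat_lit 316))) (XT.nd (nat_lit 78) (nat_lit 152) (nat_lit 0) (XT.lf (nat_lit 0) (nat_lit 1040375249) (nat_lit 152) (nat_lit 2178170758) (nat_lit 76) (nat_lit 42755261024) (nat_lit 21) (nat_lit 5)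 (nat_lit 23) (nat_lit 5) (nat_lit 22) (nat_lit 4) (nat_lit 370) (nat_lit 335) (nat_lit 315)) (XT.nd (nat_lit 78) (nat_lit 76) (nat_lit 0) (XT.lf (nat_lit 0) (nat_lit 26094167449) (nat_lit 152) (nat_lit 2692861128) (nat_lit 0) (nat_lit 22039529968) (nat_lit 20) (nat_lit 5) (nat_lit 22) (nat_lit 4) (nat_lit 20) (nat_lit 4) (nat_lit 371) (nat_lit 335) (nat_lit 314)) (XT.lf (nat_lit 0) (nat_lit 51502719072) (nat_lit 76) (nat_lit 4452443831) (nat_lit 76) (nat_lit 368130665) (nat_lit 19) (nat_lit 4) (nat_lit 20) (nat_lit 5) (nat_lit 20) (nat_lit 4) (nat_lit 372) (nat_lit 335) (nat_lit 313))))) (XT.nd (nat_lit 156) (nat_lit 380) (nat_lit 0) (XT.nd (nat_lit 78) (nat_lit 76) (nat_lit 0) (XT.lf (nat_lit 0) (nat_lit 27901982592) (nat_lit 152) (nat_lit 10462286303) (nat_lit 0) (nat_lit 24096317675) (nat_lit 17) (nat_lit 5) (nat_lit 19) (nat_lit 4) (nat_lit 17) (nat_lit 4) (nat_lit 373) (nat_lit 335) (nat_lit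 312)) (XT.lf (nat_lit 0) (nat_lit 49859447155) (nat_lit 76) (nat_lit 11695775866) (nat_lit 76) (nat_lit 7869334022) (nat_lit 16) (nat_lit 4) (nat_lit 17) (nat_lit 5) (nat_lit 17) (nat_lit 4) (nat_lit 374) (nat_lit 335) (nat_lit 311))) (XT.nd (nat_lit 78) (nat_lit 228) (nat_lit 0) (XT.lf (nat_lit 0) (nat_lit 23254714050) (nat_lit 152) (nat_lit 34313665811) (nat_lit 0) (nat_lit 19694983738) (nat_lit 14) (nat_lit 5) (nat_lit 16) (nat_lit 4) (nat_lit 14) (nat_lit 4) (nat_lit 375) (nat_lit 335) (nat_lit 310)) (XT.nd (nat_lit 78) (nat_lit 152) (nat_lit 0) (XT.lf (nat_lit 0) (nat_lit 30199531134) (nat_lit 76) (nat_lit 29762950330) (nat_lit 76) (nat_lit 26188673405) (nat_lit 13) (nat_lit 4) (nat_lit 14) (nat_lit 5) (nat_lit 14) (nat_lit 4) (nat_lit 376) (nat_lit 335) (nat_lit 309)) (XT.lf (nat_lit 0) (nat_lit 6612521019) (nat_lit 152) (nat_lit 86369247722) (nat_lit 0) (nat_lit 3291293099) (nat_lit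 11) (nat_lit 5) (nat_lit 13) (nat_lit 4) (nat_lit 11) (nat_lit 4) (nat_lit 377) (nat_lit 335) (nat_lit 308)))))) (XT.nd (nat_lit 390) (nat_lit 228) (nat_lit 0) (XT.nd (nat_lit 156) (nat_lit 228) (nat_lit 0) (XT.nd (nat_lit 78) (nat_lit 76) (nat_lit 0) (XT.lf (nat_lit 0) (nat_lit 45087119145) (nat_lit 152) (nat_lit 20831700654) (nat_lit 0) (nat_lit 41755706661) (nat_lit 11) (nat_lit 5) (nat_lit 13) (nat_lit 4) (nat_lit 11) (nat_lit 4) (nat_lit 378) (nat_lit 335) (nat_lit 307)) (XT.lf (nat_lit 0) (nat_lit 56964511449) (nat_lit 76) (nat_lit 33534346179) (nat_lit 76) (nat_lit 30194077553) (nat_lit 10) (nat_lit 4) (nat_lit 11) (nat_lit 5) (nat_lit 11) (nat_lit 4) (nat_lit 379) (nat_lit 335) (nat_lit 306))) (XT.nd (nat_lit 78) (nat_lit 76) (nat_lit 0) (XT.lf (nat_lit 0) (nat_lit 7539241264) (nat_lit 152) (nat_lit 123605289077) (nat_lit 0) (nat_lit 4439269393) (nat_lit 8) (nat_lit 5) (nat_lit 10)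 (nat_lit 4) (nat_lit 8) (nat_lit 4) (nat_lit 380) (nat_lit 335) (nat_lit 305)) (XT.nd (nat_lit 78) (nat_lit 76) (nat_lit 0) (XT.lf (nat_lit 0) (nat_lit 51846822285) (nat_lit 152) (nat_lit 51841913873) (nat_lit 0) (nat_lit 48740649936) (nat_lit 8) (nat_lit 5) (nat_lit 10) (nat_lit 4) (nat_lit 8) (nat_lit 4) (nat_lit 381) (nat_lit 335) (nat_lit 304)) (XT.lf (nat_lit 0) (nat_lit 31961348803) (nat_lit 76) (nat_lit 71451519849) (nat_lit 76) (nat_lit 68339955781) (nat_lit 7) (nat_lit 4) (nat_lit 8) (nat_lit 5) (nat_lit 8) (nat_lit 4) (nat_lit 382) (nat_lit 335) (nat_lit 303))))) (XT.nd (nat_lit 234) (nat_lit 76) (nat_lit 0) (XT.nd (nat_lit 78) (nat_lit 152) (nat_lit 0) (XT.lf (nat_lit 0) (nat_lit 131178413621) (nat_lit 76) (nat_lit 32901658814) (nat_lit 76) (nat_lit 29785406293) (nat_lit 7) (nat_lit 4) (nat_lit 8) (nat_lit 5) (nat_lit 8) (nat_lit 4) (nat_lit 383) (nat_lit 335) (nat_lit 302)) (XT.nd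 (nat_lit 78) (nat_lit 0) (nat_lit 0) (XT.lf (nat_lit 0) (nat_lit 14636364027) (nat_lit 152) (nat_lit 192818538155) (nat_lit 0) (nat_lit 11747170105) (nat_lit 5) (nat_lit 5) (nat_lit 7) (nat_lit 4) (nat_lit 5) (nat_lit 4) (nat_lit 384) (nat_lit 335) (nat_lit 301)) (XT.lf (nat_lit 0) (nat_lit 66670549961) (nat_lit 152) (nat_lit 117611617556) (nat_lit 0) (nat_lit 63778073498) (nat_lit 5) (nat_lit 5) (nat_lit 7) (nat_lit 4) (nat_lit 5) (nat_lit 4) (nat_lit 385) (nat_lit 335) (nat_lit 300)))) (XT.nd (nat_lit 78) (nat_lit 76) (nat_lit 0) (XT.lf (nat_lit 0) (nat_lit 126405677179) (nat_lit 152) (nat_lit 31339446616) (nat_lit 0) (nat_lit 123510346333) (nat_lit 5) (nat_lit 5) (nat_lit 7) (nat_lit 4) (nat_lit 5) (nat_lit 4) (nat_lit 386) (nat_lit 335) (nat_lit 299)) (XT.nd (nat_lit 78) (nat_lit 0) (nat_lit 0) (XT.lf (nat_lit 0) (nat_lit 71250128431) (nat_lit 76) (nat_lit 125473915302) (nat_lit 76) (nat_lit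 122576102384) (nat_lit 4) (nat_lit 4) (nat_lit 5) (nat_lit 5) (nat_lit 5) (nat_lit 4) (nat_lit 387) (nat_lit 335) (nat_lit 298)) (XT.lf (nat_lit 0) (nat_lit 190954202814) (nat_lit 76) (nat_lit 87465465884) (nat_lit 76) (nat_lit 84565494644) (nat_lit 4) (nat_lit 4) (nat_lit 5) (nat_lit 5) (nat_lit 5) (nat_lit 4) (nat_lit 388) (nat_lit 335) (nat_lit 297))))))) (XT.nd (nat_lit 780) (nat_lit 0) (nat_lit 0) (XT.nd (nat_lit 390) (nat_lit 76) (nat_lit 0) (XT.nd (nat_lit 156) (nat_lit 0) (nat_lit 0) (XT.nd (nat_lit 78) (nat_lit 152) (nat_lit 0) (XT.lf (nat_lit 0) (nat_lit 328464533048) (nat_lit 76) (nat_lit 43833007977) (nat_lit 76) (nat_lit 40931159933) (nat_lit 4) (nat_lit 4) (nat_lit 5) (nat_lit 5) (nat_lit 5) (nat_lit 4) (nat_lit 389) (nat_lit 335) (nat_lit 296)) (XT.lf (nat_lit 0) (nat_lit 9273830744) (nat_lit 152) (nat_lit 455092669907) (nat_lit 0) (nat_lit 6585423294) (nat_lit 2) (nat_lit 5)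 (nat_lit 4) (nat_lit 4) (nat_lit 2) (nat_lit 4) (nat_lit 390) (nat_lit 335) (nat_lit 295))) (XT.nd (nat_lit 78) (nat_lit 0) (nat_lit 0) (XT.lf (nat_lit 0) (nat_lit 68338742727) (nat_lit 152) (nat_lit 402960594365) (nat_lit 0) (nat_lit 65649021265) (nat_lit 2) (nat_lit 5) (nat_lit 4) (nat_lit 4) (nat_lit 2) (nat_lit 4) (nat_lit 391) (nat_lit 335) (nat_lit 294)) (XT.nd (nat_lit 78) (nat_lit 0) (nat_lit 0) (XT.lf (nat_lit 0) (nat_lit 136210884655) (nat_lit 152) (nat_lit 343117553310) (nat_lit 0) (nat_lit 133520020574) (nat_lit 2) (nat_lit 5) (nat_lit 4) (nat_lit 4) (nat_lit 2) (nat_lit 4) (nat_lit 392) (nat_lit 335) (nat_lit 293)) (XT.lf (nat_lit 0) (nat_lit 214218189739) (nat_lit 152) (nat_lit 274392704634) (nat_lit 0) (nat_lit 211526332076) (nat_lit 2) (nat_lit 5) (nat_lit 4) (nat_lit 4) (nat_lit 2) (nat_lit 4) (nat_lit 393) (nat_lit 335) (nat_lit 292))))) (XT.nd (nat_lit 156) (nat_lit 76)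 (nat_lit 0) (XT.nd (nat_lit 78) (nat_lit 0) (nat_lit 0) (XT.lf (nat_lit 0) (nat_lit 303886887861) (nat_lit 152) (nat_lit 195441431733) (nat_lit 0) (nat_lit 301194166214) (nat_lit 2) (nat_lit 5) (nat_lit 4) (nat_lit 4) (nat_lit 2) (nat_lit 4) (nat_lit 394) (nat_lit 335) (nat_lit 291)) (XT.lf (nat_lit 0) (nat_lit 406971366594) (nat_lit 152) (nat_lit 104719035789) (nat_lit 0) (nat_lit 404277893657) (nat_lit 2) (nat_lit 5) (nat_lit 4) (nat_lit 4) (nat_lit 2) (nat_lit 4) (nat_lit 395) (nat_lit 335) (nat_lit 290))) (XT.nd (nat_lit 78) (nat_lit 76) (nat_lit 0) (XT.lf (nat_lit 0) (nat_lit 525488496173) (nat_lit 152) (nat_lit 450513403) (nat_lit 0) (nat_lit 522794369940) (nat_lit 2) (nat_lit 5) (nat_lit 4) (nat_lit 4) (nat_lit 2) (nat_lit 4) (nat_lit 396) (nat_lit 335) (nat_lit 289)) (XT.nd (nat_lit 78) (nat_lit 0) (nat_lit 0) (XT.lf (nat_lit 0) (nat_lit 125691783812) (nat_lit 76) (nat_lit 539088196615)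 (nat_lit 76) (nat_lit 536393502298) (nat_lit 1) (nat_lit 4) (nat_lit 2) (nat_lit 5) (nat_lit 2) (nat_lit 4) (nat_lit 397) (nat_lit 335) (nat_lit 288)) (XT.lf (nat_lit 0) (nat_lit 270733172342) (nat_lit 76) (nat_lit 554221239711) (nat_lit 76) (nat_lit 551526051408) (nat_lit 1) (nat_lit 4) (nat_lit 2) (nat_lit 5) (nat_lit 2) (nat_lit 4) (nat_lit 398) (nat_lit 335) (nat_lit 287)))))) (XT.nd (nat_lit 390) (nat_lit 0) (nat_lit 0) (XT.nd (nat_lit 156) (nat_lit 0) (nat_lit 0) (XT.nd (nat_lit 78) (nat_lit 0) (nat_lit 0) (XT.lf (nat_lit 0) (nat_lit 437487695246) (nat_lit 76) (nat_lit 571646537978) (nat_lit 76) (nat_lit 568950920123) (nat_lit 1) (nat_lit 4) (nat_lit 2) (nat_lit 5) (nat_lit 2) (nat_lit 4) (nat_lit 399) (nat_lit 335) (nat_lit 286)) (XT.lf (nat_lit 0) (nat_lit 629217941015) (nat_lit 76) (nat_lit 591705021165) (nat_lit 76) (nat_lit 589009029785) (nat_lit 1) (nat_lit 4) (nat_lit 2) (nat_lit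 5) (nat_lit 2) (nat_lit 4) (nat_lit 400) (nat_lit 335) (nat_lit 285))) (XT.nd (nat_lit 78) (nat_lit 0) (nat_lit 0) (XT.lf (nat_lit 0) (nat_lit 849675153588) (nat_lit 76) (nat_lit 614789137856) (nat_lit 76) (nat_lit 612092821673) (nat_lit 1) (nat_lit 4) (nat_lit 2) (nat_lit 5) (nat_lit 2) (nat_lit 4) (nat_lit 401) (nat_lit 335) (nat_lit 284)) (XT.nd (nat_lit 78) (nat_lit 0) (nat_lit 0) (XT.lf (nat_lit 0) (nat_lit 1103172626255) (nat_lit 76) (nat_lit 641350533812) (nat_lit 76) (nat_lit 638653935191) (nat_lit 1) (nat_lit 4) (nat_lit 2) (nat_lit 5) (nat_lit 2) (nat_lit 4) (nat_lit 402) (nat_lit 335) (nat_lit 283)) (XT.lf (nat_lit 0) (nat_lit 1394670092176) (nat_lit 76) (nat_lit 671908888519) (nat_lit 76) (nat_lit 669212044300) (nat_lit 1) (nat_lit 4) (nat_lit 2) (nat_lit 5) (nat_lit 2) (nat_lit 4) (nat_lit 403) (nat_lit 335) (nat_lit 282))))) (XT.nd (nat_lit 234) (nat_lit 0) (nat_lit 0) (XT.nd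 (nat_lit 78) (nat_lit 0) (nat_lit 0) (XT.lf (nat_lit 0) (nat_lit 1729870762641) (nat_lit 76) (nat_lit 707062082830) (nat_lit 76) (nat_lit 704365025048) (nat_lit 1) (nat_lit 4) (nat_lit 2) (nat_lit 5) (nat_lit 2) (nat_lit 4) (nat_lit 404) (nat_lit 335) (nat_lit 281)) (XT.nd (nat_lit 78) (nat_lit 0) (nat_lit 0) (XT.lf (nat_lit 0) (nat_lit 2115332911638) (nat_lit 76) (nat_lit 747497896635) (nat_lit 76) (nat_lit 744800653145) (nat_lit 1) (nat_lit 4) (nat_lit 2) (nat_lit 5) (nat_lit 2) (nat_lit 4) (nat_lit 405) (nat_lit 335) (nat_lit 280)) (XT.lf (nat_lit 0) (nat_lit 2558598189908) (nat_lit 76) (nat_lit 794007465420) (nat_lit 76) (nat_lit 791310060445) (nat_lit 1) (nat_lit 4) (nat_lit 2) (nat_lit 5) (nat_lit 2) (nat_lit 4) (nat_lit 406) (nat_lit 335) (nat_lit 279)))) (XT.nd (nat_lit 78) (nat_lit 0) (nat_lit 0) (XT.lf (nat_lit 0) (nat_lit 3068339178983) (nat_lit 76) (nat_lit 847500759009) (nat_lit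 76) (nat_lit 844803213613) (nat_lit 1) (nat_lit 4) (nat_lit 2) (nat_lit 5) (nat_lit 2) (nat_lit 4) (nat_lit 407) (nat_lit 335) (nat_lit 278)) (XT.nd (nat_lit 78) (nat_lit 0) (nat_lit 0) (XT.lf (nat_lit 0) (nat_lit 3654529072126) (nat_lit 76) (nat_lit 909024385322) (nat_lit 76) (nat_lit 906326717819) (nat_lit 1) (nat_lit 4) (nat_lit 2) (nat_lit 5) (nat_lit 2) (nat_lit 4) (nat_lit 408) (nat_lit 335) (nat_lit 277)) (XT.lf (nat_lit 0) (nat_lit 4328636802030) (nat_lit 76) (nat_lit 979782067480) (nat_lit 76) (nat_lit 977084293798) (nat_lit 1) (nat_lit 4) (nat_lit 2) (nat_lit 5) (nat_lit 2) (nat_lit 4) (nat_lit 409) (nat_lit 335) (nat_lit 276))))))))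
noncomputable def xc37 : XT := (XT.nd (nat_lit 48516) (nat_lit 0) (nat_lit 1444) (XT.nd (nat_lit 780) (nat_lit 0) (nat_lit 0) (XT.nd (nat_lit 390) (nat_lit 0) (nat_lit 0) (XT.nd (nat_lit 156) (nat_lit 0) (nat_lit 0) (XT.nd (nat_lit 78) (nat_lit 0) (nat_lit 0) (XT.lf (nat_lit 0) (nat_lit 5103851432975) (nat_lit 76) (nat_lit 1061158194917) (nat_lit 76) (nat_lit 1058460328907) (nat_lit 1) (nat_lit 4) (nat_lit 2) (nat_lit 5) (nat_lit 2) (nat_lit 4) (nat_lit 410) (nat_lit 335) (nat_lit 275)) (XT.lf (nat_lit 0) (nat_lit 5995340207741) (nat_lit 76) (nat_lit 1154744909258) (nat_lit 76) (nat_lit 1152046962961) (nat_lit 1) (nat_lit 4) (nat_lit 2) (nat_lit 5) (nat_lit 2) (nat_lit 4) (nat_lit 411) (nat_lit 335) (nat_lit 274))) (XT.nd (nat_lit 78) (nat_lit 0) (nat_lit 0) (XT.lf (nat_lit 0) (nat_lit 7020545298008) (nat_lit 76) (nat_lit 1262373254914) (nat_lit 76) (nat_lit 1259675238802) (nat_lit 1) (nat_lit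 4) (nat_lit 2) (nat_lit 5) (nat_lit 2) (nat_lit 4) (nat_lit 412) (nat_lit 335) (nat_lit 273)) (XT.nd (nat_lit 78) (nat_lit 0) (nat_lit 0) (XT.lf (nat_lit 0) (nat_lit 8199525064237) (nat_lit 76) (nat_lit 1386149003864) (nat_lit 76) (nat_lit 1383450927044) (nat_lit 1) (nat_lit 4) (nat_lit 2) (nat_lit 5) (nat_lit 2) (nat_lit 4) (nat_lit 413) (nat_lit 335) (nat_lit 272)) (XT.lf (nat_lit 0) (nat_lit 9555346501856) (nat_lit 76) (nat_lit 1528493855545) (nat_lit 76) (nat_lit 1525795725935) (nat_lit 1) (nat_lit 4) (nat_lit 2) (nat_lit 5) (nat_lit 2) (nat_lit 4) (nat_lit 414) (nat_lit 335) (nat_lit 271))))) (XT.nd (nat_lit 156) (nat_lit 0) (nat_lit 0) (XT.nd (nat_lit 78) (nat_lit 0) (nat_lit 0) (XT.lf (nat_lit 0) (nat_lit 11114536552034) (nat_lit 76) (nat_lit 1692192817923) (nat_lit 76) (nat_lit 1689494642410) (nat_lit 1) (nat_lit 4) (nat_lit 2) (nat_lit 5) (nat_lit 2) (nat_lit 4) (nat_lit 415) (nat_lit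 335) (nat_lit 270)) (XT.lf (nat_lit 0) (nat_lit 12907601107058) (nat_lit 76) (nat_lit 1880448696786) (nat_lit 76) (nat_lit 1877750481356) (nat_lit 1) (nat_lit 4) (nat_lit 2) (nat_lit 5) (nat_lit 2) (nat_lit 4) (nat_lit 416) (nat_lit 335) (nat_lit 269))) (XT.nd (nat_lit 78) (nat_lit 0) (nat_lit 0) (XT.lf (nat_lit 0) (nat_lit 14969621864744) (nat_lit 76) (nat_lit 2096944759328) (nat_lit 76) (nat_lit 2094246509188) (nat_lit 1) (nat_lit 4) (nat_lit 2) (nat_lit 5) (nat_lit 2) (nat_lit 4) (nat_lit 417) (nat_lit 335) (nat_lit 268)) (XT.nd (nat_lit 78) (nat_lit 0) (nat_lit 0) (XT.lf (nat_lit 0) (nat_lit 17340942709481) (nat_lit 76) (nat_lit 2345916798077) (nat_lit 76) (nat_lit 2343218517754) (nat_lit 1) (nat_lit 4) (nat_lit 2) (nat_lit 5) (nat_lit 2) (nat_lit 4) (nat_lit 418) (nat_lit 335) (nat_lit 267)) (XT.lf (nat_lit 0) (nat_lit 20067959049101) (nat_lit 76) (nat_lit 2632236005095) (nat_lit 76)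 (nat_lit 2629537698527) (nat_lit 1) (nat_lit 4) (nat_lit 2) (nat_lit 5) (nat_lit 2) (nat_lit 4) (nat_lit 419) (nat_lit 335) (nat_lit 266)))))) (XT.nd (nat_lit 390) (nat_lit 0) (nat_lit 0) (XT.nd (nat_lit 156) (nat_lit 0) (nat_lit 0) (XT.nd (nat_lit 78) (nat_lit 0) (nat_lit 0) (XT.lf (nat_lit 0) (nat_lit 23204025551118) (nat_lit 76) (nat_lit 2961504277912) (nat_lit 76) (nat_lit 2958805948521) (nat_lit 1) (nat_lit 4) (nat_lit 2) (nat_lit 5) (nat_lit 2) (nat_lit 4) (nat_lit 420) (nat_lit 335) (nat_lit 265)) (XT.lf (nat_lit 0) (nat_lit 26810500038397) (nat_lit 76) (nat_lit 3340163821864) (nat_lit 76) (nat_lit 3337465472628) (nat_lit 1) (nat_lit 4) (nat_lit 2) (nat_lit 5) (nat_lit 2) (nat_lit 4) (nat_lit 421) (nat_lit 335) (nat_lit 264))) (XT.nd (nat_lit 78) (nat_lit 0) (nat_lit 0) (XT.lf (nat_lit 0) (nat_lit 30957943968299) (nat_lit 76) (nat_lit 3775623193247) (nat_lit 76) (nat_lit 3772924826754)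 (nat_lit 1) (nat_lit 4) (nat_lit 2) (nat_lit 5) (nat_lit 2) (nat_lit 4) (nat_lit 422) (nat_lit 335) (nat_lit 263)) (XT.nd (nat_lit 78) (nat_lit 0) (nat_lit 0) (XT.lf (nat_lit 0) (nat_lit 35727502982930) (nat_lit 76) (nat_lit 4276402249327) (nat_lit 76) (nat_lit 4273703867828) (nat_lit 1) (nat_lit 4) (nat_lit 2) (nat_lit 5) (nat_lit 2) (nat_lit 4) (nat_lit 423) (nat_lit 335) (nat_lit 262)) (XT.lf (nat_lit 0) (nat_lit 41212494541273) (nat_lit 76) (nat_lit 4852298841201) (nat_lit 76) (nat_lit 4849600446653) (nat_lit 1) (nat_lit 4) (nat_lit 2) (nat_lit 5) (nat_lit 2) (nat_lit 4) (nat_lit 424) (nat_lit 335) (nat_lit 261))))) (XT.nd (nat_lit 47112) (nat_lit 0) (nat_lit 4940) (XT.nd (nat_lit 78) (nat_lit 0) (nat_lit 0) (XT.lf (nat_lit 0) (nat_lit 47520233695555) (nat_lit 76) (nat_lit 5514580510884) (nat_lit 76) (nat_lit 5511882104989) (nat_lit 1) (nat_lit 4) (nat_lit 2) (nat_lit 5) (nat_lit 2) (nat_lit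 4) (nat_lit 425) (nat_lit 335) (nat_lit 260)) (XT.nd (nat_lit 78) (nat_lit 0) (nat_lit 0) (XT.lf (nat_lit 0) (nat_lit 54774132733578) (nat_lit 76) (nat_lit 6276204943217) (nat_lit 76) (nat_lit 6273506527455) (nat_lit 1) (nat_lit 4) (nat_lit 2) (nat_lit 5) (nat_lit 2) (nat_lit 4) (nat_lit 426) (nat_lit 335) (nat_lit 259)) (XT.lf (nat_lit 0) (nat_lit 63116115766956) (nat_lit 76) (nat_lit 7152073485790) (nat_lit 76) (nat_lit 7149375061448) (nat_lit 1) (nat_lit 4) (nat_lit 2) (nat_lit 5) (nat_lit 2) (nat_lit 4) (nat_lit 427) (nat_lit 335) (nat_lit 258)))) (XT.nd (nat_lit 78) (nat_lit 912) (nat_lit 0) (XT.lf (nat_lit 0) (nat_lit 3842902595) (nat_lit 228) (nat_lit 69716003) (nat_lit 228) (nat_lit 69716003) (nat_lit 78) (nat_lit 4) (nat_lit 81) (nat_lit 5) (nat_lit 81) (nat_lit 4) (nat_lit 348) (nat_lit 336) (nat_lit 336)) (XT.nd (nat_lit 78) (nat_lit 380) (nat_lit 0) (XT.lf (nat_lit 0) (nat_lit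 4112031683) (nat_lit 228) (nat_lit 3151692163) (nat_lit 228) (nat_lit 1114136059) (nat_lit 71) (nat_lit 4) (nat_lit 74) (nat_lit 5) (nat_lit 74) (nat_lit 4) (nat_lit 349) (nat_lit 336) (nat_lit 335)) (XT.lf (nat_lit 0) (nat_lit 97135274) (nat_lit 152) (nat_lit 6147793978) (nat_lit 152) (nat_lit 2620623589) (nat_lit 66) (nat_lit 4) (nat_lit 68) (nat_lit 5) (nat_lit 68) (nat_lit 4) (nat_lit 350) (nat_lit 336) (nat_lit 334))))))) (XT.nd (nat_lit 780) (nat_lit 1520) (nat_lit 0) (XT.nd (nat_lit 390) (nat_lit 836) (nat_lit 0) (XT.nd (nat_lit 156) (nat_lit 608) (nat_lit 0) (XT.nd (nat_lit 78) (nat_lit 304) (nat_lit 0) (XT.lf (nat_lit 0) (nat_lit 4842939027) (nat_lit 228) (nat_lit 4324131244) (nat_lit 0) (nat_lit 256151335) (nat_lit 63) (nat_lit 5) (nat_lit 66) (nat_lit 4) (nat_lit 63) (nat_lit 4) (nat_lit 351) (nat_lit 336) (nat_lit 333)) (XT.lf (nat_lit 0) (nat_lit 453006514) (nat_lit 76) (nat_lit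 2522182667) (nat_lit 152) (nat_lit 7083854899) (nat_lit 59) (nat_lit 5) (nat_lit 60) (nat_lit 5) (nat_lit 61) (nat_lit 4) (nat_lit 352) (nat_lit 336) (nat_lit 332))) (XT.nd (nat_lit 78) (nat_lit 380) (nat_lit 0) (XT.lf (nat_lit 0) (nat_lit 644683626) (nat_lit 228) (nat_lit 4894399701) (nat_lit 76) (nat_lit 5235446193) (nat_lit 56) (nat_lit 5) (nat_lit 59) (nat_lit 5) (nat_lit 57) (nat_lit 4) (nat_lit 353) (nat_lit 336) (nat_lit 331)) (XT.nd (nat_lit 78) (nat_lit 152) (nat_lit 0) (XT.lf (nat_lit 0) (nat_lit 154475885) (nat_lit 152) (nat_lit 8972565334) (nat_lit 152) (nat_lit 2454496871) (nat_lit 53) (nat_lit 4) (nat_lit 55) (nat_lit 5) (nat_lit 55) (nat_lit 4) (nat_lit 354) (nat_lit 336) (nat_lit 330)) (XT.lf (nat_lit 0) (nat_lit 5883099881) (nat_lit 76) (nat_lit 390289572) (nat_lit 152) (nat_lit 6206379810) (nat_lit 51) (nat_lit 5) (nat_lit 52) (nat_lit 5) (nat_lit 53) (nat_lit 4) (nat_lit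 355) (nat_lit 336) (nat_lit 329))))) (XT.nd (nat_lit 156) (nat_lit 456) (nat_lit 0) (XT.nd (nat_lit 78) (nat_lit 152) (nat_lit 0) (XT.lf (nat_lit 0) (nat_lit 2746068532) (nat_lit 228) (nat_lit 1444267976) (nat_lit 76) (nat_lit 9294488981) (nat_lit 48) (nat_lit 5) (nat_lit 51) (nat_lit 5) (nat_lit 49) (nat_lit 4) (nat_lit 356) (nat_lit 336) (nat_lit 328)) (XT.lf (nat_lit 0) (nat_lit 4338382557) (nat_lit 76) (nat_lit 8654796965) (nat_lit 76) (nat_lit 1609043391) (nat_lit 46) (nat_lit 4) (nat_lit 47) (nat_lit 5) (nat_lit 47) (nat_lit 4) (nat_lit 357) (nat_lit 336) (nat_lit 327))) (XT.nd (nat_lit 78) (nat_lit 304) (nat_lit 0) (XT.lf (nat_lit 0) (nat_lit 8754726722) (nat_lit 152) (nat_lit 5197747696) (nat_lit 0) (nat_lit 1892922826) (nat_lit 44) (nat_lit 5) (nat_lit 46) (nat_lit 4) (nat_lit 44) (nat_lit 4) (nat_lit 358) (nat_lit 336) (nat_lit 326)) (XT.nd (nat_lit 78) (nat_lit 76) (nat_lit 0) (XT.lf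 (nat_lit 0) (nat_lit 262910110) (nat_lit 76) (nat_lit 3303719948) (nat_lit 152) (nat_lit 13664653046) (nat_lit 41) (nat_lit 5) (nat_lit 42) (nat_lit 5) (nat_lit 43) (nat_lit 4) (nat_lit 359) (nat_lit 336) (nat_lit 325)) (XT.lf (nat_lit 0) (nat_lit 6408503686) (nat_lit 76) (nat_lit 9607502946) (nat_lit 76) (nat_lit 2745257381) (nat_lit 40) (nat_lit 4) (nat_lit 41) (nat_lit 5) (nat_lit 41) (nat_lit 4) (nat_lit 360) (nat_lit 336) (nat_lit 324)))))) (XT.nd (nat_lit 390) (nat_lit 836) (nat_lit 0) (XT.nd (nat_lit 156) (nat_lit 380) (nat_lit 0) (XT.nd (nat_lit 78) (nat_lit 152) (nat_lit 0) (XT.lf (nat_lit 0) (nat_lit 9789183236) (nat_lit 152) (nat_lit 7430511924) (nat_lit 0) (nat_lit 3244740440) (nat_lit 38) (nat_lit 5) (nat_lit 40) (nat_lit 4) (nat_lit 38) (nat_lit 4) (nat_lit 361) (nat_lit 336) (nat_lit 323)) (XT.lf (nat_lit 0) (nat_lit 2193020502) (nat_lit 152) (nat_lit 2148622513) (nat_lit 76)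 (nat_lit 18020587821) (nat_lit 36) (nat_lit 5) (nat_lit 38) (nat_lit 5) (nat_lit 37) (nat_lit 4) (nat_lit 362) (nat_lit 336) (nat_lit 322))) (XT.nd (nat_lit 78) (nat_lit 228) (nat_lit 0) (XT.lf (nat_lit 0) (nat_lit 3537578787) (nat_lit 76) (nat_lit 13633237464) (nat_lit 76) (nat_lit 7286793586) (nat_lit 34) (nat_lit 4) (nat_lit 35) (nat_lit 5) (nat_lit 35) (nat_lit 4) (nat_lit 363) (nat_lit 336) (nat_lit 321)) (XT.nd (nat_lit 78) (nat_lit 76) (nat_lit 0) (XT.lf (nat_lit 0) (nat_lit 7893086208) (nat_lit 152) (nat_lit 16991041585) (nat_lit 0) (nat_lit 1909355125) (nat_lit 32) (nat_lit 5) (nat_lit 34) (nat_lit 4) (nat_lit 32) (nat_lit 4) (nat_lit 364) (nat_lit 336) (nat_lit 320)) (XT.lf (nat_lit 0) (nat_lit 16315670413) (nat_lit 76) (nat_lit 9574169589) (nat_lit 76) (nat_lit 3497052281) (nat_lit 31) (nat_lit 4) (nat_lit 32) (nat_lit 5) (nat_lit 32) (nat_lit 4) (nat_lit 365) (nat_lit 336) (nat_lit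 319))))) (XT.nd (nat_lit 234) (nat_lit 456) (nat_lit 0) (XT.nd (nat_lit 78) (nat_lit 228) (nat_lit 0) (XT.lf (nat_lit 0) (nat_lit 14385392890) (nat_lit 152) (nat_lit 9202946238) (nat_lit 0) (nat_lit 8683242223) (nat_lit 29) (nat_lit 5) (nat_lit 31) (nat_lit 4) (nat_lit 29) (nat_lit 4) (nat_lit 366) (nat_lit 336) (nat_lit 318)) (XT.nd (nat_lit 78) (nat_lit 76) (nat_lit 0) (XT.lf (nat_lit 0) (nat_lit 235551512) (nat_lit 152) (nat_lit 5277586300) (nat_lit 76) (nat_lit 29987612314) (nat_lit 27) (nat_lit 5) (nat_lit 29) (nat_lit 5) (nat_lit 28) (nat_lit 4) (nat_lit 367) (nat_lit 336) (nat_lit 317)) (XT.lf (nat_lit 0) (nat_lit 21268812550) (nat_lit 152) (nat_lit 1932271862) (nat_lit 0) (nat_lit 15875860662) (nat_lit 26) (nat_lit 5) (nat_lit 28) (nat_lit 4) (nat_lit 26) (nat_lit 4) (nat_lit 368) (nat_lit 336) (nat_lit 316)))) (XT.nd (nat_lit 78) (nat_lit 228) (nat_lit 0) (XT.lf (nat_lit 0) (nat_lit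 1335462313) (nat_lit 76) (nat_lit 1921360207) (nat_lit 152) (nat_lit 39840165616) (nat_lit 23) (nat_lit 5) (nat_lit 24) (nat_lit 5) (nat_lit 25) (nat_lit 4) (nat_lit 369) (nat_lit 336) (nat_lit 315)) (XT.nd (nat_lit 78) (nat_lit 152) (nat_lit 0) (XT.lf (nat_lit 0) (nat_lit 3431787949) (nat_lit 76) (nat_lit 24597878881) (nat_lit 76) (nat_lit 19525161929) (nat_lit 22) (nat_lit 4) (nat_lit 23) (nat_lit 5) (nat_lit 23) (nat_lit 4) (nat_lit 370) (nat_lit 336) (nat_lit 314)) (XT.lf (nat_lit 0) (nat_lit 4741899669) (nat_lit 152) (nat_lit 47829060587) (nat_lit 0) (nat_lit 15263843) (nat_lit 20) (nat_lit 5) (nat_lit 22) (nat_lit 4) (nat_lit 20) (nat_lit 4) (nat_lit 371) (nat_lit 336) (nat_lit 313))))))))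
noncomputable def xc38 : XT := (XT.nd (nat_lit 1638) (nat_lit 76) (nat_lit 0) (XT.nd (nat_lit 780) (nat_lit 456) (nat_lit 0) (XT.nd (nat_lit 390) (nat_lit 456) (nat_lit 0) (XT.nd (nat_lit 156) (nat_lit 228) (nat_lit 0) (XT.nd (nat_lit 78) (nat_lit 152) (nat_lit 0) (XT.lf (nat_lit 0) (nat_lit 3689537313) (nat_lit 76) (nat_lit 29624486454) (nat_lit 76) (nat_lit 24872045684) (nat_lit 19) (nat_lit 4) (nat_lit 20) (nat_lit 5) (nat_lit 20) (nat_lit 4) (nat_lit 372) (nat_lit 336) (nat_lit 312)) (XT.lf (nat_lit 0) (nat_lit 703672877) (nat_lit 76) (nat_lit 1930246703) (nat_lit 152) (nat_lit 61895783598) (nat_lit 17) (nat_lit 5) (nat_lit 18) (nat_lit 5) (nat_lit 19) (nat_lit 4) (nat_lit 373) (nat_lit 336) (nat_lit 311))) (XT.nd (nat_lit 78) (nat_lit 228) (nat_lit 0) (XT.lf (nat_lit 0) (nat_lit 34919283847) (nat_lit 152) (nat_lit 6203788426) (nat_lit 0) (nat_lit 30480031906) (nat_lit 17) (nat_lit 5)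 (nat_lit 19) (nat_lit 4) (nat_lit 17) (nat_lit 4) (nat_lit 374) (nat_lit 336) (nat_lit 310)) (XT.nd (nat_lit 78) (nat_lit 152) (nat_lit 0) (XT.lf (nat_lit 0) (nat_lit 62672907352) (nat_lit 76) (nat_lit 10706507069) (nat_lit 76) (nat_lit 6251544787) (nat_lit 16) (nat_lit 4) (nat_lit 17) (nat_lit 5) (nat_lit 17) (nat_lit 4) (nat_lit 375) (nat_lit 336) (nat_lit 309)) (XT.lf (nat_lit 0) (nat_lit 29236956428) (nat_lit 152) (nat_lit 34317039718) (nat_lit 0) (nat_lit 25099342123) (nat_lit 14) (nat_lit 5) (nat_lit 16) (nat_lit 4) (nat_lit 14) (nat_lit 4) (nat_lit 376) (nat_lit 336) (nat_lit 308))))) (XT.nd (nat_lit 156) (nat_lit 228) (nat_lit 0) (XT.nd (nat_lit 78) (nat_lit 152) (nat_lit 0) (XT.lf (nat_lit 0) (nat_lit 39437750218) (nat_lit 76) (nat_lit 31801064262) (nat_lit 76) (nat_lit 27652450627) (nat_lit 13) (nat_lit 4) (nat_lit 14) (nat_lit 5) (nat_lit 14) (nat_lit 4) (nat_lit 377) (nat_lit 336)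 (nat_lit 307)) (XT.lf (nat_lit 0) (nat_lit 9801465882) (nat_lit 152) (nat_lit 94785484143) (nat_lit 0) (nat_lit 5951300818) (nat_lit 11) (nat_lit 5) (nat_lit 13) (nat_lit 4) (nat_lit 11) (nat_lit 4) (nat_lit 378) (nat_lit 336) (nat_lit 306))) (XT.nd (nat_lit 78) (nat_lit 228) (nat_lit 0) (XT.lf (nat_lit 0) (nat_lit 53760679808) (nat_lit 152) (nat_lit 20009368154) (nat_lit 0) (nat_lit 49902813751) (nat_lit 11) (nat_lit 5) (nat_lit 13) (nat_lit 4) (nat_lit 11) (nat_lit 4) (nat_lit 379) (nat_lit 336) (nat_lit 305)) (XT.nd (nat_lit 78) (nat_lit 152) (nat_lit 0) (XT.lf (nat_lit 0) (nat_lit 69122174458) (nat_lit 76) (nat_lit 36699702301) (nat_lit 76) (nat_lit 32835139728) (nat_lit 10) (nat_lit 4) (nat_lit 11) (nat_lit 5) (nat_lit 11) (nat_lit 4) (nat_lit 380) (nat_lit 336) (nat_lit 304)) (XT.lf (nat_lit 0) (nat_lit 10353541768) (nat_lit 152) (nat_lit 138663300409) (nat_lit 0) (nat_lit 6769851369)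 (nat_lit 8) (nat_lit 5) (nat_lit 10) (nat_lit 4) (nat_lit 8) (nat_lit 4) (nat_lit 381) (nat_lit 336) (nat_lit 303)))))) (XT.nd (nat_lit 390) (nat_lit 228) (nat_lit 0) (XT.nd (nat_lit 156) (nat_lit 152) (nat_lit 0) (XT.nd (nat_lit 78) (nat_lit 76) (nat_lit 0) (XT.lf (nat_lit 0) (nat_lit 61087684162) (nat_lit 152) (nat_lit 56589694841) (nat_lit 0) (nat_lit 57499305311) (nat_lit 8) (nat_lit 5) (nat_lit 10) (nat_lit 4) (nat_lit 8) (nat_lit 4) (nat_lit 382) (nat_lit 336) (nat_lit 302)) (XT.lf (nat_lit 0) (nat_lit 39527709279) (nat_lit 76) (nat_lit 80736663215) (nat_lit 76) (nat_lit 77144207449) (nat_lit 7) (nat_lit 4) (nat_lit 8) (nat_lit 5) (nat_lit 8) (nat_lit 4) (nat_lit 383) (nat_lit 336) (nat_lit 301))) (XT.nd (nat_lit 78) (nat_lit 152) (nat_lit 0) (XT.lf (nat_lit 0) (nat_lit 153265747974) (nat_lit 76) (nat_lit 36591181887) (nat_lit 76) (nat_lit 32995180977) (nat_lit 7) (nat_lit 4) (nat_lit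 8) (nat_lit 5) (nat_lit 8) (nat_lit 4) (nat_lit 384) (nat_lit 336) (nat_lit 300)) (XT.nd (nat_lit 78) (nat_lit 0) (nat_lit 0) (XT.lf (nat_lit 0) (nat_lit 17953641852) (nat_lit 152) (nat_lit 219417836831) (nat_lit 0) (nat_lit 14621156998) (nat_lit 5) (nat_lit 5) (nat_lit 7) (nat_lit 4) (nat_lit 5) (nat_lit 4) (nat_lit 385) (nat_lit 336) (nat_lit 299)) (XT.lf (nat_lit 0) (nat_lit 77646630908) (nat_lit 152) (nat_lit 133232941017) (nat_lit 0) (nat_lit 74311663982) (nat_lit 5) (nat_lit 5) (nat_lit 7) (nat_lit 4) (nat_lit 5) (nat_lit 4) (nat_lit 386) (nat_lit 336) (nat_lit 298))))) (XT.nd (nat_lit 234) (nat_lit 152) (nat_lit 0) (XT.nd (nat_lit 78) (nat_lit 76) (nat_lit 0) (XT.lf (nat_lit 0) (nat_lit 146214788280) (nat_lit 152) (nat_lit 34283477372) (nat_lit 0) (nat_lit 142877663030) (nat_lit 5) (nat_lit 5) (nat_lit 7) (nat_lit 4) (nat_lit 5) (nat_lit 4) (nat_lit 387) (nat_lit 336) (nat_lit 297))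 (XT.nd (nat_lit 78) (nat_lit 0) (nat_lit 0) (XT.lf (nat_lit 0) (nat_lit 83545822262) (nat_lit 76) (nat_lit 143463121645) (nat_lit 76) (nat_lit 140124119592) (nat_lit 4) (nat_lit 4) (nat_lit 5) (nat_lit 5) (nat_lit 5) (nat_lit 4) (nat_lit 388) (nat_lit 336) (nat_lit 296)) (XT.lf (nat_lit 0) (nat_lit 220995745903) (nat_lit 76) (nat_lit 99861911026) (nat_lit 76) (nat_lit 96521276971) (nat_lit 4) (nat_lit 4) (nat_lit 5) (nat_lit 5) (nat_lit 5) (nat_lit 4) (nat_lit 389) (nat_lit 336) (nat_lit 295)))) (XT.nd (nat_lit 78) (nat_lit 152) (nat_lit 0) (XT.lf (nat_lit 0) (nat_lit 378950224020) (nat_lit 76) (nat_lit 49778937660) (nat_lit 76) (nat_lit 46436884471) (nat_lit 4) (nat_lit 4) (nat_lit 5) (nat_lit 5) (nat_lit 5) (nat_lit 4) (nat_lit 390) (nat_lit 336) (nat_lit 294)) (XT.nd (nat_lit 78) (nat_lit 0) (nat_lit 0) (XT.lf (nat_lit 0) (nat_lit 11230269840) (nat_lit 152) (nat_lit 522184579375) (nat_lit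 0) (nat_lit 8134633528) (nat_lit 2) (nat_lit 5) (nat_lit 4) (nat_lit 4) (nat_lit 2) (nat_lit 4) (nat_lit 391) (nat_lit 336) (nat_lit 293)) (XT.lf (nat_lit 0) (nat_lit 79081175426) (nat_lit 152) (nat_lit 462385560895) (nat_lit 0) (nat_lit 75984545533) (nat_lit 2) (nat_lit 5) (nat_lit 4) (nat_lit 4) (nat_lit 2) (nat_lit 4) (nat_lit 392) (nat_lit 336) (nat_lit 292))))))) (XT.nd (nat_lit 780) (nat_lit 0) (nat_lit 0) (XT.nd (nat_lit 390) (nat_lit 76) (nat_lit 0) (XT.nd (nat_lit 156) (nat_lit 0) (nat_lit 0) (XT.nd (nat_lit 78) (nat_lit 0) (nat_lit 0) (XT.lf (nat_lit 0) (nat_lit 157070014127) (nat_lit 152) (nat_lit 393698992720) (nat_lit 0) (nat_lit 153972520249) (nat_lit 2) (nat_lit 5) (nat_lit 4) (nat_lit 4) (nat_lit 2) (nat_lit 4) (nat_lit 393) (nat_lit 336) (nat_lit 291)) (XT.lf (nat_lit 0) (nat_lit 246722654525) (nat_lit 152) (nat_lit 314781007211) (nat_lit 0) (nat_lit 243624409356) (nat_lit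 2) (nat_lit 5) (nat_lit 4) (nat_lit 4) (nat_lit 2) (nat_lit 4) (nat_lit 394) (nat_lit 336) (nat_lit 290))) (XT.nd (nat_lit 78) (nat_lit 0) (nat_lit 0) (XT.lf (nat_lit 0) (nat_lit 349793170019) (nat_lit 152) (nat_lit 224087556825) (nat_lit 0) (nat_lit 346694271554) (nat_lit 2) (nat_lit 5) (nat_lit 4) (nat_lit 4) (nat_lit 2) (nat_lit 4) (nat_lit 395) (nat_lit 336) (nat_lit 289)) (XT.nd (nat_lit 78) (nat_lit 0) (nat_lit 0) (XT.lf (nat_lit 0) (nat_lit 468298157651) (nat_lit 152) (nat_lit 119844204489) (nat_lit 0) (nat_lit 465198691103) (nat_lit 2) (nat_lit 5) (nat_lit 4) (nat_lit 4) (nat_lit 2) (nat_lit 4) (nat_lit 396) (nat_lit 336) (nat_lit 288)) (XT.lf (nat_lit 0) (nat_lit 604556193267) (nat_lit 152) (nat_lit 11406354) (nat_lit 0) (nat_lit 601456232734) (nat_lit 2) (nat_lit 5) (nat_lit 4) (nat_lit 4) (nat_lit 2) (nat_lit 4) (nat_lit 397) (nat_lit 336) (nat_lit 287))))) (XT.nd (nat_lit 156)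 (nat_lit 0) (nat_lit 0) (XT.nd (nat_lit 78) (nat_lit 0) (nat_lit 0) (XT.lf (nat_lit 0) (nat_lit 145009347161) (nat_lit 76) (nat_lit 619711326079) (nat_lit 76) (nat_lit 616610935993) (nat_lit 1) (nat_lit 4) (nat_lit 2) (nat_lit 5) (nat_lit 2) (nat_lit 4) (nat_lit 398) (nat_lit 336) (nat_lit 286)) (XT.lf (nat_lit 0) (nat_lit 311746448870) (nat_lit 76) (nat_lit 637145643035) (nat_lit 76) (nat_lit 634044879424) (nat_lit 1) (nat_lit 4) (nat_lit 2) (nat_lit 5) (nat_lit 2) (nat_lit 4) (nat_lit 399) (nat_lit 336) (nat_lit 285))) (XT.nd (nat_lit 78) (nat_lit 0) (nat_lit 0) (XT.lf (nat_lit 0) (nat_lit 503461545773) (nat_lit 76) (nat_lit 657211968559) (nat_lit 76) (nat_lit 654110880145) (nat_lit 1) (nat_lit 4) (nat_lit 2) (nat_lit 5) (nat_lit 2) (nat_lit 4) (nat_lit 400) (nat_lit 336) (nat_lit 284)) (XT.nd (nat_lit 78) (nat_lit 0) (nat_lit 0) (XT.lf (nat_lit 0) (nat_lit 723905585419) (nat_lit 76) (nat_lit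 680302904674) (nat_lit 76) (nat_lit 677201533822) (nat_lit 1) (nat_lit 4) (nat_lit 2) (nat_lit 5) (nat_lit 2) (nat_lit 4) (nat_lit 401) (nat_lit 336) (nat_lit 283)) (XT.lf (nat_lit 0) (nat_lit 977391603367) (nat_lit 76) (nat_lit 706870230564) (nat_lit 76) (nat_lit 703768614114) (nat_lit 1) (nat_lit 4) (nat_lit 2) (nat_lit 5) (nat_lit 2) (nat_lit 4) (nat_lit 402) (nat_lit 336) (nat_lit 282)))))) (XT.nd (nat_lit 390) (nat_lit 0) (nat_lit 0) (XT.nd (nat_lit 156) (nat_lit 0) (nat_lit 0) (XT.nd (nat_lit 78) (nat_lit 0) (nat_lit 0) (XT.lf (nat_lit 0) (nat_lit 1268879108663) (nat_lit 76) (nat_lit 737433741736) (nat_lit 76) (nat_lit 734331911722) (nat_lit 1) (nat_lit 4) (nat_lit 2) (nat_lit 5) (nat_lit 2) (nat_lit 4) (nat_lit 403) (nat_lit 336) (nat_lit 281)) (XT.lf (nat_lit 0) (nat_lit 1604071117716) (nat_lit 76) (nat_lit 772591419929) (nat_lit 76) (nat_lit 769489404208) (nat_lit 1) (nat_lit 4) (nat_lit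 2) (nat_lit 5) (nat_lit 2) (nat_lit 4) (nat_lit 404) (nat_lit 336) (nat_lit 280))) (XT.nd (nat_lit 78) (nat_lit 0) (nat_lit 0) (XT.lf (nat_lit 0) (nat_lit 1989525735049) (nat_lit 76) (nat_lit 813031132762) (nat_lit 76) (nat_lit 809928955555) (nat_lit 1) (nat_lit 4) (nat_lit 2) (nat_lit 5) (nat_lit 2) (nat_lit 4) (nat_lit 405) (nat_lit 336) (nat_lit 279)) (XT.nd (nat_lit 78) (nat_lit 0) (nat_lit 0) (XT.lf (nat_lit 0) (nat_lit 2432784464047) (nat_lit 76) (nat_lit 859544092005) (nat_lit 76) (nat_lit 856441774378) (nat_lit 1) (nat_lit 4) (nat_lit 2) (nat_lit 5) (nat_lit 2) (nat_lit 4) (nat_lit 406) (nat_lit 336) (nat_lit 278)) (XT.lf (nat_lit 0) (nat_lit 2942519758101) (nat_lit 76) (nat_lit 913040333820) (nat_lit 76) (nat_lit 909937894087) (nat_lit 1) (nat_lit 4) (nat_lit 2) (nat_lit 5) (nat_lit 2) (nat_lit 4) (nat_lit 407) (nat_lit 336) (nat_lit 277))))) (XT.nd (nat_lit 234) (nat_lit 0) (nat_lit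 0) (XT.nd (nat_lit 78) (nat_lit 0) (nat_lit 0) (XT.lf (nat_lit 0) (nat_lit 3528704699053) (nat_lit 76) (nat_lit 974566523806) (nat_lit 76) (nat_lit 971463977894) (nat_lit 1) (nat_lit 4) (nat_lit 2) (nat_lit 5) (nat_lit 2) (nat_lit 4) (nat_lit 408) (nat_lit 336) (nat_lit 276)) (XT.nd (nat_lit 78) (nat_lit 0) (nat_lit 0) (XT.lf (nat_lit 0) (nat_lit 4202808122704) (nat_lit 76) (nat_lit 1045326435246) (nat_lit 76) (nat_lit 1042223797004) (nat_lit 1) (nat_lit 4) (nat_lit 2) (nat_lit 5) (nat_lit 2) (nat_lit 4) (nat_lit 409) (nat_lit 336) (nat_lit 275)) (XT.lf (nat_lit 0) (nat_lit 4978019009081) (nat_lit 76) (nat_lit 1126704501190) (nat_lit 76) (nat_lit 1123601782662) (nat_lit 1) (nat_lit 4) (nat_lit 2) (nat_lit 5) (nat_lit 2) (nat_lit 4) (nat_lit 410) (nat_lit 336) (nat_lit 274)))) (XT.nd (nat_lit 78) (nat_lit 0) (nat_lit 0) (XT.lf (nat_lit 0) (nat_lit 5869504527701) (nat_lit 76) (nat_lit 1220292901188)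 (nat_lit 76) (nat_lit 1217190112846) (nat_lit 1) (nat_lit 4) (nat_lit 2) (nat_lit 5) (nat_lit 2) (nat_lit 4) (nat_lit 411) (nat_lit 336) (nat_lit 273)) (XT.nd (nat_lit 78) (nat_lit 0) (nat_lit 0) (XT.lf (nat_lit 0) (nat_lit 6894706786537) (nat_lit 76) (nat_lit 1327922712633) (nat_lit 76) (nat_lit 1324819863582) (nat_lit 1) (nat_lit 4) (nat_lit 2) (nat_lit 5) (nat_lit 2) (nat_lit 4) (nat_lit 412) (nat_lit 336) (nat_lit 272)) (XT.lf (nat_lit 0) (nat_lit 8073684090652) (nat_lit 76) (nat_lit 1451699736182) (nat_lit 76) (nat_lit 1448596834341) (nat_lit 1) (nat_lit 4) (nat_lit 2) (nat_lit 5) (nat_lit 2) (nat_lit 4) (nat_lit 413) (nat_lit 336) (nat_lit 271))))))))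
noncomputable def xc39 : XT := (XT.nd (nat_lit 48360) (nat_lit 0) (nat_lit 1368) (XT.nd (nat_lit 780) (nat_lit 0) (nat_lit 0) (XT.nd (nat_lit 390) (nat_lit 0) (nat_lit 0) (XT.nd (nat_lit 156) (nat_lit 0) (nat_lit 0) (XT.nd (nat_lit 78) (nat_lit 0) (nat_lit 0) (XT.lf (nat_lit 0) (nat_lit 9429503387302) (nat_lit 76) (nat_lit 1594045696209) (nat_lit 76) (nat_lit 1590942748465) (nat_lit 1) (nat_lit 4) (nat_lit 2) (nat_lit 5) (nat_lit 2) (nat_lit 4) (nat_lit 414) (nat_lit 336) (nat_lit 270)) (XT.lf (nat_lit 0) (nat_lit 10988691575768) (nat_lit 76) (nat_lit 1757745622368) (nat_lit 76) (nat_lit 1754642634707) (nat_lit 1) (nat_lit 4) (nat_lit 2) (nat_lit 5) (nat_lit 2) (nat_lit 4) (nat_lit 415) (nat_lit 336) (nat_lit 269))) (XT.nd (nat_lit 78) (nat_lit 0) (nat_lit 0) (XT.lf (nat_lit 0) (nat_lit 12781754511912) (nat_lit 76) (nat_lit 1946002339301) (nat_lit 76) (nat_lit 1942899316930) (nat_lit 1) (nat_lit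 4) (nat_lit 2) (nat_lit 5) (nat_lit 2) (nat_lit 4) (nat_lit 416) (nat_lit 336) (nat_lit 268)) (XT.nd (nat_lit 78) (nat_lit 0) (nat_lit 0) (XT.lf (nat_lit 0) (nat_lit 14843773861876) (nat_lit 76) (nat_lit 2162499130599) (nat_lit 76) (nat_lit 2159396078045) (nat_lit 1) (nat_lit 4) (nat_lit 2) (nat_lit 5) (nat_lit 2) (nat_lit 4) (nat_lit 417) (nat_lit 336) (nat_lit 267)) (XT.lf (nat_lit 0) (nat_lit 17215093482507) (nat_lit 76) (nat_lit 2411471803049) (nat_lit 76) (nat_lit 2408368724249) (nat_lit 1) (nat_lit 4) (nat_lit 2) (nat_lit 5) (nat_lit 2) (nat_lit 4) (nat_lit 418) (nat_lit 336) (nat_lit 266))))) (XT.nd (nat_lit 156) (nat_lit 0) (nat_lit 0) (XT.nd (nat_lit 78) (nat_lit 0) (nat_lit 0) (XT.lf (nat_lit 0) (nat_lit 19942108757687) (nat_lit 76) (nat_lit 2697791561111) (nat_lit 76) (nat_lit 2694688459489) (nat_lit 1) (nat_lit 4) (nat_lit 2) (nat_lit 5) (nat_lit 2) (nat_lit 4) (nat_lit 419) (nat_lit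 336) (nat_lit 265)) (XT.lf (nat_lit 0) (nat_lit 23078174334104) (nat_lit 76) (nat_lit 3027060313097) (nat_lit 76) (nat_lit 3023957191630) (nat_lit 1) (nat_lit 4) (nat_lit 2) (nat_lit 5) (nat_lit 2) (nat_lit 4) (nat_lit 420) (nat_lit 336) (nat_lit 264))) (XT.nd (nat_lit 78) (nat_lit 0) (nat_lit 0) (XT.lf (nat_lit 0) (nat_lit 26684648016514) (nat_lit 76) (nat_lit 3405720273718) (nat_lit 76) (nat_lit 3402617134994) (nat_lit 1) (nat_lit 4) (nat_lit 2) (nat_lit 5) (nat_lit 2) (nat_lit 4) (nat_lit 421) (nat_lit 336) (nat_lit 263)) (XT.nd (nat_lit 78) (nat_lit 0) (nat_lit 0) (XT.lf (nat_lit 0) (nat_lit 30832091246530) (nat_lit 76) (nat_lit 3841180007422) (nat_lit 76) (nat_lit 3838076853691) (nat_lit 1) (nat_lit 4) (nat_lit 2) (nat_lit 5) (nat_lit 2) (nat_lit 4) (nat_lit 422) (nat_lit 336) (nat_lit 262)) (XT.lf (nat_lit 0) (nat_lit 35601649652564) (nat_lit 76) (nat_lit 4341959378563) (nat_lit 76)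 (nat_lit 4338856211784) (nat_lit 1) (nat_lit 4) (nat_lit 2) (nat_lit 5) (nat_lit 2) (nat_lit 4) (nat_lit 423) (nat_lit 336) (nat_lit 261)))))) (XT.nd (nat_lit 47112) (nat_lit 0) (nat_lit 4484) (XT.nd (nat_lit 156) (nat_lit 0) (nat_lit 0) (XT.nd (nat_lit 78) (nat_lit 0) (nat_lit 0) (XT.lf (nat_lit 0) (nat_lit 41086640681692) (nat_lit 76) (nat_lit 4917856244403) (nat_lit 76) (nat_lit 4914753066277) (nat_lit 1) (nat_lit 4) (nat_lit 2) (nat_lit 5) (nat_lit 2) (nat_lit 4) (nat_lit 424) (nat_lit 336) (nat_lit 260)) (XT.lf (nat_lit 0) (nat_lit 47394379375787) (nat_lit 76) (nat_lit 5580138152318) (nat_lit 76) (nat_lit 5577034964325) (nat_lit 1) (nat_lit 4) (nat_lit 2) (nat_lit 5) (nat_lit 2) (nat_lit 4) (nat_lit 425) (nat_lit 336) (nat_lit 259))) (XT.nd (nat_lit 78) (nat_lit 0) (nat_lit 0) (XT.lf (nat_lit 0) (nat_lit 54648278013648) (nat_lit 76) (nat_lit 6341762791809) (nat_lit 76) (nat_lit 6338659595236)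 (nat_lit 1) (nat_lit 4) (nat_lit 2) (nat_lit 5) (nat_lit 2) (nat_lit 4) (nat_lit 426) (nat_lit 336) (nat_lit 258)) (XT.nd (nat_lit 46800) (nat_lit 0) (nat_lit 6384) (XT.lf (nat_lit 0) (nat_lit 62990260699058) (nat_lit 76) (nat_lit 7217631514520) (nat_lit 76) (nat_lit 7214528310486) (nat_lit 1) (nat_lit 4) (nat_lit 2) (nat_lit 5) (nat_lit 2) (nat_lit 4) (nat_lit 427) (nat_lit 336) (nat_lit 257)) (XT.lf (nat_lit 0) (nat_lit 96881778) (nat_lit 532) (nat_lit 1774663923) (nat_lit 532) (nat_lit 1774663923) (nat_lit 85) (nat_lit 4) (nat_lit 92) (nat_lit 5) (nat_lit 92) (nat_lit 4) (nat_lit 346) (nat_lit 337) (nat_lit 337))))) (XT.nd (nat_lit 234) (nat_lit 760) (nat_lit 0) (XT.nd (nat_lit 78) (nat_lit 836) (nat_lit 0) (XT.lf (nat_lit 0) (nat_lit 2996337258) (nat_lit 304) (nat_lit 4148035659) (nat_lit 0) (nat_lit 465692577) (nat_lit 81) (nat_lit 5) (nat_lit 85) (nat_lit 4) (nat_lit 81) (nat_lit 4)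 (nat_lit 347) (nat_lit 337) (nat_lit 336)) (XT.nd (nat_lit 78) (nat_lit 532) (nat_lit 0) (XT.lf (nat_lit 0) (nat_lit 1849212473) (nat_lit 304) (nat_lit 884843327) (nat_lit 76) (nat_lit 5259852317) (nat_lit 77) (nat_lit 5) (nat_lit 81) (nat_lit 5) (nat_lit 78) (nat_lit 4) (nat_lit 348) (nat_lit 337) (nat_lit 335)) (XT.lf (nat_lit 0) (nat_lit 294591477) (nat_lit 304) (nat_lit 5539783266) (nat_lit 76) (nat_lit 2611043748) (nat_lit 70) (nat_lit 5) (nat_lit 74) (nat_lit 5) (nat_lit 71) (nat_lit 4) (nat_lit 349) (nat_lit 337) (nat_lit 334)))) (XT.nd (nat_lit 78) (nat_lit 608) (nat_lit 0) (XT.lf (nat_lit 0) (nat_lit 7128217669) (nat_lit 228) (nat_lit 1835493905) (nat_lit 0) (nat_lit 4867035) (nat_lit 68) (nat_lit 5) (nat_lit 71) (nat_lit 4) (nat_lit 68) (nat_lit 4) (nat_lit 350) (nat_lit 337) (nat_lit 333)) (XT.nd (nat_lit 78) (nat_lit 228) (nat_lit 0) (XT.lf (nat_lit 0) (nat_lit 2285172590) (nat_lit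 152) (nat_lit 2834543975) (nat_lit 228) (nat_lit 4442213489) (nat_lit 63) (nat_lit 5) (nat_lit 65) (nat_lit 5) (nat_lit 66) (nat_lit 4) (nat_lit 351) (nat_lit 337) (nat_lit 332)) (XT.lf (nat_lit 0) (nat_lit 2615870071) (nat_lit 228) (nat_lit 3302066564) (nat_lit 76) (nat_lit 4318811023) (nat_lit 60) (nat_lit 5) (nat_lit 63) (nat_lit 5) (nat_lit 61) (nat_lit 4) (nat_lit 352) (nat_lit 337) (nat_lit 331))))))) (XT.nd (nat_lit 780) (nat_lit 1368) (nat_lit 0) (XT.nd (nat_lit 390) (nat_lit 760) (nat_lit 0) (XT.nd (nat_lit 156) (nat_lit 608) (nat_lit 0) (XT.nd (nat_lit 78) (nat_lit 152) (nat_lit 0) (XT.lf (nat_lit 0) (nat_lit 1109012608) (nat_lit 152) (nat_lit 9395696955) (nat_lit 152) (nat_lit 496083627) (nat_lit 57) (nat_lit 4) (nat_lit 59) (nat_lit 5) (nat_lit 59) (nat_lit 4) (nat_lit 353) (nat_lit 337) (nat_lit 330)) (XT.lf (nat_lit 0) (nat_lit 6035203722) (nat_lit 76) (nat_lit 1481189213) (nat_lit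 152) (nat_lit 4331954648) (nat_lit 55) (nat_lit 5) (nat_lit 56) (nat_lit 5) (nat_lit 57) (nat_lit 4) (nat_lit 354) (nat_lit 337) (nat_lit 329))) (XT.nd (nat_lit 78) (nat_lit 380) (nat_lit 0) (XT.lf (nat_lit 0) (nat_lit 3878384592) (nat_lit 228) (nat_lit 1383852061) (nat_lit 76) (nat_lit 7536884096) (nat_lit 52) (nat_lit 5) (nat_lit 55) (nat_lit 5) (nat_lit 53) (nat_lit 4) (nat_lit 355) (nat_lit 337) (nat_lit 328)) (XT.nd (nat_lit 78) (nat_lit 152) (nat_lit 0) (XT.lf (nat_lit 0) (nat_lit 3671439809) (nat_lit 152) (nat_lit 9695975067) (nat_lit 152) (nat_lit 491825793) (nat_lit 49) (nat_lit 4) (nat_lit 51) (nat_lit 5) (nat_lit 51) (nat_lit 4) (nat_lit 356) (nat_lit 337) (nat_lit 327)) (XT.lf (nat_lit 0) (nat_lit 9054457367) (nat_lit 152) (nat_lit 5814067965) (nat_lit 0) (nat_lit 167102295) (nat_lit 47) (nat_lit 5) (nat_lit 49) (nat_lit 4) (nat_lit 47) (nat_lit 4) (nat_lit 357) (nat_lit 337) (nat_lit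 326))))) (XT.nd (nat_lit 156) (nat_lit 456) (nat_lit 0) (XT.nd (nat_lit 78) (nat_lit 152) (nat_lit 0) (XT.lf (nat_lit 0) (nat_lit 3900627496) (nat_lit 152) (nat_lit 1091436517) (nat_lit 76) (nat_lit 11351211708) (nat_lit 45) (nat_lit 5) (nat_lit 47) (nat_lit 5) (nat_lit 46) (nat_lit 4) (nat_lit 358) (nat_lit 337) (nat_lit 325)) (XT.lf (nat_lit 0) (nat_lit 4304137475) (nat_lit 76) (nat_lit 11133406056) (nat_lit 76) (nat_lit 2354952267) (nat_lit 43) (nat_lit 4) (nat_lit 44) (nat_lit 5) (nat_lit 44) (nat_lit 4) (nat_lit 359) (nat_lit 337) (nat_lit 324))) (XT.nd (nat_lit 78) (nat_lit 304) (nat_lit 0) (XT.lf (nat_lit 0) (nat_lit 9291328516) (nat_lit 152) (nat_lit 9151978170) (nat_lit 0) (nat_lit 957377909) (nat_lit 41) (nat_lit 5) (nat_lit 43) (nat_lit 4) (nat_lit 41) (nat_lit 4) (nat_lit 360) (nat_lit 337) (nat_lit 323)) (XT.nd (nat_lit 78) (nat_lit 152) (nat_lit 0) (XT.lf (nat_lit 0) (nat_lit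 1944462142) (nat_lit 152) (nat_lit 4468384703) (nat_lit 76) (nat_lit 14773102220) (nat_lit 39) (nat_lit 5) (nat_lit 41) (nat_lit 5) (nat_lit 40) (nat_lit 4) (nat_lit 361) (nat_lit 337) (nat_lit 322)) (XT.lf (nat_lit 0) (nat_lit 584537518) (nat_lit 76) (nat_lit 15302722368) (nat_lit 76) (nat_lit 7276384843) (nat_lit 37) (nat_lit 4) (nat_lit 38) (nat_lit 5) (nat_lit 38) (nat_lit 4) (nat_lit 362) (nat_lit 337) (nat_lit 321)))))) (XT.nd (nat_lit 390) (nat_lit 760) (nat_lit 0) (XT.nd (nat_lit 156) (nat_lit 380) (nat_lit 0) (XT.nd (nat_lit 78) (nat_lit 76) (nat_lit 0) (XT.lf (nat_lit 0) (nat_lit 6407422667) (nat_lit 76) (nat_lit 592108456) (nat_lit 152) (nat_lit 18358765099) (nat_lit 35) (nat_lit 5) (nat_lit 36) (nat_lit 5) (nat_lit 37) (nat_lit 4) (nat_lit 363) (nat_lit 337) (nat_lit 320)) (XT.lf (nat_lit 0) (nat_lit 12548304470) (nat_lit 76) (nat_lit 11443451055) (nat_lit 76) (nat_lit 3794814236)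 (nat_lit 34) (nat_lit 4) (nat_lit 35) (nat_lit 5) (nat_lit 35) (nat_lit 4) (nat_lit 364) (nat_lit 337) (nat_lit 319))) (XT.nd (nat_lit 78) (nat_lit 228) (nat_lit 0) (XT.lf (nat_lit 0) (nat_lit 13152326977) (nat_lit 152) (nat_lit 11345060462) (nat_lit 0) (nat_lit 5989050436) (nat_lit 32) (nat_lit 5) (nat_lit 34) (nat_lit 4) (nat_lit 32) (nat_lit 4) (nat_lit 365) (nat_lit 337) (nat_lit 318)) (XT.nd (nat_lit 78) (nat_lit 76) (nat_lit 0) (XT.lf (nat_lit 0) (nat_lit 453992) (nat_lit 152) (nat_lit 7232945639) (nat_lit 76) (nat_lit 26263556693) (nat_lit 30) (nat_lit 5) (nat_lit 32) (nat_lit 5) (nat_lit 31) (nat_lit 4) (nat_lit 366) (nat_lit 337) (nat_lit 317)) (XT.lf (nat_lit 0) (nat_lit 20120846774) (nat_lit 152) (nat_lit 3339282563) (nat_lit 0) (nat_lit 13365945938) (nat_lit 29) (nat_lit 5) (nat_lit 31) (nat_lit 4) (nat_lit 29) (nat_lit 4) (nat_lit 367) (nat_lit 337) (nat_lit 316))))) (XT.nd (nat_lit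 234) (nat_lit 304) (nat_lit 0) (XT.nd (nat_lit 78) (nat_lit 228) (nat_lit 0) (XT.lf (nat_lit 0) (nat_lit 777305046) (nat_lit 76) (nat_lit 2867716423) (nat_lit 152) (nat_lit 36910884688) (nat_lit 26) (nat_lit 5) (nat_lit 27) (nat_lit 5) (nat_lit 28) (nat_lit 4) (nat_lit 368) (nat_lit 337) (nat_lit 315)) (XT.nd (nat_lit 78) (nat_lit 152) (nat_lit 0) (XT.lf (nat_lit 0) (nat_lit 4398684244) (nat_lit 76) (nat_lit 23309969546) (nat_lit 76) (nat_lit 16969849314) (nat_lit 25) (nat_lit 4) (nat_lit 26) (nat_lit 5) (nat_lit 26) (nat_lit 4) (nat_lit 369) (nat_lit 337) (nat_lit 314)) (XT.lf (nat_lit 0) (nat_lit 6871404957) (nat_lit 152) (nat_lit 41471155295) (nat_lit 0) (nat_lit 968873521) (nat_lit 23) (nat_lit 5) (nat_lit 25) (nat_lit 4) (nat_lit 23) (nat_lit 4) (nat_lit 370) (nat_lit 337) (nat_lit 313)))) (XT.nd (nat_lit 78) (nat_lit 228) (nat_lit 0) (XT.lf (nat_lit 0) (nat_lit 9897699321) (nat_lit 76)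 (nat_lit 25244063654) (nat_lit 76) (nat_lit 19313662879) (nat_lit 22) (nat_lit 4) (nat_lit 23) (nat_lit 5) (nat_lit 23) (nat_lit 4) (nat_lit 371) (nat_lit 337) (nat_lit 312)) (XT.nd (nat_lit 78) (nat_lit 76) (nat_lit 0) (XT.lf (nat_lit 0) (nat_lit 8250573958) (nat_lit 152) (nat_lit 49262757055) (nat_lit 0) (nat_lit 2737023048) (nat_lit 20) (nat_lit 5) (nat_lit 22) (nat_lit 4) (nat_lit 20) (nat_lit 4) (nat_lit 372) (nat_lit 337) (nat_lit 311)) (XT.lf (nat_lit 0) (nat_lit 9497712031) (nat_lit 76) (nat_lit 31372304492) (nat_lit 76) (nat_lit 25839241337) (nat_lit 19) (nat_lit 4) (nat_lit 20) (nat_lit 5) (nat_lit 20) (nat_lit 4) (nat_lit 373) (nat_lit 337) (nat_lit 310))))))))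
noncomputable def xc40 : XT := (XT.nd (nat_lit 1638) (nat_lit 76) (nat_lit 0) (XT.nd (nat_lit 780) (nat_lit 456) (nat_lit 0) (XT.nd (nat_lit 390) (nat_lit 380) (nat_lit 0) (XT.nd (nat_lit 156) (nat_lit 304) (nat_lit 0) (XT.nd (nat_lit 78) (nat_lit 0) (nat_lit 0) (XT.lf (nat_lit 0) (nat_lit 5438233724) (nat_lit 152) (nat_lit 68278861324) (nat_lit 0) (nat_lit 299316757) (nat_lit 17) (nat_lit 5) (nat_lit 19) (nat_lit 4) (nat_lit 17) (nat_lit 4) (nat_lit 374) (nat_lit 337) (nat_lit 309)) (XT.lf (nat_lit 0) (nat_lit 42298578213) (nat_lit 152) (nat_lit 2727671758) (nat_lit 0) (nat_lit 37146000079) (nat_lit 17) (nat_lit 5) (nat_lit 19) (nat_lit 4) (nat_lit 17) (nat_lit 4) (nat_lit 375) (nat_lit 337) (nat_lit 308))) (XT.nd (nat_lit 78) (nat_lit 228) (nat_lit 0) (XT.lf (nat_lit 0) (nat_lit 76107524457) (nat_lit 76) (nat_lit 10237900766) (nat_lit 76) (nat_lit 5073443356) (nat_lit 16) (nat_lit 4) (nat_lit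 17) (nat_lit 5) (nat_lit 17) (nat_lit 4) (nat_lit 376) (nat_lit 337) (nat_lit 307)) (XT.nd (nat_lit 78) (nat_lit 76) (nat_lit 0) (XT.lf (nat_lit 0) (nat_lit 35508348869) (nat_lit 152) (nat_lit 35575237668) (nat_lit 0) (nat_lit 30716879226) (nat_lit 14) (nat_lit 5) (nat_lit 16) (nat_lit 4) (nat_lit 14) (nat_lit 4) (nat_lit 377) (nat_lit 337) (nat_lit 306)) (XT.lf (nat_lit 0) (nat_lit 48913555975) (nat_lit 76) (nat_lit 34736570881) (nat_lit 76) (nat_lit 29936784165) (nat_lit 13) (nat_lit 4) (nat_lit 14) (nat_lit 5) (nat_lit 14) (nat_lit 4) (nat_lit 378) (nat_lit 337) (nat_lit 305))))) (XT.nd (nat_lit 156) (nat_lit 228) (nat_lit 0) (XT.nd (nat_lit 78) (nat_lit 0) (nat_lit 0) (XT.lf (nat_lit 0) (nat_lit 12932983844) (nat_lit 152) (nat_lit 105571056680) (nat_lit 0) (nat_lit 8482040368) (nat_lit 11) (nat_lit 5) (nat_lit 13) (nat_lit 4) (nat_lit 11) (nat_lit 4) (nat_lit 379) (nat_lit 337) (nat_lit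 304)) (XT.lf (nat_lit 0) (nat_lit 63269388806) (nat_lit 152) (nat_lit 20026208086) (nat_lit 0) (nat_lit 58812622272) (nat_lit 11) (nat_lit 5) (nat_lit 13) (nat_lit 4) (nat_lit 11) (nat_lit 4) (nat_lit 380) (nat_lit 337) (nat_lit 303))) (XT.nd (nat_lit 78) (nat_lit 152) (nat_lit 0) (XT.lf (nat_lit 0) (nat_lit 82222437331) (nat_lit 76) (nat_lit 40794604108) (nat_lit 76) (nat_lit 36332774046) (nat_lit 10) (nat_lit 4) (nat_lit 11) (nat_lit 5) (nat_lit 11) (nat_lit 4) (nat_lit 381) (nat_lit 337) (nat_lit 302)) (XT.nd (nat_lit 78) (nat_lit 0) (nat_lit 0) (XT.lf (nat_lit 0) (nat_lit 13179476106) (nat_lit 152) (nat_lit 156829311893) (nat_lit 0) (nat_lit 9044075060) (nat_lit 8) (nat_lit 5) (nat_lit 10) (nat_lit 4) (nat_lit 8) (nat_lit 4) (nat_lit 382) (nat_lit 337) (nat_lit 301)) (XT.lf (nat_lit 0) (nat_lit 71357709024) (nat_lit 152) (nat_lit 62788163348) (nat_lit 0) (nat_lit 67218762835) (nat_lit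 8) (nat_lit 5) (nat_lit 10) (nat_lit 4) (nat_lit 8) (nat_lit 4) (nat_lit 383) (nat_lit 337) (nat_lit 300)))))) (XT.nd (nat_lit 390) (nat_lit 228) (nat_lit 0) (XT.nd (nat_lit 156) (nat_lit 152) (nat_lit 0) (XT.nd (nat_lit 78) (nat_lit 0) (nat_lit 0) (XT.lf (nat_lit 0) (nat_lit 47553015505) (nat_lit 76) (nat_lit 91763922915) (nat_lit 76) (nat_lit 87621893992) (nat_lit 7) (nat_lit 4) (nat_lit 8) (nat_lit 5) (nat_lit 8) (nat_lit 4) (nat_lit 384) (nat_lit 337) (nat_lit 299)) (XT.lf (nat_lit 0) (nat_lit 178078349156) (nat_lit 76) (nat_lit 41137911533) (nat_lit 76) (nat_lit 36993201972) (nat_lit 7) (nat_lit 4) (nat_lit 8) (nat_lit 5) (nat_lit 8) (nat_lit 4) (nat_lit 385) (nat_lit 337) (nat_lit 298))) (XT.nd (nat_lit 78) (nat_lit 0) (nat_lit 0) (XT.lf (nat_lit 0) (nat_lit 21494947655) (nat_lit 152) (nat_lit 250573626119) (nat_lit 0) (nat_lit 17655095294) (nat_lit 5) (nat_lit 5) (nat_lit 7) (nat_lit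 4) (nat_lit 5) (nat_lit 4) (nat_lit 386) (nat_lit 337) (nat_lit 297)) (XT.nd (nat_lit 78) (nat_lit 0) (nat_lit 0) (XT.lf (nat_lit 0) (nat_lit 90031242523) (nat_lit 152) (nat_lit 151690155008) (nat_lit 0) (nat_lit 86189513358) (nat_lit 5) (nat_lit 5) (nat_lit 7) (nat_lit 4) (nat_lit 5) (nat_lit 4) (nat_lit 387) (nat_lit 337) (nat_lit 296)) (XT.lf (nat_lit 0) (nat_lit 168788412590) (nat_lit 152) (nat_lit 38097540577) (nat_lit 0) (nat_lit 164945051423) (nat_lit 5) (nat_lit 5) (nat_lit 7) (nat_lit 4) (nat_lit 5) (nat_lit 4) (nat_lit 388) (nat_lit 337) (nat_lit 295))))) (XT.nd (nat_lit 234) (nat_lit 152) (nat_lit 0) (XT.nd (nat_lit 78) (nat_lit 0) (nat_lit 0) (XT.lf (nat_lit 0) (nat_lit 97293706617) (nat_lit 76) (nat_lit 164353568378) (nat_lit 76) (nat_lit 160508788079) (nat_lit 4) (nat_lit 4) (nat_lit 5) (nat_lit 5) (nat_lit 5) (nat_lit 4) (nat_lit 389) (nat_lit 337) (nat_lit 294)) (XT.nd (nat_lit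 78) (nat_lit 0) (nat_lit 0) (XT.lf (nat_lit 0) (nat_lit 255202508670) (nat_lit 76) (nat_lit 114294222451) (nat_lit 76) (nat_lit 110448208123) (nat_lit 4) (nat_lit 4) (nat_lit 5) (nat_lit 5) (nat_lit 5) (nat_lit 4) (nat_lit 390) (nat_lit 337) (nat_lit 293)) (XT.lf (nat_lit 0) (nat_lit 436712236652) (nat_lit 76) (nat_lit 56770147674) (nat_lit 76) (nat_lit 52923060278) (nat_lit 4) (nat_lit 4) (nat_lit 5) (nat_lit 5) (nat_lit 5) (nat_lit 4) (nat_lit 391) (nat_lit 337) (nat_lit 292)))) (XT.nd (nat_lit 78) (nat_lit 0) (nat_lit 0) (XT.lf (nat_lit 0) (nat_lit 13342307089) (nat_lit 152) (nat_lit 599626072694) (nat_lit 0) (nat_lit 9779325146) (nat_lit 2) (nat_lit 5) (nat_lit 4) (nat_lit 4) (nat_lit 2) (nat_lit 4) (nat_lit 392) (nat_lit 337) (nat_lit 291)) (XT.nd (nat_lit 78) (nat_lit 0) (nat_lit 0) (XT.lf (nat_lit 0) (nat_lit 91315088065) (nat_lit 152) (nat_lit 530972791911) (nat_lit 0) (nat_lit 87751354831)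 (nat_lit 2) (nat_lit 5) (nat_lit 4) (nat_lit 4) (nat_lit 2) (nat_lit 4) (nat_lit 393) (nat_lit 337) (nat_lit 290)) (XT.lf (nat_lit 0) (nat_lit 180953765224) (nat_lit 152) (nat_lit 452083751960) (nat_lit 0) (nat_lit 177389378694) (nat_lit 2) (nat_lit 5) (nat_lit 4) (nat_lit 4) (nat_lit 2) (nat_lit 4) (nat_lit 394) (nat_lit 337) (nat_lit 289))))))) (XT.nd (nat_lit 780) (nat_lit 0) (nat_lit 0) (XT.nd (nat_lit 390) (nat_lit 0) (nat_lit 0) (XT.nd (nat_lit 156) (nat_lit 76) (nat_lit 0) (XT.nd (nat_lit 78) (nat_lit 0) (nat_lit 0) (XT.lf (nat_lit 0) (nat_lit 284012138772) (nat_lit 152) (nat_lit 361415471624) (nat_lit 0) (nat_lit 280447184158) (nat_lit 2) (nat_lit 5) (nat_lit 4) (nat_lit 4) (nat_lit 2) (nat_lit 4) (nat_lit 395) (nat_lit 337) (nat_lit 288)) (XT.lf (nat_lit 0) (nat_lit 402506568189) (nat_lit 152) (nat_lit 257194006289) (nat_lit 0) (nat_lit 398941119590) (nat_lit 2) (nat_lit 5) (nat_lit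 4) (nat_lit 4) (nat_lit 2) (nat_lit 4) (nat_lit 396) (nat_lit 337) (nat_lit 287))) (XT.nd (nat_lit 78) (nat_lit 76) (nat_lit 0) (XT.lf (nat_lit 0) (nat_lit 538755422749) (nat_lit 152) (nat_lit 137380240328) (nat_lit 0) (nat_lit 535189544597) (nat_lit 2) (nat_lit 5) (nat_lit 4) (nat_lit 4) (nat_lit 2) (nat_lit 4) (nat_lit 397) (nat_lit 337) (nat_lit 286)) (XT.nd (nat_lit 78) (nat_lit 0) (nat_lit 0) (XT.lf (nat_lit 0) (nat_lit 389492633) (nat_lit 76) (nat_lit 695044315583) (nat_lit 76) (nat_lit 691478063907) (nat_lit 1) (nat_lit 4) (nat_lit 2) (nat_lit 5) (nat_lit 2) (nat_lit 4) (nat_lit 398) (nat_lit 337) (nat_lit 285)) (XT.lf (nat_lit 0) (nat_lit 167111445476) (nat_lit 76) (nat_lit 712486474876) (nat_lit 76) (nat_lit 708919898396) (nat_lit 1) (nat_lit 4) (nat_lit 2) (nat_lit 5) (nat_lit 2) (nat_lit 4) (nat_lit 399) (nat_lit 337) (nat_lit 284))))) (XT.nd (nat_lit 156) (nat_lit 0) (nat_lit 0)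 (XT.nd (nat_lit 78) (nat_lit 0) (nat_lit 0) (XT.lf (nat_lit 0) (nat_lit 358813369452) (nat_lit 76) (nat_lit 732559619825) (nat_lit 76) (nat_lit 728992760907) (nat_lit 1) (nat_lit 4) (nat_lit 2) (nat_lit 5) (nat_lit 2) (nat_lit 4) (nat_lit 400) (nat_lit 337) (nat_lit 283)) (XT.lf (nat_lit 0) (nat_lit 579245954380) (nat_lit 76) (nat_lit 755656485873) (nat_lit 76) (nat_lit 752089381358) (nat_lit 1) (nat_lit 4) (nat_lit 2) (nat_lit 5) (nat_lit 2) (nat_lit 4) (nat_lit 401) (nat_lit 337) (nat_lit 282))) (XT.nd (nat_lit 78) (nat_lit 0) (nat_lit 0) (XT.lf (nat_lit 0) (nat_lit 832722011703) (nat_lit 76) (nat_lit 782228968228) (nat_lit 76) (nat_lit 778661650148) (nat_lit 1) (nat_lit 4) (nat_lit 2) (nat_lit 5) (nat_lit 2) (nat_lit 4) (nat_lit 402) (nat_lit 337) (nat_lit 281)) (XT.nd (nat_lit 78) (nat_lit 0) (nat_lit 0) (XT.lf (nat_lit 0) (nat_lit 1124200855586) (nat_lit 76) (nat_lit 812796963281) (nat_lit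 76) (nat_lit 809229459494) (nat_lit 1) (nat_lit 4) (nat_lit 2) (nat_lit 5) (nat_lit 2) (nat_lit 4) (nat_lit 403) (nat_lit 337) (nat_lit 280)) (XT.lf (nat_lit 0) (nat_lit 1459385332975) (nat_lit 76) (nat_lit 847958540503) (nat_lit 76) (nat_lit 844390875231) (nat_lit 1) (nat_lit 4) (nat_lit 2) (nat_lit 5) (nat_lit 2) (nat_lit 4) (nat_lit 404) (nat_lit 337) (nat_lit 279)))))) (XT.nd (nat_lit 390) (nat_lit 0) (nat_lit 0) (XT.nd (nat_lit 156) (nat_lit 0) (nat_lit 0) (XT.nd (nat_lit 78) (nat_lit 0) (nat_lit 0) (XT.lf (nat_lit 0) (nat_lit 1844833401035) (nat_lit 76) (nat_lit 888401643794) (nat_lit 76) (nat_lit 884833838100) (nat_lit 1) (nat_lit 4) (nat_lit 2) (nat_lit 5) (nat_lit 2) (nat_lit 4) (nat_lit 405) (nat_lit 337) (nat_lit 278)) (XT.lf (nat_lit 0) (nat_lit 2288086435013) (nat_lit 76) (nat_lit 934917551263) (nat_lit 76) (nat_lit 931349623464) (nat_lit 1) (nat_lit 4) (nat_lit 2) (nat_lit 5)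 (nat_lit 2) (nat_lit 4) (nat_lit 406) (nat_lit 337) (nat_lit 277))) (XT.nd (nat_lit 78) (nat_lit 0) (nat_lit 0) (XT.lf (nat_lit 0) (nat_lit 2797816776877) (nat_lit 76) (nat_lit 988416356752) (nat_lit 76) (nat_lit 984848322774) (nat_lit 1) (nat_lit 4) (nat_lit 2) (nat_lit 5) (nat_lit 2) (nat_lit 4) (nat_lit 407) (nat_lit 337) (nat_lit 276)) (XT.nd (nat_lit 78) (nat_lit 0) (nat_lit 0) (XT.lf (nat_lit 0) (nat_lit 3383997411576) (nat_lit 76) (nat_lit 1049944776020) (nat_lit 76) (nat_lit 1046376649712) (nat_lit 1) (nat_lit 4) (nat_lit 2) (nat_lit 5) (nat_lit 2) (nat_lit 4) (nat_lit 408) (nat_lit 337) (nat_lit 275)) (XT.lf (nat_lit 0) (nat_lit 4058097090658) (nat_lit 76) (nat_lit 1120706625965) (nat_lit 76) (nat_lit 1117138419371) (nat_lit 1) (nat_lit 4) (nat_lit 2) (nat_lit 5) (nat_lit 2) (nat_lit 4) (nat_lit 409) (nat_lit 337) (nat_lit 274))))) (XT.nd (nat_lit 234) (nat_lit 0) (nat_lit 0) (XT.nd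 (nat_lit 78) (nat_lit 0) (nat_lit 0) (XT.lf (nat_lit 0) (nat_lit 4833304720890) (nat_lit 76) (nat_lit 1202086377566) (nat_lit 76) (nat_lit 1198518101158) (nat_lit 1) (nat_lit 4) (nat_lit 2) (nat_lit 5) (nat_lit 2) (nat_lit 4) (nat_lit 410) (nat_lit 337) (nat_lit 273)) (XT.nd (nat_lit 78) (nat_lit 0) (nat_lit 0) (XT.lf (nat_lit 0) (nat_lit 5724787408078) (nat_lit 76) (nat_lit 1295676243354) (nat_lit 76) (nat_lit 1292107906237) (nat_lit 1) (nat_lit 4) (nat_lit 2) (nat_lit 5) (nat_lit 2) (nat_lit 4) (nat_lit 411) (nat_lit 337) (nat_lit 272)) (XT.lf (nat_lit 0) (nat_lit 6749987204800) (nat_lit 76) (nat_lit 1403307329397) (nat_lit 76) (nat_lit 1399738939491) (nat_lit 1) (nat_lit 4) (nat_lit 2) (nat_lit 5) (nat_lit 2) (nat_lit 4) (nat_lit 412) (nat_lit 337) (nat_lit 271)))) (XT.nd (nat_lit 78) (nat_lit 0) (nat_lit 0) (XT.lf (nat_lit 0) (nat_lit 7928962367946) (nat_lit 76) (nat_lit 1527085461293)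 (nat_lit 76) (nat_lit 1523517025483) (nat_lit 1) (nat_lit 4) (nat_lit 2) (nat_lit 5) (nat_lit 2) (nat_lit 4) (nat_lit 413) (nat_lit 337) (nat_lit 270)) (XT.nd (nat_lit 78) (nat_lit 0) (nat_lit 0) (XT.lf (nat_lit 0) (nat_lit 9284779802884) (nat_lit 76) (nat_lit 1669432385101) (nat_lit 76) (nat_lit 1665863909374) (nat_lit 1) (nat_lit 4) (nat_lit 2) (nat_lit 5) (nat_lit 2) (nat_lit 4) (nat_lit 414) (nat_lit 337) (nat_lit 269)) (XT.lf (nat_lit 0) (nat_lit 10843966372470) (nat_lit 76) (nat_lit 1833133149330) (nat_lit 76) (nat_lit 1829564638893) (nat_lit 1) (nat_lit 4) (nat_lit 2) (nat_lit 5) (nat_lit 2) (nat_lit 4) (nat_lit 415) (nat_lit 337) (nat_lit 268))))))))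
noncomputable def xc41 : XT := (XT.nd (nat_lit 48204) (nat_lit 0) (nat_lit 1444) (XT.nd (nat_lit 780) (nat_lit 0) (nat_lit 0) (XT.nd (nat_lit 390) (nat_lit 0) (nat_lit 0) (XT.nd (nat_lit 156) (nat_lit 0) (nat_lit 0) (XT.nd (nat_lit 78) (nat_lit 0) (nat_lit 0) (XT.lf (nat_lit 0) (nat_lit 12637027900893) (nat_lit 76) (nat_lit 2021390595018) (nat_lit 76) (nat_lit 2017822054399) (nat_lit 1) (nat_lit 4) (nat_lit 2) (nat_lit 5) (nat_lit 2) (nat_lit 4) (nat_lit 416) (nat_lit 337) (nat_lit 267)) (XT.lf (nat_lit 0) (nat_lit 14699046026751) (nat_lit 76) (nat_lit 2237888020017) (nat_lit 76) (nat_lit 2234319453152) (nat_lit 1) (nat_lit 4) (nat_lit 2) (nat_lit 5) (nat_lit 2) (nat_lit 4) (nat_lit 417) (nat_lit 337) (nat_lit 266))) (XT.nd (nat_lit 78) (nat_lit 0) (nat_lit 0) (XT.lf (nat_lit 0) (nat_lit 17070364582942) (nat_lit 76) (nat_lit 2486861243512) (nat_lit 76) (nat_lit 2483292653824) (nat_lit 1) (nat_lit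 4) (nat_lit 2) (nat_lit 5) (nat_lit 2) (nat_lit 4) (nat_lit 418) (nat_lit 337) (nat_lit 265)) (XT.nd (nat_lit 78) (nat_lit 0) (nat_lit 0) (XT.lf (nat_lit 0) (nat_lit 19797378932522) (nat_lit 76) (nat_lit 2773181480743) (nat_lit 76) (nat_lit 2769612871210) (nat_lit 1) (nat_lit 4) (nat_lit 2) (nat_lit 5) (nat_lit 2) (nat_lit 4) (nat_lit 419) (nat_lit 337) (nat_lit 264)) (XT.lf (nat_lit 0) (nat_lit 22933443704069) (nat_lit 76) (nat_lit 3102450649398) (nat_lit 76) (nat_lit 3098882022607) (nat_lit 1) (nat_lit 4) (nat_lit 2) (nat_lit 5) (nat_lit 2) (nat_lit 4) (nat_lit 420) (nat_lit 337) (nat_lit 263))))) (XT.nd (nat_lit 156) (nat_lit 0) (nat_lit 0) (XT.nd (nat_lit 78) (nat_lit 0) (nat_lit 0) (XT.lf (nat_lit 0) (nat_lit 26539916686592) (nat_lit 76) (nat_lit 3481110972339) (nat_lit 76) (nat_lit 3477542330543) (nat_lit 1) (nat_lit 4) (nat_lit 2) (nat_lit 5) (nat_lit 2) (nat_lit 4) (nat_lit 421) (nat_lit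 337) (nat_lit 262)) (XT.lf (nat_lit 0) (nat_lit 30687359308011) (nat_lit 76) (nat_lit 3916571021105) (nat_lit 76) (nat_lit 3913002366259) (nat_lit 1) (nat_lit 4) (nat_lit 2) (nat_lit 5) (nat_lit 2) (nat_lit 4) (nat_lit 422) (nat_lit 337) (nat_lit 261))) (XT.nd (nat_lit 78) (nat_lit 0) (nat_lit 0) (XT.lf (nat_lit 0) (nat_lit 35456917184831) (nat_lit 76) (nat_lit 4417350666212) (nat_lit 76) (nat_lit 4413782000020) (nat_lit 1) (nat_lit 4) (nat_lit 2) (nat_lit 5) (nat_lit 2) (nat_lit 4) (nat_lit 423) (nat_lit 337) (nat_lit 260)) (XT.nd (nat_lit 78) (nat_lit 0) (nat_lit 0) (XT.lf (nat_lit 0) (nat_lit 40941907753772) (nat_lit 76) (nat_lit 4993247770284) (nat_lit 76) (nat_lit 4989679094225) (nat_lit 1) (nat_lit 4) (nat_lit 2) (nat_lit 5) (nat_lit 2) (nat_lit 4) (nat_lit 424) (nat_lit 337) (nat_lit 259)) (XT.lf (nat_lit 0) (nat_lit 47249646047705) (nat_lit 76) (nat_lit 5655529885356) (nat_lit 76)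 (nat_lit 5651961200718) (nat_lit 1) (nat_lit 4) (nat_lit 2) (nat_lit 5) (nat_lit 2) (nat_lit 4) (nat_lit 425) (nat_lit 337) (nat_lit 258)))))) (XT.nd (nat_lit 46956) (nat_lit 0) (nat_lit 4484) (XT.nd (nat_lit 46722) (nat_lit 0) (nat_lit 6916) (XT.nd (nat_lit 78) (nat_lit 0) (nat_lit 0) (XT.lf (nat_lit 0) (nat_lit 54503544337598) (nat_lit 76) (nat_lit 6417154704985) (nat_lit 76) (nat_lit 6413586012886) (nat_lit 1) (nat_lit 4) (nat_lit 2) (nat_lit 5) (nat_lit 2) (nat_lit 4) (nat_lit 426) (nat_lit 337) (nat_lit 257)) (XT.lf (nat_lit 0) (nat_lit 62845526720428) (nat_lit 76) (nat_lit 7293023584337) (nat_lit 76) (nat_lit 7289454885750) (nat_lit 1) (nat_lit 4) (nat_lit 2) (nat_lit 5) (nat_lit 2) (nat_lit 4) (nat_lit 427) (nat_lit 337) (nat_lit 256))) (XT.nd (nat_lit 78) (nat_lit 912) (nat_lit 0) (XT.lf (nat_lit 0) (nat_lit 612477437) (nat_lit 380) (nat_lit 2183889218) (nat_lit 0) (nat_lit 612477437)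 (nat_lit 104) (nat_lit 5) (nat_lit 109) (nat_lit 4) (nat_lit 104) (nat_lit 4) (nat_lit 344) (nat_lit 338) (nat_lit 338)) (XT.nd (nat_lit 78) (nat_lit 456) (nat_lit 0) (XT.lf (nat_lit 0) (nat_lit 426720978) (nat_lit 456) (nat_lit 2506925914) (nat_lit 76) (nat_lit 4105312707) (nat_lit 98) (nat_lit 5) (nat_lit 104) (nat_lit 5) (nat_lit 99) (nat_lit 4) (nat_lit 345) (nat_lit 338) (nat_lit 337)) (XT.lf (nat_lit 0) (nat_lit 6460734216) (nat_lit 532) (nat_lit 281206988) (nat_lit 0) (nat_lit 584577267) (nat_lit 92) (nat_lit 5) (nat_lit 99) (nat_lit 4) (nat_lit 92) (nat_lit 4) (nat_lit 346) (nat_lit 338) (nat_lit 336))))) (XT.nd (nat_lit 234) (nat_lit 760) (nat_lit 0) (XT.nd (nat_lit 78) (nat_lit 836) (nat_lit 0) (XT.lf (nat_lit 0) (nat_lit 2385185805) (nat_lit 228) (nat_lit 2729212364) (nat_lit 304) (nat_lit 2559155653) (nat_lit 81) (nat_lit 5) (nat_lit 84) (nat_lit 5) (nat_lit 85) (nat_lit 4) (nat_lit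 347) (nat_lit 338) (nat_lit 335)) (XT.nd (nat_lit 78) (nat_lit 532) (nat_lit 0) (XT.lf (nat_lit 0) (nat_lit 3338461623) (nat_lit 304) (nat_lit 2610977428) (nat_lit 76) (nat_lit 2141050675) (nat_lit 77) (nat_lit 5) (nat_lit 81) (nat_lit 5) (nat_lit 78) (nat_lit 4) (nat_lit 348) (nat_lit 338) (nat_lit 334)) (XT.lf (nat_lit 0) (nat_lit 446556546) (nat_lit 228) (nat_lit 660756340) (nat_lit 304) (nat_lit 7472864400) (nat_lit 70) (nat_lit 5) (nat_lit 73) (nat_lit 5) (nat_lit 74) (nat_lit 5) (nat_lit 349) (nat_lit 338) (nat_lit 333)))) (XT.nd (nat_lit 78) (nat_lit 608) (nat_lit 0) (XT.lf (nat_lit 0) (nat_lit 3958828068) (nat_lit 152) (nat_lit 3582730062) (nat_lit 228) (nat_lit 1593759611) (nat_lit 68) (nat_lit 5) (nat_lit 70) (nat_lit 5) (nat_lit 71) (nat_lit 4) (nat_lit 350) (nat_lit 338) (nat_lit 332)) (XT.nd (nat_lit 78) (nat_lit 380) (nat_lit 0) (XT.lf (nat_lit 0) (nat_lit 4828297001) (nat_lit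 228) (nat_lit 1894727569) (nat_lit 76) (nat_lit 3047248989) (nat_lit 65) (nat_lit 5) (nat_lit 68) (nat_lit 5) (nat_lit 66) (nat_lit 4) (nat_lit 351) (nat_lit 338) (nat_lit 331)) (XT.lf (nat_lit 0) (nat_lit 1589393474) (nat_lit 228) (nat_lit 8615887405) (nat_lit 76) (nat_lit 284928284) (nat_lit 60) (nat_lit 5) (nat_lit 63) (nat_lit 5) (nat_lit 61) (nat_lit 4) (nat_lit 352) (nat_lit 338) (nat_lit 330))))))) (XT.nd (nat_lit 780) (nat_lit 1368) (nat_lit 0) (XT.nd (nat_lit 390) (nat_lit 760) (nat_lit 0) (XT.nd (nat_lit 156) (nat_lit 608) (nat_lit 0) (XT.nd (nat_lit 78) (nat_lit 228) (nat_lit 0) (XT.lf (nat_lit 0) (nat_lit 6071061782) (nat_lit 76) (nat_lit 2942452781) (nat_lit 152) (nat_lit 2277934436) (nat_lit 59) (nat_lit 5) (nat_lit 60) (nat_lit 5) (nat_lit 61) (nat_lit 4) (nat_lit 353) (nat_lit 338) (nat_lit 329)) (XT.lf (nat_lit 0) (nat_lit 5223137984) (nat_lit 228) (nat_lit 1481950661) (nat_lit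 76) (nat_lit 5485399749) (nat_lit 56) (nat_lit 5) (nat_lit 59) (nat_lit 5) (nat_lit 57) (nat_lit 4) (nat_lit 354) (nat_lit 338) (nat_lit 328))) (XT.nd (nat_lit 78) (nat_lit 304) (nat_lit 0) (XT.lf (nat_lit 0) (nat_lit 757075302) (nat_lit 228) (nat_lit 10346425971) (nat_lit 76) (nat_lit 2092261441) (nat_lit 52) (nat_lit 5) (nat_lit 55) (nat_lit 5) (nat_lit 53) (nat_lit 4) (nat_lit 355) (nat_lit 338) (nat_lit 327)) (XT.nd (nat_lit 78) (nat_lit 228) (nat_lit 0) (XT.lf (nat_lit 0) (nat_lit 7629060438) (nat_lit 76) (nat_lit 1974753398) (nat_lit 152) (nat_lit 4703461627) (nat_lit 51) (nat_lit 5) (nat_lit 52) (nat_lit 5) (nat_lit 53) (nat_lit 4) (nat_lit 356) (nat_lit 338) (nat_lit 326)) (XT.lf (nat_lit 0) (nat_lit 4393441318) (nat_lit 228) (nat_lit 2636708831) (nat_lit 76) (nat_lit 8514428172) (nat_lit 48) (nat_lit 5) (nat_lit 51) (nat_lit 5) (nat_lit 49) (nat_lit 4) (nat_lit 357) (nat_lit 338)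 (nat_lit 325))))) (XT.nd (nat_lit 156) (nat_lit 456) (nat_lit 0) (XT.nd (nat_lit 78) (nat_lit 152) (nat_lit 0) (XT.lf (nat_lit 0) (nat_lit 1978565053) (nat_lit 76) (nat_lit 13060483547) (nat_lit 76) (nat_lit 1881655560) (nat_lit 46) (nat_lit 4) (nat_lit 47) (nat_lit 5) (nat_lit 47) (nat_lit 4) (nat_lit 358) (nat_lit 338) (nat_lit 324)) (XT.lf (nat_lit 0) (nat_lit 7169648596) (nat_lit 76) (nat_lit 1767114134) (nat_lit 152) (nat_lit 9501797228) (nat_lit 44) (nat_lit 5) (nat_lit 45) (nat_lit 5) (nat_lit 46) (nat_lit 4) (nat_lit 359) (nat_lit 338) (nat_lit 323))) (XT.nd (nat_lit 78) (nat_lit 304) (nat_lit 0) (XT.lf (nat_lit 0) (nat_lit 1710433516) (nat_lit 152) (nat_lit 7208506387) (nat_lit 76) (nat_lit 11204888835) (nat_lit 42) (nat_lit 5) (nat_lit 44) (nat_lit 5) (nat_lit 43) (nat_lit 4) (nat_lit 360) (nat_lit 338) (nat_lit 322)) (XT.nd (nat_lit 78) (nat_lit 228) (nat_lit 0) (XT.lf (nat_lit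 0) (nat_lit 14678280477) (nat_lit 152) (nat_lit 2758969188) (nat_lit 0) (nat_lit 4553990705) (nat_lit 41) (nat_lit 5) (nat_lit 43) (nat_lit 4) (nat_lit 41) (nat_lit 4) (nat_lit 361) (nat_lit 338) (nat_lit 321)) (XT.lf (nat_lit 0) (nat_lit 2280832236) (nat_lit 76) (nat_lit 3748209936) (nat_lit 152) (nat_lit 18031296590) (nat_lit 38) (nat_lit 5) (nat_lit 39) (nat_lit 5) (nat_lit 40) (nat_lit 4) (nat_lit 362) (nat_lit 338) (nat_lit 320)))))) (XT.nd (nat_lit 390) (nat_lit 760) (nat_lit 0) (XT.nd (nat_lit 156) (nat_lit 380) (nat_lit 0) (XT.nd (nat_lit 78) (nat_lit 152) (nat_lit 0) (XT.lf (nat_lit 0) (nat_lit 7915768588) (nat_lit 76) (nat_lit 14018875574) (nat_lit 76) (nat_lit 4410342953) (nat_lit 37) (nat_lit 4) (nat_lit 38) (nat_lit 5) (nat_lit 38) (nat_lit 4) (nat_lit 363) (nat_lit 338) (nat_lit 319)) (XT.lf (nat_lit 0) (nat_lit 11547319750) (nat_lit 152) (nat_lit 14772014876) (nat_lit 0) (nat_lit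 2562828440) (nat_lit 35) (nat_lit 5) (nat_lit 37) (nat_lit 4) (nat_lit 35) (nat_lit 4) (nat_lit 364) (nat_lit 338) (nat_lit 318))) (XT.nd (nat_lit 78) (nat_lit 304) (nat_lit 0) (XT.lf (nat_lit 0) (nat_lit 20842715633) (nat_lit 76) (nat_lit 9957872661) (nat_lit 76) (nat_lit 897118876) (nat_lit 34) (nat_lit 4) (nat_lit 35) (nat_lit 5) (nat_lit 35) (nat_lit 4) (nat_lit 365) (nat_lit 338) (nat_lit 317)) (XT.nd (nat_lit 78) (nat_lit 152) (nat_lit 0) (XT.lf (nat_lit 0) (nat_lit 18206671554) (nat_lit 152) (nat_lit 6850496385) (nat_lit 0) (nat_lit 9755681757) (nat_lit 32) (nat_lit 5) (nat_lit 34) (nat_lit 4) (nat_lit 32) (nat_lit 4) (nat_lit 366) (nat_lit 338) (nat_lit 316)) (XT.lf (nat_lit 0) (nat_lit 2889661517) (nat_lit 152) (nat_lit 2493887718) (nat_lit 76) (nat_lit 32906791834) (nat_lit 30) (nat_lit 5) (nat_lit 32) (nat_lit 5) (nat_lit 31) (nat_lit 4) (nat_lit 367) (nat_lit 338) (nat_lit 315)))))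 (XT.nd (nat_lit 234) (nat_lit 380) (nat_lit 0) (XT.nd (nat_lit 78) (nat_lit 228) (nat_lit 0) (XT.lf (nat_lit 0) (nat_lit 1723632724) (nat_lit 76) (nat_lit 24162008047) (nat_lit 76) (nat_lit 16244588480) (nat_lit 28) (nat_lit 4) (nat_lit 29) (nat_lit 5) (nat_lit 29) (nat_lit 4) (nat_lit 368) (nat_lit 338) (nat_lit 314)) (XT.nd (nat_lit 78) (nat_lit 76) (nat_lit 0) (XT.lf (nat_lit 0) (nat_lit 6312519998) (nat_lit 76) (nat_lit 546769608) (nat_lit 152) (nat_lit 39566581992) (nat_lit 26) (nat_lit 5) (nat_lit 27) (nat_lit 5) (nat_lit 28) (nat_lit 4) (nat_lit 369) (nat_lit 338) (nat_lit 313)) (XT.lf (nat_lit 0) (nat_lit 10153238791) (nat_lit 76) (nat_lit 24211354183) (nat_lit 76) (nat_lit 16815697534) (nat_lit 25) (nat_lit 4) (nat_lit 26) (nat_lit 5) (nat_lit 26) (nat_lit 4) (nat_lit 370) (nat_lit 338) (nat_lit 312)))) (XT.nd (nat_lit 78) (nat_lit 228) (nat_lit 0) (XT.lf (nat_lit 0) (nat_lit 10306046990)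 (nat_lit 152) (nat_lit 42775791289) (nat_lit 0) (nat_lit 3433982551) (nat_lit 23) (nat_lit 5) (nat_lit 25) (nat_lit 4) (nat_lit 23) (nat_lit 4) (nat_lit 371) (nat_lit 338) (nat_lit 311)) (XT.nd (nat_lit 78) (nat_lit 152) (nat_lit 0) (XT.lf (nat_lit 0) (nat_lit 15882273447) (nat_lit 76) (nat_lit 26729352174) (nat_lit 76) (nat_lit 19836214511) (nat_lit 22) (nat_lit 4) (nat_lit 23) (nat_lit 5) (nat_lit 23) (nat_lit 4) (nat_lit 372) (nat_lit 338) (nat_lit 310)) (XT.lf (nat_lit 0) (nat_lit 11603388286) (nat_lit 152) (nat_lit 52311404928) (nat_lit 0) (nat_lit 5203886243) (nat_lit 20) (nat_lit 5) (nat_lit 22) (nat_lit 4) (nat_lit 20) (nat_lit 4) (nat_lit 373) (nat_lit 338) (nat_lit 309))))))))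
noncomputable def xc42 : XT := (XT.nd (nat_lit 1638) (nat_lit 76) (nat_lit 0) (XT.nd (nat_lit 780) (nat_lit 456) (nat_lit 0) (XT.nd (nat_lit 390) (nat_lit 456) (nat_lit 0) (XT.nd (nat_lit 156) (nat_lit 228) (nat_lit 0) (XT.nd (nat_lit 78) (nat_lit 152) (nat_lit 0) (XT.lf (nat_lit 0) (nat_lit 14895710326) (nat_lit 76) (nat_lit 34039696532) (nat_lit 76) (nat_lit 27625440429) (nat_lit 19) (nat_lit 4) (nat_lit 20) (nat_lit 5) (nat_lit 20) (nat_lit 4) (nat_lit 374) (nat_lit 338) (nat_lit 308)) (XT.lf (nat_lit 0) (nat_lit 8116057295) (nat_lit 152) (nat_lit 74688790581) (nat_lit 0) (nat_lit 2165051998) (nat_lit 17) (nat_lit 5) (nat_lit 19) (nat_lit 4) (nat_lit 17) (nat_lit 4) (nat_lit 375) (nat_lit 338) (nat_lit 307))) (XT.nd (nat_lit 78) (nat_lit 152) (nat_lit 0) (XT.lf (nat_lit 0) (nat_lit 205546659) (nat_lit 76) (nat_lit 50061969089) (nat_lit 76) (nat_lit 44100633988) (nat_lit 16) (nat_lit 4)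 (nat_lit 17) (nat_lit 5) (nat_lit 17) (nat_lit 4) (nat_lit 376) (nat_lit 338) (nat_lit 306)) (XT.nd (nat_lit 78) (nat_lit 152) (nat_lit 0) (XT.lf (nat_lit 0) (nat_lit 90573695470) (nat_lit 76) (nat_lit 10204903564) (nat_lit 76) (nat_lit 4234586024) (nat_lit 16) (nat_lit 4) (nat_lit 17) (nat_lit 5) (nat_lit 17) (nat_lit 4) (nat_lit 377) (nat_lit 338) (nat_lit 305)) (XT.lf (nat_lit 0) (nat_lit 42260573960) (nat_lit 152) (nat_lit 37970609890) (nat_lit 0) (nat_lit 36725269925) (nat_lit 14) (nat_lit 5) (nat_lit 16) (nat_lit 4) (nat_lit 14) (nat_lit 4) (nat_lit 378) (nat_lit 338) (nat_lit 304))))) (XT.nd (nat_lit 156) (nat_lit 228) (nat_lit 0) (XT.nd (nat_lit 78) (nat_lit 152) (nat_lit 0) (XT.lf (nat_lit 0) (nat_lit 58942569125) (nat_lit 76) (nat_lit 38559795251) (nat_lit 76) (nat_lit 33018202315) (nat_lit 13) (nat_lit 4) (nat_lit 14) (nat_lit 5) (nat_lit 14) (nat_lit 4) (nat_lit 379) (nat_lit 338)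 (nat_lit 303)) (XT.lf (nat_lit 0) (nat_lit 16129111443) (nat_lit 152) (nat_lit 118811441015) (nat_lit 0) (nat_lit 10992943344) (nat_lit 11) (nat_lit 5) (nat_lit 13) (nat_lit 4) (nat_lit 11) (nat_lit 4) (nat_lit 380) (nat_lit 338) (nat_lit 302))) (XT.nd (nat_lit 78) (nat_lit 228) (nat_lit 0) (XT.lf (nat_lit 0) (nat_lit 73852127581) (nat_lit 152) (nat_lit 20773379155) (nat_lit 0) (nat_lit 68711556413) (nat_lit 11) (nat_lit 5) (nat_lit 13) (nat_lit 4) (nat_lit 11) (nat_lit 4) (nat_lit 381) (nat_lit 338) (nat_lit 301)) (XT.nd (nat_lit 78) (nat_lit 152) (nat_lit 0) (XT.lf (nat_lit 0) (nat_lit 96621539569) (nat_lit 76) (nat_lit 45847591670) (nat_lit 76) (nat_lit 40703191748) (nat_lit 10) (nat_lit 4) (nat_lit 11) (nat_lit 5) (nat_lit 11) (nat_lit 4) (nat_lit 382) (nat_lit 338) (nat_lit 300)) (XT.lf (nat_lit 0) (nat_lit 16118895120) (nat_lit 152) (nat_lit 178362416747) (nat_lit 0) (nat_lit 11352479125)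 (nat_lit 8) (nat_lit 5) (nat_lit 10) (nat_lit 4) (nat_lit 8) (nat_lit 4) (nat_lit 383) (nat_lit 338) (nat_lit 299)))))) (XT.nd (nat_lit 390) (nat_lit 228) (nat_lit 0) (XT.nd (nat_lit 156) (nat_lit 152) (nat_lit 0) (XT.nd (nat_lit 78) (nat_lit 76) (nat_lit 0) (XT.lf (nat_lit 0) (nat_lit 82898319811) (nat_lit 152) (nat_lit 70474829650) (nat_lit 0) (nat_lit 78129223178) (nat_lit 8) (nat_lit 5) (nat_lit 10) (nat_lit 4) (nat_lit 8) (nat_lit 4) (nat_lit 384) (nat_lit 338) (nat_lit 298)) (XT.lf (nat_lit 0) (nat_lit 56270958253) (nat_lit 76) (nat_lit 104709426451) (nat_lit 76) (nat_lit 99937998830) (nat_lit 7) (nat_lit 4) (nat_lit 8) (nat_lit 5) (nat_lit 8) (nat_lit 4) (nat_lit 385) (nat_lit 338) (nat_lit 297))) (XT.nd (nat_lit 78) (nat_lit 152) (nat_lit 0) (XT.lf (nat_lit 0) (nat_lit 206168354070) (nat_lit 76) (nat_lit 46596350523) (nat_lit 76) (nat_lit 41822895954) (nat_lit 7) (nat_lit 4) (nat_lit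 8) (nat_lit 5) (nat_lit 8) (nat_lit 4) (nat_lit 386) (nat_lit 338) (nat_lit 296)) (XT.nd (nat_lit 78) (nat_lit 0) (nat_lit 0) (XT.lf (nat_lit 0) (nat_lit 25360595871) (nat_lit 152) (nat_lit 286831211636) (nat_lit 0) (nat_lit 20939098527) (nat_lit 5) (nat_lit 5) (nat_lit 7) (nat_lit 4) (nat_lit 5) (nat_lit 4) (nat_lit 387) (nat_lit 338) (nat_lit 295)) (XT.lf (nat_lit 0) (nat_lit 104093673308) (nat_lit 152) (nat_lit 173288497041) (nat_lit 0) (nat_lit 99670756831) (nat_lit 5) (nat_lit 5) (nat_lit 7) (nat_lit 4) (nat_lit 5) (nat_lit 4) (nat_lit 388) (nat_lit 338) (nat_lit 294))))) (XT.nd (nat_lit 234) (nat_lit 152) (nat_lit 0) (XT.nd (nat_lit 78) (nat_lit 76) (nat_lit 0) (XT.lf (nat_lit 0) (nat_lit 194591669615) (nat_lit 152) (nat_lit 42807666256) (nat_lit 0) (nat_lit 190167519110) (nat_lit 5) (nat_lit 5) (nat_lit 7) (nat_lit 4) (nat_lit 5) (nat_lit 4) (nat_lit 389) (nat_lit 338) (nat_lit 293))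 (XT.nd (nat_lit 78) (nat_lit 0) (nat_lit 0) (XT.lf (nat_lit 0) (nat_lit 112807241637) (nat_lit 76) (nat_lit 188530973001) (nat_lit 76) (nat_lit 184105749427) (nat_lit 4) (nat_lit 4) (nat_lit 5) (nat_lit 5) (nat_lit 5) (nat_lit 4) (nat_lit 390) (nat_lit 338) (nat_lit 292)) (XT.lf (nat_lit 0) (nat_lit 294282431952) (nat_lit 76) (nat_lit 131024763963) (nat_lit 76) (nat_lit 126598607287) (nat_lit 4) (nat_lit 4) (nat_lit 5) (nat_lit 5) (nat_lit 5) (nat_lit 4) (nat_lit 391) (nat_lit 338) (nat_lit 291)))) (XT.nd (nat_lit 78) (nat_lit 152) (nat_lit 0) (XT.lf (nat_lit 0) (nat_lit 502914330394) (nat_lit 76) (nat_lit 64926024734) (nat_lit 76) (nat_lit 60499056663) (nat_lit 4) (nat_lit 4) (nat_lit 5) (nat_lit 5) (nat_lit 5) (nat_lit 4) (nat_lit 392) (nat_lit 338) (nat_lit 290)) (XT.nd (nat_lit 78) (nat_lit 0) (nat_lit 0) (XT.lf (nat_lit 0) (nat_lit 15666902131) (nat_lit 152) (nat_lit 688899893930) (nat_lit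 0) (nat_lit 11567204326) (nat_lit 2) (nat_lit 5) (nat_lit 4) (nat_lit 4) (nat_lit 2) (nat_lit 4) (nat_lit 393) (nat_lit 338) (nat_lit 289)) (XT.lf (nat_lit 0) (nat_lit 105293437343) (nat_lit 152) (nat_lit 610036024029) (nat_lit 0) (nat_lit 101193171454) (nat_lit 2) (nat_lit 5) (nat_lit 4) (nat_lit 4) (nat_lit 2) (nat_lit 4) (nat_lit 394) (nat_lit 338) (nat_lit 288))))))) (XT.nd (nat_lit 780) (nat_lit 0) (nat_lit 0) (XT.nd (nat_lit 390) (nat_lit 0) (nat_lit 0) (XT.nd (nat_lit 156) (nat_lit 76) (nat_lit 0) (XT.nd (nat_lit 78) (nat_lit 0) (nat_lit 0) (XT.lf (nat_lit 0) (nat_lit 208341252676) (nat_lit 152) (nat_lit 519389630694) (nat_lit 0) (nat_lit 204240492801) (nat_lit 2) (nat_lit 5) (nat_lit 4) (nat_lit 4) (nat_lit 2) (nat_lit 4) (nat_lit 395) (nat_lit 338) (nat_lit 287)) (XT.lf (nat_lit 0) (nat_lit 326826501038) (nat_lit 152) (nat_lit 415187197534) (nat_lit 0) (nat_lit 322725311610) (nat_lit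 2) (nat_lit 5) (nat_lit 4) (nat_lit 4) (nat_lit 2) (nat_lit 4) (nat_lit 396) (nat_lit 338) (nat_lit 286))) (XT.nd (nat_lit 78) (nat_lit 76) (nat_lit 0) (XT.lf (nat_lit 0) (nat_lit 463067372071) (nat_lit 152) (nat_lit 295389981290) (nat_lit 0) (nat_lit 458965809119) (nat_lit 2) (nat_lit 5) (nat_lit 4) (nat_lit 4) (nat_lit 2) (nat_lit 4) (nat_lit 397) (nat_lit 338) (nat_lit 285)) (XT.nd (nat_lit 78) (nat_lit 76) (nat_lit 0) (XT.lf (nat_lit 0) (nat_lit 619729448034) (nat_lit 152) (nat_lit 157654123384) (nat_lit 0) (nat_lit 615627560278) (nat_lit 2) (nat_lit 5) (nat_lit 4) (nat_lit 4) (nat_lit 2) (nat_lit 4) (nat_lit 398) (nat_lit 338) (nat_lit 284)) (XT.lf (nat_lit 0) (nat_lit 752869780) (nat_lit 76) (nat_lit 799143093255) (nat_lit 76) (nat_lit 795040923062) (nat_lit 1) (nat_lit 4) (nat_lit 2) (nat_lit 5) (nat_lit 2) (nat_lit 4) (nat_lit 399) (nat_lit 338) (nat_lit 283))))) (XT.nd (nat_lit 156)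 (nat_lit 0) (nat_lit 0) (XT.nd (nat_lit 78) (nat_lit 0) (nat_lit 0) (XT.lf (nat_lit 0) (nat_lit 192443339038) (nat_lit 76) (nat_lit 819222168138) (nat_lit 76) (nat_lit 815119752346) (nat_lit 1) (nat_lit 4) (nat_lit 2) (nat_lit 5) (nat_lit 2) (nat_lit 4) (nat_lit 400) (nat_lit 338) (nat_lit 282)) (XT.lf (nat_lit 0) (nat_lit 412865963341) (nat_lit 76) (nat_lit 842324190651) (nat_lit 76) (nat_lit 838221561296) (nat_lit 1) (nat_lit 4) (nat_lit 2) (nat_lit 5) (nat_lit 2) (nat_lit 4) (nat_lit 401) (nat_lit 338) (nat_lit 281))) (XT.nd (nat_lit 78) (nat_lit 0) (nat_lit 0) (XT.lf (nat_lit 0) (nat_lit 666333359250) (nat_lit 76) (nat_lit 868901156887) (nat_lit 76) (nat_lit 864798341824) (nat_lit 1) (nat_lit 4) (nat_lit 2) (nat_lit 5) (nat_lit 2) (nat_lit 4) (nat_lit 402) (nat_lit 338) (nat_lit 280)) (XT.nd (nat_lit 78) (nat_lit 0) (nat_lit 0) (XT.lf (nat_lit 0) (nat_lit 957804671470) (nat_lit 76) (nat_lit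 899473050968) (nat_lit 76) (nat_lit 895370074421) (nat_lit 1) (nat_lit 4) (nat_lit 2) (nat_lit 5) (nat_lit 2) (nat_lit 4) (nat_lit 403) (nat_lit 338) (nat_lit 279)) (XT.lf (nat_lit 0) (nat_lit 1292982599586) (nat_lit 76) (nat_lit 934638018649) (nat_lit 76) (nat_lit 930534901680) (nat_lit 1) (nat_lit 4) (nat_lit 2) (nat_lit 5) (nat_lit 2) (nat_lit 4) (nat_lit 404) (nat_lit 338) (nat_lit 278)))))) (XT.nd (nat_lit 390) (nat_lit 0) (nat_lit 0) (XT.nd (nat_lit 156) (nat_lit 0) (nat_lit 0) (XT.nd (nat_lit 78) (nat_lit 0) (nat_lit 0) (XT.lf (nat_lit 0) (nat_lit 1678424972627) (nat_lit 76) (nat_lit 975084070165) (nat_lit 76) (nat_lit 970980831090) (nat_lit 1) (nat_lit 4) (nat_lit 2) (nat_lit 5) (nat_lit 2) (nat_lit 4) (nat_lit 405) (nat_lit 338) (nat_lit 277)) (XT.lf (nat_lit 0) (nat_lit 2121673054414) (nat_lit 76) (nat_lit 1021602541308) (nat_lit 76) (nat_lit 1017499196055) (nat_lit 1) (nat_lit 4)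 (nat_lit 2) (nat_lit 5) (nat_lit 2) (nat_lit 4) (nat_lit 406) (nat_lit 338) (nat_lit 276))) (XT.nd (nat_lit 78) (nat_lit 0) (nat_lit 0) (XT.lf (nat_lit 0) (nat_lit 2631399090024) (nat_lit 76) (nat_lit 1075103576079) (nat_lit 76) (nat_lit 1071000138496) (nat_lit 1) (nat_lit 4) (nat_lit 2) (nat_lit 5) (nat_lit 2) (nat_lit 4) (nat_lit 407) (nat_lit 338) (nat_lit 275)) (XT.nd (nat_lit 78) (nat_lit 0) (nat_lit 0) (XT.lf (nat_lit 0) (nat_lit 3217575980155) (nat_lit 76) (nat_lit 1136633933853) (nat_lit 76) (nat_lit 1132530415983) (nat_lit 1) (nat_lit 4) (nat_lit 2) (nat_lit 5) (nat_lit 2) (nat_lit 4) (nat_lit 408) (nat_lit 338) (nat_lit 274)) (XT.lf (nat_lit 0) (nat_lit 3891672403092) (nat_lit 76) (nat_lit 1207397469456) (nat_lit 76) (nat_lit 1203293881772) (nat_lit 1) (nat_lit 4) (nat_lit 2) (nat_lit 5) (nat_lit 2) (nat_lit 4) (nat_lit 409) (nat_lit 338) (nat_lit 273))))) (XT.nd (nat_lit 234) (nat_lit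 0) (nat_lit 0) (XT.nd (nat_lit 78) (nat_lit 0) (nat_lit 0) (XT.lf (nat_lit 0) (nat_lit 4666877201892) (nat_lit 76) (nat_lit 1288778686846) (nat_lit 76) (nat_lit 1284675038454) (nat_lit 1) (nat_lit 4) (nat_lit 2) (nat_lit 5) (nat_lit 2) (nat_lit 4) (nat_lit 410) (nat_lit 338) (nat_lit 272)) (XT.nd (nat_lit 78) (nat_lit 0) (nat_lit 0) (XT.lf (nat_lit 0) (nat_lit 5558357426966) (nat_lit 76) (nat_lit 1382369827232) (nat_lit 76) (nat_lit 1378266126050) (nat_lit 1) (nat_lit 4) (nat_lit 2) (nat_lit 5) (nat_lit 2) (nat_lit 4) (nat_lit 411) (nat_lit 338) (nat_lit 271)) (XT.lf (nat_lit 0) (nat_lit 6583555082719) (nat_lit 76) (nat_lit 1490002021623) (nat_lit 76) (nat_lit 1485898274537) (nat_lit 1) (nat_lit 4) (nat_lit 2) (nat_lit 5) (nat_lit 2) (nat_lit 4) (nat_lit 412) (nat_lit 338) (nat_lit 270)))) (XT.nd (nat_lit 78) (nat_lit 0) (nat_lit 0) (XT.lf (nat_lit 0) (nat_lit 7762528384154) (nat_lit 76) (nat_lit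 1613781117299) (nat_lit 76) (nat_lit 1609677330297) (nat_lit 1) (nat_lit 4) (nat_lit 2) (nat_lit 5) (nat_lit 2) (nat_lit 4) (nat_lit 413) (nat_lit 338) (nat_lit 269)) (XT.nd (nat_lit 78) (nat_lit 0) (nat_lit 0) (XT.lf (nat_lit 0) (nat_lit 9118344200211) (nat_lit 76) (nat_lit 1756128879176) (nat_lit 76) (nat_lit 1752025057464) (nat_lit 1) (nat_lit 4) (nat_lit 2) (nat_lit 5) (nat_lit 2) (nat_lit 4) (nat_lit 414) (nat_lit 338) (nat_lit 268)) (XT.lf (nat_lit 0) (nat_lit 10677529362076) (nat_lit 76) (nat_lit 1919830372161) (nat_lit 76) (nat_lit 1915726520266) (nat_lit 1) (nat_lit 4) (nat_lit 2) (nat_lit 5) (nat_lit 2) (nat_lit 4) (nat_lit 415) (nat_lit 338) (nat_lit 267))))))))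
noncomputable def xc43 : XT := (XT.nd (nat_lit 48048) (nat_lit 0) (nat_lit 1824) (XT.nd (nat_lit 780) (nat_lit 0) (nat_lit 0) (XT.nd (nat_lit 390) (nat_lit 0) (nat_lit 0) (XT.nd (nat_lit 156) (nat_lit 0) (nat_lit 0) (XT.nd (nat_lit 78) (nat_lit 0) (nat_lit 0) (XT.lf (nat_lit 0) (nat_lit 12470589666392) (nat_lit 76) (nat_lit 2108088451550) (nat_lit 76) (nat_lit 2103984573410) (nat_lit 1) (nat_lit 4) (nat_lit 2) (nat_lit 5) (nat_lit 2) (nat_lit 4) (nat_lit 416) (nat_lit 338) (nat_lit 266)) (XT.lf (nat_lit 0) (nat_lit 14532606727810) (nat_lit 76) (nat_lit 2324586427594) (nat_lit 76) (nat_lit 2320482526631) (nat_lit 1) (nat_lit 4) (nat_lit 2) (nat_lit 5) (nat_lit 2) (nat_lit 4) (nat_lit 417) (nat_lit 338) (nat_lit 265))) (XT.nd (nat_lit 78) (nat_lit 0) (nat_lit 0) (XT.lf (nat_lit 0) (nat_lit 16903924358401) (nat_lit 76) (nat_lit 2573560130257) (nat_lit 76) (nat_lit 2569456209448) (nat_lit 1) (nat_lit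 4) (nat_lit 2) (nat_lit 5) (nat_lit 2) (nat_lit 4) (nat_lit 418) (nat_lit 338) (nat_lit 264)) (XT.nd (nat_lit 78) (nat_lit 0) (nat_lit 0) (XT.lf (nat_lit 0) (nat_lit 19630937903112) (nat_lit 76) (nat_lit 2859880784158) (nat_lit 76) (nat_lit 2855776846092) (nat_lit 1) (nat_lit 4) (nat_lit 2) (nat_lit 5) (nat_lit 2) (nat_lit 4) (nat_lit 419) (nat_lit 338) (nat_lit 263)) (XT.lf (nat_lit 0) (nat_lit 22767001974773) (nat_lit 76) (nat_lit 3189150315133) (nat_lit 76) (nat_lit 3185046362061) (nat_lit 1) (nat_lit 4) (nat_lit 2) (nat_lit 5) (nat_lit 2) (nat_lit 4) (nat_lit 420) (nat_lit 338) (nat_lit 262))))) (XT.nd (nat_lit 156) (nat_lit 0) (nat_lit 0) (XT.nd (nat_lit 78) (nat_lit 0) (nat_lit 0) (XT.lf (nat_lit 0) (nat_lit 26373474348699) (nat_lit 76) (nat_lit 3567810953136) (nat_lit 76) (nat_lit 3563706987015) (nat_lit 1) (nat_lit 4) (nat_lit 2) (nat_lit 5) (nat_lit 2) (nat_lit 4) (nat_lit 421) (nat_lit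 338) (nat_lit 261)) (XT.lf (nat_lit 0) (nat_lit 30520916440903) (nat_lit 76) (nat_lit 4003271275867) (nat_lit 76) (nat_lit 3999167298400) (nat_lit 1) (nat_lit 4) (nat_lit 2) (nat_lit 5) (nat_lit 2) (nat_lit 4) (nat_lit 422) (nat_lit 338) (nat_lit 260))) (XT.nd (nat_lit 78) (nat_lit 0) (nat_lit 0) (XT.lf (nat_lit 0) (nat_lit 35290473857536) (nat_lit 76) (nat_lit 4504051159207) (nat_lit 76) (nat_lit 4499947171872) (nat_lit 1) (nat_lit 4) (nat_lit 2) (nat_lit 5) (nat_lit 2) (nat_lit 4) (nat_lit 423) (nat_lit 338) (nat_lit 259)) (XT.nd (nat_lit 78) (nat_lit 0) (nat_lit 0) (XT.lf (nat_lit 0) (nat_lit 40775464026315) (nat_lit 76) (nat_lit 5079948470437) (nat_lit 76) (nat_lit 5075844474523) (nat_lit 1) (nat_lit 4) (nat_lit 2) (nat_lit 5) (nat_lit 2) (nat_lit 4) (nat_lit 424) (nat_lit 338) (nat_lit 258)) (XT.lf (nat_lit 0) (nat_lit 47083201972280) (nat_lit 76) (nat_lit 5742230765647) (nat_lit 76)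 (nat_lit 5738126762272) (nat_lit 1) (nat_lit 4) (nat_lit 2) (nat_lit 5) (nat_lit 2) (nat_lit 4) (nat_lit 425) (nat_lit 338) (nat_lit 257)))))) (XT.nd (nat_lit 46800) (nat_lit 0) (nat_lit 5244) (XT.nd (nat_lit 46566) (nat_lit 0) (nat_lit 7828) (XT.nd (nat_lit 78) (nat_lit 0) (nat_lit 0) (XT.lf (nat_lit 0) (nat_lit 54337099959594) (nat_lit 76) (nat_lit 6503855741916) (nat_lit 76) (nat_lit 6499751732054) (nat_lit 1) (nat_lit 4) (nat_lit 2) (nat_lit 5) (nat_lit 2) (nat_lit 4) (nat_lit 426) (nat_lit 338) (nat_lit 256)) (XT.lf (nat_lit 0) (nat_lit 62679082079310) (nat_lit 76) (nat_lit 7379724757478) (nat_lit 76) (nat_lit 7375620741974) (nat_lit 1) (nat_lit 4) (nat_lit 2) (nat_lit 5) (nat_lit 2) (nat_lit 4) (nat_lit 427) (nat_lit 338) (nat_lit 255))) (XT.nd (nat_lit 78) (nat_lit 836) (nat_lit 0) (XT.lf (nat_lit 0) (nat_lit 3264291345) (nat_lit 76) (nat_lit 2117308) (nat_lit 76) (nat_lit 2117308)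 (nat_lit 115) (nat_lit 4) (nat_lit 116) (nat_lit 5) (nat_lit 116) (nat_lit 4) (nat_lit 342) (nat_lit 339) (nat_lit 339)) (XT.nd (nat_lit 78) (nat_lit 380) (nat_lit 0) (XT.lf (nat_lit 0) (nat_lit 784625890) (nat_lit 228) (nat_lit 5046022308) (nat_lit 228) (nat_lit 830046416) (nat_lit 109) (nat_lit 4) (nat_lit 112) (nat_lit 5) (nat_lit 112) (nat_lit 4) (nat_lit 343) (nat_lit 339) (nat_lit 338)) (XT.lf (nat_lit 0) (nat_lit 1989791807) (nat_lit 304) (nat_lit 2756282083) (nat_lit 380) (nat_lit 2102300998) (nat_lit 104) (nat_lit 5) (nat_lit 108) (nat_lit 5) (nat_lit 109) (nat_lit 4) (nat_lit 344) (nat_lit 339) (nat_lit 337))))) (XT.nd (nat_lit 234) (nat_lit 836) (nat_lit 0) (XT.nd (nat_lit 78) (nat_lit 1292) (nat_lit 0) (XT.lf (nat_lit 0) (nat_lit 3253412213) (nat_lit 456) (nat_lit 3482833483) (nat_lit 76) (nat_lit 365881641) (nat_lit 98) (nat_lit 5) (nat_lit 104) (nat_lit 5) (nat_lit 99) (nat_lit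 4) (nat_lit 345) (nat_lit 339) (nat_lit 336)) (XT.nd (nat_lit 78) (nat_lit 760) (nat_lit 0) (XT.lf (nat_lit 0) (nat_lit 1387084314) (nat_lit 532) (nat_lit 1798791932) (nat_lit 76) (nat_lit 4233469466) (nat_lit 91) (nat_lit 5) (nat_lit 98) (nat_lit 5) (nat_lit 92) (nat_lit 5) (nat_lit 346) (nat_lit 339) (nat_lit 335)) (XT.lf (nat_lit 0) (nat_lit 253906526) (nat_lit 228) (nat_lit 6567152194) (nat_lit 304) (nat_lit 983934475) (nat_lit 81) (nat_lit 5) (nat_lit 84) (nat_lit 5) (nat_lit 85) (nat_lit 4) (nat_lit 347) (nat_lit 339) (nat_lit 334)))) (XT.nd (nat_lit 78) (nat_lit 532) (nat_lit 0) (XT.lf (nat_lit 0) (nat_lit 2725261856) (nat_lit 228) (nat_lit 1679559470) (nat_lit 304) (nat_lit 3848519134) (nat_lit 77) (nat_lit 5) (nat_lit 80) (nat_lit 5) (nat_lit 81) (nat_lit 5) (nat_lit 348) (nat_lit 339) (nat_lit 333)) (XT.nd (nat_lit 78) (nat_lit 228) (nat_lit 0) (XT.lf (nat_lit 0) (nat_lit 1544388422)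 (nat_lit 304) (nat_lit 3189816478) (nat_lit 76) (nat_lit 4040813529) (nat_lit 73) (nat_lit 5) (nat_lit 77) (nat_lit 5) (nat_lit 74) (nat_lit 5) (nat_lit 349) (nat_lit 339) (nat_lit 332)) (XT.lf (nat_lit 0) (nat_lit 7435628865) (nat_lit 304) (nat_lit 525352259) (nat_lit 76) (nat_lit 1412644111) (nat_lit 70) (nat_lit 5) (nat_lit 74) (nat_lit 5) (nat_lit 71) (nat_lit 4) (nat_lit 350) (nat_lit 339) (nat_lit 331))))))) (XT.nd (nat_lit 780) (nat_lit 1444) (nat_lit 0) (XT.nd (nat_lit 390) (nat_lit 836) (nat_lit 0) (XT.nd (nat_lit 156) (nat_lit 532) (nat_lit 0) (XT.nd (nat_lit 78) (nat_lit 228) (nat_lit 0) (XT.lf (nat_lit 0) (nat_lit 2586138844) (nat_lit 152) (nat_lit 1448336442) (nat_lit 228) (nat_lit 6012133392) (nat_lit 65) (nat_lit 5) (nat_lit 67) (nat_lit 5) (nat_lit 68) (nat_lit 5) (nat_lit 351) (nat_lit 339) (nat_lit 330)) (XT.lf (nat_lit 0) (nat_lit 100875561) (nat_lit 228) (nat_lit 4671116519)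 (nat_lit 76) (nat_lit 6034379591) (nat_lit 62) (nat_lit 5) (nat_lit 65) (nat_lit 5) (nat_lit 63) (nat_lit 5) (nat_lit 352) (nat_lit 339) (nat_lit 329))) (XT.nd (nat_lit 78) (nat_lit 380) (nat_lit 0) (XT.lf (nat_lit 0) (nat_lit 6922806669) (nat_lit 228) (nat_lit 1591105964) (nat_lit 76) (nat_lit 3141888710) (nat_lit 60) (nat_lit 5) (nat_lit 63) (nat_lit 5) (nat_lit 61) (nat_lit 4) (nat_lit 353) (nat_lit 339) (nat_lit 328)) (XT.nd (nat_lit 78) (nat_lit 76) (nat_lit 0) (XT.lf (nat_lit 0) (nat_lit 2023475468) (nat_lit 152) (nat_lit 270255840) (nat_lit 228) (nat_lit 10313617436) (nat_lit 56) (nat_lit 5) (nat_lit 58) (nat_lit 5) (nat_lit 59) (nat_lit 5) (nat_lit 354) (nat_lit 339) (nat_lit 327)) (XT.lf (nat_lit 0) (nat_lit 6070009283) (nat_lit 76) (nat_lit 4441823818) (nat_lit 152) (nat_lit 3146573352) (nat_lit 55) (nat_lit 5) (nat_lit 56) (nat_lit 5) (nat_lit 57) (nat_lit 4) (nat_lit 355) (nat_lit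 339) (nat_lit 326))))) (XT.nd (nat_lit 156) (nat_lit 532) (nat_lit 0) (XT.nd (nat_lit 78) (nat_lit 76) (nat_lit 0) (XT.lf (nat_lit 0) (nat_lit 5183847439) (nat_lit 228) (nat_lit 4212430034) (nat_lit 76) (nat_lit 5433601760) (nat_lit 52) (nat_lit 5) (nat_lit 55) (nat_lit 5) (nat_lit 53) (nat_lit 4) (nat_lit 356) (nat_lit 339) (nat_lit 325)) (XT.lf (nat_lit 0) (nat_lit 14984517685) (nat_lit 152) (nat_lit 351126577) (nat_lit 0) (nat_lit 802345874) (nat_lit 51) (nat_lit 5) (nat_lit 53) (nat_lit 4) (nat_lit 51) (nat_lit 4) (nat_lit 357) (nat_lit 339) (nat_lit 324))) (XT.nd (nat_lit 78) (nat_lit 228) (nat_lit 0) (XT.lf (nat_lit 0) (nat_lit 4024023811) (nat_lit 76) (nat_lit 4853564991) (nat_lit 152) (nat_lit 8692532024) (nat_lit 47) (nat_lit 5) (nat_lit 48) (nat_lit 5) (nat_lit 49) (nat_lit 4) (nat_lit 358) (nat_lit 339) (nat_lit 323)) (XT.nd (nat_lit 78) (nat_lit 76) (nat_lit 0) (XT.lf (nat_lit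 0) (nat_lit 1664874548) (nat_lit 152) (nat_lit 10117378267) (nat_lit 76) (nat_lit 7382970147) (nat_lit 45) (nat_lit 5) (nat_lit 47) (nat_lit 5) (nat_lit 46) (nat_lit 4) (nat_lit 359) (nat_lit 339) (nat_lit 322)) (XT.lf (nat_lit 0) (nat_lit 13690944887) (nat_lit 152) (nat_lit 6291659873) (nat_lit 0) (nat_lit 948552137) (nat_lit 44) (nat_lit 5) (nat_lit 46) (nat_lit 4) (nat_lit 44) (nat_lit 4) (nat_lit 360) (nat_lit 339) (nat_lit 321)))))) (XT.nd (nat_lit 390) (nat_lit 760) (nat_lit 0) (XT.nd (nat_lit 156) (nat_lit 380) (nat_lit 0) (XT.nd (nat_lit 78) (nat_lit 152) (nat_lit 0) (XT.lf (nat_lit 0) (nat_lit 5205678118) (nat_lit 152) (nat_lit 2060690831) (nat_lit 76) (nat_lit 15616864343) (nat_lit 42) (nat_lit 5) (nat_lit 44) (nat_lit 5) (nat_lit 43) (nat_lit 4) (nat_lit 361) (nat_lit 339) (nat_lit 320)) (XT.lf (nat_lit 0) (nat_lit 2841387975) (nat_lit 76) (nat_lit 17126442751) (nat_lit 76) (nat_lit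 5075005487) (nat_lit 40) (nat_lit 4) (nat_lit 41) (nat_lit 5) (nat_lit 41) (nat_lit 4) (nat_lit 362) (nat_lit 339) (nat_lit 319))) (XT.nd (nat_lit 78) (nat_lit 228) (nat_lit 0) (XT.lf (nat_lit 0) (nat_lit 8437752116) (nat_lit 76) (nat_lit 1462000197) (nat_lit 152) (nat_lit 17532276174) (nat_lit 38) (nat_lit 5) (nat_lit 39) (nat_lit 5) (nat_lit 40) (nat_lit 4) (nat_lit 363) (nat_lit 339) (nat_lit 318)) (XT.nd (nat_lit 78) (nat_lit 152) (nat_lit 0) (XT.lf (nat_lit 0) (nat_lit 14580298671) (nat_lit 76) (nat_lit 13415275795) (nat_lit 76) (nat_lit 2079456121) (nat_lit 37) (nat_lit 4) (nat_lit 38) (nat_lit 5) (nat_lit 38) (nat_lit 4) (nat_lit 364) (nat_lit 339) (nat_lit 317)) (XT.lf (nat_lit 0) (nat_lit 15936684414) (nat_lit 152) (nat_lit 11690944929) (nat_lit 0) (nat_lit 5374239891) (nat_lit 35) (nat_lit 5) (nat_lit 37) (nat_lit 4) (nat_lit 35) (nat_lit 4) (nat_lit 365) (nat_lit 339) (nat_lit 316)))))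 (XT.nd (nat_lit 234) (nat_lit 304) (nat_lit 0) (XT.nd (nat_lit 78) (nat_lit 304) (nat_lit 0) (XT.lf (nat_lit 0) (nat_lit 1510272716) (nat_lit 152) (nat_lit 7478742660) (nat_lit 76) (nat_lit 27266075061) (nat_lit 33) (nat_lit 5) (nat_lit 35) (nat_lit 5) (nat_lit 34) (nat_lit 4) (nat_lit 366) (nat_lit 339) (nat_lit 315)) (XT.nd (nat_lit 78) (nat_lit 228) (nat_lit 0) (XT.lf (nat_lit 0) (nat_lit 23267725618) (nat_lit 152) (nat_lit 3192760335) (nat_lit 0) (nat_lit 13387861057) (nat_lit 32) (nat_lit 5) (nat_lit 34) (nat_lit 4) (nat_lit 32) (nat_lit 4) (nat_lit 367) (nat_lit 339) (nat_lit 314)) (XT.lf (nat_lit 0) (nat_lit 1616682681) (nat_lit 76) (nat_lit 3929913801) (nat_lit 152) (nat_lit 38309396055) (nat_lit 29) (nat_lit 5) (nat_lit 30) (nat_lit 5) (nat_lit 31) (nat_lit 4) (nat_lit 368) (nat_lit 339) (nat_lit 313)))) (XT.nd (nat_lit 78) (nat_lit 228) (nat_lit 0) (XT.lf (nat_lit 0) (nat_lit 6342120528)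 (nat_lit 76) (nat_lit 25576753201) (nat_lit 76) (nat_lit 16358840846) (nat_lit 28) (nat_lit 4) (nat_lit 29) (nat_lit 5) (nat_lit 29) (nat_lit 4) (nat_lit 369) (nat_lit 339) (nat_lit 312)) (XT.nd (nat_lit 78) (nat_lit 76) (nat_lit 0) (XT.lf (nat_lit 0) (nat_lit 9940114847) (nat_lit 152) (nat_lit 41906630493) (nat_lit 0) (nat_lit 1378837869) (nat_lit 26) (nat_lit 5) (nat_lit 28) (nat_lit 4) (nat_lit 26) (nat_lit 4) (nat_lit 370) (nat_lit 339) (nat_lit 311)) (XT.lf (nat_lit 0) (nat_lit 15528589002) (nat_lit 76) (nat_lit 25880780717) (nat_lit 76) (nat_lit 17296744657) (nat_lit 25) (nat_lit 4) (nat_lit 26) (nat_lit 5) (nat_lit 26) (nat_lit 4) (nat_lit 371) (nat_lit 339) (nat_lit 310))))))))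
noncomputable def xc44 : XT := (XT.nd (nat_lit 1638) (nat_lit 228) (nat_lit 0) (XT.nd (nat_lit 780) (nat_lit 532) (nat_lit 0) (XT.nd (nat_lit 390) (nat_lit 456) (nat_lit 0) (XT.nd (nat_lit 156) (nat_lit 380) (nat_lit 0) (XT.nd (nat_lit 78) (nat_lit 76) (nat_lit 0) (XT.lf (nat_lit 0) (nat_lit 13669671460) (nat_lit 152) (nat_lit 45474929510) (nat_lit 0) (nat_lit 5703165380) (nat_lit 23) (nat_lit 5) (nat_lit 25) (nat_lit 4) (nat_lit 23) (nat_lit 4) (nat_lit 372) (nat_lit 339) (nat_lit 309)) (XT.lf (nat_lit 0) (nat_lit 21667199892) (nat_lit 76) (nat_lit 28998625678) (nat_lit 76) (nat_lit 21016185213) (nat_lit 22) (nat_lit 4) (nat_lit 23) (nat_lit 5) (nat_lit 23) (nat_lit 4) (nat_lit 373) (nat_lit 339) (nat_lit 308))) (XT.nd (nat_lit 78) (nat_lit 228) (nat_lit 0) (XT.lf (nat_lit 0) (nat_lit 14943312962) (nat_lit 152) (nat_lit 56875873183) (nat_lit 0) (nat_lit 7539334766) (nat_lit 20) (nat_lit 5)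 (nat_lit 22) (nat_lit 4) (nat_lit 20) (nat_lit 4) (nat_lit 374) (nat_lit 339) (nat_lit 307)) (XT.nd (nat_lit 78) (nat_lit 152) (nat_lit 0) (XT.lf (nat_lit 0) (nat_lit 20134483881) (nat_lit 76) (nat_lit 37604287206) (nat_lit 76) (nat_lit 30189152821) (nat_lit 19) (nat_lit 4) (nat_lit 20) (nat_lit 5) (nat_lit 20) (nat_lit 4) (nat_lit 375) (nat_lit 339) (nat_lit 306)) (XT.lf (nat_lit 0) (nat_lit 10741472325) (nat_lit 152) (nat_lit 82994642295) (nat_lit 0) (nat_lit 3866624715) (nat_lit 17) (nat_lit 5) (nat_lit 19) (nat_lit 4) (nat_lit 17) (nat_lit 4) (nat_lit 376) (nat_lit 339) (nat_lit 305))))) (XT.nd (nat_lit 156) (nat_lit 380) (nat_lit 0) (XT.nd (nat_lit 78) (nat_lit 0) (nat_lit 0) (XT.lf (nat_lit 0) (nat_lit 2888589393) (nat_lit 76) (nat_lit 56207192873) (nat_lit 76) (nat_lit 49324534446) (nat_lit 16) (nat_lit 4) (nat_lit 17) (nat_lit 5) (nat_lit 17) (nat_lit 4) (nat_lit 377) (nat_lit 339)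 (nat_lit 304)) (XT.lf (nat_lit 0) (nat_lit 106466019995) (nat_lit 76) (nat_lit 10549489899) (nat_lit 76) (nat_lit 3660039458) (nat_lit 16) (nat_lit 4) (nat_lit 17) (nat_lit 5) (nat_lit 17) (nat_lit 4) (nat_lit 378) (nat_lit 339) (nat_lit 303))) (XT.nd (nat_lit 78) (nat_lit 228) (nat_lit 0) (XT.lf (nat_lit 0) (nat_lit 49677900326) (nat_lit 152) (nat_lit 41442448310) (nat_lit 0) (nat_lit 43293310936) (nat_lit 14) (nat_lit 5) (nat_lit 16) (nat_lit 4) (nat_lit 14) (nat_lit 4) (nat_lit 379) (nat_lit 339) (nat_lit 302)) (XT.nd (nat_lit 78) (nat_lit 152) (nat_lit 0) (XT.lf (nat_lit 0) (nat_lit 69819477937) (nat_lit 76) (nat_lit 43294795721) (nat_lit 76) (nat_lit 36905451017) (nat_lit 13) (nat_lit 4) (nat_lit 14) (nat_lit 5) (nat_lit 14) (nat_lit 4) (nat_lit 380) (nat_lit 339) (nat_lit 301)) (XT.lf (nat_lit 0) (nat_lit 19498330729) (nat_lit 152) (nat_lit 134670757042) (nat_lit 0) (nat_lit 13578442063)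 (nat_lit 11) (nat_lit 5) (nat_lit 13) (nat_lit 4) (nat_lit 11) (nat_lit 4) (nat_lit 381) (nat_lit 339) (nat_lit 300)))))) (XT.nd (nat_lit 390) (nat_lit 228) (nat_lit 0) (XT.nd (nat_lit 156) (nat_lit 228) (nat_lit 0) (XT.nd (nat_lit 78) (nat_lit 76) (nat_lit 0) (XT.lf (nat_lit 0) (nat_lit 85755905474) (nat_lit 152) (nat_lit 22182951136) (nat_lit 0) (nat_lit 79832687456) (nat_lit 11) (nat_lit 5) (nat_lit 13) (nat_lit 4) (nat_lit 11) (nat_lit 4) (nat_lit 382) (nat_lit 339) (nat_lit 299)) (XT.lf (nat_lit 0) (nat_lit 112676764183) (nat_lit 76) (nat_lit 51918527734) (nat_lit 76) (nat_lit 45992414627) (nat_lit 10) (nat_lit 4) (nat_lit 11) (nat_lit 5) (nat_lit 11) (nat_lit 4) (nat_lit 383) (nat_lit 339) (nat_lit 298))) (XT.nd (nat_lit 78) (nat_lit 76) (nat_lit 0) (XT.lf (nat_lit 0) (nat_lit 19264515852) (nat_lit 152) (nat_lit 203611076477) (nat_lit 0) (nat_lit 13775043097) (nat_lit 8) (nat_lit 5)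 (nat_lit 10) (nat_lit 4) (nat_lit 8) (nat_lit 4) (nat_lit 384) (nat_lit 339) (nat_lit 297)) (XT.nd (nat_lit 78) (nat_lit 76) (nat_lit 0) (XT.lf (nat_lit 0) (nat_lit 95965925577) (nat_lit 152) (nat_lit 79736747331) (nat_lit 0) (nat_lit 90474425875) (nat_lit 8) (nat_lit 5) (nat_lit 10) (nat_lit 4) (nat_lit 8) (nat_lit 4) (nat_lit 385) (nat_lit 339) (nat_lit 296)) (XT.lf (nat_lit 0) (nat_lit 65910082462) (nat_lit 76) (nat_lit 119796494558) (nat_lit 76) (nat_lit 114303232293) (nat_lit 7) (nat_lit 4) (nat_lit 8) (nat_lit 5) (nat_lit 8) (nat_lit 4) (nat_lit 386) (nat_lit 339) (nat_lit 295))))) (XT.nd (nat_lit 234) (nat_lit 76) (nat_lit 0) (XT.nd (nat_lit 78) (nat_lit 152) (nat_lit 0) (XT.lf (nat_lit 0) (nat_lit 238135764112) (nat_lit 76) (nat_lit 53047241483) (nat_lit 76) (nat_lit 47552446555) (nat_lit 7) (nat_lit 4) (nat_lit 8) (nat_lit 5) (nat_lit 8) (nat_lit 4) (nat_lit 387) (nat_lit 339) (nat_lit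 294)) (XT.nd (nat_lit 78) (nat_lit 0) (nat_lit 0) (XT.lf (nat_lit 0) (nat_lit 29649680388) (nat_lit 152) (nat_lit 328851387974) (nat_lit 0) (nat_lit 24560673279) (nat_lit 5) (nat_lit 5) (nat_lit 7) (nat_lit 4) (nat_lit 5) (nat_lit 4) (nat_lit 388) (nat_lit 339) (nat_lit 293)) (XT.lf (nat_lit 0) (nat_lit 120129459205) (nat_lit 152) (nat_lit 198408288634) (nat_lit 0) (nat_lit 115039379027) (nat_lit 5) (nat_lit 5) (nat_lit 7) (nat_lit 4) (nat_lit 5) (nat_lit 4) (nat_lit 389) (nat_lit 339) (nat_lit 292)))) (XT.nd (nat_lit 78) (nat_lit 76) (nat_lit 0) (XT.lf (nat_lit 0) (nat_lit 224147146059) (nat_lit 152) (nat_lit 48469265791) (nat_lit 0) (nat_lit 219056132778) (nat_lit 5) (nat_lit 5) (nat_lit 7) (nat_lit 4) (nat_lit 5) (nat_lit 4) (nat_lit 390) (nat_lit 339) (nat_lit 291)) (XT.nd (nat_lit 78) (nat_lit 0) (nat_lit 0) (XT.lf (nat_lit 0) (nat_lit 130423586127) (nat_lit 76) (nat_lit 216450973859)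 (nat_lit 76) (nat_lit 211359149185) (nat_lit 4) (nat_lit 4) (nat_lit 5) (nat_lit 5) (nat_lit 5) (nat_lit 4) (nat_lit 391) (nat_lit 339) (nat_lit 290)) (XT.lf (nat_lit 0) (nat_lit 339029369131) (nat_lit 76) (nat_lit 150365743695) (nat_lit 76) (nat_lit 145273213461) (nat_lit 4) (nat_lit 4) (nat_lit 5) (nat_lit 5) (nat_lit 5) (nat_lit 4) (nat_lit 392) (nat_lit 339) (nat_lit 289))))))) (XT.nd (nat_lit 780) (nat_lit 0) (nat_lit 0) (XT.nd (nat_lit 390) (nat_lit 76) (nat_lit 0) (XT.nd (nat_lit 156) (nat_lit 0) (nat_lit 0) (XT.nd (nat_lit 78) (nat_lit 152) (nat_lit 0) (XT.lf (nat_lit 0) (nat_lit 578877195071) (nat_lit 76) (nat_lit 74392985085) (nat_lit 76) (nat_lit 69299841321) (nat_lit 4) (nat_lit 4) (nat_lit 5) (nat_lit 5) (nat_lit 5) (nat_lit 4) (nat_lit 393) (nat_lit 339) (nat_lit 288)) (XT.lf (nat_lit 0) (nat_lit 18261360119) (nat_lit 152) (nat_lit 791728193961) (nat_lit 0) (nat_lit 13544992277)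 (nat_lit 2) (nat_lit 5) (nat_lit 4) (nat_lit 4) (nat_lit 2) (nat_lit 4) (nat_lit 394) (nat_lit 339) (nat_lit 287))) (XT.nd (nat_lit 78) (nat_lit 0) (nat_lit 0) (XT.lf (nat_lit 0) (nat_lit 121299994396) (nat_lit 152) (nat_lit 701100832800) (nat_lit 0) (nat_lit 116583197001) (nat_lit 2) (nat_lit 5) (nat_lit 4) (nat_lit 4) (nat_lit 2) (nat_lit 4) (nat_lit 395) (nat_lit 339) (nat_lit 286)) (XT.nd (nat_lit 78) (nat_lit 0) (nat_lit 0) (XT.lf (nat_lit 0) (nat_lit 239777259230) (nat_lit 152) (nat_lit 596914949356) (nat_lit 0) (nat_lit 235060088311) (nat_lit 2) (nat_lit 5) (nat_lit 4) (nat_lit 4) (nat_lit 2) (nat_lit 4) (nat_lit 396) (nat_lit 339) (nat_lit 285)) (XT.lf (nat_lit 0) (nat_lit 376011188065) (nat_lit 152) (nat_lit 477132124170) (nat_lit 0) (nat_lit 371293692343) (nat_lit 2) (nat_lit 5) (nat_lit 4) (nat_lit 4) (nat_lit 2) (nat_lit 4) (nat_lit 397) (nat_lit 339) (nat_lit 284))))) (XT.nd (nat_lit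 156) (nat_lit 76) (nat_lit 0) (XT.nd (nat_lit 78) (nat_lit 0) (nat_lit 0) (XT.lf (nat_lit 0) (nat_lit 532667227335) (nat_lit 152) (nat_lit 339408780228) (nat_lit 0) (nat_lit 527949449175) (nat_lit 2) (nat_lit 5) (nat_lit 4) (nat_lit 4) (nat_lit 2) (nat_lit 4) (nat_lit 398) (nat_lit 339) (nat_lit 283)) (XT.lf (nat_lit 0) (nat_lit 712810386503) (nat_lit 152) (nat_lit 181050330365) (nat_lit 0) (nat_lit 708092362744) (nat_lit 2) (nat_lit 5) (nat_lit 4) (nat_lit 4) (nat_lit 2) (nat_lit 4) (nat_lit 399) (nat_lit 339) (nat_lit 282))) (XT.nd (nat_lit 78) (nat_lit 0) (nat_lit 0) (XT.lf (nat_lit 0) (nat_lit 1096388718) (nat_lit 76) (nat_lit 918895185096) (nat_lit 76) (nat_lit 914176947774) (nat_lit 1) (nat_lit 4) (nat_lit 2) (nat_lit 5) (nat_lit 2) (nat_lit 4) (nat_lit 400) (nat_lit 339) (nat_lit 281)) (XT.nd (nat_lit 78) (nat_lit 0) (nat_lit 0) (XT.lf (nat_lit 0) (nat_lit 221510351607) (nat_lit 76)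 (nat_lit 942001691491) (nat_lit 76) (nat_lit 937283268461) (nat_lit 1) (nat_lit 4) (nat_lit 2) (nat_lit 5) (nat_lit 2) (nat_lit 4) (nat_lit 401) (nat_lit 339) (nat_lit 280)) (XT.lf (nat_lit 0) (nat_lit 474970215854) (nat_lit 76) (nat_lit 968582556755) (nat_lit 76) (nat_lit 963863972241) (nat_lit 1) (nat_lit 4) (nat_lit 2) (nat_lit 5) (nat_lit 2) (nat_lit 4) (nat_lit 402) (nat_lit 339) (nat_lit 279)))))) (XT.nd (nat_lit 390) (nat_lit 0) (nat_lit 0) (XT.nd (nat_lit 156) (nat_lit 0) (nat_lit 0) (XT.nd (nat_lit 78) (nat_lit 0) (nat_lit 0) (XT.lf (nat_lit 0) (nat_lit 766434978800) (nat_lit 76) (nat_lit 999157841295) (nat_lit 76) (nat_lit 994439116359) (nat_lit 1) (nat_lit 4) (nat_lit 2) (nat_lit 5) (nat_lit 2) (nat_lit 4) (nat_lit 403) (nat_lit 339) (nat_lit 278)) (XT.lf (nat_lit 0) (nat_lit 1101607211897) (nat_lit 76) (nat_lit 1034325757201) (nat_lit 76) (nat_lit 1029606910159) (nat_lit 1) (nat_lit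 4) (nat_lit 2) (nat_lit 5) (nat_lit 2) (nat_lit 4) (nat_lit 404) (nat_lit 339) (nat_lit 277))) (XT.nd (nat_lit 78) (nat_lit 0) (nat_lit 0) (XT.lf (nat_lit 0) (nat_lit 1487044632747) (nat_lit 76) (nat_lit 1074774372391) (nat_lit 76) (nat_lit 1070055419171) (nat_lit 1) (nat_lit 4) (nat_lit 2) (nat_lit 5) (nat_lit 2) (nat_lit 4) (nat_lit 405) (nat_lit 339) (nat_lit 276)) (XT.nd (nat_lit 78) (nat_lit 0) (nat_lit 0) (XT.lf (nat_lit 0) (nat_lit 1930288408280) (nat_lit 76) (nat_lit 1121295072816) (nat_lit 76) (nat_lit 1116576027266) (nat_lit 1) (nat_lit 4) (nat_lit 2) (nat_lit 5) (nat_lit 2) (nat_lit 4) (nat_lit 406) (nat_lit 339) (nat_lit 275)) (XT.lf (nat_lit 0) (nat_lit 2440010699323) (nat_lit 76) (nat_lit 1174798046093) (nat_lit 76) (nat_lit 1170078920256) (nat_lit 1) (nat_lit 4) (nat_lit 2) (nat_lit 5) (nat_lit 2) (nat_lit 4) (nat_lit 407) (nat_lit 339) (nat_lit 274))))) (XT.nd (nat_lit 234)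 (nat_lit 0) (nat_lit 0) (XT.nd (nat_lit 78) (nat_lit 0) (nat_lit 0) (XT.lf (nat_lit 0) (nat_lit 3026184333308) (nat_lit 76) (nat_lit 1236330089524) (nat_lit 76) (nat_lit 1231610893873) (nat_lit 1) (nat_lit 4) (nat_lit 2) (nat_lit 5) (nat_lit 2) (nat_lit 4) (nat_lit 408) (nat_lit 339) (nat_lit 273)) (XT.nd (nat_lit 78) (nat_lit 0) (nat_lit 0) (XT.lf (nat_lit 0) (nat_lit 3700277924813) (nat_lit 76) (nat_lit 1307095090916) (nat_lit 76) (nat_lit 1302375834557) (nat_lit 1) (nat_lit 4) (nat_lit 2) (nat_lit 5) (nat_lit 2) (nat_lit 4) (nat_lit 409) (nat_lit 339) (nat_lit 272)) (XT.lf (nat_lit 0) (nat_lit 4475480261499) (nat_lit 76) (nat_lit 1388477582905) (nat_lit 76) (nat_lit 1383758273756) (nat_lit 1) (nat_lit 4) (nat_lit 2) (nat_lit 5) (nat_lit 2) (nat_lit 4) (nat_lit 410) (nat_lit 339) (nat_lit 271)))) (XT.nd (nat_lit 78) (nat_lit 0) (nat_lit 0) (XT.lf (nat_lit 0) (nat_lit 5366958345605) (nat_lit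 76) (nat_lit 1482069831638) (nat_lit 76) (nat_lit 1477350476586) (nat_lit 1) (nat_lit 4) (nat_lit 2) (nat_lit 5) (nat_lit 2) (nat_lit 4) (nat_lit 411) (nat_lit 339) (nat_lit 270)) (XT.nd (nat_lit 78) (nat_lit 0) (nat_lit 0) (XT.lf (nat_lit 0) (nat_lit 6392154139645) (nat_lit 76) (nat_lit 1589702989809) (nat_lit 76) (nat_lit 1584983594840) (nat_lit 1) (nat_lit 4) (nat_lit 2) (nat_lit 5) (nat_lit 2) (nat_lit 4) (nat_lit 412) (nat_lit 339) (nat_lit 269)) (XT.lf (nat_lit 0) (nat_lit 7571125822200) (nat_lit 76) (nat_lit 1713482923555) (nat_lit 76) (nat_lit 1708763493876) (nat_lit 1) (nat_lit 4) (nat_lit 2) (nat_lit 5) (nat_lit 2) (nat_lit 4) (nat_lit 413) (nat_lit 339) (nat_lit 268))))))))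
noncomputable def xc45 : XT := (XT.nd (nat_lit 47892) (nat_lit 0) (nat_lit 2432) (XT.nd (nat_lit 780) (nat_lit 0) (nat_lit 0) (XT.nd (nat_lit 390) (nat_lit 0) (nat_lit 0) (XT.nd (nat_lit 156) (nat_lit 0) (nat_lit 0) (XT.nd (nat_lit 78) (nat_lit 0) (nat_lit 0) (XT.lf (nat_lit 0) (nat_lit 8926940230536) (nat_lit 76) (nat_lit 1855831414188) (nat_lit 76) (nat_lit 1851111954326) (nat_lit 1) (nat_lit 4) (nat_lit 2) (nat_lit 5) (nat_lit 2) (nat_lit 4) (nat_lit 414) (nat_lit 339) (nat_lit 267)) (XT.lf (nat_lit 0) (nat_lit 10486124168294) (nat_lit 76) (nat_lit 2019533540874) (nat_lit 76) (nat_lit 2014814054766) (nat_lit 1) (nat_lit 4) (nat_lit 2) (nat_lit 5) (nat_lit 2) (nat_lit 4) (nat_lit 415) (nat_lit 339) (nat_lit 266))) (XT.nd (nat_lit 78) (nat_lit 0) (nat_lit 0) (XT.lf (nat_lit 0) (nat_lit 12279183408171) (nat_lit 76) (nat_lit 2207792171308) (nat_lit 76) (nat_lit 2203072662378) (nat_lit 1) (nat_lit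 4) (nat_lit 2) (nat_lit 5) (nat_lit 2) (nat_lit 4) (nat_lit 416) (nat_lit 339) (nat_lit 265)) (XT.nd (nat_lit 78) (nat_lit 0) (nat_lit 0) (XT.lf (nat_lit 0) (nat_lit 14341199543989) (nat_lit 76) (nat_lit 2424290626520) (nat_lit 76) (nat_lit 2419571097745) (nat_lit 1) (nat_lit 4) (nat_lit 2) (nat_lit 5) (nat_lit 2) (nat_lit 4) (nat_lit 417) (nat_lit 339) (nat_lit 264)) (XT.lf (nat_lit 0) (nat_lit 16712516369711) (nat_lit 76) (nat_lit 2673264745852) (nat_lit 76) (nat_lit 2668545199820) (nat_lit 1) (nat_lit 4) (nat_lit 2) (nat_lit 5) (nat_lit 2) (nat_lit 4) (nat_lit 418) (nat_lit 339) (nat_lit 263))))) (XT.nd (nat_lit 156) (nat_lit 0) (nat_lit 0) (XT.nd (nat_lit 78) (nat_lit 0) (nat_lit 0) (XT.lf (nat_lit 0) (nat_lit 19439529214535) (nat_lit 76) (nat_lit 2959585762074) (nat_lit 76) (nat_lit 2954866201035) (nat_lit 1) (nat_lit 4) (nat_lit 2) (nat_lit 5) (nat_lit 2) (nat_lit 4) (nat_lit 419) (nat_lit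 339) (nat_lit 262)) (XT.lf (nat_lit 0) (nat_lit 22575592677599) (nat_lit 76) (nat_lit 3288855608110) (nat_lit 76) (nat_lit 3284136034022) (nat_lit 1) (nat_lit 4) (nat_lit 2) (nat_lit 5) (nat_lit 2) (nat_lit 4) (nat_lit 420) (nat_lit 339) (nat_lit 261))) (XT.nd (nat_lit 78) (nat_lit 0) (nat_lit 0) (XT.lf (nat_lit 0) (nat_lit 26182064522310) (nat_lit 76) (nat_lit 3667516520080) (nat_lit 76) (nat_lit 3662796934645) (nat_lit 1) (nat_lit 4) (nat_lit 2) (nat_lit 5) (nat_lit 2) (nat_lit 4) (nat_lit 421) (nat_lit 339) (nat_lit 260)) (XT.nd (nat_lit 78) (nat_lit 0) (nat_lit 0) (XT.lf (nat_lit 0) (nat_lit 30329506154328) (nat_lit 76) (nat_lit 4102977081043) (nat_lit 76) (nat_lit 4098257485741) (nat_lit 1) (nat_lit 4) (nat_lit 2) (nat_lit 5) (nat_lit 2) (nat_lit 4) (nat_lit 422) (nat_lit 339) (nat_lit 259)) (XT.lf (nat_lit 0) (nat_lit 35099063170798) (nat_lit 76) (nat_lit 4603757171540) (nat_lit 76)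 (nat_lit 4599037567659) (nat_lit 1) (nat_lit 4) (nat_lit 2) (nat_lit 5) (nat_lit 2) (nat_lit 4) (nat_lit 423) (nat_lit 339) (nat_lit 258)))))) (XT.nd (nat_lit 46644) (nat_lit 0) (nat_lit 6840) (XT.nd (nat_lit 156) (nat_lit 0) (nat_lit 0) (XT.nd (nat_lit 78) (nat_lit 0) (nat_lit 0) (XT.lf (nat_lit 0) (nat_lit 40584052991609) (nat_lit 76) (nat_lit 5179654662907) (nat_lit 76) (nat_lit 5174935051566) (nat_lit 1) (nat_lit 4) (nat_lit 2) (nat_lit 5) (nat_lit 2) (nat_lit 4) (nat_lit 424) (nat_lit 339) (nat_lit 257)) (XT.lf (nat_lit 0) (nat_lit 46891790634995) (nat_lit 76) (nat_lit 5841937114758) (nat_lit 76) (nat_lit 5837217496929) (nat_lit 1) (nat_lit 4) (nat_lit 2) (nat_lit 5) (nat_lit 2) (nat_lit 4) (nat_lit 425) (nat_lit 339) (nat_lit 256))) (XT.nd (nat_lit 78) (nat_lit 0) (nat_lit 0) (XT.lf (nat_lit 0) (nat_lit 54145688359195) (nat_lit 76) (nat_lit 6603562227238) (nat_lit 76) (nat_lit 6598842603767)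 (nat_lit 1) (nat_lit 4) (nat_lit 2) (nat_lit 5) (nat_lit 2) (nat_lit 4) (nat_lit 426) (nat_lit 339) (nat_lit 255)) (XT.nd (nat_lit 46332) (nat_lit 0) (nat_lit 8816) (XT.lf (nat_lit 0) (nat_lit 62487670250117) (nat_lit 76) (nat_lit 7479431361243) (nat_lit 76) (nat_lit 7474711732866) (nat_lit 1) (nat_lit 4) (nat_lit 2) (nat_lit 5) (nat_lit 2) (nat_lit 4) (nat_lit 427) (nat_lit 339) (nat_lit 254)) (XT.lf (nat_lit 0) (nat_lit 1073741823) (nat_lit 0) (nat_lit 0) (nat_lit 0) (nat_lit 0) (nat_lit 117) (nat_lit 0) (nat_lit 1) (nat_lit 0) (nat_lit 1) (nat_lit 0) (nat_lit 340) (nat_lit 340) (nat_lit 340))))) (XT.nd (nat_lit 234) (nat_lit 1520) (nat_lit 0) (XT.nd (nat_lit 78) (nat_lit 380) (nat_lit 0) (XT.lf (nat_lit 0) (nat_lit 5647661076) (nat_lit 76) (nat_lit 413418279) (nat_lit 0) (nat_lit 411419018) (nat_lit 116) (nat_lit 5) (nat_lit 117) (nat_lit 0) (nat_lit 116) (nat_lit 4) (nat_lit 341) (nat_lit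 340) (nat_lit 339)) (XT.nd (nat_lit 78) (nat_lit 228) (nat_lit 0) (XT.lf (nat_lit 0) (nat_lit 4489776408) (nat_lit 152) (nat_lit 450761092) (nat_lit 76) (nat_lit 1624989906) (nat_lit 114) (nat_lit 5) (nat_lit 116) (nat_lit 5) (nat_lit 115) (nat_lit 4) (nat_lit 342) (nat_lit 340) (nat_lit 338)) (XT.lf (nat_lit 0) (nat_lit 2945218681) (nat_lit 228) (nat_lit 107586445) (nat_lit 76) (nat_lit 3670101445) (nat_lit 111) (nat_lit 5) (nat_lit 114) (nat_lit 5) (nat_lit 112) (nat_lit 5) (nat_lit 343) (nat_lit 340) (nat_lit 337)))) (XT.nd (nat_lit 78) (nat_lit 912) (nat_lit 0) (XT.lf (nat_lit 0) (nat_lit 663155445) (nat_lit 304) (nat_lit 333492986) (nat_lit 380) (nat_lit 5949032865) (nat_lit 103) (nat_lit 5) (nat_lit 107) (nat_lit 5) (nat_lit 108) (nat_lit 5) (nat_lit 344) (nat_lit 340) (nat_lit 336)) (XT.nd (nat_lit 78) (nat_lit 532) (nat_lit 0) (XT.lf (nat_lit 0) (nat_lit 1758222993) (nat_lit 380) (nat_lit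 4077235496) (nat_lit 456) (nat_lit 1392926638) (nat_lit 98) (nat_lit 5) (nat_lit 103) (nat_lit 5) (nat_lit 104) (nat_lit 5) (nat_lit 345) (nat_lit 340) (nat_lit 335)) (XT.lf (nat_lit 0) (nat_lit 3244095382) (nat_lit 532) (nat_lit 4324513757) (nat_lit 76) (nat_lit 10389799) (nat_lit 91) (nat_lit 5) (nat_lit 98) (nat_lit 5) (nat_lit 92) (nat_lit 5) (nat_lit 346) (nat_lit 340) (nat_lit 334))))))) (XT.nd (nat_lit 780) (nat_lit 1596) (nat_lit 0) (XT.nd (nat_lit 390) (nat_lit 988) (nat_lit 0) (XT.nd (nat_lit 156) (nat_lit 988) (nat_lit 0) (XT.nd (nat_lit 78) (nat_lit 228) (nat_lit 0) (XT.lf (nat_lit 0) (nat_lit 275004859) (nat_lit 608) (nat_lit 2896071622) (nat_lit 76) (nat_lit 4824452815) (nat_lit 83) (nat_lit 5) (nat_lit 91) (nat_lit 5) (nat_lit 84) (nat_lit 5) (nat_lit 347) (nat_lit 340) (nat_lit 333)) (XT.lf (nat_lit 0) (nat_lit 5129500959) (nat_lit 304) (nat_lit 1178469932) (nat_lit 76) (nat_lit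 2172847974) (nat_lit 80) (nat_lit 5) (nat_lit 84) (nat_lit 5) (nat_lit 81) (nat_lit 5) (nat_lit 348) (nat_lit 340) (nat_lit 332))) (XT.nd (nat_lit 78) (nat_lit 456) (nat_lit 0) (XT.lf (nat_lit 0) (nat_lit 942383221) (nat_lit 228) (nat_lit 580681030) (nat_lit 304) (nat_lit 7517994202) (nat_lit 73) (nat_lit 5) (nat_lit 76) (nat_lit 5) (nat_lit 77) (nat_lit 5) (nat_lit 349) (nat_lit 340) (nat_lit 331)) (XT.nd (nat_lit 78) (nat_lit 228) (nat_lit 0) (XT.lf (nat_lit 0) (nat_lit 3419725577) (nat_lit 228) (nat_lit 3590805992) (nat_lit 304) (nat_lit 2661458119) (nat_lit 70) (nat_lit 5) (nat_lit 73) (nat_lit 5) (nat_lit 74) (nat_lit 5) (nat_lit 350) (nat_lit 340) (nat_lit 330)) (XT.lf (nat_lit 0) (nat_lit 2835288817) (nat_lit 228) (nat_lit 4088382798) (nat_lit 76) (nat_lit 3463664855) (nat_lit 67) (nat_lit 5) (nat_lit 70) (nat_lit 5) (nat_lit 68) (nat_lit 5) (nat_lit 351) (nat_lit 340) (nat_lit 329)))))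 (XT.nd (nat_lit 156) (nat_lit 456) (nat_lit 0) (XT.nd (nat_lit 78) (nat_lit 380) (nat_lit 0) (XT.lf (nat_lit 0) (nat_lit 9132287043) (nat_lit 228) (nat_lit 1574350998) (nat_lit 76) (nat_lit 487184733) (nat_lit 65) (nat_lit 5) (nat_lit 68) (nat_lit 5) (nat_lit 66) (nat_lit 4) (nat_lit 352) (nat_lit 340) (nat_lit 328)) (XT.lf (nat_lit 0) (nat_lit 1289844030) (nat_lit 152) (nat_lit 3058653610) (nat_lit 228) (nat_lit 7739935862) (nat_lit 60) (nat_lit 5) (nat_lit 62) (nat_lit 5) (nat_lit 63) (nat_lit 5) (nat_lit 353) (nat_lit 340) (nat_lit 327))) (XT.nd (nat_lit 78) (nat_lit 380) (nat_lit 0) (XT.lf (nat_lit 0) (nat_lit 4694012986) (nat_lit 76) (nat_lit 7232660950) (nat_lit 152) (nat_lit 1160005682) (nat_lit 59) (nat_lit 5) (nat_lit 60) (nat_lit 5) (nat_lit 61) (nat_lit 4) (nat_lit 354) (nat_lit 340) (nat_lit 326)) (XT.nd (nat_lit 78) (nat_lit 152) (nat_lit 0) (XT.lf (nat_lit 0) (nat_lit 6420960352)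 (nat_lit 228) (nat_lit 5667800446) (nat_lit 76) (nat_lit 2106830408) (nat_lit 56) (nat_lit 5) (nat_lit 59) (nat_lit 5) (nat_lit 57) (nat_lit 4) (nat_lit 355) (nat_lit 340) (nat_lit 325)) (XT.lf (nat_lit 0) (nat_lit 91177508) (nat_lit 152) (nat_lit 2507337962) (nat_lit 76) (nat_lit 12833150211) (nat_lit 54) (nat_lit 5) (nat_lit 56) (nat_lit 5) (nat_lit 55) (nat_lit 5) (nat_lit 356) (nat_lit 340) (nat_lit 324)))))) (XT.nd (nat_lit 390) (nat_lit 836) (nat_lit 0) (XT.nd (nat_lit 156) (nat_lit 304) (nat_lit 0) (XT.nd (nat_lit 78) (nat_lit 228) (nat_lit 0) (XT.lf (nat_lit 0) (nat_lit 1018336637) (nat_lit 76) (nat_lit 8228986002) (nat_lit 152) (nat_lit 7544022194) (nat_lit 51) (nat_lit 5) (nat_lit 52) (nat_lit 5) (nat_lit 53) (nat_lit 4) (nat_lit 357) (nat_lit 340) (nat_lit 323)) (XT.lf (nat_lit 0) (nat_lit 1971421502) (nat_lit 228) (nat_lit 12991579213) (nat_lit 76) (nat_lit 3339599162) (nat_lit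 48) (nat_lit 5) (nat_lit 51) (nat_lit 5) (nat_lit 49) (nat_lit 4) (nat_lit 358) (nat_lit 340) (nat_lit 322))) (XT.nd (nat_lit 78) (nat_lit 228) (nat_lit 0) (XT.lf (nat_lit 0) (nat_lit 10083892067) (nat_lit 76) (nat_lit 3075729179) (nat_lit 152) (nat_lit 6809885049) (nat_lit 47) (nat_lit 5) (nat_lit 48) (nat_lit 5) (nat_lit 49) (nat_lit 4) (nat_lit 359) (nat_lit 340) (nat_lit 321)) (XT.nd (nat_lit 78) (nat_lit 76) (nat_lit 0) (XT.lf (nat_lit 0) (nat_lit 4727861842) (nat_lit 152) (nat_lit 6331363255) (nat_lit 76) (nat_lit 10755639399) (nat_lit 45) (nat_lit 5) (nat_lit 47) (nat_lit 5) (nat_lit 46) (nat_lit 4) (nat_lit 360) (nat_lit 340) (nat_lit 320)) (XT.lf (nat_lit 0) (nat_lit 18362765641) (nat_lit 152) (nat_lit 2230710036) (nat_lit 0) (nat_lit 3267829631) (nat_lit 44) (nat_lit 5) (nat_lit 46) (nat_lit 4) (nat_lit 44) (nat_lit 4) (nat_lit 361) (nat_lit 340) (nat_lit 319))))) (XT.nd (nat_lit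 234) (nat_lit 380) (nat_lit 0) (XT.nd (nat_lit 78) (nat_lit 228) (nat_lit 0) (XT.lf (nat_lit 0) (nat_lit 2463529362) (nat_lit 76) (nat_lit 6031155464) (nat_lit 152) (nat_lit 17620324054) (nat_lit 41) (nat_lit 5) (nat_lit 42) (nat_lit 5) (nat_lit 43) (nat_lit 4) (nat_lit 362) (nat_lit 340) (nat_lit 318)) (XT.nd (nat_lit 78) (nat_lit 152) (nat_lit 0) (XT.lf (nat_lit 0) (nat_lit 7941529883) (nat_lit 76) (nat_lit 17417038853) (nat_lit 76) (nat_lit 3248998267) (nat_lit 40) (nat_lit 4) (nat_lit 41) (nat_lit 5) (nat_lit 41) (nat_lit 4) (nat_lit 363) (nat_lit 340) (nat_lit 317)) (XT.lf (nat_lit 0) (nat_lit 13639069186) (nat_lit 152) (nat_lit 17278482665) (nat_lit 0) (nat_lit 448892677) (nat_lit 38) (nat_lit 5) (nat_lit 40) (nat_lit 4) (nat_lit 38) (nat_lit 4) (nat_lit 364) (nat_lit 340) (nat_lit 316)))) (XT.nd (nat_lit 78) (nat_lit 304) (nat_lit 0) (XT.lf (nat_lit 0) (nat_lit 20908866947) (nat_lit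 76) (nat_lit 13381116416) (nat_lit 76) (nat_lit 128661289) (nat_lit 37) (nat_lit 4) (nat_lit 38) (nat_lit 5) (nat_lit 38) (nat_lit 4) (nat_lit 365) (nat_lit 340) (nat_lit 315)) (XT.nd (nat_lit 78) (nat_lit 152) (nat_lit 0) (XT.lf (nat_lit 0) (nat_lit 20336462465) (nat_lit 152) (nat_lit 9439390313) (nat_lit 0) (nat_lit 8015526866) (nat_lit 35) (nat_lit 5) (nat_lit 37) (nat_lit 4) (nat_lit 35) (nat_lit 4) (nat_lit 366) (nat_lit 340) (nat_lit 314)) (XT.lf (nat_lit 0) (nat_lit 3619876214) (nat_lit 152) (nat_lit 4835196390) (nat_lit 76) (nat_lit 33087613892) (nat_lit 33) (nat_lit 5) (nat_lit 35) (nat_lit 5) (nat_lit 34) (nat_lit 4) (nat_lit 367) (nat_lit 340) (nat_lit 313))))))))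
noncomputable def xc46 : XT := (XT.nd (nat_lit 1638) (nat_lit 456) (nat_lit 0) (XT.nd (nat_lit 780) (nat_lit 760) (nat_lit 0) (XT.nd (nat_lit 390) (nat_lit 608) (nat_lit 0) (XT.nd (nat_lit 156) (nat_lit 304) (nat_lit 0) (XT.nd (nat_lit 78) (nat_lit 228) (nat_lit 0) (XT.lf (nat_lit 0) (nat_lit 28519739531) (nat_lit 152) (nat_lit 128906516) (nat_lit 0) (nat_lit 17035985045) (nat_lit 32) (nat_lit 5) (nat_lit 34) (nat_lit 4) (nat_lit 32) (nat_lit 4) (nat_lit 368) (nat_lit 340) (nat_lit 312)) (XT.lf (nat_lit 0) (nat_lit 5364421999) (nat_lit 76) (nat_lit 2750339831) (nat_lit 152) (nat_lit 42180719765) (nat_lit 29) (nat_lit 5) (nat_lit 30) (nat_lit 5) (nat_lit 31) (nat_lit 4) (nat_lit 369) (nat_lit 340) (nat_lit 311))) (XT.nd (nat_lit 78) (nat_lit 228) (nat_lit 0) (XT.lf (nat_lit 0) (nat_lit 10590181818) (nat_lit 76) (nat_lit 27742524365) (nat_lit 76) (nat_lit 17056571770) (nat_lit 28) (nat_lit 4)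 (nat_lit 29) (nat_lit 5) (nat_lit 29) (nat_lit 4) (nat_lit 370) (nat_lit 340) (nat_lit 310)) (XT.nd (nat_lit 78) (nat_lit 76) (nat_lit 0) (XT.lf (nat_lit 0) (nat_lit 12994121937) (nat_lit 152) (nat_lit 45010317655) (nat_lit 0) (nat_lit 3079930880) (nat_lit 26) (nat_lit 5) (nat_lit 28) (nat_lit 4) (nat_lit 26) (nat_lit 4) (nat_lit 371) (nat_lit 340) (nat_lit 309)) (XT.lf (nat_lit 0) (nat_lit 20770818293) (nat_lit 76) (nat_lit 28279134805) (nat_lit 76) (nat_lit 18347734612) (nat_lit 25) (nat_lit 4) (nat_lit 26) (nat_lit 5) (nat_lit 26) (nat_lit 4) (nat_lit 372) (nat_lit 340) (nat_lit 308))))) (XT.nd (nat_lit 156) (nat_lit 380) (nat_lit 0) (XT.nd (nat_lit 78) (nat_lit 76) (nat_lit 0) (XT.lf (nat_lit 0) (nat_lit 17094577696) (nat_lit 152) (nat_lit 49485408654) (nat_lit 0) (nat_lit 7884980789) (nat_lit 23) (nat_lit 5) (nat_lit 25) (nat_lit 4) (nat_lit 23) (nat_lit 4) (nat_lit 373) (nat_lit 340)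 (nat_lit 307)) (XT.lf (nat_lit 0) (nat_lit 27490123300) (nat_lit 76) (nat_lit 32032631763) (nat_lit 76) (nat_lit 22810986172) (nat_lit 22) (nat_lit 4) (nat_lit 23) (nat_lit 5) (nat_lit 23) (nat_lit 4) (nat_lit 374) (nat_lit 340) (nat_lit 306))) (XT.nd (nat_lit 78) (nat_lit 228) (nat_lit 0) (XT.lf (nat_lit 0) (nat_lit 18394198515) (nat_lit 152) (nat_lit 62925407291) (nat_lit 0) (nat_lit 9845936748) (nat_lit 20) (nat_lit 5) (nat_lit 22) (nat_lit 4) (nat_lit 20) (nat_lit 4) (nat_lit 375) (nat_lit 340) (nat_lit 305)) (XT.nd (nat_lit 78) (nat_lit 152) (nat_lit 0) (XT.lf (nat_lit 0) (nat_lit 25426427357) (nat_lit 76) (nat_lit 42079437806) (nat_lit 76) (nat_lit 33522740358) (nat_lit 19) (nat_lit 4) (nat_lit 20) (nat_lit 5) (nat_lit 20) (nat_lit 4) (nat_lit 376) (nat_lit 340) (nat_lit 304)) (XT.lf (nat_lit 0) (nat_lit 13417348325) (nat_lit 152) (nat_lit 93252937411) (nat_lit 0) (nat_lit 5487688303)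 (nat_lit 17) (nat_lit 5) (nat_lit 19) (nat_lit 4) (nat_lit 17) (nat_lit 4) (nat_lit 377) (nat_lit 340) (nat_lit 303)))))) (XT.nd (nat_lit 390) (nat_lit 304) (nat_lit 0) (XT.nd (nat_lit 156) (nat_lit 380) (nat_lit 0) (XT.nd (nat_lit 78) (nat_lit 0) (nat_lit 0) (XT.lf (nat_lit 0) (nat_lit 5327330153) (nat_lit 76) (nat_lit 63606837718) (nat_lit 76) (nat_lit 55671271596) (nat_lit 16) (nat_lit 4) (nat_lit 17) (nat_lit 5) (nat_lit 17) (nat_lit 4) (nat_lit 378) (nat_lit 340) (nat_lit 302)) (XT.lf (nat_lit 0) (nat_lit 124179794604) (nat_lit 76) (nat_lit 11235014178) (nat_lit 76) (nat_lit 3294312318) (nat_lit 16) (nat_lit 4) (nat_lit 17) (nat_lit 5) (nat_lit 17) (nat_lit 4) (nat_lit 379) (nat_lit 340) (nat_lit 301))) (XT.nd (nat_lit 78) (nat_lit 228) (nat_lit 0) (XT.lf (nat_lit 0) (nat_lit 57944889929) (nat_lit 152) (nat_lit 45977338759) (nat_lit 0) (nat_lit 50588253151) (nat_lit 14) (nat_lit 5) (nat_lit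 16) (nat_lit 4) (nat_lit 14) (nat_lit 4) (nat_lit 380) (nat_lit 340) (nat_lit 300)) (XT.nd (nat_lit 78) (nat_lit 152) (nat_lit 0) (XT.lf (nat_lit 0) (nat_lit 81831547789) (nat_lit 76) (nat_lit 48995843950) (nat_lit 76) (nat_lit 41635611471) (nat_lit 13) (nat_lit 4) (nat_lit 14) (nat_lit 5) (nat_lit 14) (nat_lit 4) (nat_lit 381) (nat_lit 340) (nat_lit 299)) (XT.lf (nat_lit 0) (nat_lit 23141305343) (nat_lit 152) (nat_lit 153387514171) (nat_lit 0) (nat_lit 16323380182) (nat_lit 11) (nat_lit 5) (nat_lit 13) (nat_lit 4) (nat_lit 11) (nat_lit 4) (nat_lit 382) (nat_lit 340) (nat_lit 298))))) (XT.nd (nat_lit 234) (nat_lit 76) (nat_lit 0) (XT.nd (nat_lit 78) (nat_lit 228) (nat_lit 0) (XT.lf (nat_lit 0) (nat_lit 99243834777) (nat_lit 152) (nat_lit 24220083869) (nat_lit 0) (nat_lit 92423392148) (nat_lit 11) (nat_lit 5) (nat_lit 13) (nat_lit 4) (nat_lit 11) (nat_lit 4) (nat_lit 383) (nat_lit 340) (nat_lit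 297)) (XT.nd (nat_lit 78) (nat_lit 152) (nat_lit 0) (XT.lf (nat_lit 0) (nat_lit 130759370438) (nat_lit 76) (nat_lit 59096701837) (nat_lit 76) (nat_lit 52274070105) (nat_lit 10) (nat_lit 4) (nat_lit 11) (nat_lit 5) (nat_lit 11) (nat_lit 4) (nat_lit 384) (nat_lit 340) (nat_lit 296)) (XT.lf (nat_lit 0) (nat_lit 22704504355) (nat_lit 152) (nat_lit 233014210325) (nat_lit 0) (nat_lit 16385490188) (nat_lit 8) (nat_lit 5) (nat_lit 10) (nat_lit 4) (nat_lit 8) (nat_lit 4) (nat_lit 385) (nat_lit 340) (nat_lit 295)))) (XT.nd (nat_lit 78) (nat_lit 76) (nat_lit 0) (XT.lf (nat_lit 0) (nat_lit 110839345827) (nat_lit 152) (nat_lit 90707235410) (nat_lit 0) (nat_lit 104518798996) (nat_lit 8) (nat_lit 5) (nat_lit 10) (nat_lit 4) (nat_lit 8) (nat_lit 4) (nat_lit 386) (nat_lit 340) (nat_lit 294)) (XT.nd (nat_lit 78) (nat_lit 0) (nat_lit 0) (XT.lf (nat_lit 0) (nat_lit 76702818250) (nat_lit 76) (nat_lit 137297654291)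 (nat_lit 76) (nat_lit 130975774710) (nat_lit 7) (nat_lit 4) (nat_lit 8) (nat_lit 5) (nat_lit 8) (nat_lit 4) (nat_lit 387) (nat_lit 340) (nat_lit 293)) (XT.lf (nat_lit 0) (nat_lit 274644149093) (nat_lit 76) (nat_lit 60597097748) (nat_lit 76) (nat_lit 54274059253) (nat_lit 7) (nat_lit 4) (nat_lit 8) (nat_lit 5) (nat_lit 8) (nat_lit 4) (nat_lit 388) (nat_lit 340) (nat_lit 292))))))) (XT.nd (nat_lit 780) (nat_lit 76) (nat_lit 0) (XT.nd (nat_lit 390) (nat_lit 152) (nat_lit 0) (XT.nd (nat_lit 156) (nat_lit 76) (nat_lit 0) (XT.nd (nat_lit 78) (nat_lit 0) (nat_lit 0) (XT.lf (nat_lit 0) (nat_lit 34463858448) (nat_lit 152) (nat_lit 377419545767) (nat_lit 0) (nat_lit 28608260072) (nat_lit 5) (nat_lit 5) (nat_lit 7) (nat_lit 4) (nat_lit 5) (nat_lit 4) (nat_lit 389) (nat_lit 340) (nat_lit 291)) (XT.lf (nat_lit 0) (nat_lit 138467770261) (nat_lit 152) (nat_lit 227509053318) (nat_lit 0) (nat_lit 132611360492)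 (nat_lit 5) (nat_lit 5) (nat_lit 7) (nat_lit 4) (nat_lit 5) (nat_lit 4) (nat_lit 390) (nat_lit 340) (nat_lit 290))) (XT.nd (nat_lit 78) (nat_lit 76) (nat_lit 0) (XT.lf (nat_lit 0) (nat_lit 258046515511) (nat_lit 152) (nat_lit 55165326433) (nat_lit 0) (nat_lit 252189400182) (nat_lit 5) (nat_lit 5) (nat_lit 7) (nat_lit 4) (nat_lit 5) (nat_lit 4) (nat_lit 391) (nat_lit 340) (nat_lit 289)) (XT.nd (nat_lit 78) (nat_lit 0) (nat_lit 0) (XT.lf (nat_lit 0) (nat_lit 150512839165) (nat_lit 76) (nat_lit 248646676580) (nat_lit 76) (nat_lit 242788947720) (nat_lit 4) (nat_lit 4) (nat_lit 5) (nat_lit 5) (nat_lit 5) (nat_lit 4) (nat_lit 392) (nat_lit 340) (nat_lit 288)) (XT.lf (nat_lit 0) (nat_lit 390340918082) (nat_lit 76) (nat_lit 172684132764) (nat_lit 76) (nat_lit 166825870400) (nat_lit 4) (nat_lit 4) (nat_lit 5) (nat_lit 5) (nat_lit 5) (nat_lit 4) (nat_lit 393) (nat_lit 340) (nat_lit 287))))) (XT.nd (nat_lit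 156) (nat_lit 0) (nat_lit 0) (XT.nd (nat_lit 78) (nat_lit 152) (nat_lit 0) (XT.lf (nat_lit 0) (nat_lit 666106290490) (nat_lit 76) (nat_lit 85346304599) (nat_lit 76) (nat_lit 79487578318) (nat_lit 4) (nat_lit 4) (nat_lit 5) (nat_lit 5) (nat_lit 5) (nat_lit 4) (nat_lit 394) (nat_lit 340) (nat_lit 286)) (XT.lf (nat_lit 0) (nat_lit 21185382790) (nat_lit 152) (nat_lit 910104297112) (nat_lit 0) (nat_lit 15760262709) (nat_lit 2) (nat_lit 5) (nat_lit 4) (nat_lit 4) (nat_lit 2) (nat_lit 4) (nat_lit 395) (nat_lit 340) (nat_lit 285))) (XT.nd (nat_lit 78) (nat_lit 0) (nat_lit 0) (XT.lf (nat_lit 0) (nat_lit 139655705427) (nat_lit 152) (nat_lit 805932804726) (nat_lit 0) (nat_lit 134230260542) (nat_lit 2) (nat_lit 5) (nat_lit 4) (nat_lit 4) (nat_lit 2) (nat_lit 4) (nat_lit 396) (nat_lit 340) (nat_lit 284)) (XT.nd (nat_lit 78) (nat_lit 0) (nat_lit 0) (XT.lf (nat_lit 0) (nat_lit 275883597568) (nat_lit 152)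 (nat_lit 686162493504) (nat_lit 0) (nat_lit 270457870246) (nat_lit 2) (nat_lit 5) (nat_lit 4) (nat_lit 4) (nat_lit 2) (nat_lit 4) (nat_lit 397) (nat_lit 340) (nat_lit 283)) (XT.lf (nat_lit 0) (nat_lit 432534387539) (nat_lit 152) (nat_lit 548450031269) (nat_lit 0) (nat_lit 427108414619) (nat_lit 2) (nat_lit 5) (nat_lit 4) (nat_lit 4) (nat_lit 2) (nat_lit 4) (nat_lit 398) (nat_lit 340) (nat_lit 282)))))) (XT.nd (nat_lit 390) (nat_lit 0) (nat_lit 0) (XT.nd (nat_lit 156) (nat_lit 76) (nat_lit 0) (XT.nd (nat_lit 78) (nat_lit 0) (nat_lit 0) (XT.lf (nat_lit 0) (nat_lit 612672982100) (nat_lit 152) (nat_lit 390101043761) (nat_lit 0) (nat_lit 607246795616) (nat_lit 2) (nat_lit 5) (nat_lit 4) (nat_lit 4) (nat_lit 2) (nat_lit 4) (nat_lit 399) (nat_lit 340) (nat_lit 281)) (XT.lf (nat_lit 0) (nat_lit 819823832013) (nat_lit 152) (nat_lit 208017398615) (nat_lit 0) (nat_lit 814397459821) (nat_lit 2) (nat_lit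 5) (nat_lit 4) (nat_lit 4) (nat_lit 2) (nat_lit 4) (nat_lit 400) (nat_lit 340) (nat_lit 280))) (XT.nd (nat_lit 78) (nat_lit 0) (nat_lit 0) (XT.lf (nat_lit 0) (nat_lit 1435205037) (nat_lit 76) (nat_lit 1056639200367) (nat_lit 76) (nat_lit 1051212666691) (nat_lit 1) (nat_lit 4) (nat_lit 2) (nat_lit 5) (nat_lit 2) (nat_lit 4) (nat_lit 401) (nat_lit 340) (nat_lit 279)) (XT.nd (nat_lit 78) (nat_lit 0) (nat_lit 0) (XT.lf (nat_lit 0) (nat_lit 254888520011) (nat_lit 76) (nat_lit 1083223456090) (nat_lit 76) (nat_lit 1077796781992) (nat_lit 1) (nat_lit 4) (nat_lit 2) (nat_lit 5) (nat_lit 2) (nat_lit 4) (nat_lit 402) (nat_lit 340) (nat_lit 278)) (XT.lf (nat_lit 0) (nat_lit 546347587938) (nat_lit 76) (nat_lit 1113801688855) (nat_lit 76) (nat_lit 1108374892652) (nat_lit 1) (nat_lit 4) (nat_lit 2) (nat_lit 5) (nat_lit 2) (nat_lit 4) (nat_lit 403) (nat_lit 340) (nat_lit 277))))) (XT.nd (nat_lit 234) (nat_lit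 0) (nat_lit 0) (XT.nd (nat_lit 78) (nat_lit 0) (nat_lit 0) (XT.lf (nat_lit 0) (nat_lit 881514868843) (nat_lit 76) (nat_lit 1148972168435) (nat_lit 76) (nat_lit 1143545266052) (nat_lit 1) (nat_lit 4) (nat_lit 2) (nat_lit 5) (nat_lit 2) (nat_lit 4) (nat_lit 404) (nat_lit 340) (nat_lit 276)) (XT.nd (nat_lit 78) (nat_lit 0) (nat_lit 0) (XT.lf (nat_lit 0) (nat_lit 1266947983440) (nat_lit 76) (nat_lit 1189423012907) (nat_lit 76) (nat_lit 1183996018195) (nat_lit 1) (nat_lit 4) (nat_lit 2) (nat_lit 5) (nat_lit 2) (nat_lit 4) (nat_lit 405) (nat_lit 340) (nat_lit 275)) (XT.lf (nat_lit 0) (nat_lit 1710188014406) (nat_lit 76) (nat_lit 1235945651838) (nat_lit 76) (nat_lit 1230518576840) (nat_lit 1) (nat_lit 4) (nat_lit 2) (nat_lit 5) (nat_lit 2) (nat_lit 4) (nat_lit 406) (nat_lit 340) (nat_lit 274)))) (XT.nd (nat_lit 78) (nat_lit 0) (nat_lit 0) (XT.lf (nat_lit 0) (nat_lit 2219907049303) (nat_lit 76) (nat_lit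 1289450310772) (nat_lit 76) (nat_lit 1284023165959) (nat_lit 1) (nat_lit 4) (nat_lit 2) (nat_lit 5) (nat_lit 2) (nat_lit 4) (nat_lit 407) (nat_lit 340) (nat_lit 273)) (XT.nd (nat_lit 78) (nat_lit 0) (nat_lit 0) (XT.lf (nat_lit 0) (nat_lit 2806077851856) (nat_lit 76) (nat_lit 1350983819992) (nat_lit 76) (nat_lit 1345556614471) (nat_lit 1) (nat_lit 4) (nat_lit 2) (nat_lit 5) (nat_lit 2) (nat_lit 4) (nat_lit 408) (nat_lit 340) (nat_lit 272)) (XT.lf (nat_lit 0) (nat_lit 3480168981247) (nat_lit 76) (nat_lit 1421750095983) (nat_lit 76) (nat_lit 1416322837673) (nat_lit 1) (nat_lit 4) (nat_lit 2) (nat_lit 5) (nat_lit 2) (nat_lit 4) (nat_lit 409) (nat_lit 340) (nat_lit 271))))))))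
noncomputable def xc47 : XT := (XT.nd (nat_lit 47970) (nat_lit 0) (nat_lit 2964) (XT.nd (nat_lit 780) (nat_lit 0) (nat_lit 0) (XT.nd (nat_lit 390) (nat_lit 0) (nat_lit 0) (XT.nd (nat_lit 156) (nat_lit 0) (nat_lit 0) (XT.nd (nat_lit 78) (nat_lit 0) (nat_lit 0) (XT.lf (nat_lit 0) (nat_lit 4255369176964) (nat_lit 76) (nat_lit 1503133696319) (nat_lit 76) (nat_lit 1497706392105) (nat_lit 1) (nat_lit 4) (nat_lit 2) (nat_lit 5) (nat_lit 2) (nat_lit 4) (nat_lit 410) (nat_lit 340) (nat_lit 270)) (XT.lf (nat_lit 0) (nat_lit 5146845399358) (nat_lit 76) (nat_lit 1596726908833) (nat_lit 76) (nat_lit 1591299564702) (nat_lit 1) (nat_lit 4) (nat_lit 2) (nat_lit 5) (nat_lit 2) (nat_lit 4) (nat_lit 411) (nat_lit 340) (nat_lit 269))) (XT.nd (nat_lit 78) (nat_lit 0) (nat_lit 0) (XT.lf (nat_lit 0) (nat_lit 6172039574518) (nat_lit 76) (nat_lit 1704360905073) (nat_lit 76) (nat_lit 1698933526232) (nat_lit 1) (nat_lit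 4) (nat_lit 2) (nat_lit 5) (nat_lit 2) (nat_lit 4) (nat_lit 412) (nat_lit 340) (nat_lit 268)) (XT.nd (nat_lit 78) (nat_lit 0) (nat_lit 0) (XT.lf (nat_lit 0) (nat_lit 7351009849351) (nat_lit 76) (nat_lit 1828141567575) (nat_lit 76) (nat_lit 1822714158551) (nat_lit 1) (nat_lit 4) (nat_lit 2) (nat_lit 5) (nat_lit 2) (nat_lit 4) (nat_lit 413) (nat_lit 340) (nat_lit 267)) (XT.lf (nat_lit 0) (nat_lit 8706823033581) (nat_lit 76) (nat_lit 1970490691910) (nat_lit 76) (nat_lit 1965063256640) (nat_lit 1) (nat_lit 4) (nat_lit 2) (nat_lit 5) (nat_lit 2) (nat_lit 4) (nat_lit 414) (nat_lit 340) (nat_lit 266))))) (XT.nd (nat_lit 156) (nat_lit 0) (nat_lit 0) (XT.nd (nat_lit 78) (nat_lit 0) (nat_lit 0) (XT.lf (nat_lit 0) (nat_lit 10266005906900) (nat_lit 76) (nat_lit 2134193369640) (nat_lit 76) (nat_lit 2128765911547) (nat_lit 1) (nat_lit 4) (nat_lit 2) (nat_lit 5) (nat_lit 2) (nat_lit 4) (nat_lit 415) (nat_lit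 340) (nat_lit 265)) (XT.lf (nat_lit 0) (nat_lit 12059064221177) (nat_lit 76) (nat_lit 2322452479243) (nat_lit 76) (nat_lit 2317025001305) (nat_lit 1) (nat_lit 4) (nat_lit 2) (nat_lit 5) (nat_lit 2) (nat_lit 4) (nat_lit 416) (nat_lit 340) (nat_lit 264))) (XT.nd (nat_lit 78) (nat_lit 0) (nat_lit 0) (XT.lf (nat_lit 0) (nat_lit 14121079552125) (nat_lit 76) (nat_lit 2538951351124) (nat_lit 76) (nat_lit 2533523855929) (nat_lit 1) (nat_lit 4) (nat_lit 2) (nat_lit 5) (nat_lit 2) (nat_lit 4) (nat_lit 417) (nat_lit 340) (nat_lit 263)) (XT.nd (nat_lit 78) (nat_lit 0) (nat_lit 0) (XT.lf (nat_lit 0) (nat_lit 16492395677961) (nat_lit 76) (nat_lit 2787925832776) (nat_lit 76) (nat_lit 2782498322575) (nat_lit 1) (nat_lit 4) (nat_lit 2) (nat_lit 5) (nat_lit 2) (nat_lit 4) (nat_lit 418) (nat_lit 340) (nat_lit 262)) (XT.lf (nat_lit 0) (nat_lit 19219407914187) (nat_lit 76) (nat_lit 3074247164059) (nat_lit 76)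 (nat_lit 3068819640809) (nat_lit 1) (nat_lit 4) (nat_lit 2) (nat_lit 5) (nat_lit 2) (nat_lit 4) (nat_lit 419) (nat_lit 340) (nat_lit 261)))))) (XT.nd (nat_lit 390) (nat_lit 0) (nat_lit 0) (XT.nd (nat_lit 156) (nat_lit 0) (nat_lit 0) (XT.nd (nat_lit 78) (nat_lit 0) (nat_lit 0) (XT.lf (nat_lit 0) (nat_lit 22355470848037) (nat_lit 76) (nat_lit 3403517284062) (nat_lit 76) (nat_lit 3398089749465) (nat_lit 1) (nat_lit 4) (nat_lit 2) (nat_lit 5) (nat_lit 2) (nat_lit 4) (nat_lit 420) (nat_lit 340) (nat_lit 260)) (XT.lf (nat_lit 0) (nat_lit 25961942232562) (nat_lit 76) (nat_lit 3782178434263) (nat_lit 76) (nat_lit 3776750889800) (nat_lit 1) (nat_lit 4) (nat_lit 2) (nat_lit 5) (nat_lit 2) (nat_lit 4) (nat_lit 421) (nat_lit 340) (nat_lit 259))) (XT.nd (nat_lit 78) (nat_lit 0) (nat_lit 0) (XT.lf (nat_lit 0) (nat_lit 30109383464416) (nat_lit 76) (nat_lit 4217639202384) (nat_lit 76) (nat_lit 4212211649341)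 (nat_lit 1) (nat_lit 4) (nat_lit 2) (nat_lit 5) (nat_lit 2) (nat_lit 4) (nat_lit 422) (nat_lit 340) (nat_lit 258)) (XT.nd (nat_lit 78) (nat_lit 0) (nat_lit 0) (XT.lf (nat_lit 0) (nat_lit 34878940132919) (nat_lit 76) (nat_lit 4718419473019) (nat_lit 76) (nat_lit 4712991912515) (nat_lit 1) (nat_lit 4) (nat_lit 2) (nat_lit 5) (nat_lit 2) (nat_lit 4) (nat_lit 423) (nat_lit 340) (nat_lit 257)) (XT.lf (nat_lit 0) (nat_lit 40363929651150) (nat_lit 76) (nat_lit 5294317121027) (nat_lit 76) (nat_lit 5288889554036) (nat_lit 1) (nat_lit 4) (nat_lit 2) (nat_lit 5) (nat_lit 2) (nat_lit 4) (nat_lit 424) (nat_lit 340) (nat_lit 256))))) (XT.nd (nat_lit 46566) (nat_lit 0) (nat_lit 8284) (XT.nd (nat_lit 78) (nat_lit 0) (nat_lit 0) (XT.lf (nat_lit 0) (nat_lit 46671667031423) (nat_lit 76) (nat_lit 5956599709088) (nat_lit 76) (nat_lit 5951172136456) (nat_lit 1) (nat_lit 4) (nat_lit 2) (nat_lit 5) (nat_lit 2) (nat_lit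 4) (nat_lit 425) (nat_lit 340) (nat_lit 255)) (XT.nd (nat_lit 78) (nat_lit 0) (nat_lit 0) (XT.lf (nat_lit 0) (nat_lit 53925564526829) (nat_lit 76) (nat_lit 6718224940011) (nat_lit 76) (nat_lit 6712797362473) (nat_lit 1) (nat_lit 4) (nat_lit 2) (nat_lit 5) (nat_lit 2) (nat_lit 4) (nat_lit 426) (nat_lit 340) (nat_lit 254)) (XT.lf (nat_lit 0) (nat_lit 62267546218800) (nat_lit 76) (nat_lit 7594094177010) (nat_lit 76) (nat_lit 7588666595206) (nat_lit 1) (nat_lit 4) (nat_lit 2) (nat_lit 5) (nat_lit 2) (nat_lit 4) (nat_lit 427) (nat_lit 340) (nat_lit 253)))) (XT.nd (nat_lit 78) (nat_lit 228) (nat_lit 0) (XT.lf (nat_lit 0) (nat_lit 2026283529) (nat_lit 228) (nat_lit 620223835) (nat_lit 228) (nat_lit 620223835) (nat_lit 113) (nat_lit 3) (nat_lit 116) (nat_lit 3) (nat_lit 116) (nat_lit 5) (nat_lit 341) (nat_lit 341) (nat_lit 338)) (XT.nd (nat_lit 78) (nat_lit 0) (nat_lit 0) (XT.lf (nat_lit 0) (nat_lit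 2079038610) (nat_lit 228) (nat_lit 1695949669) (nat_lit 304) (nat_lit 2883749943) (nat_lit 110) (nat_lit 5) (nat_lit 113) (nat_lit 3) (nat_lit 114) (nat_lit 5) (nat_lit 342) (nat_lit 341) (nat_lit 337)) (XT.lf (nat_lit 76) (nat_lit 5070161461) (nat_lit 0) (nat_lit 1458908943) (nat_lit 304) (nat_lit 320492322) (nat_lit 111) (nat_lit 5) (nat_lit 110) (nat_lit 5) (nat_lit 114) (nat_lit 5) (nat_lit 343) (nat_lit 341) (nat_lit 336))))))) (XT.nd (nat_lit 780) (nat_lit 1672) (nat_lit 0) (XT.nd (nat_lit 390) (nat_lit 1368) (nat_lit 0) (XT.nd (nat_lit 156) (nat_lit 1672) (nat_lit 0) (XT.nd (nat_lit 78) (nat_lit 380) (nat_lit 0) (XT.lf (nat_lit 0) (nat_lit 3842065847) (nat_lit 304) (nat_lit 1573966838) (nat_lit 76) (nat_lit 1684817145) (nat_lit 107) (nat_lit 5) (nat_lit 111) (nat_lit 5) (nat_lit 108) (nat_lit 5) (nat_lit 344) (nat_lit 341) (nat_lit 335)) (XT.lf (nat_lit 0) (nat_lit 754094080) (nat_lit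 380) (nat_lit 1017442491) (nat_lit 76) (nat_lit 5647833571) (nat_lit 102) (nat_lit 5) (nat_lit 107) (nat_lit 5) (nat_lit 103) (nat_lit 5) (nat_lit 345) (nat_lit 341) (nat_lit 334))) (XT.nd (nat_lit 78) (nat_lit 1292) (nat_lit 0) (XT.lf (nat_lit 0) (nat_lit 4896612981) (nat_lit 456) (nat_lit 182738812) (nat_lit 76) (nat_lit 2721978085) (nat_lit 97) (nat_lit 5) (nat_lit 103) (nat_lit 5) (nat_lit 98) (nat_lit 5) (nat_lit 346) (nat_lit 341) (nat_lit 333)) (XT.nd (nat_lit 78) (nat_lit 228) (nat_lit 0) (XT.lf (nat_lit 0) (nat_lit 1065524173) (nat_lit 532) (nat_lit 88016372) (nat_lit 608) (nat_lit 7100008836) (nat_lit 83) (nat_lit 5) (nat_lit 90) (nat_lit 5) (nat_lit 91) (nat_lit 5) (nat_lit 347) (nat_lit 341) (nat_lit 332)) (XT.lf (nat_lit 0) (nat_lit 2583008393) (nat_lit 228) (nat_lit 3026985809) (nat_lit 304) (nat_lit 3160716188) (nat_lit 80) (nat_lit 5) (nat_lit 83) (nat_lit 5) (nat_lit 84) (nat_lit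 5) (nat_lit 348) (nat_lit 341) (nat_lit 331))))) (XT.nd (nat_lit 156) (nat_lit 836) (nat_lit 0) (XT.nd (nat_lit 78) (nat_lit 228) (nat_lit 0) (XT.lf (nat_lit 0) (nat_lit 1264273023) (nat_lit 304) (nat_lit 4874718728) (nat_lit 76) (nat_lit 3226802752) (nat_lit 76) (nat_lit 5) (nat_lit 80) (nat_lit 5) (nat_lit 77) (nat_lit 5) (nat_lit 349) (nat_lit 341) (nat_lit 330)) (XT.lf (nat_lit 0) (nat_lit 6215672733) (nat_lit 304) (nat_lit 3282680660) (nat_lit 76) (nat_lit 541277387) (nat_lit 73) (nat_lit 5) (nat_lit 77) (nat_lit 5) (nat_lit 74) (nat_lit 5) (nat_lit 350) (nat_lit 341) (nat_lit 329))) (XT.nd (nat_lit 78) (nat_lit 532) (nat_lit 0) (XT.lf (nat_lit 0) (nat_lit 1225680011) (nat_lit 304) (nat_lit 1392860580) (nat_lit 76) (nat_lit 8179110380) (nat_lit 69) (nat_lit 5) (nat_lit 73) (nat_lit 5) (nat_lit 70) (nat_lit 5) (nat_lit 351) (nat_lit 341) (nat_lit 328)) (XT.nd (nat_lit 78) (nat_lit 228)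 (nat_lit 0) (XT.lf (nat_lit 0) (nat_lit 840981999) (nat_lit 152) (nat_lit 6196490120) (nat_lit 228) (nat_lit 4605495390) (nat_lit 65) (nat_lit 5) (nat_lit 67) (nat_lit 5) (nat_lit 68) (nat_lit 5) (nat_lit 352) (nat_lit 341) (nat_lit 327)) (XT.lf (nat_lit 0) (nat_lit 1354255304) (nat_lit 228) (nat_lit 8987584207) (nat_lit 76) (nat_lit 2246847725) (nat_lit 62) (nat_lit 5) (nat_lit 65) (nat_lit 5) (nat_lit 63) (nat_lit 5) (nat_lit 353) (nat_lit 341) (nat_lit 326)))))) (XT.nd (nat_lit 390) (nat_lit 836) (nat_lit 0) (XT.nd (nat_lit 156) (nat_lit 532) (nat_lit 0) (XT.nd (nat_lit 78) (nat_lit 152) (nat_lit 0) (XT.lf (nat_lit 0) (nat_lit 6734357801) (nat_lit 152) (nat_lit 1569616962) (nat_lit 228) (nat_lit 5333244759) (nat_lit 60) (nat_lit 5) (nat_lit 62) (nat_lit 5) (nat_lit 63) (nat_lit 5) (nat_lit 354) (nat_lit 341) (nat_lit 325)) (XT.lf (nat_lit 0) (nat_lit 1845175645) (nat_lit 152) (nat_lit 4449633292)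 (nat_lit 76) (nat_lit 8508263879) (nat_lit 58) (nat_lit 5) (nat_lit 60) (nat_lit 5) (nat_lit 59) (nat_lit 5) (nat_lit 355) (nat_lit 341) (nat_lit 324))) (XT.nd (nat_lit 78) (nat_lit 380) (nat_lit 0) (XT.lf (nat_lit 0) (nat_lit 10250375828) (nat_lit 228) (nat_lit 1605925739) (nat_lit 76) (nat_lit 4239170613) (nat_lit 56) (nat_lit 5) (nat_lit 59) (nat_lit 5) (nat_lit 57) (nat_lit 4) (nat_lit 356) (nat_lit 341) (nat_lit 323)) (XT.nd (nat_lit 78) (nat_lit 76) (nat_lit 0) (XT.lf (nat_lit 0) (nat_lit 1845789216) (nat_lit 152) (nat_lit 971676889) (nat_lit 228) (nat_lit 14711814873) (nat_lit 52) (nat_lit 5) (nat_lit 54) (nat_lit 5) (nat_lit 55) (nat_lit 5) (nat_lit 357) (nat_lit 341) (nat_lit 322)) (XT.lf (nat_lit 0) (nat_lit 5796964745) (nat_lit 76) (nat_lit 7414801055) (nat_lit 152) (nat_lit 5891983960) (nat_lit 51) (nat_lit 5) (nat_lit 52) (nat_lit 5) (nat_lit 53) (nat_lit 4) (nat_lit 358) (nat_lit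 341) (nat_lit 321))))) (XT.nd (nat_lit 234) (nat_lit 380) (nat_lit 0) (XT.nd (nat_lit 78) (nat_lit 228) (nat_lit 0) (XT.lf (nat_lit 0) (nat_lit 4718587620) (nat_lit 228) (nat_lit 10433081115) (nat_lit 76) (nat_lit 5700116956) (nat_lit 48) (nat_lit 5) (nat_lit 51) (nat_lit 5) (nat_lit 49) (nat_lit 4) (nat_lit 359) (nat_lit 341) (nat_lit 320)) (XT.nd (nat_lit 78) (nat_lit 152) (nat_lit 0) (XT.lf (nat_lit 0) (nat_lit 15722195865) (nat_lit 76) (nat_lit 1642290400) (nat_lit 152) (nat_lit 5421895761) (nat_lit 47) (nat_lit 5) (nat_lit 48) (nat_lit 5) (nat_lit 49) (nat_lit 4) (nat_lit 360) (nat_lit 341) (nat_lit 319)) (XT.lf (nat_lit 0) (nat_lit 7564266912) (nat_lit 152) (nat_lit 3270767742) (nat_lit 76) (nat_lit 14081819887) (nat_lit 45) (nat_lit 5) (nat_lit 47) (nat_lit 5) (nat_lit 46) (nat_lit 4) (nat_lit 361) (nat_lit 341) (nat_lit 318)))) (XT.nd (nat_lit 78) (nat_lit 228) (nat_lit 0) (XT.lf (nat_lit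 0) (nat_lit 1283142774) (nat_lit 76) (nat_lit 21844616814) (nat_lit 76) (nat_lit 4151841652) (nat_lit 43) (nat_lit 4) (nat_lit 44) (nat_lit 5) (nat_lit 44) (nat_lit 4) (nat_lit 362) (nat_lit 341) (nat_lit 317)) (XT.nd (nat_lit 78) (nat_lit 76) (nat_lit 0) (XT.lf (nat_lit 0) (nat_lit 6582104508) (nat_lit 76) (nat_lit 5128673240) (nat_lit 152) (nat_lit 18166088143) (nat_lit 41) (nat_lit 5) (nat_lit 42) (nat_lit 5) (nat_lit 43) (nat_lit 4) (nat_lit 363) (nat_lit 341) (nat_lit 316)) (XT.lf (nat_lit 0) (nat_lit 12666924743) (nat_lit 76) (nat_lit 18306819398) (nat_lit 76) (nat_lit 1780009222) (nat_lit 40) (nat_lit 4) (nat_lit 41) (nat_lit 5) (nat_lit 41) (nat_lit 4) (nat_lit 364) (nat_lit 341) (nat_lit 315))))))))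
noncomputable def xc48 : XT := (XT.nd (nat_lit 1638) (nat_lit 684) (nat_lit 0) (XT.nd (nat_lit 780) (nat_lit 988) (nat_lit 0) (XT.nd (nat_lit 390) (nat_lit 608) (nat_lit 0) (XT.nd (nat_lit 156) (nat_lit 380) (nat_lit 0) (XT.nd (nat_lit 78) (nat_lit 152) (nat_lit 0) (XT.lf (nat_lit 0) (nat_lit 17420119987) (nat_lit 152) (nat_lit 16449083154) (nat_lit 0) (nat_lit 2063362652) (nat_lit 38) (nat_lit 5) (nat_lit 40) (nat_lit 4) (nat_lit 38) (nat_lit 4) (nat_lit 365) (nat_lit 341) (nat_lit 314)) (XT.lf (nat_lit 0) (nat_lit 1484789432) (nat_lit 152) (nat_lit 12315486899) (nat_lit 76) (nat_lit 25651397531) (nat_lit 36) (nat_lit 5) (nat_lit 38) (nat_lit 5) (nat_lit 37) (nat_lit 4) (nat_lit 366) (nat_lit 341) (nat_lit 313))) (XT.nd (nat_lit 78) (nat_lit 304) (nat_lit 0) (XT.lf (nat_lit 0) (nat_lit 24906232696) (nat_lit 152) (nat_lit 7826795001) (nat_lit 0) (nat_lit 10605493696) (nat_lit 35) (nat_lit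 5) (nat_lit 37) (nat_lit 4) (nat_lit 35) (nat_lit 4) (nat_lit 367) (nat_lit 341) (nat_lit 312)) (XT.nd (nat_lit 78) (nat_lit 152) (nat_lit 0) (XT.lf (nat_lit 0) (nat_lit 5586723500) (nat_lit 152) (nat_lit 2713324491) (nat_lit 76) (nat_lit 39360115199) (nat_lit 33) (nat_lit 5) (nat_lit 35) (nat_lit 5) (nat_lit 34) (nat_lit 4) (nat_lit 368) (nat_lit 341) (nat_lit 311)) (XT.lf (nat_lit 0) (nat_lit 2663855853) (nat_lit 76) (nat_lit 31530125959) (nat_lit 76) (nat_lit 18231626643) (nat_lit 31) (nat_lit 4) (nat_lit 32) (nat_lit 5) (nat_lit 32) (nat_lit 4) (nat_lit 369) (nat_lit 341) (nat_lit 310))))) (XT.nd (nat_lit 156) (nat_lit 380) (nat_lit 0) (XT.nd (nat_lit 78) (nat_lit 76) (nat_lit 0) (XT.lf (nat_lit 0) (nat_lit 8819547996) (nat_lit 76) (nat_lit 1825226503) (nat_lit 152) (nat_lit 47089993554) (nat_lit 29) (nat_lit 5) (nat_lit 30) (nat_lit 5) (nat_lit 31) (nat_lit 4) (nat_lit 370) (nat_lit 341)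 (nat_lit 309)) (XT.lf (nat_lit 0) (nat_lit 14671520592) (nat_lit 76) (nat_lit 30640582175) (nat_lit 76) (nat_lit 18287197269) (nat_lit 28) (nat_lit 4) (nat_lit 29) (nat_lit 5) (nat_lit 29) (nat_lit 4) (nat_lit 371) (nat_lit 341) (nat_lit 308))) (XT.nd (nat_lit 78) (nat_lit 228) (nat_lit 0) (XT.lf (nat_lit 0) (nat_lit 16125085116) (nat_lit 152) (nat_lit 49355583706) (nat_lit 0) (nat_lit 4671801291) (nat_lit 26) (nat_lit 5) (nat_lit 28) (nat_lit 4) (nat_lit 26) (nat_lit 4) (nat_lit 372) (nat_lit 341) (nat_lit 307)) (XT.nd (nat_lit 78) (nat_lit 152) (nat_lit 0) (XT.lf (nat_lit 0) (nat_lit 26089042882) (nat_lit 76) (nat_lit 31399067015) (nat_lit 76) (nat_lit 19932770612) (nat_lit 25) (nat_lit 4) (nat_lit 26) (nat_lit 5) (nat_lit 26) (nat_lit 4) (nat_lit 373) (nat_lit 341) (nat_lit 306)) (XT.lf (nat_lit 0) (nat_lit 20698050185) (nat_lit 152) (nat_lit 54782881365) (nat_lit 0) (nat_lit 10070631954)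 (nat_lit 23) (nat_lit 5) (nat_lit 25) (nat_lit 4) (nat_lit 23) (nat_lit 4) (nat_lit 374) (nat_lit 341) (nat_lit 305)))))) (XT.nd (nat_lit 390) (nat_lit 456) (nat_lit 0) (XT.nd (nat_lit 156) (nat_lit 304) (nat_lit 0) (XT.nd (nat_lit 78) (nat_lit 152) (nat_lit 0) (XT.lf (nat_lit 0) (nat_lit 33559081056) (nat_lit 76) (nat_lit 35842601940) (nat_lit 76) (nat_lit 25206073173) (nat_lit 22) (nat_lit 4) (nat_lit 23) (nat_lit 5) (nat_lit 23) (nat_lit 4) (nat_lit 375) (nat_lit 341) (nat_lit 304)) (XT.lf (nat_lit 0) (nat_lit 22067799829) (nat_lit 152) (nat_lit 70487585592) (nat_lit 0) (nat_lit 12211826706) (nat_lit 20) (nat_lit 5) (nat_lit 22) (nat_lit 4) (nat_lit 20) (nat_lit 4) (nat_lit 376) (nat_lit 341) (nat_lit 303))) (XT.nd (nat_lit 78) (nat_lit 228) (nat_lit 0) (XT.lf (nat_lit 0) (nat_lit 30958176635) (nat_lit 76) (nat_lit 47510073718) (nat_lit 76) (nat_lit 37647722008) (nat_lit 19) (nat_lit 4)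 (nat_lit 20) (nat_lit 5) (nat_lit 20) (nat_lit 4) (nat_lit 377) (nat_lit 341) (nat_lit 302)) (XT.nd (nat_lit 78) (nat_lit 76) (nat_lit 0) (XT.lf (nat_lit 0) (nat_lit 16234982823) (nat_lit 152) (nat_lit 105584241933) (nat_lit 0) (nat_lit 7098039945) (nat_lit 17) (nat_lit 5) (nat_lit 19) (nat_lit 4) (nat_lit 17) (nat_lit 4) (nat_lit 378) (nat_lit 341) (nat_lit 301)) (XT.lf (nat_lit 0) (nat_lit 7642839772) (nat_lit 76) (nat_lit 72367951022) (nat_lit 76) (nat_lit 63226542285) (nat_lit 16) (nat_lit 4) (nat_lit 17) (nat_lit 5) (nat_lit 17) (nat_lit 4) (nat_lit 379) (nat_lit 341) (nat_lit 300))))) (XT.nd (nat_lit 234) (nat_lit 228) (nat_lit 0) (XT.nd (nat_lit 78) (nat_lit 228) (nat_lit 0) (XT.lf (nat_lit 0) (nat_lit 144125381269) (nat_lit 76) (nat_lit 12242081650) (nat_lit 76) (nat_lit 3096789556) (nat_lit 16) (nat_lit 4) (nat_lit 17) (nat_lit 5) (nat_lit 17) (nat_lit 4) (nat_lit 380) (nat_lit 341)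 (nat_lit 299)) (XT.nd (nat_lit 78) (nat_lit 76) (nat_lit 0) (XT.lf (nat_lit 0) (nat_lit 67253110794) (nat_lit 152) (nat_lit 51602501541) (nat_lit 0) (nat_lit 58782121048) (nat_lit 14) (nat_lit 5) (nat_lit 16) (nat_lit 4) (nat_lit 14) (nat_lit 4) (nat_lit 381) (nat_lit 341) (nat_lit 298)) (XT.lf (nat_lit 0) (nat_lit 95270097092) (nat_lit 76) (nat_lit 55745469216) (nat_lit 76) (nat_lit 47271760604) (nat_lit 13) (nat_lit 4) (nat_lit 14) (nat_lit 5) (nat_lit 14) (nat_lit 4) (nat_lit 382) (nat_lit 341) (nat_lit 297)))) (XT.nd (nat_lit 78) (nat_lit 76) (nat_lit 0) (XT.lf (nat_lit 0) (nat_lit 27155582433) (nat_lit 152) (nat_lit 175273632655) (nat_lit 0) (nat_lit 19307366838) (nat_lit 11) (nat_lit 5) (nat_lit 13) (nat_lit 4) (nat_lit 11) (nat_lit 4) (nat_lit 383) (nat_lit 341) (nat_lit 296)) (XT.nd (nat_lit 78) (nat_lit 76) (nat_lit 0) (XT.lf (nat_lit 0) (nat_lit 114602654593) (nat_lit 152) (nat_lit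 26877436762) (nat_lit 0) (nat_lit 106752535430) (nat_lit 11) (nat_lit 5) (nat_lit 13) (nat_lit 4) (nat_lit 11) (nat_lit 4) (nat_lit 384) (nat_lit 341) (nat_lit 295)) (XT.lf (nat_lit 0) (nat_lit 151266350958) (nat_lit 76) (nat_lit 67500258110) (nat_lit 76) (nat_lit 59648483670) (nat_lit 10) (nat_lit 4) (nat_lit 11) (nat_lit 5) (nat_lit 11) (nat_lit 4) (nat_lit 385) (nat_lit 341) (nat_lit 294))))))) (XT.nd (nat_lit 780) (nat_lit 228) (nat_lit 0) (XT.nd (nat_lit 390) (nat_lit 76) (nat_lit 0) (XT.nd (nat_lit 156) (nat_lit 228) (nat_lit 0) (XT.nd (nat_lit 78) (nat_lit 0) (nat_lit 0) (XT.lf (nat_lit 0) (nat_lit 26526294281) (nat_lit 152) (nat_lit 267105451421) (nat_lit 0) (nat_lit 19254800012) (nat_lit 8) (nat_lit 5) (nat_lit 10) (nat_lit 4) (nat_lit 8) (nat_lit 4) (nat_lit 386) (nat_lit 341) (nat_lit 293)) (XT.lf (nat_lit 0) (nat_lit 127827086199) (nat_lit 152) (nat_lit 103564720328) (nat_lit 0)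 (nat_lit 120554433016) (nat_lit 8) (nat_lit 5) (nat_lit 10) (nat_lit 4) (nat_lit 8) (nat_lit 4) (nat_lit 387) (nat_lit 341) (nat_lit 292))) (XT.nd (nat_lit 78) (nat_lit 152) (nat_lit 0) (XT.lf (nat_lit 0) (nat_lit 88893476086) (nat_lit 76) (nat_lit 157538189428) (nat_lit 76) (nat_lit 150264528495) (nat_lit 7) (nat_lit 4) (nat_lit 8) (nat_lit 5) (nat_lit 8) (nat_lit 4) (nat_lit 388) (nat_lit 341) (nat_lit 291)) (XT.nd (nat_lit 78) (nat_lit 152) (nat_lit 0) (XT.lf (nat_lit 0) (nat_lit 316436628064) (nat_lit 76) (nat_lit 69378738057) (nat_lit 76) (nat_lit 62104200818) (nat_lit 7) (nat_lit 4) (nat_lit 8) (nat_lit 5) (nat_lit 8) (nat_lit 4) (nat_lit 389) (nat_lit 341) (nat_lit 290)) (XT.lf (nat_lit 0) (nat_lit 39910734758) (nat_lit 152) (nat_lit 433458148405) (nat_lit 0) (nat_lit 33174346570) (nat_lit 5) (nat_lit 5) (nat_lit 7) (nat_lit 4) (nat_lit 5) (nat_lit 4) (nat_lit 390) (nat_lit 341) (nat_lit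 289))))) (XT.nd (nat_lit 156) (nat_lit 76) (nat_lit 0) (XT.nd (nat_lit 78) (nat_lit 0) (nat_lit 0) (XT.lf (nat_lit 0) (nat_lit 159479064099) (nat_lit 152) (nat_lit 261135994597) (nat_lit 0) (nat_lit 152742062380) (nat_lit 5) (nat_lit 5) (nat_lit 7) (nat_lit 4) (nat_lit 5) (nat_lit 4) (nat_lit 391) (nat_lit 341) (nat_lit 288)) (XT.lf (nat_lit 0) (nat_lit 296963169619) (nat_lit 152) (nat_lit 63005849990) (nat_lit 0) (nat_lit 290225634396) (nat_lit 5) (nat_lit 5) (nat_lit 7) (nat_lit 4) (nat_lit 5) (nat_lit 4) (nat_lit 392) (nat_lit 341) (nat_lit 287))) (XT.nd (nat_lit 78) (nat_lit 0) (nat_lit 0) (XT.lf (nat_lit 0) (nat_lit 173487281197) (nat_lit 76) (nat_lit 285738049818) (nat_lit 76) (nat_lit 279000050678) (nat_lit 4) (nat_lit 4) (nat_lit 5) (nat_lit 5) (nat_lit 5) (nat_lit 4) (nat_lit 393) (nat_lit 341) (nat_lit 286)) (XT.nd (nat_lit 78) (nat_lit 0) (nat_lit 0) (XT.lf (nat_lit 0) (nat_lit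 449237722019) (nat_lit 76) (nat_lit 198407945506) (nat_lit 76) (nat_lit 191669542959) (nat_lit 4) (nat_lit 4) (nat_lit 5) (nat_lit 5) (nat_lit 5) (nat_lit 4) (nat_lit 394) (nat_lit 341) (nat_lit 285)) (XT.lf (nat_lit 0) (nat_lit 766322813389) (nat_lit 76) (nat_lit 97992765791) (nat_lit 76) (nat_lit 91254012457) (nat_lit 4) (nat_lit 4) (nat_lit 5) (nat_lit 5) (nat_lit 5) (nat_lit 4) (nat_lit 395) (nat_lit 341) (nat_lit 284)))))) (XT.nd (nat_lit 390) (nat_lit 76) (nat_lit 0) (XT.nd (nat_lit 156) (nat_lit 0) (nat_lit 0) (XT.nd (nat_lit 78) (nat_lit 0) (nat_lit 0) (XT.lf (nat_lit 0) (nat_lit 24502939662) (nat_lit 152) (nat_lit 1046330243423) (nat_lit 0) (nat_lit 18263070803) (nat_lit 2) (nat_lit 5) (nat_lit 4) (nat_lit 4) (nat_lit 2) (nat_lit 4) (nat_lit 396) (nat_lit 341) (nat_lit 283)) (XT.lf (nat_lit 0) (nat_lit 160725582505) (nat_lit 152) (nat_lit 926570813908) (nat_lit 0) (nat_lit 154485468048)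 (nat_lit 2) (nat_lit 5) (nat_lit 4) (nat_lit 4) (nat_lit 2) (nat_lit 4) (nat_lit 397) (nat_lit 341) (nat_lit 282))) (XT.nd (nat_lit 78) (nat_lit 0) (nat_lit 0) (XT.lf (nat_lit 0) (nat_lit 317371807868) (nat_lit 152) (nat_lit 788867814028) (nat_lit 0) (nat_lit 311131479848) (nat_lit 2) (nat_lit 5) (nat_lit 4) (nat_lit 4) (nat_lit 2) (nat_lit 4) (nat_lit 398) (nat_lit 341) (nat_lit 281)) (XT.nd (nat_lit 78) (nat_lit 0) (nat_lit 0) (XT.lf (nat_lit 0) (nat_lit 497506433205) (nat_lit 152) (nat_lit 630527054654) (nat_lit 0) (nat_lit 491265919477) (nat_lit 2) (nat_lit 5) (nat_lit 4) (nat_lit 4) (nat_lit 2) (nat_lit 4) (nat_lit 399) (nat_lit 341) (nat_lit 280)) (XT.lf (nat_lit 0) (nat_lit 704653831618) (nat_lit 152) (nat_lit 448450564407) (nat_lit 0) (nat_lit 698413156406) (nat_lit 2) (nat_lit 5) (nat_lit 4) (nat_lit 4) (nat_lit 2) (nat_lit 4) (nat_lit 400) (nat_lit 341) (nat_lit 279))))) (XT.nd (nat_lit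 234) (nat_lit 0) (nat_lit 0) (XT.nd (nat_lit 78) (nat_lit 76) (nat_lit 0) (XT.lf (nat_lit 0) (nat_lit 942866886992) (nat_lit 152) (nat_lit 239075977174) (nat_lit 0) (nat_lit 936626071357) (nat_lit 2) (nat_lit 5) (nat_lit 4) (nat_lit 4) (nat_lit 2) (nat_lit 4) (nat_lit 401) (nat_lit 341) (nat_lit 278)) (XT.nd (nat_lit 78) (nat_lit 0) (nat_lit 0) (XT.lf (nat_lit 0) (nat_lit 1782325500) (nat_lit 76) (nat_lit 1215066829009) (nat_lit 76) (nat_lit 1208825891269) (nat_lit 1) (nat_lit 4) (nat_lit 2) (nat_lit 5) (nat_lit 2) (nat_lit 4) (nat_lit 402) (nat_lit 341) (nat_lit 277)) (XT.lf (nat_lit 0) (nat_lit 293236441236) (nat_lit 76) (nat_lit 1245647625449) (nat_lit 76) (nat_lit 1239406581530) (nat_lit 1) (nat_lit 4) (nat_lit 2) (nat_lit 5) (nat_lit 2) (nat_lit 4) (nat_lit 403) (nat_lit 341) (nat_lit 276)))) (XT.nd (nat_lit 78) (nat_lit 0) (nat_lit 0) (XT.lf (nat_lit 0) (nat_lit 628399415888) (nat_lit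 76) (nat_lit 1280820334310) (nat_lit 76) (nat_lit 1274579198062) (nat_lit 1) (nat_lit 4) (nat_lit 2) (nat_lit 5) (nat_lit 2) (nat_lit 4) (nat_lit 404) (nat_lit 341) (nat_lit 275)) (XT.nd (nat_lit 78) (nat_lit 0) (nat_lit 0) (XT.lf (nat_lit 0) (nat_lit 1013828785917) (nat_lit 76) (nat_lit 1321273117288) (nat_lit 76) (nat_lit 1315031900754) (nat_lit 1) (nat_lit 4) (nat_lit 2) (nat_lit 5) (nat_lit 2) (nat_lit 4) (nat_lit 405) (nat_lit 341) (nat_lit 274)) (XT.lf (nat_lit 0) (nat_lit 1457065560737) (nat_lit 76) (nat_lit 1367797441877) (nat_lit 76) (nat_lit 1361556155528) (nat_lit 1) (nat_lit 4) (nat_lit 2) (nat_lit 5) (nat_lit 2) (nat_lit 4) (nat_lit 406) (nat_lit 341) (nat_lit 273))))))))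
noncomputable def xc49 : XT := (XT.nd (nat_lit 48048) (nat_lit 0) (nat_lit 3344) (XT.nd (nat_lit 780) (nat_lit 0) (nat_lit 0) (XT.nd (nat_lit 390) (nat_lit 0) (nat_lit 0) (XT.nd (nat_lit 156) (nat_lit 0) (nat_lit 0) (XT.nd (nat_lit 78) (nat_lit 0) (nat_lit 0) (XT.lf (nat_lit 0) (nat_lit 1966781764202) (nat_lit 76) (nat_lit 1421303566599) (nat_lit 76) (nat_lit 1415062219542) (nat_lit 1) (nat_lit 4) (nat_lit 2) (nat_lit 5) (nat_lit 2) (nat_lit 4) (nat_lit 407) (nat_lit 341) (nat_lit 272)) (XT.lf (nat_lit 0) (nat_lit 2552950104641) (nat_lit 76) (nat_lit 1482838350419) (nat_lit 76) (nat_lit 1476596950572) (nat_lit 1) (nat_lit 4) (nat_lit 2) (nat_lit 5) (nat_lit 2) (nat_lit 4) (nat_lit 408) (nat_lit 341) (nat_lit 271))) (XT.nd (nat_lit 78) (nat_lit 0) (nat_lit 0) (XT.lf (nat_lit 0) (nat_lit 3227039093064) (nat_lit 76) (nat_lit 1553605734757) (nat_lit 76) (nat_lit 1547364289006) (nat_lit 1) (nat_lit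 4) (nat_lit 2) (nat_lit 5) (nat_lit 2) (nat_lit 4) (nat_lit 409) (nat_lit 341) (nat_lit 270)) (XT.nd (nat_lit 78) (nat_lit 0) (nat_lit 0) (XT.lf (nat_lit 0) (nat_lit 4002237427069) (nat_lit 76) (nat_lit 1634990298873) (nat_lit 76) (nat_lit 1628748813205) (nat_lit 1) (nat_lit 4) (nat_lit 2) (nat_lit 5) (nat_lit 2) (nat_lit 4) (nat_lit 410) (nat_lit 341) (nat_lit 269)) (XT.lf (nat_lit 0) (nat_lit 4893712030582) (nat_lit 76) (nat_lit 1728584349456) (nat_lit 76) (nat_lit 1722342829078) (nat_lit 1) (nat_lit 4) (nat_lit 2) (nat_lit 5) (nat_lit 2) (nat_lit 4) (nat_lit 411) (nat_lit 341) (nat_lit 268))))) (XT.nd (nat_lit 156) (nat_lit 0) (nat_lit 0) (XT.nd (nat_lit 78) (nat_lit 0) (nat_lit 0) (XT.lf (nat_lit 0) (nat_lit 5918904798021) (nat_lit 76) (nat_lit 1836219074452) (nat_lit 76) (nat_lit 1829977523892) (nat_lit 1) (nat_lit 4) (nat_lit 2) (nat_lit 5) (nat_lit 2) (nat_lit 4) (nat_lit 412) (nat_lit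 341) (nat_lit 267)) (XT.lf (nat_lit 0) (nat_lit 7097873848748) (nat_lit 76) (nat_lit 1960000370655) (nat_lit 76) (nat_lit 1953758793849) (nat_lit 1) (nat_lit 4) (nat_lit 2) (nat_lit 5) (nat_lit 2) (nat_lit 4) (nat_lit 413) (nat_lit 341) (nat_lit 266))) (XT.nd (nat_lit 78) (nat_lit 0) (nat_lit 0) (XT.lf (nat_lit 0) (nat_lit 8453685968538) (nat_lit 76) (nat_lit 2102350046034) (nat_lit 76) (nat_lit 2096108446406) (nat_lit 1) (nat_lit 4) (nat_lit 2) (nat_lit 5) (nat_lit 2) (nat_lit 4) (nat_lit 414) (nat_lit 341) (nat_lit 265)) (XT.nd (nat_lit 78) (nat_lit 0) (nat_lit 0) (XT.lf (nat_lit 0) (nat_lit 10012867916257) (nat_lit 76) (nat_lit 2266053202933) (nat_lit 76) (nat_lit 2259811583459) (nat_lit 1) (nat_lit 4) (nat_lit 2) (nat_lit 5) (nat_lit 2) (nat_lit 4) (nat_lit 415) (nat_lit 341) (nat_lit 264)) (XT.lf (nat_lit 0) (nat_lit 11805925425664) (nat_lit 76) (nat_lit 2454312729205) (nat_lit 76) (nat_lit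 2448071092474) (nat_lit 1) (nat_lit 4) (nat_lit 2) (nat_lit 5) (nat_lit 2) (nat_lit 4) (nat_lit 416) (nat_lit 341) (nat_lit 263)))))) (XT.nd (nat_lit 390) (nat_lit 0) (nat_lit 0) (XT.nd (nat_lit 156) (nat_lit 0) (nat_lit 0) (XT.nd (nat_lit 78) (nat_lit 0) (nat_lit 0) (XT.lf (nat_lit 0) (nat_lit 13867940056726) (nat_lit 76) (nat_lit 2670811963407) (nat_lit 76) (nat_lit 2664570311670) (nat_lit 1) (nat_lit 4) (nat_lit 2) (nat_lit 5) (nat_lit 2) (nat_lit 4) (nat_lit 417) (nat_lit 341) (nat_lit 262)) (XT.lf (nat_lit 0) (nat_lit 16239255573964) (nat_lit 76) (nat_lit 2919786760121) (nat_lit 76) (nat_lit 2913545095335) (nat_lit 1) (nat_lit 4) (nat_lit 2) (nat_lit 5) (nat_lit 2) (nat_lit 4) (nat_lit 418) (nat_lit 341) (nat_lit 261))) (XT.nd (nat_lit 78) (nat_lit 0) (nat_lit 0) (XT.lf (nat_lit 0) (nat_lit 18966267280976) (nat_lit 76) (nat_lit 3206108365370) (nat_lit 76) (nat_lit 3199866689237) (nat_lit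 1) (nat_lit 4) (nat_lit 2) (nat_lit 5) (nat_lit 2) (nat_lit 4) (nat_lit 419) (nat_lit 341) (nat_lit 260)) (XT.nd (nat_lit 78) (nat_lit 0) (nat_lit 0) (XT.lf (nat_lit 0) (nat_lit 22102329754639) (nat_lit 76) (nat_lit 3535378723604) (nat_lit 76) (nat_lit 3529137037605) (nat_lit 1) (nat_lit 4) (nat_lit 2) (nat_lit 5) (nat_lit 2) (nat_lit 4) (nat_lit 420) (nat_lit 341) (nat_lit 259)) (XT.lf (nat_lit 0) (nat_lit 25708800739001) (nat_lit 76) (nat_lit 3914040080964) (nat_lit 76) (nat_lit 3907798386384) (nat_lit 1) (nat_lit 4) (nat_lit 2) (nat_lit 5) (nat_lit 2) (nat_lit 4) (nat_lit 421) (nat_lit 341) (nat_lit 258))))) (XT.nd (nat_lit 234) (nat_lit 0) (nat_lit 0) (XT.nd (nat_lit 78) (nat_lit 0) (nat_lit 0) (XT.lf (nat_lit 0) (nat_lit 29856241622889) (nat_lit 76) (nat_lit 4349501029222) (nat_lit 76) (nat_lit 4343259327182) (nat_lit 1) (nat_lit 4) (nat_lit 2) (nat_lit 5) (nat_lit 2) (nat_lit 4) (nat_lit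 422) (nat_lit 341) (nat_lit 257)) (XT.nd (nat_lit 78) (nat_lit 0) (nat_lit 0) (XT.lf (nat_lit 0) (nat_lit 34625797988812) (nat_lit 76) (nat_lit 4850281456498) (nat_lit 76) (nat_lit 4844039747971) (nat_lit 1) (nat_lit 4) (nat_lit 2) (nat_lit 5) (nat_lit 2) (nat_lit 4) (nat_lit 423) (nat_lit 341) (nat_lit 256)) (XT.lf (nat_lit 0) (nat_lit 40110787243929) (nat_lit 76) (nat_lit 5426179240716) (nat_lit 76) (nat_lit 5419937526547) (nat_lit 1) (nat_lit 4) (nat_lit 2) (nat_lit 5) (nat_lit 2) (nat_lit 4) (nat_lit 424) (nat_lit 341) (nat_lit 255)))) (XT.nd (nat_lit 78) (nat_lit 0) (nat_lit 0) (XT.lf (nat_lit 0) (nat_lit 46418524395408) (nat_lit 76) (nat_lit 6088461947220) (nat_lit 76) (nat_lit 6082220228146) (nat_lit 1) (nat_lit 4) (nat_lit 2) (nat_lit 5) (nat_lit 2) (nat_lit 4) (nat_lit 425) (nat_lit 341) (nat_lit 254)) (XT.nd (nat_lit 78) (nat_lit 0) (nat_lit 0) (XT.lf (nat_lit 0) (nat_lit 53672421691862)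 (nat_lit 76) (nat_lit 6850087281137) (nat_lit 76) (nat_lit 6843845557797) (nat_lit 1) (nat_lit 4) (nat_lit 2) (nat_lit 5) (nat_lit 2) (nat_lit 4) (nat_lit 426) (nat_lit 341) (nat_lit 253)) (XT.lf (nat_lit 0) (nat_lit 62014403210832) (nat_lit 76) (nat_lit 7725956607696) (nat_lit 76) (nat_lit 7719714880647) (nat_lit 1) (nat_lit 4) (nat_lit 2) (nat_lit 5) (nat_lit 2) (nat_lit 4) (nat_lit 427) (nat_lit 341) (nat_lit 252))))))) (XT.nd (nat_lit 780) (nat_lit 1900) (nat_lit 0) (XT.nd (nat_lit 390) (nat_lit 2052) (nat_lit 0) (XT.nd (nat_lit 156) (nat_lit 608) (nat_lit 0) (XT.nd (nat_lit 78) (nat_lit 380) (nat_lit 0) (XT.lf (nat_lit 0) (nat_lit 1512186622) (nat_lit 0) (nat_lit 1512186622) (nat_lit 228) (nat_lit 383927549) (nat_lit 110) (nat_lit 5) (nat_lit 110) (nat_lit 3) (nat_lit 113) (nat_lit 3) (nat_lit 342) (nat_lit 342) (nat_lit 336)) (XT.lf (nat_lit 76) (nat_lit 2650164961) (nat_lit 0) (nat_lit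 202889781) (nat_lit 380) (nat_lit 4184802860) (nat_lit 106) (nat_lit 5) (nat_lit 105) (nat_lit 3) (nat_lit 110) (nat_lit 5) (nat_lit 343) (nat_lit 342) (nat_lit 335))) (XT.nd (nat_lit 78) (nat_lit 684) (nat_lit 0) (XT.lf (nat_lit 76) (nat_lit 2618573712) (nat_lit 0) (nat_lit 3965603301) (nat_lit 380) (nat_lit 737633099) (nat_lit 107) (nat_lit 5) (nat_lit 106) (nat_lit 5) (nat_lit 111) (nat_lit 5) (nat_lit 344) (nat_lit 342) (nat_lit 334)) (XT.nd (nat_lit 78) (nat_lit 380) (nat_lit 0) (XT.lf (nat_lit 0) (nat_lit 2700026163) (nat_lit 380) (nat_lit 4728980751) (nat_lit 76) (nat_lit 242440914) (nat_lit 102) (nat_lit 5) (nat_lit 107) (nat_lit 5) (nat_lit 103) (nat_lit 5) (nat_lit 345) (nat_lit 342) (nat_lit 333)) (XT.lf (nat_lit 0) (nat_lit 3578260995) (nat_lit 380) (nat_lit 2859501964) (nat_lit 456) (nat_lit 1648062003) (nat_lit 97) (nat_lit 5) (nat_lit 102) (nat_lit 5) (nat_lit 103) (nat_lit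 5) (nat_lit 346) (nat_lit 342) (nat_lit 332))))) (XT.nd (nat_lit 156) (nat_lit 988) (nat_lit 0) (XT.nd (nat_lit 78) (nat_lit 532) (nat_lit 0) (XT.lf (nat_lit 0) (nat_lit 1920338044) (nat_lit 532) (nat_lit 4012512550) (nat_lit 76) (nat_lit 2636963665) (nat_lit 90) (nat_lit 5) (nat_lit 97) (nat_lit 5) (nat_lit 91) (nat_lit 5) (nat_lit 347) (nat_lit 342) (nat_lit 331)) (XT.lf (nat_lit 0) (nat_lit 5873369662) (nat_lit 608) (nat_lit 3233987529) (nat_lit 76) (nat_lit 19916225) (nat_lit 83) (nat_lit 5) (nat_lit 91) (nat_lit 5) (nat_lit 84) (nat_lit 5) (nat_lit 348) (nat_lit 342) (nat_lit 330))) (XT.nd (nat_lit 78) (nat_lit 684) (nat_lit 0) (XT.lf (nat_lit 0) (nat_lit 719678773) (nat_lit 304) (nat_lit 2204200538) (nat_lit 76) (nat_lit 6835162610) (nat_lit 79) (nat_lit 5) (nat_lit 83) (nat_lit 5) (nat_lit 80) (nat_lit 5) (nat_lit 349) (nat_lit 342) (nat_lit 329)) (XT.nd (nat_lit 78) (nat_lit 456) (nat_lit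 0) (XT.lf (nat_lit 0) (nat_lit 5204912992) (nat_lit 304) (nat_lit 907255530) (nat_lit 76) (nat_lit 4358019988) (nat_lit 76) (nat_lit 5) (nat_lit 80) (nat_lit 5) (nat_lit 77) (nat_lit 5) (nat_lit 350) (nat_lit 342) (nat_lit 328)) (XT.lf (nat_lit 0) (nat_lit 813622193) (nat_lit 228) (nat_lit 9741650781) (nat_lit 304) (nat_lit 717378785) (nat_lit 70) (nat_lit 5) (nat_lit 73) (nat_lit 5) (nat_lit 74) (nat_lit 5) (nat_lit 351) (nat_lit 342) (nat_lit 327)))))) (XT.nd (nat_lit 390) (nat_lit 988) (nat_lit 0) (XT.nd (nat_lit 156) (nat_lit 532) (nat_lit 0) (XT.nd (nat_lit 78) (nat_lit 152) (nat_lit 0) (XT.lf (nat_lit 0) (nat_lit 2869651366) (nat_lit 152) (nat_lit 1734226188) (nat_lit 228) (nat_lit 7557596693) (nat_lit 67) (nat_lit 5) (nat_lit 69) (nat_lit 5) (nat_lit 70) (nat_lit 5) (nat_lit 352) (nat_lit 342) (nat_lit 326)) (XT.lf (nat_lit 0) (nat_lit 5345354070) (nat_lit 152) (nat_lit 5693613230)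 (nat_lit 228) (nat_lit 2114534756) (nat_lit 65) (nat_lit 5) (nat_lit 67) (nat_lit 5) (nat_lit 68) (nat_lit 5) (nat_lit 353) (nat_lit 342) (nat_lit 325))) (XT.nd (nat_lit 78) (nat_lit 304) (nat_lit 0) (XT.lf (nat_lit 0) (nat_lit 4319928302) (nat_lit 228) (nat_lit 5998018341) (nat_lit 76) (nat_lit 3937847158) (nat_lit 62) (nat_lit 5) (nat_lit 65) (nat_lit 5) (nat_lit 63) (nat_lit 5) (nat_lit 354) (nat_lit 342) (nat_lit 324)) (XT.nd (nat_lit 78) (nat_lit 152) (nat_lit 0) (XT.lf (nat_lit 0) (nat_lit 11715049972) (nat_lit 152) (nat_lit 332216641) (nat_lit 228) (nat_lit 3435551714) (nat_lit 60) (nat_lit 5) (nat_lit 62) (nat_lit 5) (nat_lit 63) (nat_lit 5) (nat_lit 355) (nat_lit 342) (nat_lit 323)) (XT.lf (nat_lit 0) (nat_lit 4475411176) (nat_lit 152) (nat_lit 1207928611) (nat_lit 76) (nat_lit 11151781571) (nat_lit 58) (nat_lit 5) (nat_lit 60) (nat_lit 5) (nat_lit 59) (nat_lit 5) (nat_lit 356) (nat_lit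 342) (nat_lit 322))))) (XT.nd (nat_lit 234) (nat_lit 456) (nat_lit 0) (XT.nd (nat_lit 78) (nat_lit 304) (nat_lit 0) (XT.lf (nat_lit 0) (nat_lit 1965730763) (nat_lit 76) (nat_lit 12036790296) (nat_lit 152) (nat_lit 4329986885) (nat_lit 55) (nat_lit 5) (nat_lit 56) (nat_lit 5) (nat_lit 57) (nat_lit 4) (nat_lit 357) (nat_lit 342) (nat_lit 321)) (XT.nd (nat_lit 78) (nat_lit 76) (nat_lit 0) (XT.lf (nat_lit 0) (nat_lit 5357639926) (nat_lit 228) (nat_lit 14187860929) (nat_lit 76) (nat_lit 443672987) (nat_lit 52) (nat_lit 5) (nat_lit 55) (nat_lit 5) (nat_lit 53) (nat_lit 4) (nat_lit 358) (nat_lit 342) (nat_lit 320)) (XT.lf (nat_lit 0) (nat_lit 10164337520) (nat_lit 76) (nat_lit 6978036073) (nat_lit 152) (nat_lit 4670948615) (nat_lit 51) (nat_lit 5) (nat_lit 52) (nat_lit 5) (nat_lit 53) (nat_lit 4) (nat_lit 359) (nat_lit 342) (nat_lit 319)))) (XT.nd (nat_lit 78) (nat_lit 228) (nat_lit 0) (XT.lf (nat_lit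 0) (nat_lit 7280026343) (nat_lit 228) (nat_lit 8589926095) (nat_lit 76) (nat_lit 7961242567) (nat_lit 48) (nat_lit 5) (nat_lit 51) (nat_lit 5) (nat_lit 49) (nat_lit 4) (nat_lit 360) (nat_lit 342) (nat_lit 318)) (XT.nd (nat_lit 78) (nat_lit 152) (nat_lit 0) (XT.lf (nat_lit 0) (nat_lit 21200162287) (nat_lit 76) (nat_lit 455894334) (nat_lit 152) (nat_lit 4413273097) (nat_lit 47) (nat_lit 5) (nat_lit 48) (nat_lit 5) (nat_lit 49) (nat_lit 4) (nat_lit 361) (nat_lit 342) (nat_lit 317)) (XT.lf (nat_lit 0) (nat_lit 10307395261) (nat_lit 152) (nat_lit 729019954) (nat_lit 76) (nat_lit 17489241889) (nat_lit 45) (nat_lit 5) (nat_lit 47) (nat_lit 5) (nat_lit 46) (nat_lit 4) (nat_lit 362) (nat_lit 342) (nat_lit 316))))))))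
noncomputable def xc50 : XT := (XT.nd (nat_lit 1638) (nat_lit 912) (nat_lit 0) (XT.nd (nat_lit 780) (nat_lit 1140) (nat_lit 0) (XT.nd (nat_lit 390) (nat_lit 608) (nat_lit 0) (XT.nd (nat_lit 156) (nat_lit 380) (nat_lit 0) (XT.nd (nat_lit 78) (nat_lit 152) (nat_lit 0) (XT.lf (nat_lit 0) (nat_lit 4487746015) (nat_lit 76) (nat_lit 23678571706) (nat_lit 76) (nat_lit 3079631687) (nat_lit 43) (nat_lit 4) (nat_lit 44) (nat_lit 5) (nat_lit 44) (nat_lit 4) (nat_lit 363) (nat_lit 342) (nat_lit 315)) (XT.lf (nat_lit 0) (nat_lit 10404237381) (nat_lit 76) (nat_lit 4531505006) (nat_lit 152) (nat_lit 19305152957) (nat_lit 41) (nat_lit 5) (nat_lit 42) (nat_lit 5) (nat_lit 43) (nat_lit 4) (nat_lit 364) (nat_lit 342) (nat_lit 314))) (XT.nd (nat_lit 78) (nat_lit 304) (nat_lit 0) (XT.lf (nat_lit 0) (nat_lit 17239300224) (nat_lit 76) (nat_lit 19750176688) (nat_lit 76) (nat_lit 567737422) (nat_lit 40) (nat_lit 4)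 (nat_lit 41) (nat_lit 5) (nat_lit 41) (nat_lit 4) (nat_lit 365) (nat_lit 342) (nat_lit 313)) (XT.nd (nat_lit 78) (nat_lit 152) (nat_lit 0) (XT.lf (nat_lit 0) (nat_lit 21345191236) (nat_lit 152) (nat_lit 16329548152) (nat_lit 0) (nat_lit 3542724195) (nat_lit 38) (nat_lit 5) (nat_lit 40) (nat_lit 4) (nat_lit 38) (nat_lit 4) (nat_lit 366) (nat_lit 342) (nat_lit 312)) (XT.lf (nat_lit 0) (nat_lit 2936504695) (nat_lit 152) (nat_lit 11730145276) (nat_lit 76) (nat_lit 30604436848) (nat_lit 36) (nat_lit 5) (nat_lit 38) (nat_lit 5) (nat_lit 37) (nat_lit 4) (nat_lit 367) (nat_lit 342) (nat_lit 311))))) (XT.nd (nat_lit 156) (nat_lit 380) (nat_lit 0) (XT.nd (nat_lit 78) (nat_lit 152) (nat_lit 0) (XT.lf (nat_lit 0) (nat_lit 29790977326) (nat_lit 152) (nat_lit 6710830236) (nat_lit 0) (nat_lit 13245571285) (nat_lit 35) (nat_lit 5) (nat_lit 37) (nat_lit 4) (nat_lit 35) (nat_lit 4) (nat_lit 368) (nat_lit 342)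 (nat_lit 310)) (XT.lf (nat_lit 0) (nat_lit 7501379174) (nat_lit 152) (nat_lit 967467696) (nat_lit 76) (nat_lit 46254196164) (nat_lit 33) (nat_lit 5) (nat_lit 35) (nat_lit 5) (nat_lit 34) (nat_lit 4) (nat_lit 369) (nat_lit 342) (nat_lit 309))) (XT.nd (nat_lit 78) (nat_lit 228) (nat_lit 0) (XT.lf (nat_lit 0) (nat_lit 5195687188) (nat_lit 76) (nat_lit 35186018987) (nat_lit 76) (nat_lit 19823042196) (nat_lit 31) (nat_lit 4) (nat_lit 32) (nat_lit 5) (nat_lit 32) (nat_lit 4) (nat_lit 370) (nat_lit 342) (nat_lit 308)) (XT.nd (nat_lit 78) (nat_lit 76) (nat_lit 0) (XT.lf (nat_lit 0) (nat_lit 12146610779) (nat_lit 76) (nat_lit 1087544087) (nat_lit 152) (nat_lit 53081406254) (nat_lit 29) (nat_lit 5) (nat_lit 30) (nat_lit 5) (nat_lit 31) (nat_lit 4) (nat_lit 371) (nat_lit 342) (nat_lit 307)) (XT.lf (nat_lit 0) (nat_lit 18757172312) (nat_lit 76) (nat_lit 34281417446) (nat_lit 76) (nat_lit 20026223727)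 (nat_lit 28) (nat_lit 4) (nat_lit 29) (nat_lit 5) (nat_lit 29) (nat_lit 4) (nat_lit 372) (nat_lit 342) (nat_lit 306)))))) (XT.nd (nat_lit 390) (nat_lit 532) (nat_lit 0) (XT.nd (nat_lit 156) (nat_lit 380) (nat_lit 0) (XT.nd (nat_lit 78) (nat_lit 76) (nat_lit 0) (XT.lf (nat_lit 0) (nat_lit 19437492410) (nat_lit 152) (nat_lit 54939426671) (nat_lit 0) (nat_lit 6226923681) (nat_lit 26) (nat_lit 5) (nat_lit 28) (nat_lit 4) (nat_lit 26) (nat_lit 4) (nat_lit 373) (nat_lit 342) (nat_lit 305)) (XT.lf (nat_lit 0) (nat_lit 31667882751) (nat_lit 76) (nat_lit 35260580745) (nat_lit 76) (nat_lit 22040172637) (nat_lit 25) (nat_lit 4) (nat_lit 26) (nat_lit 5) (nat_lit 26) (nat_lit 4) (nat_lit 374) (nat_lit 342) (nat_lit 304))) (XT.nd (nat_lit 78) (nat_lit 228) (nat_lit 0) (XT.lf (nat_lit 0) (nat_lit 24588607116) (nat_lit 152) (nat_lit 61393252256) (nat_lit 0) (nat_lit 12339566291) (nat_lit 23) (nat_lit 5) (nat_lit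 25) (nat_lit 4) (nat_lit 23) (nat_lit 4) (nat_lit 375) (nat_lit 342) (nat_lit 303)) (XT.nd (nat_lit 78) (nat_lit 152) (nat_lit 0) (XT.lf (nat_lit 0) (nat_lit 40063974793) (nat_lit 76) (nat_lit 40466686305) (nat_lit 76) (nat_lit 28210756606) (nat_lit 22) (nat_lit 4) (nat_lit 23) (nat_lit 5) (nat_lit 23) (nat_lit 4) (nat_lit 376) (nat_lit 342) (nat_lit 302)) (XT.lf (nat_lit 0) (nat_lit 26069441665) (nat_lit 152) (nat_lit 79641719428) (nat_lit 0) (nat_lit 14715812013) (nat_lit 20) (nat_lit 5) (nat_lit 22) (nat_lit 4) (nat_lit 20) (nat_lit 4) (nat_lit 377) (nat_lit 342) (nat_lit 301))))) (XT.nd (nat_lit 234) (nat_lit 228) (nat_lit 0) (XT.nd (nat_lit 78) (nat_lit 228) (nat_lit 0) (XT.lf (nat_lit 0) (nat_lit 36900795511) (nat_lit 76) (nat_lit 53970210668) (nat_lit 76) (nat_lit 42611757887) (nat_lit 19) (nat_lit 4) (nat_lit 20) (nat_lit 5) (nat_lit 20) (nat_lit 4) (nat_lit 378) (nat_lit 342) (nat_lit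 300)) (XT.nd (nat_lit 78) (nat_lit 76) (nat_lit 0) (XT.lf (nat_lit 0) (nat_lit 19278950285) (nat_lit 152) (nat_lit 120169223335) (nat_lit 0) (nat_lit 8757981020) (nat_lit 17) (nat_lit 5) (nat_lit 19) (nat_lit 4) (nat_lit 17) (nat_lit 4) (nat_lit 379) (nat_lit 342) (nat_lit 299)) (XT.lf (nat_lit 0) (nat_lit 9935889629) (nat_lit 76) (nat_lit 82633417889) (nat_lit 76) (nat_lit 72109071793) (nat_lit 16) (nat_lit 4) (nat_lit 17) (nat_lit 5) (nat_lit 17) (nat_lit 4) (nat_lit 380) (nat_lit 342) (nat_lit 298)))) (XT.nd (nat_lit 78) (nat_lit 228) (nat_lit 0) (XT.lf (nat_lit 0) (nat_lit 166741252713) (nat_lit 76) (nat_lit 13565588866) (nat_lit 76) (nat_lit 3038306395) (nat_lit 16) (nat_lit 4) (nat_lit 17) (nat_lit 5) (nat_lit 17) (nat_lit 4) (nat_lit 381) (nat_lit 342) (nat_lit 297)) (XT.nd (nat_lit 78) (nat_lit 76) (nat_lit 0) (XT.lf (nat_lit 0) (nat_lit 77807230438) (nat_lit 152) (nat_lit 58381486956)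 (nat_lit 0) (nat_lit 68057382437) (nat_lit 14) (nat_lit 5) (nat_lit 16) (nat_lit 4) (nat_lit 14) (nat_lit 4) (nat_lit 382) (nat_lit 342) (nat_lit 296)) (XT.lf (nat_lit 0) (nat_lit 110440624613) (nat_lit 76) (nat_lit 63653791431) (nat_lit 76) (nat_lit 53901887576) (nat_lit 13) (nat_lit 4) (nat_lit 14) (nat_lit 5) (nat_lit 14) (nat_lit 4) (nat_lit 383) (nat_lit 342) (nat_lit 295))))))) (XT.nd (nat_lit 780) (nat_lit 304) (nat_lit 0) (XT.nd (nat_lit 390) (nat_lit 228) (nat_lit 0) (XT.nd (nat_lit 156) (nat_lit 228) (nat_lit 0) (XT.nd (nat_lit 78) (nat_lit 0) (nat_lit 0) (XT.lf (nat_lit 0) (nat_lit 31639567276) (nat_lit 152) (nat_lit 200716277825) (nat_lit 0) (nat_lit 22608371394) (nat_lit 11) (nat_lit 5) (nat_lit 13) (nat_lit 4) (nat_lit 11) (nat_lit 4) (nat_lit 384) (nat_lit 342) (nat_lit 294)) (XT.lf (nat_lit 0) (nat_lit 132150137545) (nat_lit 152) (nat_lit 30171313382) (nat_lit 0) (nat_lit 123117502292)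 (nat_lit 11) (nat_lit 5) (nat_lit 13) (nat_lit 4) (nat_lit 11) (nat_lit 4) (nat_lit 385) (nat_lit 342) (nat_lit 293))) (XT.nd (nat_lit 78) (nat_lit 152) (nat_lit 0) (XT.lf (nat_lit 0) (nat_lit 174631596574) (nat_lit 76) (nat_lit 77276753157) (nat_lit 76) (nat_lit 68242866277) (nat_lit 10) (nat_lit 4) (nat_lit 11) (nat_lit 5) (nat_lit 11) (nat_lit 4) (nat_lit 386) (nat_lit 342) (nat_lit 292)) (XT.nd (nat_lit 78) (nat_lit 0) (nat_lit 0) (XT.lf (nat_lit 0) (nat_lit 30819880595) (nat_lit 152) (nat_lit 306520312270) (nat_lit 0) (nat_lit 22454162770) (nat_lit 8) (nat_lit 5) (nat_lit 10) (nat_lit 4) (nat_lit 8) (nat_lit 4) (nat_lit 387) (nat_lit 342) (nat_lit 291)) (XT.lf (nat_lit 0) (nat_lit 147274751017) (nat_lit 152) (nat_lit 118533378930) (nat_lit 0) (nat_lit 138908156887) (nat_lit 8) (nat_lit 5) (nat_lit 10) (nat_lit 4) (nat_lit 8) (nat_lit 4) (nat_lit 388) (nat_lit 342) (nat_lit 290))))) (XT.nd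 (nat_lit 156) (nat_lit 152) (nat_lit 0) (XT.nd (nat_lit 78) (nat_lit 0) (nat_lit 0) (XT.lf (nat_lit 0) (nat_lit 102745633680) (nat_lit 76) (nat_lit 180901157536) (nat_lit 76) (nat_lit 172533801401) (nat_lit 7) (nat_lit 4) (nat_lit 8) (nat_lit 5) (nat_lit 8) (nat_lit 4) (nat_lit 389) (nat_lit 342) (nat_lit 289)) (XT.lf (nat_lit 0) (nat_lit 364352675475) (nat_lit 76) (nat_lit 79552713716) (nat_lit 76) (nat_lit 71184694969) (nat_lit 7) (nat_lit 4) (nat_lit 8) (nat_lit 5) (nat_lit 8) (nat_lit 4) (nat_lit 390) (nat_lit 342) (nat_lit 288))) (XT.nd (nat_lit 78) (nat_lit 0) (nat_lit 0) (XT.lf (nat_lit 0) (nat_lit 46107021754) (nat_lit 152) (nat_lit 498042595258) (nat_lit 0) (nat_lit 38358322742) (nat_lit 5) (nat_lit 5) (nat_lit 7) (nat_lit 4) (nat_lit 5) (nat_lit 4) (nat_lit 391) (nat_lit 342) (nat_lit 287)) (XT.nd (nat_lit 78) (nat_lit 0) (nat_lit 0) (XT.lf (nat_lit 0) (nat_lit 183583251350) (nat_lit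 152) (nat_lit 299928762997) (nat_lit 0) (nat_lit 175834088422) (nat_lit 5) (nat_lit 5) (nat_lit 7) (nat_lit 4) (nat_lit 5) (nat_lit 4) (nat_lit 392) (nat_lit 342) (nat_lit 286)) (XT.lf (nat_lit 0) (nat_lit 341666190832) (nat_lit 152) (nat_lit 72128352889) (nat_lit 0) (nat_lit 333916624498) (nat_lit 5) (nat_lit 5) (nat_lit 7) (nat_lit 4) (nat_lit 5) (nat_lit 4) (nat_lit 393) (nat_lit 342) (nat_lit 285)))))) (XT.nd (nat_lit 390) (nat_lit 76) (nat_lit 0) (XT.nd (nat_lit 156) (nat_lit 152) (nat_lit 0) (XT.nd (nat_lit 78) (nat_lit 0) (nat_lit 0) (XT.lf (nat_lit 0) (nat_lit 199810952702) (nat_lit 76) (nat_lit 328443272793) (nat_lit 76) (nat_lit 320693355671) (nat_lit 4) (nat_lit 4) (nat_lit 5) (nat_lit 5) (nat_lit 5) (nat_lit 4) (nat_lit 394) (nat_lit 342) (nat_lit 284)) (XT.lf (nat_lit 0) (nat_lit 516884753648) (nat_lit 76) (nat_lit 228033933420) (nat_lit 76) (nat_lit 220283711265) (nat_lit 4)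 (nat_lit 4) (nat_lit 5) (nat_lit 5) (nat_lit 5) (nat_lit 4) (nat_lit 395) (nat_lit 342) (nat_lit 283))) (XT.nd (nat_lit 78) (nat_lit 152) (nat_lit 0) (XT.lf (nat_lit 0) (nat_lit 881498516550) (nat_lit 76) (nat_lit 112574112042) (nat_lit 76) (nat_lit 104823624640) (nat_lit 4) (nat_lit 4) (nat_lit 5) (nat_lit 5) (nat_lit 5) (nat_lit 4) (nat_lit 396) (nat_lit 342) (nat_lit 282)) (XT.nd (nat_lit 78) (nat_lit 0) (nat_lit 0) (XT.lf (nat_lit 0) (nat_lit 28284051276) (nat_lit 152) (nat_lit 1203060726436) (nat_lit 0) (nat_lit 21107460489) (nat_lit 2) (nat_lit 5) (nat_lit 4) (nat_lit 4) (nat_lit 2) (nat_lit 4) (nat_lit 397) (nat_lit 342) (nat_lit 281)) (XT.lf (nat_lit 0) (nat_lit 184926307415) (nat_lit 152) (nat_lit 1065365954689) (nat_lit 0) (nat_lit 177749530920) (nat_lit 2) (nat_lit 5) (nat_lit 4) (nat_lit 4) (nat_lit 2) (nat_lit 4) (nat_lit 398) (nat_lit 342) (nat_lit 280))))) (XT.nd (nat_lit 234)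 (nat_lit 76) (nat_lit 0) (XT.nd (nat_lit 78) (nat_lit 0) (nat_lit 0) (XT.lf (nat_lit 0) (nat_lit 365057481252) (nat_lit 152) (nat_lit 907032350215) (nat_lit 0) (nat_lit 357880543273) (nat_lit 2) (nat_lit 5) (nat_lit 4) (nat_lit 4) (nat_lit 2) (nat_lit 4) (nat_lit 399) (nat_lit 342) (nat_lit 279)) (XT.nd (nat_lit 78) (nat_lit 0) (nat_lit 0) (XT.lf (nat_lit 0) (nat_lit 572201878362) (nat_lit 152) (nat_lit 724962081619) (nat_lit 0) (nat_lit 565024799962) (nat_lit 2) (nat_lit 5) (nat_lit 4) (nat_lit 4) (nat_lit 2) (nat_lit 4) (nat_lit 400) (nat_lit 342) (nat_lit 278)) (XT.lf (nat_lit 0) (nat_lit 810412323907) (nat_lit 152) (nat_lit 515592904518) (nat_lit 0) (nat_lit 803235123400) (nat_lit 2) (nat_lit 5) (nat_lit 4) (nat_lit 4) (nat_lit 2) (nat_lit 4) (nat_lit 401) (nat_lit 342) (nat_lit 277)))) (XT.nd (nat_lit 78) (nat_lit 76) (nat_lit 0) (XT.lf (nat_lit 0) (nat_lit 1084349457036) (nat_lit 152)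 (nat_lit 274828465446) (nat_lit 0) (nat_lit 1077172150351) (nat_lit 2) (nat_lit 5) (nat_lit 4) (nat_lit 4) (nat_lit 2) (nat_lit 4) (nat_lit 402) (nat_lit 342) (nat_lit 276)) (XT.nd (nat_lit 78) (nat_lit 0) (nat_lit 0) (XT.lf (nat_lit 0) (nat_lit 2149364084) (nat_lit 76) (nat_lit 1397275245487) (nat_lit 76) (nat_lit 1390097846472) (nat_lit 1) (nat_lit 4) (nat_lit 2) (nat_lit 5) (nat_lit 2) (nat_lit 4) (nat_lit 403) (nat_lit 342) (nat_lit 275)) (XT.lf (nat_lit 0) (nat_lit 337308594168) (nat_lit 76) (nat_lit 1432449892854) (nat_lit 76) (nat_lit 1425272413553) (nat_lit 1) (nat_lit 4) (nat_lit 2) (nat_lit 5) (nat_lit 2) (nat_lit 4) (nat_lit 404) (nat_lit 342) (nat_lit 274))))))))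
noncomputable def xc51 : XT := (XT.nd (nat_lit 1638) (nat_lit 0) (nat_lit 0) (XT.nd (nat_lit 780) (nat_lit 0) (nat_lit 0) (XT.nd (nat_lit 390) (nat_lit 0) (nat_lit 0) (XT.nd (nat_lit 156) (nat_lit 0) (nat_lit 0) (XT.nd (nat_lit 78) (nat_lit 0) (nat_lit 0) (XT.lf (nat_lit 0) (nat_lit 722734708051) (nat_lit 76) (nat_lit 1472904361490) (nat_lit 76) (nat_lit 1465726812374) (nat_lit 1) (nat_lit 4) (nat_lit 2) (nat_lit 5) (nat_lit 2) (nat_lit 4) (nat_lit 405) (nat_lit 342) (nat_lit 273)) (XT.lf (nat_lit 0) (nat_lit 1165968651439) (nat_lit 76) (nat_lit 1519430151867) (nat_lit 76) (nat_lit 1512252542043) (nat_lit 1) (nat_lit 4) (nat_lit 2) (nat_lit 5) (nat_lit 2) (nat_lit 4) (nat_lit 406) (nat_lit 342) (nat_lit 272))) (XT.nd (nat_lit 78) (nat_lit 0) (nat_lit 0) (XT.lf (nat_lit 0) (nat_lit 1675682392790) (nat_lit 76) (nat_lit 1572937551189) (nat_lit 76) (nat_lit 1565759888575) (nat_lit 1) (nat_lit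 4) (nat_lit 2) (nat_lit 5) (nat_lit 2) (nat_lit 4) (nat_lit 407) (nat_lit 342) (nat_lit 271)) (XT.nd (nat_lit 78) (nat_lit 0) (nat_lit 0) (XT.lf (nat_lit 0) (nat_lit 2261848592261) (nat_lit 76) (nat_lit 1634473443355) (nat_lit 76) (nat_lit 1627295734838) (nat_lit 1) (nat_lit 4) (nat_lit 2) (nat_lit 5) (nat_lit 2) (nat_lit 4) (nat_lit 408) (nat_lit 342) (nat_lit 270)) (XT.lf (nat_lit 0) (nat_lit 2935935718971) (nat_lit 76) (nat_lit 1705241791473) (nat_lit 76) (nat_lit 1698064043039) (nat_lit 1) (nat_lit 4) (nat_lit 2) (nat_lit 5) (nat_lit 2) (nat_lit 4) (nat_lit 409) (nat_lit 342) (nat_lit 269))))) (XT.nd (nat_lit 156) (nat_lit 0) (nat_lit 0) (XT.nd (nat_lit 78) (nat_lit 0) (nat_lit 0) (XT.lf (nat_lit 0) (nat_lit 3711132434096) (nat_lit 76) (nat_lit 1786627193659) (nat_lit 76) (nat_lit 1779449410515) (nat_lit 1) (nat_lit 4) (nat_lit 2) (nat_lit 5) (nat_lit 2) (nat_lit 4) (nat_lit 410) (nat_lit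 342) (nat_lit 268)) (XT.lf (nat_lit 0) (nat_lit 4602605629888) (nat_lit 76) (nat_lit 1880221972998) (nat_lit 76) (nat_lit 1873044159672) (nat_lit 1) (nat_lit 4) (nat_lit 2) (nat_lit 5) (nat_lit 2) (nat_lit 4) (nat_lit 411) (nat_lit 342) (nat_lit 267))) (XT.nd (nat_lit 78) (nat_lit 0) (nat_lit 0) (XT.lf (nat_lit 0) (nat_lit 5627797173221) (nat_lit 76) (nat_lit 1987857331696) (nat_lit 76) (nat_lit 1980679492123) (nat_lit 1) (nat_lit 4) (nat_lit 2) (nat_lit 5) (nat_lit 2) (nat_lit 4) (nat_lit 412) (nat_lit 342) (nat_lit 266)) (XT.nd (nat_lit 78) (nat_lit 0) (nat_lit 0) (XT.lf (nat_lit 0) (nat_lit 6806765159508) (nat_lit 76) (nat_lit 2111639178943) (nat_lit 76) (nat_lit 2104461316548) (nat_lit 1) (nat_lit 4) (nat_lit 2) (nat_lit 5) (nat_lit 2) (nat_lit 4) (nat_lit 413) (nat_lit 342) (nat_lit 265)) (XT.lf (nat_lit 0) (nat_lit 8162576353698) (nat_lit 76) (nat_lit 2253989333491) (nat_lit 76) (nat_lit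 2246811451250) (nat_lit 1) (nat_lit 4) (nat_lit 2) (nat_lit 5) (nat_lit 2) (nat_lit 4) (nat_lit 414) (nat_lit 342) (nat_lit 264)))))) (XT.nd (nat_lit 390) (nat_lit 0) (nat_lit 0) (XT.nd (nat_lit 156) (nat_lit 0) (nat_lit 0) (XT.nd (nat_lit 78) (nat_lit 0) (nat_lit 0) (XT.lf (nat_lit 0) (nat_lit 9721757496547) (nat_lit 76) (nat_lit 2417692907059) (nat_lit 76) (nat_lit 2410515007561) (nat_lit 1) (nat_lit 4) (nat_lit 2) (nat_lit 5) (nat_lit 2) (nat_lit 4) (nat_lit 415) (nat_lit 342) (nat_lit 263)) (XT.lf (nat_lit 0) (nat_lit 11514814306068) (nat_lit 76) (nat_lit 2605952795651) (nat_lit 76) (nat_lit 2598774881147) (nat_lit 1) (nat_lit 4) (nat_lit 2) (nat_lit 5) (nat_lit 2) (nat_lit 4) (nat_lit 416) (nat_lit 342) (nat_lit 262))) (XT.nd (nat_lit 78) (nat_lit 0) (nat_lit 0) (XT.lf (nat_lit 0) (nat_lit 13576828328533) (nat_lit 76) (nat_lit 2822452344914) (nat_lit 76) (nat_lit 2815274417362) (nat_lit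 1) (nat_lit 4) (nat_lit 2) (nat_lit 5) (nat_lit 2) (nat_lit 4) (nat_lit 417) (nat_lit 342) (nat_lit 261)) (XT.nd (nat_lit 78) (nat_lit 0) (nat_lit 0) (XT.lf (nat_lit 0) (nat_lit 15948143316557) (nat_lit 76) (nat_lit 3071427415595) (nat_lit 76) (nat_lit 3064249476695) (nat_lit 1) (nat_lit 4) (nat_lit 2) (nat_lit 5) (nat_lit 2) (nat_lit 4) (nat_lit 418) (nat_lit 342) (nat_lit 260)) (XT.lf (nat_lit 0) (nat_lit 18675154563382) (nat_lit 76) (nat_lit 3357749259076) (nat_lit 76) (nat_lit 3350571310309) (nat_lit 1) (nat_lit 4) (nat_lit 2) (nat_lit 5) (nat_lit 2) (nat_lit 4) (nat_lit 419) (nat_lit 342) (nat_lit 259))))) (XT.nd (nat_lit 234) (nat_lit 0) (nat_lit 0) (XT.nd (nat_lit 78) (nat_lit 0) (nat_lit 0) (XT.lf (nat_lit 0) (nat_lit 21811216636882) (nat_lit 76) (nat_lit 3687019824468) (nat_lit 76) (nat_lit 3679841867122) (nat_lit 1) (nat_lit 4) (nat_lit 2) (nat_lit 5) (nat_lit 2) (nat_lit 4) (nat_lit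 420) (nat_lit 342) (nat_lit 258)) (XT.nd (nat_lit 78) (nat_lit 0) (nat_lit 0) (XT.lf (nat_lit 0) (nat_lit 25417687273277) (nat_lit 76) (nat_lit 4065681361965) (nat_lit 76) (nat_lit 4058503397158) (nat_lit 1) (nat_lit 4) (nat_lit 2) (nat_lit 5) (nat_lit 2) (nat_lit 4) (nat_lit 421) (nat_lit 342) (nat_lit 257)) (XT.lf (nat_lit 0) (nat_lit 29565127854585) (nat_lit 76) (nat_lit 4501142466864) (nat_lit 76) (nat_lit 4493964495570) (nat_lit 1) (nat_lit 4) (nat_lit 2) (nat_lit 5) (nat_lit 2) (nat_lit 4) (nat_lit 422) (nat_lit 342) (nat_lit 256)))) (XT.nd (nat_lit 78) (nat_lit 0) (nat_lit 0) (XT.lf (nat_lit 0) (nat_lit 34334683957394) (nat_lit 76) (nat_lit 5001923030350) (nat_lit 76) (nat_lit 4994745053414) (nat_lit 1) (nat_lit 4) (nat_lit 2) (nat_lit 5) (nat_lit 2) (nat_lit 4) (nat_lit 423) (nat_lit 342) (nat_lit 255)) (XT.nd (nat_lit 78) (nat_lit 0) (nat_lit 0) (XT.lf (nat_lit 0) (nat_lit 39819672983718)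 (nat_lit 76) (nat_lit 5577820933012) (nat_lit 76) (nat_lit 5570642951170) (nat_lit 1) (nat_lit 4) (nat_lit 2) (nat_lit 5) (nat_lit 2) (nat_lit 4) (nat_lit 424) (nat_lit 342) (nat_lit 254)) (XT.lf (nat_lit 0) (nat_lit 46127409936245) (nat_lit 76) (nat_lit 6240103742510) (nat_lit 76) (nat_lit 6232925756403) (nat_lit 1) (nat_lit 4) (nat_lit 2) (nat_lit 5) (nat_lit 2) (nat_lit 4) (nat_lit 425) (nat_lit 342) (nat_lit 253))))))) (XT.nd (nat_lit 47268) (nat_lit 0) (nat_lit 3572) (XT.nd (nat_lit 46878) (nat_lit 0) (nat_lit 5700) (XT.nd (nat_lit 46644) (nat_lit 0) (nat_lit 7524) (XT.nd (nat_lit 78) (nat_lit 0) (nat_lit 0) (XT.lf (nat_lit 0) (nat_lit 53381307059698) (nat_lit 76) (nat_lit 7001729165987) (nat_lit 76) (nat_lit 6994551176171) (nat_lit 1) (nat_lit 4) (nat_lit 2) (nat_lit 5) (nat_lit 2) (nat_lit 4) (nat_lit 426) (nat_lit 342) (nat_lit 252)) (XT.lf (nat_lit 0) (nat_lit 61723288428231) (nat_lit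 76) (nat_lit 7877598570424) (nat_lit 76) (nat_lit 7870420577382) (nat_lit 1) (nat_lit 4) (nat_lit 2) (nat_lit 5) (nat_lit 2) (nat_lit 4) (nat_lit 427) (nat_lit 342) (nat_lit 251))) (XT.nd (nat_lit 78) (nat_lit 380) (nat_lit 0) (XT.lf (nat_lit 0) (nat_lit 3006070362) (nat_lit 380) (nat_lit 319854574) (nat_lit 380) (nat_lit 319854574) (nat_lit 105) (nat_lit 3) (nat_lit 110) (nat_lit 3) (nat_lit 110) (nat_lit 5) (nat_lit 343) (nat_lit 343) (nat_lit 334)) (XT.nd (nat_lit 78) (nat_lit 0) (nat_lit 76) (XT.lf (nat_lit 0) (nat_lit 1624871000) (nat_lit 380) (nat_lit 1215953195) (nat_lit 456) (nat_lit 4765311894) (nat_lit 100) (nat_lit 5) (nat_lit 105) (nat_lit 3) (nat_lit 106) (nat_lit 5) (nat_lit 344) (nat_lit 343) (nat_lit 333)) (XT.lf (nat_lit 0) (nat_lit 4614521173) (nat_lit 380) (nat_lit 1500341296) (nat_lit 456) (nat_lit 1872415734) (nat_lit 101) (nat_lit 5) (nat_lit 106) (nat_lit 5) (nat_lit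 107) (nat_lit 5) (nat_lit 345) (nat_lit 343) (nat_lit 332))))) (XT.nd (nat_lit 156) (nat_lit 1520) (nat_lit 0) (XT.nd (nat_lit 78) (nat_lit 380) (nat_lit 0) (XT.lf (nat_lit 76) (nat_lit 6950341578) (nat_lit 0) (nat_lit 946582097) (nat_lit 456) (nat_lit 541188694) (nat_lit 102) (nat_lit 5) (nat_lit 101) (nat_lit 5) (nat_lit 107) (nat_lit 5) (nat_lit 346) (nat_lit 343) (nat_lit 331)) (XT.lf (nat_lit 0) (nat_lit 2544643041) (nat_lit 456) (nat_lit 1271746728) (nat_lit 76) (nat_lit 5137782498) (nat_lit 96) (nat_lit 5) (nat_lit 102) (nat_lit 5) (nat_lit 97) (nat_lit 5) (nat_lit 347) (nat_lit 343) (nat_lit 330))) (XT.nd (nat_lit 78) (nat_lit 1064) (nat_lit 0) (XT.lf (nat_lit 0) (nat_lit 6064055556) (nat_lit 532) (nat_lit 757918585) (nat_lit 76) (nat_lit 2724368016) (nat_lit 90) (nat_lit 5) (nat_lit 97) (nat_lit 5) (nat_lit 91) (nat_lit 5) (nat_lit 348) (nat_lit 343) (nat_lit 329)) (XT.nd (nat_lit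 78) (nat_lit 304) (nat_lit 0) (XT.lf (nat_lit 0) (nat_lit 88603466) (nat_lit 228) (nat_lit 10107775792) (nat_lit 304) (nat_lit 24197973) (nat_lit 80) (nat_lit 5) (nat_lit 83) (nat_lit 5) (nat_lit 84) (nat_lit 5) (nat_lit 349) (nat_lit 343) (nat_lit 328)) (XT.lf (nat_lit 0) (nat_lit 1171595212) (nat_lit 228) (nat_lit 2839353132) (nat_lit 304) (nat_lit 6956940751) (nat_lit 76) (nat_lit 5) (nat_lit 79) (nat_lit 5) (nat_lit 80) (nat_lit 5) (nat_lit 350) (nat_lit 343) (nat_lit 327)))))) (XT.nd (nat_lit 390) (nat_lit 1064) (nat_lit 0) (XT.nd (nat_lit 156) (nat_lit 532) (nat_lit 0) (XT.nd (nat_lit 78) (nat_lit 304) (nat_lit 0) (XT.lf (nat_lit 0) (nat_lit 2641673682) (nat_lit 228) (nat_lit 6243802726) (nat_lit 304) (nat_lit 2922955399) (nat_lit 73) (nat_lit 5) (nat_lit 76) (nat_lit 5) (nat_lit 77) (nat_lit 5) (nat_lit 351) (nat_lit 343) (nat_lit 326)) (XT.lf (nat_lit 0) (nat_lit 1933962089) (nat_lit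 304) (nat_lit 8244660947) (nat_lit 76) (nat_lit 2568858845) (nat_lit 69) (nat_lit 5) (nat_lit 73) (nat_lit 5) (nat_lit 70) (nat_lit 5) (nat_lit 352) (nat_lit 343) (nat_lit 325))) (XT.nd (nat_lit 78) (nat_lit 380) (nat_lit 0) (XT.lf (nat_lit 0) (nat_lit 6744929649) (nat_lit 152) (nat_lit 995576554) (nat_lit 228) (nat_lit 6049296176) (nat_lit 67) (nat_lit 5) (nat_lit 69) (nat_lit 5) (nat_lit 70) (nat_lit 5) (nat_lit 353) (nat_lit 343) (nat_lit 324)) (XT.nd (nat_lit 78) (nat_lit 228) (nat_lit 0) (XT.lf (nat_lit 0) (nat_lit 9457724116) (nat_lit 152) (nat_lit 5464592524) (nat_lit 228) (nat_lit 25828434) (nat_lit 65) (nat_lit 5) (nat_lit 67) (nat_lit 5) (nat_lit 68) (nat_lit 5) (nat_lit 354) (nat_lit 343) (nat_lit 323)) (XT.lf (nat_lit 0) (nat_lit 7056790668) (nat_lit 228) (nat_lit 3617794063) (nat_lit 76) (nat_lit 5552321792) (nat_lit 62) (nat_lit 5) (nat_lit 65) (nat_lit 5) (nat_lit 63) (nat_lit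 5) (nat_lit 355) (nat_lit 343) (nat_lit 322))))) (XT.nd (nat_lit 234) (nat_lit 532) (nat_lit 0) (XT.nd (nat_lit 78) (nat_lit 380) (nat_lit 0) (XT.lf (nat_lit 0) (nat_lit 15760569103) (nat_lit 228) (nat_lit 1197015096) (nat_lit 76) (nat_lit 695032488) (nat_lit 60) (nat_lit 5) (nat_lit 63) (nat_lit 5) (nat_lit 61) (nat_lit 4) (nat_lit 356) (nat_lit 343) (nat_lit 321)) (XT.nd (nat_lit 78) (nat_lit 76) (nat_lit 0) (XT.lf (nat_lit 0) (nat_lit 1649263719) (nat_lit 152) (nat_lit 5316677223) (nat_lit 228) (nat_lit 12248808604) (nat_lit 56) (nat_lit 5) (nat_lit 58) (nat_lit 5) (nat_lit 59) (nat_lit 5) (nat_lit 357) (nat_lit 343) (nat_lit 320)) (XT.lf (nat_lit 0) (nat_lit 5216957370) (nat_lit 76) (nat_lit 12595842534) (nat_lit 152) (nat_lit 3132702987) (nat_lit 55) (nat_lit 5) (nat_lit 56) (nat_lit 5) (nat_lit 57) (nat_lit 4) (nat_lit 358) (nat_lit 343) (nat_lit 319)))) (XT.nd (nat_lit 78) (nat_lit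 304) (nat_lit 0) (XT.lf (nat_lit 0) (nat_lit 7782781631) (nat_lit 228) (nat_lit 13426603080) (nat_lit 76) (nat_lit 1648373738) (nat_lit 52) (nat_lit 5) (nat_lit 55) (nat_lit 5) (nat_lit 53) (nat_lit 4) (nat_lit 359) (nat_lit 343) (nat_lit 318)) (XT.nd (nat_lit 78) (nat_lit 228) (nat_lit 0) (XT.lf (nat_lit 0) (nat_lit 14333848687) (nat_lit 76) (nat_lit 6853486180) (nat_lit 152) (nat_lit 3780034808) (nat_lit 51) (nat_lit 5) (nat_lit 52) (nat_lit 5) (nat_lit 53) (nat_lit 4) (nat_lit 360) (nat_lit 343) (nat_lit 317)) (XT.lf (nat_lit 0) (nat_lit 9773656443) (nat_lit 228) (nat_lit 7301388781) (nat_lit 76) (nat_lit 10218648664) (nat_lit 48) (nat_lit 5) (nat_lit 51) (nat_lit 5) (nat_lit 49) (nat_lit 4) (nat_lit 361) (nat_lit 343) (nat_lit 316))))))))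
noncomputable def xc52 : XT := (XT.nd (nat_lit 1638) (nat_lit 1064) (nat_lit 0) (XT.nd (nat_lit 780) (nat_lit 1140) (nat_lit 0) (XT.nd (nat_lit 390) (nat_lit 608) (nat_lit 0) (XT.nd (nat_lit 156) (nat_lit 380) (nat_lit 0) (XT.nd (nat_lit 78) (nat_lit 228) (nat_lit 0) (XT.lf (nat_lit 0) (nat_lit 26193447765) (nat_lit 152) (nat_lit 3152007941) (nat_lit 0) (nat_lit 531111139) (nat_lit 47) (nat_lit 5) (nat_lit 49) (nat_lit 4) (nat_lit 47) (nat_lit 4) (nat_lit 362) (nat_lit 343) (nat_lit 315)) (XT.lf (nat_lit 0) (nat_lit 1531122018) (nat_lit 76) (nat_lit 11575454304) (nat_lit 152) (nat_lit 19597648404) (nat_lit 44) (nat_lit 5) (nat_lit 45) (nat_lit 5) (nat_lit 46) (nat_lit 4) (nat_lit 363) (nat_lit 343) (nat_lit 314))) (XT.nd (nat_lit 78) (nat_lit 304) (nat_lit 0) (XT.lf (nat_lit 0) (nat_lit 7438512322) (nat_lit 76) (nat_lit 26139440540) (nat_lit 76) (nat_lit 2259923350) (nat_lit 43) (nat_lit 4)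 (nat_lit 44) (nat_lit 5) (nat_lit 44) (nat_lit 4) (nat_lit 364) (nat_lit 343) (nat_lit 313)) (XT.nd (nat_lit 78) (nat_lit 152) (nat_lit 0) (XT.lf (nat_lit 0) (nat_lit 14108402059) (nat_lit 76) (nat_lit 4177983709) (nat_lit 152) (nat_lit 21001796670) (nat_lit 41) (nat_lit 5) (nat_lit 42) (nat_lit 5) (nat_lit 43) (nat_lit 4) (nat_lit 365) (nat_lit 343) (nat_lit 312)) (XT.lf (nat_lit 0) (nat_lit 442351564) (nat_lit 152) (nat_lit 21273254592) (nat_lit 76) (nat_lit 21391419543) (nat_lit 39) (nat_lit 5) (nat_lit 41) (nat_lit 5) (nat_lit 40) (nat_lit 4) (nat_lit 366) (nat_lit 343) (nat_lit 311))))) (XT.nd (nat_lit 156) (nat_lit 380) (nat_lit 0) (XT.nd (nat_lit 78) (nat_lit 152) (nat_lit 0) (XT.lf (nat_lit 0) (nat_lit 25539070678) (nat_lit 152) (nat_lit 16822914231) (nat_lit 0) (nat_lit 4958712896) (nat_lit 38) (nat_lit 5) (nat_lit 40) (nat_lit 4) (nat_lit 38) (nat_lit 4) (nat_lit 367) (nat_lit 343)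 (nat_lit 310)) (XT.lf (nat_lit 0) (nat_lit 4306278584) (nat_lit 152) (nat_lit 11650223091) (nat_lit 76) (nat_lit 36030890419) (nat_lit 36) (nat_lit 5) (nat_lit 38) (nat_lit 5) (nat_lit 37) (nat_lit 4) (nat_lit 368) (nat_lit 343) (nat_lit 309))) (XT.nd (nat_lit 78) (nat_lit 304) (nat_lit 0) (XT.lf (nat_lit 0) (nat_lit 35128289123) (nat_lit 152) (nat_lit 5985897860) (nat_lit 0) (nat_lit 16025793394) (nat_lit 35) (nat_lit 5) (nat_lit 37) (nat_lit 4) (nat_lit 35) (nat_lit 4) (nat_lit 369) (nat_lit 343) (nat_lit 308)) (XT.nd (nat_lit 78) (nat_lit 76) (nat_lit 0) (XT.lf (nat_lit 0) (nat_lit 542413919) (nat_lit 76) (nat_lit 8911317121) (nat_lit 152) (nat_lit 53411587123) (nat_lit 32) (nat_lit 5) (nat_lit 33) (nat_lit 5) (nat_lit 34) (nat_lit 4) (nat_lit 370) (nat_lit 343) (nat_lit 307)) (XT.lf (nat_lit 0) (nat_lit 7587329836) (nat_lit 76) (nat_lit 39652106435) (nat_lit 76) (nat_lit 21931977964) (nat_lit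 31) (nat_lit 4) (nat_lit 32) (nat_lit 5) (nat_lit 32) (nat_lit 4) (nat_lit 371) (nat_lit 343) (nat_lit 306)))))) (XT.nd (nat_lit 390) (nat_lit 532) (nat_lit 0) (XT.nd (nat_lit 156) (nat_lit 380) (nat_lit 0) (XT.nd (nat_lit 78) (nat_lit 76) (nat_lit 0) (XT.lf (nat_lit 0) (nat_lit 15484013044) (nat_lit 76) (nat_lit 485861794) (nat_lit 152) (nat_lit 60232965900) (nat_lit 29) (nat_lit 5) (nat_lit 30) (nat_lit 5) (nat_lit 31) (nat_lit 4) (nat_lit 372) (nat_lit 343) (nat_lit 305)) (XT.lf (nat_lit 0) (nat_lit 22996021225) (nat_lit 76) (nat_lit 38701322269) (nat_lit 76) (nat_lit 22270948869) (nat_lit 28) (nat_lit 4) (nat_lit 29) (nat_lit 5) (nat_lit 29) (nat_lit 4) (nat_lit 373) (nat_lit 343) (nat_lit 304))) (XT.nd (nat_lit 78) (nat_lit 228) (nat_lit 0) (XT.lf (nat_lit 0) (nat_lit 23028839922) (nat_lit 152) (nat_lit 61804541358) (nat_lit 0) (nat_lit 7806975236) (nat_lit 26) (nat_lit 5) (nat_lit 28)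 (nat_lit 4) (nat_lit 26) (nat_lit 4) (nat_lit 374) (nat_lit 343) (nat_lit 303)) (XT.nd (nat_lit 78) (nat_lit 152) (nat_lit 0) (XT.lf (nat_lit 0) (nat_lit 37677409917) (nat_lit 76) (nat_lit 39908196158) (nat_lit 76) (nat_lit 24678891488) (nat_lit 25) (nat_lit 4) (nat_lit 26) (nat_lit 5) (nat_lit 26) (nat_lit 4) (nat_lit 375) (nat_lit 343) (nat_lit 302)) (XT.lf (nat_lit 0) (nat_lit 28871113233) (nat_lit 152) (nat_lit 69387070859) (nat_lit 0) (nat_lit 14763914879) (nat_lit 23) (nat_lit 5) (nat_lit 25) (nat_lit 4) (nat_lit 23) (nat_lit 4) (nat_lit 376) (nat_lit 343) (nat_lit 301))))) (XT.nd (nat_lit 234) (nat_lit 228) (nat_lit 0) (XT.nd (nat_lit 78) (nat_lit 228) (nat_lit 0) (XT.lf (nat_lit 0) (nat_lit 47185882224) (nat_lit 76) (nat_lit 45967837889) (nat_lit 76) (nat_lit 31855430556) (nat_lit 22) (nat_lit 4) (nat_lit 23) (nat_lit 5) (nat_lit 23) (nat_lit 4) (nat_lit 377) (nat_lit 343) (nat_lit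 300)) (XT.nd (nat_lit 78) (nat_lit 76) (nat_lit 0) (XT.lf (nat_lit 0) (nat_lit 30502709984) (nat_lit 152) (nat_lit 90515006452) (nat_lit 0) (nat_lit 17431472133) (nat_lit 20) (nat_lit 5) (nat_lit 22) (nat_lit 4) (nat_lit 20) (nat_lit 4) (nat_lit 378) (nat_lit 343) (nat_lit 299)) (XT.lf (nat_lit 0) (nat_lit 43418064087) (nat_lit 76) (nat_lit 61561867705) (nat_lit 76) (nat_lit 48486982876) (nat_lit 19) (nat_lit 4) (nat_lit 20) (nat_lit 5) (nat_lit 20) (nat_lit 4) (nat_lit 379) (nat_lit 343) (nat_lit 298)))) (XT.nd (nat_lit 78) (nat_lit 76) (nat_lit 0) (XT.lf (nat_lit 0) (nat_lit 22631072629) (nat_lit 152) (nat_lit 137247419775) (nat_lit 0) (nat_lit 10521761412) (nat_lit 17) (nat_lit 5) (nat_lit 19) (nat_lit 4) (nat_lit 17) (nat_lit 4) (nat_lit 380) (nat_lit 343) (nat_lit 297)) (XT.nd (nat_lit 78) (nat_lit 0) (nat_lit 0) (XT.lf (nat_lit 0) (nat_lit 12293285467) (nat_lit 76) (nat_lit 94582513153)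 (nat_lit 76) (nat_lit 82470648566) (nat_lit 16) (nat_lit 4) (nat_lit 17) (nat_lit 5) (nat_lit 17) (nat_lit 4) (nat_lit 381) (nat_lit 343) (nat_lit 296)) (XT.lf (nat_lit 0) (nat_lit 192506364440) (nat_lit 76) (nat_lit 15212672919) (nat_lit 76) (nat_lit 3098588010) (nat_lit 16) (nat_lit 4) (nat_lit 17) (nat_lit 5) (nat_lit 17) (nat_lit 4) (nat_lit 382) (nat_lit 343) (nat_lit 295))))))) (XT.nd (nat_lit 780) (nat_lit 228) (nat_lit 0) (XT.nd (nat_lit 390) (nat_lit 380) (nat_lit 0) (XT.nd (nat_lit 156) (nat_lit 228) (nat_lit 0) (XT.nd (nat_lit 78) (nat_lit 76) (nat_lit 0) (XT.lf (nat_lit 0) (nat_lit 89830793662) (nat_lit 152) (nat_lit 66411761179) (nat_lit 0) (nat_lit 78612260678) (nat_lit 14) (nat_lit 5) (nat_lit 16) (nat_lit 4) (nat_lit 14) (nat_lit 4) (nat_lit 383) (nat_lit 343) (nat_lit 294)) (XT.lf (nat_lit 0) (nat_lit 127672134529) (nat_lit 76) (nat_lit 72858950378) (nat_lit 76) (nat_lit 61638862873)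 (nat_lit 13) (nat_lit 4) (nat_lit 14) (nat_lit 5) (nat_lit 14) (nat_lit 4) (nat_lit 384) (nat_lit 343) (nat_lit 293))) (XT.nd (nat_lit 78) (nat_lit 76) (nat_lit 0) (XT.lf (nat_lit 0) (nat_lit 36696010857) (nat_lit 152) (nat_lit 230182207417) (nat_lit 0) (nat_lit 26305789319) (nat_lit 11) (nat_lit 5) (nat_lit 13) (nat_lit 4) (nat_lit 11) (nat_lit 4) (nat_lit 385) (nat_lit 343) (nat_lit 292)) (XT.nd (nat_lit 78) (nat_lit 76) (nat_lit 0) (XT.lf (nat_lit 0) (nat_lit 152242665560) (nat_lit 152) (nat_lit 34139173796) (nat_lit 0) (nat_lit 141851355650) (nat_lit 11) (nat_lit 5) (nat_lit 13) (nat_lit 4) (nat_lit 11) (nat_lit 4) (nat_lit 386) (nat_lit 343) (nat_lit 291)) (XT.lf (nat_lit 0) (nat_lit 201336954564) (nat_lit 76) (nat_lit 88604717042) (nat_lit 76) (nat_lit 78212460723) (nat_lit 10) (nat_lit 4) (nat_lit 11) (nat_lit 5) (nat_lit 11) (nat_lit 4) (nat_lit 387) (nat_lit 343) (nat_lit 290)))))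 (XT.nd (nat_lit 156) (nat_lit 228) (nat_lit 0) (XT.nd (nat_lit 78) (nat_lit 0) (nat_lit 0) (XT.lf (nat_lit 0) (nat_lit 35680777370) (nat_lit 152) (nat_lit 352006142200) (nat_lit 0) (nat_lit 26057555811) (nat_lit 8) (nat_lit 5) (nat_lit 10) (nat_lit 4) (nat_lit 8) (nat_lit 4) (nat_lit 388) (nat_lit 343) (nat_lit 289)) (XT.lf (nat_lit 0) (nat_lit 169572846005) (nat_lit 152) (nat_lit 135885371065) (nat_lit 0) (nat_lit 159948961834) (nat_lit 8) (nat_lit 5) (nat_lit 10) (nat_lit 4) (nat_lit 8) (nat_lit 4) (nat_lit 389) (nat_lit 343) (nat_lit 288))) (XT.nd (nat_lit 78) (nat_lit 152) (nat_lit 0) (XT.lf (nat_lit 0) (nat_lit 118549264123) (nat_lit 76) (nat_lit 207833865905) (nat_lit 76) (nat_lit 198209405549) (nat_lit 7) (nat_lit 4) (nat_lit 8) (nat_lit 5) (nat_lit 8) (nat_lit 4) (nat_lit 390) (nat_lit 343) (nat_lit 287)) (XT.nd (nat_lit 78) (nat_lit 152) (nat_lit 0) (XT.lf (nat_lit 0) (nat_lit 419346259745)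 (nat_lit 76) (nat_lit 91309564025) (nat_lit 76) (nat_lit 81684602638) (nat_lit 7) (nat_lit 4) (nat_lit 8) (nat_lit 5) (nat_lit 8) (nat_lit 4) (nat_lit 391) (nat_lit 343) (nat_lit 286)) (XT.lf (nat_lit 0) (nat_lit 53181620787) (nat_lit 152) (nat_lit 572420609947) (nat_lit 0) (nat_lit 44269216097) (nat_lit 5) (nat_lit 5) (nat_lit 7) (nat_lit 4) (nat_lit 5) (nat_lit 4) (nat_lit 392) (nat_lit 343) (nat_lit 285)))))) (XT.nd (nat_lit 390) (nat_lit 152) (nat_lit 0) (XT.nd (nat_lit 156) (nat_lit 76) (nat_lit 0) (XT.nd (nat_lit 78) (nat_lit 0) (nat_lit 0) (XT.lf (nat_lit 0) (nat_lit 211258604940) (nat_lit 152) (nat_lit 344632534316) (nat_lit 0) (nat_lit 202345849461) (nat_lit 5) (nat_lit 5) (nat_lit 7) (nat_lit 4) (nat_lit 5) (nat_lit 4) (nat_lit 393) (nat_lit 343) (nat_lit 284)) (XT.lf (nat_lit 0) (nat_lit 393036002837) (nat_lit 152) (nat_lit 82699307449) (nat_lit 0) (nat_lit 384122942326) (nat_lit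 5) (nat_lit 5) (nat_lit 7) (nat_lit 4) (nat_lit 5) (nat_lit 4) (nat_lit 394) (nat_lit 343) (nat_lit 283))) (XT.nd (nat_lit 78) (nat_lit 0) (nat_lit 0) (XT.lf (nat_lit 0) (nat_lit 230009876761) (nat_lit 76) (nat_lit 377592195093) (nat_lit 76) (nat_lit 368678869336) (nat_lit 4) (nat_lit 4) (nat_lit 5) (nat_lit 5) (nat_lit 5) (nat_lit 4) (nat_lit 395) (nat_lit 343) (nat_lit 282)) (XT.nd (nat_lit 78) (nat_lit 0) (nat_lit 0) (XT.lf (nat_lit 0) (nat_lit 594615102481) (nat_lit 76) (nat_lit 262136789852) (nat_lit 76) (nat_lit 253223233446) (nat_lit 4) (nat_lit 4) (nat_lit 5) (nat_lit 5) (nat_lit 5) (nat_lit 4) (nat_lit 396) (nat_lit 343) (nat_lit 281)) (XT.lf (nat_lit 0) (nat_lit 1013895151238) (nat_lit 76) (nat_lit 129371330082) (nat_lit 76) (nat_lit 120457573111) (nat_lit 4) (nat_lit 4) (nat_lit 5) (nat_lit 5) (nat_lit 5) (nat_lit 4) (nat_lit 397) (nat_lit 343) (nat_lit 280))))) (XT.nd (nat_lit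 234) (nat_lit 0) (nat_lit 0) (XT.nd (nat_lit 78) (nat_lit 0) (nat_lit 0) (XT.lf (nat_lit 0) (nat_lit 32606561171) (nat_lit 152) (nat_lit 1383354199483) (nat_lit 0) (nat_lit 24352921010) (nat_lit 2) (nat_lit 5) (nat_lit 4) (nat_lit 4) (nat_lit 2) (nat_lit 4) (nat_lit 398) (nat_lit 343) (nat_lit 279)) (XT.nd (nat_lit 78) (nat_lit 0) (nat_lit 0) (XT.lf (nat_lit 0) (nat_lit 212734733704) (nat_lit 152) (nat_lit 1225026816660) (nat_lit 0) (nat_lit 204480953122) (nat_lit 2) (nat_lit 5) (nat_lit 4) (nat_lit 4) (nat_lit 2) (nat_lit 4) (nat_lit 399) (nat_lit 343) (nat_lit 278)) (XT.lf (nat_lit 0) (nat_lit 419876520985) (nat_lit 152) (nat_lit 1042961958197) (nat_lit 0) (nat_lit 411622618297) (nat_lit 2) (nat_lit 5) (nat_lit 4) (nat_lit 4) (nat_lit 2) (nat_lit 4) (nat_lit 400) (nat_lit 343) (nat_lit 277)))) (XT.nd (nat_lit 78) (nat_lit 0) (nat_lit 0) (XT.lf (nat_lit 0) (nat_lit 658084697113) (nat_lit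 152) (nat_lit 833597485558) (nat_lit 0) (nat_lit 649830688246) (nat_lit 2) (nat_lit 5) (nat_lit 4) (nat_lit 4) (nat_lit 2) (nat_lit 4) (nat_lit 401) (nat_lit 343) (nat_lit 276)) (XT.nd (nat_lit 78) (nat_lit 0) (nat_lit 0) (XT.lf (nat_lit 0) (nat_lit 932019856837) (nat_lit 152) (nat_lit 592837137322) (nat_lit 0) (nat_lit 923765755640) (nat_lit 2) (nat_lit 5) (nat_lit 4) (nat_lit 4) (nat_lit 2) (nat_lit 4) (nat_lit 402) (nat_lit 343) (nat_lit 275)) (XT.lf (nat_lit 0) (nat_lit 1247041601109) (nat_lit 152) (nat_lit 315970384938) (nat_lit 0) (nat_lit 1238787419626) (nat_lit 2) (nat_lit 5) (nat_lit 4) (nat_lit 4) (nat_lit 2) (nat_lit 4) (nat_lit 403) (nat_lit 343) (nat_lit 274))))))))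
noncomputable def xc53 : XT := (XT.nd (nat_lit 1638) (nat_lit 0) (nat_lit 0) (XT.nd (nat_lit 780) (nat_lit 0) (nat_lit 0) (XT.nd (nat_lit 390) (nat_lit 0) (nat_lit 0) (XT.nd (nat_lit 156) (nat_lit 0) (nat_lit 0) (XT.nd (nat_lit 78) (nat_lit 0) (nat_lit 0) (XT.lf (nat_lit 0) (nat_lit 2547148476) (nat_lit 76) (nat_lit 1606827509343) (nat_lit 76) (nat_lit 1598573258046) (nat_lit 1) (nat_lit 4) (nat_lit 2) (nat_lit 5) (nat_lit 2) (nat_lit 4) (nat_lit 404) (nat_lit 343) (nat_lit 273)) (XT.lf (nat_lit 0) (nat_lit 387970430928) (nat_lit 76) (nat_lit 1647283443768) (nat_lit 76) (nat_lit 1639029131762) (nat_lit 1) (nat_lit 4) (nat_lit 2) (nat_lit 5) (nat_lit 2) (nat_lit 4) (nat_lit 405) (nat_lit 343) (nat_lit 272))) (XT.nd (nat_lit 78) (nat_lit 0) (nat_lit 0) (XT.lf (nat_lit 0) (nat_lit 831201912202) (nat_lit 76) (nat_lit 1693810508744) (nat_lit 76) (nat_lit 1685556143949) (nat_lit 1) (nat_lit 4) (nat_lit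 2) (nat_lit 5) (nat_lit 2) (nat_lit 4) (nat_lit 406) (nat_lit 343) (nat_lit 271)) (XT.nd (nat_lit 78) (nat_lit 0) (nat_lit 0) (XT.lf (nat_lit 0) (nat_lit 1340913512584) (nat_lit 76) (nat_lit 1747319016413) (nat_lit 76) (nat_lit 1739064605714) (nat_lit 1) (nat_lit 4) (nat_lit 2) (nat_lit 5) (nat_lit 2) (nat_lit 4) (nat_lit 407) (nat_lit 343) (nat_lit 270)) (XT.lf (nat_lit 0) (nat_lit 1927077850343) (nat_lit 76) (nat_lit 1808855872359) (nat_lit 76) (nat_lit 1800601421743) (nat_lit 1) (nat_lit 4) (nat_lit 2) (nat_lit 5) (nat_lit 2) (nat_lit 4) (nat_lit 408) (nat_lit 343) (nat_lit 269))))) (XT.nd (nat_lit 156) (nat_lit 0) (nat_lit 0) (XT.nd (nat_lit 78) (nat_lit 0) (nat_lit 0) (XT.lf (nat_lit 0) (nat_lit 2601163358173) (nat_lit 76) (nat_lit 1879625058547) (nat_lit 76) (nat_lit 1871370573221) (nat_lit 1) (nat_lit 4) (nat_lit 2) (nat_lit 5) (nat_lit 2) (nat_lit 4) (nat_lit 409) (nat_lit 343) (nat_lit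 268)) (XT.lf (nat_lit 0) (nat_lit 3376358665576) (nat_lit 76) (nat_lit 1961011189489) (nat_lit 76) (nat_lit 1952756673981) (nat_lit 1) (nat_lit 4) (nat_lit 2) (nat_lit 5) (nat_lit 2) (nat_lit 4) (nat_lit 410) (nat_lit 343) (nat_lit 267))) (XT.nd (nat_lit 78) (nat_lit 0) (nat_lit 0) (XT.lf (nat_lit 0) (nat_lit 4267830637262) (nat_lit 76) (nat_lit 2054606602529) (nat_lit 76) (nat_lit 2046352060775) (nat_lit 1) (nat_lit 4) (nat_lit 2) (nat_lit 5) (nat_lit 2) (nat_lit 4) (nat_lit 411) (nat_lit 343) (nat_lit 266)) (XT.nd (nat_lit 78) (nat_lit 0) (nat_lit 0) (XT.lf (nat_lit 0) (nat_lit 5293021116155) (nat_lit 76) (nat_lit 2162242512271) (nat_lit 76) (nat_lit 2153987947694) (nat_lit 1) (nat_lit 4) (nat_lit 2) (nat_lit 5) (nat_lit 2) (nat_lit 4) (nat_lit 412) (nat_lit 343) (nat_lit 265)) (XT.lf (nat_lit 0) (nat_lit 6471988176842) (nat_lit 76) (nat_lit 2286024838688) (nat_lit 76) (nat_lit 2277770254265)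 (nat_lit 1) (nat_lit 4) (nat_lit 2) (nat_lit 5) (nat_lit 2) (nat_lit 4) (nat_lit 413) (nat_lit 343) (nat_lit 264)))))) (XT.nd (nat_lit 390) (nat_lit 0) (nat_lit 0) (XT.nd (nat_lit 156) (nat_lit 0) (nat_lit 0) (XT.nd (nat_lit 78) (nat_lit 0) (nat_lit 0) (XT.lf (nat_lit 0) (nat_lit 7827798566163) (nat_lit 76) (nat_lit 2428375409904) (nat_lit 76) (nat_lit 2420120808225) (nat_lit 1) (nat_lit 4) (nat_lit 2) (nat_lit 5) (nat_lit 2) (nat_lit 4) (nat_lit 414) (nat_lit 343) (nat_lit 263)) (XT.lf (nat_lit 0) (nat_lit 9386979009126) (nat_lit 76) (nat_lit 2592079345793) (nat_lit 76) (nat_lit 2583824729107) (nat_lit 1) (nat_lit 4) (nat_lit 2) (nat_lit 5) (nat_lit 2) (nat_lit 4) (nat_lit 415) (nat_lit 343) (nat_lit 262))) (XT.nd (nat_lit 78) (nat_lit 0) (nat_lit 0) (XT.lf (nat_lit 0) (nat_lit 11180035210049) (nat_lit 76) (nat_lit 2780339549446) (nat_lit 76) (nat_lit 2772084919712) (nat_lit 1) (nat_lit 4)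 (nat_lit 2) (nat_lit 5) (nat_lit 2) (nat_lit 4) (nat_lit 416) (nat_lit 343) (nat_lit 261)) (XT.nd (nat_lit 78) (nat_lit 0) (nat_lit 0) (XT.lf (nat_lit 0) (nat_lit 13242048703300) (nat_lit 76) (nat_lit 2996839372676) (nat_lit 76) (nat_lit 2988584731595) (nat_lit 1) (nat_lit 4) (nat_lit 2) (nat_lit 5) (nat_lit 2) (nat_lit 4) (nat_lit 417) (nat_lit 343) (nat_lit 260)) (XT.lf (nat_lit 0) (nat_lit 15613363231136) (nat_lit 76) (nat_lit 3245814681588) (nat_lit 76) (nat_lit 3237560030640) (nat_lit 1) (nat_lit 4) (nat_lit 2) (nat_lit 5) (nat_lit 2) (nat_lit 4) (nat_lit 418) (nat_lit 343) (nat_lit 259))))) (XT.nd (nat_lit 234) (nat_lit 0) (nat_lit 0) (XT.nd (nat_lit 78) (nat_lit 0) (nat_lit 0) (XT.lf (nat_lit 0) (nat_lit 18340374077799) (nat_lit 76) (nat_lit 3532136732227) (nat_lit 76) (nat_lit 3523882072699) (nat_lit 1) (nat_lit 4) (nat_lit 2) (nat_lit 5) (nat_lit 2) (nat_lit 4) (nat_lit 419) (nat_lit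 343) (nat_lit 258)) (XT.nd (nat_lit 78) (nat_lit 0) (nat_lit 0) (XT.lf (nat_lit 0) (nat_lit 21476435803332) (nat_lit 76) (nat_lit 3861407477757) (nat_lit 76) (nat_lit 3853152810768) (nat_lit 1) (nat_lit 4) (nat_lit 2) (nat_lit 5) (nat_lit 2) (nat_lit 4) (nat_lit 420) (nat_lit 343) (nat_lit 257)) (XT.lf (nat_lit 0) (nat_lit 25082906137147) (nat_lit 76) (nat_lit 4240069171895) (nat_lit 76) (nat_lit 4231814498418) (nat_lit 1) (nat_lit 4) (nat_lit 2) (nat_lit 5) (nat_lit 2) (nat_lit 4) (nat_lit 421) (nat_lit 343) (nat_lit 256)))) (XT.nd (nat_lit 78) (nat_lit 0) (nat_lit 0) (XT.lf (nat_lit 0) (nat_lit 29230346455341) (nat_lit 76) (nat_lit 4675530413004) (nat_lit 76) (nat_lit 4667275733887) (nat_lit 1) (nat_lit 4) (nat_lit 2) (nat_lit 5) (nat_lit 2) (nat_lit 4) (nat_lit 422) (nat_lit 343) (nat_lit 255)) (XT.nd (nat_lit 78) (nat_lit 0) (nat_lit 0) (XT.lf (nat_lit 0) (nat_lit 33999902329357) (nat_lit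 76) (nat_lit 5176311094933) (nat_lit 76) (nat_lit 5168056410910) (nat_lit 1) (nat_lit 4) (nat_lit 2) (nat_lit 5) (nat_lit 2) (nat_lit 4) (nat_lit 423) (nat_lit 343) (nat_lit 254)) (XT.lf (nat_lit 0) (nat_lit 39484891156729) (nat_lit 76) (nat_lit 5752209100589) (nat_lit 76) (nat_lit 5743954412300) (nat_lit 1) (nat_lit 4) (nat_lit 2) (nat_lit 5) (nat_lit 2) (nat_lit 4) (nat_lit 424) (nat_lit 343) (nat_lit 253))))))) (XT.nd (nat_lit 47346) (nat_lit 0) (nat_lit 3800) (XT.nd (nat_lit 46956) (nat_lit 0) (nat_lit 5928) (XT.nd (nat_lit 156) (nat_lit 0) (nat_lit 0) (XT.nd (nat_lit 78) (nat_lit 0) (nat_lit 0) (XT.lf (nat_lit 0) (nat_lit 45792627936254) (nat_lit 76) (nat_lit 6414491999647) (nat_lit 76) (nat_lit 6406237307649) (nat_lit 1) (nat_lit 4) (nat_lit 2) (nat_lit 5) (nat_lit 2) (nat_lit 4) (nat_lit 425) (nat_lit 343) (nat_lit 252)) (XT.lf (nat_lit 0) (nat_lit 53046524909272) (nat_lit 76) (nat_lit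 7176117501002) (nat_lit 76) (nat_lit 7167862805779) (nat_lit 1) (nat_lit 4) (nat_lit 2) (nat_lit 5) (nat_lit 2) (nat_lit 4) (nat_lit 426) (nat_lit 343) (nat_lit 251))) (XT.nd (nat_lit 46644) (nat_lit 0) (nat_lit 7524) (XT.lf (nat_lit 0) (nat_lit 61388506146992) (nat_lit 76) (nat_lit 8051986973160) (nat_lit 76) (nat_lit 8043732275132) (nat_lit 1) (nat_lit 4) (nat_lit 2) (nat_lit 5) (nat_lit 2) (nat_lit 4) (nat_lit 427) (nat_lit 343) (nat_lit 250)) (XT.nd (nat_lit 78) (nat_lit 0) (nat_lit 0) (XT.lf (nat_lit 0) (nat_lit 1004973841) (nat_lit 0) (nat_lit 1004973841) (nat_lit 380) (nat_lit 1967006038) (nat_lit 100) (nat_lit 5) (nat_lit 100) (nat_lit 3) (nat_lit 105) (nat_lit 3) (nat_lit 344) (nat_lit 344) (nat_lit 332)) (XT.lf (nat_lit 76) (nat_lit 1484339020) (nat_lit 0) (nat_lit 5105520478) (nat_lit 456) (nat_lit 1778795230) (nat_lit 101) (nat_lit 5) (nat_lit 100) (nat_lit 5) (nat_lit 106) (nat_lit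 5) (nat_lit 345) (nat_lit 344) (nat_lit 331))))) (XT.nd (nat_lit 156) (nat_lit 1216) (nat_lit 0) (XT.nd (nat_lit 78) (nat_lit 0) (nat_lit 0) (XT.lf (nat_lit 0) (nat_lit 552511418) (nat_lit 456) (nat_lit 7589971359) (nat_lit 532) (nat_lit 710812780) (nat_lit 95) (nat_lit 5) (nat_lit 101) (nat_lit 5) (nat_lit 102) (nat_lit 5) (nat_lit 346) (nat_lit 344) (nat_lit 330)) (XT.lf (nat_lit 76) (nat_lit 1254366965) (nat_lit 0) (nat_lit 1908019590) (nat_lit 532) (nat_lit 6241859590) (nat_lit 96) (nat_lit 5) (nat_lit 95) (nat_lit 5) (nat_lit 102) (nat_lit 5) (nat_lit 347) (nat_lit 344) (nat_lit 329))) (XT.nd (nat_lit 78) (nat_lit 836) (nat_lit 0) (XT.lf (nat_lit 0) (nat_lit 1537957716) (nat_lit 456) (nat_lit 4710893481) (nat_lit 532) (nat_lit 3782219108) (nat_lit 90) (nat_lit 5) (nat_lit 96) (nat_lit 5) (nat_lit 97) (nat_lit 5) (nat_lit 348) (nat_lit 344) (nat_lit 328)) (XT.nd (nat_lit 78) (nat_lit 304)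 (nat_lit 0) (XT.lf (nat_lit 0) (nat_lit 2152096204) (nat_lit 532) (nat_lit 7788763689) (nat_lit 608) (nat_lit 799686720) (nat_lit 83) (nat_lit 5) (nat_lit 90) (nat_lit 5) (nat_lit 91) (nat_lit 5) (nat_lit 349) (nat_lit 344) (nat_lit 327)) (XT.lf (nat_lit 0) (nat_lit 2717165133) (nat_lit 304) (nat_lit 8479085015) (nat_lit 76) (nat_lit 337680285) (nat_lit 79) (nat_lit 5) (nat_lit 83) (nat_lit 5) (nat_lit 80) (nat_lit 5) (nat_lit 350) (nat_lit 344) (nat_lit 326)))))) (XT.nd (nat_lit 390) (nat_lit 988) (nat_lit 0) (XT.nd (nat_lit 156) (nat_lit 684) (nat_lit 0) (XT.nd (nat_lit 78) (nat_lit 228) (nat_lit 0) (XT.lf (nat_lit 0) (nat_lit 4250854735) (nat_lit 228) (nat_lit 2817305376) (nat_lit 304) (nat_lit 5348206907) (nat_lit 76) (nat_lit 5) (nat_lit 79) (nat_lit 5) (nat_lit 80) (nat_lit 5) (nat_lit 351) (nat_lit 344) (nat_lit 325)) (XT.lf (nat_lit 0) (nat_lit 5865870429) (nat_lit 228) (nat_lit 6565085463)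 (nat_lit 304) (nat_lit 971502061) (nat_lit 73) (nat_lit 5) (nat_lit 76) (nat_lit 5) (nat_lit 77) (nat_lit 5) (nat_lit 352) (nat_lit 344) (nat_lit 324))) (XT.nd (nat_lit 78) (nat_lit 380) (nat_lit 0) (XT.lf (nat_lit 0) (nat_lit 4279011844) (nat_lit 304) (nat_lit 6635702524) (nat_lit 76) (nat_lit 3580311410) (nat_lit 69) (nat_lit 5) (nat_lit 73) (nat_lit 5) (nat_lit 70) (nat_lit 5) (nat_lit 353) (nat_lit 344) (nat_lit 323)) (XT.nd (nat_lit 78) (nat_lit 228) (nat_lit 0) (XT.lf (nat_lit 0) (nat_lit 10361455923) (nat_lit 152) (nat_lit 389689173) (nat_lit 228) (nat_lit 4959004386) (nat_lit 67) (nat_lit 5) (nat_lit 69) (nat_lit 5) (nat_lit 70) (nat_lit 5) (nat_lit 354) (nat_lit 344) (nat_lit 322)) (XT.lf (nat_lit 0) (nat_lit 1699975473) (nat_lit 228) (nat_lit 3718874593) (nat_lit 76) (nat_lit 11633191141) (nat_lit 64) (nat_lit 5) (nat_lit 67) (nat_lit 5) (nat_lit 65) (nat_lit 5) (nat_lit 355) (nat_lit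 344) (nat_lit 321))))) (XT.nd (nat_lit 234) (nat_lit 380) (nat_lit 0) (XT.nd (nat_lit 78) (nat_lit 456) (nat_lit 0) (XT.lf (nat_lit 0) (nat_lit 9694797450) (nat_lit 228) (nat_lit 1680367119) (nat_lit 76) (nat_lit 7159308103) (nat_lit 62) (nat_lit 5) (nat_lit 65) (nat_lit 5) (nat_lit 63) (nat_lit 5) (nat_lit 356) (nat_lit 344) (nat_lit 320)) (XT.nd (nat_lit 78) (nat_lit 228) (nat_lit 0) (XT.lf (nat_lit 0) (nat_lit 1039699895) (nat_lit 76) (nat_lit 18558277556) (nat_lit 152) (nat_lit 584569575) (nat_lit 59) (nat_lit 5) (nat_lit 60) (nat_lit 5) (nat_lit 61) (nat_lit 4) (nat_lit 357) (nat_lit 344) (nat_lit 319)) (XT.lf (nat_lit 0) (nat_lit 4249417065) (nat_lit 152) (nat_lit 5163596972) (nat_lit 228) (nat_lit 12571695829) (nat_lit 56) (nat_lit 5) (nat_lit 58) (nat_lit 5) (nat_lit 59) (nat_lit 5) (nat_lit 358) (nat_lit 344) (nat_lit 318)))) (XT.nd (nat_lit 78) (nat_lit 304) (nat_lit 0) (XT.lf (nat_lit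 0) (nat_lit 8234939155) (nat_lit 76) (nat_lit 13542711310) (nat_lit 152) (nat_lit 2206175973) (nat_lit 55) (nat_lit 5) (nat_lit 56) (nat_lit 5) (nat_lit 57) (nat_lit 4) (nat_lit 359) (nat_lit 344) (nat_lit 317)) (XT.nd (nat_lit 78) (nat_lit 76) (nat_lit 0) (XT.lf (nat_lit 0) (nat_lit 10176282594) (nat_lit 228) (nat_lit 13255764061) (nat_lit 76) (nat_lit 2756234565) (nat_lit 52) (nat_lit 5) (nat_lit 55) (nat_lit 5) (nat_lit 53) (nat_lit 4) (nat_lit 360) (nat_lit 344) (nat_lit 316)) (XT.lf (nat_lit 0) (nat_lit 18483820538) (nat_lit 76) (nat_lit 6995871826) (nat_lit 152) (nat_lit 3143594965) (nat_lit 51) (nat_lit 5) (nat_lit 52) (nat_lit 5) (nat_lit 53) (nat_lit 4) (nat_lit 361) (nat_lit 344) (nat_lit 315))))))))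
noncomputable def xc54 : XT := (XT.nd (nat_lit 1638) (nat_lit 1064) (nat_lit 0) (XT.nd (nat_lit 780) (nat_lit 1216) (nat_lit 0) (XT.nd (nat_lit 390) (nat_lit 684) (nat_lit 0) (XT.nd (nat_lit 156) (nat_lit 456) (nat_lit 0) (XT.nd (nat_lit 78) (nat_lit 76) (nat_lit 0) (XT.lf (nat_lit 0) (nat_lit 12299535645) (nat_lit 228) (nat_lit 6447995036) (nat_lit 76) (nat_lit 12555392815) (nat_lit 48) (nat_lit 5) (nat_lit 51) (nat_lit 5) (nat_lit 49) (nat_lit 4) (nat_lit 362) (nat_lit 344) (nat_lit 314)) (XT.lf (nat_lit 0) (nat_lit 31106655146) (nat_lit 152) (nat_lit 1783655487) (nat_lit 0) (nat_lit 1388972963) (nat_lit 47) (nat_lit 5) (nat_lit 49) (nat_lit 4) (nat_lit 47) (nat_lit 4) (nat_lit 363) (nat_lit 344) (nat_lit 313))) (XT.nd (nat_lit 78) (nat_lit 228) (nat_lit 0) (XT.lf (nat_lit 0) (nat_lit 3585850585) (nat_lit 76) (nat_lit 12450263342) (nat_lit 152) (nat_lit 21496633799) (nat_lit 44) (nat_lit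 5) (nat_lit 45) (nat_lit 5) (nat_lit 46) (nat_lit 4) (nat_lit 364) (nat_lit 344) (nat_lit 312)) (XT.nd (nat_lit 78) (nat_lit 152) (nat_lit 0) (XT.lf (nat_lit 0) (nat_lit 10276485318) (nat_lit 76) (nat_lit 29235466699) (nat_lit 76) (nat_lit 1629797984) (nat_lit 43) (nat_lit 4) (nat_lit 44) (nat_lit 5) (nat_lit 44) (nat_lit 4) (nat_lit 365) (nat_lit 344) (nat_lit 311)) (XT.lf (nat_lit 0) (nat_lit 17845478301) (nat_lit 76) (nat_lit 4023398054) (nat_lit 152) (nat_lit 23245352197) (nat_lit 41) (nat_lit 5) (nat_lit 42) (nat_lit 5) (nat_lit 43) (nat_lit 4) (nat_lit 366) (nat_lit 344) (nat_lit 310))))) (XT.nd (nat_lit 156) (nat_lit 456) (nat_lit 0) (XT.nd (nat_lit 78) (nat_lit 76) (nat_lit 0) (XT.lf (nat_lit 0) (nat_lit 1312174239) (nat_lit 152) (nat_lit 22894001252) (nat_lit 76) (nat_lit 25302611463) (nat_lit 39) (nat_lit 5) (nat_lit 41) (nat_lit 5) (nat_lit 40) (nat_lit 4) (nat_lit 367) (nat_lit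 344) (nat_lit 309)) (XT.lf (nat_lit 0) (nat_lit 30120101984) (nat_lit 152) (nat_lit 17867284338) (nat_lit 0) (nat_lit 6371389449) (nat_lit 38) (nat_lit 5) (nat_lit 40) (nat_lit 4) (nat_lit 38) (nat_lit 4) (nat_lit 368) (nat_lit 344) (nat_lit 308))) (XT.nd (nat_lit 78) (nat_lit 304) (nat_lit 0) (XT.lf (nat_lit 0) (nat_lit 5654903309) (nat_lit 152) (nat_lit 12006872641) (nat_lit 76) (nat_lit 42067499819) (nat_lit 36) (nat_lit 5) (nat_lit 38) (nat_lit 5) (nat_lit 37) (nat_lit 4) (nat_lit 369) (nat_lit 344) (nat_lit 307)) (XT.nd (nat_lit 78) (nat_lit 228) (nat_lit 0) (XT.lf (nat_lit 0) (nat_lit 41054368180) (nat_lit 152) (nat_lit 5574476747) (nat_lit 0) (nat_lit 19029576518) (nat_lit 35) (nat_lit 5) (nat_lit 37) (nat_lit 4) (nat_lit 35) (nat_lit 4) (nat_lit 370) (nat_lit 344) (nat_lit 306)) (XT.lf (nat_lit 0) (nat_lit 1919495231) (nat_lit 76) (nat_lit 9599034045) (nat_lit 152) (nat_lit 60724840170)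 (nat_lit 32) (nat_lit 5) (nat_lit 33) (nat_lit 5) (nat_lit 34) (nat_lit 4) (nat_lit 371) (nat_lit 344) (nat_lit 305)))))) (XT.nd (nat_lit 390) (nat_lit 684) (nat_lit 0) (XT.nd (nat_lit 156) (nat_lit 304) (nat_lit 0) (XT.nd (nat_lit 78) (nat_lit 152) (nat_lit 0) (XT.lf (nat_lit 0) (nat_lit 9944551859) (nat_lit 76) (nat_lit 44986073326) (nat_lit 76) (nat_lit 24568072911) (nat_lit 31) (nat_lit 4) (nat_lit 32) (nat_lit 5) (nat_lit 32) (nat_lit 4) (nat_lit 372) (nat_lit 344) (nat_lit 304)) (XT.lf (nat_lit 0) (nat_lit 18933385652) (nat_lit 152) (nat_lit 68635844429) (nat_lit 0) (nat_lit 18589251) (nat_lit 29) (nat_lit 5) (nat_lit 31) (nat_lit 4) (nat_lit 29) (nat_lit 4) (nat_lit 373) (nat_lit 344) (nat_lit 303))) (XT.nd (nat_lit 78) (nat_lit 228) (nat_lit 0) (XT.lf (nat_lit 0) (nat_lit 27523135612) (nat_lit 76) (nat_lit 43960352146) (nat_lit 76) (nat_lit 25037520563) (nat_lit 28) (nat_lit 4) (nat_lit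 29) (nat_lit 5) (nat_lit 29) (nat_lit 4) (nat_lit 374) (nat_lit 344) (nat_lit 302)) (XT.nd (nat_lit 78) (nat_lit 76) (nat_lit 0) (XT.lf (nat_lit 0) (nat_lit 26994110070) (nat_lit 152) (nat_lit 70034920624) (nat_lit 0) (nat_lit 9466500163) (nat_lit 26) (nat_lit 5) (nat_lit 28) (nat_lit 4) (nat_lit 26) (nat_lit 4) (nat_lit 375) (nat_lit 344) (nat_lit 301)) (XT.lf (nat_lit 0) (nat_lit 44281266965) (nat_lit 76) (nat_lit 45409380819) (nat_lit 76) (nat_lit 27876145215) (nat_lit 25) (nat_lit 4) (nat_lit 26) (nat_lit 5) (nat_lit 26) (nat_lit 4) (nat_lit 376) (nat_lit 344) (nat_lit 300))))) (XT.nd (nat_lit 234) (nat_lit 304) (nat_lit 0) (XT.nd (nat_lit 78) (nat_lit 228) (nat_lit 0) (XT.lf (nat_lit 0) (nat_lit 33651092164) (nat_lit 152) (nat_lit 78876288966) (nat_lit 0) (nat_lit 17412085206) (nat_lit 23) (nat_lit 5) (nat_lit 25) (nat_lit 4) (nat_lit 23) (nat_lit 4) (nat_lit 377) (nat_lit 344) (nat_lit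 299)) (XT.nd (nat_lit 78) (nat_lit 152) (nat_lit 0) (XT.lf (nat_lit 0) (nat_lit 55104831636) (nat_lit 76) (nat_lit 52432880217) (nat_lit 76) (nat_lit 36189934523) (nat_lit 22) (nat_lit 4) (nat_lit 23) (nat_lit 5) (nat_lit 23) (nat_lit 4) (nat_lit 378) (nat_lit 344) (nat_lit 298)) (XT.lf (nat_lit 0) (nat_lit 35473467763) (nat_lit 152) (nat_lit 103280937276) (nat_lit 0) (nat_lit 20430531946) (nat_lit 20) (nat_lit 5) (nat_lit 22) (nat_lit 4) (nat_lit 20) (nat_lit 4) (nat_lit 379) (nat_lit 344) (nat_lit 297)))) (XT.nd (nat_lit 78) (nat_lit 228) (nat_lit 0) (XT.lf (nat_lit 0) (nat_lit 50673419635) (nat_lit 76) (nat_lit 70415146302) (nat_lit 76) (nat_lit 55369452846) (nat_lit 19) (nat_lit 4) (nat_lit 20) (nat_lit 5) (nat_lit 20) (nat_lit 4) (nat_lit 380) (nat_lit 344) (nat_lit 296)) (XT.nd (nat_lit 78) (nat_lit 76) (nat_lit 0) (XT.lf (nat_lit 0) (nat_lit 26373771181) (nat_lit 152) (nat_lit 157118323244)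 (nat_lit 0) (nat_lit 12440353215) (nat_lit 17) (nat_lit 5) (nat_lit 19) (nat_lit 4) (nat_lit 17) (nat_lit 4) (nat_lit 381) (nat_lit 344) (nat_lit 295)) (XT.lf (nat_lit 0) (nat_lit 14792864218) (nat_lit 76) (nat_lit 108432712494) (nat_lit 76) (nat_lit 94497363813) (nat_lit 16) (nat_lit 4) (nat_lit 17) (nat_lit 5) (nat_lit 17) (nat_lit 4) (nat_lit 382) (nat_lit 344) (nat_lit 294))))))) (XT.nd (nat_lit 780) (nat_lit 380) (nat_lit 0) (XT.nd (nat_lit 390) (nat_lit 304) (nat_lit 0) (XT.nd (nat_lit 156) (nat_lit 228) (nat_lit 0) (XT.nd (nat_lit 78) (nat_lit 152) (nat_lit 0) (XT.lf (nat_lit 0) (nat_lit 221952393829) (nat_lit 76) (nat_lit 17201375915) (nat_lit 76) (nat_lit 3264348352) (nat_lit 16) (nat_lit 4) (nat_lit 17) (nat_lit 5) (nat_lit 17) (nat_lit 4) (nat_lit 383) (nat_lit 344) (nat_lit 293)) (XT.lf (nat_lit 0) (nat_lit 103571937216) (nat_lit 152) (nat_lit 75823847608) (nat_lit 0) (nat_lit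 90665930308) (nat_lit 14) (nat_lit 5) (nat_lit 16) (nat_lit 4) (nat_lit 14) (nat_lit 4) (nat_lit 384) (nat_lit 344) (nat_lit 292))) (XT.nd (nat_lit 78) (nat_lit 152) (nat_lit 0) (XT.lf (nat_lit 0) (nat_lit 147326104973) (nat_lit 76) (nat_lit 83528503885) (nat_lit 76) (nat_lit 70621321537) (nat_lit 13) (nat_lit 4) (nat_lit 14) (nat_lit 5) (nat_lit 14) (nat_lit 4) (nat_lit 385) (nat_lit 344) (nat_lit 291)) (XT.nd (nat_lit 78) (nat_lit 0) (nat_lit 0) (XT.lf (nat_lit 0) (nat_lit 42435201514) (nat_lit 152) (nat_lit 264224463231) (nat_lit 0) (nat_lit 30483160337) (nat_lit 11) (nat_lit 5) (nat_lit 13) (nat_lit 4) (nat_lit 11) (nat_lit 4) (nat_lit 386) (nat_lit 344) (nat_lit 290)) (XT.lf (nat_lit 0) (nat_lit 175283229766) (nat_lit 152) (nat_lit 38838245259) (nat_lit 0) (nat_lit 163330365624) (nat_lit 11) (nat_lit 5) (nat_lit 13) (nat_lit 4) (nat_lit 11) (nat_lit 4) (nat_lit 387) (nat_lit 344) (nat_lit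 289))))) (XT.nd (nat_lit 156) (nat_lit 76) (nat_lit 0) (XT.nd (nat_lit 78) (nat_lit 152) (nat_lit 0) (XT.lf (nat_lit 0) (nat_lit 231923598696) (nat_lit 76) (nat_lit 101696143624) (nat_lit 76) (nat_lit 89742563861) (nat_lit 10) (nat_lit 4) (nat_lit 11) (nat_lit 5) (nat_lit 11) (nat_lit 4) (nat_lit 388) (nat_lit 344) (nat_lit 288)) (XT.lf (nat_lit 0) (nat_lit 41212791659) (nat_lit 152) (nat_lit 404434876831) (nat_lit 0) (nat_lit 30144086063) (nat_lit 8) (nat_lit 5) (nat_lit 10) (nat_lit 4) (nat_lit 8) (nat_lit 4) (nat_lit 389) (nat_lit 344) (nat_lit 287))) (XT.nd (nat_lit 78) (nat_lit 76) (nat_lit 0) (XT.lf (nat_lit 0) (nat_lit 195165205674) (nat_lit 152) (nat_lit 155944536116) (nat_lit 0) (nat_lit 184095999049) (nat_lit 8) (nat_lit 5) (nat_lit 10) (nat_lit 4) (nat_lit 8) (nat_lit 4) (nat_lit 390) (nat_lit 344) (nat_lit 286)) (XT.nd (nat_lit 78) (nat_lit 0) (nat_lit 0) (XT.lf (nat_lit 0) (nat_lit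 136627899785) (nat_lit 76) (nat_lit 238855852967) (nat_lit 76) (nat_lit 227786210662) (nat_lit 7) (nat_lit 4) (nat_lit 8) (nat_lit 5) (nat_lit 8) (nat_lit 4) (nat_lit 391) (nat_lit 344) (nat_lit 285)) (XT.lf (nat_lit 0) (nat_lit 482505803962) (nat_lit 76) (nat_lit 104872874434) (nat_lit 76) (nat_lit 93802853279) (nat_lit 7) (nat_lit 4) (nat_lit 8) (nat_lit 5) (nat_lit 8) (nat_lit 4) (nat_lit 392) (nat_lit 344) (nat_lit 284)))))) (XT.nd (nat_lit 390) (nat_lit 152) (nat_lit 0) (XT.nd (nat_lit 156) (nat_lit 76) (nat_lit 0) (XT.nd (nat_lit 78) (nat_lit 0) (nat_lit 0) (XT.lf (nat_lit 0) (nat_lit 61278747286) (nat_lit 152) (nat_lit 658035403065) (nat_lit 0) (nat_lit 51028422664) (nat_lit 5) (nat_lit 5) (nat_lit 7) (nat_lit 4) (nat_lit 5) (nat_lit 4) (nat_lit 393) (nat_lit 344) (nat_lit 283)) (XT.lf (nat_lit 0) (nat_lit 243051642098) (nat_lit 152) (nat_lit 396111502834) (nat_lit 0) (nat_lit 232801052231)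 (nat_lit 5) (nat_lit 5) (nat_lit 7) (nat_lit 4) (nat_lit 5) (nat_lit 4) (nat_lit 394) (nat_lit 344) (nat_lit 282))) (XT.nd (nat_lit 78) (nat_lit 76) (nat_lit 0) (XT.lf (nat_lit 0) (nat_lit 452082052322) (nat_lit 152) (nat_lit 94916454323) (nat_lit 0) (nat_lit 441831231806) (nat_lit 5) (nat_lit 5) (nat_lit 7) (nat_lit 4) (nat_lit 5) (nat_lit 4) (nat_lit 395) (nat_lit 344) (nat_lit 281)) (XT.nd (nat_lit 78) (nat_lit 0) (nat_lit 0) (XT.lf (nat_lit 0) (nat_lit 264683215480) (nat_lit 76) (nat_lit 434142125591) (nat_lit 76) (nat_lit 423891104511) (nat_lit 4) (nat_lit 4) (nat_lit 5) (nat_lit 5) (nat_lit 5) (nat_lit 4) (nat_lit 396) (nat_lit 344) (nat_lit 280)) (XT.lf (nat_lit 0) (nat_lit 683956808900) (nat_lit 76) (nat_lit 301380005055) (nat_lit 76) (nat_lit 291128809571) (nat_lit 4) (nat_lit 4) (nat_lit 5) (nat_lit 5) (nat_lit 5) (nat_lit 4) (nat_lit 397) (nat_lit 344) (nat_lit 279))))) (XT.nd (nat_lit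 234) (nat_lit 0) (nat_lit 0) (XT.nd (nat_lit 78) (nat_lit 152) (nat_lit 0) (XT.lf (nat_lit 0) (nat_lit 1166109372661) (nat_lit 76) (nat_lit 148709809355) (nat_lit 76) (nat_lit 138458462216) (nat_lit 4) (nat_lit 4) (nat_lit 5) (nat_lit 5) (nat_lit 5) (nat_lit 4) (nat_lit 398) (nat_lit 344) (nat_lit 278)) (XT.nd (nat_lit 78) (nat_lit 0) (nat_lit 0) (XT.lf (nat_lit 0) (nat_lit 37557962892) (nat_lit 152) (nat_lit 1590732084856) (nat_lit 0) (nat_lit 28065852694) (nat_lit 2) (nat_lit 5) (nat_lit 4) (nat_lit 4) (nat_lit 2) (nat_lit 4) (nat_lit 399) (nat_lit 344) (nat_lit 277)) (XT.lf (nat_lit 0) (nat_lit 244697480756) (nat_lit 152) (nat_lit 1408671930854) (nat_lit 0) (nat_lit 235205264380) (nat_lit 2) (nat_lit 5) (nat_lit 4) (nat_lit 4) (nat_lit 2) (nat_lit 4) (nat_lit 400) (nat_lit 344) (nat_lit 276)))) (XT.nd (nat_lit 78) (nat_lit 0) (nat_lit 0) (XT.lf (nat_lit 0) (nat_lit 482903683478) (nat_lit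 152) (nat_lit 1199311549052) (nat_lit 0) (nat_lit 473411374772) (nat_lit 2) (nat_lit 5) (nat_lit 4) (nat_lit 4) (nat_lit 2) (nat_lit 4) (nat_lit 401) (nat_lit 344) (nat_lit 275)) (XT.nd (nat_lit 78) (nat_lit 0) (nat_lit 0) (XT.lf (nat_lit 0) (nat_lit 756837127197) (nat_lit 152) (nat_lit 958554758067) (nat_lit 0) (nat_lit 747344738205) (nat_lit 2) (nat_lit 5) (nat_lit 4) (nat_lit 4) (nat_lit 2) (nat_lit 4) (nat_lit 402) (nat_lit 344) (nat_lit 274)) (XT.lf (nat_lit 0) (nat_lit 1071857379290) (nat_lit 152) (nat_lit 681691098943) (nat_lit 0) (nat_lit 1062364920484) (nat_lit 2) (nat_lit 5) (nat_lit 4) (nat_lit 4) (nat_lit 2) (nat_lit 4) (nat_lit 403) (nat_lit 344) (nat_lit 273))))))))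
noncomputable def xc55 : XT := (XT.nd (nat_lit 1638) (nat_lit 0) (nat_lit 0) (XT.nd (nat_lit 780) (nat_lit 0) (nat_lit 0) (XT.nd (nat_lit 390) (nat_lit 0) (nat_lit 0) (XT.nd (nat_lit 156) (nat_lit 0) (nat_lit 0) (XT.nd (nat_lit 78) (nat_lit 76) (nat_lit 0) (XT.lf (nat_lit 0) (nat_lit 1434127879473) (nat_lit 152) (nat_lit 363303674002) (nat_lit 0) (nat_lit 1424635359958) (nat_lit 2) (nat_lit 5) (nat_lit 4) (nat_lit 4) (nat_lit 2) (nat_lit 4) (nat_lit 404) (nat_lit 344) (nat_lit 272)) (XT.lf (nat_lit 0) (nat_lit 2986218691) (nat_lit 76) (nat_lit 1847822128776) (nat_lit 76) (nat_lit 1838329556471) (nat_lit 1) (nat_lit 4) (nat_lit 2) (nat_lit 5) (nat_lit 2) (nat_lit 4) (nat_lit 405) (nat_lit 344) (nat_lit 271))) (XT.nd (nat_lit 78) (nat_lit 0) (nat_lit 0) (XT.lf (nat_lit 0) (nat_lit 446215558996) (nat_lit 76) (nat_lit 1894350302099) (nat_lit 76) (nat_lit 1884857683891) (nat_lit 1) (nat_lit 4)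 (nat_lit 2) (nat_lit 5) (nat_lit 2) (nat_lit 4) (nat_lit 406) (nat_lit 344) (nat_lit 270)) (XT.nd (nat_lit 78) (nat_lit 0) (nat_lit 0) (XT.lf (nat_lit 0) (nat_lit 955925297666) (nat_lit 76) (nat_lit 1947859773548) (nat_lit 76) (nat_lit 1938367115423) (nat_lit 1) (nat_lit 4) (nat_lit 2) (nat_lit 5) (nat_lit 2) (nat_lit 4) (nat_lit 407) (nat_lit 344) (nat_lit 269)) (XT.lf (nat_lit 0) (nat_lit 1542088016545) (nat_lit 76) (nat_lit 2009397467564) (nat_lit 76) (nat_lit 1999904774729) (nat_lit 1) (nat_lit 4) (nat_lit 2) (nat_lit 5) (nat_lit 2) (nat_lit 4) (nat_lit 408) (nat_lit 344) (nat_lit 268))))) (XT.nd (nat_lit 156) (nat_lit 0) (nat_lit 0) (XT.nd (nat_lit 78) (nat_lit 0) (nat_lit 0) (XT.lf (nat_lit 0) (nat_lit 2216172116654) (nat_lit 76) (nat_lit 2080167382508) (nat_lit 76) (nat_lit 2070674659490) (nat_lit 1) (nat_lit 4) (nat_lit 2) (nat_lit 5) (nat_lit 2) (nat_lit 4) (nat_lit 409) (nat_lit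 344) (nat_lit 267)) (XT.lf (nat_lit 0) (nat_lit 2991366199951) (nat_lit 76) (nat_lit 2161554147151) (nat_lit 76) (nat_lit 2152061397887) (nat_lit 1) (nat_lit 4) (nat_lit 2) (nat_lit 5) (nat_lit 2) (nat_lit 4) (nat_lit 410) (nat_lit 344) (nat_lit 266))) (XT.nd (nat_lit 78) (nat_lit 0) (nat_lit 0) (XT.lf (nat_lit 0) (nat_lit 3882837107197) (nat_lit 76) (nat_lit 2255150111235) (nat_lit 76) (nat_lit 2245657339150) (nat_lit 1) (nat_lit 4) (nat_lit 2) (nat_lit 5) (nat_lit 2) (nat_lit 4) (nat_lit 411) (nat_lit 344) (nat_lit 265)) (XT.nd (nat_lit 78) (nat_lit 0) (nat_lit 0) (XT.lf (nat_lit 0) (nat_lit 4908026660490) (nat_lit 76) (nat_lit 2362786500146) (nat_lit 76) (nat_lit 2353293708215) (nat_lit 1) (nat_lit 4) (nat_lit 2) (nat_lit 5) (nat_lit 2) (nat_lit 4) (nat_lit 412) (nat_lit 344) (nat_lit 264)) (XT.lf (nat_lit 0) (nat_lit 6086992916307) (nat_lit 76) (nat_lit 2486569243231) (nat_lit 76) (nat_lit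 2477076434043) (nat_lit 1) (nat_lit 4) (nat_lit 2) (nat_lit 5) (nat_lit 2) (nat_lit 4) (nat_lit 413) (nat_lit 344) (nat_lit 263)))))) (XT.nd (nat_lit 390) (nat_lit 0) (nat_lit 0) (XT.nd (nat_lit 156) (nat_lit 0) (nat_lit 0) (XT.nd (nat_lit 78) (nat_lit 0) (nat_lit 0) (XT.lf (nat_lit 0) (nat_lit 7442802605741) (nat_lit 76) (nat_lit 2628920176769) (nat_lit 76) (nat_lit 2619427352574) (nat_lit 1) (nat_lit 4) (nat_lit 2) (nat_lit 5) (nat_lit 2) (nat_lit 4) (nat_lit 414) (nat_lit 344) (nat_lit 262)) (XT.lf (nat_lit 0) (nat_lit 9001982440107) (nat_lit 76) (nat_lit 2792624427718) (nat_lit 76) (nat_lit 2783131590475) (nat_lit 1) (nat_lit 4) (nat_lit 2) (nat_lit 5) (nat_lit 2) (nat_lit 4) (nat_lit 415) (nat_lit 344) (nat_lit 261))) (XT.nd (nat_lit 78) (nat_lit 0) (nat_lit 0) (XT.lf (nat_lit 0) (nat_lit 10795038111816) (nat_lit 76) (nat_lit 2980884905339) (nat_lit 76) (nat_lit 2971392056748) (nat_lit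 1) (nat_lit 4) (nat_lit 2) (nat_lit 5) (nat_lit 2) (nat_lit 4) (nat_lit 416) (nat_lit 344) (nat_lit 260)) (XT.nd (nat_lit 78) (nat_lit 0) (nat_lit 0) (XT.lf (nat_lit 0) (nat_lit 12857051144880) (nat_lit 76) (nat_lit 3197384966800) (nat_lit 76) (nat_lit 3187892108343) (nat_lit 1) (nat_lit 4) (nat_lit 2) (nat_lit 5) (nat_lit 2) (nat_lit 4) (nat_lit 417) (nat_lit 344) (nat_lit 259)) (XT.lf (nat_lit 0) (nat_lit 15228365272554) (nat_lit 76) (nat_lit 3446360482870) (nat_lit 76) (nat_lit 3436867615833) (nat_lit 1) (nat_lit 4) (nat_lit 2) (nat_lit 5) (nat_lit 2) (nat_lit 4) (nat_lit 418) (nat_lit 344) (nat_lit 258))))) (XT.nd (nat_lit 234) (nat_lit 0) (nat_lit 0) (XT.nd (nat_lit 78) (nat_lit 0) (nat_lit 0) (XT.lf (nat_lit 0) (nat_lit 17955375771250) (nat_lit 76) (nat_lit 3732682713646) (nat_lit 76) (nat_lit 3723189839149) (nat_lit 1) (nat_lit 4) (nat_lit 2) (nat_lit 5) (nat_lit 2) (nat_lit 4) (nat_lit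 419) (nat_lit 344) (nat_lit 257)) (XT.nd (nat_lit 78) (nat_lit 0) (nat_lit 0) (XT.lf (nat_lit 0) (nat_lit 21091437194202) (nat_lit 76) (nat_lit 4061953615817) (nat_lit 76) (nat_lit 4052460734832) (nat_lit 1) (nat_lit 4) (nat_lit 2) (nat_lit 5) (nat_lit 2) (nat_lit 4) (nat_lit 420) (nat_lit 344) (nat_lit 256)) (XT.lf (nat_lit 0) (nat_lit 24697907264904) (nat_lit 76) (nat_lit 4440615446165) (nat_lit 76) (nat_lit 4431122559538) (nat_lit 1) (nat_lit 4) (nat_lit 2) (nat_lit 5) (nat_lit 2) (nat_lit 4) (nat_lit 421) (nat_lit 344) (nat_lit 255)))) (XT.nd (nat_lit 78) (nat_lit 0) (nat_lit 0) (XT.lf (nat_lit 0) (nat_lit 28845347354304) (nat_lit 76) (nat_lit 4876076805717) (nat_lit 76) (nat_lit 4866583914186) (nat_lit 1) (nat_lit 4) (nat_lit 2) (nat_lit 5) (nat_lit 2) (nat_lit 4) (nat_lit 422) (nat_lit 344) (nat_lit 254)) (XT.nd (nat_lit 78) (nat_lit 0) (nat_lit 0) (XT.lf (nat_lit 0) (nat_lit 33614903029368)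 (nat_lit 76) (nat_lit 5376857590640) (nat_lit 76) (nat_lit 5367364694843) (nat_lit 1) (nat_lit 4) (nat_lit 2) (nat_lit 5) (nat_lit 2) (nat_lit 4) (nat_lit 423) (nat_lit 344) (nat_lit 253)) (XT.lf (nat_lit 0) (nat_lit 39099891683739) (nat_lit 76) (nat_lit 5952755685856) (nat_lit 76) (nat_lit 5943262786350) (nat_lit 1) (nat_lit 4) (nat_lit 2) (nat_lit 5) (nat_lit 2) (nat_lit 4) (nat_lit 424) (nat_lit 344) (nat_lit 252))))))) (XT.nd (nat_lit 47424) (nat_lit 0) (nat_lit 3800) (XT.nd (nat_lit 47034) (nat_lit 0) (nat_lit 5928) (XT.nd (nat_lit 156) (nat_lit 0) (nat_lit 0) (XT.nd (nat_lit 78) (nat_lit 0) (nat_lit 0) (XT.lf (nat_lit 0) (nat_lit 45407628312829) (nat_lit 76) (nat_lit 6615038662793) (nat_lit 76) (nat_lit 6605545760061) (nat_lit 1) (nat_lit 4) (nat_lit 2) (nat_lit 5) (nat_lit 2) (nat_lit 4) (nat_lit 425) (nat_lit 344) (nat_lit 251)) (XT.lf (nat_lit 0) (nat_lit 52661525155032) (nat_lit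 76) (nat_lit 7376664231869) (nat_lit 76) (nat_lit 7367171326332) (nat_lit 1) (nat_lit 4) (nat_lit 2) (nat_lit 5) (nat_lit 2) (nat_lit 4) (nat_lit 426) (nat_lit 344) (nat_lit 250))) (XT.nd (nat_lit 46722) (nat_lit 0) (nat_lit 7068) (XT.lf (nat_lit 0) (nat_lit 61003506279001) (nat_lit 76) (nat_lit 8252533762913) (nat_lit 76) (nat_lit 8243040854937) (nat_lit 1) (nat_lit 4) (nat_lit 2) (nat_lit 5) (nat_lit 2) (nat_lit 4) (nat_lit 427) (nat_lit 344) (nat_lit 249)) (XT.nd (nat_lit 78) (nat_lit 456) (nat_lit 0) (XT.lf (nat_lit 0) (nat_lit 2186717559) (nat_lit 0) (nat_lit 2186717559) (nat_lit 380) (nat_lit 34797192) (nat_lit 100) (nat_lit 5) (nat_lit 100) (nat_lit 3) (nat_lit 105) (nat_lit 3) (nat_lit 345) (nat_lit 345) (nat_lit 330)) (XT.lf (nat_lit 0) (nat_lit 1747357883) (nat_lit 456) (nat_lit 5437530034) (nat_lit 532) (nat_lit 2147258492) (nat_lit 94) (nat_lit 5) (nat_lit 100) (nat_lit 5) (nat_lit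 101) (nat_lit 5) (nat_lit 346) (nat_lit 345) (nat_lit 329))))) (XT.nd (nat_lit 156) (nat_lit 1140) (nat_lit 0) (XT.nd (nat_lit 78) (nat_lit 0) (nat_lit 76) (XT.lf (nat_lit 76) (nat_lit 3699701526) (nat_lit 0) (nat_lit 177746348) (nat_lit 532) (nat_lit 6044050372) (nat_lit 95) (nat_lit 5) (nat_lit 94) (nat_lit 5) (nat_lit 101) (nat_lit 5) (nat_lit 347) (nat_lit 345) (nat_lit 328)) (XT.lf (nat_lit 76) (nat_lit 3740928157) (nat_lit 0) (nat_lit 2766558270) (nat_lit 532) (nat_lit 4077366101) (nat_lit 96) (nat_lit 5) (nat_lit 95) (nat_lit 5) (nat_lit 102) (nat_lit 5) (nat_lit 348) (nat_lit 345) (nat_lit 327))) (XT.nd (nat_lit 78) (nat_lit 836) (nat_lit 0) (XT.lf (nat_lit 0) (nat_lit 4095668063) (nat_lit 456) (nat_lit 5630803620) (nat_lit 532) (nat_lit 1605712970) (nat_lit 90) (nat_lit 5) (nat_lit 96) (nat_lit 5) (nat_lit 97) (nat_lit 5) (nat_lit 349) (nat_lit 345) (nat_lit 326)) (XT.nd (nat_lit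 78) (nat_lit 228) (nat_lit 0) (XT.lf (nat_lit 0) (nat_lit 1445651918) (nat_lit 608) (nat_lit 7411152691) (nat_lit 76) (nat_lit 3310790499) (nat_lit 82) (nat_lit 5) (nat_lit 90) (nat_lit 5) (nat_lit 83) (nat_lit 5) (nat_lit 350) (nat_lit 345) (nat_lit 325)) (XT.lf (nat_lit 0) (nat_lit 5199296237) (nat_lit 304) (nat_lit 7352448289) (nat_lit 76) (nat_lit 546084982) (nat_lit 79) (nat_lit 5) (nat_lit 83) (nat_lit 5) (nat_lit 80) (nat_lit 5) (nat_lit 351) (nat_lit 345) (nat_lit 324)))))) (XT.nd (nat_lit 390) (nat_lit 988) (nat_lit 0) (XT.nd (nat_lit 156) (nat_lit 608) (nat_lit 0) (XT.nd (nat_lit 78) (nat_lit 304) (nat_lit 0) (XT.lf (nat_lit 0) (nat_lit 7083961389) (nat_lit 228) (nat_lit 2901186077) (nat_lit 304) (nat_lit 4144937030) (nat_lit 76) (nat_lit 5) (nat_lit 79) (nat_lit 5) (nat_lit 80) (nat_lit 5) (nat_lit 352) (nat_lit 345) (nat_lit 323)) (XT.lf (nat_lit 0) (nat_lit 655367361) (nat_lit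 304) (nat_lit 6411316139) (nat_lit 76) (nat_lit 8210797956) (nat_lit 72) (nat_lit 5) (nat_lit 76) (nat_lit 5) (nat_lit 73) (nat_lit 5) (nat_lit 353) (nat_lit 345) (nat_lit 322))) (XT.nd (nat_lit 78) (nat_lit 380) (nat_lit 0) (XT.lf (nat_lit 0) (nat_lit 6474705164) (nat_lit 304) (nat_lit 5479331955) (nat_lit 76) (nat_lit 4590797620) (nat_lit 69) (nat_lit 5) (nat_lit 73) (nat_lit 5) (nat_lit 70) (nat_lit 5) (nat_lit 354) (nat_lit 345) (nat_lit 321)) (XT.nd (nat_lit 78) (nat_lit 228) (nat_lit 0) (XT.lf (nat_lit 0) (nat_lit 13765308294) (nat_lit 228) (nat_lit 4072358181) (nat_lit 76) (nat_lit 116766478) (nat_lit 67) (nat_lit 5) (nat_lit 70) (nat_lit 5) (nat_lit 68) (nat_lit 5) (nat_lit 355) (nat_lit 345) (nat_lit 320)) (XT.lf (nat_lit 0) (nat_lit 3261733475) (nat_lit 228) (nat_lit 2314970313) (nat_lit 76) (nat_lit 13928506341) (nat_lit 64) (nat_lit 5) (nat_lit 67) (nat_lit 5) (nat_lit 65) (nat_lit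 5) (nat_lit 356) (nat_lit 345) (nat_lit 319))))) (XT.nd (nat_lit 234) (nat_lit 380) (nat_lit 0) (XT.nd (nat_lit 78) (nat_lit 456) (nat_lit 0) (XT.lf (nat_lit 0) (nat_lit 12343337054) (nat_lit 228) (nat_lit 57113263) (nat_lit 76) (nat_lit 8818563897) (nat_lit 62) (nat_lit 5) (nat_lit 65) (nat_lit 5) (nat_lit 63) (nat_lit 5) (nat_lit 357) (nat_lit 345) (nat_lit 318)) (XT.nd (nat_lit 78) (nat_lit 152) (nat_lit 0) (XT.lf (nat_lit 0) (nat_lit 531459060) (nat_lit 152) (nat_lit 20054568179) (nat_lit 76) (nat_lit 2531521009) (nat_lit 58) (nat_lit 5) (nat_lit 60) (nat_lit 5) (nat_lit 59) (nat_lit 5) (nat_lit 358) (nat_lit 345) (nat_lit 317)) (XT.lf (nat_lit 0) (nat_lit 6665857063) (nat_lit 152) (nat_lit 5219360082) (nat_lit 228) (nat_lit 13312320476) (nat_lit 56) (nat_lit 5) (nat_lit 58) (nat_lit 5) (nat_lit 59) (nat_lit 5) (nat_lit 359) (nat_lit 345) (nat_lit 316)))) (XT.nd (nat_lit 78) (nat_lit 304)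 (nat_lit 0) (XT.lf (nat_lit 0) (nat_lit 11160492452) (nat_lit 76) (nat_lit 14861446851) (nat_lit 152) (nat_lit 1481198806) (nat_lit 55) (nat_lit 5) (nat_lit 56) (nat_lit 5) (nat_lit 57) (nat_lit 4) (nat_lit 360) (nat_lit 345) (nat_lit 315)) (XT.nd (nat_lit 78) (nat_lit 76) (nat_lit 0) (XT.lf (nat_lit 0) (nat_lit 12629820421) (nat_lit 228) (nat_lit 13592083694) (nat_lit 76) (nat_lit 3820410593) (nat_lit 52) (nat_lit 5) (nat_lit 55) (nat_lit 5) (nat_lit 53) (nat_lit 4) (nat_lit 361) (nat_lit 345) (nat_lit 314)) (XT.lf (nat_lit 0) (nat_lit 22768601215) (nat_lit 76) (nat_lit 7375583578) (nat_lit 152) (nat_lit 2705156845) (nat_lit 51) (nat_lit 5) (nat_lit 52) (nat_lit 5) (nat_lit 53) (nat_lit 4) (nat_lit 362) (nat_lit 345) (nat_lit 313))))))))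
noncomputable def xc56 : XT := (XT.nd (nat_lit 1638) (nat_lit 1064) (nat_lit 0) (XT.nd (nat_lit 780) (nat_lit 1216) (nat_lit 0) (XT.nd (nat_lit 390) (nat_lit 684) (nat_lit 0) (XT.nd (nat_lit 156) (nat_lit 456) (nat_lit 0) (XT.nd (nat_lit 78) (nat_lit 76) (nat_lit 0) (XT.lf (nat_lit 0) (nat_lit 14945850291) (nat_lit 228) (nat_lit 5941771181) (nat_lit 76) (nat_lit 15046601058) (nat_lit 48) (nat_lit 5) (nat_lit 51) (nat_lit 5) (nat_lit 49) (nat_lit 4) (nat_lit 363) (nat_lit 345) (nat_lit 312)) (XT.lf (nat_lit 0) (nat_lit 36516842616) (nat_lit 152) (nat_lit 659027141) (nat_lit 0) (nat_lit 2185746245) (nat_lit 47) (nat_lit 5) (nat_lit 49) (nat_lit 4) (nat_lit 47) (nat_lit 4) (nat_lit 364) (nat_lit 345) (nat_lit 311))) (XT.nd (nat_lit 78) (nat_lit 228) (nat_lit 0) (XT.lf (nat_lit 0) (nat_lit 5503735935) (nat_lit 76) (nat_lit 13666378186) (nat_lit 152) (nat_lit 23934238989) (nat_lit 44) (nat_lit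 5) (nat_lit 45) (nat_lit 5) (nat_lit 46) (nat_lit 4) (nat_lit 365) (nat_lit 345) (nat_lit 310)) (XT.nd (nat_lit 78) (nat_lit 152) (nat_lit 0) (XT.lf (nat_lit 0) (nat_lit 13120185826) (nat_lit 76) (nat_lit 32997051413) (nat_lit 76) (nat_lit 1141478368) (nat_lit 43) (nat_lit 4) (nat_lit 44) (nat_lit 5) (nat_lit 44) (nat_lit 4) (nat_lit 366) (nat_lit 345) (nat_lit 309)) (XT.lf (nat_lit 0) (nat_lit 21747869749) (nat_lit 76) (nat_lit 4036145409) (nat_lit 152) (nat_lit 26046548997) (nat_lit 41) (nat_lit 5) (nat_lit 42) (nat_lit 5) (nat_lit 43) (nat_lit 4) (nat_lit 367) (nat_lit 345) (nat_lit 308))))) (XT.nd (nat_lit 156) (nat_lit 456) (nat_lit 0) (XT.nd (nat_lit 78) (nat_lit 76) (nat_lit 0) (XT.lf (nat_lit 0) (nat_lit 2116539082) (nat_lit 152) (nat_lit 25140773251) (nat_lit 76) (nat_lit 29629178222) (nat_lit 39) (nat_lit 5) (nat_lit 41) (nat_lit 5) (nat_lit 40) (nat_lit 4) (nat_lit 368) (nat_lit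 345) (nat_lit 307)) (XT.lf (nat_lit 0) (nat_lit 35205354109) (nat_lit 152) (nat_lit 19428989823) (nat_lit 0) (nat_lit 7832859394) (nat_lit 38) (nat_lit 5) (nat_lit 40) (nat_lit 4) (nat_lit 38) (nat_lit 4) (nat_lit 369) (nat_lit 345) (nat_lit 306))) (XT.nd (nat_lit 78) (nat_lit 304) (nat_lit 0) (XT.lf (nat_lit 0) (nat_lit 7034468058) (nat_lit 152) (nat_lit 12756195474) (nat_lit 76) (nat_lit 48855489318) (nat_lit 36) (nat_lit 5) (nat_lit 38) (nat_lit 5) (nat_lit 37) (nat_lit 4) (nat_lit 370) (nat_lit 345) (nat_lit 305)) (XT.nd (nat_lit 78) (nat_lit 228) (nat_lit 0) (XT.lf (nat_lit 0) (nat_lit 47709185554) (nat_lit 152) (nat_lit 5420624975) (nat_lit 0) (nat_lit 22337634254) (nat_lit 35) (nat_lit 5) (nat_lit 37) (nat_lit 4) (nat_lit 35) (nat_lit 4) (nat_lit 371) (nat_lit 345) (nat_lit 304)) (XT.lf (nat_lit 0) (nat_lit 3187169403) (nat_lit 76) (nat_lit 10548166547) (nat_lit 152) (nat_lit 69305411170)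 (nat_lit 32) (nat_lit 5) (nat_lit 33) (nat_lit 5) (nat_lit 34) (nat_lit 4) (nat_lit 372) (nat_lit 345) (nat_lit 303)))))) (XT.nd (nat_lit 390) (nat_lit 684) (nat_lit 0) (XT.nd (nat_lit 156) (nat_lit 304) (nat_lit 0) (XT.nd (nat_lit 78) (nat_lit 152) (nat_lit 0) (XT.lf (nat_lit 0) (nat_lit 12358066433) (nat_lit 76) (nat_lit 51269826235) (nat_lit 76) (nat_lit 27758991410) (nat_lit 31) (nat_lit 4) (nat_lit 32) (nat_lit 5) (nat_lit 32) (nat_lit 4) (nat_lit 373) (nat_lit 345) (nat_lit 302)) (XT.lf (nat_lit 0) (nat_lit 22213066334) (nat_lit 152) (nat_lit 78040960464) (nat_lit 0) (nat_lit 436787714) (nat_lit 29) (nat_lit 5) (nat_lit 31) (nat_lit 4) (nat_lit 29) (nat_lit 4) (nat_lit 374) (nat_lit 345) (nat_lit 301))) (XT.nd (nat_lit 78) (nat_lit 228) (nat_lit 0) (XT.lf (nat_lit 0) (nat_lit 32466510456) (nat_lit 76) (nat_lit 50141423144) (nat_lit 76) (nat_lit 28359068770) (nat_lit 28) (nat_lit 4) (nat_lit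 29) (nat_lit 5) (nat_lit 29) (nat_lit 4) (nat_lit 375) (nat_lit 345) (nat_lit 300)) (XT.nd (nat_lit 78) (nat_lit 76) (nat_lit 0) (XT.lf (nat_lit 0) (nat_lit 31429573770) (nat_lit 152) (nat_lit 79753540996) (nat_lit 0) (nat_lit 11255835218) (nat_lit 26) (nat_lit 5) (nat_lit 28) (nat_lit 4) (nat_lit 26) (nat_lit 4) (nat_lit 376) (nat_lit 345) (nat_lit 299)) (XT.lf (nat_lit 0) (nat_lit 51643491460) (nat_lit 76) (nat_lit 51854024416) (nat_lit 76) (nat_lit 31676032028) (nat_lit 25) (nat_lit 4) (nat_lit 26) (nat_lit 5) (nat_lit 26) (nat_lit 4) (nat_lit 377) (nat_lit 345) (nat_lit 298))))) (XT.nd (nat_lit 234) (nat_lit 304) (nat_lit 0) (XT.nd (nat_lit 78) (nat_lit 228) (nat_lit 0) (XT.lf (nat_lit 0) (nat_lit 39038500372) (nat_lit 152) (nat_lit 90012955357) (nat_lit 0) (nat_lit 20351749099) (nat_lit 23) (nat_lit 5) (nat_lit 25) (nat_lit 4) (nat_lit 23) (nat_lit 4) (nat_lit 378) (nat_lit 345) (nat_lit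 297)) (XT.nd (nat_lit 78) (nat_lit 152) (nat_lit 0) (XT.lf (nat_lit 0) (nat_lit 64006523928) (nat_lit 76) (nat_lit 59972569637) (nat_lit 76) (nat_lit 41282840114) (nat_lit 22) (nat_lit 4) (nat_lit 23) (nat_lit 5) (nat_lit 23) (nat_lit 4) (nat_lit 379) (nat_lit 345) (nat_lit 296)) (XT.lf (nat_lit 0) (nat_lit 41093430295) (nat_lit 152) (nat_lit 118159603278) (nat_lit 0) (nat_lit 23785727234) (nat_lit 20) (nat_lit 5) (nat_lit 22) (nat_lit 4) (nat_lit 20) (nat_lit 4) (nat_lit 380) (nat_lit 345) (nat_lit 295)))) (XT.nd (nat_lit 78) (nat_lit 228) (nat_lit 0) (XT.lf (nat_lit 0) (nat_lit 58835979601) (nat_lit 76) (nat_lit 80689326331) (nat_lit 76) (nat_lit 63379538098) (nat_lit 19) (nat_lit 4) (nat_lit 20) (nat_lit 5) (nat_lit 20) (nat_lit 4) (nat_lit 381) (nat_lit 345) (nat_lit 294)) (XT.nd (nat_lit 78) (nat_lit 76) (nat_lit 0) (XT.lf (nat_lit 0) (nat_lit 30593003329) (nat_lit 152) (nat_lit 180144514454)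 (nat_lit 0) (nat_lit 14563742749) (nat_lit 17) (nat_lit 5) (nat_lit 19) (nat_lit 4) (nat_lit 17) (nat_lit 4) (nat_lit 382) (nat_lit 345) (nat_lit 293)) (XT.lf (nat_lit 0) (nat_lit 17507511001) (nat_lit 76) (nat_lit 124442664636) (nat_lit 76) (nat_lit 108411944160) (nat_lit 16) (nat_lit 4) (nat_lit 17) (nat_lit 5) (nat_lit 17) (nat_lit 4) (nat_lit 383) (nat_lit 345) (nat_lit 292))))))) (XT.nd (nat_lit 780) (nat_lit 380) (nat_lit 0) (XT.nd (nat_lit 390) (nat_lit 304) (nat_lit 0) (XT.nd (nat_lit 156) (nat_lit 228) (nat_lit 0) (XT.nd (nat_lit 78) (nat_lit 152) (nat_lit 0) (XT.lf (nat_lit 0) (nat_lit 255676311295) (nat_lit 76) (nat_lit 19559882536) (nat_lit 76) (nat_lit 3527892583) (nat_lit 16) (nat_lit 4) (nat_lit 17) (nat_lit 5) (nat_lit 17) (nat_lit 4) (nat_lit 384) (nat_lit 345) (nat_lit 291)) (XT.lf (nat_lit 0) (nat_lit 119309258615) (nat_lit 152) (nat_lit 86781789401) (nat_lit 0) (nat_lit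 104463801351) (nat_lit 14) (nat_lit 5) (nat_lit 16) (nat_lit 4) (nat_lit 14) (nat_lit 4) (nat_lit 385) (nat_lit 345) (nat_lit 290))) (XT.nd (nat_lit 78) (nat_lit 152) (nat_lit 0) (XT.lf (nat_lit 0) (nat_lit 169805474605) (nat_lit 76) (nat_lit 95861719696) (nat_lit 76) (nat_lit 81015373630) (nat_lit 13) (nat_lit 4) (nat_lit 14) (nat_lit 5) (nat_lit 14) (nat_lit 4) (nat_lit 386) (nat_lit 345) (nat_lit 289)) (XT.nd (nat_lit 78) (nat_lit 0) (nat_lit 0) (XT.lf (nat_lit 0) (nat_lit 48978015978) (nat_lit 152) (nat_lit 303491346101) (nat_lit 0) (nat_lit 35230683629) (nat_lit 11) (nat_lit 5) (nat_lit 13) (nat_lit 4) (nat_lit 11) (nat_lit 4) (nat_lit 387) (nat_lit 345) (nat_lit 288)) (XT.lf (nat_lit 0) (nat_lit 201730091828) (nat_lit 152) (nat_lit 44345037165) (nat_lit 0) (nat_lit 187982137199) (nat_lit 11) (nat_lit 5) (nat_lit 13) (nat_lit 4) (nat_lit 11) (nat_lit 4) (nat_lit 388) (nat_lit 345) (nat_lit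 287))))) (XT.nd (nat_lit 156) (nat_lit 76) (nat_lit 0) (XT.nd (nat_lit 78) (nat_lit 152) (nat_lit 0) (XT.lf (nat_lit 0) (nat_lit 267004086288) (nat_lit 76) (nat_lit 116799880121) (nat_lit 76) (nat_lit 103051384379) (nat_lit 10) (nat_lit 4) (nat_lit 11) (nat_lit 5) (nat_lit 11) (nat_lit 4) (nat_lit 389) (nat_lit 345) (nat_lit 286)) (XT.lf (nat_lit 0) (nat_lit 47530738901) (nat_lit 152) (nat_lit 464818681739) (nat_lit 0) (nat_lit 34800214573) (nat_lit 8) (nat_lit 5) (nat_lit 10) (nat_lit 4) (nat_lit 8) (nat_lit 4) (nat_lit 390) (nat_lit 345) (nat_lit 285))) (XT.nd (nat_lit 78) (nat_lit 76) (nat_lit 0) (XT.lf (nat_lit 0) (nat_lit 224558272172) (nat_lit 152) (nat_lit 179091497737) (nat_lit 0) (nat_lit 211827368993) (nat_lit 8) (nat_lit 5) (nat_lit 10) (nat_lit 4) (nat_lit 8) (nat_lit 4) (nat_lit 391) (nat_lit 345) (nat_lit 284)) (XT.nd (nat_lit 78) (nat_lit 0) (nat_lit 0) (XT.lf (nat_lit 0) (nat_lit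 157346089322) (nat_lit 76) (nat_lit 274568470742) (nat_lit 76) (nat_lit 261837238127) (nat_lit 7) (nat_lit 4) (nat_lit 8) (nat_lit 5) (nat_lit 8) (nat_lit 4) (nat_lit 392) (nat_lit 345) (nat_lit 283)) (XT.lf (nat_lit 0) (nat_lit 555076461138) (nat_lit 76) (nat_lit 120503144582) (nat_lit 76) (nat_lit 107771625501) (nat_lit 7) (nat_lit 4) (nat_lit 8) (nat_lit 5) (nat_lit 8) (nat_lit 4) (nat_lit 393) (nat_lit 345) (nat_lit 282)))))) (XT.nd (nat_lit 390) (nat_lit 152) (nat_lit 0) (XT.nd (nat_lit 156) (nat_lit 76) (nat_lit 0) (XT.nd (nat_lit 78) (nat_lit 0) (nat_lit 0) (XT.lf (nat_lit 0) (nat_lit 70561208437) (nat_lit 152) (nat_lit 756552964282) (nat_lit 0) (nat_lit 58772534195) (nat_lit 5) (nat_lit 5) (nat_lit 7) (nat_lit 4) (nat_lit 5) (nat_lit 4) (nat_lit 394) (nat_lit 345) (nat_lit 281)) (XT.lf (nat_lit 0) (nat_lit 279588213682) (nat_lit 152) (nat_lit 455364968048) (nat_lit 0) (nat_lit 267799338875)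 (nat_lit 5) (nat_lit 5) (nat_lit 7) (nat_lit 4) (nat_lit 5) (nat_lit 4) (nat_lit 395) (nat_lit 345) (nat_lit 280))) (XT.nd (nat_lit 78) (nat_lit 76) (nat_lit 0) (XT.lf (nat_lit 0) (nat_lit 519962903882) (nat_lit 152) (nat_lit 109011957070) (nat_lit 0) (nat_lit 508173854672) (nat_lit 5) (nat_lit 5) (nat_lit 7) (nat_lit 4) (nat_lit 5) (nat_lit 4) (nat_lit 396) (nat_lit 345) (nat_lit 279)) (XT.nd (nat_lit 78) (nat_lit 0) (nat_lit 0) (XT.lf (nat_lit 0) (nat_lit 304515646539) (nat_lit 76) (nat_lit 499196224191) (nat_lit 76) (nat_lit 487407023326) (nat_lit 4) (nat_lit 4) (nat_lit 5) (nat_lit 5) (nat_lit 5) (nat_lit 4) (nat_lit 397) (nat_lit 345) (nat_lit 278)) (XT.lf (nat_lit 0) (nat_lit 786663329137) (nat_lit 76) (nat_lit 346528553431) (nat_lit 76) (nat_lit 334739220692) (nat_lit 4) (nat_lit 4) (nat_lit 5) (nat_lit 5) (nat_lit 5) (nat_lit 4) (nat_lit 398) (nat_lit 345) (nat_lit 277))))) (XT.nd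 (nat_lit 234) (nat_lit 0) (nat_lit 0) (XT.nd (nat_lit 78) (nat_lit 152) (nat_lit 0) (XT.lf (nat_lit 0) (nat_lit 1341124038474) (nat_lit 76) (nat_lit 170965452600) (nat_lit 76) (nat_lit 159176005187) (nat_lit 4) (nat_lit 4) (nat_lit 5) (nat_lit 5) (nat_lit 5) (nat_lit 4) (nat_lit 399) (nat_lit 345) (nat_lit 276)) (XT.nd (nat_lit 78) (nat_lit 0) (nat_lit 0) (XT.lf (nat_lit 0) (nat_lit 43237341670) (nat_lit 152) (nat_lit 1829247194710) (nat_lit 0) (nat_lit 32321094329) (nat_lit 2) (nat_lit 5) (nat_lit 4) (nat_lit 4) (nat_lit 2) (nat_lit 4) (nat_lit 400) (nat_lit 345) (nat_lit 275)) (XT.lf (nat_lit 0) (nat_lit 281441828386) (nat_lit 152) (nat_lit 1619890370158) (nat_lit 0) (nat_lit 270525500759) (nat_lit 2) (nat_lit 5) (nat_lit 4) (nat_lit 4) (nat_lit 2) (nat_lit 4) (nat_lit 401) (nat_lit 345) (nat_lit 274)))) (XT.nd (nat_lit 78) (nat_lit 0) (nat_lit 0) (XT.lf (nat_lit 0) (nat_lit 555373779927)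 (nat_lit 152) (nat_lit 1379136672432) (nat_lit 0) (nat_lit 544457382485) (nat_lit 2) (nat_lit 5) (nat_lit 4) (nat_lit 4) (nat_lit 2) (nat_lit 4) (nat_lit 402) (nat_lit 345) (nat_lit 273)) (XT.nd (nat_lit 78) (nat_lit 0) (nat_lit 0) (XT.lf (nat_lit 0) (nat_lit 870392734474) (nat_lit 152) (nat_lit 1102275703100) (nat_lit 0) (nat_lit 859476276324) (nat_lit 2) (nat_lit 5) (nat_lit 4) (nat_lit 4) (nat_lit 2) (nat_lit 4) (nat_lit 403) (nat_lit 345) (nat_lit 272)) (XT.lf (nat_lit 0) (nat_lit 1232662106356) (nat_lit 152) (nat_lit 783890617109) (nat_lit 0) (nat_lit 1221745595416) (nat_lit 2) (nat_lit 5) (nat_lit 4) (nat_lit 4) (nat_lit 2) (nat_lit 4) (nat_lit 404) (nat_lit 345) (nat_lit 271))))))))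
noncomputable def xc57 : XT := (XT.nd (nat_lit 1638) (nat_lit 0) (nat_lit 0) (XT.nd (nat_lit 780) (nat_lit 0) (nat_lit 0) (XT.nd (nat_lit 390) (nat_lit 0) (nat_lit 0) (XT.nd (nat_lit 156) (nat_lit 0) (nat_lit 0) (XT.nd (nat_lit 78) (nat_lit 76) (nat_lit 0) (XT.lf (nat_lit 0) (nat_lit 1649269774587) (nat_lit 152) (nat_lit 417752141037) (nat_lit 0) (nat_lit 1638353217744) (nat_lit 2) (nat_lit 5) (nat_lit 4) (nat_lit 4) (nat_lit 2) (nat_lit 4) (nat_lit 405) (nat_lit 345) (nat_lit 270)) (XT.lf (nat_lit 0) (nat_lit 3477250129) (nat_lit 76) (nat_lit 2124973136584) (nat_lit 76) (nat_lit 2114056539824) (nat_lit 1) (nat_lit 4) (nat_lit 2) (nat_lit 5) (nat_lit 2) (nat_lit 4) (nat_lit 406) (nat_lit 345) (nat_lit 269))) (XT.nd (nat_lit 78) (nat_lit 0) (nat_lit 0) (XT.lf (nat_lit 0) (nat_lit 513185369919) (nat_lit 76) (nat_lit 2178483446103) (nat_lit 76) (nat_lit 2167566814632) (nat_lit 1) (nat_lit 4)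 (nat_lit 2) (nat_lit 5) (nat_lit 2) (nat_lit 4) (nat_lit 407) (nat_lit 345) (nat_lit 268)) (XT.nd (nat_lit 78) (nat_lit 0) (nat_lit 0) (XT.lf (nat_lit 0) (nat_lit 1099346681076) (nat_lit 76) (nat_lit 2240021868875) (nat_lit 76) (nat_lit 2229105207222) (nat_lit 1) (nat_lit 4) (nat_lit 2) (nat_lit 5) (nat_lit 2) (nat_lit 4) (nat_lit 408) (nat_lit 345) (nat_lit 267)) (XT.lf (nat_lit 0) (nat_lit 1773429557078) (nat_lit 76) (nat_lit 2310792417520) (nat_lit 76) (nat_lit 2299875729621) (nat_lit 1) (nat_lit 4) (nat_lit 2) (nat_lit 5) (nat_lit 2) (nat_lit 4) (nat_lit 409) (nat_lit 345) (nat_lit 266))))) (XT.nd (nat_lit 156) (nat_lit 0) (nat_lit 0) (XT.nd (nat_lit 78) (nat_lit 0) (nat_lit 0) (XT.lf (nat_lit 0) (nat_lit 2548622575935) (nat_lit 76) (nat_lit 2392179733207) (nat_lit 76) (nat_lit 2381263022486) (nat_lit 1) (nat_lit 4) (nat_lit 2) (nat_lit 5) (nat_lit 2) (nat_lit 4) (nat_lit 410) (nat_lit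 345) (nat_lit 265)) (XT.lf (nat_lit 0) (nat_lit 3440092557581) (nat_lit 76) (nat_lit 2485776176461) (nat_lit 76) (nat_lit 2474859445894) (nat_lit 1) (nat_lit 4) (nat_lit 2) (nat_lit 5) (nat_lit 2) (nat_lit 4) (nat_lit 411) (nat_lit 345) (nat_lit 264))) (XT.nd (nat_lit 78) (nat_lit 0) (nat_lit 0) (XT.lf (nat_lit 0) (nat_lit 4465281306005) (nat_lit 76) (nat_lit 2593412982040) (nat_lit 76) (nat_lit 2582496234217) (nat_lit 1) (nat_lit 4) (nat_lit 2) (nat_lit 5) (nat_lit 2) (nat_lit 4) (nat_lit 412) (nat_lit 345) (nat_lit 263)) (XT.nd (nat_lit 78) (nat_lit 0) (nat_lit 0) (XT.lf (nat_lit 0) (nat_lit 5644246861936) (nat_lit 76) (nat_lit 2717196087446) (nat_lit 76) (nat_lit 2706279324616) (nat_lit 1) (nat_lit 4) (nat_lit 2) (nat_lit 5) (nat_lit 2) (nat_lit 4) (nat_lit 413) (nat_lit 345) (nat_lit 262)) (XT.lf (nat_lit 0) (nat_lit 7000055942773) (nat_lit 76) (nat_lit 2859547336045) (nat_lit 76) (nat_lit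 2848630560166) (nat_lit 1) (nat_lit 4) (nat_lit 2) (nat_lit 5) (nat_lit 2) (nat_lit 4) (nat_lit 414) (nat_lit 345) (nat_lit 261)))))) (XT.nd (nat_lit 390) (nat_lit 0) (nat_lit 0) (XT.nd (nat_lit 156) (nat_lit 0) (nat_lit 0) (XT.nd (nat_lit 78) (nat_lit 0) (nat_lit 0) (XT.lf (nat_lit 0) (nat_lit 8559235247924) (nat_lit 76) (nat_lit 3023251860961) (nat_lit 76) (nat_lit 3012335073735) (nat_lit 1) (nat_lit 4) (nat_lit 2) (nat_lit 5) (nat_lit 2) (nat_lit 4) (nat_lit 415) (nat_lit 345) (nat_lit 260)) (XT.lf (nat_lit 0) (nat_lit 10352290459446) (nat_lit 76) (nat_lit 3211512576813) (nat_lit 76) (nat_lit 3200595779721) (nat_lit 1) (nat_lit 4) (nat_lit 2) (nat_lit 5) (nat_lit 2) (nat_lit 4) (nat_lit 416) (nat_lit 345) (nat_lit 259))) (XT.nd (nat_lit 78) (nat_lit 0) (nat_lit 0) (XT.lf (nat_lit 0) (nat_lit 12414303092348) (nat_lit 76) (nat_lit 3428012845432) (nat_lit 76) (nat_lit 3417096039760) (nat_lit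 1) (nat_lit 4) (nat_lit 2) (nat_lit 5) (nat_lit 2) (nat_lit 4) (nat_lit 417) (nat_lit 345) (nat_lit 258)) (XT.nd (nat_lit 78) (nat_lit 0) (nat_lit 0) (XT.lf (nat_lit 0) (nat_lit 14785616872055) (nat_lit 76) (nat_lit 3676988541639) (nat_lit 76) (nat_lit 3666071728507) (nat_lit 1) (nat_lit 4) (nat_lit 2) (nat_lit 5) (nat_lit 2) (nat_lit 4) (nat_lit 418) (nat_lit 345) (nat_lit 257)) (XT.lf (nat_lit 0) (nat_lit 17512627068170) (nat_lit 76) (nat_lit 3963310929057) (nat_lit 76) (nat_lit 3952394109437) (nat_lit 1) (nat_lit 4) (nat_lit 2) (nat_lit 5) (nat_lit 2) (nat_lit 4) (nat_lit 419) (nat_lit 345) (nat_lit 256))))) (XT.nd (nat_lit 234) (nat_lit 0) (nat_lit 0) (XT.nd (nat_lit 78) (nat_lit 0) (nat_lit 0) (XT.lf (nat_lit 0) (nat_lit 20648688228009) (nat_lit 76) (nat_lit 4292581967437) (nat_lit 76) (nat_lit 4281665142176) (nat_lit 1) (nat_lit 4) (nat_lit 2) (nat_lit 5) (nat_lit 2) (nat_lit 4) (nat_lit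 420) (nat_lit 345) (nat_lit 255)) (XT.nd (nat_lit 78) (nat_lit 0) (nat_lit 0) (XT.lf (nat_lit 0) (nat_lit 24255158069917) (nat_lit 76) (nat_lit 4671243916228) (nat_lit 76) (nat_lit 4660327086061) (nat_lit 1) (nat_lit 4) (nat_lit 2) (nat_lit 5) (nat_lit 2) (nat_lit 4) (nat_lit 421) (nat_lit 345) (nat_lit 254)) (XT.lf (nat_lit 0) (nat_lit 28402597960365) (nat_lit 76) (nat_lit 5106705378775) (nat_lit 76) (nat_lit 5095788544343) (nat_lit 1) (nat_lit 4) (nat_lit 2) (nat_lit 5) (nat_lit 2) (nat_lit 4) (nat_lit 422) (nat_lit 345) (nat_lit 253)))) (XT.nd (nat_lit 78) (nat_lit 0) (nat_lit 0) (XT.lf (nat_lit 0) (nat_lit 33172153462428) (nat_lit 76) (nat_lit 5607486253258) (nat_lit 76) (nat_lit 5596569415116) (nat_lit 1) (nat_lit 4) (nat_lit 2) (nat_lit 5) (nat_lit 2) (nat_lit 4) (nat_lit 423) (nat_lit 345) (nat_lit 252)) (XT.nd (nat_lit 78) (nat_lit 0) (nat_lit 0) (XT.lf (nat_lit 0) (nat_lit 38657141966364)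 (nat_lit 76) (nat_lit 6183384426353) (nat_lit 76) (nat_lit 6172467584985) (nat_lit 1) (nat_lit 4) (nat_lit 2) (nat_lit 5) (nat_lit 2) (nat_lit 4) (nat_lit 424) (nat_lit 345) (nat_lit 251)) (XT.lf (nat_lit 0) (nat_lit 44964878464639) (nat_lit 76) (nat_lit 6845667471009) (nat_lit 76) (nat_lit 6834750626837) (nat_lit 1) (nat_lit 4) (nat_lit 2) (nat_lit 5) (nat_lit 2) (nat_lit 4) (nat_lit 425) (nat_lit 345) (nat_lit 250))))))) (XT.nd (nat_lit 47580) (nat_lit 0) (nat_lit 3420) (XT.nd (nat_lit 47190) (nat_lit 0) (nat_lit 5396) (XT.nd (nat_lit 46956) (nat_lit 0) (nat_lit 7068) (XT.nd (nat_lit 46878) (nat_lit 0) (nat_lit 6992) (XT.lf (nat_lit 0) (nat_lit 52218775193091) (nat_lit 76) (nat_lit 7607293098973) (nat_lit 76) (nat_lit 7596376252361) (nat_lit 1) (nat_lit 4) (nat_lit 2) (nat_lit 5) (nat_lit 2) (nat_lit 4) (nat_lit 426) (nat_lit 345) (nat_lit 249)) (XT.lf (nat_lit 0) (nat_lit 1561866465) (nat_lit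 532) (nat_lit 1689736868) (nat_lit 532) (nat_lit 1689736868) (nat_lit 93) (nat_lit 3) (nat_lit 100) (nat_lit 3) (nat_lit 100) (nat_lit 5) (nat_lit 346) (nat_lit 346) (nat_lit 328))) (XT.nd (nat_lit 78) (nat_lit 0) (nat_lit 0) (XT.lf (nat_lit 0) (nat_lit 4800117503) (nat_lit 456) (nat_lit 4415552013) (nat_lit 532) (nat_lit 1292675192) (nat_lit 94) (nat_lit 5) (nat_lit 100) (nat_lit 5) (nat_lit 101) (nat_lit 5) (nat_lit 347) (nat_lit 346) (nat_lit 327)) (XT.nd (nat_lit 78) (nat_lit 0) (nat_lit 76) (XT.lf (nat_lit 76) (nat_lit 5936719957) (nat_lit 0) (nat_lit 989456096) (nat_lit 532) (nat_lit 4285855279) (nat_lit 95) (nat_lit 5) (nat_lit 94) (nat_lit 5) (nat_lit 101) (nat_lit 5) (nat_lit 348) (nat_lit 346) (nat_lit 326)) (XT.lf (nat_lit 76) (nat_lit 6039992633) (nat_lit 0) (nat_lit 3614310057) (nat_lit 532) (nat_lit 2344341581) (nat_lit 96) (nat_lit 5) (nat_lit 95) (nat_lit 5) (nat_lit 102) (nat_lit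 5) (nat_lit 349) (nat_lit 346) (nat_lit 325))))) (XT.nd (nat_lit 156) (nat_lit 760) (nat_lit 0) (XT.nd (nat_lit 78) (nat_lit 532) (nat_lit 0) (XT.lf (nat_lit 0) (nat_lit 216752754) (nat_lit 532) (nat_lit 6414012390) (nat_lit 76) (nat_lit 6246898047) (nat_lit 89) (nat_lit 5) (nat_lit 96) (nat_lit 5) (nat_lit 90) (nat_lit 5) (nat_lit 350) (nat_lit 346) (nat_lit 324)) (XT.lf (nat_lit 0) (nat_lit 3416214295) (nat_lit 608) (nat_lit 6675227923) (nat_lit 76) (nat_lit 3760798483) (nat_lit 82) (nat_lit 5) (nat_lit 90) (nat_lit 5) (nat_lit 83) (nat_lit 5) (nat_lit 351) (nat_lit 346) (nat_lit 323))) (XT.nd (nat_lit 78) (nat_lit 532) (nat_lit 0) (XT.lf (nat_lit 0) (nat_lit 7547853306) (nat_lit 304) (nat_lit 6641705341) (nat_lit 76) (nat_lit 747281401) (nat_lit 79) (nat_lit 5) (nat_lit 83) (nat_lit 5) (nat_lit 80) (nat_lit 5) (nat_lit 352) (nat_lit 346) (nat_lit 322)) (XT.nd (nat_lit 78) (nat_lit 304)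 (nat_lit 0) (XT.lf (nat_lit 0) (nat_lit 9806652719) (nat_lit 228) (nat_lit 3080246707) (nat_lit 304) (nat_lit 3250230770) (nat_lit 76) (nat_lit 5) (nat_lit 79) (nat_lit 5) (nat_lit 80) (nat_lit 5) (nat_lit 353) (nat_lit 346) (nat_lit 321)) (XT.lf (nat_lit 0) (nat_lit 2051749210) (nat_lit 304) (nat_lit 5687652373) (nat_lit 76) (nat_lit 9725736316) (nat_lit 72) (nat_lit 5) (nat_lit 76) (nat_lit 5) (nat_lit 73) (nat_lit 5) (nat_lit 354) (nat_lit 346) (nat_lit 320)))))) (XT.nd (nat_lit 390) (nat_lit 912) (nat_lit 0) (XT.nd (nat_lit 156) (nat_lit 684) (nat_lit 0) (XT.nd (nat_lit 78) (nat_lit 152) (nat_lit 0) (XT.lf (nat_lit 0) (nat_lit 8620838382) (nat_lit 304) (nat_lit 4674217799) (nat_lit 76) (nat_lit 5637405542) (nat_lit 69) (nat_lit 5) (nat_lit 73) (nat_lit 5) (nat_lit 70) (nat_lit 5) (nat_lit 355) (nat_lit 346) (nat_lit 319)) (XT.lf (nat_lit 0) (nat_lit 16897983005) (nat_lit 228) (nat_lit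 3119611475) (nat_lit 76) (nat_lit 544482676) (nat_lit 67) (nat_lit 5) (nat_lit 70) (nat_lit 5) (nat_lit 68) (nat_lit 5) (nat_lit 356) (nat_lit 346) (nat_lit 318))) (XT.nd (nat_lit 78) (nat_lit 456) (nat_lit 0) (XT.lf (nat_lit 0) (nat_lit 4739093065) (nat_lit 228) (nat_lit 1178862008) (nat_lit 76) (nat_lit 16433915774) (nat_lit 64) (nat_lit 5) (nat_lit 67) (nat_lit 5) (nat_lit 65) (nat_lit 5) (nat_lit 357) (nat_lit 346) (nat_lit 317)) (XT.nd (nat_lit 78) (nat_lit 152) (nat_lit 0) (XT.lf (nat_lit 0) (nat_lit 1423533632) (nat_lit 152) (nat_lit 13708617493) (nat_lit 228) (nat_lit 9194666805) (nat_lit 60) (nat_lit 5) (nat_lit 62) (nat_lit 5) (nat_lit 63) (nat_lit 5) (nat_lit 358) (nat_lit 346) (nat_lit 316)) (XT.lf (nat_lit 0) (nat_lit 1495930398) (nat_lit 152) (nat_lit 21593159248) (nat_lit 76) (nat_lit 3425259646) (nat_lit 58) (nat_lit 5) (nat_lit 60) (nat_lit 5) (nat_lit 59) (nat_lit 5) (nat_lit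 359) (nat_lit 346) (nat_lit 315))))) (XT.nd (nat_lit 234) (nat_lit 456) (nat_lit 0) (XT.nd (nat_lit 78) (nat_lit 304) (nat_lit 0) (XT.lf (nat_lit 0) (nat_lit 9010935954) (nat_lit 152) (nat_lit 5458765845) (nat_lit 228) (nat_lit 14443285955) (nat_lit 56) (nat_lit 5) (nat_lit 58) (nat_lit 5) (nat_lit 59) (nat_lit 5) (nat_lit 360) (nat_lit 346) (nat_lit 314)) (XT.nd (nat_lit 78) (nat_lit 228) (nat_lit 0) (XT.lf (nat_lit 0) (nat_lit 14112685354) (nat_lit 76) (nat_lit 16551782097) (nat_lit 152) (nat_lit 904963835) (nat_lit 55) (nat_lit 5) (nat_lit 56) (nat_lit 5) (nat_lit 57) (nat_lit 4) (nat_lit 361) (nat_lit 346) (nat_lit 313)) (XT.lf (nat_lit 0) (nat_lit 15225310829) (nat_lit 228) (nat_lit 14381712902) (nat_lit 76) (nat_lit 4885525751) (nat_lit 52) (nat_lit 5) (nat_lit 55) (nat_lit 5) (nat_lit 53) (nat_lit 4) (nat_lit 362) (nat_lit 346) (nat_lit 312)))) (XT.nd (nat_lit 78) (nat_lit 380) (nat_lit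 0) (XT.lf (nat_lit 0) (nat_lit 27327337596) (nat_lit 76) (nat_lit 7975555125) (nat_lit 152) (nat_lit 2422856750) (nat_lit 51) (nat_lit 5) (nat_lit 52) (nat_lit 5) (nat_lit 53) (nat_lit 4) (nat_lit 363) (nat_lit 346) (nat_lit 311)) (XT.nd (nat_lit 78) (nat_lit 152) (nat_lit 0) (XT.lf (nat_lit 0) (nat_lit 17793689497) (nat_lit 228) (nat_lit 5718917305) (nat_lit 76) (nat_lit 17763250438) (nat_lit 48) (nat_lit 5) (nat_lit 51) (nat_lit 5) (nat_lit 49) (nat_lit 4) (nat_lit 364) (nat_lit 346) (nat_lit 310)) (XT.lf (nat_lit 0) (nat_lit 310328234) (nat_lit 76) (nat_lit 42254218126) (nat_lit 76) (nat_lit 2655678954) (nat_lit 46) (nat_lit 4) (nat_lit 47) (nat_lit 5) (nat_lit 47) (nat_lit 4) (nat_lit 365) (nat_lit 346) (nat_lit 309))))))))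
noncomputable def xc58 : XT := (XT.nd (nat_lit 1638) (nat_lit 988) (nat_lit 0) (XT.nd (nat_lit 780) (nat_lit 1140) (nat_lit 0) (XT.nd (nat_lit 390) (nat_lit 684) (nat_lit 0) (XT.nd (nat_lit 156) (nat_lit 380) (nat_lit 0) (XT.nd (nat_lit 78) (nat_lit 76) (nat_lit 0) (XT.lf (nat_lit 0) (nat_lit 7372780454) (nat_lit 76) (nat_lit 15223764286) (nat_lit 152) (nat_lit 26929373038) (nat_lit 44) (nat_lit 5) (nat_lit 45) (nat_lit 5) (nat_lit 46) (nat_lit 4) (nat_lit 366) (nat_lit 346) (nat_lit 308)) (XT.lf (nat_lit 0) (nat_lit 16072884937) (nat_lit 76) (nat_lit 37474975634) (nat_lit 76) (nat_lit 758606123) (nat_lit 43) (nat_lit 4) (nat_lit 44) (nat_lit 5) (nat_lit 44) (nat_lit 4) (nat_lit 367) (nat_lit 346) (nat_lit 307))) (XT.nd (nat_lit 78) (nat_lit 228) (nat_lit 0) (XT.lf (nat_lit 0) (nat_lit 25936756982) (nat_lit 76) (nat_lit 4194866008) (nat_lit 152) (nat_lit 29435114689) (nat_lit 41) (nat_lit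 5) (nat_lit 42) (nat_lit 5) (nat_lit 43) (nat_lit 4) (nat_lit 368) (nat_lit 346) (nat_lit 306)) (XT.nd (nat_lit 78) (nat_lit 76) (nat_lit 0) (XT.lf (nat_lit 0) (nat_lit 2893406491) (nat_lit 152) (nat_lit 28014098549) (nat_lit 76) (nat_lit 34475199597) (nat_lit 39) (nat_lit 5) (nat_lit 41) (nat_lit 5) (nat_lit 40) (nat_lit 4) (nat_lit 369) (nat_lit 346) (nat_lit 305)) (XT.lf (nat_lit 0) (nat_lit 40915069760) (nat_lit 152) (nat_lit 21497676923) (nat_lit 0) (nat_lit 9390216679) (nat_lit 38) (nat_lit 5) (nat_lit 40) (nat_lit 4) (nat_lit 38) (nat_lit 4) (nat_lit 370) (nat_lit 346) (nat_lit 304))))) (XT.nd (nat_lit 156) (nat_lit 456) (nat_lit 0) (XT.nd (nat_lit 78) (nat_lit 76) (nat_lit 0) (XT.lf (nat_lit 0) (nat_lit 8491399517) (nat_lit 152) (nat_lit 13874382404) (nat_lit 76) (nat_lit 56545146952) (nat_lit 36) (nat_lit 5) (nat_lit 38) (nat_lit 5) (nat_lit 37) (nat_lit 4) (nat_lit 371) (nat_lit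 346) (nat_lit 303)) (XT.lf (nat_lit 0) (nat_lit 55241111324) (nat_lit 152) (nat_lit 5485118884) (nat_lit 0) (nat_lit 26031282234) (nat_lit 35) (nat_lit 5) (nat_lit 37) (nat_lit 4) (nat_lit 35) (nat_lit 4) (nat_lit 372) (nat_lit 346) (nat_lit 302))) (XT.nd (nat_lit 78) (nat_lit 228) (nat_lit 0) (XT.lf (nat_lit 0) (nat_lit 4406076485) (nat_lit 76) (nat_lit 11759334739) (nat_lit 152) (nat_lit 79301861768) (nat_lit 32) (nat_lit 5) (nat_lit 33) (nat_lit 5) (nat_lit 34) (nat_lit 4) (nat_lit 373) (nat_lit 346) (nat_lit 301)) (XT.nd (nat_lit 78) (nat_lit 152) (nat_lit 0) (XT.lf (nat_lit 0) (nat_lit 14908813672) (nat_lit 76) (nat_lit 58609329970) (nat_lit 76) (nat_lit 31549084026) (nat_lit 31) (nat_lit 4) (nat_lit 32) (nat_lit 5) (nat_lit 32) (nat_lit 4) (nat_lit 374) (nat_lit 346) (nat_lit 300)) (XT.lf (nat_lit 0) (nat_lit 25877482114) (nat_lit 152) (nat_lit 89073939596) (nat_lit 0) (nat_lit 816415569)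 (nat_lit 29) (nat_lit 5) (nat_lit 31) (nat_lit 4) (nat_lit 29) (nat_lit 4) (nat_lit 375) (nat_lit 346) (nat_lit 299)))))) (XT.nd (nat_lit 390) (nat_lit 608) (nat_lit 0) (XT.nd (nat_lit 156) (nat_lit 304) (nat_lit 0) (XT.nd (nat_lit 78) (nat_lit 152) (nat_lit 0) (XT.lf (nat_lit 0) (nat_lit 37952671903) (nat_lit 76) (nat_lit 57350363023) (nat_lit 76) (nat_lit 32284702336) (nat_lit 28) (nat_lit 4) (nat_lit 29) (nat_lit 5) (nat_lit 29) (nat_lit 4) (nat_lit 376) (nat_lit 346) (nat_lit 298)) (XT.lf (nat_lit 0) (nat_lit 36436143817) (nat_lit 152) (nat_lit 91121776136) (nat_lit 0) (nat_lit 13223499749) (nat_lit 26) (nat_lit 5) (nat_lit 28) (nat_lit 4) (nat_lit 26) (nat_lit 4) (nat_lit 377) (nat_lit 346) (nat_lit 297))) (XT.nd (nat_lit 78) (nat_lit 228) (nat_lit 0) (XT.lf (nat_lit 0) (nat_lit 59934464669) (nat_lit 76) (nat_lit 59354802160) (nat_lit 76) (nat_lit 36138941582) (nat_lit 25) (nat_lit 4)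 (nat_lit 26) (nat_lit 5) (nat_lit 26) (nat_lit 4) (nat_lit 378) (nat_lit 346) (nat_lit 296)) (XT.nd (nat_lit 78) (nat_lit 76) (nat_lit 0) (XT.lf (nat_lit 0) (nat_lit 45151170992) (nat_lit 152) (nat_lit 102989547467) (nat_lit 0) (nat_lit 23652414006) (nat_lit 23) (nat_lit 5) (nat_lit 25) (nat_lit 4) (nat_lit 23) (nat_lit 4) (nat_lit 379) (nat_lit 346) (nat_lit 295)) (XT.lf (nat_lit 0) (nat_lit 74088385349) (nat_lit 76) (nat_lit 68722524941) (nat_lit 76) (nat_lit 47221515970) (nat_lit 22) (nat_lit 4) (nat_lit 23) (nat_lit 5) (nat_lit 23) (nat_lit 4) (nat_lit 380) (nat_lit 346) (nat_lit 294))))) (XT.nd (nat_lit 234) (nat_lit 228) (nat_lit 0) (XT.nd (nat_lit 78) (nat_lit 228) (nat_lit 0) (XT.lf (nat_lit 0) (nat_lit 47483488218) (nat_lit 152) (nat_lit 135419668845) (nat_lit 0) (nat_lit 27573333386) (nat_lit 20) (nat_lit 5) (nat_lit 22) (nat_lit 4) (nat_lit 20) (nat_lit 4) (nat_lit 381) (nat_lit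 346) (nat_lit 293)) (XT.nd (nat_lit 78) (nat_lit 152) (nat_lit 0) (XT.lf (nat_lit 0) (nat_lit 68085986764) (nat_lit 76) (nat_lit 92574886403) (nat_lit 76) (nat_lit 72663154881) (nat_lit 19) (nat_lit 4) (nat_lit 20) (nat_lit 5) (nat_lit 20) (nat_lit 4) (nat_lit 382) (nat_lit 346) (nat_lit 292)) (XT.lf (nat_lit 0) (nat_lit 35380945488) (nat_lit 152) (nat_lit 206756696517) (nat_lit 0) (nat_lit 16942887566) (nat_lit 17) (nat_lit 5) (nat_lit 19) (nat_lit 4) (nat_lit 17) (nat_lit 4) (nat_lit 383) (nat_lit 346) (nat_lit 291)))) (XT.nd (nat_lit 78) (nat_lit 152) (nat_lit 0) (XT.lf (nat_lit 0) (nat_lit 20508471035) (nat_lit 76) (nat_lit 142916281926) (nat_lit 76) (nat_lit 124477120112) (nat_lit 16) (nat_lit 4) (nat_lit 17) (nat_lit 5) (nat_lit 17) (nat_lit 4) (nat_lit 384) (nat_lit 346) (nat_lit 290)) (XT.nd (nat_lit 78) (nat_lit 152) (nat_lit 0) (XT.lf (nat_lit 0) (nat_lit 294353700062) (nat_lit 76)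 (nat_lit 22326228042) (nat_lit 76) (nat_lit 3886106322) (nat_lit 16) (nat_lit 4) (nat_lit 17) (nat_lit 5) (nat_lit 17) (nat_lit 4) (nat_lit 385) (nat_lit 346) (nat_lit 289)) (XT.lf (nat_lit 0) (nat_lit 137358033658) (nat_lit 152) (nat_lit 99484777775) (nat_lit 0) (nat_lit 120283074009) (nat_lit 14) (nat_lit 5) (nat_lit 16) (nat_lit 4) (nat_lit 14) (nat_lit 4) (nat_lit 386) (nat_lit 346) (nat_lit 288))))))) (XT.nd (nat_lit 780) (nat_lit 304) (nat_lit 0) (XT.nd (nat_lit 390) (nat_lit 228) (nat_lit 0) (XT.nd (nat_lit 156) (nat_lit 228) (nat_lit 0) (XT.nd (nat_lit 78) (nat_lit 152) (nat_lit 0) (XT.lf (nat_lit 0) (nat_lit 195563973592) (nat_lit 76) (nat_lit 110092728295) (nat_lit 76) (nat_lit 93017096583) (nat_lit 13) (nat_lit 4) (nat_lit 14) (nat_lit 5) (nat_lit 14) (nat_lit 4) (nat_lit 387) (nat_lit 346) (nat_lit 287)) (XT.lf (nat_lit 0) (nat_lit 56458959764) (nat_lit 152) (nat_lit 348737704640)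 (nat_lit 0) (nat_lit 40647648548) (nat_lit 11) (nat_lit 5) (nat_lit 13) (nat_lit 4) (nat_lit 11) (nat_lit 4) (nat_lit 388) (nat_lit 346) (nat_lit 286))) (XT.nd (nat_lit 78) (nat_lit 228) (nat_lit 0) (XT.lf (nat_lit 0) (nat_lit 232106337245) (nat_lit 152) (nat_lit 50755624586) (nat_lit 0) (nat_lit 216294555496) (nat_lit 11) (nat_lit 5) (nat_lit 13) (nat_lit 4) (nat_lit 11) (nat_lit 4) (nat_lit 389) (nat_lit 346) (nat_lit 285)) (XT.nd (nat_lit 78) (nat_lit 152) (nat_lit 0) (XT.lf (nat_lit 0) (nat_lit 307275453701) (nat_lit 76) (nat_lit 134205922595) (nat_lit 76) (nat_lit 118393731687) (nat_lit 10) (nat_lit 4) (nat_lit 11) (nat_lit 5) (nat_lit 11) (nat_lit 4) (nat_lit 390) (nat_lit 346) (nat_lit 284)) (XT.lf (nat_lit 0) (nat_lit 54763206821) (nat_lit 152) (nat_lit 534328685047) (nat_lit 0) (nat_lit 40121959878) (nat_lit 8) (nat_lit 5) (nat_lit 10) (nat_lit 4) (nat_lit 8) (nat_lit 4) (nat_lit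 391) (nat_lit 346) (nat_lit 283))))) (XT.nd (nat_lit 156) (nat_lit 152) (nat_lit 0) (XT.nd (nat_lit 78) (nat_lit 76) (nat_lit 0) (XT.lf (nat_lit 0) (nat_lit 258331453941) (nat_lit 152) (nat_lit 205770179829) (nat_lit 0) (nat_lit 243689920532) (nat_lit 8) (nat_lit 5) (nat_lit 10) (nat_lit 4) (nat_lit 8) (nat_lit 4) (nat_lit 392) (nat_lit 346) (nat_lit 282)) (XT.lf (nat_lit 0) (nat_lit 181117382357) (nat_lit 76) (nat_lit 315666210034) (nat_lit 76) (nat_lit 301024427525) (nat_lit 7) (nat_lit 4) (nat_lit 8) (nat_lit 5) (nat_lit 8) (nat_lit 4) (nat_lit 393) (nat_lit 346) (nat_lit 281))) (XT.nd (nat_lit 78) (nat_lit 152) (nat_lit 0) (XT.lf (nat_lit 0) (nat_lit 638485216950) (nat_lit 76) (nat_lit 138502502078) (nat_lit 76) (nat_lit 123860502960) (nat_lit 7) (nat_lit 4) (nat_lit 8) (nat_lit 5) (nat_lit 8) (nat_lit 4) (nat_lit 394) (nat_lit 346) (nat_lit 280)) (XT.nd (nat_lit 78) (nat_lit 0) (nat_lit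 0) (XT.lf (nat_lit 0) (nat_lit 81213933415) (nat_lit 152) (nat_lit 869893943523) (nat_lit 0) (nat_lit 67656352420) (nat_lit 5) (nat_lit 5) (nat_lit 7) (nat_lit 4) (nat_lit 5) (nat_lit 4) (nat_lit 395) (nat_lit 346) (nat_lit 279)) (XT.lf (nat_lit 0) (nat_lit 321586048962) (nat_lit 152) (nat_lit 523546265080) (nat_lit 0) (nat_lit 308028316312) (nat_lit 5) (nat_lit 5) (nat_lit 7) (nat_lit 4) (nat_lit 5) (nat_lit 4) (nat_lit 396) (nat_lit 346) (nat_lit 278)))))) (XT.nd (nat_lit 390) (nat_lit 76) (nat_lit 0) (XT.nd (nat_lit 156) (nat_lit 152) (nat_lit 0) (XT.nd (nat_lit 78) (nat_lit 76) (nat_lit 0) (XT.lf (nat_lit 0) (nat_lit 598009168358) (nat_lit 152) (nat_lit 125256404392) (nat_lit 0) (nat_lit 584451303834) (nat_lit 5) (nat_lit 5) (nat_lit 7) (nat_lit 4) (nat_lit 5) (nat_lit 4) (nat_lit 397) (nat_lit 346) (nat_lit 277)) (XT.lf (nat_lit 0) (nat_lit 350291253435) (nat_lit 76) (nat_lit 574024829661)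 (nat_lit 76) (nat_lit 560466850464) (nat_lit 4) (nat_lit 4) (nat_lit 5) (nat_lit 5) (nat_lit 5) (nat_lit 4) (nat_lit 398) (nat_lit 346) (nat_lit 276))) (XT.nd (nat_lit 78) (nat_lit 152) (nat_lit 0) (XT.lf (nat_lit 0) (nat_lit 904748271912) (nat_lit 76) (nat_lit 398463638048) (nat_lit 76) (nat_lit 384905559134) (nat_lit 4) (nat_lit 4) (nat_lit 5) (nat_lit 5) (nat_lit 5) (nat_lit 4) (nat_lit 399) (nat_lit 346) (nat_lit 275)) (XT.nd (nat_lit 78) (nat_lit 152) (nat_lit 0) (XT.lf (nat_lit 0) (nat_lit 1542366942858) (nat_lit 76) (nat_lit 196571837100) (nat_lit 76) (nat_lit 183013671477) (nat_lit 4) (nat_lit 4) (nat_lit 5) (nat_lit 5) (nat_lit 5) (nat_lit 4) (nat_lit 400) (nat_lit 346) (nat_lit 274)) (XT.lf (nat_lit 0) (nat_lit 49757486848) (nat_lit 152) (nat_lit 2103562664939) (nat_lit 0) (nat_lit 37203559976) (nat_lit 2) (nat_lit 5) (nat_lit 4) (nat_lit 4) (nat_lit 2) (nat_lit 4) (nat_lit 401)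 (nat_lit 346) (nat_lit 273))))) (XT.nd (nat_lit 234) (nat_lit 76) (nat_lit 0) (XT.nd (nat_lit 78) (nat_lit 0) (nat_lit 0) (XT.lf (nat_lit 0) (nat_lit 323688140842) (nat_lit 152) (nat_lit 1862811657005) (nat_lit 0) (nat_lit 311134153262) (nat_lit 2) (nat_lit 5) (nat_lit 4) (nat_lit 4) (nat_lit 2) (nat_lit 4) (nat_lit 402) (nat_lit 346) (nat_lit 272)) (XT.nd (nat_lit 78) (nat_lit 0) (nat_lit 0) (XT.lf (nat_lit 0) (nat_lit 638705967088) (nat_lit 152) (nat_lit 1585953026622) (nat_lit 0) (nat_lit 626151926718) (nat_lit 2) (nat_lit 5) (nat_lit 4) (nat_lit 4) (nat_lit 2) (nat_lit 4) (nat_lit 403) (nat_lit 346) (nat_lit 271)) (XT.lf (nat_lit 0) (nat_lit 1000974357839) (nat_lit 152) (nat_lit 1267569974499) (nat_lit 0) (nat_lit 988420271564) (nat_lit 2) (nat_lit 5) (nat_lit 4) (nat_lit 4) (nat_lit 2) (nat_lit 4) (nat_lit 404) (nat_lit 346) (nat_lit 270)))) (XT.nd (nat_lit 78) (nat_lit 76) (nat_lit 0)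 (XT.lf (nat_lit 0) (nat_lit 1417581172912) (nat_lit 152) (nat_lit 901433267009) (nat_lit 0) (nat_lit 1405027046721) (nat_lit 2) (nat_lit 5) (nat_lit 4) (nat_lit 4) (nat_lit 2) (nat_lit 4) (nat_lit 405) (nat_lit 346) (nat_lit 269)) (XT.nd (nat_lit 78) (nat_lit 76) (nat_lit 0) (XT.lf (nat_lit 0) (nat_lit 1896677415213) (nat_lit 152) (nat_lit 480379359874) (nat_lit 0) (nat_lit 1884123254312) (nat_lit 2) (nat_lit 5) (nat_lit 4) (nat_lit 4) (nat_lit 2) (nat_lit 4) (nat_lit 406) (nat_lit 346) (nat_lit 268)) (XT.lf (nat_lit 0) (nat_lit 4031426407) (nat_lit 76) (nat_lit 2443702236366) (nat_lit 76) (nat_lit 2431148045283) (nat_lit 1) (nat_lit 4) (nat_lit 2) (nat_lit 5) (nat_lit 2) (nat_lit 4) (nat_lit 407) (nat_lit 346) (nat_lit 267))))))))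
noncomputable def xc59 : XT := (XT.nd (nat_lit 48516) (nat_lit 0) (nat_lit 3040) (XT.nd (nat_lit 780) (nat_lit 0) (nat_lit 0) (XT.nd (nat_lit 390) (nat_lit 0) (nat_lit 0) (XT.nd (nat_lit 156) (nat_lit 0) (nat_lit 0) (XT.nd (nat_lit 78) (nat_lit 0) (nat_lit 0) (XT.lf (nat_lit 0) (nat_lit 590191513458) (nat_lit 76) (nat_lit 2505241292839) (nat_lit 76) (nat_lit 2492687075510) (nat_lit 1) (nat_lit 4) (nat_lit 2) (nat_lit 5) (nat_lit 2) (nat_lit 4) (nat_lit 408) (nat_lit 346) (nat_lit 266)) (XT.lf (nat_lit 0) (nat_lit 1264273325021) (nat_lit 76) (nat_lit 2576012392529) (nat_lit 76) (nat_lit 2563458152377) (nat_lit 1) (nat_lit 4) (nat_lit 2) (nat_lit 5) (nat_lit 2) (nat_lit 4) (nat_lit 409) (nat_lit 346) (nat_lit 265))) (XT.nd (nat_lit 78) (nat_lit 0) (nat_lit 0) (XT.lf (nat_lit 0) (nat_lit 2039465418278) (nat_lit 76) (nat_lit 2657400187385) (nat_lit 76) (nat_lit 2644845927388) (nat_lit 1) (nat_lit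 4) (nat_lit 2) (nat_lit 5) (nat_lit 2) (nat_lit 4) (nat_lit 410) (nat_lit 346) (nat_lit 264)) (XT.nd (nat_lit 78) (nat_lit 0) (nat_lit 0) (XT.lf (nat_lit 0) (nat_lit 2930934595055) (nat_lit 76) (nat_lit 2750997047308) (nat_lit 76) (nat_lit 2738442770053) (nat_lit 1) (nat_lit 4) (nat_lit 2) (nat_lit 5) (nat_lit 2) (nat_lit 4) (nat_lit 411) (nat_lit 346) (nat_lit 263)) (XT.lf (nat_lit 0) (nat_lit 3956122643592) (nat_lit 76) (nat_lit 2858634215208) (nat_lit 76) (nat_lit 2846079922947) (nat_lit 1) (nat_lit 4) (nat_lit 2) (nat_lit 5) (nat_lit 2) (nat_lit 4) (nat_lit 412) (nat_lit 346) (nat_lit 262))))) (XT.nd (nat_lit 156) (nat_lit 0) (nat_lit 0) (XT.nd (nat_lit 78) (nat_lit 0) (nat_lit 0) (XT.lf (nat_lit 0) (nat_lit 5135087590926) (nat_lit 76) (nat_lit 2982417635675) (nat_lit 76) (nat_lit 2969863330366) (nat_lit 1) (nat_lit 4) (nat_lit 2) (nat_lit 5) (nat_lit 2) (nat_lit 4) (nat_lit 413) (nat_lit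 346) (nat_lit 261)) (XT.lf (nat_lit 0) (nat_lit 6490896142548) (nat_lit 76) (nat_lit 3124769158240) (nat_lit 76) (nat_lit 3112214841584) (nat_lit 1) (nat_lit 4) (nat_lit 2) (nat_lit 5) (nat_lit 2) (nat_lit 4) (nat_lit 414) (nat_lit 346) (nat_lit 260))) (XT.nd (nat_lit 78) (nat_lit 0) (nat_lit 0) (XT.lf (nat_lit 0) (nat_lit 8050074987512) (nat_lit 76) (nat_lit 3288473921388) (nat_lit 76) (nat_lit 3275919594865) (nat_lit 1) (nat_lit 4) (nat_lit 2) (nat_lit 5) (nat_lit 2) (nat_lit 4) (nat_lit 415) (nat_lit 346) (nat_lit 259)) (XT.nd (nat_lit 78) (nat_lit 0) (nat_lit 0) (XT.lf (nat_lit 0) (nat_lit 9843129798872) (nat_lit 76) (nat_lit 3476734844398) (nat_lit 76) (nat_lit 3464180509295) (nat_lit 1) (nat_lit 4) (nat_lit 2) (nat_lit 5) (nat_lit 2) (nat_lit 4) (nat_lit 416) (nat_lit 346) (nat_lit 258)) (XT.lf (nat_lit 0) (nat_lit 11905142083806) (nat_lit 76) (nat_lit 3693235293154) (nat_lit 76) (nat_lit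 3680680950591) (nat_lit 1) (nat_lit 4) (nat_lit 2) (nat_lit 5) (nat_lit 2) (nat_lit 4) (nat_lit 417) (nat_lit 346) (nat_lit 257)))))) (XT.nd (nat_lit 390) (nat_lit 0) (nat_lit 0) (XT.nd (nat_lit 156) (nat_lit 0) (nat_lit 0) (XT.nd (nat_lit 78) (nat_lit 0) (nat_lit 0) (XT.lf (nat_lit 0) (nat_lit 14276455560933) (nat_lit 76) (nat_lit 3942211146003) (nat_lit 76) (nat_lit 3929656796952) (nat_lit 1) (nat_lit 4) (nat_lit 2) (nat_lit 5) (nat_lit 2) (nat_lit 4) (nat_lit 418) (nat_lit 346) (nat_lit 256)) (XT.lf (nat_lit 0) (nat_lit 17003465493935) (nat_lit 76) (nat_lit 4228533669630) (nat_lit 76) (nat_lit 4215979314938) (nat_lit 1) (nat_lit 4) (nat_lit 2) (nat_lit 5) (nat_lit 2) (nat_lit 4) (nat_lit 419) (nat_lit 346) (nat_lit 255))) (XT.nd (nat_lit 78) (nat_lit 0) (nat_lit 0) (XT.lf (nat_lit 0) (nat_lit 20139526424980) (nat_lit 76) (nat_lit 4557804826454) (nat_lit 76) (nat_lit 4545250466856) (nat_lit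 1) (nat_lit 4) (nat_lit 2) (nat_lit 5) (nat_lit 2) (nat_lit 4) (nat_lit 420) (nat_lit 346) (nat_lit 254)) (XT.nd (nat_lit 78) (nat_lit 0) (nat_lit 0) (XT.lf (nat_lit 0) (nat_lit 23745996067937) (nat_lit 76) (nat_lit 4936466878239) (nat_lit 76) (nat_lit 4923912514376) (nat_lit 1) (nat_lit 4) (nat_lit 2) (nat_lit 5) (nat_lit 2) (nat_lit 4) (nat_lit 421) (nat_lit 346) (nat_lit 253)) (XT.lf (nat_lit 0) (nat_lit 27893435785384) (nat_lit 76) (nat_lit 5371928430346) (nat_lit 76) (nat_lit 5359374062773) (nat_lit 1) (nat_lit 4) (nat_lit 2) (nat_lit 5) (nat_lit 2) (nat_lit 4) (nat_lit 422) (nat_lit 346) (nat_lit 252))))) (XT.nd (nat_lit 234) (nat_lit 0) (nat_lit 0) (XT.nd (nat_lit 78) (nat_lit 0) (nat_lit 0) (XT.lf (nat_lit 0) (nat_lit 32662991137011) (nat_lit 76) (nat_lit 5872709382708) (nat_lit 76) (nat_lit 5860155011909) (nat_lit 1) (nat_lit 4) (nat_lit 2) (nat_lit 5) (nat_lit 2) (nat_lit 4) (nat_lit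 423) (nat_lit 346) (nat_lit 251)) (XT.nd (nat_lit 78) (nat_lit 0) (nat_lit 0) (XT.lf (nat_lit 0) (nat_lit 38147979510132) (nat_lit 76) (nat_lit 6448607623522) (nat_lit 76) (nat_lit 6436053249919) (nat_lit 1) (nat_lit 4) (nat_lit 2) (nat_lit 5) (nat_lit 2) (nat_lit 4) (nat_lit 424) (nat_lit 346) (nat_lit 250)) (XT.lf (nat_lit 0) (nat_lit 44455715894657) (nat_lit 76) (nat_lit 7110890727066) (nat_lit 76) (nat_lit 7098336351024) (nat_lit 1) (nat_lit 4) (nat_lit 2) (nat_lit 5) (nat_lit 2) (nat_lit 4) (nat_lit 425) (nat_lit 346) (nat_lit 249)))) (XT.nd (nat_lit 46956) (nat_lit 0) (nat_lit 6992) (XT.lf (nat_lit 0) (nat_lit 51709612524195) (nat_lit 76) (nat_lit 7872516406235) (nat_lit 76) (nat_lit 7859962028073) (nat_lit 1) (nat_lit 4) (nat_lit 2) (nat_lit 5) (nat_lit 2) (nat_lit 4) (nat_lit 426) (nat_lit 346) (nat_lit 248)) (XT.nd (nat_lit 78) (nat_lit 0) (nat_lit 76) (XT.lf (nat_lit 0) (nat_lit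 3005886651) (nat_lit 532) (nat_lit 1289856989) (nat_lit 532) (nat_lit 1289856989) (nat_lit 93) (nat_lit 3) (nat_lit 100) (nat_lit 3) (nat_lit 100) (nat_lit 5) (nat_lit 347) (nat_lit 347) (nat_lit 326)) (XT.lf (nat_lit 0) (nat_lit 7630271942) (nat_lit 456) (nat_lit 3688389521) (nat_lit 532) (nat_lit 596843334) (nat_lit 94) (nat_lit 5) (nat_lit 100) (nat_lit 5) (nat_lit 101) (nat_lit 5) (nat_lit 348) (nat_lit 347) (nat_lit 325))))))) (XT.nd (nat_lit 780) (nat_lit 1748) (nat_lit 0) (XT.nd (nat_lit 390) (nat_lit 1140) (nat_lit 0) (XT.nd (nat_lit 156) (nat_lit 1140) (nat_lit 0) (XT.nd (nat_lit 78) (nat_lit 0) (nat_lit 76) (XT.lf (nat_lit 76) (nat_lit 8099109388) (nat_lit 0) (nat_lit 1731483429) (nat_lit 532) (nat_lit 2913759924) (nat_lit 95) (nat_lit 5) (nat_lit 94) (nat_lit 5) (nat_lit 101) (nat_lit 5) (nat_lit 349) (nat_lit 347) (nat_lit 324)) (XT.lf (nat_lit 76) (nat_lit 8260112702) (nat_lit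 0) (nat_lit 4483691383) (nat_lit 532) (nat_lit 923116120) (nat_lit 96) (nat_lit 5) (nat_lit 95) (nat_lit 5) (nat_lit 102) (nat_lit 5) (nat_lit 350) (nat_lit 347) (nat_lit 323))) (XT.nd (nat_lit 78) (nat_lit 760) (nat_lit 0) (XT.lf (nat_lit 0) (nat_lit 1739586851) (nat_lit 532) (nat_lit 5966986356) (nat_lit 76) (nat_lit 6983342893) (nat_lit 89) (nat_lit 5) (nat_lit 96) (nat_lit 5) (nat_lit 90) (nat_lit 5) (nat_lit 351) (nat_lit 347) (nat_lit 322)) (XT.nd (nat_lit 78) (nat_lit 228) (nat_lit 0) (XT.lf (nat_lit 0) (nat_lit 5254706619) (nat_lit 608) (nat_lit 6279462832) (nat_lit 76) (nat_lit 4289673953) (nat_lit 82) (nat_lit 5) (nat_lit 90) (nat_lit 5) (nat_lit 83) (nat_lit 5) (nat_lit 352) (nat_lit 347) (nat_lit 321)) (XT.lf (nat_lit 0) (nat_lit 9866165619) (nat_lit 304) (nat_lit 6266611281) (nat_lit 76) (nat_lit 949569203) (nat_lit 79) (nat_lit 5) (nat_lit 83) (nat_lit 5) (nat_lit 80) (nat_lit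 5) (nat_lit 353) (nat_lit 347) (nat_lit 320))))) (XT.nd (nat_lit 156) (nat_lit 608) (nat_lit 0) (XT.nd (nat_lit 78) (nat_lit 304) (nat_lit 0) (XT.lf (nat_lit 0) (nat_lit 12532922553) (nat_lit 228) (nat_lit 3348622252) (nat_lit 304) (nat_lit 2591113730) (nat_lit 76) (nat_lit 5) (nat_lit 79) (nat_lit 5) (nat_lit 80) (nat_lit 5) (nat_lit 354) (nat_lit 347) (nat_lit 319)) (XT.lf (nat_lit 0) (nat_lit 3341044102) (nat_lit 304) (nat_lit 5266425041) (nat_lit 76) (nat_lit 11398826378) (nat_lit 72) (nat_lit 5) (nat_lit 76) (nat_lit 5) (nat_lit 73) (nat_lit 5) (nat_lit 355) (nat_lit 347) (nat_lit 318))) (XT.nd (nat_lit 78) (nat_lit 380) (nat_lit 0) (XT.lf (nat_lit 0) (nat_lit 10802378085) (nat_lit 304) (nat_lit 4145094175) (nat_lit 76) (nat_lit 6753706944) (nat_lit 69) (nat_lit 5) (nat_lit 73) (nat_lit 5) (nat_lit 70) (nat_lit 5) (nat_lit 356) (nat_lit 347) (nat_lit 317)) (XT.nd (nat_lit 78) (nat_lit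 228) (nat_lit 0) (XT.lf (nat_lit 0) (nat_lit 20240149997) (nat_lit 228) (nat_lit 2405246631) (nat_lit 76) (nat_lit 936326137) (nat_lit 67) (nat_lit 5) (nat_lit 70) (nat_lit 5) (nat_lit 68) (nat_lit 5) (nat_lit 357) (nat_lit 347) (nat_lit 316)) (XT.lf (nat_lit 0) (nat_lit 6197102258) (nat_lit 228) (nat_lit 234062688) (nat_lit 76) (nat_lit 19213659836) (nat_lit 64) (nat_lit 5) (nat_lit 67) (nat_lit 5) (nat_lit 65) (nat_lit 5) (nat_lit 358) (nat_lit 347) (nat_lit 315)))))) (XT.nd (nat_lit 390) (nat_lit 836) (nat_lit 0) (XT.nd (nat_lit 156) (nat_lit 456) (nat_lit 0) (XT.nd (nat_lit 78) (nat_lit 152) (nat_lit 0) (XT.lf (nat_lit 0) (nat_lit 2765738528) (nat_lit 152) (nat_lit 15346236251) (nat_lit 228) (nat_lit 9807017871) (nat_lit 60) (nat_lit 5) (nat_lit 62) (nat_lit 5) (nat_lit 63) (nat_lit 5) (nat_lit 359) (nat_lit 347) (nat_lit 314)) (XT.lf (nat_lit 0) (nat_lit 2389319942) (nat_lit 152) (nat_lit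 23720908820) (nat_lit 76) (nat_lit 4327714366) (nat_lit 58) (nat_lit 5) (nat_lit 60) (nat_lit 5) (nat_lit 59) (nat_lit 5) (nat_lit 360) (nat_lit 347) (nat_lit 313))) (XT.nd (nat_lit 78) (nat_lit 304) (nat_lit 0) (XT.lf (nat_lit 0) (nat_lit 11379741060) (nat_lit 152) (nat_lit 5866617962) (nat_lit 228) (nat_lit 15955047210) (nat_lit 56) (nat_lit 5) (nat_lit 58) (nat_lit 5) (nat_lit 59) (nat_lit 5) (nat_lit 361) (nat_lit 347) (nat_lit 312)) (XT.nd (nat_lit 78) (nat_lit 228) (nat_lit 0) (XT.lf (nat_lit 0) (nat_lit 17196029771) (nat_lit 76) (nat_lit 18627077365) (nat_lit 152) (nat_lit 436992121) (nat_lit 55) (nat_lit 5) (nat_lit 56) (nat_lit 5) (nat_lit 57) (nat_lit 4) (nat_lit 362) (nat_lit 347) (nat_lit 311)) (XT.lf (nat_lit 0) (nat_lit 18039177280) (nat_lit 228) (nat_lit 15594407760) (nat_lit 76) (nat_lit 5990417803) (nat_lit 52) (nat_lit 5) (nat_lit 55) (nat_lit 5) (nat_lit 53) (nat_lit 4)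 (nat_lit 363) (nat_lit 347) (nat_lit 310))))) (XT.nd (nat_lit 234) (nat_lit 380) (nat_lit 0) (XT.nd (nat_lit 78) (nat_lit 380) (nat_lit 0) (XT.lf (nat_lit 0) (nat_lit 32291047837) (nat_lit 76) (nat_lit 8789002957) (nat_lit 152) (nat_lit 2266002751) (nat_lit 51) (nat_lit 5) (nat_lit 52) (nat_lit 5) (nat_lit 53) (nat_lit 4) (nat_lit 364) (nat_lit 347) (nat_lit 309)) (XT.nd (nat_lit 78) (nat_lit 152) (nat_lit 0) (XT.lf (nat_lit 0) (nat_lit 20920936996) (nat_lit 228) (nat_lit 5734320455) (nat_lit 76) (nat_lit 20775306413) (nat_lit 48) (nat_lit 5) (nat_lit 51) (nat_lit 5) (nat_lit 49) (nat_lit 4) (nat_lit 365) (nat_lit 347) (nat_lit 308)) (XT.lf (nat_lit 0) (nat_lit 1194773975) (nat_lit 76) (nat_lit 48200098360) (nat_lit 76) (nat_lit 2572720963) (nat_lit 46) (nat_lit 4) (nat_lit 47) (nat_lit 5) (nat_lit 47) (nat_lit 4) (nat_lit 366) (nat_lit 347) (nat_lit 307)))) (XT.nd (nat_lit 78) (nat_lit 228)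 (nat_lit 0) (XT.lf (nat_lit 0) (nat_lit 9267721439) (nat_lit 76) (nat_lit 17134874767) (nat_lit 152) (nat_lit 30518872151) (nat_lit 44) (nat_lit 5) (nat_lit 45) (nat_lit 5) (nat_lit 46) (nat_lit 4) (nat_lit 367) (nat_lit 347) (nat_lit 306)) (XT.nd (nat_lit 78) (nat_lit 152) (nat_lit 0) (XT.lf (nat_lit 0) (nat_lit 19228370598) (nat_lit 76) (nat_lit 42739599303) (nat_lit 76) (nat_lit 453422373) (nat_lit 43) (nat_lit 4) (nat_lit 44) (nat_lit 5) (nat_lit 44) (nat_lit 4) (nat_lit 368) (nat_lit 347) (nat_lit 305)) (XT.lf (nat_lit 0) (nat_lit 30527993984) (nat_lit 76) (nat_lit 4486325617) (nat_lit 152) (nat_lit 33458384420) (nat_lit 41) (nat_lit 5) (nat_lit 42) (nat_lit 5) (nat_lit 43) (nat_lit 4) (nat_lit 369) (nat_lit 347) (nat_lit 304))))))))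
noncomputable def xc60 : XT := (XT.nd (nat_lit 1638) (nat_lit 760) (nat_lit 0) (XT.nd (nat_lit 780) (nat_lit 1064) (nat_lit 0) (XT.nd (nat_lit 390) (nat_lit 532) (nat_lit 0) (XT.nd (nat_lit 156) (nat_lit 456) (nat_lit 0) (XT.nd (nat_lit 78) (nat_lit 76) (nat_lit 0) (XT.lf (nat_lit 0) (nat_lit 3674779693) (nat_lit 152) (nat_lit 31537354586) (nat_lit 76) (nat_lit 39950180588) (nat_lit 39) (nat_lit 5) (nat_lit 41) (nat_lit 5) (nat_lit 40) (nat_lit 4) (nat_lit 370) (nat_lit 347) (nat_lit 303)) (XT.lf (nat_lit 0) (nat_lit 47376649721) (nat_lit 152) (nat_lit 24082886970) (nat_lit 0) (nat_lit 11087919975) (nat_lit 38) (nat_lit 5) (nat_lit 40) (nat_lit 4) (nat_lit 38) (nat_lit 4) (nat_lit 371) (nat_lit 347) (nat_lit 302))) (XT.nd (nat_lit 78) (nat_lit 304) (nat_lit 0) (XT.lf (nat_lit 0) (nat_lit 10068898670) (nat_lit 152) (nat_lit 15354222266) (nat_lit 76) (nat_lit 65300139588) (nat_lit 36) (nat_lit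 5) (nat_lit 38) (nat_lit 5) (nat_lit 37) (nat_lit 4) (nat_lit 372) (nat_lit 347) (nat_lit 301)) (XT.nd (nat_lit 78) (nat_lit 228) (nat_lit 0) (XT.lf (nat_lit 0) (nat_lit 63811246217) (nat_lit 152) (nat_lit 5741837691) (nat_lit 0) (nat_lit 30195333996) (nat_lit 35) (nat_lit 5) (nat_lit 37) (nat_lit 4) (nat_lit 35) (nat_lit 4) (nat_lit 373) (nat_lit 347) (nat_lit 300)) (XT.lf (nat_lit 0) (nat_lit 5627163135) (nat_lit 76) (nat_lit 13242662707) (nat_lit 152) (nat_lit 90895166683) (nat_lit 32) (nat_lit 5) (nat_lit 33) (nat_lit 5) (nat_lit 34) (nat_lit 4) (nat_lit 374) (nat_lit 347) (nat_lit 299))))) (XT.nd (nat_lit 156) (nat_lit 304) (nat_lit 0) (XT.nd (nat_lit 78) (nat_lit 152) (nat_lit 0) (XT.lf (nat_lit 0) (nat_lit 17672196043) (nat_lit 76) (nat_lit 67135345572) (nat_lit 76) (nat_lit 35998833325) (nat_lit 31) (nat_lit 4) (nat_lit 32) (nat_lit 5) (nat_lit 32) (nat_lit 4) (nat_lit 375) (nat_lit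 347) (nat_lit 298)) (XT.lf (nat_lit 0) (nat_lit 30010488801) (nat_lit 152) (nat_lit 101926021131) (nat_lit 0) (nat_lit 1176389963) (nat_lit 29) (nat_lit 5) (nat_lit 31) (nat_lit 4) (nat_lit 29) (nat_lit 4) (nat_lit 376) (nat_lit 347) (nat_lit 297))) (XT.nd (nat_lit 78) (nat_lit 228) (nat_lit 0) (XT.lf (nat_lit 0) (nat_lit 44111496982) (nat_lit 76) (nat_lit 65716793778) (nat_lit 76) (nat_lit 36879221108) (nat_lit 28) (nat_lit 4) (nat_lit 29) (nat_lit 5) (nat_lit 29) (nat_lit 4) (nat_lit 377) (nat_lit 347) (nat_lit 296)) (XT.nd (nat_lit 78) (nat_lit 76) (nat_lit 0) (XT.lf (nat_lit 0) (nat_lit 42122460650) (nat_lit 152) (nat_lit 104340291320) (nat_lit 0) (nat_lit 15418207508) (nat_lit 26) (nat_lit 5) (nat_lit 28) (nat_lit 4) (nat_lit 26) (nat_lit 4) (nat_lit 378) (nat_lit 347) (nat_lit 295)) (XT.lf (nat_lit 0) (nat_lit 69336316403) (nat_lit 76) (nat_lit 68048324248) (nat_lit 76) (nat_lit 41341638963)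 (nat_lit 25) (nat_lit 4) (nat_lit 26) (nat_lit 5) (nat_lit 26) (nat_lit 4) (nat_lit 379) (nat_lit 347) (nat_lit 294)))))) (XT.nd (nat_lit 390) (nat_lit 456) (nat_lit 0) (XT.nd (nat_lit 156) (nat_lit 380) (nat_lit 0) (XT.nd (nat_lit 78) (nat_lit 76) (nat_lit 0) (XT.lf (nat_lit 0) (nat_lit 52118096594) (nat_lit 152) (nat_lit 118040738608) (nat_lit 0) (nat_lit 27387726045) (nat_lit 23) (nat_lit 5) (nat_lit 25) (nat_lit 4) (nat_lit 23) (nat_lit 4) (nat_lit 380) (nat_lit 347) (nat_lit 293)) (XT.lf (nat_lit 0) (nat_lit 85565259660) (nat_lit 76) (nat_lit 78844945163) (nat_lit 76) (nat_lit 54112871789) (nat_lit 22) (nat_lit 4) (nat_lit 23) (nat_lit 5) (nat_lit 23) (nat_lit 4) (nat_lit 381) (nat_lit 347) (nat_lit 292))) (XT.nd (nat_lit 78) (nat_lit 228) (nat_lit 0) (XT.lf (nat_lit 0) (nat_lit 54776932719) (nat_lit 152) (nat_lit 155381863084) (nat_lit 0) (nat_lit 31875493746) (nat_lit 20) (nat_lit 5)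 (nat_lit 22) (nat_lit 4) (nat_lit 20) (nat_lit 4) (nat_lit 382) (nat_lit 347) (nat_lit 291)) (XT.nd (nat_lit 78) (nat_lit 152) (nat_lit 0) (XT.lf (nat_lit 0) (nat_lit 78619951110) (nat_lit 76) (nat_lit 106296401875) (nat_lit 76) (nat_lit 83393770698) (nat_lit 19) (nat_lit 4) (nat_lit 20) (nat_lit 5) (nat_lit 20) (nat_lit 4) (nat_lit 383) (nat_lit 347) (nat_lit 290)) (XT.lf (nat_lit 0) (nat_lit 40838553595) (nat_lit 152) (nat_lit 237460563865) (nat_lit 0) (nat_lit 19631453710) (nat_lit 17) (nat_lit 5) (nat_lit 19) (nat_lit 4) (nat_lit 17) (nat_lit 4) (nat_lit 384) (nat_lit 347) (nat_lit 289))))) (XT.nd (nat_lit 234) (nat_lit 228) (nat_lit 0) (XT.nd (nat_lit 78) (nat_lit 152) (nat_lit 0) (XT.lf (nat_lit 0) (nat_lit 23868169579) (nat_lit 76) (nat_lit 164207953020) (nat_lit 76) (nat_lit 143000018434) (nat_lit 16) (nat_lit 4) (nat_lit 17) (nat_lit 5) (nat_lit 17) (nat_lit 4) (nat_lit 385) (nat_lit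 347) (nat_lit 288)) (XT.nd (nat_lit 78) (nat_lit 152) (nat_lit 0) (XT.lf (nat_lit 0) (nat_lit 338753214106) (nat_lit 76) (nat_lit 25548404687) (nat_lit 76) (nat_lit 4339744274) (nat_lit 16) (nat_lit 4) (nat_lit 17) (nat_lit 5) (nat_lit 17) (nat_lit 4) (nat_lit 386) (nat_lit 347) (nat_lit 287)) (XT.lf (nat_lit 0) (nat_lit 158076964605) (nat_lit 152) (nat_lit 114169853582) (nat_lit 0) (nat_lit 138438731673) (nat_lit 14) (nat_lit 5) (nat_lit 16) (nat_lit 4) (nat_lit 14) (nat_lit 4) (nat_lit 387) (nat_lit 347) (nat_lit 286)))) (XT.nd (nat_lit 78) (nat_lit 152) (nat_lit 0) (XT.lf (nat_lit 0) (nat_lit 225116095375) (nat_lit 76) (nat_lit 126494539728) (nat_lit 76) (nat_lit 106855798620) (nat_lit 13) (nat_lit 4) (nat_lit 14) (nat_lit 5) (nat_lit 14) (nat_lit 4) (nat_lit 388) (nat_lit 347) (nat_lit 285)) (XT.nd (nat_lit 78) (nat_lit 0) (nat_lit 0) (XT.lf (nat_lit 0) (nat_lit 65029309504) (nat_lit 152)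 (nat_lit 400838648898) (nat_lit 0) (nat_lit 46844880801) (nat_lit 11) (nat_lit 5) (nat_lit 13) (nat_lit 4) (nat_lit 11) (nat_lit 4) (nat_lit 389) (nat_lit 347) (nat_lit 284)) (XT.lf (nat_lit 0) (nat_lit 267010553724) (nat_lit 152) (nat_lit 58186610503) (nat_lit 0) (nat_lit 248825769230) (nat_lit 11) (nat_lit 5) (nat_lit 13) (nat_lit 4) (nat_lit 11) (nat_lit 4) (nat_lit 390) (nat_lit 347) (nat_lit 283))))))) (XT.nd (nat_lit 780) (nat_lit 228) (nat_lit 0) (XT.nd (nat_lit 390) (nat_lit 228) (nat_lit 0) (XT.nd (nat_lit 156) (nat_lit 76) (nat_lit 0) (XT.nd (nat_lit 78) (nat_lit 152) (nat_lit 0) (XT.lf (nat_lit 0) (nat_lit 353533693851) (nat_lit 76) (nat_lit 154250656320) (nat_lit 76) (nat_lit 136065562444) (nat_lit 10) (nat_lit 4) (nat_lit 11) (nat_lit 5) (nat_lit 11) (nat_lit 4) (nat_lit 391) (nat_lit 347) (nat_lit 282)) (XT.lf (nat_lit 0) (nat_lit 63055462577) (nat_lit 152) (nat_lit 614317081223)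 (nat_lit 0) (nat_lit 46217163591) (nat_lit 8) (nat_lit 5) (nat_lit 10) (nat_lit 4) (nat_lit 8) (nat_lit 4) (nat_lit 392) (nat_lit 347) (nat_lit 281))) (XT.nd (nat_lit 78) (nat_lit 76) (nat_lit 0) (XT.lf (nat_lit 0) (nat_lit 297148802235) (nat_lit 152) (nat_lit 236495788038) (nat_lit 0) (nat_lit 280310286639) (nat_lit 8) (nat_lit 5) (nat_lit 10) (nat_lit 4) (nat_lit 8) (nat_lit 4) (nat_lit 393) (nat_lit 347) (nat_lit 280)) (XT.nd (nat_lit 78) (nat_lit 0) (nat_lit 0) (XT.lf (nat_lit 0) (nat_lit 208413065050) (nat_lit 76) (nat_lit 362949955286) (nat_lit 76) (nat_lit 346111251335) (nat_lit 7) (nat_lit 4) (nat_lit 8) (nat_lit 5) (nat_lit 8) (nat_lit 4) (nat_lit 394) (nat_lit 347) (nat_lit 279)) (XT.lf (nat_lit 0) (nat_lit 734369369353) (nat_lit 76) (nat_lit 159220324127) (nat_lit 76) (nat_lit 142381456388) (nat_lit 7) (nat_lit 4) (nat_lit 8) (nat_lit 5) (nat_lit 8) (nat_lit 4) (nat_lit 395) (nat_lit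 347) (nat_lit 278))))) (XT.nd (nat_lit 156) (nat_lit 76) (nat_lit 0) (XT.nd (nat_lit 78) (nat_lit 0) (nat_lit 0) (XT.lf (nat_lit 0) (nat_lit 93447852321) (nat_lit 152) (nat_lit 1000270688812) (nat_lit 0) (nat_lit 77856176244) (nat_lit 5) (nat_lit 5) (nat_lit 7) (nat_lit 4) (nat_lit 5) (nat_lit 4) (nat_lit 396) (nat_lit 347) (nat_lit 277)) (XT.lf (nat_lit 0) (nat_lit 369869024909) (nat_lit 152) (nat_lit 601984860286) (nat_lit 0) (nat_lit 354277234159) (nat_lit 5) (nat_lit 5) (nat_lit 7) (nat_lit 4) (nat_lit 5) (nat_lit 4) (nat_lit 397) (nat_lit 347) (nat_lit 276))) (XT.nd (nat_lit 78) (nat_lit 76) (nat_lit 0) (XT.lf (nat_lit 0) (nat_lit 687749733701) (nat_lit 152) (nat_lit 143963695872) (nat_lit 0) (nat_lit 672157843235) (nat_lit 5) (nat_lit 5) (nat_lit 7) (nat_lit 4) (nat_lit 5) (nat_lit 4) (nat_lit 398) (nat_lit 347) (nat_lit 275)) (XT.nd (nat_lit 78) (nat_lit 0) (nat_lit 0) (XT.lf (nat_lit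 0) (nat_lit 402909240062) (nat_lit 76) (nat_lit 660090120720) (nat_lit 76) (nat_lit 644498143545) (nat_lit 4) (nat_lit 4) (nat_lit 5) (nat_lit 5) (nat_lit 5) (nat_lit 4) (nat_lit 399) (nat_lit 347) (nat_lit 274)) (XT.lf (nat_lit 0) (nat_lit 1040525120188) (nat_lit 76) (nat_lit 458199763416) (nat_lit 76) (nat_lit 442607710841) (nat_lit 4) (nat_lit 4) (nat_lit 5) (nat_lit 5) (nat_lit 5) (nat_lit 4) (nat_lit 400) (nat_lit 347) (nat_lit 273)))))) (XT.nd (nat_lit 390) (nat_lit 76) (nat_lit 0) (XT.nd (nat_lit 156) (nat_lit 0) (nat_lit 0) (XT.nd (nat_lit 78) (nat_lit 152) (nat_lit 0) (XT.lf (nat_lit 0) (nat_lit 1773778164712) (nat_lit 76) (nat_lit 226028551501) (nat_lit 76) (nat_lit 210436433361) (nat_lit 4) (nat_lit 4) (nat_lit 5) (nat_lit 5) (nat_lit 5) (nat_lit 4) (nat_lit 401) (nat_lit 347) (nat_lit 272)) (XT.lf (nat_lit 0) (nat_lit 57247230047) (nat_lit 152) (nat_lit 2419042918004) (nat_lit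 0) (nat_lit 42810030832) (nat_lit 2) (nat_lit 5) (nat_lit 4) (nat_lit 4) (nat_lit 2) (nat_lit 4) (nat_lit 402) (nat_lit 347) (nat_lit 271))) (XT.nd (nat_lit 78) (nat_lit 0) (nat_lit 0) (XT.lf (nat_lit 0) (nat_lit 372264075162) (nat_lit 152) (nat_lit 2142186321490) (nat_lit 0) (nat_lit 357826830043) (nat_lit 2) (nat_lit 5) (nat_lit 4) (nat_lit 4) (nat_lit 2) (nat_lit 4) (nat_lit 403) (nat_lit 347) (nat_lit 270)) (XT.nd (nat_lit 78) (nat_lit 0) (nat_lit 0) (XT.lf (nat_lit 0) (nat_lit 734531612754) (nat_lit 152) (nat_lit 1823805037950) (nat_lit 0) (nat_lit 720094327718) (nat_lit 2) (nat_lit 5) (nat_lit 4) (nat_lit 4) (nat_lit 2) (nat_lit 4) (nat_lit 404) (nat_lit 347) (nat_lit 269)) (XT.lf (nat_lit 0) (nat_lit 1151137685952) (nat_lit 152) (nat_lit 1457669868357) (nat_lit 0) (nat_lit 1136700366206) (nat_lit 2) (nat_lit 5) (nat_lit 4) (nat_lit 4) (nat_lit 2) (nat_lit 4) (nat_lit 405) (nat_lit 347)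 (nat_lit 268))))) (XT.nd (nat_lit 234) (nat_lit 0) (nat_lit 0) (XT.nd (nat_lit 78) (nat_lit 76) (nat_lit 0) (XT.lf (nat_lit 0) (nat_lit 1630233283142) (nat_lit 152) (nat_lit 1036617298523) (nat_lit 0) (nat_lit 1615795933214) (nat_lit 2) (nat_lit 5) (nat_lit 4) (nat_lit 4) (nat_lit 2) (nat_lit 4) (nat_lit 406) (nat_lit 347) (nat_lit 267)) (XT.nd (nat_lit 78) (nat_lit 76) (nat_lit 0) (XT.lf (nat_lit 0) (nat_lit 2181192013836) (nat_lit 152) (nat_lit 552409343388) (nat_lit 0) (nat_lit 2166754637662) (nat_lit 2) (nat_lit 5) (nat_lit 4) (nat_lit 4) (nat_lit 2) (nat_lit 4) (nat_lit 407) (nat_lit 347) (nat_lit 266)) (XT.lf (nat_lit 0) (nat_lit 4660782152) (nat_lit 76) (nat_lit 2810244815144) (nat_lit 76) (nat_lit 2795807416147) (nat_lit 1) (nat_lit 4) (nat_lit 2) (nat_lit 5) (nat_lit 2) (nat_lit 4) (nat_lit 408) (nat_lit 347) (nat_lit 265)))) (XT.nd (nat_lit 78) (nat_lit 0) (nat_lit 0) (XT.lf (nat_lit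 0) (nat_lit 678741668115) (nat_lit 76) (nat_lit 2881016394003) (nat_lit 76) (nat_lit 2866578975160) (nat_lit 1) (nat_lit 4) (nat_lit 2) (nat_lit 5) (nat_lit 2) (nat_lit 4) (nat_lit 409) (nat_lit 347) (nat_lit 264)) (XT.nd (nat_lit 78) (nat_lit 0) (nat_lit 0) (XT.lf (nat_lit 0) (nat_lit 1453932956503) (nat_lit 76) (nat_lit 2962404605528) (nat_lit 76) (nat_lit 2947967169428) (nat_lit 1) (nat_lit 4) (nat_lit 2) (nat_lit 5) (nat_lit 2) (nat_lit 4) (nat_lit 410) (nat_lit 347) (nat_lit 263)) (XT.lf (nat_lit 0) (nat_lit 2345401433393) (nat_lit 76) (nat_lit 3056001827771) (nat_lit 76) (nat_lit 3041564376665) (nat_lit 1) (nat_lit 4) (nat_lit 2) (nat_lit 5) (nat_lit 2) (nat_lit 4) (nat_lit 411) (nat_lit 347) (nat_lit 262))))))))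
noncomputable def xc61 : XT := (XT.nd (nat_lit 48594) (nat_lit 0) (nat_lit 2584) (XT.nd (nat_lit 780) (nat_lit 0) (nat_lit 0) (XT.nd (nat_lit 390) (nat_lit 0) (nat_lit 0) (XT.nd (nat_lit 156) (nat_lit 0) (nat_lit 0) (XT.nd (nat_lit 78) (nat_lit 0) (nat_lit 0) (XT.lf (nat_lit 0) (nat_lit 3370588873333) (nat_lit 76) (nat_lit 3163639310732) (nat_lit 76) (nat_lit 3149201846578) (nat_lit 1) (nat_lit 4) (nat_lit 2) (nat_lit 5) (nat_lit 2) (nat_lit 4) (nat_lit 412) (nat_lit 347) (nat_lit 261)) (XT.lf (nat_lit 0) (nat_lit 4549553291452) (nat_lit 76) (nat_lit 3287423005166) (nat_lit 76) (nat_lit 3272985529665) (nat_lit 1) (nat_lit 4) (nat_lit 2) (nat_lit 5) (nat_lit 2) (nat_lit 4) (nat_lit 413) (nat_lit 347) (nat_lit 260))) (XT.nd (nat_lit 78) (nat_lit 0) (nat_lit 0) (XT.lf (nat_lit 0) (nat_lit 5905361382888) (nat_lit 76) (nat_lit 3429774765963) (nat_lit 76) (nat_lit 3415337280595) (nat_lit 1) (nat_lit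 4) (nat_lit 2) (nat_lit 5) (nat_lit 2) (nat_lit 4) (nat_lit 414) (nat_lit 347) (nat_lit 259)) (XT.nd (nat_lit 78) (nat_lit 0) (nat_lit 0) (XT.lf (nat_lit 0) (nat_lit 7464539827690) (nat_lit 76) (nat_lit 3593479736269) (nat_lit 76) (nat_lit 3579042242321) (nat_lit 1) (nat_lit 4) (nat_lit 2) (nat_lit 5) (nat_lit 2) (nat_lit 4) (nat_lit 415) (nat_lit 347) (nat_lit 258)) (XT.lf (nat_lit 0) (nat_lit 9257594291082) (nat_lit 76) (nat_lit 3781740839416) (nat_lit 76) (nat_lit 3767303338007) (nat_lit 1) (nat_lit 4) (nat_lit 2) (nat_lit 5) (nat_lit 2) (nat_lit 4) (nat_lit 416) (nat_lit 347) (nat_lit 257))))) (XT.nd (nat_lit 156) (nat_lit 0) (nat_lit 0) (XT.nd (nat_lit 78) (nat_lit 0) (nat_lit 0) (XT.lf (nat_lit 0) (nat_lit 11319606273436) (nat_lit 76) (nat_lit 3998241444814) (nat_lit 76) (nat_lit 3983803936918) (nat_lit 1) (nat_lit 4) (nat_lit 2) (nat_lit 5) (nat_lit 2) (nat_lit 4) (nat_lit 417) (nat_lit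 347) (nat_lit 256)) (XT.lf (nat_lit 0) (nat_lit 13690919487449) (nat_lit 76) (nat_lit 4247217433872) (nat_lit 76) (nat_lit 4232779920335) (nat_lit 1) (nat_lit 4) (nat_lit 2) (nat_lit 5) (nat_lit 2) (nat_lit 4) (nat_lit 418) (nat_lit 347) (nat_lit 255))) (XT.nd (nat_lit 78) (nat_lit 0) (nat_lit 0) (XT.lf (nat_lit 0) (nat_lit 16417929191657) (nat_lit 76) (nat_lit 4533540075942) (nat_lit 76) (nat_lit 4519102557499) (nat_lit 1) (nat_lit 4) (nat_lit 2) (nat_lit 5) (nat_lit 2) (nat_lit 4) (nat_lit 419) (nat_lit 347) (nat_lit 254)) (XT.nd (nat_lit 78) (nat_lit 0) (nat_lit 0) (XT.lf (nat_lit 0) (nat_lit 19553989923751) (nat_lit 76) (nat_lit 4862811335760) (nat_lit 76) (nat_lit 4848373813052) (nat_lit 1) (nat_lit 4) (nat_lit 2) (nat_lit 5) (nat_lit 2) (nat_lit 4) (nat_lit 420) (nat_lit 347) (nat_lit 253)) (XT.lf (nat_lit 0) (nat_lit 23160459393706) (nat_lit 76) (nat_lit 5241473477105) (nat_lit 76)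 (nat_lit 5227035950688) (nat_lit 1) (nat_lit 4) (nat_lit 2) (nat_lit 5) (nat_lit 2) (nat_lit 4) (nat_lit 421) (nat_lit 347) (nat_lit 252)))))) (XT.nd (nat_lit 47346) (nat_lit 0) (nat_lit 6156) (XT.nd (nat_lit 156) (nat_lit 0) (nat_lit 0) (XT.nd (nat_lit 78) (nat_lit 0) (nat_lit 0) (XT.lf (nat_lit 0) (nat_lit 27307898960717) (nat_lit 76) (nat_lit 5676935107091) (nat_lit 76) (nat_lit 5662497577448) (nat_lit 1) (nat_lit 4) (nat_lit 2) (nat_lit 5) (nat_lit 2) (nat_lit 4) (nat_lit 422) (nat_lit 347) (nat_lit 251)) (XT.lf (nat_lit 0) (nat_lit 32077454181531) (nat_lit 76) (nat_lit 6177716127173) (nat_lit 76) (nat_lit 6163278594725) (nat_lit 1) (nat_lit 4) (nat_lit 2) (nat_lit 5) (nat_lit 2) (nat_lit 4) (nat_lit 423) (nat_lit 347) (nat_lit 250))) (XT.nd (nat_lit 78) (nat_lit 0) (nat_lit 0) (XT.lf (nat_lit 0) (nat_lit 37562442440901) (nat_lit 76) (nat_lit 6753614426874) (nat_lit 76) (nat_lit 6739176891987)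 (nat_lit 1) (nat_lit 4) (nat_lit 2) (nat_lit 5) (nat_lit 2) (nat_lit 4) (nat_lit 424) (nat_lit 347) (nat_lit 249)) (XT.nd (nat_lit 78) (nat_lit 0) (nat_lit 0) (XT.lf (nat_lit 0) (nat_lit 43870178726511) (nat_lit 76) (nat_lit 7415897581625) (nat_lit 76) (nat_lit 7401460044617) (nat_lit 1) (nat_lit 4) (nat_lit 2) (nat_lit 5) (nat_lit 2) (nat_lit 4) (nat_lit 425) (nat_lit 347) (nat_lit 248)) (XT.lf (nat_lit 0) (nat_lit 51124075270037) (nat_lit 76) (nat_lit 8177523305321) (nat_lit 76) (nat_lit 8163085766469) (nat_lit 1) (nat_lit 4) (nat_lit 2) (nat_lit 5) (nat_lit 2) (nat_lit 4) (nat_lit 426) (nat_lit 347) (nat_lit 247))))) (XT.nd (nat_lit 234) (nat_lit 836) (nat_lit 0) (XT.nd (nat_lit 78) (nat_lit 0) (nat_lit 76) (XT.lf (nat_lit 0) (nat_lit 4371507052) (nat_lit 532) (nat_lit 989316323) (nat_lit 532) (nat_lit 989316323) (nat_lit 93) (nat_lit 3) (nat_lit 100) (nat_lit 3) (nat_lit 100) (nat_lit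 5) (nat_lit 348) (nat_lit 348) (nat_lit 324)) (XT.nd (nat_lit 78) (nat_lit 0) (nat_lit 0) (XT.lf (nat_lit 0) (nat_lit 10370379323) (nat_lit 456) (nat_lit 3190989883) (nat_lit 532) (nat_lit 13603757) (nat_lit 94) (nat_lit 5) (nat_lit 100) (nat_lit 5) (nat_lit 101) (nat_lit 5) (nat_lit 349) (nat_lit 348) (nat_lit 323)) (XT.lf (nat_lit 76) (nat_lit 10275700891) (nat_lit 0) (nat_lit 2440059568) (nat_lit 532) (nat_lit 1827214349) (nat_lit 95) (nat_lit 5) (nat_lit 94) (nat_lit 5) (nat_lit 101) (nat_lit 5) (nat_lit 350) (nat_lit 348) (nat_lit 322)))) (XT.nd (nat_lit 78) (nat_lit 456) (nat_lit 0) (XT.lf (nat_lit 0) (nat_lit 265010944) (nat_lit 532) (nat_lit 5131424813) (nat_lit 608) (nat_lit 10220537198) (nat_lit 88) (nat_lit 5) (nat_lit 95) (nat_lit 5) (nat_lit 96) (nat_lit 5) (nat_lit 351) (nat_lit 348) (nat_lit 321)) (XT.nd (nat_lit 78) (nat_lit 532) (nat_lit 0) (XT.lf (nat_lit 0) (nat_lit 3127421803)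 (nat_lit 532) (nat_lit 5796531176) (nat_lit 76) (nat_lit 7879169574) (nat_lit 89) (nat_lit 5) (nat_lit 96) (nat_lit 5) (nat_lit 90) (nat_lit 5) (nat_lit 352) (nat_lit 348) (nat_lit 320)) (XT.lf (nat_lit 0) (nat_lit 7045604620) (nat_lit 608) (nat_lit 6165012292) (nat_lit 76) (nat_lit 4906475289) (nat_lit 82) (nat_lit 5) (nat_lit 90) (nat_lit 5) (nat_lit 83) (nat_lit 5) (nat_lit 353) (nat_lit 348) (nat_lit 319))))))) (XT.nd (nat_lit 780) (nat_lit 1520) (nat_lit 0) (XT.nd (nat_lit 390) (nat_lit 912) (nat_lit 0) (XT.nd (nat_lit 156) (nat_lit 684) (nat_lit 0) (XT.nd (nat_lit 78) (nat_lit 228) (nat_lit 0) (XT.lf (nat_lit 0) (nat_lit 12242978414) (nat_lit 304) (nat_lit 6169665460) (nat_lit 76) (nat_lit 1160205410) (nat_lit 79) (nat_lit 5) (nat_lit 83) (nat_lit 5) (nat_lit 80) (nat_lit 5) (nat_lit 354) (nat_lit 348) (nat_lit 318)) (XT.lf (nat_lit 0) (nat_lit 15362026853) (nat_lit 228) (nat_lit 3704479702)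 (nat_lit 304) (nat_lit 2112747401) (nat_lit 76) (nat_lit 5) (nat_lit 79) (nat_lit 5) (nat_lit 80) (nat_lit 5) (nat_lit 355) (nat_lit 348) (nat_lit 317))) (XT.nd (nat_lit 78) (nat_lit 380) (nat_lit 0) (XT.lf (nat_lit 0) (nat_lit 4584380309) (nat_lit 304) (nat_lit 5092778069) (nat_lit 76) (nat_lit 13270638702) (nat_lit 72) (nat_lit 5) (nat_lit 76) (nat_lit 5) (nat_lit 73) (nat_lit 5) (nat_lit 356) (nat_lit 348) (nat_lit 316)) (XT.nd (nat_lit 78) (nat_lit 152) (nat_lit 0) (XT.lf (nat_lit 0) (nat_lit 13094503377) (nat_lit 304) (nat_lit 3836607795) (nat_lit 76) (nat_lit 7971443946) (nat_lit 69) (nat_lit 5) (nat_lit 73) (nat_lit 5) (nat_lit 70) (nat_lit 5) (nat_lit 357) (nat_lit 348) (nat_lit 315)) (XT.lf (nat_lit 0) (nat_lit 23886735476) (nat_lit 228) (nat_lit 1872040004) (nat_lit 76) (nat_lit 1311308940) (nat_lit 67) (nat_lit 5) (nat_lit 70) (nat_lit 5) (nat_lit 68) (nat_lit 5) (nat_lit 358) (nat_lit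 348) (nat_lit 314))))) (XT.nd (nat_lit 156) (nat_lit 380) (nat_lit 0) (XT.nd (nat_lit 78) (nat_lit 152) (nat_lit 0) (XT.lf (nat_lit 0) (nat_lit 609426257) (nat_lit 152) (nat_lit 7096847191) (nat_lit 228) (nat_lit 21738864939) (nat_lit 62) (nat_lit 5) (nat_lit 64) (nat_lit 5) (nat_lit 65) (nat_lit 5) (nat_lit 359) (nat_lit 348) (nat_lit 313)) (XT.lf (nat_lit 0) (nat_lit 4034039648) (nat_lit 152) (nat_lit 17331594097) (nat_lit 228) (nat_lit 10698222570) (nat_lit 60) (nat_lit 5) (nat_lit 62) (nat_lit 5) (nat_lit 63) (nat_lit 5) (nat_lit 360) (nat_lit 348) (nat_lit 312))) (XT.nd (nat_lit 78) (nat_lit 228) (nat_lit 0) (XT.lf (nat_lit 0) (nat_lit 3253578035) (nat_lit 152) (nat_lit 26438799913) (nat_lit 76) (nat_lit 5270758684) (nat_lit 58) (nat_lit 5) (nat_lit 60) (nat_lit 5) (nat_lit 59) (nat_lit 5) (nat_lit 361) (nat_lit 348) (nat_lit 311)) (XT.nd (nat_lit 78) (nat_lit 76) (nat_lit 0) (XT.lf (nat_lit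 0) (nat_lit 13855824874) (nat_lit 152) (nat_lit 6435863769) (nat_lit 228) (nat_lit 17853233110) (nat_lit 56) (nat_lit 5) (nat_lit 58) (nat_lit 5) (nat_lit 59) (nat_lit 5) (nat_lit 362) (nat_lit 348) (nat_lit 310)) (XT.lf (nat_lit 0) (nat_lit 20506202943) (nat_lit 76) (nat_lit 21113031562) (nat_lit 152) (nat_lit 46044691) (nat_lit 55) (nat_lit 5) (nat_lit 56) (nat_lit 5) (nat_lit 57) (nat_lit 4) (nat_lit 363) (nat_lit 348) (nat_lit 309)))))) (XT.nd (nat_lit 390) (nat_lit 684) (nat_lit 0) (XT.nd (nat_lit 156) (nat_lit 532) (nat_lit 0) (XT.nd (nat_lit 78) (nat_lit 76) (nat_lit 0) (XT.lf (nat_lit 0) (nat_lit 21145862814) (nat_lit 228) (nat_lit 17219344291) (nat_lit 76) (nat_lit 7170313698) (nat_lit 52) (nat_lit 5) (nat_lit 55) (nat_lit 5) (nat_lit 53) (nat_lit 4) (nat_lit 364) (nat_lit 348) (nat_lit 308)) (XT.lf (nat_lit 0) (nat_lit 37788474088) (nat_lit 76) (nat_lit 9817837003) (nat_lit 152)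 (nat_lit 2212494837) (nat_lit 51) (nat_lit 5) (nat_lit 52) (nat_lit 5) (nat_lit 53) (nat_lit 4) (nat_lit 365) (nat_lit 348) (nat_lit 307))) (XT.nd (nat_lit 78) (nat_lit 304) (nat_lit 0) (XT.lf (nat_lit 0) (nat_lit 24405538092) (nat_lit 228) (nat_lit 5957467052) (nat_lit 76) (nat_lit 24154414027) (nat_lit 48) (nat_lit 5) (nat_lit 51) (nat_lit 5) (nat_lit 49) (nat_lit 4) (nat_lit 366) (nat_lit 348) (nat_lit 306)) (XT.nd (nat_lit 78) (nat_lit 152) (nat_lit 0) (XT.lf (nat_lit 0) (nat_lit 2007560208) (nat_lit 76) (nat_lit 55133513882) (nat_lit 76) (nat_lit 2594689724) (nat_lit 46) (nat_lit 4) (nat_lit 47) (nat_lit 5) (nat_lit 47) (nat_lit 4) (nat_lit 367) (nat_lit 348) (nat_lit 305)) (XT.lf (nat_lit 0) (nat_lit 11254495093) (nat_lit 76) (nat_lit 19423477127) (nat_lit 152) (nat_lit 34756508764) (nat_lit 44) (nat_lit 5) (nat_lit 45) (nat_lit 5) (nat_lit 46) (nat_lit 4) (nat_lit 368) (nat_lit 348)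 (nat_lit 304))))) (XT.nd (nat_lit 234) (nat_lit 304) (nat_lit 0) (XT.nd (nat_lit 78) (nat_lit 304) (nat_lit 0) (XT.lf (nat_lit 0) (nat_lit 22675615163) (nat_lit 76) (nat_lit 48880881219) (nat_lit 76) (nat_lit 204630687) (nat_lit 43) (nat_lit 4) (nat_lit 44) (nat_lit 5) (nat_lit 44) (nat_lit 4) (nat_lit 369) (nat_lit 348) (nat_lit 303)) (XT.nd (nat_lit 78) (nat_lit 152) (nat_lit 0) (XT.lf (nat_lit 0) (nat_lit 35637040686) (nat_lit 76) (nat_lit 4903871592) (nat_lit 152) (nat_lit 38180735676) (nat_lit 41) (nat_lit 5) (nat_lit 42) (nat_lit 5) (nat_lit 43) (nat_lit 4) (nat_lit 370) (nat_lit 348) (nat_lit 302)) (XT.lf (nat_lit 0) (nat_lit 4488652395) (nat_lit 152) (nat_lit 35754643033) (nat_lit 76) (nat_lit 46172349304) (nat_lit 39) (nat_lit 5) (nat_lit 41) (nat_lit 5) (nat_lit 40) (nat_lit 4) (nat_lit 371) (nat_lit 348) (nat_lit 301)))) (XT.nd (nat_lit 78) (nat_lit 228) (nat_lit 0) (XT.lf (nat_lit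 0) (nat_lit 54728379314) (nat_lit 152) (nat_lit 27211810380) (nat_lit 0) (nat_lit 12969762636) (nat_lit 38) (nat_lit 5) (nat_lit 40) (nat_lit 4) (nat_lit 38) (nat_lit 4) (nat_lit 372) (nat_lit 348) (nat_lit 300)) (XT.nd (nat_lit 78) (nat_lit 76) (nat_lit 0) (XT.lf (nat_lit 0) (nat_lit 11808941769) (nat_lit 152) (nat_lit 17202673187) (nat_lit 76) (nat_lit 75301754549) (nat_lit 36) (nat_lit 5) (nat_lit 38) (nat_lit 5) (nat_lit 37) (nat_lit 4) (nat_lit 373) (nat_lit 348) (nat_lit 299)) (XT.lf (nat_lit 0) (nat_lit 73597653901) (nat_lit 152) (nat_lit 6175098959) (nat_lit 0) (nat_lit 34920747083) (nat_lit 35) (nat_lit 5) (nat_lit 37) (nat_lit 4) (nat_lit 35) (nat_lit 4) (nat_lit 374) (nat_lit 348) (nat_lit 298))))))))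
noncomputable def xc62 : XT := (XT.nd (nat_lit 1638) (nat_lit 456) (nat_lit 0) (XT.nd (nat_lit 780) (nat_lit 912) (nat_lit 0) (XT.nd (nat_lit 390) (nat_lit 532) (nat_lit 0) (XT.nd (nat_lit 156) (nat_lit 380) (nat_lit 0) (XT.nd (nat_lit 78) (nat_lit 76) (nat_lit 0) (XT.lf (nat_lit 0) (nat_lit 6894810519) (nat_lit 76) (nat_lit 15016909190) (nat_lit 152) (nat_lit 104301105693) (nat_lit 32) (nat_lit 5) (nat_lit 33) (nat_lit 5) (nat_lit 34) (nat_lit 4) (nat_lit 375) (nat_lit 348) (nat_lit 297)) (XT.lf (nat_lit 0) (nat_lit 20721558773) (nat_lit 76) (nat_lit 77004979056) (nat_lit 76) (nat_lit 41184962063) (nat_lit 31) (nat_lit 4) (nat_lit 32) (nat_lit 5) (nat_lit 32) (nat_lit 4) (nat_lit 376) (nat_lit 348) (nat_lit 296))) (XT.nd (nat_lit 78) (nat_lit 228) (nat_lit 0) (XT.lf (nat_lit 0) (nat_lit 34702144821) (nat_lit 152) (nat_lit 116830040063) (nat_lit 0) (nat_lit 1532441696) (nat_lit 29) (nat_lit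 5) (nat_lit 31) (nat_lit 4) (nat_lit 29) (nat_lit 4) (nat_lit 377) (nat_lit 348) (nat_lit 295)) (XT.nd (nat_lit 78) (nat_lit 152) (nat_lit 0) (XT.lf (nat_lit 0) (nat_lit 51080527233) (nat_lit 76) (nat_lit 75395769405) (nat_lit 76) (nat_lit 42223439565) (nat_lit 28) (nat_lit 4) (nat_lit 29) (nat_lit 5) (nat_lit 29) (nat_lit 4) (nat_lit 378) (nat_lit 348) (nat_lit 294)) (XT.lf (nat_lit 0) (nat_lit 48607858299) (nat_lit 152) (nat_lit 119651258469) (nat_lit 0) (nat_lit 17890623169) (nat_lit 26) (nat_lit 5) (nat_lit 28) (nat_lit 4) (nat_lit 26) (nat_lit 4) (nat_lit 379) (nat_lit 348) (nat_lit 293))))) (XT.nd (nat_lit 156) (nat_lit 304) (nat_lit 0) (XT.nd (nat_lit 78) (nat_lit 152) (nat_lit 0) (XT.lf (nat_lit 0) (nat_lit 80048054626) (nat_lit 76) (nat_lit 78097010892) (nat_lit 76) (nat_lit 47377936712) (nat_lit 25) (nat_lit 4) (nat_lit 26) (nat_lit 5) (nat_lit 26) (nat_lit 4) (nat_lit 380) (nat_lit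 348) (nat_lit 292)) (XT.lf (nat_lit 0) (nat_lit 60082691956) (nat_lit 152) (nat_lit 135446478149) (nat_lit 0) (nat_lit 31637624034) (nat_lit 23) (nat_lit 5) (nat_lit 25) (nat_lit 4) (nat_lit 23) (nat_lit 4) (nat_lit 381) (nat_lit 348) (nat_lit 291))) (XT.nd (nat_lit 78) (nat_lit 228) (nat_lit 0) (XT.lf (nat_lit 0) (nat_lit 98674994929) (nat_lit 76) (nat_lit 90531075581) (nat_lit 76) (nat_lit 62084720080) (nat_lit 22) (nat_lit 4) (nat_lit 23) (nat_lit 5) (nat_lit 23) (nat_lit 4) (nat_lit 382) (nat_lit 348) (nat_lit 290)) (XT.nd (nat_lit 78) (nat_lit 76) (nat_lit 0) (XT.lf (nat_lit 0) (nat_lit 63122713662) (nat_lit 152) (nat_lit 178423920553) (nat_lit 0) (nat_lit 36782458907) (nat_lit 20) (nat_lit 5) (nat_lit 22) (nat_lit 4) (nat_lit 20) (nat_lit 4) (nat_lit 383) (nat_lit 348) (nat_lit 289)) (XT.lf (nat_lit 0) (nat_lit 90655716051) (nat_lit 76) (nat_lit 122116312070) (nat_lit 76) (nat_lit 95775155838)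 (nat_lit 19) (nat_lit 4) (nat_lit 20) (nat_lit 5) (nat_lit 20) (nat_lit 4) (nat_lit 384) (nat_lit 348) (nat_lit 288)))))) (XT.nd (nat_lit 390) (nat_lit 456) (nat_lit 0) (XT.nd (nat_lit 156) (nat_lit 228) (nat_lit 0) (XT.nd (nat_lit 78) (nat_lit 76) (nat_lit 0) (XT.lf (nat_lit 0) (nat_lit 47078110762) (nat_lit 152) (nat_lit 272845518289) (nat_lit 0) (nat_lit 22687425460) (nat_lit 17) (nat_lit 5) (nat_lit 19) (nat_lit 4) (nat_lit 17) (nat_lit 4) (nat_lit 385) (nat_lit 348) (nat_lit 287)) (XT.lf (nat_lit 0) (nat_lit 27662707220) (nat_lit 76) (nat_lit 188728922007) (nat_lit 76) (nat_lit 164337605551) (nat_lit 16) (nat_lit 4) (nat_lit 17) (nat_lit 5) (nat_lit 17) (nat_lit 4) (nat_lit 386) (nat_lit 348) (nat_lit 286))) (XT.nd (nat_lit 78) (nat_lit 228) (nat_lit 0) (XT.lf (nat_lit 0) (nat_lit 389752554660) (nat_lit 76) (nat_lit 29284818463) (nat_lit 76) (nat_lit 4892953178) (nat_lit 16) (nat_lit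 4) (nat_lit 17) (nat_lit 5) (nat_lit 17) (nat_lit 4) (nat_lit 387) (nat_lit 348) (nat_lit 285)) (XT.nd (nat_lit 78) (nat_lit 76) (nat_lit 0) (XT.lf (nat_lit 0) (nat_lit 181875636629) (nat_lit 152) (nat_lit 131115640989) (nat_lit 0) (nat_lit 159290134289) (nat_lit 14) (nat_lit 5) (nat_lit 16) (nat_lit 4) (nat_lit 14) (nat_lit 4) (nat_lit 388) (nat_lit 348) (nat_lit 284)) (XT.lf (nat_lit 0) (nat_lit 259047990395) (nat_lit 76) (nat_lit 145383958637) (nat_lit 76) (nat_lit 122798072043) (nat_lit 13) (nat_lit 4) (nat_lit 14) (nat_lit 5) (nat_lit 14) (nat_lit 4) (nat_lit 389) (nat_lit 348) (nat_lit 283))))) (XT.nd (nat_lit 234) (nat_lit 228) (nat_lit 0) (XT.nd (nat_lit 78) (nat_lit 76) (nat_lit 0) (XT.lf (nat_lit 0) (nat_lit 74860458880) (nat_lit 152) (nat_lit 460805874258) (nat_lit 0) (nat_lit 53947291539) (nat_lit 11) (nat_lit 5) (nat_lit 13) (nat_lit 4) (nat_lit 11) (nat_lit 4) (nat_lit 390) (nat_lit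 348) (nat_lit 282)) (XT.nd (nat_lit 78) (nat_lit 76) (nat_lit 0) (XT.lf (nat_lit 0) (nat_lit 307128878478) (nat_lit 152) (nat_lit 66776713404) (nat_lit 0) (nat_lit 286215442108) (nat_lit 11) (nat_lit 5) (nat_lit 13) (nat_lit 4) (nat_lit 11) (nat_lit 4) (nat_lit 391) (nat_lit 348) (nat_lit 281)) (XT.lf (nat_lit 0) (nat_lit 406689965014) (nat_lit 76) (nat_lit 177323109464) (nat_lit 76) (nat_lit 156409439157) (nat_lit 10) (nat_lit 4) (nat_lit 11) (nat_lit 5) (nat_lit 11) (nat_lit 4) (nat_lit 392) (nat_lit 348) (nat_lit 280)))) (XT.nd (nat_lit 78) (nat_lit 76) (nat_lit 0) (XT.lf (nat_lit 0) (nat_lit 72572590835) (nat_lit 152) (nat_lit 706342974914) (nat_lit 0) (nat_lit 53207892935) (nat_lit 8) (nat_lit 5) (nat_lit 10) (nat_lit 4) (nat_lit 8) (nat_lit 4) (nat_lit 393) (nat_lit 348) (nat_lit 279)) (XT.nd (nat_lit 78) (nat_lit 76) (nat_lit 0) (XT.lf (nat_lit 0) (nat_lit 341772260719) (nat_lit 152)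 (nat_lit 271864357554) (nat_lit 0) (nat_lit 322407399032) (nat_lit 8) (nat_lit 5) (nat_lit 10) (nat_lit 4) (nat_lit 8) (nat_lit 4) (nat_lit 394) (nat_lit 348) (nat_lit 278)) (XT.lf (nat_lit 0) (nat_lit 239771868165) (nat_lit 76) (nat_lit 417342402263) (nat_lit 76) (nat_lit 397977398151) (nat_lit 7) (nat_lit 4) (nat_lit 8) (nat_lit 5) (nat_lit 8) (nat_lit 4) (nat_lit 395) (nat_lit 348) (nat_lit 277))))))) (XT.nd (nat_lit 780) (nat_lit 76) (nat_lit 0) (XT.nd (nat_lit 390) (nat_lit 152) (nat_lit 0) (XT.nd (nat_lit 156) (nat_lit 76) (nat_lit 0) (XT.nd (nat_lit 78) (nat_lit 152) (nat_lit 0) (XT.lf (nat_lit 0) (nat_lit 844608986370) (nat_lit 76) (nat_lit 183059854210) (nat_lit 76) (nat_lit 163694726251) (nat_lit 7) (nat_lit 4) (nat_lit 8) (nat_lit 5) (nat_lit 8) (nat_lit 4) (nat_lit 396) (nat_lit 348) (nat_lit 276)) (XT.lf (nat_lit 0) (nat_lit 107504220258) (nat_lit 152) (nat_lit 1150230122955)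 (nat_lit 0) (nat_lit 89573446507) (nat_lit 5) (nat_lit 5) (nat_lit 7) (nat_lit 4) (nat_lit 5) (nat_lit 4) (nat_lit 397) (nat_lit 348) (nat_lit 275))) (XT.nd (nat_lit 78) (nat_lit 76) (nat_lit 0) (XT.lf (nat_lit 0) (nat_lit 425383456984) (nat_lit 152) (nat_lit 692212007435) (nat_lit 0) (nat_lit 407452596523) (nat_lit 5) (nat_lit 5) (nat_lit 7) (nat_lit 4) (nat_lit 5) (nat_lit 4) (nat_lit 398) (nat_lit 348) (nat_lit 274)) (XT.nd (nat_lit 78) (nat_lit 76) (nat_lit 0) (XT.lf (nat_lit 0) (nat_lit 790941827095) (nat_lit 152) (nat_lit 165496874692) (nat_lit 0) (nat_lit 773010891234) (nat_lit 5) (nat_lit 5) (nat_lit 7) (nat_lit 4) (nat_lit 5) (nat_lit 4) (nat_lit 399) (nat_lit 348) (nat_lit 273)) (XT.lf (nat_lit 0) (nat_lit 463401806497) (nat_lit 76) (nat_lit 759074577664) (nat_lit 76) (nat_lit 741143576239) (nat_lit 4) (nat_lit 4) (nat_lit 5) (nat_lit 5) (nat_lit 5) (nat_lit 4) (nat_lit 400) (nat_lit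 348) (nat_lit 272))))) (XT.nd (nat_lit 156) (nat_lit 152) (nat_lit 0) (XT.nd (nat_lit 78) (nat_lit 0) (nat_lit 0) (XT.lf (nat_lit 0) (nat_lit 1196652740759) (nat_lit 76) (nat_lit 526904457351) (nat_lit 76) (nat_lit 508973398912) (nat_lit 4) (nat_lit 4) (nat_lit 5) (nat_lit 5) (nat_lit 5) (nat_lit 4) (nat_lit 401) (nat_lit 348) (nat_lit 271)) (XT.lf (nat_lit 0) (nat_lit 2039887369891) (nat_lit 76) (nat_lit 259910859810) (nat_lit 76) (nat_lit 241979751796) (nat_lit 4) (nat_lit 4) (nat_lit 5) (nat_lit 5) (nat_lit 5) (nat_lit 4) (nat_lit 402) (nat_lit 348) (nat_lit 270))) (XT.nd (nat_lit 78) (nat_lit 0) (nat_lit 0) (XT.lf (nat_lit 0) (nat_lit 65854065157) (nat_lit 152) (nat_lit 2781858413040) (nat_lit 0) (nat_lit 49251147449) (nat_lit 2) (nat_lit 5) (nat_lit 4) (nat_lit 4) (nat_lit 2) (nat_lit 4) (nat_lit 403) (nat_lit 348) (nat_lit 269)) (XT.nd (nat_lit 78) (nat_lit 0) (nat_lit 0) (XT.lf (nat_lit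 0) (nat_lit 428120860873) (nat_lit 152) (nat_lit 2463478667396) (nat_lit 0) (nat_lit 411517908456) (nat_lit 2) (nat_lit 5) (nat_lit 4) (nat_lit 4) (nat_lit 2) (nat_lit 4) (nat_lit 404) (nat_lit 348) (nat_lit 268)) (XT.lf (nat_lit 0) (nat_lit 844726288961) (nat_lit 152) (nat_lit 2097344835105) (nat_lit 0) (nat_lit 828123306360) (nat_lit 2) (nat_lit 5) (nat_lit 4) (nat_lit 4) (nat_lit 2) (nat_lit 4) (nat_lit 405) (nat_lit 348) (nat_lit 267)))))) (XT.nd (nat_lit 390) (nat_lit 0) (nat_lit 0) (XT.nd (nat_lit 156) (nat_lit 76) (nat_lit 0) (XT.nd (nat_lit 78) (nat_lit 0) (nat_lit 0) (XT.lf (nat_lit 0) (nat_lit 1323821325186) (nat_lit 152) (nat_lit 1676293428143) (nat_lit 0) (nat_lit 1307218316340) (nat_lit 2) (nat_lit 5) (nat_lit 4) (nat_lit 4) (nat_lit 2) (nat_lit 4) (nat_lit 406) (nat_lit 348) (nat_lit 266)) (XT.lf (nat_lit 0) (nat_lit 1874779568085) (nat_lit 152) (nat_lit 1192086484200) (nat_lit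 0) (nat_lit 1858176536416) (nat_lit 2) (nat_lit 5) (nat_lit 4) (nat_lit 4) (nat_lit 2) (nat_lit 4) (nat_lit 407) (nat_lit 348) (nat_lit 265))) (XT.nd (nat_lit 78) (nat_lit 76) (nat_lit 0) (XT.lf (nat_lit 0) (nat_lit 2508380635452) (nat_lit 152) (nat_lit 635250389156) (nat_lit 0) (nat_lit 2491777583938) (nat_lit 2) (nat_lit 5) (nat_lit 4) (nat_lit 4) (nat_lit 2) (nat_lit 4) (nat_lit 408) (nat_lit 348) (nat_lit 264)) (XT.nd (nat_lit 78) (nat_lit 0) (nat_lit 0) (XT.lf (nat_lit 0) (nat_lit 5378532204) (nat_lit 76) (nat_lit 3231771891535) (nat_lit 76) (nat_lit 3215168822764) (nat_lit 1) (nat_lit 4) (nat_lit 2) (nat_lit 5) (nat_lit 2) (nat_lit 4) (nat_lit 409) (nat_lit 348) (nat_lit 263)) (XT.lf (nat_lit 0) (nat_lit 780569120705) (nat_lit 76) (nat_lit 3313160465381) (nat_lit 76) (nat_lit 3296557381603) (nat_lit 1) (nat_lit 4) (nat_lit 2) (nat_lit 5) (nat_lit 2) (nat_lit 4) (nat_lit 410) (nat_lit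 348) (nat_lit 262))))) (XT.nd (nat_lit 234) (nat_lit 0) (nat_lit 0) (XT.nd (nat_lit 78) (nat_lit 0) (nat_lit 0) (XT.lf (nat_lit 0) (nat_lit 1672036988998) (nat_lit 76) (nat_lit 3406758002685) (nat_lit 76) (nat_lit 3390154905859) (nat_lit 1) (nat_lit 4) (nat_lit 2) (nat_lit 5) (nat_lit 2) (nat_lit 4) (nat_lit 411) (nat_lit 348) (nat_lit 261)) (XT.nd (nat_lit 78) (nat_lit 0) (nat_lit 0) (XT.lf (nat_lit 0) (nat_lit 2697223899723) (nat_lit 76) (nat_lit 3514395759613) (nat_lit 76) (nat_lit 3497792651440) (nat_lit 1) (nat_lit 4) (nat_lit 2) (nat_lit 5) (nat_lit 2) (nat_lit 4) (nat_lit 412) (nat_lit 348) (nat_lit 260)) (XT.lf (nat_lit 0) (nat_lit 3876187857656) (nat_lit 76) (nat_lit 3638179692279) (nat_lit 76) (nat_lit 3621576574239) (nat_lit 1) (nat_lit 4) (nat_lit 2) (nat_lit 5) (nat_lit 2) (nat_lit 4) (nat_lit 413) (nat_lit 348) (nat_lit 259)))) (XT.nd (nat_lit 78) (nat_lit 0) (nat_lit 0) (XT.lf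 (nat_lit 0) (nat_lit 5231995548929) (nat_lit 76) (nat_lit 3780531660233) (nat_lit 76) (nat_lit 3763928533614) (nat_lit 1) (nat_lit 4) (nat_lit 2) (nat_lit 5) (nat_lit 2) (nat_lit 4) (nat_lit 414) (nat_lit 348) (nat_lit 258)) (XT.nd (nat_lit 78) (nat_lit 0) (nat_lit 0) (XT.lf (nat_lit 0) (nat_lit 6791173645764) (nat_lit 76) (nat_lit 3944236810677) (nat_lit 76) (nat_lit 3927633676596) (nat_lit 1) (nat_lit 4) (nat_lit 2) (nat_lit 5) (nat_lit 2) (nat_lit 4) (nat_lit 415) (nat_lit 348) (nat_lit 257)) (XT.lf (nat_lit 0) (nat_lit 8584227806576) (nat_lit 76) (nat_lit 4132498070465) (nat_lit 76) (nat_lit 4115894929897) (nat_lit 1) (nat_lit 4) (nat_lit 2) (nat_lit 5) (nat_lit 2) (nat_lit 4) (nat_lit 416) (nat_lit 348) (nat_lit 256))))))))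
noncomputable def xc63 : XT := (XT.nd (nat_lit 48672) (nat_lit 0) (nat_lit 1900) (XT.nd (nat_lit 47814) (nat_lit 0) (nat_lit 5016) (XT.nd (nat_lit 390) (nat_lit 0) (nat_lit 0) (XT.nd (nat_lit 156) (nat_lit 0) (nat_lit 0) (XT.nd (nat_lit 78) (nat_lit 0) (nat_lit 0) (XT.lf (nat_lit 0) (nat_lit 10646239525817) (nat_lit 76) (nat_lit 4348998812073) (nat_lit 76) (nat_lit 4332395665863) (nat_lit 1) (nat_lit 4) (nat_lit 2) (nat_lit 5) (nat_lit 2) (nat_lit 4) (nat_lit 417) (nat_lit 348) (nat_lit 255)) (XT.lf (nat_lit 0) (nat_lit 13017552511036) (nat_lit 76) (nat_lit 4597974919574) (nat_lit 76) (nat_lit 4581371768460) (nat_lit 1) (nat_lit 4) (nat_lit 2) (nat_lit 5) (nat_lit 2) (nat_lit 4) (nat_lit 418) (nat_lit 348) (nat_lit 254))) (XT.nd (nat_lit 78) (nat_lit 0) (nat_lit 0) (XT.lf (nat_lit 0) (nat_lit 15744562016293) (nat_lit 76) (nat_lit 4884297664639) (nat_lit 76) (nat_lit 4867694509258) (nat_lit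 1) (nat_lit 4) (nat_lit 2) (nat_lit 5) (nat_lit 2) (nat_lit 4) (nat_lit 419) (nat_lit 348) (nat_lit 253)) (XT.nd (nat_lit 78) (nat_lit 0) (nat_lit 0) (XT.lf (nat_lit 0) (nat_lit 18880622575385) (nat_lit 76) (nat_lit 5213569014017) (nat_lit 76) (nat_lit 5196965854927) (nat_lit 1) (nat_lit 4) (nat_lit 2) (nat_lit 5) (nat_lit 2) (nat_lit 4) (nat_lit 420) (nat_lit 348) (nat_lit 252)) (XT.lf (nat_lit 0) (nat_lit 22487091894904) (nat_lit 76) (nat_lit 5592231233241) (nat_lit 76) (nat_lit 5575628070925) (nat_lit 1) (nat_lit 4) (nat_lit 2) (nat_lit 5) (nat_lit 2) (nat_lit 4) (nat_lit 421) (nat_lit 348) (nat_lit 251))))) (XT.nd (nat_lit 156) (nat_lit 0) (nat_lit 0) (XT.nd (nat_lit 78) (nat_lit 0) (nat_lit 0) (XT.lf (nat_lit 0) (nat_lit 26634531331102) (nat_lit 76) (nat_lit 6027692930946) (nat_lit 76) (nat_lit 6011089765826) (nat_lit 1) (nat_lit 4) (nat_lit 2) (nat_lit 5) (nat_lit 2) (nat_lit 4) (nat_lit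 422) (nat_lit 348) (nat_lit 250)) (XT.lf (nat_lit 0) (nat_lit 31404086438164) (nat_lit 76) (nat_lit 6528474009915) (nat_lit 76) (nat_lit 6511870842356) (nat_lit 1) (nat_lit 4) (nat_lit 2) (nat_lit 5) (nat_lit 2) (nat_lit 4) (nat_lit 423) (nat_lit 348) (nat_lit 249))) (XT.nd (nat_lit 78) (nat_lit 0) (nat_lit 0) (XT.lf (nat_lit 0) (nat_lit 36889074598620) (nat_lit 76) (nat_lit 7104372360823) (nat_lit 76) (nat_lit 7087769191144) (nat_lit 1) (nat_lit 4) (nat_lit 2) (nat_lit 5) (nat_lit 2) (nat_lit 4) (nat_lit 424) (nat_lit 348) (nat_lit 248)) (XT.nd (nat_lit 78) (nat_lit 0) (nat_lit 0) (XT.lf (nat_lit 0) (nat_lit 43196810798218) (nat_lit 76) (nat_lit 7766655560101) (nat_lit 76) (nat_lit 7750052388577) (nat_lit 1) (nat_lit 4) (nat_lit 2) (nat_lit 5) (nat_lit 2) (nat_lit 4) (nat_lit 425) (nat_lit 348) (nat_lit 247)) (XT.lf (nat_lit 0) (nat_lit 50450707266951) (nat_lit 76) (nat_lit 8528281322517)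 (nat_lit 76) (nat_lit 8511678149389) (nat_lit 1) (nat_lit 4) (nat_lit 2) (nat_lit 5) (nat_lit 2) (nat_lit 4) (nat_lit 426) (nat_lit 348) (nat_lit 246)))))) (XT.nd (nat_lit 390) (nat_lit 1596) (nat_lit 0) (XT.nd (nat_lit 156) (nat_lit 380) (nat_lit 0) (XT.nd (nat_lit 78) (nat_lit 0) (nat_lit 0) (XT.lf (nat_lit 0) (nat_lit 5718906005) (nat_lit 532) (nat_lit 764164272) (nat_lit 532) (nat_lit 764164272) (nat_lit 93) (nat_lit 3) (nat_lit 100) (nat_lit 3) (nat_lit 100) (nat_lit 5) (nat_lit 349) (nat_lit 349) (nat_lit 322)) (XT.lf (nat_lit 76) (nat_lit 12625869076) (nat_lit 0) (nat_lit 519027337) (nat_lit 532) (nat_lit 2368645204) (nat_lit 94) (nat_lit 5) (nat_lit 93) (nat_lit 3) (nat_lit 100) (nat_lit 5) (nat_lit 350) (nat_lit 349) (nat_lit 321))) (XT.nd (nat_lit 78) (nat_lit 456) (nat_lit 0) (XT.lf (nat_lit 76) (nat_lit 12544258365) (nat_lit 0) (nat_lit 3145466330) (nat_lit 532) (nat_lit 949228779)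 (nat_lit 95) (nat_lit 5) (nat_lit 94) (nat_lit 5) (nat_lit 101) (nat_lit 5) (nat_lit 351) (nat_lit 349) (nat_lit 320)) (XT.nd (nat_lit 78) (nat_lit 0) (nat_lit 76) (XT.lf (nat_lit 0) (nat_lit 1267703813) (nat_lit 532) (nat_lit 5098966357) (nat_lit 608) (nat_lit 11515701076) (nat_lit 88) (nat_lit 5) (nat_lit 95) (nat_lit 5) (nat_lit 96) (nat_lit 5) (nat_lit 352) (nat_lit 349) (nat_lit 319)) (XT.lf (nat_lit 0) (nat_lit 4448631047) (nat_lit 532) (nat_lit 5860337406) (nat_lit 76) (nat_lit 8946357106) (nat_lit 89) (nat_lit 5) (nat_lit 96) (nat_lit 5) (nat_lit 90) (nat_lit 5) (nat_lit 353) (nat_lit 349) (nat_lit 318))))) (XT.nd (nat_lit 234) (nat_lit 684) (nat_lit 0) (XT.nd (nat_lit 78) (nat_lit 456) (nat_lit 0) (XT.lf (nat_lit 0) (nat_lit 8860624525) (nat_lit 608) (nat_lit 6290996676) (nat_lit 76) (nat_lit 5622295538) (nat_lit 82) (nat_lit 5) (nat_lit 90) (nat_lit 5) (nat_lit 83) (nat_lit 5) (nat_lit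 354) (nat_lit 349) (nat_lit 317)) (XT.nd (nat_lit 78) (nat_lit 228) (nat_lit 0) (XT.lf (nat_lit 0) (nat_lit 14757601321) (nat_lit 304) (nat_lit 6311041545) (nat_lit 76) (nat_lit 1385805844) (nat_lit 79) (nat_lit 5) (nat_lit 83) (nat_lit 5) (nat_lit 80) (nat_lit 5) (nat_lit 355) (nat_lit 349) (nat_lit 316)) (XT.lf (nat_lit 0) (nat_lit 18384036679) (nat_lit 228) (nat_lit 4149425089) (nat_lit 304) (nat_lit 1774057706) (nat_lit 76) (nat_lit 5) (nat_lit 79) (nat_lit 5) (nat_lit 80) (nat_lit 5) (nat_lit 356) (nat_lit 349) (nat_lit 315)))) (XT.nd (nat_lit 78) (nat_lit 380) (nat_lit 0) (XT.lf (nat_lit 0) (nat_lit 5833231753) (nat_lit 304) (nat_lit 5128066630) (nat_lit 76) (nat_lit 15383720986) (nat_lit 72) (nat_lit 5) (nat_lit 76) (nat_lit 5) (nat_lit 73) (nat_lit 5) (nat_lit 357) (nat_lit 349) (nat_lit 314)) (XT.nd (nat_lit 78) (nat_lit 152) (nat_lit 0) (XT.lf (nat_lit 0) (nat_lit 15566632441) (nat_lit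 304) (nat_lit 3708695935) (nat_lit 76) (nat_lit 9321928750) (nat_lit 69) (nat_lit 5) (nat_lit 73) (nat_lit 5) (nat_lit 70) (nat_lit 5) (nat_lit 358) (nat_lit 349) (nat_lit 313)) (XT.lf (nat_lit 0) (nat_lit 27931419128) (nat_lit 228) (nat_lit 1476858389) (nat_lit 76) (nat_lit 1685346591) (nat_lit 67) (nat_lit 5) (nat_lit 70) (nat_lit 5) (nat_lit 68) (nat_lit 5) (nat_lit 359) (nat_lit 349) (nat_lit 312))))))) (XT.nd (nat_lit 780) (nat_lit 1368) (nat_lit 0) (XT.nd (nat_lit 390) (nat_lit 760) (nat_lit 0) (XT.nd (nat_lit 156) (nat_lit 456) (nat_lit 0) (XT.nd (nat_lit 78) (nat_lit 152) (nat_lit 0) (XT.lf (nat_lit 0) (nat_lit 1375904448) (nat_lit 152) (nat_lit 7929728040) (nat_lit 228) (nat_lit 24520771726) (nat_lit 62) (nat_lit 5) (nat_lit 64) (nat_lit 5) (nat_lit 65) (nat_lit 5) (nat_lit 360) (nat_lit 349) (nat_lit 311)) (XT.lf (nat_lit 0) (nat_lit 5284469105) (nat_lit 152) (nat_lit 19691955070)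 (nat_lit 228) (nat_lit 11864507577) (nat_lit 60) (nat_lit 5) (nat_lit 62) (nat_lit 5) (nat_lit 63) (nat_lit 5) (nat_lit 361) (nat_lit 349) (nat_lit 310))) (XT.nd (nat_lit 78) (nat_lit 304) (nat_lit 0) (XT.lf (nat_lit 0) (nat_lit 4124117652) (nat_lit 152) (nat_lit 29769273791) (nat_lit 76) (nat_lit 6283593404) (nat_lit 58) (nat_lit 5) (nat_lit 60) (nat_lit 5) (nat_lit 59) (nat_lit 5) (nat_lit 362) (nat_lit 349) (nat_lit 309)) (XT.nd (nat_lit 78) (nat_lit 152) (nat_lit 0) (XT.lf (nat_lit 0) (nat_lit 16515765831) (nat_lit 152) (nat_lit 7166274042) (nat_lit 228) (nat_lit 20156873137) (nat_lit 56) (nat_lit 5) (nat_lit 58) (nat_lit 5) (nat_lit 59) (nat_lit 5) (nat_lit 363) (nat_lit 349) (nat_lit 308)) (XT.lf (nat_lit 0) (nat_lit 277607057) (nat_lit 152) (nat_lit 23761815505) (nat_lit 76) (nat_lit 23849502188) (nat_lit 54) (nat_lit 5) (nat_lit 56) (nat_lit 5) (nat_lit 55) (nat_lit 5) (nat_lit 364)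 (nat_lit 349) (nat_lit 307))))) (XT.nd (nat_lit 156) (nat_lit 532) (nat_lit 0) (XT.nd (nat_lit 78) (nat_lit 76) (nat_lit 0) (XT.lf (nat_lit 0) (nat_lit 24620811380) (nat_lit 228) (nat_lit 19262189502) (nat_lit 76) (nat_lit 8458589089) (nat_lit 52) (nat_lit 5) (nat_lit 55) (nat_lit 5) (nat_lit 53) (nat_lit 4) (nat_lit 365) (nat_lit 349) (nat_lit 306)) (XT.lf (nat_lit 0) (nat_lit 43951088547) (nat_lit 76) (nat_lit 11071596563) (nat_lit 152) (nat_lit 2246895848) (nat_lit 51) (nat_lit 5) (nat_lit 52) (nat_lit 5) (nat_lit 53) (nat_lit 4) (nat_lit 366) (nat_lit 349) (nat_lit 305))) (XT.nd (nat_lit 78) (nat_lit 304) (nat_lit 0) (XT.lf (nat_lit 0) (nat_lit 28328342755) (nat_lit 228) (nat_lit 6369422482) (nat_lit 76) (nat_lit 27976299498) (nat_lit 48) (nat_lit 5) (nat_lit 51) (nat_lit 5) (nat_lit 49) (nat_lit 4) (nat_lit 367) (nat_lit 349) (nat_lit 304)) (XT.nd (nat_lit 78) (nat_lit 152) (nat_lit 0)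 (XT.lf (nat_lit 0) (nat_lit 2787764285) (nat_lit 76) (nat_lit 63179269333) (nat_lit 76) (nat_lit 2708702722) (nat_lit 46) (nat_lit 4) (nat_lit 47) (nat_lit 5) (nat_lit 47) (nat_lit 4) (nat_lit 368) (nat_lit 349) (nat_lit 303)) (XT.lf (nat_lit 0) (nat_lit 13393796342) (nat_lit 76) (nat_lit 22124046820) (nat_lit 152) (nat_lit 39712749381) (nat_lit 44) (nat_lit 5) (nat_lit 45) (nat_lit 5) (nat_lit 46) (nat_lit 4) (nat_lit 369) (nat_lit 349) (nat_lit 302)))))) (XT.nd (nat_lit 390) (nat_lit 760) (nat_lit 0) (XT.nd (nat_lit 156) (nat_lit 380) (nat_lit 0) (XT.nd (nat_lit 78) (nat_lit 76) (nat_lit 0) (XT.lf (nat_lit 0) (nat_lit 4013493) (nat_lit 152) (nat_lit 56004990000) (nat_lit 76) (nat_lit 26498534757) (nat_lit 42) (nat_lit 5) (nat_lit 44) (nat_lit 5) (nat_lit 43) (nat_lit 4) (nat_lit 370) (nat_lit 349) (nat_lit 301)) (XT.lf (nat_lit 0) (nat_lit 41383237699) (nat_lit 76) (nat_lit 5446331069) (nat_lit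 152) (nat_lit 43683720201) (nat_lit 41) (nat_lit 5) (nat_lit 42) (nat_lit 5) (nat_lit 43) (nat_lit 4) (nat_lit 371) (nat_lit 349) (nat_lit 300))) (XT.nd (nat_lit 78) (nat_lit 228) (nat_lit 0) (XT.lf (nat_lit 0) (nat_lit 5360555736) (nat_lit 152) (nat_lit 40729699797) (nat_lit 76) (nat_lit 53271843762) (nat_lit 39) (nat_lit 5) (nat_lit 41) (nat_lit 5) (nat_lit 40) (nat_lit 4) (nat_lit 372) (nat_lit 349) (nat_lit 299)) (XT.nd (nat_lit 78) (nat_lit 152) (nat_lit 0) (XT.lf (nat_lit 0) (nat_lit 63123066936) (nat_lit 152) (nat_lit 30927979189) (nat_lit 0) (nat_lit 15080561372) (nat_lit 38) (nat_lit 5) (nat_lit 40) (nat_lit 4) (nat_lit 38) (nat_lit 4) (nat_lit 373) (nat_lit 349) (nat_lit 298)) (XT.lf (nat_lit 0) (nat_lit 13753975509) (nat_lit 152) (nat_lit 19439268934) (nat_lit 76) (nat_lit 86753232492) (nat_lit 36) (nat_lit 5) (nat_lit 38) (nat_lit 5) (nat_lit 37) (nat_lit 4) (nat_lit 374) (nat_lit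 349) (nat_lit 297))))) (XT.nd (nat_lit 234) (nat_lit 380) (nat_lit 0) (XT.nd (nat_lit 78) (nat_lit 304) (nat_lit 0) (XT.lf (nat_lit 0) (nat_lit 84799661723) (nat_lit 152) (nat_lit 6777723435) (nat_lit 0) (nat_lit 40307148740) (nat_lit 35) (nat_lit 5) (nat_lit 37) (nat_lit 4) (nat_lit 35) (nat_lit 4) (nat_lit 375) (nat_lit 349) (nat_lit 296)) (XT.nd (nat_lit 78) (nat_lit 76) (nat_lit 0) (XT.lf (nat_lit 0) (nat_lit 8249314072) (nat_lit 76) (nat_lit 17109027478) (nat_lit 152) (nat_lit 119773616732) (nat_lit 32) (nat_lit 5) (nat_lit 33) (nat_lit 5) (nat_lit 34) (nat_lit 4) (nat_lit 376) (nat_lit 349) (nat_lit 295)) (XT.lf (nat_lit 0) (nat_lit 24131141038) (nat_lit 76) (nat_lit 88403991812) (nat_lit 76) (nat_lit 47201121298) (nat_lit 31) (nat_lit 4) (nat_lit 32) (nat_lit 5) (nat_lit 32) (nat_lit 4) (nat_lit 377) (nat_lit 349) (nat_lit 294)))) (XT.nd (nat_lit 78) (nat_lit 228) (nat_lit 0) (XT.lf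 (nat_lit 0) (nat_lit 40051196373) (nat_lit 152) (nat_lit 134063518293) (nat_lit 0) (nat_lit 1898106241) (nat_lit 29) (nat_lit 5) (nat_lit 31) (nat_lit 4) (nat_lit 29) (nat_lit 4) (nat_lit 378) (nat_lit 349) (nat_lit 293)) (XT.nd (nat_lit 78) (nat_lit 152) (nat_lit 0) (XT.lf (nat_lit 0) (nat_lit 59009000045) (nat_lit 76) (nat_lit 86570130325) (nat_lit 76) (nat_lit 48415054019) (nat_lit 28) (nat_lit 4) (nat_lit 29) (nat_lit 5) (nat_lit 29) (nat_lit 4) (nat_lit 379) (nat_lit 349) (nat_lit 292)) (XT.lf (nat_lit 0) (nat_lit 56025334626) (nat_lit 152) (nat_lit 137341800511) (nat_lit 0) (nat_lit 20694961093) (nat_lit 26) (nat_lit 5) (nat_lit 28) (nat_lit 4) (nat_lit 26) (nat_lit 4) (nat_lit 380) (nat_lit 349) (nat_lit 291))))))))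
noncomputable def xc64 : XT := (XT.nd (nat_lit 1638) (nat_lit 228) (nat_lit 0) (XT.nd (nat_lit 780) (nat_lit 684) (nat_lit 0) (XT.nd (nat_lit 390) (nat_lit 456) (nat_lit 0) (XT.nd (nat_lit 156) (nat_lit 304) (nat_lit 0) (XT.nd (nat_lit 78) (nat_lit 152) (nat_lit 0) (XT.lf (nat_lit 0) (nat_lit 92290643359) (nat_lit 76) (nat_lit 89691666879) (nat_lit 76) (nat_lit 54359902760) (nat_lit 25) (nat_lit 4) (nat_lit 26) (nat_lit 5) (nat_lit 26) (nat_lit 4) (nat_lit 381) (nat_lit 349) (nat_lit 290)) (XT.lf (nat_lit 0) (nat_lit 69206158790) (nat_lit 152) (nat_lit 155536326053) (nat_lit 0) (nat_lit 36490442750) (nat_lit 23) (nat_lit 5) (nat_lit 25) (nat_lit 4) (nat_lit 23) (nat_lit 4) (nat_lit 382) (nat_lit 349) (nat_lit 289))) (XT.nd (nat_lit 78) (nat_lit 228) (nat_lit 0) (XT.lf (nat_lit 0) (nat_lit 113684143087) (nat_lit 76) (nat_lit 104004414531) (nat_lit 76) (nat_lit 71287724895) (nat_lit 22) (nat_lit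 4) (nat_lit 23) (nat_lit 5) (nat_lit 23) (nat_lit 4) (nat_lit 383) (nat_lit 349) (nat_lit 288)) (XT.nd (nat_lit 78) (nat_lit 76) (nat_lit 0) (XT.lf (nat_lit 0) (nat_lit 72688845502) (nat_lit 152) (nat_lit 204986962704) (nat_lit 0) (nat_lit 42394830464) (nat_lit 20) (nat_lit 5) (nat_lit 22) (nat_lit 4) (nat_lit 20) (nat_lit 4) (nat_lit 384) (nat_lit 349) (nat_lit 287)) (XT.lf (nat_lit 0) (nat_lit 104437644175) (nat_lit 76) (nat_lit 140339581123) (nat_lit 76) (nat_lit 110044884439) (nat_lit 19) (nat_lit 4) (nat_lit 20) (nat_lit 5) (nat_lit 20) (nat_lit 4) (nat_lit 385) (nat_lit 349) (nat_lit 286))))) (XT.nd (nat_lit 156) (nat_lit 228) (nat_lit 0) (XT.nd (nat_lit 78) (nat_lit 76) (nat_lit 0) (XT.lf (nat_lit 0) (nat_lit 54225856962) (nat_lit 152) (nat_lit 313595309998) (nat_lit 0) (nat_lit 26174663055) (nat_lit 17) (nat_lit 5) (nat_lit 19) (nat_lit 4) (nat_lit 17) (nat_lit 4) (nat_lit 386) (nat_lit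 349) (nat_lit 285)) (XT.lf (nat_lit 0) (nat_lit 31974164119) (nat_lit 76) (nat_lit 216954915154) (nat_lit 76) (nat_lit 188903244003) (nat_lit 16) (nat_lit 4) (nat_lit 17) (nat_lit 5) (nat_lit 17) (nat_lit 4) (nat_lit 387) (nat_lit 349) (nat_lit 284))) (XT.nd (nat_lit 78) (nat_lit 228) (nat_lit 0) (XT.lf (nat_lit 0) (nat_lit 448356351612) (nat_lit 76) (nat_lit 33605067186) (nat_lit 76) (nat_lit 5552981041) (nat_lit 16) (nat_lit 4) (nat_lit 17) (nat_lit 5) (nat_lit 17) (nat_lit 4) (nat_lit 388) (nat_lit 349) (nat_lit 283)) (XT.nd (nat_lit 78) (nat_lit 76) (nat_lit 0) (XT.lf (nat_lit 0) (nat_lit 209222862905) (nat_lit 152) (nat_lit 150647115205) (nat_lit 0) (nat_lit 183248374934) (nat_lit 14) (nat_lit 5) (nat_lit 16) (nat_lit 4) (nat_lit 14) (nat_lit 4) (nat_lit 389) (nat_lit 349) (nat_lit 282)) (XT.lf (nat_lit 0) (nat_lit 298029560004) (nat_lit 76) (nat_lit 167127460145) (nat_lit 76) (nat_lit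 141152681623) (nat_lit 13) (nat_lit 4) (nat_lit 14) (nat_lit 5) (nat_lit 14) (nat_lit 4) (nat_lit 390) (nat_lit 349) (nat_lit 281)))))) (XT.nd (nat_lit 390) (nat_lit 304) (nat_lit 0) (XT.nd (nat_lit 156) (nat_lit 228) (nat_lit 0) (XT.nd (nat_lit 78) (nat_lit 0) (nat_lit 0) (XT.lf (nat_lit 0) (nat_lit 86147563969) (nat_lit 152) (nat_lit 529806852201) (nat_lit 0) (nat_lit 62096609177) (nat_lit 11) (nat_lit 5) (nat_lit 13) (nat_lit 4) (nat_lit 11) (nat_lit 4) (nat_lit 391) (nat_lit 349) (nat_lit 280)) (XT.lf (nat_lit 0) (nat_lit 353248676560) (nat_lit 152) (nat_lit 76688956766) (nat_lit 0) (nat_lit 329197518344) (nat_lit 11) (nat_lit 5) (nat_lit 13) (nat_lit 4) (nat_lit 11) (nat_lit 4) (nat_lit 392) (nat_lit 349) (nat_lit 279))) (XT.nd (nat_lit 78) (nat_lit 152) (nat_lit 0) (XT.lf (nat_lit 0) (nat_lit 467788898015) (nat_lit 76) (nat_lit 203872316675) (nat_lit 76) (nat_lit 179820981568) (nat_lit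 10) (nat_lit 4) (nat_lit 11) (nat_lit 5) (nat_lit 11) (nat_lit 4) (nat_lit 393) (nat_lit 349) (nat_lit 278)) (XT.nd (nat_lit 78) (nat_lit 0) (nat_lit 0) (XT.lf (nat_lit 0) (nat_lit 83502947416) (nat_lit 152) (nat_lit 812202422291) (nat_lit 0) (nat_lit 61233050264) (nat_lit 8) (nat_lit 5) (nat_lit 10) (nat_lit 4) (nat_lit 8) (nat_lit 4) (nat_lit 394) (nat_lit 349) (nat_lit 277)) (XT.lf (nat_lit 0) (nat_lit 393076767615) (nat_lit 152) (nat_lit 312564012179) (nat_lit 0) (nat_lit 370806746615) (nat_lit 8) (nat_lit 5) (nat_lit 10) (nat_lit 4) (nat_lit 8) (nat_lit 4) (nat_lit 395) (nat_lit 349) (nat_lit 276))))) (XT.nd (nat_lit 234) (nat_lit 76) (nat_lit 0) (XT.nd (nat_lit 78) (nat_lit 152) (nat_lit 0) (XT.lf (nat_lit 0) (nat_lit 275810875881) (nat_lit 76) (nat_lit 479905920398) (nat_lit 76) (nat_lit 457635791705) (nat_lit 7) (nat_lit 4) (nat_lit 8) (nat_lit 5) (nat_lit 8) (nat_lit 4) (nat_lit 396)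 (nat_lit 349) (nat_lit 275)) (XT.nd (nat_lit 78) (nat_lit 152) (nat_lit 0) (XT.lf (nat_lit 0) (nat_lit 971364010405) (nat_lit 76) (nat_lit 210485926077) (nat_lit 76) (nat_lit 188215703738) (nat_lit 7) (nat_lit 4) (nat_lit 8) (nat_lit 5) (nat_lit 8) (nat_lit 4) (nat_lit 397) (nat_lit 349) (nat_lit 274)) (XT.lf (nat_lit 0) (nat_lit 123659486635) (nat_lit 152) (nat_lit 1322703265838) (nat_lit 0) (nat_lit 103038834996) (nat_lit 5) (nat_lit 5) (nat_lit 7) (nat_lit 4) (nat_lit 5) (nat_lit 4) (nat_lit 398) (nat_lit 349) (nat_lit 273)))) (XT.nd (nat_lit 78) (nat_lit 76) (nat_lit 0) (XT.lf (nat_lit 0) (nat_lit 489216743652) (nat_lit 152) (nat_lit 795990438497) (nat_lit 0) (nat_lit 468596026448) (nat_lit 5) (nat_lit 5) (nat_lit 7) (nat_lit 4) (nat_lit 5) (nat_lit 4) (nat_lit 399) (nat_lit 349) (nat_lit 272)) (XT.nd (nat_lit 78) (nat_lit 76) (nat_lit 0) (XT.lf (nat_lit 0) (nat_lit 909605508220) (nat_lit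 152) (nat_lit 190274997154) (nat_lit 0) (nat_lit 888984734003) (nat_lit 5) (nat_lit 5) (nat_lit 7) (nat_lit 4) (nat_lit 5) (nat_lit 4) (nat_lit 400) (nat_lit 349) (nat_lit 271)) (XT.lf (nat_lit 0) (nat_lit 532954557944) (nat_lit 76) (nat_lit 872913789898) (nat_lit 76) (nat_lit 852292966105) (nat_lit 4) (nat_lit 4) (nat_lit 5) (nat_lit 5) (nat_lit 5) (nat_lit 4) (nat_lit 401) (nat_lit 349) (nat_lit 270))))))) (XT.nd (nat_lit 780) (nat_lit 0) (nat_lit 0) (XT.nd (nat_lit 390) (nat_lit 76) (nat_lit 0) (XT.nd (nat_lit 156) (nat_lit 152) (nat_lit 0) (XT.nd (nat_lit 78) (nat_lit 0) (nat_lit 0) (XT.lf (nat_lit 0) (nat_lit 1376187591415) (nat_lit 76) (nat_lit 605921017766) (nat_lit 76) (nat_lit 585300150863) (nat_lit 4) (nat_lit 4) (nat_lit 5) (nat_lit 5) (nat_lit 5) (nat_lit 4) (nat_lit 402) (nat_lit 349) (nat_lit 269)) (XT.lf (nat_lit 0) (nat_lit 2345902596715) (nat_lit 76) (nat_lit 298880872967)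 (nat_lit 76) (nat_lit 278259968577) (nat_lit 4) (nat_lit 4) (nat_lit 5) (nat_lit 5) (nat_lit 5) (nat_lit 4) (nat_lit 403) (nat_lit 349) (nat_lit 268))) (XT.nd (nat_lit 78) (nat_lit 0) (nat_lit 0) (XT.lf (nat_lit 0) (nat_lit 75747109224) (nat_lit 152) (nat_lit 3199106216458) (nat_lit 0) (nat_lit 56653649051) (nat_lit 2) (nat_lit 5) (nat_lit 4) (nat_lit 4) (nat_lit 2) (nat_lit 4) (nat_lit 404) (nat_lit 349) (nat_lit 267)) (XT.nd (nat_lit 78) (nat_lit 0) (nat_lit 0) (XT.lf (nat_lit 0) (nat_lit 492351976346) (nat_lit 152) (nat_lit 2832973547038) (nat_lit 0) (nat_lit 473258489927) (nat_lit 2) (nat_lit 5) (nat_lit 4) (nat_lit 4) (nat_lit 2) (nat_lit 4) (nat_lit 405) (nat_lit 349) (nat_lit 266)) (XT.lf (nat_lit 0) (nat_lit 971446524776) (nat_lit 152) (nat_lit 2411923151269) (nat_lit 0) (nat_lit 952353015535) (nat_lit 2) (nat_lit 5) (nat_lit 4) (nat_lit 4) (nat_lit 2) (nat_lit 4) (nat_lit 406) (nat_lit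 349) (nat_lit 265))))) (XT.nd (nat_lit 156) (nat_lit 76) (nat_lit 0) (XT.nd (nat_lit 78) (nat_lit 0) (nat_lit 0) (XT.lf (nat_lit 0) (nat_lit 1522404343505) (nat_lit 152) (nat_lit 1927717086623) (nat_lit 0) (nat_lit 1503310814417) (nat_lit 2) (nat_lit 5) (nat_lit 4) (nat_lit 4) (nat_lit 2) (nat_lit 4) (nat_lit 407) (nat_lit 349) (nat_lit 264)) (XT.lf (nat_lit 0) (nat_lit 2156005042028) (nat_lit 152) (nat_lit 1370881756186) (nat_lit 0) (nat_lit 2136911495684) (nat_lit 2) (nat_lit 5) (nat_lit 4) (nat_lit 4) (nat_lit 2) (nat_lit 4) (nat_lit 408) (nat_lit 349) (nat_lit 263))) (XT.nd (nat_lit 78) (nat_lit 76) (nat_lit 0) (XT.lf (nat_lit 0) (nat_lit 2884645155753) (nat_lit 152) (nat_lit 730522555665) (nat_lit 0) (nat_lit 2865551594403) (nat_lit 2) (nat_lit 5) (nat_lit 4) (nat_lit 4) (nat_lit 2) (nat_lit 4) (nat_lit 409) (nat_lit 349) (nat_lit 262)) (XT.nd (nat_lit 78) (nat_lit 0) (nat_lit 0) (XT.lf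 (nat_lit 0) (nat_lit 6199401054) (nat_lit 76) (nat_lit 3716530381594) (nat_lit 76) (nat_lit 3697436807195) (nat_lit 1) (nat_lit 4) (nat_lit 2) (nat_lit 5) (nat_lit 2) (nat_lit 4) (nat_lit 410) (nat_lit 349) (nat_lit 261)) (XT.lf (nat_lit 0) (nat_lit 897666740132) (nat_lit 76) (nat_lit 3810128192865) (nat_lit 76) (nat_lit 3791034607119) (nat_lit 1) (nat_lit 4) (nat_lit 2) (nat_lit 5) (nat_lit 2) (nat_lit 4) (nat_lit 411) (nat_lit 349) (nat_lit 260)))))) (XT.nd (nat_lit 390) (nat_lit 0) (nat_lit 0) (XT.nd (nat_lit 156) (nat_lit 0) (nat_lit 0) (XT.nd (nat_lit 78) (nat_lit 0) (nat_lit 0) (XT.lf (nat_lit 0) (nat_lit 1922853190671) (nat_lit 76) (nat_lit 3917766188025) (nat_lit 76) (nat_lit 3898672592412) (nat_lit 1) (nat_lit 4) (nat_lit 2) (nat_lit 5) (nat_lit 2) (nat_lit 4) (nat_lit 412) (nat_lit 349) (nat_lit 259)) (XT.lf (nat_lit 0) (nat_lit 3101816748441) (nat_lit 76) (nat_lit 4041550327848)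 (nat_lit 76) (nat_lit 4022456723656) (nat_lit 1) (nat_lit 4) (nat_lit 2) (nat_lit 5) (nat_lit 2) (nat_lit 4) (nat_lit 413) (nat_lit 349) (nat_lit 258))) (XT.nd (nat_lit 78) (nat_lit 0) (nat_lit 0) (XT.lf (nat_lit 0) (nat_lit 4457624091747) (nat_lit 76) (nat_lit 4183902475940) (nat_lit 76) (nat_lit 4164808864287) (nat_lit 1) (nat_lit 4) (nat_lit 2) (nat_lit 5) (nat_lit 2) (nat_lit 4) (nat_lit 414) (nat_lit 349) (nat_lit 257)) (XT.nd (nat_lit 78) (nat_lit 0) (nat_lit 0) (XT.lf (nat_lit 0) (nat_lit 6016801886002) (nat_lit 76) (nat_lit 4347607783025) (nat_lit 76) (nat_lit 4328514164884) (nat_lit 1) (nat_lit 4) (nat_lit 2) (nat_lit 5) (nat_lit 2) (nat_lit 4) (nat_lit 415) (nat_lit 349) (nat_lit 256)) (XT.lf (nat_lit 0) (nat_lit 7809855783701) (nat_lit 76) (nat_lit 4535869179023) (nat_lit 76) (nat_lit 4516775555241) (nat_lit 1) (nat_lit 4) (nat_lit 2) (nat_lit 5) (nat_lit 2) (nat_lit 4) (nat_lit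 416) (nat_lit 349) (nat_lit 255))))) (XT.nd (nat_lit 234) (nat_lit 0) (nat_lit 0) (XT.nd (nat_lit 78) (nat_lit 0) (nat_lit 0) (XT.lf (nat_lit 0) (nat_lit 9871867274147) (nat_lit 76) (nat_lit 4752370039074) (nat_lit 76) (nat_lit 4733276410386) (nat_lit 1) (nat_lit 4) (nat_lit 2) (nat_lit 5) (nat_lit 2) (nat_lit 4) (nat_lit 417) (nat_lit 349) (nat_lit 254)) (XT.nd (nat_lit 78) (nat_lit 0) (nat_lit 0) (XT.lf (nat_lit 0) (nat_lit 12243180060415) (nat_lit 76) (nat_lit 5001346249570) (nat_lit 76) (nat_lit 4982252616616) (nat_lit 1) (nat_lit 4) (nat_lit 2) (nat_lit 5) (nat_lit 2) (nat_lit 4) (nat_lit 418) (nat_lit 349) (nat_lit 253)) (XT.lf (nat_lit 0) (nat_lit 14970189392670) (nat_lit 76) (nat_lit 5287669084194) (nat_lit 76) (nat_lit 5268575447531) (nat_lit 1) (nat_lit 4) (nat_lit 2) (nat_lit 5) (nat_lit 2) (nat_lit 4) (nat_lit 419) (nat_lit 349) (nat_lit 252)))) (XT.nd (nat_lit 78) (nat_lit 0)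 (nat_lit 0) (XT.lf (nat_lit 0) (nat_lit 18106249801327) (nat_lit 76) (nat_lit 5616940511451) (nat_lit 76) (nat_lit 5597846871563) (nat_lit 1) (nat_lit 4) (nat_lit 2) (nat_lit 5) (nat_lit 2) (nat_lit 4) (nat_lit 420) (nat_lit 349) (nat_lit 251)) (XT.nd (nat_lit 78) (nat_lit 0) (nat_lit 0) (XT.lf (nat_lit 0) (nat_lit 21712718990032) (nat_lit 76) (nat_lit 5995602798394) (nat_lit 76) (nat_lit 5976509155702) (nat_lit 1) (nat_lit 4) (nat_lit 2) (nat_lit 5) (nat_lit 2) (nat_lit 4) (nat_lit 421) (nat_lit 349) (nat_lit 250)) (XT.lf (nat_lit 0) (nat_lit 25860158312478) (nat_lit 76) (nat_lit 6431064554987) (nat_lit 76) (nat_lit 6411970909856) (nat_lit 1) (nat_lit 4) (nat_lit 2) (nat_lit 5) (nat_lit 2) (nat_lit 4) (nat_lit 422) (nat_lit 349) (nat_lit 249))))))))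
noncomputable def xc65 : XT := (XT.nd (nat_lit 48750) (nat_lit 0) (nat_lit 1216) (XT.nd (nat_lit 47892) (nat_lit 0) (nat_lit 3876) (XT.nd (nat_lit 47502) (nat_lit 0) (nat_lit 6156) (XT.nd (nat_lit 156) (nat_lit 0) (nat_lit 0) (XT.nd (nat_lit 78) (nat_lit 0) (nat_lit 0) (XT.lf (nat_lit 0) (nat_lit 30629713320626) (nat_lit 76) (nat_lit 6931845685163) (nat_lit 76) (nat_lit 6912752037910) (nat_lit 1) (nat_lit 4) (nat_lit 2) (nat_lit 5) (nat_lit 2) (nat_lit 4) (nat_lit 423) (nat_lit 349) (nat_lit 248)) (XT.lf (nat_lit 0) (nat_lit 36114701395070) (nat_lit 76) (nat_lit 7507744080598) (nat_lit 76) (nat_lit 7488650431501) (nat_lit 1) (nat_lit 4) (nat_lit 2) (nat_lit 5) (nat_lit 2) (nat_lit 4) (nat_lit 424) (nat_lit 349) (nat_lit 247))) (XT.nd (nat_lit 78) (nat_lit 0) (nat_lit 0) (XT.lf (nat_lit 0) (nat_lit 42422437519876) (nat_lit 76) (nat_lit 8170027318595) (nat_lit 76) (nat_lit 8150933667894) (nat_lit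 1) (nat_lit 4) (nat_lit 2) (nat_lit 5) (nat_lit 2) (nat_lit 4) (nat_lit 425) (nat_lit 349) (nat_lit 246)) (XT.nd (nat_lit 47190) (nat_lit 0) (nat_lit 6992) (XT.lf (nat_lit 0) (nat_lit 49676333923571) (nat_lit 76) (nat_lit 8931653114680) (nat_lit 76) (nat_lit 8912559462585) (nat_lit 1) (nat_lit 4) (nat_lit 2) (nat_lit 5) (nat_lit 2) (nat_lit 4) (nat_lit 426) (nat_lit 349) (nat_lit 245)) (XT.lf (nat_lit 0) (nat_lit 7099745985) (nat_lit 532) (nat_lit 596331825) (nat_lit 532) (nat_lit 596331825) (nat_lit 93) (nat_lit 3) (nat_lit 100) (nat_lit 3) (nat_lit 100) (nat_lit 5) (nat_lit 350) (nat_lit 350) (nat_lit 320))))) (XT.nd (nat_lit 156) (nat_lit 836) (nat_lit 0) (XT.nd (nat_lit 78) (nat_lit 0) (nat_lit 76) (XT.lf (nat_lit 76) (nat_lit 15036846444) (nat_lit 0) (nat_lit 1001792939) (nat_lit 532) (nat_lit 1728051455) (nat_lit 94) (nat_lit 5) (nat_lit 93) (nat_lit 3) (nat_lit 100) (nat_lit 5) (nat_lit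 351) (nat_lit 350) (nat_lit 319)) (XT.lf (nat_lit 76) (nat_lit 14975766564) (nat_lit 0) (nat_lit 3873919796) (nat_lit 532) (nat_lit 220484383) (nat_lit 95) (nat_lit 5) (nat_lit 94) (nat_lit 5) (nat_lit 101) (nat_lit 5) (nat_lit 352) (nat_lit 350) (nat_lit 318))) (XT.nd (nat_lit 78) (nat_lit 456) (nat_lit 0) (XT.lf (nat_lit 0) (nat_lit 2185981297) (nat_lit 532) (nat_lit 5257253898) (nat_lit 608) (nat_lit 13063157030) (nat_lit 88) (nat_lit 5) (nat_lit 95) (nat_lit 5) (nat_lit 96) (nat_lit 5) (nat_lit 353) (nat_lit 350) (nat_lit 317)) (XT.nd (nat_lit 78) (nat_lit 532) (nat_lit 0) (XT.lf (nat_lit 0) (nat_lit 5760232679) (nat_lit 532) (nat_lit 6130183143) (nat_lit 76) (nat_lit 10201590140) (nat_lit 89) (nat_lit 5) (nat_lit 96) (nat_lit 5) (nat_lit 90) (nat_lit 5) (nat_lit 354) (nat_lit 350) (nat_lit 316)) (XT.lf (nat_lit 0) (nat_lit 10763010614) (nat_lit 608) (nat_lit 6630663221) (nat_lit 76) (nat_lit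 6450402784) (nat_lit 82) (nat_lit 5) (nat_lit 90) (nat_lit 5) (nat_lit 83) (nat_lit 5) (nat_lit 355) (nat_lit 350) (nat_lit 315)))))) (XT.nd (nat_lit 390) (nat_lit 1140) (nat_lit 0) (XT.nd (nat_lit 156) (nat_lit 684) (nat_lit 0) (XT.nd (nat_lit 78) (nat_lit 228) (nat_lit 0) (XT.lf (nat_lit 0) (nat_lit 17484040117) (nat_lit 304) (nat_lit 6664825389) (nat_lit 76) (nat_lit 1632670764) (nat_lit 79) (nat_lit 5) (nat_lit 83) (nat_lit 5) (nat_lit 80) (nat_lit 5) (nat_lit 356) (nat_lit 350) (nat_lit 314)) (XT.lf (nat_lit 0) (nat_lit 21684330874) (nat_lit 228) (nat_lit 4688113659) (nat_lit 304) (nat_lit 1544437208) (nat_lit 76) (nat_lit 5) (nat_lit 79) (nat_lit 5) (nat_lit 80) (nat_lit 5) (nat_lit 357) (nat_lit 350) (nat_lit 313))) (XT.nd (nat_lit 78) (nat_lit 380) (nat_lit 0) (XT.lf (nat_lit 0) (nat_lit 7132560107) (nat_lit 304) (nat_lit 5346329063) (nat_lit 76) (nat_lit 17783896508) (nat_lit 72)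 (nat_lit 5) (nat_lit 76) (nat_lit 5) (nat_lit 73) (nat_lit 5) (nat_lit 358) (nat_lit 350) (nat_lit 312)) (XT.nd (nat_lit 78) (nat_lit 152) (nat_lit 0) (XT.lf (nat_lit 0) (nat_lit 18285713173) (nat_lit 304) (nat_lit 3733126579) (nat_lit 76) (nat_lit 10837245066) (nat_lit 69) (nat_lit 5) (nat_lit 73) (nat_lit 5) (nat_lit 70) (nat_lit 5) (nat_lit 359) (nat_lit 350) (nat_lit 311)) (XT.lf (nat_lit 0) (nat_lit 32470223362) (nat_lit 228) (nat_lit 1187243392) (nat_lit 76) (nat_lit 2072244088) (nat_lit 67) (nat_lit 5) (nat_lit 70) (nat_lit 5) (nat_lit 68) (nat_lit 5) (nat_lit 360) (nat_lit 350) (nat_lit 310))))) (XT.nd (nat_lit 234) (nat_lit 456) (nat_lit 0) (XT.nd (nat_lit 78) (nat_lit 304) (nat_lit 0) (XT.lf (nat_lit 0) (nat_lit 2092735675) (nat_lit 152) (nat_lit 8944029417) (nat_lit 228) (nat_lit 27836752927) (nat_lit 62) (nat_lit 5) (nat_lit 64) (nat_lit 5) (nat_lit 65) (nat_lit 5) (nat_lit 361)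 (nat_lit 350) (nat_lit 309)) (XT.nd (nat_lit 78) (nat_lit 152) (nat_lit 0) (XT.lf (nat_lit 0) (nat_lit 6565096756) (nat_lit 152) (nat_lit 22464744065) (nat_lit 228) (nat_lit 13312653748) (nat_lit 60) (nat_lit 5) (nat_lit 62) (nat_lit 5) (nat_lit 63) (nat_lit 5) (nat_lit 362) (nat_lit 350) (nat_lit 308)) (XT.lf (nat_lit 0) (nat_lit 5031962455) (nat_lit 152) (nat_lit 33754251923) (nat_lit 76) (nat_lit 7394163354) (nat_lit 58) (nat_lit 5) (nat_lit 60) (nat_lit 5) (nat_lit 59) (nat_lit 5) (nat_lit 363) (nat_lit 350) (nat_lit 307)))) (XT.nd (nat_lit 78) (nat_lit 304) (nat_lit 0) (XT.lf (nat_lit 0) (nat_lit 19432879080) (nat_lit 152) (nat_lit 8063544607) (nat_lit 228) (nat_lit 22897345552) (nat_lit 56) (nat_lit 5) (nat_lit 58) (nat_lit 5) (nat_lit 59) (nat_lit 5) (nat_lit 364) (nat_lit 350) (nat_lit 306)) (XT.nd (nat_lit 78) (nat_lit 152) (nat_lit 0) (XT.lf (nat_lit 0) (nat_lit 567194889) (nat_lit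 152) (nat_lit 26895200342) (nat_lit 76) (nat_lit 27590020818) (nat_lit 54) (nat_lit 5) (nat_lit 56) (nat_lit 5) (nat_lit 55) (nat_lit 5) (nat_lit 365) (nat_lit 350) (nat_lit 305)) (XT.lf (nat_lit 0) (nat_lit 28543096900) (nat_lit 228) (nat_lit 21743157675) (nat_lit 76) (nat_lit 9888230637) (nat_lit 52) (nat_lit 5) (nat_lit 55) (nat_lit 5) (nat_lit 53) (nat_lit 4) (nat_lit 366) (nat_lit 350) (nat_lit 304))))))) (XT.nd (nat_lit 780) (nat_lit 1368) (nat_lit 0) (XT.nd (nat_lit 390) (nat_lit 532) (nat_lit 0) (XT.nd (nat_lit 156) (nat_lit 456) (nat_lit 0) (XT.nd (nat_lit 78) (nat_lit 228) (nat_lit 0) (XT.lf (nat_lit 0) (nat_lit 50917546420) (nat_lit 76) (nat_lit 12566804107) (nat_lit 152) (nat_lit 2358997738) (nat_lit 51) (nat_lit 5) (nat_lit 52) (nat_lit 5) (nat_lit 53) (nat_lit 4) (nat_lit 367) (nat_lit 350) (nat_lit 303)) (XT.lf (nat_lit 0) (nat_lit 32775684111) (nat_lit 228) (nat_lit 6960628196)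 (nat_lit 76) (nat_lit 32323007837) (nat_lit 48) (nat_lit 5) (nat_lit 51) (nat_lit 5) (nat_lit 49) (nat_lit 4) (nat_lit 368) (nat_lit 350) (nat_lit 302))) (XT.nd (nat_lit 78) (nat_lit 304) (nat_lit 0) (XT.lf (nat_lit 0) (nat_lit 3568174710) (nat_lit 76) (nat_lit 72486578160) (nat_lit 76) (nat_lit 2906924607) (nat_lit 46) (nat_lit 4) (nat_lit 47) (nat_lit 5) (nat_lit 47) (nat_lit 4) (nat_lit 369) (nat_lit 350) (nat_lit 301)) (XT.nd (nat_lit 78) (nat_lit 152) (nat_lit 0) (XT.lf (nat_lit 0) (nat_lit 15743982607) (nat_lit 76) (nat_lit 25281631631) (nat_lit 152) (nat_lit 45475154645) (nat_lit 44) (nat_lit 5) (nat_lit 45) (nat_lit 5) (nat_lit 46) (nat_lit 4) (nat_lit 370) (nat_lit 350) (nat_lit 300)) (XT.lf (nat_lit 0) (nat_lit 176688756) (nat_lit 152) (nat_lit 64074782649) (nat_lit 76) (nat_lit 30618427718) (nat_lit 42) (nat_lit 5) (nat_lit 44) (nat_lit 5) (nat_lit 43) (nat_lit 4) (nat_lit 371)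 (nat_lit 350) (nat_lit 299))))) (XT.nd (nat_lit 156) (nat_lit 304) (nat_lit 0) (XT.nd (nat_lit 78) (nat_lit 152) (nat_lit 0) (XT.lf (nat_lit 0) (nat_lit 47893665440) (nat_lit 76) (nat_lit 6117253311) (nat_lit 152) (nat_lit 50066806906) (nat_lit 41) (nat_lit 5) (nat_lit 42) (nat_lit 5) (nat_lit 43) (nat_lit 4) (nat_lit 372) (nat_lit 350) (nat_lit 298)) (XT.lf (nat_lit 0) (nat_lit 6314813373) (nat_lit 152) (nat_lit 46545665397) (nat_lit 76) (nat_lit 61393918673) (nat_lit 39) (nat_lit 5) (nat_lit 41) (nat_lit 5) (nat_lit 40) (nat_lit 4) (nat_lit 373) (nat_lit 350) (nat_lit 297))) (XT.nd (nat_lit 78) (nat_lit 228) (nat_lit 0) (XT.lf (nat_lit 0) (nat_lit 72731739245) (nat_lit 152) (nat_lit 35290727864) (nat_lit 0) (nat_lit 17467662092) (nat_lit 38) (nat_lit 5) (nat_lit 40) (nat_lit 4) (nat_lit 38) (nat_lit 4) (nat_lit 374) (nat_lit 350) (nat_lit 296)) (XT.nd (nat_lit 78) (nat_lit 76) (nat_lit 0)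 (XT.lf (nat_lit 0) (nat_lit 15948408301) (nat_lit 152) (nat_lit 22095193125) (nat_lit 76) (nat_lit 99884338169) (nat_lit 36) (nat_lit 5) (nat_lit 38) (nat_lit 5) (nat_lit 37) (nat_lit 4) (nat_lit 375) (nat_lit 350) (nat_lit 295)) (XT.lf (nat_lit 0) (nat_lit 97642378268) (nat_lit 152) (nat_lit 7549663336) (nat_lit 0) (nat_lit 46465349288) (nat_lit 35) (nat_lit 5) (nat_lit 37) (nat_lit 4) (nat_lit 35) (nat_lit 4) (nat_lit 376) (nat_lit 350) (nat_lit 294)))))) (XT.nd (nat_lit 390) (nat_lit 684) (nat_lit 0) (XT.nd (nat_lit 156) (nat_lit 380) (nat_lit 0) (XT.nd (nat_lit 78) (nat_lit 76) (nat_lit 0) (XT.lf (nat_lit 0) (nat_lit 9728890371) (nat_lit 76) (nat_lit 19554082477) (nat_lit 152) (nat_lit 137609107397) (nat_lit 32) (nat_lit 5) (nat_lit 33) (nat_lit 5) (nat_lit 34) (nat_lit 4) (nat_lit 377) (nat_lit 350) (nat_lit 293)) (XT.lf (nat_lit 0) (nat_lit 27978674915) (nat_lit 76) (nat_lit 101549857803)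 (nat_lit 76) (nat_lit 54159107962) (nat_lit 31) (nat_lit 4) (nat_lit 32) (nat_lit 5) (nat_lit 32) (nat_lit 4) (nat_lit 378) (nat_lit 350) (nat_lit 292))) (XT.nd (nat_lit 78) (nat_lit 228) (nat_lit 0) (XT.lf (nat_lit 0) (nat_lit 46167556230) (nat_lit 152) (nat_lit 153952987225) (nat_lit 0) (nat_lit 2285505194) (nat_lit 29) (nat_lit 5) (nat_lit 31) (nat_lit 4) (nat_lit 29) (nat_lit 4) (nat_lit 379) (nat_lit 350) (nat_lit 291)) (XT.nd (nat_lit 78) (nat_lit 152) (nat_lit 0) (XT.lf (nat_lit 0) (nat_lit 68061781982) (nat_lit 76) (nat_lit 99453567083) (nat_lit 76) (nat_lit 55570014215) (nat_lit 28) (nat_lit 4) (nat_lit 29) (nat_lit 5) (nat_lit 29) (nat_lit 4) (nat_lit 380) (nat_lit 350) (nat_lit 290)) (XT.lf (nat_lit 0) (nat_lit 64524633936) (nat_lit 152) (nat_lit 157748630717) (nat_lit 0) (nat_lit 23890505408) (nat_lit 26) (nat_lit 5) (nat_lit 28) (nat_lit 4) (nat_lit 26) (nat_lit 4) (nat_lit 381)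 (nat_lit 350) (nat_lit 289))))) (XT.nd (nat_lit 234) (nat_lit 380) (nat_lit 0) (XT.nd (nat_lit 78) (nat_lit 228) (nat_lit 0) (XT.lf (nat_lit 0) (nat_lit 106312221367) (nat_lit 76) (nat_lit 103054758576) (nat_lit 76) (nat_lit 62419578565) (nat_lit 25) (nat_lit 4) (nat_lit 26) (nat_lit 5) (nat_lit 26) (nat_lit 4) (nat_lit 382) (nat_lit 350) (nat_lit 288)) (XT.nd (nat_lit 78) (nat_lit 76) (nat_lit 0) (XT.lf (nat_lit 0) (nat_lit 79671062224) (nat_lit 152) (nat_lit 178695036723) (nat_lit 0) (nat_lit 42045048943) (nat_lit 23) (nat_lit 5) (nat_lit 25) (nat_lit 4) (nat_lit 23) (nat_lit 4) (nat_lit 383) (nat_lit 350) (nat_lit 287)) (XT.lf (nat_lit 0) (nat_lit 130893966001) (nat_lit 76) (nat_lit 119524681711) (nat_lit 76) (nat_lit 81897932251) (nat_lit 22) (nat_lit 4) (nat_lit 23) (nat_lit 5) (nat_lit 23) (nat_lit 4) (nat_lit 384) (nat_lit 350) (nat_lit 286)))) (XT.nd (nat_lit 78) (nat_lit 228) (nat_lit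 0) (XT.lf (nat_lit 0) (nat_lit 83666066309) (nat_lit 152) (nat_lit 235583365574) (nat_lit 0) (nat_lit 48825890740) (nat_lit 20) (nat_lit 5) (nat_lit 22) (nat_lit 4) (nat_lit 20) (nat_lit 4) (nat_lit 385) (nat_lit 350) (nat_lit 285)) (XT.nd (nat_lit 78) (nat_lit 152) (nat_lit 0) (XT.lf (nat_lit 0) (nat_lit 120242096637) (nat_lit 76) (nat_lit 161319306375) (nat_lit 76) (nat_lit 126478615384) (nat_lit 19) (nat_lit 4) (nat_lit 20) (nat_lit 5) (nat_lit 20) (nat_lit 4) (nat_lit 386) (nat_lit 350) (nat_lit 284)) (XT.lf (nat_lit 0) (nat_lit 62424786233) (nat_lit 152) (nat_lit 360500741822) (nat_lit 0) (nat_lit 30164472173) (nat_lit 17) (nat_lit 5) (nat_lit 19) (nat_lit 4) (nat_lit 17) (nat_lit 4) (nat_lit 387) (nat_lit 350) (nat_lit 283))))))))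
noncomputable def xc66 : XT := (XT.nd (nat_lit 1638) (nat_lit 76) (nat_lit 0) (XT.nd (nat_lit 780) (nat_lit 380) (nat_lit 0) (XT.nd (nat_lit 390) (nat_lit 304) (nat_lit 0) (XT.nd (nat_lit 156) (nat_lit 380) (nat_lit 0) (XT.nd (nat_lit 78) (nat_lit 0) (nat_lit 0) (XT.lf (nat_lit 0) (nat_lit 36892822435) (nat_lit 76) (nat_lit 249435131517) (nat_lit 76) (nat_lit 217174456592) (nat_lit 16) (nat_lit 4) (nat_lit 17) (nat_lit 5) (nat_lit 17) (nat_lit 4) (nat_lit 388) (nat_lit 350) (nat_lit 282)) (XT.lf (nat_lit 0) (nat_lit 515716355395) (nat_lit 76) (nat_lit 38591026472) (nat_lit 76) (nat_lit 6330037752) (nat_lit 16) (nat_lit 4) (nat_lit 17) (nat_lit 5) (nat_lit 17) (nat_lit 4) (nat_lit 389) (nat_lit 350) (nat_lit 281))) (XT.nd (nat_lit 78) (nat_lit 228) (nat_lit 0) (XT.lf (nat_lit 0) (nat_lit 240656107677) (nat_lit 152) (nat_lit 173141443784) (nat_lit 0) (nat_lit 210784569173) (nat_lit 14) (nat_lit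 5) (nat_lit 16) (nat_lit 4) (nat_lit 14) (nat_lit 4) (nat_lit 390) (nat_lit 350) (nat_lit 280)) (XT.nd (nat_lit 78) (nat_lit 152) (nat_lit 0) (XT.lf (nat_lit 0) (nat_lit 342828036387) (nat_lit 76) (nat_lit 192148116190) (nat_lit 76) (nat_lit 162276357987) (nat_lit 13) (nat_lit 4) (nat_lit 14) (nat_lit 5) (nat_lit 14) (nat_lit 4) (nat_lit 391) (nat_lit 350) (nat_lit 279)) (XT.lf (nat_lit 0) (nat_lit 99113582312) (nat_lit 152) (nat_lit 609187215990) (nat_lit 0) (nat_lit 71454370049) (nat_lit 11) (nat_lit 5) (nat_lit 13) (nat_lit 4) (nat_lit 11) (nat_lit 4) (nat_lit 392) (nat_lit 350) (nat_lit 278))))) (XT.nd (nat_lit 156) (nat_lit 228) (nat_lit 0) (XT.nd (nat_lit 78) (nat_lit 76) (nat_lit 0) (XT.lf (nat_lit 0) (nat_lit 406274137825) (nat_lit 152) (nat_lit 88113461984) (nat_lit 0) (nat_lit 378614771743) (nat_lit 11) (nat_lit 5) (nat_lit 13) (nat_lit 4) (nat_lit 11) (nat_lit 4) (nat_lit 393) (nat_lit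 350) (nat_lit 277)) (XT.lf (nat_lit 0) (nat_lit 538029397746) (nat_lit 76) (nat_lit 234415917137) (nat_lit 76) (nat_lit 206756417301) (nat_lit 10) (nat_lit 4) (nat_lit 11) (nat_lit 5) (nat_lit 11) (nat_lit 4) (nat_lit 394) (nat_lit 350) (nat_lit 276))) (XT.nd (nat_lit 78) (nat_lit 76) (nat_lit 0) (XT.lf (nat_lit 0) (nat_lit 96062013692) (nat_lit 152) (nat_lit 933963221279) (nat_lit 0) (nat_lit 70451258003) (nat_lit 8) (nat_lit 5) (nat_lit 10) (nat_lit 4) (nat_lit 8) (nat_lit 4) (nat_lit 395) (nat_lit 350) (nat_lit 275)) (XT.nd (nat_lit 78) (nat_lit 76) (nat_lit 0) (XT.lf (nat_lit 0) (nat_lit 452067521160) (nat_lit 152) (nat_lit 359388123262) (nat_lit 0) (nat_lit 426456671824) (nat_lit 8) (nat_lit 5) (nat_lit 10) (nat_lit 4) (nat_lit 8) (nat_lit 4) (nat_lit 396) (nat_lit 350) (nat_lit 274)) (XT.lf (nat_lit 0) (nat_lit 317237877766) (nat_lit 76) (nat_lit 551863194314) (nat_lit 76) (nat_lit 526252263547)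 (nat_lit 7) (nat_lit 4) (nat_lit 8) (nat_lit 5) (nat_lit 8) (nat_lit 4) (nat_lit 397) (nat_lit 350) (nat_lit 273)))))) (XT.nd (nat_lit 390) (nat_lit 152) (nat_lit 0) (XT.nd (nat_lit 156) (nat_lit 76) (nat_lit 0) (XT.nd (nat_lit 78) (nat_lit 152) (nat_lit 0) (XT.lf (nat_lit 0) (nat_lit 1117116760230) (nat_lit 76) (nat_lit 242033933124) (nat_lit 76) (nat_lit 216422931547) (nat_lit 7) (nat_lit 4) (nat_lit 8) (nat_lit 5) (nat_lit 8) (nat_lit 4) (nat_lit 398) (nat_lit 350) (nat_lit 272)) (XT.lf (nat_lit 0) (nat_lit 142230816692) (nat_lit 152) (nat_lit 1521062346973) (nat_lit 0) (nat_lit 118516869329) (nat_lit 5) (nat_lit 5) (nat_lit 7) (nat_lit 4) (nat_lit 5) (nat_lit 4) (nat_lit 399) (nat_lit 350) (nat_lit 271))) (XT.nd (nat_lit 78) (nat_lit 76) (nat_lit 0) (XT.lf (nat_lit 0) (nat_lit 562618739601) (nat_lit 152) (nat_lit 915348648845) (nat_lit 0) (nat_lit 538904742662) (nat_lit 5) (nat_lit 5)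 (nat_lit 7) (nat_lit 4) (nat_lit 5) (nat_lit 4) (nat_lit 400) (nat_lit 350) (nat_lit 270)) (XT.nd (nat_lit 78) (nat_lit 76) (nat_lit 0) (XT.lf (nat_lit 0) (nat_lit 1046063277410) (nat_lit 152) (nat_lit 218781155052) (nat_lit 0) (nat_lit 1022349237362) (nat_lit 5) (nat_lit 5) (nat_lit 7) (nat_lit 4) (nat_lit 5) (nat_lit 4) (nat_lit 401) (nat_lit 350) (nat_lit 269)) (XT.lf (nat_lit 0) (nat_lit 612929862976) (nat_lit 76) (nat_lit 1003834242568) (nat_lit 76) (nat_lit 980120165033) (nat_lit 4) (nat_lit 4) (nat_lit 5) (nat_lit 5) (nat_lit 5) (nat_lit 4) (nat_lit 402) (nat_lit 350) (nat_lit 268))))) (XT.nd (nat_lit 234) (nat_lit 0) (nat_lit 0) (XT.nd (nat_lit 78) (nat_lit 152) (nat_lit 0) (XT.lf (nat_lit 0) (nat_lit 1582643661728) (nat_lit 76) (nat_lit 696794721896) (nat_lit 76) (nat_lit 673080611763) (nat_lit 4) (nat_lit 4) (nat_lit 5) (nat_lit 5) (nat_lit 5) (nat_lit 4) (nat_lit 403) (nat_lit 350)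 (nat_lit 267)) (XT.nd (nat_lit 78) (nat_lit 152) (nat_lit 0) (XT.lf (nat_lit 0) (nat_lit 2697812274571) (nat_lit 76) (nat_lit 343700439969) (nat_lit 76) (nat_lit 319986301491) (nat_lit 4) (nat_lit 4) (nat_lit 5) (nat_lit 5) (nat_lit 5) (nat_lit 4) (nat_lit 404) (nat_lit 350) (nat_lit 266)) (XT.lf (nat_lit 0) (nat_lit 87120468079) (nat_lit 152) (nat_lit 3678948739825) (nat_lit 0) (nat_lit 65162909629) (nat_lit 2) (nat_lit 5) (nat_lit 4) (nat_lit 4) (nat_lit 2) (nat_lit 4) (nat_lit 405) (nat_lit 350) (nat_lit 265)))) (XT.nd (nat_lit 78) (nat_lit 0) (nat_lit 0) (XT.lf (nat_lit 0) (nat_lit 566214592339) (nat_lit 152) (nat_lit 3257899223353) (nat_lit 0) (nat_lit 544257014043) (nat_lit 2) (nat_lit 5) (nat_lit 4) (nat_lit 4) (nat_lit 2) (nat_lit 4) (nat_lit 406) (nat_lit 350) (nat_lit 264)) (XT.nd (nat_lit 78) (nat_lit 0) (nat_lit 0) (XT.lf (nat_lit 0) (nat_lit 1117172042223) (nat_lit 152) (nat_lit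 2773693923315) (nat_lit 0) (nat_lit 1095214446670) (nat_lit 2) (nat_lit 5) (nat_lit 4) (nat_lit 4) (nat_lit 2) (nat_lit 4) (nat_lit 407) (nat_lit 350) (nat_lit 263)) (XT.lf (nat_lit 0) (nat_lit 1750772420013) (nat_lit 152) (nat_lit 2216859257753) (nat_lit 0) (nat_lit 1728814809454) (nat_lit 2) (nat_lit 5) (nat_lit 4) (nat_lit 4) (nat_lit 2) (nat_lit 4) (nat_lit 408) (nat_lit 350) (nat_lit 262))))))) (XT.nd (nat_lit 780) (nat_lit 0) (nat_lit 0) (XT.nd (nat_lit 390) (nat_lit 0) (nat_lit 0) (XT.nd (nat_lit 156) (nat_lit 76) (nat_lit 0) (XT.nd (nat_lit 78) (nat_lit 0) (nat_lit 0) (XT.lf (nat_lit 0) (nat_lit 2479412254840) (nat_lit 152) (nat_lit 1576500635384) (nat_lit 0) (nat_lit 2457454631232) (nat_lit 2) (nat_lit 5) (nat_lit 4) (nat_lit 4) (nat_lit 2) (nat_lit 4) (nat_lit 409) (nat_lit 350) (nat_lit 261)) (XT.lf (nat_lit 0) (nat_lit 3317347543470) (nat_lit 152) (nat_lit 840089300554) (nat_lit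 0) (nat_lit 3295389908516) (nat_lit 2) (nat_lit 5) (nat_lit 4) (nat_lit 4) (nat_lit 2) (nat_lit 4) (nat_lit 410) (nat_lit 350) (nat_lit 260))) (XT.nd (nat_lit 78) (nat_lit 0) (nat_lit 0) (XT.lf (nat_lit 0) (nat_lit 7139964536) (nat_lit 76) (nat_lit 4274004423770) (nat_lit 76) (nat_lit 4252046778949) (nat_lit 1) (nat_lit 4) (nat_lit 2) (nat_lit 5) (nat_lit 2) (nat_lit 4) (nat_lit 411) (nat_lit 350) (nat_lit 259)) (XT.nd (nat_lit 78) (nat_lit 0) (nat_lit 0) (XT.lf (nat_lit 0) (nat_lit 1032326014912) (nat_lit 76) (nat_lit 4381642626088) (nat_lit 76) (nat_lit 4359684972686) (nat_lit 1) (nat_lit 4) (nat_lit 2) (nat_lit 5) (nat_lit 2) (nat_lit 4) (nat_lit 412) (nat_lit 350) (nat_lit 258)) (XT.lf (nat_lit 0) (nat_lit 2211289224715) (nat_lit 76) (nat_lit 4505426946048) (nat_lit 76) (nat_lit 4483469285186) (nat_lit 1) (nat_lit 4) (nat_lit 2) (nat_lit 5) (nat_lit 2) (nat_lit 4) (nat_lit 413) (nat_lit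 350) (nat_lit 257))))) (XT.nd (nat_lit 156) (nat_lit 0) (nat_lit 0) (XT.nd (nat_lit 78) (nat_lit 0) (nat_lit 0) (XT.lf (nat_lit 0) (nat_lit 3567096265440) (nat_lit 76) (nat_lit 4647779250782) (nat_lit 76) (nat_lit 4625821583432) (nat_lit 1) (nat_lit 4) (nat_lit 2) (nat_lit 5) (nat_lit 2) (nat_lit 4) (nat_lit 414) (nat_lit 350) (nat_lit 256)) (XT.lf (nat_lit 0) (nat_lit 5126273796581) (nat_lit 76) (nat_lit 4811484694076) (nat_lit 76) (nat_lit 4789527021085) (nat_lit 1) (nat_lit 4) (nat_lit 2) (nat_lit 5) (nat_lit 2) (nat_lit 4) (nat_lit 415) (nat_lit 350) (nat_lit 255))) (XT.nd (nat_lit 78) (nat_lit 0) (nat_lit 0) (XT.lf (nat_lit 0) (nat_lit 6919327465486) (nat_lit 76) (nat_lit 4999746208517) (nat_lit 76) (nat_lit 4977788530621) (nat_lit 1) (nat_lit 4) (nat_lit 2) (nat_lit 5) (nat_lit 2) (nat_lit 4) (nat_lit 416) (nat_lit 350) (nat_lit 254)) (XT.nd (nat_lit 78) (nat_lit 0) (nat_lit 0) (XT.lf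 (nat_lit 0) (nat_lit 8981338756981) (nat_lit 76) (nat_lit 5216247171562) (nat_lit 76) (nat_lit 5194289489400) (nat_lit 1) (nat_lit 4) (nat_lit 2) (nat_lit 5) (nat_lit 2) (nat_lit 4) (nat_lit 417) (nat_lit 350) (nat_lit 253)) (XT.lf (nat_lit 0) (nat_lit 11352651370248) (nat_lit 76) (nat_lit 5465223471618) (nat_lit 76) (nat_lit 5443265785747) (nat_lit 1) (nat_lit 4) (nat_lit 2) (nat_lit 5) (nat_lit 2) (nat_lit 4) (nat_lit 418) (nat_lit 350) (nat_lit 252)))))) (XT.nd (nat_lit 390) (nat_lit 0) (nat_lit 0) (XT.nd (nat_lit 156) (nat_lit 0) (nat_lit 0) (XT.nd (nat_lit 78) (nat_lit 0) (nat_lit 0) (XT.lf (nat_lit 0) (nat_lit 14079660552067) (nat_lit 76) (nat_lit 5751546384121) (nat_lit 76) (nat_lit 5729588695024) (nat_lit 1) (nat_lit 4) (nat_lit 2) (nat_lit 5) (nat_lit 2) (nat_lit 4) (nat_lit 419) (nat_lit 350) (nat_lit 251)) (XT.lf (nat_lit 0) (nat_lit 17215720829910) (nat_lit 76) (nat_lit 6080817879098)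 (nat_lit 76) (nat_lit 6058860187196) (nat_lit 1) (nat_lit 4) (nat_lit 2) (nat_lit 5) (nat_lit 2) (nat_lit 4) (nat_lit 420) (nat_lit 350) (nat_lit 250))) (XT.nd (nat_lit 78) (nat_lit 0) (nat_lit 0) (XT.lf (nat_lit 0) (nat_lit 20822189904864) (nat_lit 76) (nat_lit 6459480224929) (nat_lit 76) (nat_lit 6437522530589) (nat_lit 1) (nat_lit 4) (nat_lit 2) (nat_lit 5) (nat_lit 2) (nat_lit 4) (nat_lit 421) (nat_lit 350) (nat_lit 249)) (XT.nd (nat_lit 78) (nat_lit 0) (nat_lit 0) (XT.lf (nat_lit 0) (nat_lit 24969629128397) (nat_lit 76) (nat_lit 6894942032728) (nat_lit 76) (nat_lit 6872984336267) (nat_lit 1) (nat_lit 4) (nat_lit 2) (nat_lit 5) (nat_lit 2) (nat_lit 4) (nat_lit 422) (nat_lit 350) (nat_lit 248)) (XT.lf (nat_lit 0) (nat_lit 29739184050532) (nat_lit 76) (nat_lit 7395723207431) (nat_lit 76) (nat_lit 7373765509125) (nat_lit 1) (nat_lit 4) (nat_lit 2) (nat_lit 5) (nat_lit 2) (nat_lit 4) (nat_lit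 423) (nat_lit 350) (nat_lit 247))))) (XT.nd (nat_lit 47502) (nat_lit 0) (nat_lit 6536) (XT.nd (nat_lit 78) (nat_lit 0) (nat_lit 0) (XT.lf (nat_lit 0) (nat_lit 35224172050183) (nat_lit 76) (nat_lit 7971621641585) (nat_lit 76) (nat_lit 7949663941676) (nat_lit 1) (nat_lit 4) (nat_lit 2) (nat_lit 5) (nat_lit 2) (nat_lit 4) (nat_lit 424) (nat_lit 350) (nat_lit 246)) (XT.nd (nat_lit 47346) (nat_lit 0) (nat_lit 6992) (XT.lf (nat_lit 0) (nat_lit 41531908109951) (nat_lit 76) (nat_lit 8633904913251) (nat_lit 76) (nat_lit 8611947211947) (nat_lit 1) (nat_lit 4) (nat_lit 2) (nat_lit 5) (nat_lit 2) (nat_lit 4) (nat_lit 425) (nat_lit 350) (nat_lit 245)) (XT.lf (nat_lit 0) (nat_lit 8560174105) (nat_lit 532) (nat_lit 472203460) (nat_lit 532) (nat_lit 472203460) (nat_lit 93) (nat_lit 3) (nat_lit 100) (nat_lit 3) (nat_lit 100) (nat_lit 5) (nat_lit 351) (nat_lit 351) (nat_lit 318)))) (XT.nd (nat_lit 78) (nat_lit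 456) (nat_lit 0) (XT.lf (nat_lit 76) (nat_lit 17683373037) (nat_lit 0) (nat_lit 1458233147) (nat_lit 532) (nat_lit 1234222856) (nat_lit 94) (nat_lit 5) (nat_lit 93) (nat_lit 3) (nat_lit 100) (nat_lit 5) (nat_lit 352) (nat_lit 351) (nat_lit 317)) (XT.nd (nat_lit 78) (nat_lit 0) (nat_lit 76) (XT.lf (nat_lit 0) (nat_lit 384874603) (nat_lit 532) (nat_lit 4253661817) (nat_lit 608) (nat_lit 17242514089) (nat_lit 87) (nat_lit 5) (nat_lit 94) (nat_lit 5) (nat_lit 95) (nat_lit 5) (nat_lit 353) (nat_lit 351) (nat_lit 316)) (XT.lf (nat_lit 0) (nat_lit 3064443264) (nat_lit 532) (nat_lit 5587197436) (nat_lit 608) (nat_lit 14886600939) (nat_lit 88) (nat_lit 5) (nat_lit 95) (nat_lit 5) (nat_lit 96) (nat_lit 5) (nat_lit 354) (nat_lit 351) (nat_lit 315))))))))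
noncomputable def xc67 : XT := (XT.nd (nat_lit 1638) (nat_lit 2280) (nat_lit 0) (XT.nd (nat_lit 780) (nat_lit 1520) (nat_lit 0) (XT.nd (nat_lit 390) (nat_lit 1064) (nat_lit 0) (XT.nd (nat_lit 156) (nat_lit 760) (nat_lit 0) (XT.nd (nat_lit 78) (nat_lit 532) (nat_lit 0) (XT.lf (nat_lit 0) (nat_lit 7111456219) (nat_lit 532) (nat_lit 6589064207) (nat_lit 76) (nat_lit 11666255480) (nat_lit 89) (nat_lit 5) (nat_lit 96) (nat_lit 5) (nat_lit 90) (nat_lit 5) (nat_lit 355) (nat_lit 351) (nat_lit 314)) (XT.lf (nat_lit 0) (nat_lit 12810953631) (nat_lit 608) (nat_lit 7168564816) (nat_lit 76) (nat_lit 7406441776) (nat_lit 82) (nat_lit 5) (nat_lit 90) (nat_lit 5) (nat_lit 83) (nat_lit 5) (nat_lit 356) (nat_lit 351) (nat_lit 313))) (XT.nd (nat_lit 78) (nat_lit 532) (nat_lit 0) (XT.lf (nat_lit 0) (nat_lit 20494395546) (nat_lit 304) (nat_lit 7216252495) (nat_lit 76) (nat_lit 1907056478) (nat_lit 79) (nat_lit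 5) (nat_lit 83) (nat_lit 5) (nat_lit 80) (nat_lit 5) (nat_lit 357) (nat_lit 351) (nat_lit 312)) (XT.nd (nat_lit 78) (nat_lit 304) (nat_lit 0) (XT.lf (nat_lit 0) (nat_lit 25347331125) (nat_lit 228) (nat_lit 5328022433) (nat_lit 304) (nat_lit 1401260329) (nat_lit 76) (nat_lit 5) (nat_lit 79) (nat_lit 5) (nat_lit 80) (nat_lit 5) (nat_lit 358) (nat_lit 351) (nat_lit 311)) (XT.lf (nat_lit 0) (nat_lit 8523308842) (nat_lit 304) (nat_lit 5731682913) (nat_lit 76) (nat_lit 20521513026) (nat_lit 72) (nat_lit 5) (nat_lit 76) (nat_lit 5) (nat_lit 73) (nat_lit 5) (nat_lit 359) (nat_lit 351) (nat_lit 310))))) (XT.nd (nat_lit 156) (nat_lit 684) (nat_lit 0) (XT.nd (nat_lit 78) (nat_lit 152) (nat_lit 0) (XT.lf (nat_lit 0) (nat_lit 21318994243) (nat_lit 304) (nat_lit 3890922601) (nat_lit 76) (nat_lit 12551321053) (nat_lit 69) (nat_lit 5) (nat_lit 73) (nat_lit 5) (nat_lit 70) (nat_lit 5) (nat_lit 360) (nat_lit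 351) (nat_lit 309)) (XT.lf (nat_lit 0) (nat_lit 37604720091) (nat_lit 228) (nat_lit 978831787) (nat_lit 76) (nat_lit 2484476171) (nat_lit 67) (nat_lit 5) (nat_lit 70) (nat_lit 5) (nat_lit 68) (nat_lit 5) (nat_lit 361) (nat_lit 351) (nat_lit 308))) (XT.nd (nat_lit 78) (nat_lit 304) (nat_lit 0) (XT.lf (nat_lit 0) (nat_lit 2792616204) (nat_lit 152) (nat_lit 10153189346) (nat_lit 228) (nat_lit 31738440113) (nat_lit 62) (nat_lit 5) (nat_lit 64) (nat_lit 5) (nat_lit 65) (nat_lit 5) (nat_lit 362) (nat_lit 351) (nat_lit 307)) (XT.nd (nat_lit 78) (nat_lit 152) (nat_lit 0) (XT.lf (nat_lit 0) (nat_lit 7918827081) (nat_lit 152) (nat_lit 25697590446) (nat_lit 228) (nat_lit 15058867527) (nat_lit 60) (nat_lit 5) (nat_lit 62) (nat_lit 5) (nat_lit 63) (nat_lit 5) (nat_lit 363) (nat_lit 351) (nat_lit 306)) (XT.lf (nat_lit 0) (nat_lit 6005454105) (nat_lit 152) (nat_lit 38454128512) (nat_lit 76) (nat_lit 8630343389)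 (nat_lit 58) (nat_lit 5) (nat_lit 60) (nat_lit 5) (nat_lit 59) (nat_lit 5) (nat_lit 364) (nat_lit 351) (nat_lit 305)))))) (XT.nd (nat_lit 390) (nat_lit 760) (nat_lit 0) (XT.nd (nat_lit 156) (nat_lit 456) (nat_lit 0) (XT.nd (nat_lit 78) (nat_lit 152) (nat_lit 0) (XT.lf (nat_lit 0) (nat_lit 22680323891) (nat_lit 152) (nat_lit 9138731843) (nat_lit 228) (nat_lit 26117914451) (nat_lit 56) (nat_lit 5) (nat_lit 58) (nat_lit 5) (nat_lit 59) (nat_lit 5) (nat_lit 365) (nat_lit 351) (nat_lit 304)) (XT.lf (nat_lit 0) (nat_lit 839757506) (nat_lit 152) (nat_lit 30603667547) (nat_lit 76) (nat_lit 31851845907) (nat_lit 54) (nat_lit 5) (nat_lit 56) (nat_lit 5) (nat_lit 55) (nat_lit 5) (nat_lit 366) (nat_lit 351) (nat_lit 303))) (XT.nd (nat_lit 78) (nat_lit 304) (nat_lit 0) (XT.lf (nat_lit 0) (nat_lit 32997842202) (nat_lit 228) (nat_lit 24695852308) (nat_lit 76) (nat_lit 11493093349) (nat_lit 52) (nat_lit 5)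 (nat_lit 55) (nat_lit 5) (nat_lit 53) (nat_lit 4) (nat_lit 367) (nat_lit 351) (nat_lit 302)) (XT.nd (nat_lit 78) (nat_lit 228) (nat_lit 0) (XT.lf (nat_lit 0) (nat_lit 58837820796) (nat_lit 76) (nat_lit 14326658794) (nat_lit 152) (nat_lit 2542766122) (nat_lit 51) (nat_lit 5) (nat_lit 52) (nat_lit 5) (nat_lit 53) (nat_lit 4) (nat_lit 368) (nat_lit 351) (nat_lit 301)) (XT.lf (nat_lit 0) (nat_lit 37841821183) (nat_lit 228) (nat_lit 7729329111) (nat_lit 76) (nat_lit 37285079742) (nat_lit 48) (nat_lit 5) (nat_lit 51) (nat_lit 5) (nat_lit 49) (nat_lit 4) (nat_lit 369) (nat_lit 351) (nat_lit 300))))) (XT.nd (nat_lit 234) (nat_lit 304) (nat_lit 0) (XT.nd (nat_lit 78) (nat_lit 304) (nat_lit 0) (XT.lf (nat_lit 0) (nat_lit 4377310771) (nat_lit 76) (nat_lit 83231336850) (nat_lit 76) (nat_lit 3185622259) (nat_lit 46) (nat_lit 4) (nat_lit 47) (nat_lit 5) (nat_lit 47) (nat_lit 4) (nat_lit 370) (nat_lit 351)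 (nat_lit 299)) (XT.nd (nat_lit 78) (nat_lit 152) (nat_lit 0) (XT.lf (nat_lit 0) (nat_lit 18363513315) (nat_lit 76) (nat_lit 28952120450) (nat_lit 152) (nat_lit 52149352497) (nat_lit 44) (nat_lit 5) (nat_lit 45) (nat_lit 5) (nat_lit 46) (nat_lit 4) (nat_lit 371) (nat_lit 351) (nat_lit 298)) (XT.lf (nat_lit 0) (nat_lit 333304160) (nat_lit 152) (nat_lit 73435749875) (nat_lit 76) (nat_lit 35320917960) (nat_lit 42) (nat_lit 5) (nat_lit 44) (nat_lit 5) (nat_lit 43) (nat_lit 4) (nat_lit 372) (nat_lit 351) (nat_lit 297)))) (XT.nd (nat_lit 78) (nat_lit 228) (nat_lit 0) (XT.lf (nat_lit 0) (nat_lit 55306782997) (nat_lit 76) (nat_lit 6924423600) (nat_lit 152) (nat_lit 57448683273) (nat_lit 41) (nat_lit 5) (nat_lit 42) (nat_lit 5) (nat_lit 43) (nat_lit 4) (nat_lit 373) (nat_lit 351) (nat_lit 296)) (XT.nd (nat_lit 78) (nat_lit 76) (nat_lit 0) (XT.lf (nat_lit 0) (nat_lit 7375588708) (nat_lit 152) (nat_lit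 53305595079) (nat_lit 76) (nat_lit 70702286886) (nat_lit 39) (nat_lit 5) (nat_lit 41) (nat_lit 5) (nat_lit 40) (nat_lit 4) (nat_lit 374) (nat_lit 351) (nat_lit 295)) (XT.lf (nat_lit 0) (nat_lit 83747520750) (nat_lit 152) (nat_lit 40375302486) (nat_lit 0) (nat_lit 20182341852) (nat_lit 38) (nat_lit 5) (nat_lit 40) (nat_lit 4) (nat_lit 38) (nat_lit 4) (nat_lit 375) (nat_lit 351) (nat_lit 294))))))) (XT.nd (nat_lit 780) (nat_lit 1064) (nat_lit 0) (XT.nd (nat_lit 390) (nat_lit 532) (nat_lit 0) (XT.nd (nat_lit 156) (nat_lit 456) (nat_lit 0) (XT.nd (nat_lit 78) (nat_lit 76) (nat_lit 0) (XT.lf (nat_lit 0) (nat_lit 18439978783) (nat_lit 152) (nat_lit 25212900337) (nat_lit 76) (nat_lit 114956305191) (nat_lit 36) (nat_lit 5) (nat_lit 38) (nat_lit 5) (nat_lit 37) (nat_lit 4) (nat_lit 376) (nat_lit 351) (nat_lit 293)) (XT.lf (nat_lit 0) (nat_lit 112381564715) (nat_lit 152) (nat_lit 8497070406) (nat_lit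 0) (nat_lit 53519936738) (nat_lit 35) (nat_lit 5) (nat_lit 37) (nat_lit 4) (nat_lit 35) (nat_lit 4) (nat_lit 377) (nat_lit 351) (nat_lit 292))) (XT.nd (nat_lit 78) (nat_lit 228) (nat_lit 0) (XT.lf (nat_lit 0) (nat_lit 11371346186) (nat_lit 76) (nat_lit 22395475285) (nat_lit 152) (nat_lit 158151757556) (nat_lit 32) (nat_lit 5) (nat_lit 33) (nat_lit 5) (nat_lit 34) (nat_lit 4) (nat_lit 378) (nat_lit 351) (nat_lit 291)) (XT.nd (nat_lit 78) (nat_lit 152) (nat_lit 0) (XT.lf (nat_lit 0) (nat_lit 32347773105) (nat_lit 76) (nat_lit 116695582008) (nat_lit 76) (nat_lit 62190587365) (nat_lit 31) (nat_lit 4) (nat_lit 32) (nat_lit 5) (nat_lit 32) (nat_lit 4) (nat_lit 379) (nat_lit 351) (nat_lit 290)) (XT.lf (nat_lit 0) (nat_lit 53174867661) (nat_lit 152) (nat_lit 176879539231) (nat_lit 0) (nat_lit 2705974087) (nat_lit 29) (nat_lit 5) (nat_lit 31) (nat_lit 4) (nat_lit 29) (nat_lit 4) (nat_lit 380) (nat_lit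 351) (nat_lit 289))))) (XT.nd (nat_lit 156) (nat_lit 304) (nat_lit 0) (XT.nd (nat_lit 78) (nat_lit 152) (nat_lit 0) (XT.lf (nat_lit 0) (nat_lit 78423360758) (nat_lit 76) (nat_lit 114294412890) (nat_lit 76) (nat_lit 63824383714) (nat_lit 28) (nat_lit 4) (nat_lit 29) (nat_lit 5) (nat_lit 29) (nat_lit 4) (nat_lit 381) (nat_lit 351) (nat_lit 288)) (XT.lf (nat_lit 0) (nat_lit 74275540079) (nat_lit 152) (nat_lit 181263900848) (nat_lit 0) (nat_lit 27543117250) (nat_lit 26) (nat_lit 5) (nat_lit 28) (nat_lit 4) (nat_lit 26) (nat_lit 4) (nat_lit 382) (nat_lit 351) (nat_lit 287))) (XT.nd (nat_lit 78) (nat_lit 228) (nat_lit 0) (XT.lf (nat_lit 0) (nat_lit 122393634159) (nat_lit 76) (nat_lit 118444421637) (nat_lit 76) (nat_lit 71711203736) (nat_lit 25) (nat_lit 4) (nat_lit 26) (nat_lit 5) (nat_lit 26) (nat_lit 4) (nat_lit 383) (nat_lit 351) (nat_lit 286)) (XT.nd (nat_lit 78) (nat_lit 76) (nat_lit 0) (XT.lf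 (nat_lit 0) (nat_lit 91685222213) (nat_lit 152) (nat_lit 205369433451) (nat_lit 0) (nat_lit 48413084001) (nat_lit 23) (nat_lit 5) (nat_lit 25) (nat_lit 4) (nat_lit 23) (nat_lit 4) (nat_lit 384) (nat_lit 351) (nat_lit 285)) (XT.lf (nat_lit 0) (nat_lit 150646927783) (nat_lit 76) (nat_lit 137392593798) (nat_lit 76) (nat_lit 94119898930) (nat_lit 22) (nat_lit 4) (nat_lit 23) (nat_lit 5) (nat_lit 23) (nat_lit 4) (nat_lit 385) (nat_lit 351) (nat_lit 284)))))) (XT.nd (nat_lit 390) (nat_lit 608) (nat_lit 0) (XT.nd (nat_lit 156) (nat_lit 228) (nat_lit 0) (XT.nd (nat_lit 78) (nat_lit 76) (nat_lit 0) (XT.lf (nat_lit 0) (nat_lit 96271850721) (nat_lit 152) (nat_lit 270806207623) (nat_lit 0) (nat_lit 56204092465) (nat_lit 20) (nat_lit 5) (nat_lit 22) (nat_lit 4) (nat_lit 20) (nat_lit 4) (nat_lit 386) (nat_lit 351) (nat_lit 283)) (XT.lf (nat_lit 0) (nat_lit 138383368286) (nat_lit 76) (nat_lit 185463355893)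 (nat_lit 76) (nat_lit 145395207903) (nat_lit 19) (nat_lit 4) (nat_lit 20) (nat_lit 5) (nat_lit 20) (nat_lit 4) (nat_lit 387) (nat_lit 351) (nat_lit 282))) (XT.nd (nat_lit 78) (nat_lit 76) (nat_lit 0) (XT.lf (nat_lit 0) (nat_lit 71837691863) (nat_lit 152) (nat_lit 414474632168) (nat_lit 0) (nat_lit 34737241041) (nat_lit 17) (nat_lit 5) (nat_lit 19) (nat_lit 4) (nat_lit 17) (nat_lit 4) (nat_lit 388) (nat_lit 351) (nat_lit 281)) (XT.nd (nat_lit 78) (nat_lit 0) (nat_lit 0) (XT.lf (nat_lit 0) (nat_lit 42519398880) (nat_lit 76) (nat_lit 286802748382) (nat_lit 76) (nat_lit 249702024694) (nat_lit 16) (nat_lit 4) (nat_lit 17) (nat_lit 5) (nat_lit 17) (nat_lit 4) (nat_lit 389) (nat_lit 351) (nat_lit 280)) (XT.lf (nat_lit 0) (nat_lit 593154376600) (nat_lit 76) (nat_lit 44338243171) (nat_lit 76) (nat_lit 7237282209) (nat_lit 16) (nat_lit 4) (nat_lit 17) (nat_lit 5) (nat_lit 17) (nat_lit 4) (nat_lit 390)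 (nat_lit 351) (nat_lit 279))))) (XT.nd (nat_lit 234) (nat_lit 228) (nat_lit 0) (XT.nd (nat_lit 78) (nat_lit 228) (nat_lit 0) (XT.lf (nat_lit 0) (nat_lit 276792191379) (nat_lit 152) (nat_lit 199034975134) (nat_lit 0) (nat_lit 242439258706) (nat_lit 14) (nat_lit 5) (nat_lit 16) (nat_lit 4) (nat_lit 14) (nat_lit 4) (nat_lit 391) (nat_lit 351) (nat_lit 278)) (XT.nd (nat_lit 78) (nat_lit 152) (nat_lit 0) (XT.lf (nat_lit 0) (nat_lit 394323351397) (nat_lit 76) (nat_lit 220933688645) (nat_lit 76) (nat_lit 186580589848) (nat_lit 13) (nat_lit 4) (nat_lit 14) (nat_lit 5) (nat_lit 14) (nat_lit 4) (nat_lit 392) (nat_lit 351) (nat_lit 277)) (XT.lf (nat_lit 0) (nat_lit 114013802078) (nat_lit 152) (nat_lit 700496743348) (nat_lit 0) (nat_lit 82205243511) (nat_lit 11) (nat_lit 5) (nat_lit 13) (nat_lit 4) (nat_lit 11) (nat_lit 4) (nat_lit 393) (nat_lit 351) (nat_lit 276)))) (XT.nd (nat_lit 78) (nat_lit 228)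 (nat_lit 0) (XT.lf (nat_lit 0) (nat_lit 467244112776) (nat_lit 152) (nat_lit 101270868203) (nat_lit 0) (nat_lit 435435437900) (nat_lit 11) (nat_lit 5) (nat_lit 13) (nat_lit 4) (nat_lit 11) (nat_lit 4) (nat_lit 394) (nat_lit 351) (nat_lit 275)) (XT.nd (nat_lit 78) (nat_lit 152) (nat_lit 0) (XT.lf (nat_lit 0) (nat_lit 618788374536) (nat_lit 76) (nat_lit 269550140595) (nat_lit 76) (nat_lit 237741364582) (nat_lit 10) (nat_lit 4) (nat_lit 11) (nat_lit 5) (nat_lit 11) (nat_lit 4) (nat_lit 395) (nat_lit 351) (nat_lit 274)) (XT.lf (nat_lit 0) (nat_lit 110496740444) (nat_lit 152) (nat_lit 1074005103824) (nat_lit 0) (nat_lit 81044088630) (nat_lit 8) (nat_lit 5) (nat_lit 10) (nat_lit 4) (nat_lit 8) (nat_lit 4) (nat_lit 396) (nat_lit 351) (nat_lit 273))))))))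
noncomputable def xc68 : XT := (XT.nd (nat_lit 1638) (nat_lit 0) (nat_lit 0) (XT.nd (nat_lit 780) (nat_lit 76) (nat_lit 0) (XT.nd (nat_lit 390) (nat_lit 228) (nat_lit 0) (XT.nd (nat_lit 156) (nat_lit 152) (nat_lit 0) (XT.nd (nat_lit 78) (nat_lit 76) (nat_lit 0) (XT.lf (nat_lit 0) (nat_lit 519899757767) (nat_lit 152) (nat_lit 413250602059) (nat_lit 0) (nat_lit 490447035144) (nat_lit 8) (nat_lit 5) (nat_lit 10) (nat_lit 4) (nat_lit 8) (nat_lit 4) (nat_lit 397) (nat_lit 351) (nat_lit 272)) (XT.lf (nat_lit 0) (nat_lit 364865427487) (nat_lit 76) (nat_lit 634621037058) (nat_lit 76) (nat_lit 605168252860) (nat_lit 7) (nat_lit 4) (nat_lit 8) (nat_lit 5) (nat_lit 8) (nat_lit 4) (nat_lit 398) (nat_lit 351) (nat_lit 271))) (XT.nd (nat_lit 78) (nat_lit 152) (nat_lit 0) (XT.lf (nat_lit 0) (nat_lit 1284720681270) (nat_lit 76) (nat_lit 278320208829) (nat_lit 76) (nat_lit 248867371089) (nat_lit 7) (nat_lit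 4) (nat_lit 8) (nat_lit 5) (nat_lit 8) (nat_lit 4) (nat_lit 399) (nat_lit 351) (nat_lit 270)) (XT.nd (nat_lit 78) (nat_lit 0) (nat_lit 0) (XT.lf (nat_lit 0) (nat_lit 163582382153) (nat_lit 152) (nat_lit 1749186607343) (nat_lit 0) (nat_lit 136311192987) (nat_lit 5) (nat_lit 5) (nat_lit 7) (nat_lit 4) (nat_lit 5) (nat_lit 4) (nat_lit 400) (nat_lit 351) (nat_lit 269)) (XT.lf (nat_lit 0) (nat_lit 647026283547) (nat_lit 152) (nat_lit 1052620431671) (nat_lit 0) (nat_lit 619755056895) (nat_lit 5) (nat_lit 5) (nat_lit 7) (nat_lit 4) (nat_lit 5) (nat_lit 4) (nat_lit 401) (nat_lit 351) (nat_lit 268))))) (XT.nd (nat_lit 156) (nat_lit 152) (nat_lit 0) (XT.nd (nat_lit 78) (nat_lit 76) (nat_lit 0) (XT.lf (nat_lit 0) (nat_lit 1202985580332) (nat_lit 152) (nat_lit 251571793961) (nat_lit 0) (nat_lit 1175714321082) (nat_lit 5) (nat_lit 5) (nat_lit 7) (nat_lit 4) (nat_lit 5) (nat_lit 4) (nat_lit 402) (nat_lit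 351) (nat_lit 267)) (XT.lf (nat_lit 0) (nat_lit 704893630770) (nat_lit 76) (nat_lit 1154396815010) (nat_lit 76) (nat_lit 1127125527415) (nat_lit 4) (nat_lit 4) (nat_lit 5) (nat_lit 5) (nat_lit 5) (nat_lit 4) (nat_lit 403) (nat_lit 351) (nat_lit 266))) (XT.nd (nat_lit 78) (nat_lit 152) (nat_lit 0) (XT.lf (nat_lit 0) (nat_lit 1820061331289) (nat_lit 76) (nat_lit 801303005012) (nat_lit 76) (nat_lit 774031692769) (nat_lit 4) (nat_lit 4) (nat_lit 5) (nat_lit 5) (nat_lit 5) (nat_lit 4) (nat_lit 404) (nat_lit 351) (nat_lit 265)) (XT.nd (nat_lit 78) (nat_lit 152) (nat_lit 0) (XT.lf (nat_lit 0) (nat_lit 3102502481237) (nat_lit 76) (nat_lit 395246005818) (nat_lit 76) (nat_lit 367974672141) (nat_lit 4) (nat_lit 4) (nat_lit 5) (nat_lit 5) (nat_lit 5) (nat_lit 4) (nat_lit 405) (nat_lit 351) (nat_lit 264)) (XT.lf (nat_lit 0) (nat_lit 100197077022) (nat_lit 152) (nat_lit 4230773350155) (nat_lit 0) (nat_lit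 74945824879) (nat_lit 2) (nat_lit 5) (nat_lit 4) (nat_lit 4) (nat_lit 2) (nat_lit 4) (nat_lit 406) (nat_lit 351) (nat_lit 263)))))) (XT.nd (nat_lit 390) (nat_lit 76) (nat_lit 0) (XT.nd (nat_lit 156) (nat_lit 0) (nat_lit 0) (XT.nd (nat_lit 78) (nat_lit 0) (nat_lit 0) (XT.lf (nat_lit 0) (nat_lit 651154206173) (nat_lit 152) (nat_lit 3746568714992) (nat_lit 0) (nat_lit 625902939024) (nat_lit 2) (nat_lit 5) (nat_lit 4) (nat_lit 4) (nat_lit 2) (nat_lit 4) (nat_lit 407) (nat_lit 351) (nat_lit 262)) (XT.lf (nat_lit 0) (nat_lit 1284754305064) (nat_lit 152) (nat_lit 3189734627582) (nat_lit 0) (nat_lit 1259503024866) (nat_lit 2) (nat_lit 5) (nat_lit 4) (nat_lit 4) (nat_lit 2) (nat_lit 4) (nat_lit 408) (nat_lit 351) (nat_lit 261))) (XT.nd (nat_lit 78) (nat_lit 0) (nat_lit 0) (XT.lf (nat_lit 0) (nat_lit 2013393897370) (nat_lit 152) (nat_lit 2549376507955) (nat_lit 0) (nat_lit 1988142605825) (nat_lit 2)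 (nat_lit 5) (nat_lit 4) (nat_lit 4) (nat_lit 2) (nat_lit 4) (nat_lit 409) (nat_lit 351) (nat_lit 260)) (XT.nd (nat_lit 78) (nat_lit 0) (nat_lit 0) (XT.lf (nat_lit 0) (nat_lit 2851328975113) (nat_lit 152) (nat_lit 1812965610291) (nat_lit 0) (nat_lit 2826077673701) (nat_lit 2) (nat_lit 5) (nat_lit 4) (nat_lit 4) (nat_lit 2) (nat_lit 4) (nat_lit 410) (nat_lit 351) (nat_lit 259)) (XT.lf (nat_lit 0) (nat_lit 3814953920249) (nat_lit 152) (nat_lit 966093895288) (nat_lit 0) (nat_lit 3789702610258) (nat_lit 2) (nat_lit 5) (nat_lit 4) (nat_lit 4) (nat_lit 2) (nat_lit 4) (nat_lit 411) (nat_lit 351) (nat_lit 258))))) (XT.nd (nat_lit 234) (nat_lit 0) (nat_lit 0) (XT.nd (nat_lit 78) (nat_lit 0) (nat_lit 0) (XT.lf (nat_lit 0) (nat_lit 8219014659) (nat_lit 76) (nat_lit 4915100917155) (nat_lit 76) (nat_lit 4889849599703) (nat_lit 1) (nat_lit 4) (nat_lit 2) (nat_lit 5) (nat_lit 2) (nat_lit 4) (nat_lit 412)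 (nat_lit 351) (nat_lit 257)) (XT.nd (nat_lit 78) (nat_lit 0) (nat_lit 0) (XT.lf (nat_lit 0) (nat_lit 1187181921881) (nat_lit 76) (nat_lit 5038885393757) (nat_lit 76) (nat_lit 5013634069818) (nat_lit 1) (nat_lit 4) (nat_lit 2) (nat_lit 5) (nat_lit 2) (nat_lit 4) (nat_lit 413) (nat_lit 351) (nat_lit 256)) (XT.lf (nat_lit 0) (nat_lit 2542988699494) (nat_lit 76) (nat_lit 5181237834700) (nat_lit 76) (nat_lit 5155986505119) (nat_lit 1) (nat_lit 4) (nat_lit 2) (nat_lit 5) (nat_lit 2) (nat_lit 4) (nat_lit 414) (nat_lit 351) (nat_lit 255)))) (XT.nd (nat_lit 78) (nat_lit 0) (nat_lit 0) (XT.lf (nat_lit 0) (nat_lit 4102166001841) (nat_lit 76) (nat_lit 5344943396438) (nat_lit 76) (nat_lit 5319692061951) (nat_lit 1) (nat_lit 4) (nat_lit 2) (nat_lit 5) (nat_lit 2) (nat_lit 4) (nat_lit 415) (nat_lit 351) (nat_lit 254)) (XT.nd (nat_lit 78) (nat_lit 0) (nat_lit 0) (XT.lf (nat_lit 0) (nat_lit 5895219471794)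 (nat_lit 76) (nat_lit 5533205013873) (nat_lit 76) (nat_lit 5507953675121) (nat_lit 1) (nat_lit 4) (nat_lit 2) (nat_lit 5) (nat_lit 2) (nat_lit 4) (nat_lit 416) (nat_lit 351) (nat_lit 253)) (XT.lf (nat_lit 0) (nat_lit 7957230590288) (nat_lit 76) (nat_lit 5749706066478) (nat_lit 76) (nat_lit 5724454724017) (nat_lit 1) (nat_lit 4) (nat_lit 2) (nat_lit 5) (nat_lit 2) (nat_lit 4) (nat_lit 417) (nat_lit 351) (nat_lit 252))))))) (XT.nd (nat_lit 48126) (nat_lit 0) (nat_lit 4484) (XT.nd (nat_lit 390) (nat_lit 0) (nat_lit 0) (XT.nd (nat_lit 156) (nat_lit 0) (nat_lit 0) (XT.nd (nat_lit 78) (nat_lit 0) (nat_lit 0) (XT.lf (nat_lit 0) (nat_lit 10328543053119) (nat_lit 76) (nat_lit 5998682444413) (nat_lit 76) (nat_lit 5973431098726) (nat_lit 1) (nat_lit 4) (nat_lit 2) (nat_lit 5) (nat_lit 2) (nat_lit 4) (nat_lit 418) (nat_lit 351) (nat_lit 251)) (XT.lf (nat_lit 0) (nat_lit 13055552104125) (nat_lit 76) (nat_lit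 6285005424636) (nat_lit 76) (nat_lit 6259754076144) (nat_lit 1) (nat_lit 4) (nat_lit 2) (nat_lit 5) (nat_lit 2) (nat_lit 4) (nat_lit 419) (nat_lit 351) (nat_lit 250))) (XT.nd (nat_lit 78) (nat_lit 0) (nat_lit 0) (XT.lf (nat_lit 0) (nat_lit 16191612268216) (nat_lit 76) (nat_lit 6614276978500) (nat_lit 76) (nat_lit 6589025627569) (nat_lit 1) (nat_lit 4) (nat_lit 2) (nat_lit 5) (nat_lit 2) (nat_lit 4) (nat_lit 420) (nat_lit 351) (nat_lit 249)) (XT.nd (nat_lit 78) (nat_lit 0) (nat_lit 0) (XT.lf (nat_lit 0) (nat_lit 19798081244256) (nat_lit 76) (nat_lit 6992939375537) (nat_lit 76) (nat_lit 6967688022486) (nat_lit 1) (nat_lit 4) (nat_lit 2) (nat_lit 5) (nat_lit 2) (nat_lit 4) (nat_lit 421) (nat_lit 351) (nat_lit 248)) (XT.lf (nat_lit 0) (nat_lit 23945520381776) (nat_lit 76) (nat_lit 7428401227864) (nat_lit 76) (nat_lit 7403149872968) (nat_lit 1) (nat_lit 4) (nat_lit 2) (nat_lit 5) (nat_lit 2) (nat_lit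 4) (nat_lit 422) (nat_lit 351) (nat_lit 247))))) (XT.nd (nat_lit 156) (nat_lit 0) (nat_lit 0) (XT.nd (nat_lit 78) (nat_lit 0) (nat_lit 0) (XT.lf (nat_lit 0) (nat_lit 28715075229119) (nat_lit 76) (nat_lit 7929182441285) (nat_lit 76) (nat_lit 7903931084787) (nat_lit 1) (nat_lit 4) (nat_lit 2) (nat_lit 5) (nat_lit 2) (nat_lit 4) (nat_lit 423) (nat_lit 351) (nat_lit 246)) (XT.lf (nat_lit 0) (nat_lit 34200063163732) (nat_lit 76) (nat_lit 8505080909109) (nat_lit 76) (nat_lit 8479829551215) (nat_lit 1) (nat_lit 4) (nat_lit 2) (nat_lit 5) (nat_lit 2) (nat_lit 4) (nat_lit 424) (nat_lit 351) (nat_lit 245))) (XT.nd (nat_lit 47424) (nat_lit 0) (nat_lit 6992) (XT.lf (nat_lit 0) (nat_lit 40507799166946) (nat_lit 76) (nat_lit 9167364210052) (nat_lit 76) (nat_lit 9142112850946) (nat_lit 1) (nat_lit 4) (nat_lit 2) (nat_lit 5) (nat_lit 2) (nat_lit 4) (nat_lit 425) (nat_lit 351) (nat_lit 244)) (XT.nd (nat_lit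 78) (nat_lit 0) (nat_lit 0) (XT.lf (nat_lit 0) (nat_lit 10143229500) (nat_lit 532) (nat_lit 381538221) (nat_lit 532) (nat_lit 381538221) (nat_lit 93) (nat_lit 3) (nat_lit 100) (nat_lit 3) (nat_lit 100) (nat_lit 5) (nat_lit 352) (nat_lit 352) (nat_lit 316)) (XT.lf (nat_lit 76) (nat_lit 20631530884) (nat_lit 0) (nat_lit 1908477584) (nat_lit 532) (nat_lit 849952641) (nat_lit 94) (nat_lit 5) (nat_lit 93) (nat_lit 3) (nat_lit 100) (nat_lit 5) (nat_lit 353) (nat_lit 352) (nat_lit 315)))))) (XT.nd (nat_lit 390) (nat_lit 1444) (nat_lit 0) (XT.nd (nat_lit 156) (nat_lit 608) (nat_lit 0) (XT.nd (nat_lit 78) (nat_lit 0) (nat_lit 76) (XT.lf (nat_lit 0) (nat_lit 915760950) (nat_lit 532) (nat_lit 4552350079) (nat_lit 608) (nat_lit 19657188785) (nat_lit 87) (nat_lit 5) (nat_lit 94) (nat_lit 5) (nat_lit 95) (nat_lit 5) (nat_lit 354) (nat_lit 352) (nat_lit 314)) (XT.lf (nat_lit 0) (nat_lit 3940415820) (nat_lit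 532) (nat_lit 6078475881) (nat_lit 608) (nat_lit 17016733124) (nat_lit 88) (nat_lit 5) (nat_lit 95) (nat_lit 5) (nat_lit 96) (nat_lit 5) (nat_lit 355) (nat_lit 352) (nat_lit 313))) (XT.nd (nat_lit 78) (nat_lit 760) (nat_lit 0) (XT.lf (nat_lit 0) (nat_lit 8546559256) (nat_lit 532) (nat_lit 7229108974) (nat_lit 76) (nat_lit 13366611056) (nat_lit 89) (nat_lit 5) (nat_lit 96) (nat_lit 5) (nat_lit 90) (nat_lit 5) (nat_lit 356) (nat_lit 352) (nat_lit 312)) (XT.nd (nat_lit 78) (nat_lit 228) (nat_lit 0) (XT.lf (nat_lit 0) (nat_lit 15060378472) (nat_lit 608) (nat_lit 7898520323) (nat_lit 76) (nat_lit 8508696190) (nat_lit 82) (nat_lit 5) (nat_lit 90) (nat_lit 5) (nat_lit 83) (nat_lit 5) (nat_lit 357) (nat_lit 352) (nat_lit 311)) (XT.lf (nat_lit 0) (nat_lit 23861749141) (nat_lit 304) (nat_lit 7959713657) (nat_lit 76) (nat_lit 2215409921) (nat_lit 79) (nat_lit 5) (nat_lit 83) (nat_lit 5) (nat_lit 80)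 (nat_lit 5) (nat_lit 358) (nat_lit 352) (nat_lit 310))))) (XT.nd (nat_lit 234) (nat_lit 684) (nat_lit 0) (XT.nd (nat_lit 78) (nat_lit 532) (nat_lit 0) (XT.lf (nat_lit 0) (nat_lit 29459714816) (nat_lit 228) (nat_lit 6079355646) (nat_lit 304) (nat_lit 1328014626) (nat_lit 76) (nat_lit 5) (nat_lit 79) (nat_lit 5) (nat_lit 80) (nat_lit 5) (nat_lit 359) (nat_lit 352) (nat_lit 309)) (XT.nd (nat_lit 78) (nat_lit 228) (nat_lit 0) (XT.lf (nat_lit 0) (nat_lit 10044424993) (nat_lit 304) (nat_lit 6276429293) (nat_lit 76) (nat_lit 23652694264) (nat_lit 72) (nat_lit 5) (nat_lit 76) (nat_lit 5) (nat_lit 73) (nat_lit 5) (nat_lit 360) (nat_lit 352) (nat_lit 308)) (XT.lf (nat_lit 0) (nat_lit 24736445720) (nat_lit 304) (nat_lit 4170460451) (nat_lit 76) (nat_lit 14500929780) (nat_lit 69) (nat_lit 5) (nat_lit 73) (nat_lit 5) (nat_lit 70) (nat_lit 5) (nat_lit 361) (nat_lit 352) (nat_lit 307)))) (XT.nd (nat_lit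 78) (nat_lit 532) (nat_lit 0) (XT.lf (nat_lit 0) (nat_lit 43445022226) (nat_lit 228) (nat_lit 833408454) (nat_lit 76) (nat_lit 2933817139) (nat_lit 67) (nat_lit 5) (nat_lit 70) (nat_lit 5) (nat_lit 68) (nat_lit 5) (nat_lit 362) (nat_lit 352) (nat_lit 306)) (XT.nd (nat_lit 78) (nat_lit 152) (nat_lit 0) (XT.lf (nat_lit 0) (nat_lit 3503357540) (nat_lit 152) (nat_lit 11576020690) (nat_lit 228) (nat_lit 36292154520) (nat_lit 62) (nat_lit 5) (nat_lit 64) (nat_lit 5) (nat_lit 65) (nat_lit 5) (nat_lit 363) (nat_lit 352) (nat_lit 305)) (XT.lf (nat_lit 0) (nat_lit 9385642304) (nat_lit 152) (nat_lit 29448739236) (nat_lit 228) (nat_lit 17128144322) (nat_lit 60) (nat_lit 5) (nat_lit 62) (nat_lit 5) (nat_lit 63) (nat_lit 5) (nat_lit 364) (nat_lit 352) (nat_lit 304))))))))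
noncomputable def xc69 : XT := (XT.nd (nat_lit 1638) (nat_lit 1444) (nat_lit 0) (XT.nd (nat_lit 780) (nat_lit 1368) (nat_lit 0) (XT.nd (nat_lit 390) (nat_lit 760) (nat_lit 0) (XT.nd (nat_lit 156) (nat_lit 380) (nat_lit 0) (XT.nd (nat_lit 78) (nat_lit 152) (nat_lit 0) (XT.lf (nat_lit 0) (nat_lit 7071638786) (nat_lit 152) (nat_lit 43947570133) (nat_lit 76) (nat_lit 10020967132) (nat_lit 58) (nat_lit 5) (nat_lit 60) (nat_lit 5) (nat_lit 59) (nat_lit 5) (nat_lit 365) (nat_lit 352) (nat_lit 303)) (XT.lf (nat_lit 0) (nat_lit 26333800036) (nat_lit 152) (nat_lit 10407957911) (nat_lit 228) (nat_lit 29873761971) (nat_lit 56) (nat_lit 5) (nat_lit 58) (nat_lit 5) (nat_lit 59) (nat_lit 5) (nat_lit 366) (nat_lit 352) (nat_lit 302))) (XT.nd (nat_lit 78) (nat_lit 228) (nat_lit 0) (XT.lf (nat_lit 0) (nat_lit 1107485505) (nat_lit 152) (nat_lit 34947856359) (nat_lit 76) (nat_lit 36722871918) (nat_lit 54) (nat_lit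 5) (nat_lit 56) (nat_lit 5) (nat_lit 55) (nat_lit 5) (nat_lit 367) (nat_lit 352) (nat_lit 301)) (XT.nd (nat_lit 78) (nat_lit 76) (nat_lit 0) (XT.lf (nat_lit 0) (nat_lit 38078543686) (nat_lit 228) (nat_lit 28166748855) (nat_lit 76) (nat_lit 13309025681) (nat_lit 52) (nat_lit 5) (nat_lit 55) (nat_lit 5) (nat_lit 53) (nat_lit 4) (nat_lit 368) (nat_lit 352) (nat_lit 300)) (XT.lf (nat_lit 0) (nat_lit 67877212185) (nat_lit 76) (nat_lit 16381014189) (nat_lit 152) (nat_lit 2795575161) (nat_lit 51) (nat_lit 5) (nat_lit 52) (nat_lit 5) (nat_lit 53) (nat_lit 4) (nat_lit 369) (nat_lit 352) (nat_lit 299))))) (XT.nd (nat_lit 156) (nat_lit 380) (nat_lit 0) (XT.nd (nat_lit 78) (nat_lit 152) (nat_lit 0) (XT.lf (nat_lit 0) (nat_lit 43631352928) (nat_lit 228) (nat_lit 8680491567) (nat_lit 76) (nat_lit 42963755299) (nat_lit 48) (nat_lit 5) (nat_lit 51) (nat_lit 5) (nat_lit 49) (nat_lit 4) (nat_lit 370) (nat_lit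 352) (nat_lit 298)) (XT.lf (nat_lit 0) (nat_lit 5241022588) (nat_lit 76) (nat_lit 95619078563) (nat_lit 76) (nat_lit 3544493168) (nat_lit 46) (nat_lit 4) (nat_lit 47) (nat_lit 5) (nat_lit 47) (nat_lit 4) (nat_lit 371) (nat_lit 352) (nat_lit 297))) (XT.nd (nat_lit 78) (nat_lit 228) (nat_lit 0) (XT.lf (nat_lit 0) (nat_lit 21313074958) (nat_lit 76) (nat_lit 33202873545) (nat_lit 152) (nat_lit 59860545281) (nat_lit 44) (nat_lit 5) (nat_lit 45) (nat_lit 5) (nat_lit 46) (nat_lit 4) (nat_lit 372) (nat_lit 352) (nat_lit 296)) (XT.nd (nat_lit 78) (nat_lit 76) (nat_lit 0) (XT.lf (nat_lit 0) (nat_lit 481683217) (nat_lit 152) (nat_lit 84261887274) (nat_lit 76) (nat_lit 40702024339) (nat_lit 42) (nat_lit 5) (nat_lit 44) (nat_lit 5) (nat_lit 43) (nat_lit 4) (nat_lit 373) (nat_lit 352) (nat_lit 295)) (XT.lf (nat_lit 0) (nat_lit 63776008568) (nat_lit 76) (nat_lit 7879595490) (nat_lit 152) (nat_lit 65969089984)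 (nat_lit 41) (nat_lit 5) (nat_lit 42) (nat_lit 5) (nat_lit 43) (nat_lit 4) (nat_lit 374) (nat_lit 352) (nat_lit 294)))))) (XT.nd (nat_lit 390) (nat_lit 684) (nat_lit 0) (XT.nd (nat_lit 156) (nat_lit 456) (nat_lit 0) (XT.nd (nat_lit 78) (nat_lit 76) (nat_lit 0) (XT.lf (nat_lit 0) (nat_lit 8567789644) (nat_lit 152) (nat_lit 61133630841) (nat_lit 76) (nat_lit 81382700175) (nat_lit 39) (nat_lit 5) (nat_lit 41) (nat_lit 5) (nat_lit 40) (nat_lit 4) (nat_lit 375) (nat_lit 352) (nat_lit 293)) (XT.lf (nat_lit 0) (nat_lit 96389815683) (nat_lit 152) (nat_lit 46273537702) (nat_lit 0) (nat_lit 23281171728) (nat_lit 38) (nat_lit 5) (nat_lit 40) (nat_lit 4) (nat_lit 38) (nat_lit 4) (nat_lit 376) (nat_lit 352) (nat_lit 292))) (XT.nd (nat_lit 78) (nat_lit 304) (nat_lit 0) (XT.lf (nat_lit 0) (nat_lit 21281067651) (nat_lit 152) (nat_lit 28846198899) (nat_lit 76) (nat_lit 132267286922) (nat_lit 36) (nat_lit 5)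 (nat_lit 38) (nat_lit 5) (nat_lit 37) (nat_lit 4) (nat_lit 377) (nat_lit 352) (nat_lit 291)) (XT.nd (nat_lit 78) (nat_lit 228) (nat_lit 0) (XT.lf (nat_lit 0) (nat_lit 129308992017) (nat_lit 152) (nat_lit 9631712305) (nat_lit 0) (nat_lit 61612036932) (nat_lit 35) (nat_lit 5) (nat_lit 37) (nat_lit 4) (nat_lit 35) (nat_lit 4) (nat_lit 378) (nat_lit 352) (nat_lit 290)) (XT.lf (nat_lit 0) (nat_lit 13215514851) (nat_lit 76) (nat_lit 25685443411) (nat_lit 152) (nat_lit 181799877749) (nat_lit 32) (nat_lit 5) (nat_lit 33) (nat_lit 5) (nat_lit 34) (nat_lit 4) (nat_lit 379) (nat_lit 352) (nat_lit 289))))) (XT.nd (nat_lit 234) (nat_lit 380) (nat_lit 0) (XT.nd (nat_lit 78) (nat_lit 228) (nat_lit 0) (XT.lf (nat_lit 0) (nat_lit 37330220322) (nat_lit 76) (nat_lit 134134320469) (nat_lit 76) (nat_lit 71449317783) (nat_lit 31) (nat_lit 4) (nat_lit 32) (nat_lit 5) (nat_lit 32) (nat_lit 4) (nat_lit 380) (nat_lit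 352) (nat_lit 288)) (XT.nd (nat_lit 78) (nat_lit 76) (nat_lit 0) (XT.lf (nat_lit 0) (nat_lit 61213236182) (nat_lit 152) (nat_lit 203285650776) (nat_lit 0) (nat_lit 3170579548) (nat_lit 29) (nat_lit 5) (nat_lit 31) (nat_lit 4) (nat_lit 29) (nat_lit 4) (nat_lit 381) (nat_lit 352) (nat_lit 287)) (XT.lf (nat_lit 0) (nat_lit 90302034231) (nat_lit 76) (nat_lit 131380208656) (nat_lit 76) (nat_lit 73336693345) (nat_lit 28) (nat_lit 4) (nat_lit 29) (nat_lit 5) (nat_lit 29) (nat_lit 4) (nat_lit 382) (nat_lit 352) (nat_lit 286)))) (XT.nd (nat_lit 78) (nat_lit 228) (nat_lit 0) (XT.lf (nat_lit 0) (nat_lit 85471473021) (nat_lit 152) (nat_lit 208342314348) (nat_lit 0) (nat_lit 31726785996) (nat_lit 26) (nat_lit 5) (nat_lit 28) (nat_lit 4) (nat_lit 26) (nat_lit 4) (nat_lit 383) (nat_lit 352) (nat_lit 285)) (XT.nd (nat_lit 78) (nat_lit 152) (nat_lit 0) (XT.lf (nat_lit 0) (nat_lit 140854440786) (nat_lit 76)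 (nat_lit 136159250686) (nat_lit 76) (nat_lit 82413962472) (nat_lit 25) (nat_lit 4) (nat_lit 26) (nat_lit 5) (nat_lit 26) (nat_lit 4) (nat_lit 384) (nat_lit 352) (nat_lit 284)) (XT.lf (nat_lit 0) (nat_lit 105486021162) (nat_lit 152) (nat_lit 236076656575) (nat_lit 0) (nat_lit 55721381359) (nat_lit 23) (nat_lit 5) (nat_lit 25) (nat_lit 4) (nat_lit 23) (nat_lit 4) (nat_lit 385) (nat_lit 352) (nat_lit 283))))))) (XT.nd (nat_lit 780) (nat_lit 532) (nat_lit 0) (XT.nd (nat_lit 390) (nat_lit 380) (nat_lit 0) (XT.nd (nat_lit 156) (nat_lit 304) (nat_lit 0) (XT.nd (nat_lit 78) (nat_lit 152) (nat_lit 0) (XT.lf (nat_lit 0) (nat_lit 173333847390) (nat_lit 76) (nat_lit 157955516766) (nat_lit 76) (nat_lit 108190456050) (nat_lit 22) (nat_lit 4) (nat_lit 23) (nat_lit 5) (nat_lit 23) (nat_lit 4) (nat_lit 386) (nat_lit 352) (nat_lit 282)) (XT.lf (nat_lit 0) (nat_lit 110754877453) (nat_lit 152) (nat_lit 311340437226)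 (nat_lit 0) (nat_lit 64675778633) (nat_lit 20) (nat_lit 5) (nat_lit 22) (nat_lit 4) (nat_lit 20) (nat_lit 4) (nat_lit 387) (nat_lit 352) (nat_lit 281))) (XT.nd (nat_lit 78) (nat_lit 228) (nat_lit 0) (XT.lf (nat_lit 0) (nat_lit 159220236216) (nat_lit 76) (nat_lit 213242143633) (nat_lit 76) (nat_lit 167162750118) (nat_lit 19) (nat_lit 4) (nat_lit 20) (nat_lit 5) (nat_lit 20) (nat_lit 4) (nat_lit 388) (nat_lit 352) (nat_lit 280)) (XT.nd (nat_lit 78) (nat_lit 76) (nat_lit 0) (XT.lf (nat_lit 0) (nat_lit 82650538607) (nat_lit 152) (nat_lit 476569289430) (nat_lit 0) (nat_lit 39984196227) (nat_lit 17) (nat_lit 5) (nat_lit 19) (nat_lit 4) (nat_lit 17) (nat_lit 4) (nat_lit 389) (nat_lit 352) (nat_lit 279)) (XT.lf (nat_lit 0) (nat_lit 48967367752) (nat_lit 76) (nat_lit 329787128229) (nat_lit 76) (nat_lit 287120579523) (nat_lit 16) (nat_lit 4) (nat_lit 17) (nat_lit 5) (nat_lit 17) (nat_lit 4) (nat_lit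 390) (nat_lit 352) (nat_lit 278))))) (XT.nd (nat_lit 156) (nat_lit 228) (nat_lit 0) (XT.nd (nat_lit 78) (nat_lit 152) (nat_lit 0) (XT.lf (nat_lit 0) (nat_lit 682188453994) (nat_lit 76) (nat_lit 50957647116) (nat_lit 76) (nat_lit 8290918997) (nat_lit 16) (nat_lit 4) (nat_lit 17) (nat_lit 5) (nat_lit 17) (nat_lit 4) (nat_lit 391) (nat_lit 352) (nat_lit 277)) (XT.lf (nat_lit 0) (nat_lit 318339502166) (nat_lit 152) (nat_lit 228831480218) (nat_lit 0) (nat_lit 278833127971) (nat_lit 14) (nat_lit 5) (nat_lit 16) (nat_lit 4) (nat_lit 14) (nat_lit 4) (nat_lit 392) (nat_lit 352) (nat_lit 276))) (XT.nd (nat_lit 78) (nat_lit 152) (nat_lit 0) (XT.lf (nat_lit 0) (nat_lit 453525623144) (nat_lit 76) (nat_lit 254046033077) (nat_lit 76) (nat_lit 214539533269) (nat_lit 13) (nat_lit 4) (nat_lit 14) (nat_lit 5) (nat_lit 14) (nat_lit 4) (nat_lit 393) (nat_lit 352) (nat_lit 275)) (XT.nd (nat_lit 78) (nat_lit 0)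 (nat_lit 0) (XT.lf (nat_lit 0) (nat_lit 131140963065) (nat_lit 152) (nat_lit 805519417390) (nat_lit 0) (nat_lit 94560769512) (nat_lit 11) (nat_lit 5) (nat_lit 13) (nat_lit 4) (nat_lit 11) (nat_lit 4) (nat_lit 394) (nat_lit 352) (nat_lit 274)) (XT.lf (nat_lit 0) (nat_lit 537352547671) (nat_lit 152) (nat_lit 116416422381) (nat_lit 0) (nat_lit 500772266172) (nat_lit 11) (nat_lit 5) (nat_lit 13) (nat_lit 4) (nat_lit 11) (nat_lit 4) (nat_lit 395) (nat_lit 352) (nat_lit 273)))))) (XT.nd (nat_lit 390) (nat_lit 228) (nat_lit 0) (XT.nd (nat_lit 156) (nat_lit 76) (nat_lit 0) (XT.nd (nat_lit 78) (nat_lit 152) (nat_lit 0) (XT.lf (nat_lit 0) (nat_lit 711647891306) (nat_lit 76) (nat_lit 309961365569) (nat_lit 76) (nat_lit 273381007596) (nat_lit 10) (nat_lit 4) (nat_lit 11) (nat_lit 5) (nat_lit 11) (nat_lit 4) (nat_lit 396) (nat_lit 352) (nat_lit 272)) (XT.lf (nat_lit 0) (nat_lit 127090476236) (nat_lit 152)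 (nat_lit 1235066095752) (nat_lit 0) (nat_lit 93219712834) (nat_lit 8) (nat_lit 5) (nat_lit 10) (nat_lit 4) (nat_lit 8) (nat_lit 4) (nat_lit 397) (nat_lit 352) (nat_lit 271))) (XT.nd (nat_lit 78) (nat_lit 76) (nat_lit 0) (XT.lf (nat_lit 0) (nat_lit 597901438584) (nat_lit 152) (nat_lit 475203606588) (nat_lit 0) (nat_lit 564030621641) (nat_lit 8) (nat_lit 5) (nat_lit 10) (nat_lit 4) (nat_lit 8) (nat_lit 4) (nat_lit 398) (nat_lit 352) (nat_lit 270)) (XT.nd (nat_lit 78) (nat_lit 0) (nat_lit 0) (XT.lf (nat_lit 0) (nat_lit 419626899875) (nat_lit 76) (nat_lit 729797832387) (nat_lit 76) (nat_lit 695926968885) (nat_lit 7) (nat_lit 4) (nat_lit 8) (nat_lit 5) (nat_lit 8) (nat_lit 4) (nat_lit 399) (nat_lit 352) (nat_lit 269)) (XT.lf (nat_lit 0) (nat_lit 1477456312386) (nat_lit 76) (nat_lit 320054013867) (nat_lit 76) (nat_lit 286183109879) (nat_lit 7) (nat_lit 4) (nat_lit 8) (nat_lit 5) (nat_lit 8) (nat_lit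 4) (nat_lit 400) (nat_lit 352) (nat_lit 268))))) (XT.nd (nat_lit 234) (nat_lit 76) (nat_lit 0) (XT.nd (nat_lit 78) (nat_lit 0) (nat_lit 0) (XT.lf (nat_lit 0) (nat_lit 188132550786) (nat_lit 152) (nat_lit 2011538064095) (nat_lit 0) (nat_lit 156770570051) (nat_lit 5) (nat_lit 5) (nat_lit 7) (nat_lit 4) (nat_lit 5) (nat_lit 4) (nat_lit 401) (nat_lit 352) (nat_lit 267)) (XT.nd (nat_lit 78) (nat_lit 0) (nat_lit 0) (XT.lf (nat_lit 0) (nat_lit 744091366349) (nat_lit 152) (nat_lit 1210490423075) (nat_lit 0) (nat_lit 712729357269) (nat_lit 5) (nat_lit 5) (nat_lit 7) (nat_lit 4) (nat_lit 5) (nat_lit 4) (nat_lit 402) (nat_lit 352) (nat_lit 266)) (XT.lf (nat_lit 0) (nat_lit 1383443104572) (nat_lit 152) (nat_lit 289287499276) (nat_lit 0) (nat_lit 1352081070844) (nat_lit 5) (nat_lit 5) (nat_lit 7) (nat_lit 4) (nat_lit 5) (nat_lit 4) (nat_lit 403) (nat_lit 352) (nat_lit 265)))) (XT.nd (nat_lit 78) (nat_lit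 0) (nat_lit 0) (XT.lf (nat_lit 0) (nat_lit 810646040867) (nat_lit 76) (nat_lit 1327546837116) (nat_lit 76) (nat_lit 1296184781954) (nat_lit 4) (nat_lit 4) (nat_lit 5) (nat_lit 5) (nat_lit 5) (nat_lit 4) (nat_lit 404) (nat_lit 352) (nat_lit 264)) (XT.nd (nat_lit 78) (nat_lit 0) (nat_lit 0) (XT.lf (nat_lit 0) (nat_lit 2093086500966) (nat_lit 76) (nat_lit 921490194768) (nat_lit 76) (nat_lit 890128120969) (nat_lit 4) (nat_lit 4) (nat_lit 5) (nat_lit 5) (nat_lit 5) (nat_lit 4) (nat_lit 405) (nat_lit 352) (nat_lit 263)) (XT.lf (nat_lit 0) (nat_lit 3567891740364) (nat_lit 76) (nat_lit 454525723215) (nat_lit 76) (nat_lit 423163633210) (nat_lit 4) (nat_lit 4) (nat_lit 5) (nat_lit 5) (nat_lit 5) (nat_lit 4) (nat_lit 406) (nat_lit 352) (nat_lit 262))))))))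
noncomputable def xc70 : XT := (XT.nd (nat_lit 49062) (nat_lit 0) (nat_lit 3040) (XT.nd (nat_lit 780) (nat_lit 0) (nat_lit 0) (XT.nd (nat_lit 390) (nat_lit 76) (nat_lit 0) (XT.nd (nat_lit 156) (nat_lit 0) (nat_lit 0) (XT.nd (nat_lit 78) (nat_lit 0) (nat_lit 0) (XT.lf (nat_lit 0) (nat_lit 115233095082) (nat_lit 152) (nat_lit 4865375968448) (nat_lit 0) (nat_lit 86194109806) (nat_lit 2) (nat_lit 5) (nat_lit 4) (nat_lit 4) (nat_lit 2) (nat_lit 4) (nat_lit 407) (nat_lit 352) (nat_lit 261)) (XT.lf (nat_lit 0) (nat_lit 748832951453) (nat_lit 152) (nat_lit 4308542383780) (nat_lit 0) (nat_lit 719793954830) (nat_lit 2) (nat_lit 5) (nat_lit 4) (nat_lit 4) (nat_lit 2) (nat_lit 4) (nat_lit 408) (nat_lit 352) (nat_lit 260))) (XT.nd (nat_lit 78) (nat_lit 0) (nat_lit 0) (XT.lf (nat_lit 0) (nat_lit 1477472332871) (nat_lit 152) (nat_lit 3668184701319) (nat_lit 0) (nat_lit 1448433326381) (nat_lit 2) (nat_lit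 5) (nat_lit 4) (nat_lit 4) (nat_lit 2) (nat_lit 4) (nat_lit 409) (nat_lit 352) (nat_lit 259)) (XT.nd (nat_lit 78) (nat_lit 0) (nat_lit 0) (XT.lf (nat_lit 0) (nat_lit 2315407227233) (nat_lit 152) (nat_lit 2931774183799) (nat_lit 0) (nat_lit 2286368212164) (nat_lit 2) (nat_lit 5) (nat_lit 4) (nat_lit 4) (nat_lit 2) (nat_lit 4) (nat_lit 410) (nat_lit 352) (nat_lit 258)) (XT.lf (nat_lit 0) (nat_lit 3279032012908) (nat_lit 152) (nat_lit 2084902799357) (nat_lit 0) (nat_lit 3249992990378) (nat_lit 2) (nat_lit 5) (nat_lit 4) (nat_lit 4) (nat_lit 2) (nat_lit 4) (nat_lit 411) (nat_lit 352) (nat_lit 257))))) (XT.nd (nat_lit 156) (nat_lit 0) (nat_lit 0) (XT.nd (nat_lit 78) (nat_lit 76) (nat_lit 0) (XT.lf (nat_lit 0) (nat_lit 4387200218312) (nat_lit 152) (nat_lit 1111001325254) (nat_lit 0) (nat_lit 4358161189294) (nat_lit 2) (nat_lit 5) (nat_lit 4) (nat_lit 4) (nat_lit 2) (nat_lit 4) (nat_lit 412) (nat_lit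 352) (nat_lit 256)) (XT.lf (nat_lit 0) (nat_lit 9457957930) (nat_lit 76) (nat_lit 5652362901473) (nat_lit 76) (nat_lit 5623323866814) (nat_lit 1) (nat_lit 4) (nat_lit 2) (nat_lit 5) (nat_lit 2) (nat_lit 4) (nat_lit 413) (nat_lit 352) (nat_lit 255))) (XT.nd (nat_lit 78) (nat_lit 0) (nat_lit 0) (XT.lf (nat_lit 0) (nat_lit 1365264506748) (nat_lit 76) (nat_lit 5794715460859) (nat_lit 76) (nat_lit 5765676421295) (nat_lit 1) (nat_lit 4) (nat_lit 2) (nat_lit 5) (nat_lit 2) (nat_lit 4) (nat_lit 414) (nat_lit 352) (nat_lit 254)) (XT.nd (nat_lit 78) (nat_lit 0) (nat_lit 0) (XT.lf (nat_lit 0) (nat_lit 2924441610144) (nat_lit 76) (nat_lit 5958421125591) (nat_lit 76) (nat_lit 5929382081761) (nat_lit 1) (nat_lit 4) (nat_lit 2) (nat_lit 5) (nat_lit 2) (nat_lit 4) (nat_lit 415) (nat_lit 352) (nat_lit 253)) (XT.lf (nat_lit 0) (nat_lit 4717494907096) (nat_lit 76) (nat_lit 6146682832587) (nat_lit 76) (nat_lit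 6117643785047) (nat_lit 1) (nat_lit 4) (nat_lit 2) (nat_lit 5) (nat_lit 2) (nat_lit 4) (nat_lit 416) (nat_lit 352) (nat_lit 252)))))) (XT.nd (nat_lit 390) (nat_lit 0) (nat_lit 0) (XT.nd (nat_lit 156) (nat_lit 0) (nat_lit 0) (XT.nd (nat_lit 78) (nat_lit 0) (nat_lit 0) (XT.lf (nat_lit 0) (nat_lit 6779505875154) (nat_lit 76) (nat_lit 6363183963070) (nat_lit 76) (nat_lit 6334144912305) (nat_lit 1) (nat_lit 4) (nat_lit 2) (nat_lit 5) (nat_lit 2) (nat_lit 4) (nat_lit 417) (nat_lit 352) (nat_lit 251)) (XT.lf (nat_lit 0) (nat_lit 9150818207171) (nat_lit 76) (nat_lit 6612160408725) (nat_lit 76) (nat_lit 6583121355155) (nat_lit 1) (nat_lit 4) (nat_lit 2) (nat_lit 5) (nat_lit 2) (nat_lit 4) (nat_lit 418) (nat_lit 352) (nat_lit 250))) (XT.nd (nat_lit 78) (nat_lit 0) (nat_lit 0) (XT.lf (nat_lit 0) (nat_lit 11877827144425) (nat_lit 76) (nat_lit 6898483447835) (nat_lit 76) (nat_lit 6869444391826) (nat_lit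 1) (nat_lit 4) (nat_lit 2) (nat_lit 5) (nat_lit 2) (nat_lit 4) (nat_lit 419) (nat_lit 352) (nat_lit 249)) (XT.nd (nat_lit 78) (nat_lit 0) (nat_lit 0) (XT.lf (nat_lit 0) (nat_lit 15013887209603) (nat_lit 76) (nat_lit 7227755052906) (nat_lit 76) (nat_lit 7198715994776) (nat_lit 1) (nat_lit 4) (nat_lit 2) (nat_lit 5) (nat_lit 2) (nat_lit 4) (nat_lit 420) (nat_lit 352) (nat_lit 248)) (XT.lf (nat_lit 0) (nat_lit 18620356099631) (nat_lit 76) (nat_lit 7606417494470) (nat_lit 76) (nat_lit 7577378434496) (nat_lit 1) (nat_lit 4) (nat_lit 2) (nat_lit 5) (nat_lit 2) (nat_lit 4) (nat_lit 421) (nat_lit 352) (nat_lit 247))))) (XT.nd (nat_lit 234) (nat_lit 0) (nat_lit 0) (XT.nd (nat_lit 78) (nat_lit 0) (nat_lit 0) (XT.lf (nat_lit 0) (nat_lit 22767795162358) (nat_lit 76) (nat_lit 8041879385516) (nat_lit 76) (nat_lit 8012840323938) (nat_lit 1) (nat_lit 4) (nat_lit 2) (nat_lit 5) (nat_lit 2) (nat_lit 4) (nat_lit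 422) (nat_lit 352) (nat_lit 246)) (XT.nd (nat_lit 78) (nat_lit 0) (nat_lit 0) (XT.lf (nat_lit 0) (nat_lit 27537349944663) (nat_lit 76) (nat_lit 8542660632607) (nat_lit 76) (nat_lit 8513621569635) (nat_lit 1) (nat_lit 4) (nat_lit 2) (nat_lit 5) (nat_lit 2) (nat_lit 4) (nat_lit 423) (nat_lit 352) (nat_lit 245)) (XT.lf (nat_lit 0) (nat_lit 33022337822722) (nat_lit 76) (nat_lit 9118559129707) (nat_lit 76) (nat_lit 9089520065523) (nat_lit 1) (nat_lit 4) (nat_lit 2) (nat_lit 5) (nat_lit 2) (nat_lit 4) (nat_lit 424) (nat_lit 352) (nat_lit 244)))) (XT.nd (nat_lit 47502) (nat_lit 0) (nat_lit 6992) (XT.lf (nat_lit 0) (nat_lit 39330073776757) (nat_lit 76) (nat_lit 9780842456109) (nat_lit 76) (nat_lit 9751803390870) (nat_lit 1) (nat_lit 4) (nat_lit 2) (nat_lit 5) (nat_lit 2) (nat_lit 4) (nat_lit 425) (nat_lit 352) (nat_lit 243)) (XT.nd (nat_lit 78) (nat_lit 0) (nat_lit 0) (XT.lf (nat_lit 0) (nat_lit 11890823022)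 (nat_lit 532) (nat_lit 316654961) (nat_lit 532) (nat_lit 316654961) (nat_lit 93) (nat_lit 3) (nat_lit 100) (nat_lit 3) (nat_lit 100) (nat_lit 5) (nat_lit 353) (nat_lit 353) (nat_lit 314)) (XT.lf (nat_lit 76) (nat_lit 23949815822) (nat_lit 0) (nat_lit 2369803638) (nat_lit 532) (nat_lit 546894579) (nat_lit 94) (nat_lit 5) (nat_lit 93) (nat_lit 3) (nat_lit 100) (nat_lit 5) (nat_lit 354) (nat_lit 353) (nat_lit 313))))))) (XT.nd (nat_lit 780) (nat_lit 1596) (nat_lit 0) (XT.nd (nat_lit 390) (nat_lit 1292) (nat_lit 0) (XT.nd (nat_lit 156) (nat_lit 608) (nat_lit 0) (XT.nd (nat_lit 78) (nat_lit 0) (nat_lit 76) (XT.lf (nat_lit 0) (nat_lit 1410898368) (nat_lit 532) (nat_lit 4978596911) (nat_lit 608) (nat_lit 22475935406) (nat_lit 87) (nat_lit 5) (nat_lit 94) (nat_lit 5) (nat_lit 95) (nat_lit 5) (nat_lit 355) (nat_lit 353) (nat_lit 312)) (XT.lf (nat_lit 0) (nat_lit 4846265389) (nat_lit 532) (nat_lit 6728015756)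 (nat_lit 608) (nat_lit 19491467701) (nat_lit 88) (nat_lit 5) (nat_lit 95) (nat_lit 5) (nat_lit 96) (nat_lit 5) (nat_lit 356) (nat_lit 353) (nat_lit 311))) (XT.nd (nat_lit 78) (nat_lit 760) (nat_lit 0) (XT.lf (nat_lit 0) (nat_lit 10107094830) (nat_lit 532) (nat_lit 8050099241) (nat_lit 76) (nat_lit 15334111035) (nat_lit 89) (nat_lit 5) (nat_lit 96) (nat_lit 5) (nat_lit 90) (nat_lit 5) (nat_lit 357) (nat_lit 353) (nat_lit 310)) (XT.nd (nat_lit 78) (nat_lit 228) (nat_lit 0) (XT.lf (nat_lit 0) (nat_lit 17567285372) (nat_lit 608) (nat_lit 8822179872) (nat_lit 76) (nat_lit 9778413206) (nat_lit 82) (nat_lit 5) (nat_lit 90) (nat_lit 5) (nat_lit 83) (nat_lit 5) (nat_lit 358) (nat_lit 353) (nat_lit 309)) (XT.lf (nat_lit 0) (nat_lit 27662708497) (nat_lit 304) (nat_lit 8897355611) (nat_lit 76) (nat_lit 2564579610) (nat_lit 79) (nat_lit 5) (nat_lit 83) (nat_lit 5) (nat_lit 80) (nat_lit 5) (nat_lit 359)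 (nat_lit 353) (nat_lit 308))))) (XT.nd (nat_lit 156) (nat_lit 760) (nat_lit 0) (XT.nd (nat_lit 78) (nat_lit 304) (nat_lit 0) (XT.lf (nat_lit 0) (nat_lit 34113291336) (nat_lit 228) (nat_lit 6955062282) (nat_lit 304) (nat_lit 1312899427) (nat_lit 76) (nat_lit 5) (nat_lit 79) (nat_lit 5) (nat_lit 80) (nat_lit 5) (nat_lit 360) (nat_lit 353) (nat_lit 307)) (XT.lf (nat_lit 0) (nat_lit 11734544186) (nat_lit 304) (nat_lit 6979703853) (nat_lit 76) (nat_lit 27240639451) (nat_lit 72) (nat_lit 5) (nat_lit 76) (nat_lit 5) (nat_lit 73) (nat_lit 5) (nat_lit 361) (nat_lit 353) (nat_lit 306))) (XT.nd (nat_lit 78) (nat_lit 532) (nat_lit 0) (XT.lf (nat_lit 0) (nat_lit 28612963497) (nat_lit 304) (nat_lit 4566085821) (nat_lit 76) (nat_lit 16726663250) (nat_lit 69) (nat_lit 5) (nat_lit 73) (nat_lit 5) (nat_lit 70) (nat_lit 5) (nat_lit 362) (nat_lit 353) (nat_lit 305)) (XT.nd (nat_lit 78) (nat_lit 380) (nat_lit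 0) (XT.lf (nat_lit 0) (nat_lit 50112697391) (nat_lit 228) (nat_lit 737438172) (nat_lit 76) (nat_lit 3431862899) (nat_lit 67) (nat_lit 5) (nat_lit 70) (nat_lit 5) (nat_lit 68) (nat_lit 5) (nat_lit 363) (nat_lit 353) (nat_lit 304)) (XT.lf (nat_lit 0) (nat_lit 4249540873) (nat_lit 152) (nat_lit 13236698230) (nat_lit 228) (nat_lit 41579416935) (nat_lit 62) (nat_lit 5) (nat_lit 64) (nat_lit 5) (nat_lit 65) (nat_lit 5) (nat_lit 364) (nat_lit 353) (nat_lit 303)))))) (XT.nd (nat_lit 390) (nat_lit 836) (nat_lit 0) (XT.nd (nat_lit 156) (nat_lit 456) (nat_lit 0) (XT.nd (nat_lit 78) (nat_lit 152) (nat_lit 0) (XT.lf (nat_lit 0) (nat_lit 11004446050) (nat_lit 152) (nat_lit 33787796983) (nat_lit 228) (nat_lit 19554036418) (nat_lit 60) (nat_lit 5) (nat_lit 62) (nat_lit 5) (nat_lit 63) (nat_lit 5) (nat_lit 365) (nat_lit 353) (nat_lit 302)) (XT.lf (nat_lit 0) (nat_lit 8257425484) (nat_lit 152) (nat_lit 50332009883)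 (nat_lit 76) (nat_lit 11596756614) (nat_lit 58) (nat_lit 5) (nat_lit 60) (nat_lit 5) (nat_lit 59) (nat_lit 5) (nat_lit 366) (nat_lit 353) (nat_lit 301))) (XT.nd (nat_lit 78) (nat_lit 304) (nat_lit 0) (XT.lf (nat_lit 0) (nat_lit 30473985399) (nat_lit 152) (nat_lit 11892339719) (nat_lit 228) (nat_lit 34232452242) (nat_lit 56) (nat_lit 5) (nat_lit 58) (nat_lit 5) (nat_lit 59) (nat_lit 5) (nat_lit 367) (nat_lit 353) (nat_lit 300)) (XT.nd (nat_lit 78) (nat_lit 152) (nat_lit 0) (XT.lf (nat_lit 0) (nat_lit 1380802563) (nat_lit 152) (nat_lit 40003750261) (nat_lit 76) (nat_lit 42301812440) (nat_lit 54) (nat_lit 5) (nat_lit 56) (nat_lit 5) (nat_lit 55) (nat_lit 5) (nat_lit 368) (nat_lit 353) (nat_lit 299)) (XT.lf (nat_lit 0) (nat_lit 43889399080) (nat_lit 228) (nat_lit 32215215777) (nat_lit 76) (nat_lit 15374920804) (nat_lit 52) (nat_lit 5) (nat_lit 55) (nat_lit 5) (nat_lit 53) (nat_lit 4) (nat_lit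 369) (nat_lit 353) (nat_lit 298))))) (XT.nd (nat_lit 234) (nat_lit 380) (nat_lit 0) (XT.nd (nat_lit 78) (nat_lit 380) (nat_lit 0) (XT.lf (nat_lit 0) (nat_lit 78220395730) (nat_lit 76) (nat_lit 18766602292) (nat_lit 152) (nat_lit 3117666914) (nat_lit 51) (nat_lit 5) (nat_lit 52) (nat_lit 5) (nat_lit 53) (nat_lit 4) (nat_lit 370) (nat_lit 353) (nat_lit 297)) (XT.nd (nat_lit 78) (nat_lit 152) (nat_lit 0) (XT.lf (nat_lit 0) (nat_lit 50261695616) (nat_lit 228) (nat_lit 9825108281) (nat_lit 76) (nat_lit 49473281615) (nat_lit 48) (nat_lit 5) (nat_lit 51) (nat_lit 5) (nat_lit 49) (nat_lit 4) (nat_lit 371) (nat_lit 353) (nat_lit 296)) (XT.lf (nat_lit 0) (nat_lit 6183784824) (nat_lit 76) (nat_lit 109888625553) (nat_lit 76) (nat_lit 3986206894) (nat_lit 46) (nat_lit 4) (nat_lit 47) (nat_lit 5) (nat_lit 47) (nat_lit 4) (nat_lit 372) (nat_lit 353) (nat_lit 295)))) (XT.nd (nat_lit 78) (nat_lit 228) (nat_lit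 0) (XT.lf (nat_lit 0) (nat_lit 24657510413) (nat_lit 76) (nat_lit 38113690230) (nat_lit 152) (nat_lit 68755536267) (nat_lit 44) (nat_lit 5) (nat_lit 45) (nat_lit 5) (nat_lit 46) (nat_lit 4) (nat_lit 373) (nat_lit 353) (nat_lit 294)) (XT.nd (nat_lit 78) (nat_lit 76) (nat_lit 0) (XT.lf (nat_lit 0) (nat_lit 628327710) (nat_lit 152) (nat_lit 96758089017) (nat_lit 76) (nat_lit 46870064235) (nat_lit 42) (nat_lit 5) (nat_lit 44) (nat_lit 5) (nat_lit 43) (nat_lit 4) (nat_lit 374) (nat_lit 353) (nat_lit 293)) (XT.lf (nat_lit 0) (nat_lit 73473380078) (nat_lit 76) (nat_lit 8998403130) (nat_lit 152) (nat_lit 75791186351) (nat_lit 41) (nat_lit 5) (nat_lit 42) (nat_lit 5) (nat_lit 43) (nat_lit 4) (nat_lit 375) (nat_lit 353) (nat_lit 292))))))))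
noncomputable def xc71 : XT := (XT.nd (nat_lit 1638) (nat_lit 760) (nat_lit 0) (XT.nd (nat_lit 780) (nat_lit 1064) (nat_lit 0) (XT.nd (nat_lit 390) (nat_lit 532) (nat_lit 0) (XT.nd (nat_lit 156) (nat_lit 456) (nat_lit 0) (XT.nd (nat_lit 78) (nat_lit 76) (nat_lit 0) (XT.lf (nat_lit 0) (nat_lit 9917882575) (nat_lit 152) (nat_lit 70176791914) (nat_lit 76) (nat_lit 93646869099) (nat_lit 39) (nat_lit 5) (nat_lit 41) (nat_lit 5) (nat_lit 40) (nat_lit 4) (nat_lit 376) (nat_lit 353) (nat_lit 291)) (XT.lf (nat_lit 0) (nat_lit 110908905668) (nat_lit 152) (nat_lit 53095052170) (nat_lit 0) (nat_lit 26827395576) (nat_lit 38) (nat_lit 5) (nat_lit 40) (nat_lit 4) (nat_lit 38) (nat_lit 4) (nat_lit 377) (nat_lit 353) (nat_lit 290))) (XT.nd (nat_lit 78) (nat_lit 304) (nat_lit 0) (XT.lf (nat_lit 0) (nat_lit 24530008177) (nat_lit 152) (nat_lit 33060738194) (nat_lit 76) (nat_lit 152158446843) (nat_lit 36) (nat_lit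 5) (nat_lit 38) (nat_lit 5) (nat_lit 37) (nat_lit 4) (nat_lit 378) (nat_lit 353) (nat_lit 289)) (XT.nd (nat_lit 78) (nat_lit 228) (nat_lit 0) (XT.lf (nat_lit 0) (nat_lit 148758416505) (nat_lit 152) (nat_lit 10970670540) (nat_lit 0) (nat_lit 70902318604) (nat_lit 35) (nat_lit 5) (nat_lit 37) (nat_lit 4) (nat_lit 35) (nat_lit 4) (nat_lit 379) (nat_lit 353) (nat_lit 288)) (XT.lf (nat_lit 0) (nat_lit 15302542824) (nat_lit 76) (nat_lit 29485818964) (nat_lit 152) (nat_lit 209013418246) (nat_lit 32) (nat_lit 5) (nat_lit 33) (nat_lit 5) (nat_lit 34) (nat_lit 4) (nat_lit 380) (nat_lit 353) (nat_lit 287))))) (XT.nd (nat_lit 156) (nat_lit 304) (nat_lit 0) (XT.nd (nat_lit 78) (nat_lit 152) (nat_lit 0) (XT.lf (nat_lit 0) (nat_lit 43028264713) (nat_lit 76) (nat_lit 154204866392) (nat_lit 76) (nat_lit 82113893003) (nat_lit 31) (nat_lit 4) (nat_lit 32) (nat_lit 5) (nat_lit 32) (nat_lit 4) (nat_lit 381) (nat_lit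 353) (nat_lit 286)) (XT.lf (nat_lit 0) (nat_lit 70442207145) (nat_lit 152) (nat_lit 233683360895) (nat_lit 0) (nat_lit 3690559183) (nat_lit 29) (nat_lit 5) (nat_lit 31) (nat_lit 4) (nat_lit 29) (nat_lit 4) (nat_lit 382) (nat_lit 353) (nat_lit 285))) (XT.nd (nat_lit 78) (nat_lit 228) (nat_lit 0) (XT.lf (nat_lit 0) (nat_lit 103934423948) (nat_lit 76) (nat_lit 151043106747) (nat_lit 76) (nat_lit 84290809501) (nat_lit 28) (nat_lit 4) (nat_lit 29) (nat_lit 5) (nat_lit 29) (nat_lit 4) (nat_lit 383) (nat_lit 353) (nat_lit 284)) (XT.nd (nat_lit 78) (nat_lit 76) (nat_lit 0) (XT.lf (nat_lit 0) (nat_lit 98333480878) (nat_lit 152) (nat_lit 239509599779) (nat_lit 0) (nat_lit 36525275470) (nat_lit 26) (nat_lit 5) (nat_lit 28) (nat_lit 4) (nat_lit 26) (nat_lit 4) (nat_lit 384) (nat_lit 353) (nat_lit 283)) (XT.lf (nat_lit 0) (nat_lit 162059553220) (nat_lit 76) (nat_lit 156543944190) (nat_lit 76) (nat_lit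 94735284196) (nat_lit 25) (nat_lit 4) (nat_lit 26) (nat_lit 5) (nat_lit 26) (nat_lit 4) (nat_lit 385) (nat_lit 353) (nat_lit 282)))))) (XT.nd (nat_lit 390) (nat_lit 456) (nat_lit 0) (XT.nd (nat_lit 156) (nat_lit 380) (nat_lit 0) (XT.nd (nat_lit 78) (nat_lit 76) (nat_lit 0) (XT.lf (nat_lit 0) (nat_lit 121345231042) (nat_lit 152) (nat_lit 271413907882) (nat_lit 0) (nat_lit 64114624297) (nat_lit 23) (nat_lit 5) (nat_lit 25) (nat_lit 4) (nat_lit 23) (nat_lit 4) (nat_lit 386) (nat_lit 353) (nat_lit 281)) (XT.lf (nat_lit 0) (nat_lit 199401887024) (nat_lit 76) (nat_lit 181614087304) (nat_lit 76) (nat_lit 124383162288) (nat_lit 22) (nat_lit 4) (nat_lit 23) (nat_lit 5) (nat_lit 23) (nat_lit 4) (nat_lit 387) (nat_lit 353) (nat_lit 280))) (XT.nd (nat_lit 78) (nat_lit 228) (nat_lit 0) (XT.lf (nat_lit 0) (nat_lit 127400055478) (nat_lit 152) (nat_lit 357975943989) (nat_lit 0) (nat_lit 74408201986) (nat_lit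 20) (nat_lit 5) (nat_lit 22) (nat_lit 4) (nat_lit 20) (nat_lit 4) (nat_lit 388) (nat_lit 353) (nat_lit 279)) (XT.nd (nat_lit 78) (nat_lit 152) (nat_lit 0) (XT.lf (nat_lit 0) (nat_lit 183163281241) (nat_lit 76) (nat_lit 245197678301) (nat_lit 76) (nat_lit 192205601978) (nat_lit 19) (nat_lit 4) (nat_lit 20) (nat_lit 5) (nat_lit 20) (nat_lit 4) (nat_lit 389) (nat_lit 353) (nat_lit 278)) (XT.lf (nat_lit 0) (nat_lit 95076242622) (nat_lit 152) (nat_lit 547996809452) (nat_lit 0) (nat_lit 46009325872) (nat_lit 17) (nat_lit 5) (nat_lit 19) (nat_lit 4) (nat_lit 17) (nat_lit 4) (nat_lit 390) (nat_lit 353) (nat_lit 277))))) (XT.nd (nat_lit 234) (nat_lit 228) (nat_lit 0) (XT.nd (nat_lit 78) (nat_lit 152) (nat_lit 0) (XT.lf (nat_lit 0) (nat_lit 56365447614) (nat_lit 76) (nat_lit 379227951785) (nat_lit 76) (nat_lit 330160879023) (nat_lit 16) (nat_lit 4) (nat_lit 17) (nat_lit 5) (nat_lit 17) (nat_lit 4) (nat_lit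 391) (nat_lit 353) (nat_lit 276)) (XT.nd (nat_lit 78) (nat_lit 152) (nat_lit 0) (XT.lf (nat_lit 0) (nat_lit 784562787049) (nat_lit 76) (nat_lit 58577602289) (nat_lit 76) (nat_lit 9510393865) (nat_lit 16) (nat_lit 4) (nat_lit 17) (nat_lit 5) (nat_lit 17) (nat_lit 4) (nat_lit 392) (nat_lit 353) (nat_lit 275)) (XT.lf (nat_lit 0) (nat_lit 366111964035) (nat_lit 152) (nat_lit 263111785475) (nat_lit 0) (nat_lit 320679254414) (nat_lit 14) (nat_lit 5) (nat_lit 16) (nat_lit 4) (nat_lit 14) (nat_lit 4) (nat_lit 393) (nat_lit 353) (nat_lit 274)))) (XT.nd (nat_lit 78) (nat_lit 152) (nat_lit 0) (XT.lf (nat_lit 0) (nat_lit 521595123732) (nat_lit 76) (nat_lit 292131986157) (nat_lit 76) (nat_lit 246699181554) (nat_lit 13) (nat_lit 4) (nat_lit 14) (nat_lit 5) (nat_lit 14) (nat_lit 4) (nat_lit 394) (nat_lit 353) (nat_lit 273)) (XT.nd (nat_lit 78) (nat_lit 0) (nat_lit 0) (XT.lf (nat_lit 0) (nat_lit 150831079680)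 (nat_lit 152) (nat_lit 926308133431) (nat_lit 0) (nat_lit 108763591536) (nat_lit 11) (nat_lit 5) (nat_lit 13) (nat_lit 4) (nat_lit 11) (nat_lit 4) (nat_lit 395) (nat_lit 353) (nat_lit 272)) (XT.lf (nat_lit 0) (nat_lit 617971927348) (nat_lit 152) (nat_lit 133844801767) (nat_lit 0) (nat_lit 575904372704) (nat_lit 11) (nat_lit 5) (nat_lit 13) (nat_lit 4) (nat_lit 11) (nat_lit 4) (nat_lit 396) (nat_lit 353) (nat_lit 271))))))) (XT.nd (nat_lit 780) (nat_lit 228) (nat_lit 0) (XT.nd (nat_lit 390) (nat_lit 228) (nat_lit 0) (XT.nd (nat_lit 156) (nat_lit 76) (nat_lit 0) (XT.nd (nat_lit 78) (nat_lit 152) (nat_lit 0) (XT.lf (nat_lit 0) (nat_lit 818426273935) (nat_lit 76) (nat_lit 356439467482) (nat_lit 76) (nat_lit 314371855012) (nat_lit 10) (nat_lit 4) (nat_lit 11) (nat_lit 5) (nat_lit 11) (nat_lit 4) (nat_lit 397) (nat_lit 353) (nat_lit 270)) (XT.lf (nat_lit 0) (nat_lit 146168584325) (nat_lit 152) (nat_lit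 1420295935525) (nat_lit 0) (nat_lit 107217044738) (nat_lit 8) (nat_lit 5) (nat_lit 10) (nat_lit 4) (nat_lit 8) (nat_lit 4) (nat_lit 398) (nat_lit 353) (nat_lit 269))) (XT.nd (nat_lit 78) (nat_lit 76) (nat_lit 0) (XT.lf (nat_lit 0) (nat_lit 687599294940) (nat_lit 152) (nat_lit 546457995759) (nat_lit 0) (nat_lit 648647714868) (nat_lit 8) (nat_lit 5) (nat_lit 10) (nat_lit 4) (nat_lit 8) (nat_lit 4) (nat_lit 399) (nat_lit 353) (nat_lit 268)) (XT.nd (nat_lit 78) (nat_lit 0) (nat_lit 0) (XT.lf (nat_lit 0) (nat_lit 482594873053) (nat_lit 76) (nat_lit 839255136561) (nat_lit 76) (nat_lit 800303521284) (nat_lit 7) (nat_lit 4) (nat_lit 8) (nat_lit 5) (nat_lit 8) (nat_lit 4) (nat_lit 400) (nat_lit 353) (nat_lit 267)) (XT.lf (nat_lit 0) (nat_lit 1699095575067) (nat_lit 76) (nat_lit 368051358831) (nat_lit 76) (nat_lit 329099712940) (nat_lit 7) (nat_lit 4) (nat_lit 8) (nat_lit 5) (nat_lit 8) (nat_lit 4)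 (nat_lit 401) (nat_lit 353) (nat_lit 266))))) (XT.nd (nat_lit 156) (nat_lit 76) (nat_lit 0) (XT.nd (nat_lit 78) (nat_lit 0) (nat_lit 0) (XT.lf (nat_lit 0) (nat_lit 216362120594) (nat_lit 152) (nat_lit 2313248709930) (nat_lit 0) (nat_lit 180295757159) (nat_lit 5) (nat_lit 5) (nat_lit 7) (nat_lit 4) (nat_lit 5) (nat_lit 4) (nat_lit 402) (nat_lit 353) (nat_lit 265)) (XT.lf (nat_lit 0) (nat_lit 855713494945) (nat_lit 152) (nat_lit 1392046539771) (nat_lit 0) (nat_lit 819647110077) (nat_lit 5) (nat_lit 5) (nat_lit 7) (nat_lit 4) (nat_lit 5) (nat_lit 4) (nat_lit 403) (nat_lit 353) (nat_lit 264))) (XT.nd (nat_lit 78) (nat_lit 76) (nat_lit 0) (XT.lf (nat_lit 0) (nat_lit 1590966895166) (nat_lit 152) (nat_lit 332665453067) (nat_lit 0) (nat_lit 1554900491660) (nat_lit 5) (nat_lit 5) (nat_lit 7) (nat_lit 4) (nat_lit 5) (nat_lit 4) (nat_lit 404) (nat_lit 353) (nat_lit 263)) (XT.nd (nat_lit 78) (nat_lit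 0) (nat_lit 0) (XT.lf (nat_lit 0) (nat_lit 932256833939) (nat_lit 76) (nat_lit 1526671679208) (nat_lit 76) (nat_lit 1490605259495) (nat_lit 4) (nat_lit 4) (nat_lit 5) (nat_lit 5) (nat_lit 5) (nat_lit 4) (nat_lit 405) (nat_lit 353) (nat_lit 262)) (XT.lf (nat_lit 0) (nat_lit 2407061551713) (nat_lit 76) (nat_lit 1059707477482) (nat_lit 76) (nat_lit 1023641043677) (nat_lit 4) (nat_lit 4) (nat_lit 5) (nat_lit 5) (nat_lit 5) (nat_lit 4) (nat_lit 406) (nat_lit 353) (nat_lit 261)))))) (XT.nd (nat_lit 390) (nat_lit 76) (nat_lit 0) (XT.nd (nat_lit 156) (nat_lit 0) (nat_lit 0) (XT.nd (nat_lit 78) (nat_lit 152) (nat_lit 0) (XT.lf (nat_lit 0) (nat_lit 4103086001942) (nat_lit 76) (nat_lit 522699149958) (nat_lit 76) (nat_lit 486632703898) (nat_lit 4) (nat_lit 4) (nat_lit 5) (nat_lit 5) (nat_lit 5) (nat_lit 4) (nat_lit 407) (nat_lit 353) (nat_lit 260)) (XT.lf (nat_lit 0) (nat_lit 132522941391) (nat_lit 152)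 (nat_lit 5595172243314) (nat_lit 0) (nat_lit 99128074061) (nat_lit 2) (nat_lit 5) (nat_lit 4) (nat_lit 4) (nat_lit 2) (nat_lit 4) (nat_lit 408) (nat_lit 353) (nat_lit 259))) (XT.nd (nat_lit 78) (nat_lit 0) (nat_lit 0) (XT.lf (nat_lit 0) (nat_lit 861162139429) (nat_lit 152) (nat_lit 4954814940998) (nat_lit 0) (nat_lit 827767263519) (nat_lit 2) (nat_lit 5) (nat_lit 4) (nat_lit 4) (nat_lit 2) (nat_lit 4) (nat_lit 409) (nat_lit 353) (nat_lit 258)) (XT.nd (nat_lit 78) (nat_lit 0) (nat_lit 0) (XT.lf (nat_lit 0) (nat_lit 1699096874330) (nat_lit 152) (nat_lit 4218404754039) (nat_lit 0) (nat_lit 1665701990960) (nat_lit 2) (nat_lit 5) (nat_lit 4) (nat_lit 4) (nat_lit 2) (nat_lit 4) (nat_lit 410) (nat_lit 353) (nat_lit 257)) (XT.lf (nat_lit 0) (nat_lit 2662721521343) (nat_lit 152) (nat_lit 3371533657042) (nat_lit 0) (nat_lit 2629326631485) (nat_lit 2) (nat_lit 5) (nat_lit 4) (nat_lit 4) (nat_lit 2) (nat_lit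 4) (nat_lit 411) (nat_lit 353) (nat_lit 256))))) (XT.nd (nat_lit 234) (nat_lit 0) (nat_lit 0) (XT.nd (nat_lit 78) (nat_lit 76) (nat_lit 0) (XT.lf (nat_lit 0) (nat_lit 3770889606171) (nat_lit 152) (nat_lit 2397632432889) (nat_lit 0) (nat_lit 3737494710671) (nat_lit 2) (nat_lit 5) (nat_lit 4) (nat_lit 4) (nat_lit 2) (nat_lit 4) (nat_lit 412) (nat_lit 353) (nat_lit 255)) (XT.nd (nat_lit 78) (nat_lit 76) (nat_lit 0) (XT.lf (nat_lit 0) (nat_lit 5045282678299) (nat_lit 152) (nat_lit 1277646492414) (nat_lit 0) (nat_lit 5011887777894) (nat_lit 2) (nat_lit 5) (nat_lit 4) (nat_lit 4) (nat_lit 2) (nat_lit 4) (nat_lit 413) (nat_lit 353) (nat_lit 254)) (XT.lf (nat_lit 0) (nat_lit 10881257345) (nat_lit 76) (nat_lit 6500214952380) (nat_lit 76) (nat_lit 6466820047709) (nat_lit 1) (nat_lit 4) (nat_lit 2) (nat_lit 5) (nat_lit 2) (nat_lit 4) (nat_lit 414) (nat_lit 353) (nat_lit 253)))) (XT.nd (nat_lit 78) (nat_lit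 0) (nat_lit 0) (XT.lf (nat_lit 0) (nat_lit 1570058187739) (nat_lit 76) (nat_lit 6663920706672) (nat_lit 76) (nat_lit 6630525798292) (nat_lit 1) (nat_lit 4) (nat_lit 2) (nat_lit 5) (nat_lit 2) (nat_lit 4) (nat_lit 415) (nat_lit 353) (nat_lit 252)) (XT.nd (nat_lit 78) (nat_lit 0) (nat_lit 0) (XT.lf (nat_lit 0) (nat_lit 3363111334255) (nat_lit 76) (nat_lit 6852182491546) (nat_lit 76) (nat_lit 6818787579940) (nat_lit 1) (nat_lit 4) (nat_lit 2) (nat_lit 5) (nat_lit 2) (nat_lit 4) (nat_lit 416) (nat_lit 353) (nat_lit 251)) (XT.lf (nat_lit 0) (nat_lit 5425122171500) (nat_lit 76) (nat_lit 7068683689749) (nat_lit 76) (nat_lit 7035288775339) (nat_lit 1) (nat_lit 4) (nat_lit 2) (nat_lit 5) (nat_lit 2) (nat_lit 4) (nat_lit 417) (nat_lit 353) (nat_lit 250))))))))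
noncomputable def xc72 : XT := (XT.nd (nat_lit 49140) (nat_lit 0) (nat_lit 1672) (XT.nd (nat_lit 48282) (nat_lit 0) (nat_lit 4484) (XT.nd (nat_lit 390) (nat_lit 0) (nat_lit 0) (XT.nd (nat_lit 156) (nat_lit 0) (nat_lit 0) (XT.nd (nat_lit 78) (nat_lit 0) (nat_lit 0) (XT.lf (nat_lit 0) (nat_lit 7796434389765) (nat_lit 76) (nat_lit 7317660194291) (nat_lit 76) (nat_lit 7284265277442) (nat_lit 1) (nat_lit 4) (nat_lit 2) (nat_lit 5) (nat_lit 2) (nat_lit 4) (nat_lit 418) (nat_lit 353) (nat_lit 249)) (XT.lf (nat_lit 0) (nat_lit 10523443228106) (nat_lit 76) (nat_lit 7603983284608) (nat_lit 76) (nat_lit 7570588365638) (nat_lit 1) (nat_lit 4) (nat_lit 2) (nat_lit 5) (nat_lit 2) (nat_lit 4) (nat_lit 419) (nat_lit 353) (nat_lit 248))) (XT.nd (nat_lit 78) (nat_lit 0) (nat_lit 0) (XT.lf (nat_lit 0) (nat_lit 13659503207271) (nat_lit 76) (nat_lit 7933254934206) (nat_lit 76) (nat_lit 7899860013392) (nat_lit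 1) (nat_lit 4) (nat_lit 2) (nat_lit 5) (nat_lit 2) (nat_lit 4) (nat_lit 420) (nat_lit 353) (nat_lit 247)) (XT.nd (nat_lit 78) (nat_lit 0) (nat_lit 0) (XT.lf (nat_lit 0) (nat_lit 17265972022506) (nat_lit 76) (nat_lit 8311917414489) (nat_lit 76) (nat_lit 8278522492072) (nat_lit 1) (nat_lit 4) (nat_lit 2) (nat_lit 5) (nat_lit 2) (nat_lit 4) (nat_lit 421) (nat_lit 353) (nat_lit 246)) (XT.lf (nat_lit 0) (nat_lit 21413411020195) (nat_lit 76) (nat_lit 8747379339204) (nat_lit 76) (nat_lit 8713984415392) (nat_lit 1) (nat_lit 4) (nat_lit 2) (nat_lit 5) (nat_lit 2) (nat_lit 4) (nat_lit 422) (nat_lit 353) (nat_lit 245))))) (XT.nd (nat_lit 156) (nat_lit 0) (nat_lit 0) (XT.nd (nat_lit 78) (nat_lit 0) (nat_lit 0) (XT.lf (nat_lit 0) (nat_lit 26182965745946) (nat_lit 76) (nat_lit 9248160615572) (nat_lit 76) (nat_lit 9214765690548) (nat_lit 1) (nat_lit 4) (nat_lit 2) (nat_lit 5) (nat_lit 2) (nat_lit 4) (nat_lit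 423) (nat_lit 353) (nat_lit 244)) (XT.lf (nat_lit 0) (nat_lit 31667953574827) (nat_lit 76) (nat_lit 9824059138132) (nat_lit 76) (nat_lit 9790664212053) (nat_lit 1) (nat_lit 4) (nat_lit 2) (nat_lit 5) (nat_lit 2) (nat_lit 4) (nat_lit 424) (nat_lit 353) (nat_lit 243))) (XT.nd (nat_lit 47580) (nat_lit 0) (nat_lit 6992) (XT.lf (nat_lit 0) (nat_lit 37975689486099) (nat_lit 76) (nat_lit 10486342486671) (nat_lit 76) (nat_lit 10452947559675) (nat_lit 1) (nat_lit 4) (nat_lit 2) (nat_lit 5) (nat_lit 2) (nat_lit 4) (nat_lit 425) (nat_lit 353) (nat_lit 242)) (XT.nd (nat_lit 78) (nat_lit 0) (nat_lit 0) (XT.lf (nat_lit 0) (nat_lit 13845417437) (nat_lit 532) (nat_lit 271817481) (nat_lit 532) (nat_lit 271817481) (nat_lit 93) (nat_lit 3) (nat_lit 100) (nat_lit 3) (nat_lit 100) (nat_lit 5) (nat_lit 354) (nat_lit 354) (nat_lit 312)) (XT.lf (nat_lit 76) (nat_lit 27711328123) (nat_lit 0) (nat_lit 2857640472) (nat_lit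 532) (nat_lit 303370385) (nat_lit 94) (nat_lit 5) (nat_lit 93) (nat_lit 3) (nat_lit 100) (nat_lit 5) (nat_lit 355) (nat_lit 354) (nat_lit 311)))))) (XT.nd (nat_lit 390) (nat_lit 1444) (nat_lit 0) (XT.nd (nat_lit 156) (nat_lit 608) (nat_lit 0) (XT.nd (nat_lit 78) (nat_lit 0) (nat_lit 76) (XT.lf (nat_lit 0) (nat_lit 1893061120) (nat_lit 532) (nat_lit 5531355688) (nat_lit 608) (nat_lit 25749154303) (nat_lit 87) (nat_lit 5) (nat_lit 94) (nat_lit 5) (nat_lit 95) (nat_lit 5) (nat_lit 356) (nat_lit 354) (nat_lit 310)) (XT.lf (nat_lit 0) (nat_lit 5811229542) (nat_lit 532) (nat_lit 7538933425) (nat_lit 608) (nat_lit 22356378486) (nat_lit 88) (nat_lit 5) (nat_lit 95) (nat_lit 5) (nat_lit 96) (nat_lit 5) (nat_lit 357) (nat_lit 354) (nat_lit 309))) (XT.nd (nat_lit 78) (nat_lit 760) (nat_lit 0) (XT.lf (nat_lit 0) (nat_lit 11833784147) (nat_lit 532) (nat_lit 9058463973) (nat_lit 76) (nat_lit 17605878594)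 (nat_lit 89) (nat_lit 5) (nat_lit 96) (nat_lit 5) (nat_lit 90) (nat_lit 5) (nat_lit 358) (nat_lit 354) (nat_lit 308)) (XT.nd (nat_lit 78) (nat_lit 228) (nat_lit 0) (XT.lf (nat_lit 0) (nat_lit 20389788483) (nat_lit 608) (nat_lit 9948063753) (nat_lit 76) (nat_lit 11240194157) (nat_lit 82) (nat_lit 5) (nat_lit 90) (nat_lit 5) (nat_lit 83) (nat_lit 5) (nat_lit 359) (nat_lit 354) (nat_lit 307)) (XT.lf (nat_lit 0) (nat_lit 31979749543) (nat_lit 304) (nat_lit 10038147917) (nat_lit 76) (nat_lit 2962013774) (nat_lit 79) (nat_lit 5) (nat_lit 83) (nat_lit 5) (nat_lit 80) (nat_lit 5) (nat_lit 360) (nat_lit 354) (nat_lit 306))))) (XT.nd (nat_lit 234) (nat_lit 684) (nat_lit 0) (XT.nd (nat_lit 78) (nat_lit 532) (nat_lit 0) (XT.lf (nat_lit 0) (nat_lit 39407690934) (nat_lit 228) (nat_lit 7970951710) (nat_lit 304) (nat_lit 1347779601) (nat_lit 76) (nat_lit 5) (nat_lit 79) (nat_lit 5) (nat_lit 80) (nat_lit 5)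 (nat_lit 361) (nat_lit 354) (nat_lit 305)) (XT.nd (nat_lit 78) (nat_lit 228) (nat_lit 0) (XT.lf (nat_lit 0) (nat_lit 13633444487) (nat_lit 304) (nat_lit 7846553695) (nat_lit 76) (nat_lit 31357012153) (nat_lit 72) (nat_lit 5) (nat_lit 76) (nat_lit 5) (nat_lit 73) (nat_lit 5) (nat_lit 362) (nat_lit 354) (nat_lit 304)) (XT.lf (nat_lit 0) (nat_lit 33030466372) (nat_lit 304) (nat_lit 5077128223) (nat_lit 76) (nat_lit 19273919073) (nat_lit 69) (nat_lit 5) (nat_lit 73) (nat_lit 5) (nat_lit 70) (nat_lit 5) (nat_lit 363) (nat_lit 354) (nat_lit 303)))) (XT.nd (nat_lit 78) (nat_lit 532) (nat_lit 0) (XT.lf (nat_lit 0) (nat_lit 57743720586) (nat_lit 228) (nat_lit 680960097) (nat_lit 76) (nat_lit 3990478393) (nat_lit 67) (nat_lit 5) (nat_lit 70) (nat_lit 5) (nat_lit 68) (nat_lit 5) (nat_lit 364) (nat_lit 354) (nat_lit 302)) (XT.nd (nat_lit 78) (nat_lit 152) (nat_lit 0) (XT.lf (nat_lit 0) (nat_lit 5053837562)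 (nat_lit 152) (nat_lit 15164943560) (nat_lit 228) (nat_lit 47697947046) (nat_lit 62) (nat_lit 5) (nat_lit 64) (nat_lit 5) (nat_lit 65) (nat_lit 5) (nat_lit 365) (nat_lit 354) (nat_lit 301)) (XT.lf (nat_lit 0) (nat_lit 12814627059) (nat_lit 152) (nat_lit 38796795915) (nat_lit 228) (nat_lit 22378764147) (nat_lit 60) (nat_lit 5) (nat_lit 62) (nat_lit 5) (nat_lit 63) (nat_lit 5) (nat_lit 366) (nat_lit 354) (nat_lit 300))))))) (XT.nd (nat_lit 780) (nat_lit 1368) (nat_lit 0) (XT.nd (nat_lit 390) (nat_lit 760) (nat_lit 0) (XT.nd (nat_lit 156) (nat_lit 380) (nat_lit 0) (XT.nd (nat_lit 78) (nat_lit 152) (nat_lit 0) (XT.lf (nat_lit 0) (nat_lit 9590588177) (nat_lit 152) (nat_lit 57724763524) (nat_lit 76) (nat_lit 13391199718) (nat_lit 58) (nat_lit 5) (nat_lit 60) (nat_lit 5) (nat_lit 59) (nat_lit 5) (nat_lit 367) (nat_lit 354) (nat_lit 299)) (XT.lf (nat_lit 0) (nat_lit 35188837732) (nat_lit 152) (nat_lit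 13618109862) (nat_lit 228) (nat_lit 39274787735) (nat_lit 56) (nat_lit 5) (nat_lit 58) (nat_lit 5) (nat_lit 59) (nat_lit 5) (nat_lit 368) (nat_lit 354) (nat_lit 298))) (XT.nd (nat_lit 78) (nat_lit 228) (nat_lit 0) (XT.lf (nat_lit 0) (nat_lit 1668977188) (nat_lit 152) (nat_lit 45863454916) (nat_lit 76) (nat_lit 48700399796) (nat_lit 54) (nat_lit 5) (nat_lit 56) (nat_lit 5) (nat_lit 55) (nat_lit 5) (nat_lit 369) (nat_lit 354) (nat_lit 297)) (XT.nd (nat_lit 78) (nat_lit 76) (nat_lit 0) (XT.lf (nat_lit 0) (nat_lit 50547722999) (nat_lit 228) (nat_lit 36914004453) (nat_lit 76) (nat_lit 17733742116) (nat_lit 52) (nat_lit 5) (nat_lit 55) (nat_lit 5) (nat_lit 53) (nat_lit 4) (nat_lit 370) (nat_lit 354) (nat_lit 296)) (XT.lf (nat_lit 0) (nat_lit 90075649204) (nat_lit 76) (nat_lit 21527479951) (nat_lit 152) (nat_lit 3511786122) (nat_lit 51) (nat_lit 5) (nat_lit 52) (nat_lit 5) (nat_lit 53) (nat_lit 4)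 (nat_lit 371) (nat_lit 354) (nat_lit 295))))) (XT.nd (nat_lit 156) (nat_lit 380) (nat_lit 0) (XT.nd (nat_lit 78) (nat_lit 152) (nat_lit 0) (XT.lf (nat_lit 0) (nat_lit 57865705912) (nat_lit 228) (nat_lit 11179814393) (nat_lit 76) (nat_lit 56943395234) (nat_lit 48) (nat_lit 5) (nat_lit 51) (nat_lit 5) (nat_lit 49) (nat_lit 4) (nat_lit 372) (nat_lit 354) (nat_lit 294)) (XT.lf (nat_lit 0) (nat_lit 7229771337) (nat_lit 76) (nat_lit 126316482869) (nat_lit 76) (nat_lit 4516115055) (nat_lit 46) (nat_lit 4) (nat_lit 47) (nat_lit 5) (nat_lit 47) (nat_lit 4) (nat_lit 373) (nat_lit 354) (nat_lit 293))) (XT.nd (nat_lit 78) (nat_lit 228) (nat_lit 0) (XT.lf (nat_lit 0) (nat_lit 28467648667) (nat_lit 76) (nat_lit 43778105318) (nat_lit 152) (nat_lit 79005281977) (nat_lit 44) (nat_lit 5) (nat_lit 45) (nat_lit 5) (nat_lit 46) (nat_lit 4) (nat_lit 374) (nat_lit 354) (nat_lit 292)) (XT.nd (nat_lit 78) (nat_lit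 76) (nat_lit 0) (XT.lf (nat_lit 0) (nat_lit 778827913) (nat_lit 152) (nat_lit 111163612315) (nat_lit 76) (nat_lit 53948011484) (nat_lit 42) (nat_lit 5) (nat_lit 44) (nat_lit 5) (nat_lit 43) (nat_lit 4) (nat_lit 375) (nat_lit 354) (nat_lit 291)) (XT.lf (nat_lit 0) (nat_lit 84593419395) (nat_lit 76) (nat_lit 10300426978) (nat_lit 152) (nat_lit 87104463827) (nat_lit 41) (nat_lit 5) (nat_lit 42) (nat_lit 5) (nat_lit 43) (nat_lit 4) (nat_lit 376) (nat_lit 354) (nat_lit 290)))))) (XT.nd (nat_lit 390) (nat_lit 684) (nat_lit 0) (XT.nd (nat_lit 156) (nat_lit 456) (nat_lit 0) (XT.nd (nat_lit 78) (nat_lit 76) (nat_lit 0) (XT.lf (nat_lit 0) (nat_lit 11454657199) (nat_lit 152) (nat_lit 80607368506) (nat_lit 76) (nat_lit 107736821126) (nat_lit 39) (nat_lit 5) (nat_lit 41) (nat_lit 5) (nat_lit 40) (nat_lit 4) (nat_lit 377) (nat_lit 354) (nat_lit 289)) (XT.lf (nat_lit 0) (nat_lit 127591077158) (nat_lit 152)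 (nat_lit 60968938588) (nat_lit 0) (nat_lit 30892373033) (nat_lit 38) (nat_lit 5) (nat_lit 40) (nat_lit 4) (nat_lit 38) (nat_lit 4) (nat_lit 378) (nat_lit 354) (nat_lit 288))) (XT.nd (nat_lit 78) (nat_lit 304) (nat_lit 0) (XT.lf (nat_lit 0) (nat_lit 28252443527) (nat_lit 152) (nat_lit 37934865528) (nat_lit 76) (nat_lit 175020827770) (nat_lit 36) (nat_lit 5) (nat_lit 38) (nat_lit 5) (nat_lit 37) (nat_lit 4) (nat_lit 379) (nat_lit 354) (nat_lit 287)) (XT.nd (nat_lit 78) (nat_lit 228) (nat_lit 0) (XT.lf (nat_lit 0) (nat_lit 171112311825) (nat_lit 152) (nat_lit 12536272172) (nat_lit 0) (nat_lit 81574321314) (nat_lit 35) (nat_lit 5) (nat_lit 37) (nat_lit 4) (nat_lit 35) (nat_lit 4) (nat_lit 380) (nat_lit 354) (nat_lit 286)) (XT.lf (nat_lit 0) (nat_lit 17677093054) (nat_lit 76) (nat_lit 33869038911) (nat_lit 152) (nat_lit 240322753353) (nat_lit 32) (nat_lit 5) (nat_lit 33) (nat_lit 5) (nat_lit 34)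 (nat_lit 4) (nat_lit 381) (nat_lit 354) (nat_lit 285))))) (XT.nd (nat_lit 234) (nat_lit 380) (nat_lit 0) (XT.nd (nat_lit 78) (nat_lit 228) (nat_lit 0) (XT.lf (nat_lit 0) (nat_lit 49556993147) (nat_lit 76) (nat_lit 177298090001) (nat_lit 76) (nat_lit 94391035595) (nat_lit 31) (nat_lit 4) (nat_lit 32) (nat_lit 5) (nat_lit 32) (nat_lit 4) (nat_lit 382) (nat_lit 354) (nat_lit 284)) (XT.nd (nat_lit 78) (nat_lit 76) (nat_lit 0) (XT.lf (nat_lit 0) (nat_lit 81044066033) (nat_lit 152) (nat_lit 268663927414) (nat_lit 0) (nat_lit 4277710321) (nat_lit 29) (nat_lit 5) (nat_lit 31) (nat_lit 4) (nat_lit 29) (nat_lit 4) (nat_lit 383) (nat_lit 354) (nat_lit 283)) (XT.lf (nat_lit 0) (nat_lit 119590435995) (nat_lit 76) (nat_lit 173666201714) (nat_lit 76) (nat_lit 96899355050) (nat_lit 28) (nat_lit 4) (nat_lit 29) (nat_lit 5) (nat_lit 29) (nat_lit 4) (nat_lit 384) (nat_lit 354) (nat_lit 282)))) (XT.nd (nat_lit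 78) (nat_lit 228) (nat_lit 0) (XT.lf (nat_lit 0) (nat_lit 113114721840) (nat_lit 152) (nat_lit 275372477007) (nat_lit 0) (nat_lit 42033912971) (nat_lit 26) (nat_lit 5) (nat_lit 28) (nat_lit 4) (nat_lit 26) (nat_lit 4) (nat_lit 385) (nat_lit 354) (nat_lit 281)) (XT.nd (nat_lit 78) (nat_lit 152) (nat_lit 0) (XT.lf (nat_lit 0) (nat_lit 186426668672) (nat_lit 76) (nat_lit 179995899448) (nat_lit 76) (nat_lit 108914746847) (nat_lit 25) (nat_lit 4) (nat_lit 26) (nat_lit 5) (nat_lit 26) (nat_lit 4) (nat_lit 386) (nat_lit 354) (nat_lit 280)) (XT.lf (nat_lit 0) (nat_lit 139574468784) (nat_lit 152) (nat_lit 312069852530) (nat_lit 0) (nat_lit 73758309990) (nat_lit 23) (nat_lit 5) (nat_lit 25) (nat_lit 4) (nat_lit 23) (nat_lit 4) (nat_lit 387) (nat_lit 354) (nat_lit 279))))))))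
noncomputable def xc73 : XT := (XT.nd (nat_lit 1638) (nat_lit 228) (nat_lit 0) (XT.nd (nat_lit 780) (nat_lit 532) (nat_lit 0) (XT.nd (nat_lit 390) (nat_lit 380) (nat_lit 0) (XT.nd (nat_lit 156) (nat_lit 304) (nat_lit 0) (XT.nd (nat_lit 78) (nat_lit 152) (nat_lit 0) (XT.lf (nat_lit 0) (nat_lit 229363559511) (nat_lit 76) (nat_lit 208829919131) (nat_lit 76) (nat_lit 143013519679) (nat_lit 22) (nat_lit 4) (nat_lit 23) (nat_lit 5) (nat_lit 23) (nat_lit 4) (nat_lit 388) (nat_lit 354) (nat_lit 278)) (XT.lf (nat_lit 0) (nat_lit 146534219873) (nat_lit 152) (nat_lit 411622763701) (nat_lit 0) (nat_lit 85592915503) (nat_lit 20) (nat_lit 5) (nat_lit 22) (nat_lit 4) (nat_lit 20) (nat_lit 4) (nat_lit 389) (nat_lit 354) (nat_lit 277))) (XT.nd (nat_lit 78) (nat_lit 228) (nat_lit 0) (XT.lf (nat_lit 0) (nat_lit 210683149301) (nat_lit 76) (nat_lit 281954050745) (nat_lit 76) (nat_lit 221012577882) (nat_lit 19)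 (nat_lit 4) (nat_lit 20) (nat_lit 5) (nat_lit 20) (nat_lit 4) (nat_lit 390) (nat_lit 354) (nat_lit 276)) (XT.nd (nat_lit 78) (nat_lit 76) (nat_lit 0) (XT.lf (nat_lit 0) (nat_lit 109358944214) (nat_lit 152) (nat_lit 630152570269) (nat_lit 0) (nat_lit 52931518864) (nat_lit 17) (nat_lit 5) (nat_lit 19) (nat_lit 4) (nat_lit 17) (nat_lit 4) (nat_lit 391) (nat_lit 354) (nat_lit 275)) (XT.lf (nat_lit 0) (nat_lit 64860321239) (nat_lit 76) (nat_lit 436091542905) (nat_lit 76) (nat_lit 379663999588) (nat_lit 16) (nat_lit 4) (nat_lit 17) (nat_lit 5) (nat_lit 17) (nat_lit 4) (nat_lit 392) (nat_lit 354) (nat_lit 274))))) (XT.nd (nat_lit 156) (nat_lit 228) (nat_lit 0) (XT.nd (nat_lit 78) (nat_lit 152) (nat_lit 0) (XT.lf (nat_lit 0) (nat_lit 902282036831) (nat_lit 76) (nat_lit 67346328157) (nat_lit 76) (nat_lit 10918682259) (nat_lit 16) (nat_lit 4) (nat_lit 17) (nat_lit 5) (nat_lit 17) (nat_lit 4) (nat_lit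 393) (nat_lit 354) (nat_lit 273)) (XT.lf (nat_lit 0) (nat_lit 421045043362) (nat_lit 152) (nat_lit 302544967832) (nat_lit 0) (nat_lit 368797140494) (nat_lit 14) (nat_lit 5) (nat_lit 16) (nat_lit 4) (nat_lit 14) (nat_lit 4) (nat_lit 394) (nat_lit 354) (nat_lit 272))) (XT.nd (nat_lit 78) (nat_lit 152) (nat_lit 0) (XT.lf (nat_lit 0) (nat_lit 599865134914) (nat_lit 76) (nat_lit 335935941447) (nat_lit 76) (nat_lit 283687966759) (nat_lit 13) (nat_lit 4) (nat_lit 14) (nat_lit 5) (nat_lit 14) (nat_lit 4) (nat_lit 395) (nat_lit 354) (nat_lit 271)) (XT.nd (nat_lit 78) (nat_lit 0) (nat_lit 0) (XT.lf (nat_lit 0) (nat_lit 173470087307) (nat_lit 152) (nat_lit 1065224715210) (nat_lit 0) (nat_lit 125092275141) (nat_lit 11) (nat_lit 5) (nat_lit 13) (nat_lit 4) (nat_lit 11) (nat_lit 4) (nat_lit 396) (nat_lit 354) (nat_lit 270)) (XT.lf (nat_lit 0) (nat_lit 710680190950) (nat_lit 152) (nat_lit 153895749653) (nat_lit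 0) (nat_lit 662302328500) (nat_lit 11) (nat_lit 5) (nat_lit 13) (nat_lit 4) (nat_lit 11) (nat_lit 4) (nat_lit 397) (nat_lit 354) (nat_lit 269)))))) (XT.nd (nat_lit 390) (nat_lit 228) (nat_lit 0) (XT.nd (nat_lit 156) (nat_lit 76) (nat_lit 0) (XT.nd (nat_lit 78) (nat_lit 152) (nat_lit 0) (XT.lf (nat_lit 0) (nat_lit 941213805901) (nat_lit 76) (nat_lit 409893211481) (nat_lit 76) (nat_lit 361515305306) (nat_lit 10) (nat_lit 4) (nat_lit 11) (nat_lit 5) (nat_lit 11) (nat_lit 4) (nat_lit 398) (nat_lit 354) (nat_lit 268)) (XT.lf (nat_lit 0) (nat_lit 168104863772) (nat_lit 152) (nat_lit 1633317585142) (nat_lit 0) (nat_lit 123310470998) (nat_lit 8) (nat_lit 5) (nat_lit 10) (nat_lit 4) (nat_lit 8) (nat_lit 4) (nat_lit 399) (nat_lit 354) (nat_lit 267))) (XT.nd (nat_lit 78) (nat_lit 76) (nat_lit 0) (XT.lf (nat_lit 0) (nat_lit 790748747267) (nat_lit 152) (nat_lit 628406920591) (nat_lit 0) (nat_lit 745954323880)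 (nat_lit 8) (nat_lit 5) (nat_lit 10) (nat_lit 4) (nat_lit 8) (nat_lit 4) (nat_lit 400) (nat_lit 354) (nat_lit 266)) (XT.nd (nat_lit 78) (nat_lit 0) (nat_lit 0) (XT.lf (nat_lit 0) (nat_lit 555002204727) (nat_lit 76) (nat_lit 965134053031) (nat_lit 76) (nat_lit 920339603024) (nat_lit 7) (nat_lit 4) (nat_lit 8) (nat_lit 5) (nat_lit 8) (nat_lit 4) (nat_lit 401) (nat_lit 354) (nat_lit 265)) (XT.lf (nat_lit 0) (nat_lit 1953975651081) (nat_lit 76) (nat_lit 423250928730) (nat_lit 76) (nat_lit 378456455575) (nat_lit 7) (nat_lit 4) (nat_lit 8) (nat_lit 5) (nat_lit 8) (nat_lit 4) (nat_lit 402) (nat_lit 354) (nat_lit 264))))) (XT.nd (nat_lit 234) (nat_lit 76) (nat_lit 0) (XT.nd (nat_lit 78) (nat_lit 0) (nat_lit 0) (XT.lf (nat_lit 0) (nat_lit 248823763591) (nat_lit 152) (nat_lit 2660220845320) (nat_lit 0) (nat_lit 207347380921) (nat_lit 5) (nat_lit 5) (nat_lit 7) (nat_lit 4) (nat_lit 5) (nat_lit 4) (nat_lit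 403) (nat_lit 354) (nat_lit 263)) (XT.nd (nat_lit 78) (nat_lit 0) (nat_lit 0) (XT.lf (nat_lit 0) (nat_lit 984076888673) (nat_lit 152) (nat_lit 1600840328476) (nat_lit 0) (nat_lit 942600489796) (nat_lit 5) (nat_lit 5) (nat_lit 7) (nat_lit 4) (nat_lit 5) (nat_lit 4) (nat_lit 404) (nat_lit 354) (nat_lit 262)) (XT.lf (nat_lit 0) (nat_lit 1829617468124) (nat_lit 152) (nat_lit 382553799496) (nat_lit 0) (nat_lit 1788141055155) (nat_lit 5) (nat_lit 5) (nat_lit 7) (nat_lit 4) (nat_lit 5) (nat_lit 4) (nat_lit 405) (nat_lit 354) (nat_lit 261)))) (XT.nd (nat_lit 78) (nat_lit 0) (nat_lit 0) (XT.lf (nat_lit 0) (nat_lit 1072105859553) (nat_lit 76) (nat_lit 1755666999349) (nat_lit 76) (nat_lit 1714190574126) (nat_lit 4) (nat_lit 4) (nat_lit 5) (nat_lit 5) (nat_lit 5) (nat_lit 4) (nat_lit 406) (nat_lit 354) (nat_lit 260)) (XT.nd (nat_lit 78) (nat_lit 0) (nat_lit 0) (XT.lf (nat_lit 0) (nat_lit 2768129915359)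 (nat_lit 76) (nat_lit 1218658875853) (nat_lit 76) (nat_lit 1177182439973) (nat_lit 4) (nat_lit 4) (nat_lit 5) (nat_lit 5) (nat_lit 5) (nat_lit 4) (nat_lit 407) (nat_lit 354) (nat_lit 259)) (XT.lf (nat_lit 0) (nat_lit 4718556842138) (nat_lit 76) (nat_lit 601099915277) (nat_lit 76) (nat_lit 559623470130) (nat_lit 4) (nat_lit 4) (nat_lit 5) (nat_lit 5) (nat_lit 5) (nat_lit 4) (nat_lit 408) (nat_lit 354) (nat_lit 258))))))) (XT.nd (nat_lit 780) (nat_lit 0) (nat_lit 0) (XT.nd (nat_lit 390) (nat_lit 76) (nat_lit 0) (XT.nd (nat_lit 156) (nat_lit 0) (nat_lit 0) (XT.nd (nat_lit 78) (nat_lit 0) (nat_lit 0) (XT.lf (nat_lit 0) (nat_lit 152405074129) (nat_lit 152) (nat_lit 6434440427335) (nat_lit 0) (nat_lit 114000950792) (nat_lit 2) (nat_lit 5) (nat_lit 4) (nat_lit 4) (nat_lit 2) (nat_lit 4) (nat_lit 409) (nat_lit 354) (nat_lit 257)) (XT.lf (nat_lit 0) (nat_lit 990339670368) (nat_lit 152) (nat_lit 5698030527820)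 (nat_lit 0) (nat_lit 951935540544) (nat_lit 2) (nat_lit 5) (nat_lit 4) (nat_lit 4) (nat_lit 2) (nat_lit 4) (nat_lit 410) (nat_lit 354) (nat_lit 256))) (XT.nd (nat_lit 78) (nat_lit 0) (nat_lit 0) (XT.lf (nat_lit 0) (nat_lit 1953964196806) (nat_lit 152) (nat_lit 4851159680773) (nat_lit 0) (nat_lit 1915560061340) (nat_lit 2) (nat_lit 5) (nat_lit 4) (nat_lit 4) (nat_lit 2) (nat_lit 4) (nat_lit 411) (nat_lit 354) (nat_lit 255)) (XT.nd (nat_lit 78) (nat_lit 0) (nat_lit 0) (XT.lf (nat_lit 0) (nat_lit 3062132176785) (nat_lit 152) (nat_lit 3877258673970) (nat_lit 0) (nat_lit 3023728036414) (nat_lit 2) (nat_lit 5) (nat_lit 4) (nat_lit 4) (nat_lit 2) (nat_lit 4) (nat_lit 412) (nat_lit 354) (nat_lit 254)) (XT.lf (nat_lit 0) (nat_lit 4336525157740) (nat_lit 152) (nat_lit 2757272922494) (nat_lit 0) (nat_lit 4298121013103) (nat_lit 2) (nat_lit 5) (nat_lit 4) (nat_lit 4) (nat_lit 2) (nat_lit 4) (nat_lit 413)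 (nat_lit 354) (nat_lit 253))))) (XT.nd (nat_lit 156) (nat_lit 0) (nat_lit 0) (XT.nd (nat_lit 78) (nat_lit 76) (nat_lit 0) (XT.lf (nat_lit 0) (nat_lit 5802076915386) (nat_lit 152) (nat_lit 1469289661643) (nat_lit 0) (nat_lit 5763672767039) (nat_lit 2) (nat_lit 5) (nat_lit 4) (nat_lit 4) (nat_lit 2) (nat_lit 4) (nat_lit 414) (nat_lit 354) (nat_lit 252)) (XT.lf (nat_lit 0) (nat_lit 12516928537) (nat_lit 76) (nat_lit 7475245392353) (nat_lit 76) (nat_lit 7436841240781) (nat_lit 1) (nat_lit 4) (nat_lit 2) (nat_lit 5) (nat_lit 2) (nat_lit 4) (nat_lit 415) (nat_lit 354) (nat_lit 251))) (XT.nd (nat_lit 78) (nat_lit 0) (nat_lit 0) (XT.lf (nat_lit 0) (nat_lit 1805569944239) (nat_lit 76) (nat_lit 7663507244947) (nat_lit 76) (nat_lit 7625103090571) (nat_lit 1) (nat_lit 4) (nat_lit 2) (nat_lit 5) (nat_lit 2) (nat_lit 4) (nat_lit 416) (nat_lit 354) (nat_lit 250)) (XT.nd (nat_lit 78) (nat_lit 0) (nat_lit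 0) (XT.lf (nat_lit 0) (nat_lit 3867580667732) (nat_lit 76) (nat_lit 7880008502038) (nat_lit 76) (nat_lit 7841604345223) (nat_lit 1) (nat_lit 4) (nat_lit 2) (nat_lit 5) (nat_lit 2) (nat_lit 4) (nat_lit 417) (nat_lit 354) (nat_lit 249)) (XT.lf (nat_lit 0) (nat_lit 6238892787084) (nat_lit 76) (nat_lit 8128985057786) (nat_lit 76) (nat_lit 8090580898850) (nat_lit 1) (nat_lit 4) (nat_lit 2) (nat_lit 5) (nat_lit 2) (nat_lit 4) (nat_lit 418) (nat_lit 354) (nat_lit 248)))))) (XT.nd (nat_lit 390) (nat_lit 0) (nat_lit 0) (XT.nd (nat_lit 156) (nat_lit 0) (nat_lit 0) (XT.nd (nat_lit 78) (nat_lit 0) (nat_lit 0) (XT.lf (nat_lit 0) (nat_lit 8965901539413) (nat_lit 76) (nat_lit 8415308192630) (nat_lit 76) (nat_lit 8376904031850) (nat_lit 1) (nat_lit 4) (nat_lit 2) (nat_lit 5) (nat_lit 2) (nat_lit 4) (nat_lit 419) (nat_lit 354) (nat_lit 247)) (XT.lf (nat_lit 0) (nat_lit 12101961443785) (nat_lit 76) (nat_lit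 8744579880947) (nat_lit 76) (nat_lit 8706175718563) (nat_lit 1) (nat_lit 4) (nat_lit 2) (nat_lit 5) (nat_lit 2) (nat_lit 4) (nat_lit 420) (nat_lit 354) (nat_lit 246))) (XT.nd (nat_lit 78) (nat_lit 0) (nat_lit 0) (XT.lf (nat_lit 0) (nat_lit 15708430193982) (nat_lit 76) (nat_lit 9123242394900) (nat_lit 76) (nat_lit 9084838231122) (nat_lit 1) (nat_lit 4) (nat_lit 2) (nat_lit 5) (nat_lit 2) (nat_lit 4) (nat_lit 421) (nat_lit 354) (nat_lit 245)) (XT.nd (nat_lit 78) (nat_lit 0) (nat_lit 0) (XT.lf (nat_lit 0) (nat_lit 19855869135117) (nat_lit 76) (nat_lit 9558704348892) (nat_lit 76) (nat_lit 9520300183901) (nat_lit 1) (nat_lit 4) (nat_lit 2) (nat_lit 5) (nat_lit 2) (nat_lit 4) (nat_lit 422) (nat_lit 354) (nat_lit 244)) (XT.lf (nat_lit 0) (nat_lit 24625423811690) (nat_lit 76) (nat_lit 10059485650719) (nat_lit 76) (nat_lit 10021081484673) (nat_lit 1) (nat_lit 4) (nat_lit 2) (nat_lit 5) (nat_lit 2)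 (nat_lit 4) (nat_lit 423) (nat_lit 354) (nat_lit 243))))) (XT.nd (nat_lit 47892) (nat_lit 0) (nat_lit 6536) (XT.nd (nat_lit 47736) (nat_lit 0) (nat_lit 6992) (XT.lf (nat_lit 0) (nat_lit 30110411597808) (nat_lit 76) (nat_lit 10635384195416) (nat_lit 76) (nat_lit 10596980028454) (nat_lit 1) (nat_lit 4) (nat_lit 2) (nat_lit 5) (nat_lit 2) (nat_lit 4) (nat_lit 424) (nat_lit 354) (nat_lit 242)) (XT.nd (nat_lit 78) (nat_lit 0) (nat_lit 0) (XT.lf (nat_lit 0) (nat_lit 16051508662) (nat_lit 532) (nat_lit 242771031) (nat_lit 532) (nat_lit 242771031) (nat_lit 93) (nat_lit 3) (nat_lit 100) (nat_lit 3) (nat_lit 100) (nat_lit 5) (nat_lit 355) (nat_lit 355) (nat_lit 310)) (XT.lf (nat_lit 76) (nat_lit 31995845813) (nat_lit 0) (nat_lit 3386374473) (nat_lit 532) (nat_lit 102707035) (nat_lit 94) (nat_lit 5) (nat_lit 93) (nat_lit 3) (nat_lit 100) (nat_lit 5) (nat_lit 356) (nat_lit 355) (nat_lit 309)))) (XT.nd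 (nat_lit 78) (nat_lit 0) (nat_lit 76) (XT.lf (nat_lit 0) (nat_lit 2381578320) (nat_lit 532) (nat_lit 6214343911) (nat_lit 608) (nat_lit 29537295755) (nat_lit 87) (nat_lit 5) (nat_lit 94) (nat_lit 5) (nat_lit 95) (nat_lit 5) (nat_lit 357) (nat_lit 355) (nat_lit 308)) (XT.nd (nat_lit 78) (nat_lit 0) (nat_lit 76) (XT.lf (nat_lit 0) (nat_lit 6862894574) (nat_lit 532) (nat_lit 8519841723) (nat_lit 608) (nat_lit 25665366927) (nat_lit 88) (nat_lit 5) (nat_lit 95) (nat_lit 5) (nat_lit 96) (nat_lit 5) (nat_lit 358) (nat_lit 355) (nat_lit 307)) (XT.lf (nat_lit 0) (nat_lit 13768114600) (nat_lit 532) (nat_lit 10266647441) (nat_lit 76) (nat_lit 20225324394) (nat_lit 89) (nat_lit 5) (nat_lit 96) (nat_lit 5) (nat_lit 90) (nat_lit 5) (nat_lit 359) (nat_lit 355) (nat_lit 306))))))))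
noncomputable def xc74 : XT := (XT.nd (nat_lit 1638) (nat_lit 2128) (nat_lit 0) (XT.nd (nat_lit 780) (nat_lit 1520) (nat_lit 0) (XT.nd (nat_lit 390) (nat_lit 988) (nat_lit 0) (XT.nd (nat_lit 156) (nat_lit 760) (nat_lit 0) (XT.nd (nat_lit 78) (nat_lit 228) (nat_lit 0) (XT.lf (nat_lit 0) (nat_lit 23589965872) (nat_lit 608) (nat_lit 11290977967) (nat_lit 76) (nat_lit 12922456906) (nat_lit 82) (nat_lit 5) (nat_lit 90) (nat_lit 5) (nat_lit 83) (nat_lit 5) (nat_lit 360) (nat_lit 355) (nat_lit 305)) (XT.lf (nat_lit 0) (nat_lit 36903467945) (nat_lit 304) (nat_lit 11397321118) (nat_lit 76) (nat_lit 3415954571) (nat_lit 79) (nat_lit 5) (nat_lit 83) (nat_lit 5) (nat_lit 80) (nat_lit 5) (nat_lit 361) (nat_lit 355) (nat_lit 304))) (XT.nd (nat_lit 78) (nat_lit 532) (nat_lit 0) (XT.lf (nat_lit 0) (nat_lit 45452988919) (nat_lit 228) (nat_lit 9145898879) (nat_lit 304) (nat_lit 1427409876) (nat_lit 76) (nat_lit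 5) (nat_lit 79) (nat_lit 5) (nat_lit 80) (nat_lit 5) (nat_lit 362) (nat_lit 355) (nat_lit 303)) (XT.nd (nat_lit 78) (nat_lit 228) (nat_lit 0) (XT.lf (nat_lit 0) (nat_lit 15783352405) (nat_lit 304) (nat_lit 8887350939) (nat_lit 76) (nat_lit 36083457574) (nat_lit 72) (nat_lit 5) (nat_lit 76) (nat_lit 5) (nat_lit 73) (nat_lit 5) (nat_lit 363) (nat_lit 355) (nat_lit 302)) (XT.lf (nat_lit 0) (nat_lit 38079976480) (nat_lit 304) (nat_lit 5707226401) (nat_lit 76) (nat_lit 22193934220) (nat_lit 69) (nat_lit 5) (nat_lit 73) (nat_lit 5) (nat_lit 70) (nat_lit 5) (nat_lit 364) (nat_lit 355) (nat_lit 301))))) (XT.nd (nat_lit 156) (nat_lit 456) (nat_lit 0) (XT.nd (nat_lit 78) (nat_lit 380) (nat_lit 0) (XT.lf (nat_lit 0) (nat_lit 66491568720) (nat_lit 228) (nat_lit 656757193) (nat_lit 76) (nat_lit 4622196511) (nat_lit 67) (nat_lit 5) (nat_lit 70) (nat_lit 5) (nat_lit 68) (nat_lit 5) (nat_lit 365) (nat_lit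 355) (nat_lit 300)) (XT.lf (nat_lit 0) (nat_lit 5938087532) (nat_lit 152) (nat_lit 17396388757) (nat_lit 228) (nat_lit 54763124979) (nat_lit 62) (nat_lit 5) (nat_lit 64) (nat_lit 5) (nat_lit 65) (nat_lit 5) (nat_lit 366) (nat_lit 355) (nat_lit 299))) (XT.nd (nat_lit 78) (nat_lit 304) (nat_lit 0) (XT.lf (nat_lit 0) (nat_lit 14857436696) (nat_lit 152) (nat_lit 44571573816) (nat_lit 228) (nat_lit 25653629632) (nat_lit 60) (nat_lit 5) (nat_lit 62) (nat_lit 5) (nat_lit 63) (nat_lit 5) (nat_lit 367) (nat_lit 355) (nat_lit 298)) (XT.nd (nat_lit 78) (nat_lit 152) (nat_lit 0) (XT.lf (nat_lit 0) (nat_lit 11100668932) (nat_lit 152) (nat_lit 66264727322) (nat_lit 76) (nat_lit 15441414354) (nat_lit 58) (nat_lit 5) (nat_lit 60) (nat_lit 5) (nat_lit 59) (nat_lit 5) (nat_lit 368) (nat_lit 355) (nat_lit 297)) (XT.lf (nat_lit 0) (nat_lit 40575862465) (nat_lit 152) (nat_lit 15616908900) (nat_lit 228) (nat_lit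 45096038149) (nat_lit 56) (nat_lit 5) (nat_lit 58) (nat_lit 5) (nat_lit 59) (nat_lit 5) (nat_lit 369) (nat_lit 355) (nat_lit 296)))))) (XT.nd (nat_lit 390) (nat_lit 760) (nat_lit 0) (XT.nd (nat_lit 156) (nat_lit 456) (nat_lit 0) (XT.nd (nat_lit 78) (nat_lit 152) (nat_lit 0) (XT.lf (nat_lit 0) (nat_lit 1980612417) (nat_lit 152) (nat_lit 52636464357) (nat_lit 76) (nat_lit 56045773935) (nat_lit 54) (nat_lit 5) (nat_lit 56) (nat_lit 5) (nat_lit 55) (nat_lit 5) (nat_lit 370) (nat_lit 355) (nat_lit 295)) (XT.lf (nat_lit 0) (nat_lit 58186527239) (nat_lit 228) (nat_lit 42350164713) (nat_lit 76) (nat_lit 20433563880) (nat_lit 52) (nat_lit 5) (nat_lit 55) (nat_lit 5) (nat_lit 53) (nat_lit 4) (nat_lit 371) (nat_lit 355) (nat_lit 294))) (XT.nd (nat_lit 78) (nat_lit 380) (nat_lit 0) (XT.lf (nat_lit 0) (nat_lit 103679392891) (nat_lit 76) (nat_lit 24715684980) (nat_lit 152) (nat_lit 3982954169) (nat_lit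 51) (nat_lit 5) (nat_lit 52) (nat_lit 5) (nat_lit 53) (nat_lit 4) (nat_lit 372) (nat_lit 355) (nat_lit 293)) (XT.nd (nat_lit 78) (nat_lit 152) (nat_lit 0) (XT.lf (nat_lit 0) (nat_lit 66594526603) (nat_lit 228) (nat_lit 12766759989) (nat_lit 76) (nat_lit 65522047337) (nat_lit 48) (nat_lit 5) (nat_lit 51) (nat_lit 5) (nat_lit 49) (nat_lit 4) (nat_lit 373) (nat_lit 355) (nat_lit 292)) (XT.lf (nat_lit 0) (nat_lit 8403778654) (nat_lit 76) (nat_lit 145222037328) (nat_lit 76) (nat_lit 5142097249) (nat_lit 46) (nat_lit 4) (nat_lit 47) (nat_lit 5) (nat_lit 47) (nat_lit 4) (nat_lit 374) (nat_lit 355) (nat_lit 291))))) (XT.nd (nat_lit 234) (nat_lit 380) (nat_lit 0) (XT.nd (nat_lit 78) (nat_lit 228) (nat_lit 0) (XT.lf (nat_lit 0) (nat_lit 32822114826) (nat_lit 76) (nat_lit 50305018888) (nat_lit 152) (nat_lit 90807995082) (nat_lit 44) (nat_lit 5) (nat_lit 45) (nat_lit 5) (nat_lit 46) (nat_lit 4) (nat_lit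 375) (nat_lit 355) (nat_lit 290)) (XT.nd (nat_lit 78) (nat_lit 76) (nat_lit 0) (XT.lf (nat_lit 0) (nat_lit 938185974) (nat_lit 152) (nat_lit 127756346938) (nat_lit 76) (nat_lit 62076082859) (nat_lit 42) (nat_lit 5) (nat_lit 44) (nat_lit 5) (nat_lit 43) (nat_lit 4) (nat_lit 376) (nat_lit 355) (nat_lit 289)) (XT.lf (nat_lit 0) (nat_lit 97357314955) (nat_lit 76) (nat_lit 11809395280) (nat_lit 152) (nat_lit 100128242681) (nat_lit 41) (nat_lit 5) (nat_lit 42) (nat_lit 5) (nat_lit 43) (nat_lit 4) (nat_lit 377) (nat_lit 355) (nat_lit 288)))) (XT.nd (nat_lit 78) (nat_lit 228) (nat_lit 0) (XT.lf (nat_lit 0) (nat_lit 13209976563) (nat_lit 152) (nat_lit 92625927698) (nat_lit 76) (nat_lit 123929799238) (nat_lit 39) (nat_lit 5) (nat_lit 41) (nat_lit 5) (nat_lit 40) (nat_lit 4) (nat_lit 378) (nat_lit 355) (nat_lit 287)) (XT.nd (nat_lit 78) (nat_lit 152) (nat_lit 0) (XT.lf (nat_lit 0) (nat_lit 146764397060)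 (nat_lit 152) (nat_lit 70045945608) (nat_lit 0) (nat_lit 35557131158) (nat_lit 38) (nat_lit 5) (nat_lit 40) (nat_lit 4) (nat_lit 38) (nat_lit 4) (nat_lit 379) (nat_lit 355) (nat_lit 286)) (XT.lf (nat_lit 0) (nat_lit 32522774421) (nat_lit 152) (nat_lit 43560835701) (nat_lit 76) (nat_lit 201303149591) (nat_lit 36) (nat_lit 5) (nat_lit 38) (nat_lit 5) (nat_lit 37) (nat_lit 4) (nat_lit 380) (nat_lit 355) (nat_lit 285))))))) (XT.nd (nat_lit 780) (nat_lit 912) (nat_lit 0) (XT.nd (nat_lit 390) (nat_lit 608) (nat_lit 0) (XT.nd (nat_lit 156) (nat_lit 304) (nat_lit 0) (XT.nd (nat_lit 78) (nat_lit 228) (nat_lit 0) (XT.lf (nat_lit 0) (nat_lit 196809504794) (nat_lit 152) (nat_lit 14356222300) (nat_lit 0) (nat_lit 93838185897) (nat_lit 35) (nat_lit 5) (nat_lit 37) (nat_lit 4) (nat_lit 35) (nat_lit 4) (nat_lit 381) (nat_lit 355) (nat_lit 284)) (XT.lf (nat_lit 0) (nat_lit 20388520004) (nat_lit 76) (nat_lit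 38919411459) (nat_lit 152) (nat_lit 276338895937) (nat_lit 32) (nat_lit 5) (nat_lit 33) (nat_lit 5) (nat_lit 34) (nat_lit 4) (nat_lit 382) (nat_lit 355) (nat_lit 283))) (XT.nd (nat_lit 78) (nat_lit 228) (nat_lit 0) (XT.lf (nat_lit 0) (nat_lit 57046866299) (nat_lit 76) (nat_lit 203864443313) (nat_lit 76) (nat_lit 108519489528) (nat_lit 31) (nat_lit 4) (nat_lit 32) (nat_lit 5) (nat_lit 32) (nat_lit 4) (nat_lit 383) (nat_lit 355) (nat_lit 282)) (XT.nd (nat_lit 78) (nat_lit 76) (nat_lit 0) (XT.lf (nat_lit 0) (nat_lit 93227540070) (nat_lit 152) (nat_lit 308909121353) (nat_lit 0) (nat_lit 4944748540) (nat_lit 29) (nat_lit 5) (nat_lit 31) (nat_lit 4) (nat_lit 29) (nat_lit 4) (nat_lit 384) (nat_lit 355) (nat_lit 281)) (XT.lf (nat_lit 0) (nat_lit 137578792287) (nat_lit 76) (nat_lit 199690898666) (nat_lit 76) (nat_lit 111407735906) (nat_lit 28) (nat_lit 4) (nat_lit 29) (nat_lit 5) (nat_lit 29) (nat_lit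 4) (nat_lit 385) (nat_lit 355) (nat_lit 280))))) (XT.nd (nat_lit 156) (nat_lit 380) (nat_lit 0) (XT.nd (nat_lit 78) (nat_lit 76) (nat_lit 0) (XT.lf (nat_lit 0) (nat_lit 130105536037) (nat_lit 152) (nat_lit 316630285996) (nat_lit 0) (nat_lit 48361567918) (nat_lit 26) (nat_lit 5) (nat_lit 28) (nat_lit 4) (nat_lit 26) (nat_lit 4) (nat_lit 386) (nat_lit 355) (nat_lit 279)) (XT.lf (nat_lit 0) (nat_lit 214434663279) (nat_lit 76) (nat_lit 206972875011) (nat_lit 76) (nat_lit 125228646981) (nat_lit 25) (nat_lit 4) (nat_lit 26) (nat_lit 5) (nat_lit 26) (nat_lit 4) (nat_lit 387) (nat_lit 355) (nat_lit 278))) (XT.nd (nat_lit 78) (nat_lit 228) (nat_lit 0) (XT.lf (nat_lit 0) (nat_lit 160531397578) (nat_lit 152) (nat_lit 358837879343) (nat_lit 0) (nat_lit 84842088282) (nat_lit 23) (nat_lit 5) (nat_lit 25) (nat_lit 4) (nat_lit 23) (nat_lit 4) (nat_lit 388) (nat_lit 355) (nat_lit 277)) (XT.nd (nat_lit 78)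 (nat_lit 152) (nat_lit 0) (XT.lf (nat_lit 0) (nat_lit 263806951232) (nat_lit 76) (nat_lit 240134534587) (nat_lit 76) (nat_lit 164445043319) (nat_lit 22) (nat_lit 4) (nat_lit 23) (nat_lit 5) (nat_lit 23) (nat_lit 4) (nat_lit 389) (nat_lit 355) (nat_lit 276)) (XT.lf (nat_lit 0) (nat_lit 168532618317) (nat_lit 152) (nat_lit 473328694787) (nat_lit 0) (nat_lit 98449609517) (nat_lit 20) (nat_lit 5) (nat_lit 22) (nat_lit 4) (nat_lit 20) (nat_lit 4) (nat_lit 390) (nat_lit 355) (nat_lit 275)))))) (XT.nd (nat_lit 390) (nat_lit 456) (nat_lit 0) (XT.nd (nat_lit 156) (nat_lit 228) (nat_lit 0) (XT.nd (nat_lit 78) (nat_lit 152) (nat_lit 0) (XT.lf (nat_lit 0) (nat_lit 242319932376) (nat_lit 76) (nat_lit 324229555861) (nat_lit 76) (nat_lit 254146419656) (nat_lit 19) (nat_lit 4) (nat_lit 20) (nat_lit 5) (nat_lit 20) (nat_lit 4) (nat_lit 391) (nat_lit 355) (nat_lit 274)) (XT.lf (nat_lit 0) (nat_lit 125778865391)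 (nat_lit 152) (nat_lit 724642366509) (nat_lit 0) (nat_lit 60886970029) (nat_lit 17) (nat_lit 5) (nat_lit 19) (nat_lit 4) (nat_lit 17) (nat_lit 4) (nat_lit 392) (nat_lit 355) (nat_lit 273))) (XT.nd (nat_lit 78) (nat_lit 152) (nat_lit 0) (XT.lf (nat_lit 0) (nat_lit 74619657881) (nat_lit 76) (nat_lit 501489696536) (nat_lit 76) (nat_lit 436597711974) (nat_lit 16) (nat_lit 4) (nat_lit 17) (nat_lit 5) (nat_lit 17) (nat_lit 4) (nat_lit 393) (nat_lit 355) (nat_lit 272)) (XT.nd (nat_lit 78) (nat_lit 152) (nat_lit 0) (XT.lf (nat_lit 0) (nat_lit 1037650680144) (nat_lit 76) (nat_lit 77434731463) (nat_lit 76) (nat_lit 12542669335) (nat_lit 16) (nat_lit 4) (nat_lit 17) (nat_lit 5) (nat_lit 17) (nat_lit 4) (nat_lit 394) (nat_lit 355) (nat_lit 271)) (XT.lf (nat_lit 0) (nat_lit 484214113456) (nat_lit 152) (nat_lit 347901317572) (nat_lit 0) (nat_lit 424128808293) (nat_lit 14) (nat_lit 5) (nat_lit 16) (nat_lit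 4) (nat_lit 14) (nat_lit 4) (nat_lit 395) (nat_lit 355) (nat_lit 270))))) (XT.nd (nat_lit 234) (nat_lit 228) (nat_lit 0) (XT.nd (nat_lit 78) (nat_lit 152) (nat_lit 0) (XT.lf (nat_lit 0) (nat_lit 689868150989) (nat_lit 76) (nat_lit 386314353357) (nat_lit 76) (nat_lit 326228993889) (nat_lit 13) (nat_lit 4) (nat_lit 14) (nat_lit 5) (nat_lit 14) (nat_lit 4) (nat_lit 396) (nat_lit 355) (nat_lit 269)) (XT.nd (nat_lit 78) (nat_lit 0) (nat_lit 0) (XT.lf (nat_lit 0) (nat_lit 199501447795) (nat_lit 152) (nat_lit 1224986011727) (nat_lit 0) (nat_lit 143866811969) (nat_lit 11) (nat_lit 5) (nat_lit 13) (nat_lit 4) (nat_lit 11) (nat_lit 4) (nat_lit 397) (nat_lit 355) (nat_lit 268)) (XT.lf (nat_lit 0) (nat_lit 817291652107) (nat_lit 152) (nat_lit 176960624480) (nat_lit 0) (nat_lit 761656978260) (nat_lit 11) (nat_lit 5) (nat_lit 13) (nat_lit 4) (nat_lit 11) (nat_lit 4) (nat_lit 398) (nat_lit 355) (nat_lit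 267)))) (XT.nd (nat_lit 78) (nat_lit 152) (nat_lit 0) (XT.lf (nat_lit 0) (nat_lit 1082413714877) (nat_lit 76) (nat_lit 471367986305) (nat_lit 76) (nat_lit 415733279396) (nat_lit 10) (nat_lit 4) (nat_lit 11) (nat_lit 5) (nat_lit 11) (nat_lit 4) (nat_lit 399) (nat_lit 355) (nat_lit 266)) (XT.nd (nat_lit 78) (nat_lit 0) (nat_lit 0) (XT.lf (nat_lit 0) (nat_lit 193328904717) (nat_lit 152) (nat_lit 1878298027669) (nat_lit 0) (nat_lit 141815260588) (nat_lit 8) (nat_lit 5) (nat_lit 10) (nat_lit 4) (nat_lit 8) (nat_lit 4) (nat_lit 400) (nat_lit 355) (nat_lit 265)) (XT.lf (nat_lit 0) (nat_lit 909368286643) (nat_lit 152) (nat_lit 722653006293) (nat_lit 0) (nat_lit 857854619367) (nat_lit 8) (nat_lit 5) (nat_lit 10) (nat_lit 4) (nat_lit 8) (nat_lit 4) (nat_lit 401) (nat_lit 355) (nat_lit 264))))))))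
noncomputable def xc75 : XT := (XT.nd (nat_lit 1638) (nat_lit 0) (nat_lit 0) (XT.nd (nat_lit 780) (nat_lit 76) (nat_lit 0) (XT.nd (nat_lit 390) (nat_lit 228) (nat_lit 0) (XT.nd (nat_lit 156) (nat_lit 152) (nat_lit 0) (XT.nd (nat_lit 78) (nat_lit 0) (nat_lit 0) (XT.lf (nat_lit 0) (nat_lit 638266222178) (nat_lit 76) (nat_lit 1109897088007) (nat_lit 76) (nat_lit 1058383400602) (nat_lit 7) (nat_lit 4) (nat_lit 8) (nat_lit 5) (nat_lit 8) (nat_lit 4) (nat_lit 402) (nat_lit 355) (nat_lit 263)) (XT.lf (nat_lit 0) (nat_lit 2247083900257) (nat_lit 76) (nat_lit 486732417623) (nat_lit 76) (nat_lit 435218712715) (nat_lit 7) (nat_lit 4) (nat_lit 8) (nat_lit 5) (nat_lit 8) (nat_lit 4) (nat_lit 403) (nat_lit 355) (nat_lit 262))) (XT.nd (nat_lit 78) (nat_lit 0) (nat_lit 0) (XT.lf (nat_lit 0) (nat_lit 286152866813) (nat_lit 152) (nat_lit 3059242500587) (nat_lit 0) (nat_lit 238454977806) (nat_lit 5) (nat_lit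 5) (nat_lit 7) (nat_lit 4) (nat_lit 5) (nat_lit 4) (nat_lit 404) (nat_lit 355) (nat_lit 261)) (XT.nd (nat_lit 78) (nat_lit 0) (nat_lit 0) (XT.lf (nat_lit 0) (nat_lit 1131693238219) (nat_lit 152) (nat_lit 1840956402503) (nat_lit 0) (nat_lit 1083995336957) (nat_lit 5) (nat_lit 5) (nat_lit 7) (nat_lit 4) (nat_lit 5) (nat_lit 4) (nat_lit 405) (nat_lit 355) (nat_lit 260)) (XT.lf (nat_lit 0) (nat_lit 2104064276383) (nat_lit 152) (nat_lit 439928195295) (nat_lit 0) (nat_lit 2056366364465) (nat_lit 5) (nat_lit 5) (nat_lit 7) (nat_lit 4) (nat_lit 5) (nat_lit 4) (nat_lit 406) (nat_lit 355) (nat_lit 259))))) (XT.nd (nat_lit 156) (nat_lit 152) (nat_lit 0) (XT.nd (nat_lit 78) (nat_lit 0) (nat_lit 0) (XT.lf (nat_lit 0) (nat_lit 1232929678390) (nat_lit 76) (nat_lit 2019012942077) (nat_lit 76) (nat_lit 1971315020892) (nat_lit 4) (nat_lit 4) (nat_lit 5) (nat_lit 5) (nat_lit 5) (nat_lit 4) (nat_lit 407) (nat_lit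 355) (nat_lit 258)) (XT.lf (nat_lit 0) (nat_lit 3183356306928) (nat_lit 76) (nat_lit 1401454135774) (nat_lit 76) (nat_lit 1353756206533) (nat_lit 4) (nat_lit 4) (nat_lit 5) (nat_lit 5) (nat_lit 5) (nat_lit 4) (nat_lit 408) (nat_lit 355) (nat_lit 257))) (XT.nd (nat_lit 78) (nat_lit 152) (nat_lit 0) (XT.lf (nat_lit 0) (nat_lit 5426346372167) (nat_lit 76) (nat_lit 691261796953) (nat_lit 76) (nat_lit 643563860705) (nat_lit 4) (nat_lit 4) (nat_lit 5) (nat_lit 5) (nat_lit 5) (nat_lit 4) (nat_lit 409) (nat_lit 355) (nat_lit 256)) (XT.nd (nat_lit 78) (nat_lit 0) (nat_lit 0) (XT.lf (nat_lit 0) (nat_lit 175268626575) (nat_lit 152) (nat_lit 7399600705063) (nat_lit 0) (nat_lit 131103865148) (nat_lit 2) (nat_lit 5) (nat_lit 4) (nat_lit 4) (nat_lit 2) (nat_lit 4) (nat_lit 410) (nat_lit 355) (nat_lit 255)) (XT.lf (nat_lit 0) (nat_lit 1138893048164) (nat_lit 152) (nat_lit 6552730075365) (nat_lit 0) (nat_lit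 1094728281831) (nat_lit 2) (nat_lit 5) (nat_lit 4) (nat_lit 4) (nat_lit 2) (nat_lit 4) (nat_lit 411) (nat_lit 355) (nat_lit 254)))))) (XT.nd (nat_lit 390) (nat_lit 0) (nat_lit 0) (XT.nd (nat_lit 156) (nat_lit 76) (nat_lit 0) (XT.nd (nat_lit 78) (nat_lit 0) (nat_lit 0) (XT.lf (nat_lit 0) (nat_lit 2247060936971) (nat_lit 152) (nat_lit 5578829257561) (nat_lit 0) (nat_lit 2202896166372) (nat_lit 2) (nat_lit 5) (nat_lit 4) (nat_lit 4) (nat_lit 2) (nat_lit 4) (nat_lit 412) (nat_lit 355) (nat_lit 253)) (XT.lf (nat_lit 0) (nat_lit 3521453838645) (nat_lit 152) (nat_lit 4458843670432) (nat_lit 0) (nat_lit 3477289064338) (nat_lit 2) (nat_lit 5) (nat_lit 4) (nat_lit 4) (nat_lit 2) (nat_lit 4) (nat_lit 413) (nat_lit 355) (nat_lit 252))) (XT.nd (nat_lit 78) (nat_lit 76) (nat_lit 0) (XT.lf (nat_lit 0) (nat_lit 4987005527351) (nat_lit 152) (nat_lit 3170860552491) (nat_lit 0) (nat_lit 4942840749818) (nat_lit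 2) (nat_lit 5) (nat_lit 4) (nat_lit 4) (nat_lit 2) (nat_lit 4) (nat_lit 414) (nat_lit 355) (nat_lit 251)) (XT.nd (nat_lit 78) (nat_lit 76) (nat_lit 0) (XT.lf (nat_lit 0) (nat_lit 6672389840476) (nat_lit 152) (nat_lit 1689680234040) (nat_lit 0) (nat_lit 6628225060138) (nat_lit 2) (nat_lit 5) (nat_lit 4) (nat_lit 4) (nat_lit 2) (nat_lit 4) (nat_lit 415) (nat_lit 355) (nat_lit 250)) (XT.lf (nat_lit 0) (nat_lit 14397101156) (nat_lit 76) (nat_lit 8596530837967) (nat_lit 76) (nat_lit 8552366055190) (nat_lit 1) (nat_lit 4) (nat_lit 2) (nat_lit 5) (nat_lit 2) (nat_lit 4) (nat_lit 416) (nat_lit 355) (nat_lit 249))))) (XT.nd (nat_lit 234) (nat_lit 0) (nat_lit 0) (XT.nd (nat_lit 78) (nat_lit 0) (nat_lit 0) (XT.lf (nat_lit 0) (nat_lit 2076407725735) (nat_lit 76) (nat_lit 8813032146264) (nat_lit 76) (nat_lit 8768867361367) (nat_lit 1) (nat_lit 4) (nat_lit 2) (nat_lit 5) (nat_lit 2) (nat_lit 4) (nat_lit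 417) (nat_lit 355) (nat_lit 248)) (XT.nd (nat_lit 78) (nat_lit 0) (nat_lit 0) (XT.lf (nat_lit 0) (nat_lit 4447719759075) (nat_lit 76) (nat_lit 9062008746539) (nat_lit 76) (nat_lit 9017843959798) (nat_lit 1) (nat_lit 4) (nat_lit 2) (nat_lit 5) (nat_lit 2) (nat_lit 4) (nat_lit 418) (nat_lit 355) (nat_lit 247)) (XT.lf (nat_lit 0) (nat_lit 7174728436610) (nat_lit 76) (nat_lit 9348331920102) (nat_lit 76) (nat_lit 9304167131757) (nat_lit 1) (nat_lit 4) (nat_lit 2) (nat_lit 5) (nat_lit 2) (nat_lit 4) (nat_lit 419) (nat_lit 355) (nat_lit 246)))) (XT.nd (nat_lit 78) (nat_lit 0) (nat_lit 0) (XT.lf (nat_lit 0) (nat_lit 10310788275944) (nat_lit 76) (nat_lit 9677603642088) (nat_lit 76) (nat_lit 9633438852349) (nat_lit 1) (nat_lit 4) (nat_lit 2) (nat_lit 5) (nat_lit 2) (nat_lit 4) (nat_lit 420) (nat_lit 355) (nat_lit 245)) (XT.nd (nat_lit 78) (nat_lit 0) (nat_lit 0) (XT.lf (nat_lit 0) (nat_lit 13917256969587)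 (nat_lit 76) (nat_lit 10056266185319) (nat_lit 76) (nat_lit 10012101394366) (nat_lit 1) (nat_lit 4) (nat_lit 2) (nat_lit 5) (nat_lit 2) (nat_lit 4) (nat_lit 421) (nat_lit 355) (nat_lit 244)) (XT.lf (nat_lit 0) (nat_lit 18064695861544) (nat_lit 76) (nat_lit 10491728164769) (nat_lit 76) (nat_lit 10447563372763) (nat_lit 1) (nat_lit 4) (nat_lit 2) (nat_lit 5) (nat_lit 2) (nat_lit 4) (nat_lit 422) (nat_lit 355) (nat_lit 243))))))) (XT.nd (nat_lit 48516) (nat_lit 0) (nat_lit 3572) (XT.nd (nat_lit 48126) (nat_lit 0) (nat_lit 5700) (XT.nd (nat_lit 47892) (nat_lit 0) (nat_lit 6460) (XT.nd (nat_lit 78) (nat_lit 0) (nat_lit 0) (XT.lf (nat_lit 0) (nat_lit 22834250495354) (nat_lit 76) (nat_lit 10992509488734) (nat_lit 76) (nat_lit 10948344695810) (nat_lit 1) (nat_lit 4) (nat_lit 2) (nat_lit 5) (nat_lit 2) (nat_lit 4) (nat_lit 423) (nat_lit 355) (nat_lit 242)) (XT.lf (nat_lit 0) (nat_lit 28319238244286)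 (nat_lit 76) (nat_lit 11568408052681) (nat_lit 76) (nat_lit 11524243258961) (nat_lit 1) (nat_lit 4) (nat_lit 2) (nat_lit 5) (nat_lit 2) (nat_lit 4) (nat_lit 424) (nat_lit 355) (nat_lit 241))) (XT.nd (nat_lit 78) (nat_lit 532) (nat_lit 0) (XT.lf (nat_lit 0) (nat_lit 18556988163) (nat_lit 532) (nat_lit 226393437) (nat_lit 532) (nat_lit 226393437) (nat_lit 93) (nat_lit 3) (nat_lit 100) (nat_lit 3) (nat_lit 100) (nat_lit 5) (nat_lit 356) (nat_lit 356) (nat_lit 308)) (XT.nd (nat_lit 78) (nat_lit 0) (nat_lit 76) (XT.lf (nat_lit 0) (nat_lit 64623035) (nat_lit 532) (nat_lit 3903621555) (nat_lit 608) (nat_lit 36825481869) (nat_lit 86) (nat_lit 5) (nat_lit 93) (nat_lit 3) (nat_lit 94) (nat_lit 5) (nat_lit 357) (nat_lit 356) (nat_lit 307)) (XT.lf (nat_lit 0) (nat_lit 2893490328) (nat_lit 532) (nat_lit 7035557782) (nat_lit 608) (nat_lit 33911760293) (nat_lit 87) (nat_lit 5) (nat_lit 94) (nat_lit 5) (nat_lit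 95) (nat_lit 5) (nat_lit 358) (nat_lit 356) (nat_lit 306))))) (XT.nd (nat_lit 156) (nat_lit 912) (nat_lit 0) (XT.nd (nat_lit 78) (nat_lit 0) (nat_lit 76) (XT.lf (nat_lit 0) (nat_lit 8028419952) (nat_lit 532) (nat_lit 9684448064) (nat_lit 608) (nat_lit 29481547517) (nat_lit 88) (nat_lit 5) (nat_lit 95) (nat_lit 5) (nat_lit 96) (nat_lit 5) (nat_lit 359) (nat_lit 356) (nat_lit 305)) (XT.lf (nat_lit 0) (nat_lit 15953757370) (nat_lit 532) (nat_lit 11692779811) (nat_lit 76) (nat_lit 23242914366) (nat_lit 89) (nat_lit 5) (nat_lit 96) (nat_lit 5) (nat_lit 90) (nat_lit 5) (nat_lit 360) (nat_lit 356) (nat_lit 304))) (XT.nd (nat_lit 78) (nat_lit 456) (nat_lit 0) (XT.lf (nat_lit 0) (nat_lit 27235613203) (nat_lit 608) (nat_lit 12871735928) (nat_lit 76) (nat_lit 14857977522) (nat_lit 82) (nat_lit 5) (nat_lit 90) (nat_lit 5) (nat_lit 83) (nat_lit 5) (nat_lit 361) (nat_lit 356) (nat_lit 303)) (XT.nd (nat_lit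 78) (nat_lit 228) (nat_lit 0) (XT.lf (nat_lit 0) (nat_lit 42534833861) (nat_lit 304) (nat_lit 12996107197) (nat_lit 76) (nat_lit 3935636023) (nat_lit 79) (nat_lit 5) (nat_lit 83) (nat_lit 5) (nat_lit 80) (nat_lit 5) (nat_lit 362) (nat_lit 356) (nat_lit 302)) (XT.lf (nat_lit 0) (nat_lit 52372369654) (nat_lit 228) (nat_lit 10502134873) (nat_lit 304) (nat_lit 1548866034) (nat_lit 76) (nat_lit 5) (nat_lit 79) (nat_lit 5) (nat_lit 80) (nat_lit 5) (nat_lit 363) (nat_lit 356) (nat_lit 301)))))) (XT.nd (nat_lit 390) (nat_lit 912) (nat_lit 0) (XT.nd (nat_lit 156) (nat_lit 684) (nat_lit 0) (XT.nd (nat_lit 78) (nat_lit 228) (nat_lit 0) (XT.lf (nat_lit 0) (nat_lit 18230168118) (nat_lit 304) (nat_lit 10117477541) (nat_lit 76) (nat_lit 41513287060) (nat_lit 72) (nat_lit 5) (nat_lit 76) (nat_lit 5) (nat_lit 73) (nat_lit 5) (nat_lit 364) (nat_lit 356) (nat_lit 300)) (XT.lf (nat_lit 0) (nat_lit 43863761347)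 (nat_lit 304) (nat_lit 6463899355) (nat_lit 76) (nat_lit 25544897536) (nat_lit 69) (nat_lit 5) (nat_lit 73) (nat_lit 5) (nat_lit 70) (nat_lit 5) (nat_lit 365) (nat_lit 356) (nat_lit 299))) (XT.nd (nat_lit 78) (nat_lit 532) (nat_lit 0) (XT.lf (nat_lit 0) (nat_lit 76530551701) (nat_lit 228) (nat_lit 659734350) (nat_lit 76) (nat_lit 5340589397) (nat_lit 67) (nat_lit 5) (nat_lit 70) (nat_lit 5) (nat_lit 68) (nat_lit 5) (nat_lit 366) (nat_lit 356) (nat_lit 298)) (XT.nd (nat_lit 78) (nat_lit 152) (nat_lit 0) (XT.lf (nat_lit 0) (nat_lit 6924206587) (nat_lit 152) (nat_lit 19973108820) (nat_lit 228) (nat_lit 62909908187) (nat_lit 62) (nat_lit 5) (nat_lit 64) (nat_lit 5) (nat_lit 65) (nat_lit 5) (nat_lit 367) (nat_lit 356) (nat_lit 297)) (XT.lf (nat_lit 0) (nat_lit 17177254906) (nat_lit 152) (nat_lit 51223478897) (nat_lit 228) (nat_lit 29439708756) (nat_lit 60) (nat_lit 5) (nat_lit 62) (nat_lit 5) (nat_lit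 63) (nat_lit 5) (nat_lit 368) (nat_lit 356) (nat_lit 296))))) (XT.nd (nat_lit 234) (nat_lit 456) (nat_lit 0) (XT.nd (nat_lit 78) (nat_lit 304) (nat_lit 0) (XT.lf (nat_lit 0) (nat_lit 12819827896) (nat_lit 152) (nat_lit 76114643807) (nat_lit 76) (nat_lit 17789032692) (nat_lit 58) (nat_lit 5) (nat_lit 60) (nat_lit 5) (nat_lit 59) (nat_lit 5) (nat_lit 369) (nat_lit 356) (nat_lit 295)) (XT.nd (nat_lit 78) (nat_lit 152) (nat_lit 0) (XT.lf (nat_lit 0) (nat_lit 46744433950) (nat_lit 152) (nat_lit 17926237341) (nat_lit 228) (nat_lit 51807538204) (nat_lit 56) (nat_lit 5) (nat_lit 58) (nat_lit 5) (nat_lit 59) (nat_lit 5) (nat_lit 370) (nat_lit 356) (nat_lit 294)) (XT.lf (nat_lit 0) (nat_lit 2324047304) (nat_lit 152) (nat_lit 60451398058) (nat_lit 76) (nat_lit 64483123329) (nat_lit 54) (nat_lit 5) (nat_lit 56) (nat_lit 5) (nat_lit 55) (nat_lit 5) (nat_lit 371) (nat_lit 356) (nat_lit 293)))) (XT.nd (nat_lit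 78) (nat_lit 304) (nat_lit 0) (XT.lf (nat_lit 0) (nat_lit 66957338680) (nat_lit 228) (nat_lit 48626363969) (nat_lit 76) (nat_lit 23528663073) (nat_lit 52) (nat_lit 5) (nat_lit 55) (nat_lit 5) (nat_lit 53) (nat_lit 4) (nat_lit 372) (nat_lit 356) (nat_lit 292)) (XT.nd (nat_lit 78) (nat_lit 228) (nat_lit 0) (XT.lf (nat_lit 0) (nat_lit 119301166706) (nat_lit 76) (nat_lit 28392098624) (nat_lit 152) (nat_lit 4538355804) (nat_lit 51) (nat_lit 5) (nat_lit 52) (nat_lit 5) (nat_lit 53) (nat_lit 4) (nat_lit 373) (nat_lit 356) (nat_lit 291)) (XT.lf (nat_lit 0) (nat_lit 76620730021) (nat_lit 228) (nat_lit 14613700972) (nat_lit 76) (nat_lit 75378439745) (nat_lit 48) (nat_lit 5) (nat_lit 51) (nat_lit 5) (nat_lit 49) (nat_lit 4) (nat_lit 374) (nat_lit 356) (nat_lit 290))))))))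
noncomputable def xc76 : XT := (XT.nd (nat_lit 1638) (nat_lit 1064) (nat_lit 0) (XT.nd (nat_lit 780) (nat_lit 1140) (nat_lit 0) (XT.nd (nat_lit 390) (nat_lit 608) (nat_lit 0) (XT.nd (nat_lit 156) (nat_lit 380) (nat_lit 0) (XT.nd (nat_lit 78) (nat_lit 152) (nat_lit 0) (XT.lf (nat_lit 0) (nat_lit 9732051779) (nat_lit 76) (nat_lit 166973646919) (nat_lit 76) (nat_lit 5874519538) (nat_lit 46) (nat_lit 4) (nat_lit 47) (nat_lit 5) (nat_lit 47) (nat_lit 4) (nat_lit 375) (nat_lit 356) (nat_lit 289)) (XT.lf (nat_lit 0) (nat_lit 37809189221) (nat_lit 76) (nat_lit 57820675518) (nat_lit 152) (nat_lit 104392839569) (nat_lit 44) (nat_lit 5) (nat_lit 45) (nat_lit 5) (nat_lit 46) (nat_lit 4) (nat_lit 376) (nat_lit 356) (nat_lit 288))) (XT.nd (nat_lit 78) (nat_lit 228) (nat_lit 0) (XT.lf (nat_lit 0) (nat_lit 1111075589) (nat_lit 152) (nat_lit 146857940963) (nat_lit 76) (nat_lit 71414617898) (nat_lit 42) (nat_lit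 5) (nat_lit 44) (nat_lit 5) (nat_lit 43) (nat_lit 4) (nat_lit 377) (nat_lit 356) (nat_lit 287)) (XT.nd (nat_lit 78) (nat_lit 152) (nat_lit 0) (XT.lf (nat_lit 0) (nat_lit 112017534241) (nat_lit 76) (nat_lit 13553511004) (nat_lit 152) (nat_lit 115115803681) (nat_lit 41) (nat_lit 5) (nat_lit 42) (nat_lit 5) (nat_lit 43) (nat_lit 4) (nat_lit 378) (nat_lit 356) (nat_lit 286)) (XT.lf (nat_lit 0) (nat_lit 15219541694) (nat_lit 152) (nat_lit 106464961592) (nat_lit 76) (nat_lit 142543809724) (nat_lit 39) (nat_lit 5) (nat_lit 41) (nat_lit 5) (nat_lit 40) (nat_lit 4) (nat_lit 379) (nat_lit 356) (nat_lit 285))))) (XT.nd (nat_lit 156) (nat_lit 380) (nat_lit 0) (XT.nd (nat_lit 78) (nat_lit 152) (nat_lit 0) (XT.lf (nat_lit 0) (nat_lit 168805263294) (nat_lit 152) (nat_lit 80501167303) (nat_lit 0) (nat_lit 40914067313) (nat_lit 38) (nat_lit 5) (nat_lit 40) (nat_lit 4) (nat_lit 38) (nat_lit 4) (nat_lit 380)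 (nat_lit 356) (nat_lit 284)) (XT.lf (nat_lit 0) (nat_lit 37425738309) (nat_lit 152) (nat_lit 50046371524) (nat_lit 76) (nat_lit 231520699653) (nat_lit 36) (nat_lit 5) (nat_lit 38) (nat_lit 5) (nat_lit 37) (nat_lit 4) (nat_lit 381) (nat_lit 356) (nat_lit 283))) (XT.nd (nat_lit 78) (nat_lit 304) (nat_lit 0) (XT.lf (nat_lit 0) (nat_lit 226353876597) (nat_lit 152) (nat_lit 16463915986) (nat_lit 0) (nat_lit 107934871350) (nat_lit 35) (nat_lit 5) (nat_lit 37) (nat_lit 4) (nat_lit 35) (nat_lit 4) (nat_lit 382) (nat_lit 356) (nat_lit 282)) (XT.nd (nat_lit 78) (nat_lit 76) (nat_lit 0) (XT.lf (nat_lit 0) (nat_lit 23492063026) (nat_lit 76) (nat_lit 44734651505) (nat_lit 152) (nat_lit 317765329255) (nat_lit 32) (nat_lit 5) (nat_lit 33) (nat_lit 5) (nat_lit 34) (nat_lit 4) (nat_lit 383) (nat_lit 356) (nat_lit 281)) (XT.lf (nat_lit 0) (nat_lit 65646485416) (nat_lit 76) (nat_lit 234422665432) (nat_lit 76)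 (nat_lit 124774576356) (nat_lit 31) (nat_lit 4) (nat_lit 32) (nat_lit 5) (nat_lit 32) (nat_lit 4) (nat_lit 384) (nat_lit 356) (nat_lit 280)))))) (XT.nd (nat_lit 390) (nat_lit 532) (nat_lit 0) (XT.nd (nat_lit 156) (nat_lit 380) (nat_lit 0) (XT.nd (nat_lit 78) (nat_lit 76) (nat_lit 0) (XT.lf (nat_lit 0) (nat_lit 107231984225) (nat_lit 152) (nat_lit 355204358991) (nat_lit 0) (nat_lit 5705653012) (nat_lit 29) (nat_lit 5) (nat_lit 31) (nat_lit 4) (nat_lit 29) (nat_lit 4) (nat_lit 385) (nat_lit 356) (nat_lit 279)) (XT.lf (nat_lit 0) (nat_lit 158253260198) (nat_lit 76) (nat_lit 229625453462) (nat_lit 76) (nat_lit 128098841546) (nat_lit 28) (nat_lit 4) (nat_lit 29) (nat_lit 5) (nat_lit 29) (nat_lit 4) (nat_lit 386) (nat_lit 356) (nat_lit 278))) (XT.nd (nat_lit 78) (nat_lit 228) (nat_lit 0) (XT.lf (nat_lit 0) (nat_lit 149639215911) (nat_lit 152) (nat_lit 364088486693) (nat_lit 0) (nat_lit 55632867757)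 (nat_lit 26) (nat_lit 5) (nat_lit 28) (nat_lit 4) (nat_lit 26) (nat_lit 4) (nat_lit 387) (nat_lit 356) (nat_lit 277)) (XT.nd (nat_lit 78) (nat_lit 152) (nat_lit 0) (XT.lf (nat_lit 0) (nat_lit 246633128786) (nat_lit 76) (nat_lit 238001861572) (nat_lit 76) (nat_lit 143995316888) (nat_lit 25) (nat_lit 4) (nat_lit 26) (nat_lit 5) (nat_lit 26) (nat_lit 4) (nat_lit 388) (nat_lit 356) (nat_lit 276)) (XT.lf (nat_lit 0) (nat_lit 184626803605) (nat_lit 152) (nat_lit 412631462141) (nat_lit 0) (nat_lit 97583548439) (nat_lit 23) (nat_lit 5) (nat_lit 25) (nat_lit 4) (nat_lit 23) (nat_lit 4) (nat_lit 389) (nat_lit 356) (nat_lit 275))))) (XT.nd (nat_lit 234) (nat_lit 228) (nat_lit 0) (XT.nd (nat_lit 78) (nat_lit 228) (nat_lit 0) (XT.lf (nat_lit 0) (nat_lit 303407375992) (nat_lit 76) (nat_lit 276139688374) (nat_lit 76) (nat_lit 189096295612) (nat_lit 22) (nat_lit 4) (nat_lit 23) (nat_lit 5) (nat_lit 23) (nat_lit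 4) (nat_lit 390) (nat_lit 356) (nat_lit 274)) (XT.nd (nat_lit 78) (nat_lit 76) (nat_lit 0) (XT.lf (nat_lit 0) (nat_lit 193826322378) (nat_lit 152) (nat_lit 544299656118) (nat_lit 0) (nat_lit 113230477551) (nat_lit 20) (nat_lit 5) (nat_lit 22) (nat_lit 4) (nat_lit 20) (nat_lit 4) (nat_lit 391) (nat_lit 356) (nat_lit 273)) (XT.lf (nat_lit 0) (nat_lit 278693866036) (nat_lit 76) (nat_lit 372850679223) (nat_lit 76) (nat_lit 292254738061) (nat_lit 19) (nat_lit 4) (nat_lit 20) (nat_lit 5) (nat_lit 20) (nat_lit 4) (nat_lit 392) (nat_lit 356) (nat_lit 272)))) (XT.nd (nat_lit 78) (nat_lit 76) (nat_lit 0) (XT.lf (nat_lit 0) (nat_lit 144657853645) (nat_lit 152) (nat_lit 833313701220) (nat_lit 0) (nat_lit 70031904633) (nat_lit 17) (nat_lit 5) (nat_lit 19) (nat_lit 4) (nat_lit 17) (nat_lit 4) (nat_lit 393) (nat_lit 356) (nat_lit 271)) (XT.nd (nat_lit 78) (nat_lit 0) (nat_lit 0) (XT.lf (nat_lit 0) (nat_lit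 85835508988) (nat_lit 76) (nat_lit 576701371958) (nat_lit 76) (nat_lit 502075355497) (nat_lit 16) (nat_lit 4) (nat_lit 17) (nat_lit 5) (nat_lit 17) (nat_lit 4) (nat_lit 394) (nat_lit 356) (nat_lit 270)) (XT.lf (nat_lit 0) (nat_lit 1193318197317) (nat_lit 76) (nat_lit 89039698522) (nat_lit 76) (nat_lit 14413623412) (nat_lit 16) (nat_lit 4) (nat_lit 17) (nat_lit 5) (nat_lit 17) (nat_lit 4) (nat_lit 395) (nat_lit 356) (nat_lit 269))))))) (XT.nd (nat_lit 780) (nat_lit 228) (nat_lit 0) (XT.nd (nat_lit 390) (nat_lit 380) (nat_lit 0) (XT.nd (nat_lit 156) (nat_lit 228) (nat_lit 0) (XT.nd (nat_lit 78) (nat_lit 76) (nat_lit 0) (XT.lf (nat_lit 0) (nat_lit 556855541317) (nat_lit 152) (nat_lit 400067312610) (nat_lit 0) (nat_lit 487757276399) (nat_lit 14) (nat_lit 5) (nat_lit 16) (nat_lit 4) (nat_lit 14) (nat_lit 4) (nat_lit 396) (nat_lit 356) (nat_lit 268)) (XT.lf (nat_lit 0) (nat_lit 793365950831) (nat_lit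 76) (nat_lit 444252448284) (nat_lit 76) (nat_lit 375154142303) (nat_lit 13) (nat_lit 4) (nat_lit 14) (nat_lit 5) (nat_lit 14) (nat_lit 4) (nat_lit 397) (nat_lit 356) (nat_lit 267))) (XT.nd (nat_lit 78) (nat_lit 76) (nat_lit 0) (XT.lf (nat_lit 0) (nat_lit 229434867150) (nat_lit 152) (nat_lit 1408716967729) (nat_lit 0) (nat_lit 165454921143) (nat_lit 11) (nat_lit 5) (nat_lit 13) (nat_lit 4) (nat_lit 11) (nat_lit 4) (nat_lit 398) (nat_lit 356) (nat_lit 266)) (XT.nd (nat_lit 78) (nat_lit 76) (nat_lit 0) (XT.lf (nat_lit 0) (nat_lit 939892532259) (nat_lit 152) (nat_lit 203489982710) (nat_lit 0) (nat_lit 875912557502) (nat_lit 11) (nat_lit 5) (nat_lit 13) (nat_lit 4) (nat_lit 11) (nat_lit 4) (nat_lit 399) (nat_lit 356) (nat_lit 265)) (XT.lf (nat_lit 0) (nat_lit 1244789260269) (nat_lit 76) (nat_lit 542066222513) (nat_lit 76) (nat_lit 478086222756) (nat_lit 10) (nat_lit 4) (nat_lit 11) (nat_lit 5)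 (nat_lit 11) (nat_lit 4) (nat_lit 400) (nat_lit 356) (nat_lit 264))))) (XT.nd (nat_lit 156) (nat_lit 228) (nat_lit 0) (XT.nd (nat_lit 78) (nat_lit 0) (nat_lit 0) (XT.lf (nat_lit 0) (nat_lit 222334525021) (nat_lit 152) (nat_lit 2160029729744) (nat_lit 0) (nat_lit 163093764377) (nat_lit 8) (nat_lit 5) (nat_lit 10) (nat_lit 4) (nat_lit 8) (nat_lit 4) (nat_lit 401) (nat_lit 356) (nat_lit 263)) (XT.lf (nat_lit 0) (nat_lit 1045778994507) (nat_lit 152) (nat_lit 831039651085) (nat_lit 0) (nat_lit 986538216359) (nat_lit 8) (nat_lit 5) (nat_lit 10) (nat_lit 4) (nat_lit 8) (nat_lit 4) (nat_lit 402) (nat_lit 356) (nat_lit 262))) (XT.nd (nat_lit 78) (nat_lit 152) (nat_lit 0) (XT.lf (nat_lit 0) (nat_lit 734016504648) (nat_lit 76) (nat_lit 1276376303020) (nat_lit 76) (nat_lit 1217135509653) (nat_lit 7) (nat_lit 4) (nat_lit 8) (nat_lit 5) (nat_lit 8) (nat_lit 4) (nat_lit 403) (nat_lit 356) (nat_lit 261))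 (XT.nd (nat_lit 78) (nat_lit 152) (nat_lit 0) (XT.lf (nat_lit 0) (nat_lit 2584155484551) (nat_lit 76) (nat_lit 559737629669) (nat_lit 76) (nat_lit 500496823066) (nat_lit 7) (nat_lit 4) (nat_lit 8) (nat_lit 5) (nat_lit 8) (nat_lit 4) (nat_lit 404) (nat_lit 356) (nat_lit 260)) (XT.lf (nat_lit 0) (nat_lit 329079984875) (nat_lit 152) (nat_lit 3518120201549) (nat_lit 0) (nat_lit 274227375513) (nat_lit 5) (nat_lit 5) (nat_lit 7) (nat_lit 4) (nat_lit 5) (nat_lit 4) (nat_lit 405) (nat_lit 356) (nat_lit 259)))))) (XT.nd (nat_lit 390) (nat_lit 152) (nat_lit 0) (XT.nd (nat_lit 156) (nat_lit 76) (nat_lit 0) (XT.nd (nat_lit 78) (nat_lit 0) (nat_lit 0) (XT.lf (nat_lit 0) (nat_lit 1301450865726) (nat_lit 152) (nat_lit 2117092320161) (nat_lit 0) (nat_lit 1246598247098) (nat_lit 5) (nat_lit 5) (nat_lit 7) (nat_lit 4) (nat_lit 5) (nat_lit 4) (nat_lit 406) (nat_lit 356) (nat_lit 258)) (XT.lf (nat_lit 0) (nat_lit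 2419677084600) (nat_lit 152) (nat_lit 505910865704) (nat_lit 0) (nat_lit 2364824457914) (nat_lit 5) (nat_lit 5) (nat_lit 7) (nat_lit 4) (nat_lit 5) (nat_lit 4) (nat_lit 407) (nat_lit 356) (nat_lit 257))) (XT.nd (nat_lit 78) (nat_lit 0) (nat_lit 0) (XT.lf (nat_lit 0) (nat_lit 1417875133856) (nat_lit 76) (nat_lit 2321861777774) (nat_lit 76) (nat_lit 2267009144081) (nat_lit 4) (nat_lit 4) (nat_lit 5) (nat_lit 5) (nat_lit 5) (nat_lit 4) (nat_lit 408) (nat_lit 356) (nat_lit 256)) (XT.nd (nat_lit 78) (nat_lit 0) (nat_lit 0) (XT.lf (nat_lit 0) (nat_lit 3660864973583) (nat_lit 76) (nat_lit 1611669555606) (nat_lit 76) (nat_lit 1556816915821) (nat_lit 4) (nat_lit 4) (nat_lit 5) (nat_lit 5) (nat_lit 5) (nat_lit 4) (nat_lit 409) (nat_lit 356) (nat_lit 255)) (XT.lf (nat_lit 0) (nat_lit 6240302867658) (nat_lit 76) (nat_lit 794948718206) (nat_lit 76) (nat_lit 740096073123) (nat_lit 4) (nat_lit 4) (nat_lit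 5) (nat_lit 5) (nat_lit 5) (nat_lit 4) (nat_lit 410) (nat_lit 356) (nat_lit 254))))) (XT.nd (nat_lit 234) (nat_lit 0) (nat_lit 0) (XT.nd (nat_lit 78) (nat_lit 0) (nat_lit 0) (XT.lf (nat_lit 0) (nat_lit 201561031205) (nat_lit 152) (nat_lit 8509536435494) (nat_lit 0) (nat_lit 150771540751) (nat_lit 2) (nat_lit 5) (nat_lit 4) (nat_lit 4) (nat_lit 2) (nat_lit 4) (nat_lit 411) (nat_lit 356) (nat_lit 253)) (XT.nd (nat_lit 78) (nat_lit 0) (nat_lit 0) (XT.lf (nat_lit 0) (nat_lit 1309728840731) (nat_lit 152) (nat_lit 7535635782037) (nat_lit 0) (nat_lit 1258939346568) (nat_lit 2) (nat_lit 5) (nat_lit 4) (nat_lit 4) (nat_lit 2) (nat_lit 4) (nat_lit 412) (nat_lit 356) (nat_lit 252)) (XT.lf (nat_lit 0) (nat_lit 2584121673466) (nat_lit 152) (nat_lit 6415650337818) (nat_lit 0) (nat_lit 2533332176078) (nat_lit 2) (nat_lit 5) (nat_lit 4) (nat_lit 4) (nat_lit 2) (nat_lit 4) (nat_lit 413) (nat_lit 356) (nat_lit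 251)))) (XT.nd (nat_lit 78) (nat_lit 0) (nat_lit 0) (XT.lf (nat_lit 0) (nat_lit 4049673302225) (nat_lit 152) (nat_lit 5127667344147) (nat_lit 0) (nat_lit 3998883802032) (nat_lit 2) (nat_lit 5) (nat_lit 4) (nat_lit 4) (nat_lit 2) (nat_lit 4) (nat_lit 414) (nat_lit 356) (nat_lit 250)) (XT.nd (nat_lit 78) (nat_lit 0) (nat_lit 0) (XT.lf (nat_lit 0) (nat_lit 5735057563221) (nat_lit 152) (nat_lit 3646487133757) (nat_lit 0) (nat_lit 5684268060589) (nat_lit 2) (nat_lit 5) (nat_lit 4) (nat_lit 4) (nat_lit 2) (nat_lit 4) (nat_lit 415) (nat_lit 356) (nat_lit 249)) (XT.lf (nat_lit 0) (nat_lit 7673249365910) (nat_lit 152) (nat_lit 1943130093834) (nat_lit 0) (nat_lit 7622459861158) (nat_lit 2) (nat_lit 5) (nat_lit 4) (nat_lit 4) (nat_lit 2) (nat_lit 4) (nat_lit 416) (nat_lit 356) (nat_lit 248))))))))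
noncomputable def xc77 : XT := (XT.nd (nat_lit 49452) (nat_lit 0) (nat_lit 1672) (XT.nd (nat_lit 48594) (nat_lit 0) (nat_lit 4484) (XT.nd (nat_lit 390) (nat_lit 0) (nat_lit 0) (XT.nd (nat_lit 156) (nat_lit 0) (nat_lit 0) (XT.nd (nat_lit 78) (nat_lit 0) (nat_lit 0) (XT.lf (nat_lit 0) (nat_lit 16558657512) (nat_lit 76) (nat_lit 9886009432857) (nat_lit 76) (nat_lit 9835219926260) (nat_lit 1) (nat_lit 4) (nat_lit 2) (nat_lit 5) (nat_lit 2) (nat_lit 4) (nat_lit 417) (nat_lit 356) (nat_lit 247)) (XT.lf (nat_lit 0) (nat_lit 2387870616058) (nat_lit 76) (nat_lit 10134986071852) (nat_lit 76) (nat_lit 10084196563651) (nat_lit 1) (nat_lit 4) (nat_lit 2) (nat_lit 5) (nat_lit 2) (nat_lit 4) (nat_lit 418) (nat_lit 356) (nat_lit 246))) (XT.nd (nat_lit 78) (nat_lit 0) (nat_lit 0) (XT.lf (nat_lit 0) (nat_lit 5114879228556) (nat_lit 76) (nat_lit 10421309279084) (nat_lit 76) (nat_lit 10370519769489) (nat_lit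 1) (nat_lit 4) (nat_lit 2) (nat_lit 5) (nat_lit 2) (nat_lit 4) (nat_lit 419) (nat_lit 356) (nat_lit 245)) (XT.nd (nat_lit 78) (nat_lit 0) (nat_lit 0) (XT.lf (nat_lit 0) (nat_lit 8250939011336) (nat_lit 76) (nat_lit 10750581030347) (nat_lit 76) (nat_lit 10699791519539) (nat_lit 1) (nat_lit 4) (nat_lit 2) (nat_lit 5) (nat_lit 2) (nat_lit 4) (nat_lit 420) (nat_lit 356) (nat_lit 244)) (XT.lf (nat_lit 0) (nat_lit 11857407655801) (nat_lit 76) (nat_lit 11129243599036) (nat_lit 76) (nat_lit 11078454087174) (nat_lit 1) (nat_lit 4) (nat_lit 2) (nat_lit 5) (nat_lit 2) (nat_lit 4) (nat_lit 421) (nat_lit 356) (nat_lit 243))))) (XT.nd (nat_lit 156) (nat_lit 0) (nat_lit 0) (XT.nd (nat_lit 78) (nat_lit 0) (nat_lit 0) (XT.lf (nat_lit 0) (nat_lit 16004846504995) (nat_lit 76) (nat_lit 11564705600624) (nat_lit 76) (nat_lit 11513916087845) (nat_lit 1) (nat_lit 4) (nat_lit 2) (nat_lit 5) (nat_lit 2) (nat_lit 4)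 (nat_lit 422) (nat_lit 356) (nat_lit 242)) (XT.lf (nat_lit 0) (nat_lit 20774401101619) (nat_lit 76) (nat_lit 12065486943839) (nat_lit 76) (nat_lit 12014697430263) (nat_lit 1) (nat_lit 4) (nat_lit 2) (nat_lit 5) (nat_lit 2) (nat_lit 4) (nat_lit 423) (nat_lit 356) (nat_lit 241))) (XT.nd (nat_lit 47892) (nat_lit 0) (nat_lit 6460) (XT.lf (nat_lit 0) (nat_lit 26259388818216) (nat_lit 76) (nat_lit 12641385524526) (nat_lit 76) (nat_lit 12590596010257) (nat_lit 1) (nat_lit 4) (nat_lit 2) (nat_lit 5) (nat_lit 2) (nat_lit 4) (nat_lit 424) (nat_lit 356) (nat_lit 240)) (XT.nd (nat_lit 78) (nat_lit 532) (nat_lit 0) (XT.lf (nat_lit 0) (nat_lit 21414451852) (nat_lit 532) (nat_lit 220433171) (nat_lit 532) (nat_lit 220433171) (nat_lit 93) (nat_lit 3) (nat_lit 100) (nat_lit 3) (nat_lit 100) (nat_lit 5) (nat_lit 357) (nat_lit 357) (nat_lit 306)) (XT.lf (nat_lit 0) (nat_lit 208023584) (nat_lit 532) (nat_lit 4409027505)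 (nat_lit 608) (nat_lit 42285021893) (nat_lit 86) (nat_lit 5) (nat_lit 93) (nat_lit 3) (nat_lit 94) (nat_lit 5) (nat_lit 358) (nat_lit 357) (nat_lit 305)))))) (XT.nd (nat_lit 390) (nat_lit 1444) (nat_lit 0) (XT.nd (nat_lit 156) (nat_lit 608) (nat_lit 0) (XT.nd (nat_lit 78) (nat_lit 0) (nat_lit 76) (XT.lf (nat_lit 0) (nat_lit 3444470596) (nat_lit 532) (nat_lit 8007006597) (nat_lit 608) (nat_lit 38956082125) (nat_lit 87) (nat_lit 5) (nat_lit 94) (nat_lit 5) (nat_lit 95) (nat_lit 5) (nat_lit 359) (nat_lit 357) (nat_lit 304)) (XT.lf (nat_lit 0) (nat_lit 9335587437) (nat_lit 532) (nat_lit 11051391328) (nat_lit 608) (nat_lit 33878354732) (nat_lit 88) (nat_lit 5) (nat_lit 95) (nat_lit 5) (nat_lit 96) (nat_lit 5) (nat_lit 360) (nat_lit 357) (nat_lit 303))) (XT.nd (nat_lit 78) (nat_lit 760) (nat_lit 0) (XT.lf (nat_lit 0) (nat_lit 18437880016) (nat_lit 532) (nat_lit 13360598675) (nat_lit 76) (nat_lit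 26717095425) (nat_lit 89) (nat_lit 5) (nat_lit 96) (nat_lit 5) (nat_lit 90) (nat_lit 5) (nat_lit 361) (nat_lit 357) (nat_lit 302)) (XT.nd (nat_lit 78) (nat_lit 228) (nat_lit 0) (XT.lf (nat_lit 0) (nat_lit 31401977830) (nat_lit 608) (nat_lit 14717136217) (nat_lit 76) (nat_lit 17084520714) (nat_lit 82) (nat_lit 5) (nat_lit 90) (nat_lit 5) (nat_lit 83) (nat_lit 5) (nat_lit 362) (nat_lit 357) (nat_lit 301)) (XT.lf (nat_lit 0) (nat_lit 48987532078) (nat_lit 304) (nat_lit 14861733417) (nat_lit 76) (nat_lit 4531492402) (nat_lit 79) (nat_lit 5) (nat_lit 83) (nat_lit 5) (nat_lit 80) (nat_lit 5) (nat_lit 363) (nat_lit 357) (nat_lit 300))))) (XT.nd (nat_lit 234) (nat_lit 684) (nat_lit 0) (XT.nd (nat_lit 78) (nat_lit 532) (nat_lit 0) (XT.lf (nat_lit 0) (nat_lit 60304922567) (nat_lit 228) (nat_lit 12065622335) (nat_lit 304) (nat_lit 1711135203) (nat_lit 76) (nat_lit 5) (nat_lit 79) (nat_lit 5) (nat_lit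 80) (nat_lit 5) (nat_lit 364) (nat_lit 357) (nat_lit 299)) (XT.nd (nat_lit 78) (nat_lit 228) (nat_lit 0) (XT.lf (nat_lit 0) (nat_lit 21024665245) (nat_lit 304) (nat_lit 11557234493) (nat_lit 76) (nat_lit 47753369609) (nat_lit 72) (nat_lit 5) (nat_lit 76) (nat_lit 5) (nat_lit 73) (nat_lit 5) (nat_lit 365) (nat_lit 357) (nat_lit 298)) (XT.lf (nat_lit 0) (nat_lit 50497607889) (nat_lit 304) (nat_lit 7358315256) (nat_lit 76) (nat_lit 29393171436) (nat_lit 69) (nat_lit 5) (nat_lit 73) (nat_lit 5) (nat_lit 70) (nat_lit 5) (nat_lit 366) (nat_lit 357) (nat_lit 297)))) (XT.nd (nat_lit 78) (nat_lit 532) (nat_lit 0) (XT.lf (nat_lit 0) (nat_lit 88059471070) (nat_lit 228) (nat_lit 686455241) (nat_lit 76) (nat_lit 6160629345) (nat_lit 67) (nat_lit 5) (nat_lit 70) (nat_lit 5) (nat_lit 68) (nat_lit 5) (nat_lit 367) (nat_lit 357) (nat_lit 296)) (XT.nd (nat_lit 78) (nat_lit 152) (nat_lit 0) (XT.lf (nat_lit 0)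 (nat_lit 8034978161) (nat_lit 152) (nat_lit 22944320322) (nat_lit 228) (nat_lit 72295214424) (nat_lit 62) (nat_lit 5) (nat_lit 64) (nat_lit 5) (nat_lit 65) (nat_lit 5) (nat_lit 368) (nat_lit 357) (nat_lit 295)) (XT.lf (nat_lit 0) (nat_lit 19822805491) (nat_lit 152) (nat_lit 58881419641) (nat_lit 228) (nat_lit 33808810384) (nat_lit 60) (nat_lit 5) (nat_lit 62) (nat_lit 5) (nat_lit 63) (nat_lit 5) (nat_lit 369) (nat_lit 357) (nat_lit 294))))))) (XT.nd (nat_lit 780) (nat_lit 1368) (nat_lit 0) (XT.nd (nat_lit 390) (nat_lit 760) (nat_lit 0) (XT.nd (nat_lit 156) (nat_lit 380) (nat_lit 0) (XT.nd (nat_lit 78) (nat_lit 152) (nat_lit 0) (XT.lf (nat_lit 0) (nat_lit 14783678166) (nat_lit 152) (nat_lit 87463944263) (nat_lit 76) (nat_lit 20481135182) (nat_lit 58) (nat_lit 5) (nat_lit 60) (nat_lit 5) (nat_lit 59) (nat_lit 5) (nat_lit 370) (nat_lit 357) (nat_lit 293)) (XT.lf (nat_lit 0) (nat_lit 53818248090)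 (nat_lit 152) (nat_lit 20590063003) (nat_lit 228) (nat_lit 59538664648) (nat_lit 56) (nat_lit 5) (nat_lit 58) (nat_lit 5) (nat_lit 59) (nat_lit 5) (nat_lit 371) (nat_lit 357) (nat_lit 292))) (XT.nd (nat_lit 78) (nat_lit 228) (nat_lit 0) (XT.lf (nat_lit 0) (nat_lit 2707696385) (nat_lit 152) (nat_lit 69458211016) (nat_lit 76) (nat_lit 74178641586) (nat_lit 54) (nat_lit 5) (nat_lit 56) (nat_lit 5) (nat_lit 55) (nat_lit 5) (nat_lit 372) (nat_lit 357) (nat_lit 291)) (XT.nd (nat_lit 78) (nat_lit 76) (nat_lit 0) (XT.lf (nat_lit 0) (nat_lit 77033326897) (nat_lit 228) (nat_lit 55862605558) (nat_lit 76) (nat_lit 27080695699) (nat_lit 52) (nat_lit 5) (nat_lit 55) (nat_lit 5) (nat_lit 53) (nat_lit 4) (nat_lit 373) (nat_lit 357) (nat_lit 290)) (XT.lf (nat_lit 0) (nat_lit 137249169600) (nat_lit 76) (nat_lit 32627519010) (nat_lit 152) (nat_lit 5187319769) (nat_lit 51) (nat_lit 5) (nat_lit 52) (nat_lit 5)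 (nat_lit 53) (nat_lit 4) (nat_lit 374) (nat_lit 357) (nat_lit 289))))) (XT.nd (nat_lit 156) (nat_lit 380) (nat_lit 0) (XT.nd (nat_lit 78) (nat_lit 152) (nat_lit 0) (XT.lf (nat_lit 0) (nat_lit 88141835310) (nat_lit 228) (nat_lit 16754283138) (nat_lit 76) (nat_lit 86706442233) (nat_lit 48) (nat_lit 5) (nat_lit 51) (nat_lit 5) (nat_lit 49) (nat_lit 4) (nat_lit 375) (nat_lit 357) (nat_lit 288)) (XT.lf (nat_lit 0) (nat_lit 11243055257) (nat_lit 76) (nat_lit 191995727220) (nat_lit 76) (nat_lit 6726289303) (nat_lit 46) (nat_lit 4) (nat_lit 47) (nat_lit 5) (nat_lit 47) (nat_lit 4) (nat_lit 376) (nat_lit 357) (nat_lit 287))) (XT.nd (nat_lit 78) (nat_lit 228) (nat_lit 0) (XT.lf (nat_lit 0) (nat_lit 43528777186) (nat_lit 76) (nat_lit 66471019793) (nat_lit 152) (nat_lit 120024276071) (nat_lit 44) (nat_lit 5) (nat_lit 45) (nat_lit 5) (nat_lit 46) (nat_lit 4) (nat_lit 377) (nat_lit 357) (nat_lit 286)) (XT.nd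 (nat_lit 78) (nat_lit 76) (nat_lit 0) (XT.lf (nat_lit 0) (nat_lit 1302055807) (nat_lit 152) (nat_lit 168839858562) (nat_lit 76) (nat_lit 82147319172) (nat_lit 42) (nat_lit 5) (nat_lit 44) (nat_lit 5) (nat_lit 43) (nat_lit 4) (nat_lit 378) (nat_lit 357) (nat_lit 285)) (XT.lf (nat_lit 0) (nat_lit 128862978775) (nat_lit 76) (nat_lit 15565899795) (nat_lit 152) (nat_lit 132359223078) (nat_lit 41) (nat_lit 5) (nat_lit 42) (nat_lit 5) (nat_lit 43) (nat_lit 4) (nat_lit 379) (nat_lit 357) (nat_lit 284)))))) (XT.nd (nat_lit 390) (nat_lit 684) (nat_lit 0) (XT.nd (nat_lit 156) (nat_lit 456) (nat_lit 0) (XT.nd (nat_lit 78) (nat_lit 76) (nat_lit 0) (XT.lf (nat_lit 0) (nat_lit 17523696877) (nat_lit 152) (nat_lit 122393227372) (nat_lit 76) (nat_lit 163943937401) (nat_lit 39) (nat_lit 5) (nat_lit 41) (nat_lit 5) (nat_lit 40) (nat_lit 4) (nat_lit 380) (nat_lit 357) (nat_lit 283)) (XT.lf (nat_lit 0) (nat_lit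 194145868800) (nat_lit 152) (nat_lit 92537272346) (nat_lit 0) (nat_lit 47068845826) (nat_lit 38) (nat_lit 5) (nat_lit 40) (nat_lit 4) (nat_lit 38) (nat_lit 4) (nat_lit 381) (nat_lit 357) (nat_lit 282))) (XT.nd (nat_lit 78) (nat_lit 304) (nat_lit 0) (XT.lf (nat_lit 0) (nat_lit 43058160662) (nat_lit 152) (nat_lit 57516586586) (nat_lit 76) (nat_lit 266265498455) (nat_lit 36) (nat_lit 5) (nat_lit 38) (nat_lit 5) (nat_lit 37) (nat_lit 4) (nat_lit 382) (nat_lit 357) (nat_lit 281)) (XT.nd (nat_lit 78) (nat_lit 228) (nat_lit 0) (XT.lf (nat_lit 0) (nat_lit 260324308622) (nat_lit 152) (nat_lit 18898917630) (nat_lit 0) (nat_lit 124140948986) (nat_lit 35) (nat_lit 5) (nat_lit 37) (nat_lit 4) (nat_lit 35) (nat_lit 4) (nat_lit 383) (nat_lit 357) (nat_lit 280)) (XT.lf (nat_lit 0) (nat_lit 27050099340) (nat_lit 76) (nat_lit 51427706188) (nat_lit 152) (nat_lit 365411677926) (nat_lit 32) (nat_lit 5) (nat_lit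 33) (nat_lit 5) (nat_lit 34) (nat_lit 4) (nat_lit 384) (nat_lit 357) (nat_lit 279))))) (XT.nd (nat_lit 234) (nat_lit 380) (nat_lit 0) (XT.nd (nat_lit 78) (nat_lit 228) (nat_lit 0) (XT.lf (nat_lit 0) (nat_lit 75525661761) (nat_lit 76) (nat_lit 269569850217) (nat_lit 76) (nat_lit 143473495057) (nat_lit 31) (nat_lit 4) (nat_lit 32) (nat_lit 5) (nat_lit 32) (nat_lit 4) (nat_lit 385) (nat_lit 357) (nat_lit 278)) (XT.nd (nat_lit 78) (nat_lit 76) (nat_lit 0) (XT.lf (nat_lit 0) (nat_lit 123332141514) (nat_lit 152) (nat_lit 408453912223) (nat_lit 0) (nat_lit 6576013017) (nat_lit 29) (nat_lit 5) (nat_lit 31) (nat_lit 4) (nat_lit 29) (nat_lit 4) (nat_lit 386) (nat_lit 357) (nat_lit 277)) (XT.lf (nat_lit 0) (nat_lit 182019717332) (nat_lit 76) (nat_lit 264054844258) (nat_lit 76) (nat_lit 147298503509) (nat_lit 28) (nat_lit 4) (nat_lit 29) (nat_lit 5) (nat_lit 29) (nat_lit 4) (nat_lit 387) (nat_lit 357)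 (nat_lit 276)))) (XT.nd (nat_lit 78) (nat_lit 228) (nat_lit 0) (XT.lf (nat_lit 0) (nat_lit 172098595060) (nat_lit 152) (nat_lit 418674279771) (nat_lit 0) (nat_lit 63990701248) (nat_lit 26) (nat_lit 5) (nat_lit 28) (nat_lit 4) (nat_lit 26) (nat_lit 4) (nat_lit 388) (nat_lit 357) (nat_lit 275)) (XT.nd (nat_lit 78) (nat_lit 152) (nat_lit 0) (XT.lf (nat_lit 0) (nat_lit 283653251991) (nat_lit 76) (nat_lit 273689328187) (nat_lit 76) (nat_lit 165581285771) (nat_lit 25) (nat_lit 4) (nat_lit 26) (nat_lit 5) (nat_lit 26) (nat_lit 4) (nat_lit 389) (nat_lit 357) (nat_lit 274)) (XT.lf (nat_lit 0) (nat_lit 212332692872) (nat_lit 152) (nat_lit 474501909927) (nat_lit 0) (nat_lit 112232533949) (nat_lit 23) (nat_lit 5) (nat_lit 25) (nat_lit 4) (nat_lit 23) (nat_lit 4) (nat_lit 390) (nat_lit 357) (nat_lit 273))))))))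
noncomputable def xc78 : XT := (XT.nd (nat_lit 1638) (nat_lit 228) (nat_lit 0) (XT.nd (nat_lit 780) (nat_lit 532) (nat_lit 0) (XT.nd (nat_lit 390) (nat_lit 380) (nat_lit 0) (XT.nd (nat_lit 156) (nat_lit 304) (nat_lit 0) (XT.nd (nat_lit 78) (nat_lit 152) (nat_lit 0) (XT.lf (nat_lit 0) (nat_lit 348940699461) (nat_lit 76) (nat_lit 317549279513) (nat_lit 76) (nat_lit 217449016547) (nat_lit 22) (nat_lit 4) (nat_lit 23) (nat_lit 5) (nat_lit 23) (nat_lit 4) (nat_lit 391) (nat_lit 357) (nat_lit 272)) (XT.lf (nat_lit 0) (nat_lit 222910714072) (nat_lit 152) (nat_lit 625923173241) (nat_lit 0) (nat_lit 130225201628) (nat_lit 20) (nat_lit 5) (nat_lit 22) (nat_lit 4) (nat_lit 20) (nat_lit 4) (nat_lit 392) (nat_lit 357) (nat_lit 271))) (XT.nd (nat_lit 78) (nat_lit 228) (nat_lit 0) (XT.lf (nat_lit 0) (nat_lit 320517563183) (nat_lit 76) (nat_lit 428768216823) (nat_lit 76) (nat_lit 336082631535) (nat_lit 19)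 (nat_lit 4) (nat_lit 20) (nat_lit 5) (nat_lit 20) (nat_lit 4) (nat_lit 393) (nat_lit 357) (nat_lit 270)) (XT.nd (nat_lit 78) (nat_lit 76) (nat_lit 0) (XT.lf (nat_lit 0) (nat_lit 166365725224) (nat_lit 152) (nat_lit 958291837488) (nat_lit 0) (nat_lit 80545680196) (nat_lit 17) (nat_lit 5) (nat_lit 19) (nat_lit 4) (nat_lit 17) (nat_lit 4) (nat_lit 394) (nat_lit 357) (nat_lit 269)) (XT.lf (nat_lit 0) (nat_lit 98728152859) (nat_lit 76) (nat_lit 663197671091) (nat_lit 76) (nat_lit 577377575062) (nat_lit 16) (nat_lit 4) (nat_lit 17) (nat_lit 5) (nat_lit 17) (nat_lit 4) (nat_lit 395) (nat_lit 357) (nat_lit 268))))) (XT.nd (nat_lit 156) (nat_lit 228) (nat_lit 0) (XT.nd (nat_lit 78) (nat_lit 152) (nat_lit 0) (XT.lf (nat_lit 0) (nat_lit 1372330985630) (nat_lit 76) (nat_lit 102387908379) (nat_lit 76) (nat_lit 16567768002) (nat_lit 16) (nat_lit 4) (nat_lit 17) (nat_lit 5) (nat_lit 17) (nat_lit 4) (nat_lit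 396) (nat_lit 357) (nat_lit 267)) (XT.lf (nat_lit 0) (nat_lit 640390912849) (nat_lit 152) (nat_lit 460062889578) (nat_lit 0) (nat_lit 560927784200) (nat_lit 14) (nat_lit 5) (nat_lit 16) (nat_lit 4) (nat_lit 14) (nat_lit 4) (nat_lit 397) (nat_lit 357) (nat_lit 266))) (XT.nd (nat_lit 78) (nat_lit 152) (nat_lit 0) (XT.lf (nat_lit 0) (nat_lit 912384134340) (nat_lit 76) (nat_lit 510883466319) (nat_lit 76) (nat_lit 431420306621) (nat_lit 13) (nat_lit 4) (nat_lit 14) (nat_lit 5) (nat_lit 14) (nat_lit 4) (nat_lit 398) (nat_lit 357) (nat_lit 265)) (XT.nd (nat_lit 78) (nat_lit 0) (nat_lit 0) (XT.lf (nat_lit 0) (nat_lit 263856299254) (nat_lit 152) (nat_lit 1620011699461) (nat_lit 0) (nat_lit 190279274534) (nat_lit 11) (nat_lit 5) (nat_lit 13) (nat_lit 4) (nat_lit 11) (nat_lit 4) (nat_lit 399) (nat_lit 357) (nat_lit 264)) (XT.lf (nat_lit 0) (nat_lit 1080881805168) (nat_lit 152) (nat_lit 234002338006)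 (nat_lit 0) (nat_lit 1007304758709) (nat_lit 11) (nat_lit 5) (nat_lit 13) (nat_lit 4) (nat_lit 11) (nat_lit 4) (nat_lit 400) (nat_lit 357) (nat_lit 263)))))) (XT.nd (nat_lit 390) (nat_lit 228) (nat_lit 0) (XT.nd (nat_lit 156) (nat_lit 76) (nat_lit 0) (XT.nd (nat_lit 78) (nat_lit 152) (nat_lit 0) (XT.lf (nat_lit 0) (nat_lit 1431517848296) (nat_lit 76) (nat_lit 623370891816) (nat_lit 76) (nat_lit 549793826453) (nat_lit 10) (nat_lit 4) (nat_lit 11) (nat_lit 5) (nat_lit 11) (nat_lit 4) (nat_lit 401) (nat_lit 357) (nat_lit 262)) (XT.lf (nat_lit 0) (nat_lit 255689455832) (nat_lit 152) (nat_lit 2484024357769) (nat_lit 0) (nat_lit 187562528239) (nat_lit 8) (nat_lit 5) (nat_lit 10) (nat_lit 4) (nat_lit 8) (nat_lit 4) (nat_lit 402) (nat_lit 357) (nat_lit 261))) (XT.nd (nat_lit 78) (nat_lit 76) (nat_lit 0) (XT.lf (nat_lit 0) (nat_lit 1202649975907) (nat_lit 152) (nat_lit 955687049672) (nat_lit 0) (nat_lit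 1134523035079) (nat_lit 8) (nat_lit 5) (nat_lit 10) (nat_lit 4) (nat_lit 8) (nat_lit 4) (nat_lit 403) (nat_lit 357) (nat_lit 260)) (XT.nd (nat_lit 78) (nat_lit 0) (nat_lit 0) (XT.lf (nat_lit 0) (nat_lit 844126805784) (nat_lit 76) (nat_lit 1467828704475) (nat_lit 76) (nat_lit 1399701752139) (nat_lit 7) (nat_lit 4) (nat_lit 8) (nat_lit 5) (nat_lit 8) (nat_lit 4) (nat_lit 404) (nat_lit 357) (nat_lit 259)) (XT.lf (nat_lit 0) (nat_lit 2971785611963) (nat_lit 76) (nat_lit 643694757599) (nat_lit 76) (nat_lit 575567795255) (nat_lit 7) (nat_lit 4) (nat_lit 8) (nat_lit 5) (nat_lit 8) (nat_lit 4) (nat_lit 405) (nat_lit 357) (nat_lit 258))))) (XT.nd (nat_lit 234) (nat_lit 76) (nat_lit 0) (XT.nd (nat_lit 78) (nat_lit 0) (nat_lit 0) (XT.lf (nat_lit 0) (nat_lit 378445149366) (nat_lit 152) (nat_lit 4045831672897) (nat_lit 0) (nat_lit 315364620620) (nat_lit 5) (nat_lit 5) (nat_lit 7) (nat_lit 4) (nat_lit 5)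 (nat_lit 4) (nat_lit 406) (nat_lit 357) (nat_lit 257)) (XT.nd (nat_lit 78) (nat_lit 0) (nat_lit 0) (XT.lf (nat_lit 0) (nat_lit 1496671249289) (nat_lit 152) (nat_lit 2434650464806) (nat_lit 0) (nat_lit 1433590713537) (nat_lit 5) (nat_lit 5) (nat_lit 7) (nat_lit 4) (nat_lit 5) (nat_lit 4) (nat_lit 407) (nat_lit 357) (nat_lit 256)) (XT.lf (nat_lit 0) (nat_lit 2782631041815) (nat_lit 152) (nat_lit 581792536100) (nat_lit 0) (nat_lit 2719550499970) (nat_lit 5) (nat_lit 5) (nat_lit 7) (nat_lit 4) (nat_lit 5) (nat_lit 4) (nat_lit 408) (nat_lit 357) (nat_lit 255)))) (XT.nd (nat_lit 78) (nat_lit 0) (nat_lit 0) (XT.lf (nat_lit 0) (nat_lit 1630560943601) (nat_lit 76) (nat_lit 2670138696149) (nat_lit 76) (nat_lit 2607058149006) (nat_lit 4) (nat_lit 4) (nat_lit 5) (nat_lit 5) (nat_lit 5) (nat_lit 4) (nat_lit 409) (nat_lit 357) (nat_lit 254)) (XT.nd (nat_lit 78) (nat_lit 0) (nat_lit 0) (XT.lf (nat_lit 0)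 (nat_lit 4209998667156) (nat_lit 76) (nat_lit 1853417946955) (nat_lit 76) (nat_lit 1790337395205) (nat_lit 4) (nat_lit 4) (nat_lit 5) (nat_lit 5) (nat_lit 5) (nat_lit 4) (nat_lit 410) (nat_lit 357) (nat_lit 253)) (XT.lf (nat_lit 0) (nat_lit 7176351730446) (nat_lit 76) (nat_lit 914189250291) (nat_lit 76) (nat_lit 851108694535) (nat_lit 4) (nat_lit 4) (nat_lit 5) (nat_lit 5) (nat_lit 5) (nat_lit 4) (nat_lit 411) (nat_lit 357) (nat_lit 252))))))) (XT.nd (nat_lit 780) (nat_lit 0) (nat_lit 0) (XT.nd (nat_lit 390) (nat_lit 76) (nat_lit 0) (XT.nd (nat_lit 156) (nat_lit 0) (nat_lit 0) (XT.nd (nat_lit 78) (nat_lit 0) (nat_lit 0) (XT.lf (nat_lit 0) (nat_lit 231796781835) (nat_lit 152) (nat_lit 9785963592441) (nat_lit 0) (nat_lit 173388856613) (nat_lit 2) (nat_lit 5) (nat_lit 4) (nat_lit 4) (nat_lit 2) (nat_lit 4) (nat_lit 412) (nat_lit 357) (nat_lit 251)) (XT.lf (nat_lit 0) (nat_lit 1506189554623) (nat_lit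 152) (nat_lit 8665978272493) (nat_lit 0) (nat_lit 1447781626596) (nat_lit 2) (nat_lit 5) (nat_lit 4) (nat_lit 4) (nat_lit 2) (nat_lit 4) (nat_lit 413) (nat_lit 357) (nat_lit 250))) (XT.nd (nat_lit 78) (nat_lit 0) (nat_lit 0) (XT.lf (nat_lit 0) (nat_lit 2971741131253) (nat_lit 152) (nat_lit 7377995386883) (nat_lit 0) (nat_lit 2913333200788) (nat_lit 2) (nat_lit 5) (nat_lit 4) (nat_lit 4) (nat_lit 2) (nat_lit 4) (nat_lit 414) (nat_lit 357) (nat_lit 249)) (XT.nd (nat_lit 78) (nat_lit 0) (nat_lit 0) (XT.lf (nat_lit 0) (nat_lit 4657125346921) (nat_lit 152) (nat_lit 5896815270458) (nat_lit 0) (nat_lit 4598717414335) (nat_lit 2) (nat_lit 5) (nat_lit 4) (nat_lit 4) (nat_lit 2) (nat_lit 4) (nat_lit 415) (nat_lit 357) (nat_lit 248)) (XT.lf (nat_lit 0) (nat_lit 6595317110194) (nat_lit 152) (nat_lit 4193458312245) (nat_lit 0) (nat_lit 6536909175763) (nat_lit 2) (nat_lit 5) (nat_lit 4) (nat_lit 4) (nat_lit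 2) (nat_lit 4) (nat_lit 416) (nat_lit 357) (nat_lit 247))))) (XT.nd (nat_lit 156) (nat_lit 0) (nat_lit 0) (XT.nd (nat_lit 78) (nat_lit 76) (nat_lit 0) (XT.lf (nat_lit 0) (nat_lit 8824237564266) (nat_lit 152) (nat_lit 2234597963061) (nat_lit 0) (nat_lit 8765829628232) (nat_lit 2) (nat_lit 5) (nat_lit 4) (nat_lit 4) (nat_lit 2) (nat_lit 4) (nat_lit 417) (nat_lit 357) (nat_lit 246)) (XT.lf (nat_lit 0) (nat_lit 19043961759) (nat_lit 76) (nat_lit 11368910068349) (nat_lit 76) (nat_lit 11310502130920) (nat_lit 1) (nat_lit 4) (nat_lit 2) (nat_lit 5) (nat_lit 2) (nat_lit 4) (nat_lit 418) (nat_lit 357) (nat_lit 245))) (XT.nd (nat_lit 78) (nat_lit 0) (nat_lit 0) (XT.lf (nat_lit 0) (nat_lit 2746052517702) (nat_lit 76) (nat_lit 11655233304858) (nat_lit 76) (nat_lit 11596825366217) (nat_lit 1) (nat_lit 4) (nat_lit 2) (nat_lit 5) (nat_lit 2) (nat_lit 4) (nat_lit 419) (nat_lit 357) (nat_lit 244)) (XT.nd (nat_lit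 78) (nat_lit 0) (nat_lit 0) (XT.lf (nat_lit 0) (nat_lit 5882112251304) (nat_lit 76) (nat_lit 11984505081580) (nat_lit 76) (nat_lit 11926097141885) (nat_lit 1) (nat_lit 4) (nat_lit 2) (nat_lit 5) (nat_lit 2) (nat_lit 4) (nat_lit 420) (nat_lit 357) (nat_lit 243)) (XT.lf (nat_lit 0) (nat_lit 9488580853006) (nat_lit 76) (nat_lit 12363167672407) (nat_lit 76) (nat_lit 12304759731794) (nat_lit 1) (nat_lit 4) (nat_lit 2) (nat_lit 5) (nat_lit 2) (nat_lit 4) (nat_lit 421) (nat_lit 357) (nat_lit 242)))))) (XT.nd (nat_lit 48282) (nat_lit 0) (nat_lit 5700) (XT.nd (nat_lit 156) (nat_lit 0) (nat_lit 0) (XT.nd (nat_lit 78) (nat_lit 0) (nat_lit 0) (XT.lf (nat_lit 0) (nat_lit 13636019665014) (nat_lit 76) (nat_lit 12798629693246) (nat_lit 76) (nat_lit 12740221751836) (nat_lit 1) (nat_lit 4) (nat_lit 2) (nat_lit 5) (nat_lit 2) (nat_lit 4) (nat_lit 422) (nat_lit 357) (nat_lit 241)) (XT.lf (nat_lit 0) (nat_lit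 18405574229303) (nat_lit 76) (nat_lit 13299411053200) (nat_lit 76) (nat_lit 13241003111097) (nat_lit 1) (nat_lit 4) (nat_lit 2) (nat_lit 5) (nat_lit 2) (nat_lit 4) (nat_lit 423) (nat_lit 357) (nat_lit 240))) (XT.nd (nat_lit 47970) (nat_lit 0) (nat_lit 6460) (XT.lf (nat_lit 0) (nat_lit 23890561917783) (nat_lit 76) (nat_lit 13875309648443) (nat_lit 76) (nat_lit 13816901705737) (nat_lit 1) (nat_lit 4) (nat_lit 2) (nat_lit 5) (nat_lit 2) (nat_lit 4) (nat_lit 424) (nat_lit 357) (nat_lit 239)) (XT.nd (nat_lit 78) (nat_lit 532) (nat_lit 0) (XT.lf (nat_lit 0) (nat_lit 24682510341) (nat_lit 532) (nat_lit 223313435) (nat_lit 532) (nat_lit 223313435) (nat_lit 93) (nat_lit 3) (nat_lit 100) (nat_lit 3) (nat_lit 100) (nat_lit 5) (nat_lit 358) (nat_lit 358) (nat_lit 304)) (XT.lf (nat_lit 0) (nat_lit 340328893) (nat_lit 532) (nat_lit 5009786332) (nat_lit 608) (nat_lit 48579168556) (nat_lit 86) (nat_lit 5)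 (nat_lit 93) (nat_lit 3) (nat_lit 94) (nat_lit 5) (nat_lit 359) (nat_lit 358) (nat_lit 303))))) (XT.nd (nat_lit 234) (nat_lit 836) (nat_lit 0) (XT.nd (nat_lit 78) (nat_lit 0) (nat_lit 76) (XT.lf (nat_lit 0) (nat_lit 4049577267) (nat_lit 532) (nat_lit 9144628587) (nat_lit 608) (nat_lit 44767402035) (nat_lit 87) (nat_lit 5) (nat_lit 94) (nat_lit 5) (nat_lit 95) (nat_lit 5) (nat_lit 360) (nat_lit 358) (nat_lit 302)) (XT.nd (nat_lit 78) (nat_lit 0) (nat_lit 76) (XT.lf (nat_lit 0) (nat_lit 10813736133) (nat_lit 532) (nat_lit 12644280409) (nat_lit 608) (nat_lit 38940883054) (nat_lit 88) (nat_lit 5) (nat_lit 95) (nat_lit 5) (nat_lit 96) (nat_lit 5) (nat_lit 361) (nat_lit 358) (nat_lit 301)) (XT.lf (nat_lit 0) (nat_lit 21272415735) (nat_lit 532) (nat_lit 15299585938) (nat_lit 76) (nat_lit 30715392369) (nat_lit 89) (nat_lit 5) (nat_lit 96) (nat_lit 5) (nat_lit 90) (nat_lit 5) (nat_lit 362) (nat_lit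 358) (nat_lit 300)))) (XT.nd (nat_lit 78) (nat_lit 456) (nat_lit 0) (XT.lf (nat_lit 0) (nat_lit 36173539267) (nat_lit 608) (nat_lit 16860162150) (nat_lit 76) (nat_lit 19645570514) (nat_lit 82) (nat_lit 5) (nat_lit 90) (nat_lit 5) (nat_lit 83) (nat_lit 5) (nat_lit 363) (nat_lit 358) (nat_lit 299)) (XT.nd (nat_lit 78) (nat_lit 228) (nat_lit 0) (XT.lf (nat_lit 0) (nat_lit 56390461994) (nat_lit 304) (nat_lit 17027636259) (nat_lit 76) (nat_lit 5215383352) (nat_lit 79) (nat_lit 5) (nat_lit 83) (nat_lit 5) (nat_lit 80) (nat_lit 5) (nat_lit 364) (nat_lit 358) (nat_lit 298)) (XT.lf (nat_lit 0) (nat_lit 69408655255) (nat_lit 228) (nat_lit 13866518412) (nat_lit 304) (nat_lit 1914829502) (nat_lit 76) (nat_lit 5) (nat_lit 79) (nat_lit 5) (nat_lit 80) (nat_lit 5) (nat_lit 365) (nat_lit 358) (nat_lit 297))))))))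
noncomputable def xc79 : XT := (XT.nd (nat_lit 1638) (nat_lit 1976) (nat_lit 0) (XT.nd (nat_lit 780) (nat_lit 1520) (nat_lit 0) (XT.nd (nat_lit 390) (nat_lit 684) (nat_lit 0) (XT.nd (nat_lit 156) (nat_lit 684) (nat_lit 0) (XT.nd (nat_lit 78) (nat_lit 228) (nat_lit 0) (XT.lf (nat_lit 0) (nat_lit 24223712412) (nat_lit 304) (nat_lit 13231942782) (nat_lit 76) (nat_lit 54926272584) (nat_lit 72) (nat_lit 5) (nat_lit 76) (nat_lit 5) (nat_lit 73) (nat_lit 5) (nat_lit 366) (nat_lit 358) (nat_lit 296)) (XT.lf (nat_lit 0) (nat_lit 58113294320) (nat_lit 304) (nat_lit 8405223979) (nat_lit 76) (nat_lit 33814653216) (nat_lit 69) (nat_lit 5) (nat_lit 73) (nat_lit 5) (nat_lit 70) (nat_lit 5) (nat_lit 367) (nat_lit 358) (nat_lit 295))) (XT.nd (nat_lit 78) (nat_lit 532) (nat_lit 0) (XT.lf (nat_lit 0) (nat_lit 101305697299) (nat_lit 228) (nat_lit 734800268) (nat_lit 76) (nat_lit 7099053833) (nat_lit 67) (nat_lit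 5) (nat_lit 70) (nat_lit 5) (nat_lit 68) (nat_lit 5) (nat_lit 368) (nat_lit 358) (nat_lit 294)) (XT.nd (nat_lit 78) (nat_lit 152) (nat_lit 0) (XT.lf (nat_lit 0) (nat_lit 9294773533) (nat_lit 152) (nat_lit 26367250169) (nat_lit 228) (nat_lit 83100797162) (nat_lit 62) (nat_lit 5) (nat_lit 64) (nat_lit 5) (nat_lit 65) (nat_lit 5) (nat_lit 369) (nat_lit 358) (nat_lit 293)) (XT.lf (nat_lit 0) (nat_lit 22848371757) (nat_lit 152) (nat_lit 67694289608) (nat_lit 228) (nat_lit 38844703068) (nat_lit 60) (nat_lit 5) (nat_lit 62) (nat_lit 5) (nat_lit 63) (nat_lit 5) (nat_lit 370) (nat_lit 358) (nat_lit 292))))) (XT.nd (nat_lit 156) (nat_lit 380) (nat_lit 0) (XT.nd (nat_lit 78) (nat_lit 152) (nat_lit 0) (XT.lf (nat_lit 0) (nat_lit 17032138084) (nat_lit 152) (nat_lit 100532196685) (nat_lit 76) (nat_lit 23571262048) (nat_lit 58) (nat_lit 5) (nat_lit 60) (nat_lit 5) (nat_lit 59) (nat_lit 5) (nat_lit 371) (nat_lit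 358) (nat_lit 291)) (XT.lf (nat_lit 0) (nat_lit 61937978913) (nat_lit 152) (nat_lit 23659585732) (nat_lit 228) (nat_lit 68439215358) (nat_lit 56) (nat_lit 5) (nat_lit 58) (nat_lit 5) (nat_lit 59) (nat_lit 5) (nat_lit 372) (nat_lit 358) (nat_lit 290))) (XT.nd (nat_lit 78) (nat_lit 228) (nat_lit 0) (XT.lf (nat_lit 0) (nat_lit 3140347618) (nat_lit 152) (nat_lit 79830895976) (nat_lit 76) (nat_lit 85322866752) (nat_lit 54) (nat_lit 5) (nat_lit 56) (nat_lit 5) (nat_lit 55) (nat_lit 5) (nat_lit 373) (nat_lit 358) (nat_lit 289)) (XT.nd (nat_lit 78) (nat_lit 76) (nat_lit 0) (XT.lf (nat_lit 0) (nat_lit 88612815469) (nat_lit 228) (nat_lit 64198357067) (nat_lit 76) (nat_lit 31159989592) (nat_lit 52) (nat_lit 5) (nat_lit 55) (nat_lit 5) (nat_lit 53) (nat_lit 4) (nat_lit 374) (nat_lit 358) (nat_lit 288)) (XT.lf (nat_lit 0) (nat_lit 157876490513) (nat_lit 76) (nat_lit 37503957329) (nat_lit 152) (nat_lit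 5941380375) (nat_lit 51) (nat_lit 5) (nat_lit 52) (nat_lit 5) (nat_lit 53) (nat_lit 4) (nat_lit 375) (nat_lit 358) (nat_lit 287)))))) (XT.nd (nat_lit 390) (nat_lit 760) (nat_lit 0) (XT.nd (nat_lit 156) (nat_lit 380) (nat_lit 0) (XT.nd (nat_lit 78) (nat_lit 152) (nat_lit 0) (XT.lf (nat_lit 0) (nat_lit 101384279442) (nat_lit 228) (nat_lit 19228504642) (nat_lit 76) (nat_lit 99728466434) (nat_lit 48) (nat_lit 5) (nat_lit 51) (nat_lit 5) (nat_lit 49) (nat_lit 4) (nat_lit 376) (nat_lit 358) (nat_lit 286)) (XT.lf (nat_lit 0) (nat_lit 12968224857) (nat_lit 76) (nat_lit 220776964008) (nat_lit 76) (nat_lit 7712995901) (nat_lit 46) (nat_lit 4) (nat_lit 47) (nat_lit 5) (nat_lit 47) (nat_lit 4) (nat_lit 377) (nat_lit 358) (nat_lit 285))) (XT.nd (nat_lit 78) (nat_lit 228) (nat_lit 0) (XT.lf (nat_lit 0) (nat_lit 50094547133) (nat_lit 76) (nat_lit 76424465160) (nat_lit 152) (nat_lit 138007131520) (nat_lit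 44) (nat_lit 5) (nat_lit 45) (nat_lit 5) (nat_lit 46) (nat_lit 4) (nat_lit 378) (nat_lit 358) (nat_lit 284)) (XT.nd (nat_lit 78) (nat_lit 76) (nat_lit 0) (XT.lf (nat_lit 0) (nat_lit 1515752745) (nat_lit 152) (nat_lit 194130469825) (nat_lit 76) (nat_lit 94484924488) (nat_lit 42) (nat_lit 5) (nat_lit 44) (nat_lit 5) (nat_lit 43) (nat_lit 4) (nat_lit 379) (nat_lit 358) (nat_lit 283)) (XT.lf (nat_lit 0) (nat_lit 148224799428) (nat_lit 76) (nat_lit 17885179578) (nat_lit 152) (nat_lit 152194996026) (nat_lit 41) (nat_lit 5) (nat_lit 42) (nat_lit 5) (nat_lit 43) (nat_lit 4) (nat_lit 380) (nat_lit 358) (nat_lit 282))))) (XT.nd (nat_lit 234) (nat_lit 380) (nat_lit 0) (XT.nd (nat_lit 78) (nat_lit 228) (nat_lit 0) (XT.lf (nat_lit 0) (nat_lit 20168299748) (nat_lit 152) (nat_lit 140720847804) (nat_lit 76) (nat_lit 188549559179) (nat_lit 39) (nat_lit 5) (nat_lit 41) (nat_lit 5) (nat_lit 40) (nat_lit 4) (nat_lit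 381) (nat_lit 358) (nat_lit 281)) (XT.nd (nat_lit 78) (nat_lit 152) (nat_lit 0) (XT.lf (nat_lit 0) (nat_lit 223282732872) (nat_lit 152) (nat_lit 106388320624) (nat_lit 0) (nat_lit 54142532561) (nat_lit 38) (nat_lit 5) (nat_lit 40) (nat_lit 4) (nat_lit 38) (nat_lit 4) (nat_lit 382) (nat_lit 358) (nat_lit 280)) (XT.lf (nat_lit 0) (nat_lit 49530920002) (nat_lit 152) (nat_lit 66116293351) (nat_lit 76) (nat_lit 306217946176) (nat_lit 36) (nat_lit 5) (nat_lit 38) (nat_lit 5) (nat_lit 37) (nat_lit 4) (nat_lit 383) (nat_lit 358) (nat_lit 279)))) (XT.nd (nat_lit 78) (nat_lit 304) (nat_lit 0) (XT.lf (nat_lit 0) (nat_lit 299386074414) (nat_lit 152) (nat_lit 21707603477) (nat_lit 0) (nat_lit 142774073893) (nat_lit 35) (nat_lit 5) (nat_lit 37) (nat_lit 4) (nat_lit 35) (nat_lit 4) (nat_lit 384) (nat_lit 358) (nat_lit 278)) (XT.nd (nat_lit 78) (nat_lit 76) (nat_lit 0) (XT.lf (nat_lit 0) (nat_lit 31133494664)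 (nat_lit 76) (nat_lit 59128899514) (nat_lit 152) (nat_lit 420209478222) (nat_lit 32) (nat_lit 5) (nat_lit 33) (nat_lit 5) (nat_lit 34) (nat_lit 4) (nat_lit 385) (nat_lit 358) (nat_lit 277)) (XT.lf (nat_lit 0) (nat_lit 86878861523) (nat_lit 76) (nat_lit 309993066858) (nat_lit 76) (nat_lit 164981462415) (nat_lit 31) (nat_lit 4) (nat_lit 32) (nat_lit 5) (nat_lit 32) (nat_lit 4) (nat_lit 386) (nat_lit 358) (nat_lit 276))))))) (XT.nd (nat_lit 780) (nat_lit 836) (nat_lit 0) (XT.nd (nat_lit 390) (nat_lit 532) (nat_lit 0) (XT.nd (nat_lit 156) (nat_lit 380) (nat_lit 0) (XT.nd (nat_lit 78) (nat_lit 76) (nat_lit 0) (XT.lf (nat_lit 0) (nat_lit 141843576847) (nat_lit 152) (nat_lit 469698482522) (nat_lit 0) (nat_lit 7573388166) (nat_lit 29) (nat_lit 5) (nat_lit 31) (nat_lit 4) (nat_lit 29) (nat_lit 4) (nat_lit 387) (nat_lit 358) (nat_lit 275)) (XT.lf (nat_lit 0) (nat_lit 209344200908) (nat_lit 76) (nat_lit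 303652161843) (nat_lit 76) (nat_lit 169381812669) (nat_lit 28) (nat_lit 4) (nat_lit 29) (nat_lit 5) (nat_lit 29) (nat_lit 4) (nat_lit 388) (nat_lit 358) (nat_lit 274))) (XT.nd (nat_lit 78) (nat_lit 228) (nat_lit 0) (XT.lf (nat_lit 0) (nat_lit 197923589810) (nat_lit 152) (nat_lit 481454642965) (nat_lit 0) (nat_lit 73599063205) (nat_lit 26) (nat_lit 5) (nat_lit 28) (nat_lit 4) (nat_lit 26) (nat_lit 4) (nat_lit 389) (nat_lit 358) (nat_lit 273)) (XT.nd (nat_lit 78) (nat_lit 152) (nat_lit 0) (XT.lf (nat_lit 0) (nat_lit 326220259742) (nat_lit 76) (nat_lit 314733039233) (nat_lit 76) (nat_lit 190408400262) (nat_lit 25) (nat_lit 4) (nat_lit 26) (nat_lit 5) (nat_lit 26) (nat_lit 4) (nat_lit 390) (nat_lit 358) (nat_lit 272)) (XT.lf (nat_lit 0) (nat_lit 244191571266) (nat_lit 152) (nat_lit 545658843649) (nat_lit 0) (nat_lit 129076074339) (nat_lit 23) (nat_lit 5) (nat_lit 25) (nat_lit 4) (nat_lit 23) (nat_lit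 4) (nat_lit 391) (nat_lit 358) (nat_lit 271))))) (XT.nd (nat_lit 156) (nat_lit 304) (nat_lit 0) (XT.nd (nat_lit 78) (nat_lit 152) (nat_lit 0) (XT.lf (nat_lit 0) (nat_lit 401298603677) (nat_lit 76) (nat_lit 365173080047) (nat_lit 76) (nat_lit 250057504449) (nat_lit 22) (nat_lit 4) (nat_lit 23) (nat_lit 5) (nat_lit 23) (nat_lit 4) (nat_lit 392) (nat_lit 358) (nat_lit 270)) (XT.lf (nat_lit 0) (nat_lit 256355217846) (nat_lit 152) (nat_lit 719795444090) (nat_lit 0) (nat_lit 149766658579) (nat_lit 20) (nat_lit 5) (nat_lit 22) (nat_lit 4) (nat_lit 20) (nat_lit 4) (nat_lit 393) (nat_lit 358) (nat_lit 269))) (XT.nd (nat_lit 78) (nat_lit 228) (nat_lit 0) (XT.lf (nat_lit 0) (nat_lit 368610031115) (nat_lit 76) (nat_lit 493075839301) (nat_lit 76) (nat_lit 386487224953) (nat_lit 19) (nat_lit 4) (nat_lit 20) (nat_lit 5) (nat_lit 20) (nat_lit 4) (nat_lit 394) (nat_lit 358) (nat_lit 268)) (XT.nd (nat_lit 78)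 (nat_lit 76) (nat_lit 0) (XT.lf (nat_lit 0) (nat_lit 191327535639) (nat_lit 152) (nat_lit 1102021307694) (nat_lit 0) (nat_lit 92634329858) (nat_lit 17) (nat_lit 5) (nat_lit 19) (nat_lit 4) (nat_lit 17) (nat_lit 4) (nat_lit 395) (nat_lit 358) (nat_lit 267)) (XT.lf (nat_lit 0) (nat_lit 113550470323) (nat_lit 76) (nat_lit 762670587039) (nat_lit 76) (nat_lit 663977342694) (nat_lit 16) (nat_lit 4) (nat_lit 17) (nat_lit 5) (nat_lit 17) (nat_lit 4) (nat_lit 396) (nat_lit 358) (nat_lit 266)))))) (XT.nd (nat_lit 390) (nat_lit 456) (nat_lit 0) (XT.nd (nat_lit 156) (nat_lit 228) (nat_lit 0) (XT.nd (nat_lit 78) (nat_lit 152) (nat_lit 0) (XT.lf (nat_lit 0) (nat_lit 1578192020027) (nat_lit 76) (nat_lit 117740238361) (nat_lit 76) (nat_lit 19046960483) (nat_lit 16) (nat_lit 4) (nat_lit 17) (nat_lit 5) (nat_lit 17) (nat_lit 4) (nat_lit 397) (nat_lit 358) (nat_lit 265)) (XT.lf (nat_lit 0) (nat_lit 736454873280)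 (nat_lit 152) (nat_lit 529061343868) (nat_lit 0) (nat_lit 645072181578) (nat_lit 14) (nat_lit 5) (nat_lit 16) (nat_lit 4) (nat_lit 14) (nat_lit 4) (nat_lit 398) (nat_lit 358) (nat_lit 264))) (XT.nd (nat_lit 78) (nat_lit 152) (nat_lit 0) (XT.lf (nat_lit 0) (nat_lit 1049251804308) (nat_lit 76) (nat_lit 587510807282) (nat_lit 76) (nat_lit 496128092102) (nat_lit 13) (nat_lit 4) (nat_lit 14) (nat_lit 5) (nat_lit 14) (nat_lit 4) (nat_lit 399) (nat_lit 358) (nat_lit 263)) (XT.nd (nat_lit 78) (nat_lit 0) (nat_lit 0) (XT.lf (nat_lit 0) (nat_lit 303439433769) (nat_lit 152) (nat_lit 1863003765588) (nat_lit 0) (nat_lit 218825789699) (nat_lit 11) (nat_lit 5) (nat_lit 13) (nat_lit 4) (nat_lit 11) (nat_lit 4) (nat_lit 400) (nat_lit 358) (nat_lit 262)) (XT.lf (nat_lit 0) (nat_lit 1243018153880) (nat_lit 152) (nat_lit 269094263671) (nat_lit 0) (nat_lit 1158404493372) (nat_lit 11) (nat_lit 5) (nat_lit 13) (nat_lit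 4) (nat_lit 11) (nat_lit 4) (nat_lit 401) (nat_lit 358) (nat_lit 261))))) (XT.nd (nat_lit 234) (nat_lit 228) (nat_lit 0) (XT.nd (nat_lit 78) (nat_lit 152) (nat_lit 0) (XT.lf (nat_lit 0) (nat_lit 1646253237439) (nat_lit 76) (nat_lit 716872545192) (nat_lit 76) (nat_lit 632258870390) (nat_lit 10) (nat_lit 4) (nat_lit 11) (nat_lit 5) (nat_lit 11) (nat_lit 4) (nat_lit 402) (nat_lit 358) (nat_lit 260)) (XT.nd (nat_lit 78) (nat_lit 0) (nat_lit 0) (XT.lf (nat_lit 0) (nat_lit 294046467445) (nat_lit 152) (nat_lit 2856620577455) (nat_lit 0) (nat_lit 215700460750) (nat_lit 8) (nat_lit 5) (nat_lit 10) (nat_lit 4) (nat_lit 8) (nat_lit 4) (nat_lit 403) (nat_lit 358) (nat_lit 259)) (XT.lf (nat_lit 0) (nat_lit 1383050596848) (nat_lit 152) (nat_lit 1099033642794) (nat_lit 0) (nat_lit 1304704580145) (nat_lit 8) (nat_lit 5) (nat_lit 10) (nat_lit 4) (nat_lit 8) (nat_lit 4) (nat_lit 404) (nat_lit 358) (nat_lit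 258)))) (XT.nd (nat_lit 78) (nat_lit 152) (nat_lit 0) (XT.lf (nat_lit 0) (nat_lit 970751743808) (nat_lit 76) (nat_lit 1687999952303) (nat_lit 76) (nat_lit 1609653926898) (nat_lit 7) (nat_lit 4) (nat_lit 8) (nat_lit 5) (nat_lit 8) (nat_lit 4) (nat_lit 405) (nat_lit 358) (nat_lit 257)) (XT.nd (nat_lit 78) (nat_lit 152) (nat_lit 0) (XT.lf (nat_lit 0) (nat_lit 3417558599111) (nat_lit 76) (nat_lit 740246312244) (nat_lit 76) (nat_lit 661900279272) (nat_lit 7) (nat_lit 4) (nat_lit 8) (nat_lit 5) (nat_lit 8) (nat_lit 4) (nat_lit 406) (nat_lit 358) (nat_lit 256)) (XT.lf (nat_lit 0) (nat_lit 435214316297) (nat_lit 152) (nat_lit 4652701464372) (nat_lit 0) (nat_lit 362671687082) (nat_lit 5) (nat_lit 5) (nat_lit 7) (nat_lit 4) (nat_lit 5) (nat_lit 4) (nat_lit 407) (nat_lit 358) (nat_lit 255))))))))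
noncomputable def xc80 : XT := (XT.nd (nat_lit 49608) (nat_lit 0) (nat_lit 2812) (XT.nd (nat_lit 780) (nat_lit 76) (nat_lit 0) (XT.nd (nat_lit 390) (nat_lit 152) (nat_lit 0) (XT.nd (nat_lit 156) (nat_lit 76) (nat_lit 0) (XT.nd (nat_lit 78) (nat_lit 0) (nat_lit 0) (XT.lf (nat_lit 0) (nat_lit 1721174018879) (nat_lit 152) (nat_lit 2799843721954) (nat_lit 0) (nat_lit 1648631384366) (nat_lit 5) (nat_lit 5) (nat_lit 7) (nat_lit 4) (nat_lit 5) (nat_lit 4) (nat_lit 408) (nat_lit 358) (nat_lit 254)) (XT.lf (nat_lit 0) (nat_lit 3200027508693) (nat_lit 152) (nat_lit 669057666452) (nat_lit 0) (nat_lit 3127484869573) (nat_lit 5) (nat_lit 5) (nat_lit 7) (nat_lit 4) (nat_lit 5) (nat_lit 4) (nat_lit 409) (nat_lit 358) (nat_lit 253))) (XT.nd (nat_lit 78) (nat_lit 0) (nat_lit 0) (XT.lf (nat_lit 0) (nat_lit 1875148517781) (nat_lit 76) (nat_lit 3070657724926) (nat_lit 76) (nat_lit 2998115081800) (nat_lit 4) (nat_lit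 4) (nat_lit 5) (nat_lit 5) (nat_lit 5) (nat_lit 4) (nat_lit 410) (nat_lit 358) (nat_lit 252)) (XT.nd (nat_lit 78) (nat_lit 0) (nat_lit 0) (XT.lf (nat_lit 0) (nat_lit 4841501452133) (nat_lit 76) (nat_lit 2131429094959) (nat_lit 76) (nat_lit 2058886448350) (nat_lit 4) (nat_lit 4) (nat_lit 5) (nat_lit 5) (nat_lit 5) (nat_lit 4) (nat_lit 411) (nat_lit 358) (nat_lit 251)) (XT.lf (nat_lit 0) (nat_lit 8252807085582) (nat_lit 76) (nat_lit 1051316295192) (nat_lit 76) (nat_lit 978773645554) (nat_lit 4) (nat_lit 4) (nat_lit 5) (nat_lit 5) (nat_lit 5) (nat_lit 4) (nat_lit 412) (nat_lit 358) (nat_lit 250))))) (XT.nd (nat_lit 156) (nat_lit 0) (nat_lit 0) (XT.nd (nat_lit 78) (nat_lit 0) (nat_lit 0) (XT.lf (nat_lit 0) (nat_lit 266567505878) (nat_lit 152) (nat_lit 11253855629699) (nat_lit 0) (nat_lit 199398383404) (nat_lit 2) (nat_lit 5) (nat_lit 4) (nat_lit 4) (nat_lit 2) (nat_lit 4) (nat_lit 413) (nat_lit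 358) (nat_lit 249)) (XT.lf (nat_lit 0) (nat_lit 1732119037179) (nat_lit 152) (nat_lit 9965872838055) (nat_lit 0) (nat_lit 1664949912584) (nat_lit 2) (nat_lit 5) (nat_lit 4) (nat_lit 4) (nat_lit 2) (nat_lit 4) (nat_lit 414) (nat_lit 358) (nat_lit 248))) (XT.nd (nat_lit 78) (nat_lit 0) (nat_lit 0) (XT.lf (nat_lit 0) (nat_lit 3417503213431) (nat_lit 152) (nat_lit 8484692803340) (nat_lit 0) (nat_lit 3350334086992) (nat_lit 2) (nat_lit 5) (nat_lit 4) (nat_lit 4) (nat_lit 2) (nat_lit 4) (nat_lit 415) (nat_lit 358) (nat_lit 247)) (XT.nd (nat_lit 78) (nat_lit 0) (nat_lit 0) (XT.lf (nat_lit 0) (nat_lit 5355694942429) (nat_lit 152) (nat_lit 6781335916179) (nat_lit 0) (nat_lit 5288525814386) (nat_lit 2) (nat_lit 5) (nat_lit 4) (nat_lit 4) (nat_lit 2) (nat_lit 4) (nat_lit 416) (nat_lit 358) (nat_lit 246)) (XT.lf (nat_lit 0) (nat_lit 7584615366696) (nat_lit 152) (nat_lit 4822475628779) (nat_lit 0) (nat_lit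 7517446237259) (nat_lit 2) (nat_lit 5) (nat_lit 4) (nat_lit 4) (nat_lit 2) (nat_lit 4) (nat_lit 417) (nat_lit 358) (nat_lit 245)))))) (XT.nd (nat_lit 390) (nat_lit 0) (nat_lit 0) (XT.nd (nat_lit 156) (nat_lit 0) (nat_lit 0) (XT.nd (nat_lit 78) (nat_lit 76) (nat_lit 0) (XT.lf (nat_lit 0) (nat_lit 10147873798883) (nat_lit 152) (nat_lit 2569786413779) (nat_lit 0) (nat_lit 10080704668233) (nat_lit 2) (nat_lit 5) (nat_lit 4) (nat_lit 4) (nat_lit 2) (nat_lit 4) (nat_lit 418) (nat_lit 358) (nat_lit 244)) (XT.lf (nat_lit 0) (nat_lit 21901694487) (nat_lit 76) (nat_lit 13074245989235) (nat_lit 76) (nat_lit 13007076857531) (nat_lit 1) (nat_lit 4) (nat_lit 2) (nat_lit 5) (nat_lit 2) (nat_lit 4) (nat_lit 419) (nat_lit 358) (nat_lit 243))) (XT.nd (nat_lit 78) (nat_lit 0) (nat_lit 0) (XT.lf (nat_lit 0) (nat_lit 3157961385327) (nat_lit 76) (nat_lit 13403517788095) (nat_lit 76) (nat_lit 13336348655474) (nat_lit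 1) (nat_lit 4) (nat_lit 2) (nat_lit 5) (nat_lit 2) (nat_lit 4) (nat_lit 420) (nat_lit 358) (nat_lit 242)) (XT.nd (nat_lit 78) (nat_lit 0) (nat_lit 0) (XT.lf (nat_lit 0) (nat_lit 6764429949843) (nat_lit 76) (nat_lit 13782180398172) (nat_lit 76) (nat_lit 13715011264753) (nat_lit 1) (nat_lit 4) (nat_lit 2) (nat_lit 5) (nat_lit 2) (nat_lit 4) (nat_lit 421) (nat_lit 358) (nat_lit 241)) (XT.lf (nat_lit 0) (nat_lit 10911868729516) (nat_lit 76) (nat_lit 14217642435750) (nat_lit 76) (nat_lit 14150473301638) (nat_lit 1) (nat_lit 4) (nat_lit 2) (nat_lit 5) (nat_lit 2) (nat_lit 4) (nat_lit 422) (nat_lit 358) (nat_lit 240))))) (XT.nd (nat_lit 48204) (nat_lit 0) (nat_lit 6460) (XT.nd (nat_lit 78) (nat_lit 0) (nat_lit 0) (XT.lf (nat_lit 0) (nat_lit 15681423265688) (nat_lit 76) (nat_lit 14718423810261) (nat_lit 76) (nat_lit 14651254675546) (nat_lit 1) (nat_lit 4) (nat_lit 2) (nat_lit 5) (nat_lit 2) (nat_lit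 4) (nat_lit 423) (nat_lit 358) (nat_lit 239)) (XT.nd (nat_lit 48048) (nat_lit 0) (nat_lit 6992) (XT.lf (nat_lit 0) (nat_lit 21166410929717) (nat_lit 76) (nat_lit 15294322418161) (nat_lit 76) (nat_lit 15227153282922) (nat_lit 1) (nat_lit 4) (nat_lit 2) (nat_lit 5) (nat_lit 2) (nat_lit 4) (nat_lit 424) (nat_lit 358) (nat_lit 238)) (XT.lf (nat_lit 0) (nat_lit 28427148299) (nat_lit 532) (nat_lit 233986471) (nat_lit 532) (nat_lit 233986471) (nat_lit 93) (nat_lit 3) (nat_lit 100) (nat_lit 3) (nat_lit 100) (nat_lit 5) (nat_lit 359) (nat_lit 359) (nat_lit 302)))) (XT.nd (nat_lit 78) (nat_lit 0) (nat_lit 76) (XT.lf (nat_lit 0) (nat_lit 467825692) (nat_lit 532) (nat_lit 5715435530) (nat_lit 608) (nat_lit 55829290251) (nat_lit 86) (nat_lit 5) (nat_lit 93) (nat_lit 3) (nat_lit 94) (nat_lit 5) (nat_lit 360) (nat_lit 359) (nat_lit 301)) (XT.nd (nat_lit 78) (nat_lit 0) (nat_lit 76) (XT.lf (nat_lit 0) (nat_lit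 4723884241) (nat_lit 532) (nat_lit 10468361439) (nat_lit 608) (nat_lit 51458245868) (nat_lit 87) (nat_lit 5) (nat_lit 94) (nat_lit 5) (nat_lit 95) (nat_lit 5) (nat_lit 361) (nat_lit 359) (nat_lit 300)) (XT.lf (nat_lit 0) (nat_lit 12494632531) (nat_lit 532) (nat_lit 14491909527) (nat_lit 608) (nat_lit 44767478735) (nat_lit 88) (nat_lit 5) (nat_lit 95) (nat_lit 5) (nat_lit 96) (nat_lit 5) (nat_lit 362) (nat_lit 359) (nat_lit 299))))))) (XT.nd (nat_lit 780) (nat_lit 1520) (nat_lit 0) (XT.nd (nat_lit 390) (nat_lit 1064) (nat_lit 0) (XT.nd (nat_lit 156) (nat_lit 760) (nat_lit 0) (XT.nd (nat_lit 78) (nat_lit 532) (nat_lit 0) (XT.lf (nat_lit 0) (nat_lit 24515341397) (nat_lit 532) (nat_lit 17545296956) (nat_lit 76) (nat_lit 35315693761) (nat_lit 89) (nat_lit 5) (nat_lit 96) (nat_lit 5) (nat_lit 90) (nat_lit 5) (nat_lit 363) (nat_lit 359) (nat_lit 298)) (XT.lf (nat_lit 0) (nat_lit 41645895118) (nat_lit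 608) (nat_lit 19340381558) (nat_lit 76) (nat_lit 22591174856) (nat_lit 82) (nat_lit 5) (nat_lit 90) (nat_lit 5) (nat_lit 83) (nat_lit 5) (nat_lit 364) (nat_lit 359) (nat_lit 297))) (XT.nd (nat_lit 78) (nat_lit 532) (nat_lit 0) (XT.lf (nat_lit 0) (nat_lit 64890468045) (nat_lit 304) (nat_lit 19533874574) (nat_lit 76) (nat_lit 6000841773) (nat_lit 79) (nat_lit 5) (nat_lit 83) (nat_lit 5) (nat_lit 80) (nat_lit 5) (nat_lit 365) (nat_lit 359) (nat_lit 296)) (XT.nd (nat_lit 78) (nat_lit 304) (nat_lit 0) (XT.lf (nat_lit 0) (nat_lit 79863805567) (nat_lit 228) (nat_lit 15939730750) (nat_lit 304) (nat_lit 2161996474) (nat_lit 76) (nat_lit 5) (nat_lit 79) (nat_lit 5) (nat_lit 80) (nat_lit 5) (nat_lit 366) (nat_lit 359) (nat_lit 295)) (XT.lf (nat_lit 0) (nat_lit 27891558409) (nat_lit 304) (nat_lit 15172214817) (nat_lit 76) (nat_lit 63172697430) (nat_lit 72) (nat_lit 5) (nat_lit 76) (nat_lit 5) (nat_lit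 73) (nat_lit 5) (nat_lit 367) (nat_lit 359) (nat_lit 294))))) (XT.nd (nat_lit 156) (nat_lit 684) (nat_lit 0) (XT.nd (nat_lit 78) (nat_lit 152) (nat_lit 0) (XT.lf (nat_lit 0) (nat_lit 66861324572) (nat_lit 304) (nat_lit 9623029454) (nat_lit 76) (nat_lit 38896307579) (nat_lit 69) (nat_lit 5) (nat_lit 73) (nat_lit 5) (nat_lit 70) (nat_lit 5) (nat_lit 368) (nat_lit 359) (nat_lit 293)) (XT.lf (nat_lit 0) (nat_lit 116529760263) (nat_lit 228) (nat_lit 803717276) (nat_lit 76) (nat_lit 8174747511) (nat_lit 67) (nat_lit 5) (nat_lit 70) (nat_lit 5) (nat_lit 68) (nat_lit 5) (nat_lit 369) (nat_lit 359) (nat_lit 292))) (XT.nd (nat_lit 78) (nat_lit 304) (nat_lit 0) (XT.lf (nat_lit 0) (nat_lit 10730236177) (nat_lit 152) (nat_lit 30308184045) (nat_lit 228) (nat_lit 95536654410) (nat_lit 62) (nat_lit 5) (nat_lit 64) (nat_lit 5) (nat_lit 65) (nat_lit 5) (nat_lit 370) (nat_lit 359) (nat_lit 291)) (XT.nd (nat_lit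 78) (nat_lit 152) (nat_lit 0) (XT.lf (nat_lit 0) (nat_lit 26315056967) (nat_lit 152) (nat_lit 77833806978) (nat_lit 228) (nat_lit 44644619210) (nat_lit 60) (nat_lit 5) (nat_lit 62) (nat_lit 5) (nat_lit 63) (nat_lit 5) (nat_lit 371) (nat_lit 359) (nat_lit 290)) (XT.lf (nat_lit 0) (nat_lit 19610329831) (nat_lit 152) (nat_lit 115573206363) (nat_lit 76) (nat_lit 27120529115) (nat_lit 58) (nat_lit 5) (nat_lit 60) (nat_lit 5) (nat_lit 59) (nat_lit 5) (nat_lit 372) (nat_lit 359) (nat_lit 289)))))) (XT.nd (nat_lit 390) (nat_lit 760) (nat_lit 0) (XT.nd (nat_lit 156) (nat_lit 456) (nat_lit 0) (XT.nd (nat_lit 78) (nat_lit 152) (nat_lit 0) (XT.lf (nat_lit 0) (nat_lit 71264209669) (nat_lit 152) (nat_lit 27194166902) (nat_lit 228) (nat_lit 78682225082) (nat_lit 56) (nat_lit 5) (nat_lit 58) (nat_lit 5) (nat_lit 59) (nat_lit 5) (nat_lit 373) (nat_lit 359) (nat_lit 288)) (XT.lf (nat_lit 0) (nat_lit 3631435129)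 (nat_lit 152) (nat_lit 91770712458) (nat_lit 76) (nat_lit 98134475539) (nat_lit 54) (nat_lit 5) (nat_lit 56) (nat_lit 5) (nat_lit 55) (nat_lit 5) (nat_lit 374) (nat_lit 359) (nat_lit 287))) (XT.nd (nat_lit 78) (nat_lit 304) (nat_lit 0) (XT.lf (nat_lit 0) (nat_lit 101923255399) (nat_lit 228) (nat_lit 73795113028) (nat_lit 76) (nat_lit 35846985791) (nat_lit 52) (nat_lit 5) (nat_lit 55) (nat_lit 5) (nat_lit 53) (nat_lit 4) (nat_lit 375) (nat_lit 359) (nat_lit 286)) (XT.nd (nat_lit 78) (nat_lit 228) (nat_lit 0) (XT.lf (nat_lit 0) (nat_lit 181588168606) (nat_lit 76) (nat_lit 43116175101) (nat_lit 152) (nat_lit 6814411735) (nat_lit 51) (nat_lit 5) (nat_lit 52) (nat_lit 5) (nat_lit 53) (nat_lit 4) (nat_lit 376) (nat_lit 359) (nat_lit 285)) (XT.lf (nat_lit 0) (nat_lit 116607928040) (nat_lit 228) (nat_lit 22083350495) (nat_lit 76) (nat_lit 114699878452) (nat_lit 48) (nat_lit 5) (nat_lit 51) (nat_lit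 5) (nat_lit 49) (nat_lit 4) (nat_lit 377) (nat_lit 359) (nat_lit 284))))) (XT.nd (nat_lit 234) (nat_lit 304) (nat_lit 0) (XT.nd (nat_lit 78) (nat_lit 304) (nat_lit 0) (XT.lf (nat_lit 0) (nat_lit 14942729899) (nat_lit 76) (nat_lit 253879805550) (nat_lit 76) (nat_lit 8853131072) (nat_lit 46) (nat_lit 4) (nat_lit 47) (nat_lit 5) (nat_lit 47) (nat_lit 4) (nat_lit 378) (nat_lit 359) (nat_lit 283)) (XT.nd (nat_lit 78) (nat_lit 152) (nat_lit 0) (XT.lf (nat_lit 0) (nat_lit 57636293188) (nat_lit 76) (nat_lit 87875123515) (nat_lit 152) (nat_lit 158692484076) (nat_lit 44) (nat_lit 5) (nat_lit 45) (nat_lit 5) (nat_lit 46) (nat_lit 4) (nat_lit 379) (nat_lit 359) (nat_lit 282)) (XT.lf (nat_lit 0) (nat_lit 1757020056) (nat_lit 152) (nat_lit 223223297372) (nat_lit 76) (nat_lit 108669389014) (nat_lit 42) (nat_lit 5) (nat_lit 44) (nat_lit 5) (nat_lit 43) (nat_lit 4) (nat_lit 380) (nat_lit 359) (nat_lit 281))))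 (XT.nd (nat_lit 78) (nat_lit 228) (nat_lit 0) (XT.lf (nat_lit 0) (nat_lit 170482998614) (nat_lit 76) (nat_lit 20556156752) (nat_lit 152) (nat_lit 175010551279) (nat_lit 41) (nat_lit 5) (nat_lit 42) (nat_lit 5) (nat_lit 43) (nat_lit 4) (nat_lit 381) (nat_lit 359) (nat_lit 280)) (XT.nd (nat_lit 78) (nat_lit 76) (nat_lit 0) (XT.lf (nat_lit 0) (nat_lit 23205679561) (nat_lit 152) (nat_lit 161805259531) (nat_lit 76) (nat_lit 216842602635) (nat_lit 39) (nat_lit 5) (nat_lit 41) (nat_lit 5) (nat_lit 40) (nat_lit 4) (nat_lit 382) (nat_lit 359) (nat_lit 279)) (XT.lf (nat_lit 0) (nat_lit 256786472672) (nat_lit 152) (nat_lit 122324230288) (nat_lit 0) (nat_lit 62274014419) (nat_lit 38) (nat_lit 5) (nat_lit 40) (nat_lit 4) (nat_lit 38) (nat_lit 4) (nat_lit 383) (nat_lit 359) (nat_lit 278))))))))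
noncomputable def xc81 : XT := (XT.nd (nat_lit 1638) (nat_lit 532) (nat_lit 0) (XT.nd (nat_lit 780) (nat_lit 1064) (nat_lit 0) (XT.nd (nat_lit 390) (nat_lit 532) (nat_lit 0) (XT.nd (nat_lit 156) (nat_lit 456) (nat_lit 0) (XT.nd (nat_lit 78) (nat_lit 76) (nat_lit 0) (XT.lf (nat_lit 0) (nat_lit 56971170661) (nat_lit 152) (nat_lit 76012730759) (nat_lit 76) (nat_lit 352160182868) (nat_lit 36) (nat_lit 5) (nat_lit 38) (nat_lit 5) (nat_lit 37) (nat_lit 4) (nat_lit 384) (nat_lit 359) (nat_lit 277)) (XT.lf (nat_lit 0) (nat_lit 344303905801) (nat_lit 152) (nat_lit 24943969481) (nat_lit 0) (nat_lit 164199245512) (nat_lit 35) (nat_lit 5) (nat_lit 37) (nat_lit 4) (nat_lit 35) (nat_lit 4) (nat_lit 385) (nat_lit 359) (nat_lit 276))) (XT.nd (nat_lit 78) (nat_lit 228) (nat_lit 0) (XT.lf (nat_lit 0) (nat_lit 35823088182) (nat_lit 76) (nat_lit 67988432851) (nat_lit 152) (nat_lit 483230350698) (nat_lit 32) (nat_lit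 5) (nat_lit 33) (nat_lit 5) (nat_lit 34) (nat_lit 4) (nat_lit 386) (nat_lit 359) (nat_lit 275)) (XT.nd (nat_lit 78) (nat_lit 152) (nat_lit 0) (XT.lf (nat_lit 0) (nat_lit 99929103225) (nat_lit 76) (nat_lit 356482755890) (nat_lit 76) (nat_lit 189718808884) (nat_lit 31) (nat_lit 4) (nat_lit 32) (nat_lit 5) (nat_lit 32) (nat_lit 4) (nat_lit 387) (nat_lit 359) (nat_lit 274)) (XT.lf (nat_lit 0) (nat_lit 163128895307) (nat_lit 152) (nat_lit 540135473022) (nat_lit 0) (nat_lit 8717693705) (nat_lit 29) (nat_lit 5) (nat_lit 31) (nat_lit 4) (nat_lit 29) (nat_lit 4) (nat_lit 388) (nat_lit 359) (nat_lit 273))))) (XT.nd (nat_lit 156) (nat_lit 304) (nat_lit 0) (XT.nd (nat_lit 78) (nat_lit 152) (nat_lit 0) (XT.lf (nat_lit 0) (nat_lit 240762107776) (nat_lit 76) (nat_lit 349191737307) (nat_lit 76) (nat_lit 194780414349) (nat_lit 28) (nat_lit 4) (nat_lit 29) (nat_lit 5) (nat_lit 29) (nat_lit 4) (nat_lit 389)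 (nat_lit 359) (nat_lit 272)) (XT.lf (nat_lit 0) (nat_lit 227619845099) (nat_lit 152) (nat_lit 553657127673) (nat_lit 0) (nat_lit 84646300205) (nat_lit 26) (nat_lit 5) (nat_lit 28) (nat_lit 4) (nat_lit 26) (nat_lit 4) (nat_lit 390) (nat_lit 359) (nat_lit 271))) (XT.nd (nat_lit 78) (nat_lit 228) (nat_lit 0) (XT.lf (nat_lit 0) (nat_lit 375167680520) (nat_lit 76) (nat_lit 361935669461) (nat_lit 76) (nat_lit 218962039602) (nat_lit 25) (nat_lit 4) (nat_lit 26) (nat_lit 5) (nat_lit 26) (nat_lit 4) (nat_lit 391) (nat_lit 359) (nat_lit 270)) (XT.nd (nat_lit 78) (nat_lit 76) (nat_lit 0) (XT.lf (nat_lit 0) (nat_lit 280827092938) (nat_lit 152) (nat_lit 627493792868) (nat_lit 0) (nat_lit 148444033919) (nat_lit 23) (nat_lit 5) (nat_lit 25) (nat_lit 4) (nat_lit 23) (nat_lit 4) (nat_lit 392) (nat_lit 359) (nat_lit 269)) (XT.lf (nat_lit 0) (nat_lit 461506096910) (nat_lit 76) (nat_lit 419942545727) (nat_lit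 76) (nat_lit 287559427220) (nat_lit 22) (nat_lit 4) (nat_lit 23) (nat_lit 5) (nat_lit 23) (nat_lit 4) (nat_lit 393) (nat_lit 359) (nat_lit 268)))))) (XT.nd (nat_lit 390) (nat_lit 608) (nat_lit 0) (XT.nd (nat_lit 156) (nat_lit 228) (nat_lit 0) (XT.nd (nat_lit 78) (nat_lit 76) (nat_lit 0) (XT.lf (nat_lit 0) (nat_lit 294814471535) (nat_lit 152) (nat_lit 827752507291) (nat_lit 0) (nat_lit 172237462058) (nat_lit 20) (nat_lit 5) (nat_lit 22) (nat_lit 4) (nat_lit 20) (nat_lit 4) (nat_lit 394) (nat_lit 359) (nat_lit 267)) (XT.lf (nat_lit 0) (nat_lit 423912752004) (nat_lit 76) (nat_lit 567031460909) (nat_lit 76) (nat_lit 444454409784) (nat_lit 19) (nat_lit 4) (nat_lit 20) (nat_lit 5) (nat_lit 20) (nat_lit 4) (nat_lit 395) (nat_lit 359) (nat_lit 266))) (XT.nd (nat_lit 78) (nat_lit 76) (nat_lit 0) (XT.lf (nat_lit 0) (nat_lit 220031922416) (nat_lit 152) (nat_lit 1267313686897) (nat_lit 0) (nat_lit 106534619322)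 (nat_lit 17) (nat_lit 5) (nat_lit 19) (nat_lit 4) (nat_lit 17) (nat_lit 4) (nat_lit 396) (nat_lit 359) (nat_lit 265)) (XT.nd (nat_lit 78) (nat_lit 0) (nat_lit 0) (XT.lf (nat_lit 0) (nat_lit 130592942222) (nat_lit 76) (nat_lit 877066082683) (nat_lit 76) (nat_lit 763568750429) (nat_lit 16) (nat_lit 4) (nat_lit 17) (nat_lit 5) (nat_lit 17) (nat_lit 4) (nat_lit 397) (nat_lit 359) (nat_lit 264)) (XT.lf (nat_lit 0) (nat_lit 1814929432901) (nat_lit 76) (nat_lit 135396845931) (nat_lit 76) (nat_lit 21899488321) (nat_lit 16) (nat_lit 4) (nat_lit 17) (nat_lit 5) (nat_lit 17) (nat_lit 4) (nat_lit 398) (nat_lit 359) (nat_lit 263))))) (XT.nd (nat_lit 234) (nat_lit 228) (nat_lit 0) (XT.nd (nat_lit 78) (nat_lit 228) (nat_lit 0) (XT.lf (nat_lit 0) (nat_lit 846927129607) (nat_lit 152) (nat_lit 608412243635) (nat_lit 0) (nat_lit 741836963256) (nat_lit 14) (nat_lit 5) (nat_lit 16) (nat_lit 4) (nat_lit 14) (nat_lit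 4) (nat_lit 399) (nat_lit 359) (nat_lit 262)) (XT.nd (nat_lit 78) (nat_lit 152) (nat_lit 0) (XT.lf (nat_lit 0) (nat_lit 1206647174060) (nat_lit 76) (nat_lit 675633512318) (nat_lit 76) (nat_lit 570543328215) (nat_lit 13) (nat_lit 4) (nat_lit 14) (nat_lit 5) (nat_lit 14) (nat_lit 4) (nat_lit 400) (nat_lit 359) (nat_lit 261)) (XT.lf (nat_lit 0) (nat_lit 348958894866) (nat_lit 152) (nat_lit 2142447004308) (nat_lit 0) (nat_lit 251653154550) (nat_lit 11) (nat_lit 5) (nat_lit 13) (nat_lit 4) (nat_lit 11) (nat_lit 4) (nat_lit 401) (nat_lit 359) (nat_lit 260)))) (XT.nd (nat_lit 78) (nat_lit 228) (nat_lit 0) (XT.lf (nat_lit 0) (nat_lit 1429473960468) (nat_lit 152) (nat_lit 309452032684) (nat_lit 0) (nat_lit 1332168207723) (nat_lit 11) (nat_lit 5) (nat_lit 13) (nat_lit 4) (nat_lit 11) (nat_lit 4) (nat_lit 402) (nat_lit 359) (nat_lit 259)) (XT.nd (nat_lit 78) (nat_lit 152) (nat_lit 0) (XT.lf (nat_lit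 0) (nat_lit 1893197054359) (nat_lit 76) (nat_lit 824400417219) (nat_lit 76) (nat_lit 727094653666) (nat_lit 10) (nat_lit 4) (nat_lit 11) (nat_lit 5) (nat_lit 11) (nat_lit 4) (nat_lit 403) (nat_lit 359) (nat_lit 258)) (XT.lf (nat_lit 0) (nat_lit 338156154567) (nat_lit 152) (nat_lit 3285108042917) (nat_lit 0) (nat_lit 248058216649) (nat_lit 8) (nat_lit 5) (nat_lit 10) (nat_lit 4) (nat_lit 8) (nat_lit 4) (nat_lit 404) (nat_lit 359) (nat_lit 257))))))) (XT.nd (nat_lit 780) (nat_lit 76) (nat_lit 0) (XT.nd (nat_lit 390) (nat_lit 228) (nat_lit 0) (XT.nd (nat_lit 156) (nat_lit 152) (nat_lit 0) (XT.nd (nat_lit 78) (nat_lit 76) (nat_lit 0) (XT.lf (nat_lit 0) (nat_lit 1590510548988) (nat_lit 152) (nat_lit 1263883801251) (nat_lit 0) (nat_lit 1500412603503) (nat_lit 8) (nat_lit 5) (nat_lit 10) (nat_lit 4) (nat_lit 8) (nat_lit 4) (nat_lit 405) (nat_lit 359) (nat_lit 256)) (XT.lf (nat_lit 0) (nat_lit 1116368979600)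 (nat_lit 76) (nat_lit 1941197632979) (nat_lit 76) (nat_lit 1851099680914) (nat_lit 7) (nat_lit 4) (nat_lit 8) (nat_lit 5) (nat_lit 8) (nat_lit 4) (nat_lit 406) (nat_lit 359) (nat_lit 255))) (XT.nd (nat_lit 78) (nat_lit 152) (nat_lit 0) (XT.lf (nat_lit 0) (nat_lit 3930196279604) (nat_lit 76) (nat_lit 851281248499) (nat_lit 76) (nat_lit 761183290712) (nat_lit 7) (nat_lit 4) (nat_lit 8) (nat_lit 5) (nat_lit 8) (nat_lit 4) (nat_lit 407) (nat_lit 359) (nat_lit 254)) (XT.nd (nat_lit 78) (nat_lit 0) (nat_lit 0) (XT.lf (nat_lit 0) (nat_lit 500498274346) (nat_lit 152) (nat_lit 5350602933964) (nat_lit 0) (nat_lit 417074234752) (nat_lit 5) (nat_lit 5) (nat_lit 7) (nat_lit 4) (nat_lit 5) (nat_lit 4) (nat_lit 408) (nat_lit 359) (nat_lit 253)) (XT.lf (nat_lit 0) (nat_lit 1979351696150) (nat_lit 152) (nat_lit 3219817019322) (nat_lit 0) (nat_lit 1895927652550) (nat_lit 5) (nat_lit 5) (nat_lit 7) (nat_lit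 4) (nat_lit 5) (nat_lit 4) (nat_lit 409) (nat_lit 359) (nat_lit 252))))) (XT.nd (nat_lit 156) (nat_lit 152) (nat_lit 0) (XT.nd (nat_lit 78) (nat_lit 76) (nat_lit 0) (XT.lf (nat_lit 0) (nat_lit 3680033004075) (nat_lit 152) (nat_lit 769413480832) (nat_lit 0) (nat_lit 3596608956991) (nat_lit 5) (nat_lit 5) (nat_lit 7) (nat_lit 4) (nat_lit 5) (nat_lit 4) (nat_lit 410) (nat_lit 359) (nat_lit 251)) (XT.lf (nat_lit 0) (nat_lit 2156423391017) (nat_lit 76) (nat_lit 3531255041022) (nat_lit 76) (nat_lit 3447830990909) (nat_lit 4) (nat_lit 4) (nat_lit 5) (nat_lit 5) (nat_lit 5) (nat_lit 4) (nat_lit 411) (nat_lit 359) (nat_lit 250))) (XT.nd (nat_lit 78) (nat_lit 152) (nat_lit 0) (XT.lf (nat_lit 0) (nat_lit 5567728926970) (nat_lit 76) (nat_lit 2451142291688) (nat_lit 76) (nat_lit 2367718238940) (nat_lit 4) (nat_lit 4) (nat_lit 5) (nat_lit 5) (nat_lit 5) (nat_lit 4) (nat_lit 412) (nat_lit 359) (nat_lit 249))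 (XT.nd (nat_lit 78) (nat_lit 152) (nat_lit 0) (XT.lf (nat_lit 0) (nat_lit 9490730111042) (nat_lit 76) (nat_lit 1209012724240) (nat_lit 76) (nat_lit 1125588669203) (nat_lit 4) (nat_lit 4) (nat_lit 5) (nat_lit 5) (nat_lit 5) (nat_lit 4) (nat_lit 413) (nat_lit 359) (nat_lit 248)) (XT.lf (nat_lit 0) (nat_lit 306553544249) (nat_lit 152) (nat_lit 12941932082579) (nat_lit 0) (nat_lit 229309047000) (nat_lit 2) (nat_lit 5) (nat_lit 4) (nat_lit 4) (nat_lit 2) (nat_lit 4) (nat_lit 414) (nat_lit 359) (nat_lit 247)))))) (XT.nd (nat_lit 390) (nat_lit 76) (nat_lit 0) (XT.nd (nat_lit 156) (nat_lit 0) (nat_lit 0) (XT.nd (nat_lit 78) (nat_lit 0) (nat_lit 0) (XT.lf (nat_lit 0) (nat_lit 1991937686226) (nat_lit 152) (nat_lit 11460752118915) (nat_lit 0) (nat_lit 1914693187372) (nat_lit 2) (nat_lit 5) (nat_lit 4) (nat_lit 4) (nat_lit 2) (nat_lit 4) (nat_lit 415) (nat_lit 359) (nat_lit 246)) (XT.lf (nat_lit 0) (nat_lit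 3930129385419) (nat_lit 152) (nat_lit 9757395293538) (nat_lit 0) (nat_lit 3852884885171) (nat_lit 2) (nat_lit 5) (nat_lit 4) (nat_lit 4) (nat_lit 2) (nat_lit 4) (nat_lit 416) (nat_lit 359) (nat_lit 245))) (XT.nd (nat_lit 78) (nat_lit 0) (nat_lit 0) (XT.lf (nat_lit 0) (nat_lit 6159049783770) (nat_lit 152) (nat_lit 7798535059864) (nat_lit 0) (nat_lit 6081805282309) (nat_lit 2) (nat_lit 5) (nat_lit 4) (nat_lit 4) (nat_lit 2) (nat_lit 4) (nat_lit 417) (nat_lit 359) (nat_lit 244)) (XT.nd (nat_lit 78) (nat_lit 0) (nat_lit 0) (XT.lf (nat_lit 0) (nat_lit 8722308193420) (nat_lit 152) (nat_lit 5545845891582) (nat_lit 0) (nat_lit 8645063690905) (nat_lit 2) (nat_lit 5) (nat_lit 4) (nat_lit 4) (nat_lit 2) (nat_lit 4) (nat_lit 418) (nat_lit 359) (nat_lit 243)) (XT.lf (nat_lit 0) (nat_lit 11670055322384) (nat_lit 152) (nat_lit 2955253435399) (nat_lit 0) (nat_lit 11592810818953) (nat_lit 2) (nat_lit 5) (nat_lit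 4) (nat_lit 4) (nat_lit 2) (nat_lit 4) (nat_lit 419) (nat_lit 359) (nat_lit 242))))) (XT.nd (nat_lit 234) (nat_lit 0) (nat_lit 0) (XT.nd (nat_lit 78) (nat_lit 0) (nat_lit 0) (XT.lf (nat_lit 0) (nat_lit 25187809504) (nat_lit 76) (nat_lit 15035382441975) (nat_lit 76) (nat_lit 14958137937747) (nat_lit 1) (nat_lit 4) (nat_lit 2) (nat_lit 5) (nat_lit 2) (nat_lit 4) (nat_lit 420) (nat_lit 359) (nat_lit 241)) (XT.nd (nat_lit 78) (nat_lit 0) (nat_lit 0) (XT.lf (nat_lit 0) (nat_lit 3631656341685) (nat_lit 76) (nat_lit 15414045068792) (nat_lit 76) (nat_lit 15336800563870) (nat_lit 1) (nat_lit 4) (nat_lit 2) (nat_lit 5) (nat_lit 2) (nat_lit 4) (nat_lit 421) (nat_lit 359) (nat_lit 240)) (XT.lf (nat_lit 0) (nat_lit 7779095093240) (nat_lit 76) (nat_lit 15849507120926) (nat_lit 76) (nat_lit 15772262615401) (nat_lit 1) (nat_lit 4) (nat_lit 2) (nat_lit 5) (nat_lit 2) (nat_lit 4) (nat_lit 422) (nat_lit 359)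 (nat_lit 239)))) (XT.nd (nat_lit 78) (nat_lit 0) (nat_lit 0) (XT.lf (nat_lit 0) (nat_lit 12548649604962) (nat_lit 76) (nat_lit 16350288508094) (nat_lit 76) (nat_lit 16273044002045) (nat_lit 1) (nat_lit 4) (nat_lit 2) (nat_lit 5) (nat_lit 2) (nat_lit 4) (nat_lit 423) (nat_lit 359) (nat_lit 238)) (XT.nd (nat_lit 48126) (nat_lit 0) (nat_lit 6992) (XT.lf (nat_lit 0) (nat_lit 18033637247731) (nat_lit 76) (nat_lit 16926187127001) (nat_lit 76) (nat_lit 16848942620496) (nat_lit 1) (nat_lit 4) (nat_lit 2) (nat_lit 5) (nat_lit 2) (nat_lit 4) (nat_lit 424) (nat_lit 359) (nat_lit 237)) (XT.lf (nat_lit 0) (nat_lit 32723176239) (nat_lit 532) (nat_lit 251826235) (nat_lit 532) (nat_lit 251826235) (nat_lit 93) (nat_lit 3) (nat_lit 100) (nat_lit 3) (nat_lit 100) (nat_lit 5) (nat_lit 360) (nat_lit 360) (nat_lit 300))))))))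
noncomputable def xc82 : XT := (XT.nd (nat_lit 1638) (nat_lit 2356) (nat_lit 0) (XT.nd (nat_lit 780) (nat_lit 1900) (nat_lit 0) (XT.nd (nat_lit 390) (nat_lit 1140) (nat_lit 0) (XT.nd (nat_lit 156) (nat_lit 304) (nat_lit 0) (XT.nd (nat_lit 78) (nat_lit 0) (nat_lit 76) (XT.lf (nat_lit 0) (nat_lit 595804812) (nat_lit 532) (nat_lit 6538105301) (nat_lit 608) (nat_lit 64175892795) (nat_lit 86) (nat_lit 5) (nat_lit 93) (nat_lit 3) (nat_lit 94) (nat_lit 5) (nat_lit 361) (nat_lit 360) (nat_lit 299)) (XT.lf (nat_lit 0) (nat_lit 5483030494) (nat_lit 532) (nat_lit 12002349919) (nat_lit 608) (nat_lit 59158633808) (nat_lit 87) (nat_lit 5) (nat_lit 94) (nat_lit 5) (nat_lit 95) (nat_lit 5) (nat_lit 362) (nat_lit 360) (nat_lit 298))) (XT.nd (nat_lit 78) (nat_lit 456) (nat_lit 0) (XT.lf (nat_lit 0) (nat_lit 14413315862) (nat_lit 532) (nat_lit 16628635129) (nat_lit 608) (nat_lit 51471608654) (nat_lit 88) (nat_lit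 5) (nat_lit 95) (nat_lit 5) (nat_lit 96) (nat_lit 5) (nat_lit 363) (nat_lit 360) (nat_lit 297)) (XT.nd (nat_lit 78) (nat_lit 532) (nat_lit 0) (XT.lf (nat_lit 0) (nat_lit 28232009942) (nat_lit 532) (nat_lit 20139868912) (nat_lit 76) (nat_lit 40607749177) (nat_lit 89) (nat_lit 5) (nat_lit 96) (nat_lit 5) (nat_lit 90) (nat_lit 5) (nat_lit 364) (nat_lit 360) (nat_lit 296)) (XT.lf (nat_lit 0) (nat_lit 47927807712) (nat_lit 608) (nat_lit 22204535265) (nat_lit 76) (nat_lit 25978920095) (nat_lit 82) (nat_lit 5) (nat_lit 90) (nat_lit 5) (nat_lit 83) (nat_lit 5) (nat_lit 365) (nat_lit 360) (nat_lit 295))))) (XT.nd (nat_lit 156) (nat_lit 684) (nat_lit 0) (XT.nd (nat_lit 78) (nat_lit 228) (nat_lit 0) (XT.lf (nat_lit 0) (nat_lit 74655370389) (nat_lit 304) (nat_lit 22427731091) (nat_lit 76) (nat_lit 6903350586) (nat_lit 79) (nat_lit 5) (nat_lit 83) (nat_lit 5) (nat_lit 80) (nat_lit 5) (nat_lit 366) (nat_lit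 360) (nat_lit 294)) (XT.lf (nat_lit 0) (nat_lit 91876534833) (nat_lit 228) (nat_lit 18325574729) (nat_lit 304) (nat_lit 2456006756) (nat_lit 76) (nat_lit 5) (nat_lit 79) (nat_lit 5) (nat_lit 80) (nat_lit 5) (nat_lit 367) (nat_lit 360) (nat_lit 293))) (XT.nd (nat_lit 78) (nat_lit 380) (nat_lit 0) (XT.lf (nat_lit 0) (nat_lit 32101219682) (nat_lit 304) (nat_lit 17414383989) (nat_lit 76) (nat_lit 72654260992) (nat_lit 72) (nat_lit 5) (nat_lit 76) (nat_lit 5) (nat_lit 73) (nat_lit 5) (nat_lit 368) (nat_lit 360) (nat_lit 292)) (XT.nd (nat_lit 78) (nat_lit 152) (nat_lit 0) (XT.lf (nat_lit 0) (nat_lit 76913991011) (nat_lit 304) (nat_lit 11033986238) (nat_lit 76) (nat_lit 44737904098) (nat_lit 69) (nat_lit 5) (nat_lit 73) (nat_lit 5) (nat_lit 70) (nat_lit 5) (nat_lit 369) (nat_lit 360) (nat_lit 291)) (XT.lf (nat_lit 0) (nat_lit 134030553883) (nat_lit 228) (nat_lit 893043842) (nat_lit 76) (nat_lit 9409152911)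 (nat_lit 67) (nat_lit 5) (nat_lit 70) (nat_lit 5) (nat_lit 68) (nat_lit 5) (nat_lit 370) (nat_lit 360) (nat_lit 290)))))) (XT.nd (nat_lit 390) (nat_lit 912) (nat_lit 0) (XT.nd (nat_lit 156) (nat_lit 456) (nat_lit 0) (XT.nd (nat_lit 78) (nat_lit 152) (nat_lit 0) (XT.lf (nat_lit 0) (nat_lit 12370959970) (nat_lit 152) (nat_lit 34843709460) (nat_lit 228) (nat_lit 109845026049) (nat_lit 62) (nat_lit 5) (nat_lit 64) (nat_lit 5) (nat_lit 65) (nat_lit 5) (nat_lit 371) (nat_lit 360) (nat_lit 289)) (XT.lf (nat_lit 0) (nat_lit 30292129839) (nat_lit 152) (nat_lit 89497818614) (nat_lit 228) (nat_lit 51321055518) (nat_lit 60) (nat_lit 5) (nat_lit 62) (nat_lit 5) (nat_lit 63) (nat_lit 5) (nat_lit 372) (nat_lit 360) (nat_lit 288))) (XT.nd (nat_lit 78) (nat_lit 304) (nat_lit 0) (XT.lf (nat_lit 0) (nat_lit 22569551166) (nat_lit 152) (nat_lit 132879833953) (nat_lit 76) (nat_lit 31198875219) (nat_lit 58) (nat_lit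 5) (nat_lit 60) (nat_lit 5) (nat_lit 59) (nat_lit 5) (nat_lit 373) (nat_lit 360) (nat_lit 287)) (XT.nd (nat_lit 78) (nat_lit 152) (nat_lit 0) (XT.lf (nat_lit 0) (nat_lit 81980709868) (nat_lit 152) (nat_lit 31262436218) (nat_lit 228) (nat_lit 90467263888) (nat_lit 56) (nat_lit 5) (nat_lit 58) (nat_lit 5) (nat_lit 59) (nat_lit 5) (nat_lit 374) (nat_lit 360) (nat_lit 286)) (XT.lf (nat_lit 0) (nat_lit 4191300015) (nat_lit 152) (nat_lit 105509991981) (nat_lit 76) (nat_lit 112864611916) (nat_lit 54) (nat_lit 5) (nat_lit 56) (nat_lit 5) (nat_lit 55) (nat_lit 5) (nat_lit 375) (nat_lit 360) (nat_lit 285))))) (XT.nd (nat_lit 234) (nat_lit 456) (nat_lit 0) (XT.nd (nat_lit 78) (nat_lit 304) (nat_lit 0) (XT.lf (nat_lit 0) (nat_lit 117225745682) (nat_lit 228) (nat_lit 84839429057) (nat_lit 76) (nat_lit 41233861835) (nat_lit 52) (nat_lit 5) (nat_lit 55) (nat_lit 5) (nat_lit 53) (nat_lit 4) (nat_lit 376)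 (nat_lit 360) (nat_lit 284)) (XT.nd (nat_lit 78) (nat_lit 228) (nat_lit 0) (XT.lf (nat_lit 0) (nat_lit 208849232851) (nat_lit 76) (nat_lit 49573487318) (nat_lit 152) (nat_lit 7822830058) (nat_lit 51) (nat_lit 5) (nat_lit 52) (nat_lit 5) (nat_lit 53) (nat_lit 4) (nat_lit 377) (nat_lit 360) (nat_lit 283)) (XT.lf (nat_lit 0) (nat_lit 134111220597) (nat_lit 228) (nat_lit 25373599880) (nat_lit 76) (nat_lit 131914041356) (nat_lit 48) (nat_lit 5) (nat_lit 51) (nat_lit 5) (nat_lit 49) (nat_lit 4) (nat_lit 378) (nat_lit 360) (nat_lit 282)))) (XT.nd (nat_lit 78) (nat_lit 304) (nat_lit 0) (XT.lf (nat_lit 0) (nat_lit 17206272703) (nat_lit 76) (nat_lit 291951414901) (nat_lit 76) (nat_lit 10168386772) (nat_lit 46) (nat_lit 4) (nat_lit 47) (nat_lit 5) (nat_lit 47) (nat_lit 4) (nat_lit 379) (nat_lit 360) (nat_lit 281)) (XT.nd (nat_lit 78) (nat_lit 152) (nat_lit 0) (XT.lf (nat_lit 0) (nat_lit 66302579499)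 (nat_lit 76) (nat_lit 101046553541) (nat_lit 152) (nat_lit 182484472246) (nat_lit 44) (nat_lit 5) (nat_lit 45) (nat_lit 5) (nat_lit 46) (nat_lit 4) (nat_lit 380) (nat_lit 360) (nat_lit 280)) (XT.lf (nat_lit 0) (nat_lit 2031086787) (nat_lit 152) (nat_lit 256686570483) (nat_lit 76) (nat_lit 124978663796) (nat_lit 42) (nat_lit 5) (nat_lit 44) (nat_lit 5) (nat_lit 43) (nat_lit 4) (nat_lit 381) (nat_lit 360) (nat_lit 279))))))) (XT.nd (nat_lit 780) (nat_lit 1140) (nat_lit 0) (XT.nd (nat_lit 390) (nat_lit 684) (nat_lit 0) (XT.nd (nat_lit 156) (nat_lit 304) (nat_lit 0) (XT.nd (nat_lit 78) (nat_lit 152) (nat_lit 0) (XT.lf (nat_lit 0) (nat_lit 196073958252) (nat_lit 76) (nat_lit 23630657949) (nat_lit 152) (nat_lit 201251779226) (nat_lit 41) (nat_lit 5) (nat_lit 42) (nat_lit 5) (nat_lit 43) (nat_lit 4) (nat_lit 382) (nat_lit 360) (nat_lit 278)) (XT.lf (nat_lit 0) (nat_lit 26695707185) (nat_lit 152)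 (nat_lit 186058116178) (nat_lit 76) (nat_lit 249377015395) (nat_lit 39) (nat_lit 5) (nat_lit 41) (nat_lit 5) (nat_lit 40) (nat_lit 4) (nat_lit 383) (nat_lit 360) (nat_lit 277))) (XT.nd (nat_lit 78) (nat_lit 228) (nat_lit 0) (XT.lf (nat_lit 0) (nat_lit 295313010582) (nat_lit 152) (nat_lit 140655973769) (nat_lit 0) (nat_lit 71622755126) (nat_lit 38) (nat_lit 5) (nat_lit 40) (nat_lit 4) (nat_lit 38) (nat_lit 4) (nat_lit 384) (nat_lit 360) (nat_lit 276)) (XT.nd (nat_lit 78) (nat_lit 76) (nat_lit 0) (XT.lf (nat_lit 0) (nat_lit 65524870955) (nat_lit 152) (nat_lit 87398756368) (nat_lit 76) (nat_lit 404991427512) (nat_lit 36) (nat_lit 5) (nat_lit 38) (nat_lit 5) (nat_lit 37) (nat_lit 4) (nat_lit 385) (nat_lit 360) (nat_lit 275)) (XT.lf (nat_lit 0) (nat_lit 395956992787) (nat_lit 152) (nat_lit 28670612528) (nat_lit 0) (nat_lit 188835983406) (nat_lit 35) (nat_lit 5) (nat_lit 37) (nat_lit 4) (nat_lit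 35) (nat_lit 4) (nat_lit 386) (nat_lit 360) (nat_lit 274))))) (XT.nd (nat_lit 156) (nat_lit 380) (nat_lit 0) (XT.nd (nat_lit 78) (nat_lit 76) (nat_lit 0) (XT.lf (nat_lit 0) (nat_lit 41211348625) (nat_lit 76) (nat_lit 78179286368) (nat_lit 152) (nat_lit 555706926549) (nat_lit 32) (nat_lit 5) (nat_lit 33) (nat_lit 5) (nat_lit 34) (nat_lit 4) (nat_lit 387) (nat_lit 360) (nat_lit 273)) (XT.lf (nat_lit 0) (nat_lit 114932391185) (nat_lit 76) (nat_lit 409948159069) (nat_lit 76) (nat_lit 218169164891) (nat_lit 31) (nat_lit 4) (nat_lit 32) (nat_lit 5) (nat_lit 32) (nat_lit 4) (nat_lit 388) (nat_lit 360) (nat_lit 272))) (XT.nd (nat_lit 78) (nat_lit 228) (nat_lit 0) (XT.lf (nat_lit 0) (nat_lit 187604870006) (nat_lit 152) (nat_lit 621142348320) (nat_lit 0) (nat_lit 10031621721) (nat_lit 29) (nat_lit 5) (nat_lit 31) (nat_lit 4) (nat_lit 29) (nat_lit 4) (nat_lit 389) (nat_lit 360) (nat_lit 271)) (XT.nd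 (nat_lit 78) (nat_lit 152) (nat_lit 0) (XT.lf (nat_lit 0) (nat_lit 276888731489) (nat_lit 76) (nat_lit 401564260616) (nat_lit 76) (nat_lit 223990920570) (nat_lit 28) (nat_lit 4) (nat_lit 29) (nat_lit 5) (nat_lit 29) (nat_lit 4) (nat_lit 390) (nat_lit 360) (nat_lit 270)) (XT.lf (nat_lit 0) (nat_lit 261768656886) (nat_lit 152) (nat_lit 636693816494) (nat_lit 0) (nat_lit 97348823701) (nat_lit 26) (nat_lit 5) (nat_lit 28) (nat_lit 4) (nat_lit 26) (nat_lit 4) (nat_lit 391) (nat_lit 360) (nat_lit 269)))))) (XT.nd (nat_lit 390) (nat_lit 608) (nat_lit 0) (XT.nd (nat_lit 156) (nat_lit 304) (nat_lit 0) (XT.nd (nat_lit 78) (nat_lit 152) (nat_lit 0) (XT.lf (nat_lit 0) (nat_lit 431453707318) (nat_lit 76) (nat_lit 416220480631) (nat_lit 76) (nat_lit 251800583199) (nat_lit 25) (nat_lit 4) (nat_lit 26) (nat_lit 5) (nat_lit 26) (nat_lit 4) (nat_lit 392) (nat_lit 360) (nat_lit 268)) (XT.lf (nat_lit 0) (nat_lit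 322956288057) (nat_lit 152) (nat_lit 721607368544) (nat_lit 0) (nat_lit 170715590560) (nat_lit 23) (nat_lit 5) (nat_lit 25) (nat_lit 4) (nat_lit 23) (nat_lit 4) (nat_lit 393) (nat_lit 360) (nat_lit 267))) (XT.nd (nat_lit 78) (nat_lit 228) (nat_lit 0) (XT.lf (nat_lit 0) (nat_lit 530741616499) (nat_lit 76) (nat_lit 482929015429) (nat_lit 76) (nat_lit 330688272951) (nat_lit 22) (nat_lit 4) (nat_lit 23) (nat_lit 5) (nat_lit 23) (nat_lit 4) (nat_lit 394) (nat_lit 360) (nat_lit 266)) (XT.nd (nat_lit 78) (nat_lit 76) (nat_lit 0) (XT.lf (nat_lit 0) (nat_lit 339041157208) (nat_lit 152) (nat_lit 951906118044) (nat_lit 0) (nat_lit 198077470549) (nat_lit 20) (nat_lit 5) (nat_lit 22) (nat_lit 4) (nat_lit 20) (nat_lit 4) (nat_lit 395) (nat_lit 360) (nat_lit 265)) (XT.lf (nat_lit 0) (nat_lit 487508145880) (nat_lit 76) (nat_lit 652081828978) (nat_lit 76) (nat_lit 511118110826) (nat_lit 19) (nat_lit 4) (nat_lit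 20) (nat_lit 5) (nat_lit 20) (nat_lit 4) (nat_lit 396) (nat_lit 360) (nat_lit 264))))) (XT.nd (nat_lit 234) (nat_lit 380) (nat_lit 0) (XT.nd (nat_lit 78) (nat_lit 76) (nat_lit 0) (XT.lf (nat_lit 0) (nat_lit 253040685396) (nat_lit 152) (nat_lit 1457402560763) (nat_lit 0) (nat_lit 122518698789) (nat_lit 17) (nat_lit 5) (nat_lit 19) (nat_lit 4) (nat_lit 17) (nat_lit 4) (nat_lit 397) (nat_lit 360) (nat_lit 263)) (XT.nd (nat_lit 78) (nat_lit 0) (nat_lit 0) (XT.lf (nat_lit 0) (nat_lit 150189370399) (nat_lit 76) (nat_lit 1008622144490) (nat_lit 76) (nat_lit 878100135834) (nat_lit 16) (nat_lit 4) (nat_lit 17) (nat_lit 5) (nat_lit 17) (nat_lit 4) (nat_lit 398) (nat_lit 360) (nat_lit 262)) (XT.lf (nat_lit 0) (nat_lit 2087175358135) (nat_lit 76) (nat_lit 155703024477) (nat_lit 76) (nat_lit 25180996648) (nat_lit 16) (nat_lit 4) (nat_lit 17) (nat_lit 5) (nat_lit 17) (nat_lit 4) (nat_lit 399) (nat_lit 360)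 (nat_lit 261)))) (XT.nd (nat_lit 78) (nat_lit 228) (nat_lit 0) (XT.lf (nat_lit 0) (nat_lit 973969242779) (nat_lit 152) (nat_lit 699667802817) (nat_lit 0) (nat_lit 853115497870) (nat_lit 14) (nat_lit 5) (nat_lit 16) (nat_lit 4) (nat_lit 14) (nat_lit 4) (nat_lit 400) (nat_lit 360) (nat_lit 260)) (XT.nd (nat_lit 78) (nat_lit 152) (nat_lit 0) (XT.lf (nat_lit 0) (nat_lit 1387649996185) (nat_lit 76) (nat_lit 776975578065) (nat_lit 76) (nat_lit 656121819732) (nat_lit 13) (nat_lit 4) (nat_lit 14) (nat_lit 5) (nat_lit 14) (nat_lit 4) (nat_lit 401) (nat_lit 360) (nat_lit 259)) (XT.lf (nat_lit 0) (nat_lit 401305410405) (nat_lit 152) (nat_lit 2463808515355) (nat_lit 0) (nat_lit 289403771511) (nat_lit 11) (nat_lit 5) (nat_lit 13) (nat_lit 4) (nat_lit 11) (nat_lit 4) (nat_lit 402) (nat_lit 360) (nat_lit 258))))))))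
noncomputable def xc83 : XT := (XT.nd (nat_lit 1638) (nat_lit 0) (nat_lit 0) (XT.nd (nat_lit 780) (nat_lit 228) (nat_lit 0) (XT.nd (nat_lit 390) (nat_lit 228) (nat_lit 0) (XT.nd (nat_lit 156) (nat_lit 228) (nat_lit 0) (XT.nd (nat_lit 78) (nat_lit 76) (nat_lit 0) (XT.lf (nat_lit 0) (nat_lit 1643897386111) (nat_lit 152) (nat_lit 355865020544) (nat_lit 0) (nat_lit 1531995737819) (nat_lit 11) (nat_lit 5) (nat_lit 13) (nat_lit 4) (nat_lit 11) (nat_lit 4) (nat_lit 403) (nat_lit 360) (nat_lit 257)) (XT.lf (nat_lit 0) (nat_lit 2177181021816) (nat_lit 76) (nat_lit 948058203998) (nat_lit 76) (nat_lit 836156547533) (nat_lit 10) (nat_lit 4) (nat_lit 11) (nat_lit 5) (nat_lit 11) (nat_lit 4) (nat_lit 404) (nat_lit 360) (nat_lit 256))) (XT.nd (nat_lit 78) (nat_lit 76) (nat_lit 0) (XT.lf (nat_lit 0) (nat_lit 388881632198) (nat_lit 152) (nat_lit 3777869998954) (nat_lit 0) (nat_lit 285268980743) (nat_lit 8)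 (nat_lit 5) (nat_lit 10) (nat_lit 4) (nat_lit 8) (nat_lit 4) (nat_lit 405) (nat_lit 360) (nat_lit 255)) (XT.nd (nat_lit 78) (nat_lit 76) (nat_lit 0) (XT.lf (nat_lit 0) (nat_lit 1829088917811) (nat_lit 152) (nat_lit 1453462675437) (nat_lit 0) (nat_lit 1725476260634) (nat_lit 8) (nat_lit 5) (nat_lit 10) (nat_lit 4) (nat_lit 8) (nat_lit 4) (nat_lit 406) (nat_lit 360) (nat_lit 254)) (XT.lf (nat_lit 0) (nat_lit 1283827709693) (nat_lit 76) (nat_lit 2232375529593) (nat_lit 76) (nat_lit 2128762867442) (nat_lit 7) (nat_lit 4) (nat_lit 8) (nat_lit 5) (nat_lit 8) (nat_lit 4) (nat_lit 407) (nat_lit 360) (nat_lit 253))))) (XT.nd (nat_lit 156) (nat_lit 76) (nat_lit 0) (XT.nd (nat_lit 78) (nat_lit 152) (nat_lit 0) (XT.lf (nat_lit 0) (nat_lit 4519728663417) (nat_lit 76) (nat_lit 978971915485) (nat_lit 76) (nat_lit 875359249006) (nat_lit 7) (nat_lit 4) (nat_lit 8) (nat_lit 5) (nat_lit 8) (nat_lit 4) (nat_lit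 408) (nat_lit 360) (nat_lit 252)) (XT.lf (nat_lit 0) (nat_lit 575574384576) (nat_lit 152) (nat_lit 6153190538471) (nat_lit 0) (nat_lit 479636726946) (nat_lit 5) (nat_lit 5) (nat_lit 7) (nat_lit 4) (nat_lit 5) (nat_lit 4) (nat_lit 409) (nat_lit 360) (nat_lit 251))) (XT.nd (nat_lit 78) (nat_lit 76) (nat_lit 0) (XT.lf (nat_lit 0) (nat_lit 2276255641075) (nat_lit 152) (nat_lit 3702787106492) (nat_lit 0) (nat_lit 2180317980416) (nat_lit 5) (nat_lit 5) (nat_lit 7) (nat_lit 4) (nat_lit 5) (nat_lit 4) (nat_lit 410) (nat_lit 360) (nat_lit 250)) (XT.nd (nat_lit 78) (nat_lit 76) (nat_lit 0) (XT.lf (nat_lit 0) (nat_lit 4232038989906) (nat_lit 152) (nat_lit 884823358846) (nat_lit 0) (nat_lit 4136101326612) (nat_lit 5) (nat_lit 5) (nat_lit 7) (nat_lit 4) (nat_lit 5) (nat_lit 4) (nat_lit 411) (nat_lit 360) (nat_lit 249)) (XT.lf (nat_lit 0) (nat_lit 2479888862292) (nat_lit 76) (nat_lit 4060942281944) (nat_lit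 76) (nat_lit 3965004616361) (nat_lit 4) (nat_lit 4) (nat_lit 5) (nat_lit 5) (nat_lit 5) (nat_lit 4) (nat_lit 412) (nat_lit 360) (nat_lit 248)))))) (XT.nd (nat_lit 390) (nat_lit 76) (nat_lit 0) (XT.nd (nat_lit 156) (nat_lit 152) (nat_lit 0) (XT.nd (nat_lit 78) (nat_lit 0) (nat_lit 0) (XT.lf (nat_lit 0) (nat_lit 6402889972644) (nat_lit 76) (nat_lit 2818812752631) (nat_lit 76) (nat_lit 2722875085056) (nat_lit 4) (nat_lit 4) (nat_lit 5) (nat_lit 5) (nat_lit 5) (nat_lit 4) (nat_lit 413) (nat_lit 360) (nat_lit 247)) (XT.lf (nat_lit 0) (nat_lit 10914341111723) (nat_lit 76) (nat_lit 1390363865216) (nat_lit 76) (nat_lit 1294426195909) (nat_lit 4) (nat_lit 4) (nat_lit 5) (nat_lit 5) (nat_lit 5) (nat_lit 4) (nat_lit 414) (nat_lit 360) (nat_lit 246))) (XT.nd (nat_lit 78) (nat_lit 0) (nat_lit 0) (XT.lf (nat_lit 0) (nat_lit 352537265860) (nat_lit 152) (nat_lit 14883220464663) (nat_lit 0) (nat_lit 263706089181)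 (nat_lit 2) (nat_lit 5) (nat_lit 4) (nat_lit 4) (nat_lit 2) (nat_lit 4) (nat_lit 415) (nat_lit 360) (nat_lit 245)) (XT.nd (nat_lit 78) (nat_lit 0) (nat_lit 0) (XT.lf (nat_lit 0) (nat_lit 2290728939136) (nat_lit 152) (nat_lit 13179863693011) (nat_lit 0) (nat_lit 2201897761244) (nat_lit 2) (nat_lit 5) (nat_lit 4) (nat_lit 4) (nat_lit 2) (nat_lit 4) (nat_lit 416) (nat_lit 360) (nat_lit 244)) (XT.lf (nat_lit 0) (nat_lit 4519649314950) (nat_lit 152) (nat_lit 11221003506055) (nat_lit 0) (nat_lit 4430818136004) (nat_lit 2) (nat_lit 5) (nat_lit 4) (nat_lit 4) (nat_lit 2) (nat_lit 4) (nat_lit 417) (nat_lit 360) (nat_lit 243))))) (XT.nd (nat_lit 234) (nat_lit 76) (nat_lit 0) (XT.nd (nat_lit 78) (nat_lit 0) (nat_lit 0) (XT.lf (nat_lit 0) (nat_lit 7082907705004) (nat_lit 152) (nat_lit 8968314378397) (nat_lit 0) (nat_lit 6994076525141) (nat_lit 2) (nat_lit 5) (nat_lit 4) (nat_lit 4) (nat_lit 2) (nat_lit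 4) (nat_lit 418) (nat_lit 360) (nat_lit 242)) (XT.nd (nat_lit 78) (nat_lit 0) (nat_lit 0) (XT.lf (nat_lit 0) (nat_lit 10030654816927) (nat_lit 152) (nat_lit 6377721957539) (nat_lit 0) (nat_lit 9941823636267) (nat_lit 2) (nat_lit 5) (nat_lit 4) (nat_lit 4) (nat_lit 2) (nat_lit 4) (nat_lit 419) (nat_lit 360) (nat_lit 241)) (XT.lf (nat_lit 0) (nat_lit 13420563963780) (nat_lit 152) (nat_lit 3398540739596) (nat_lit 0) (nat_lit 13331732782427) (nat_lit 2) (nat_lit 5) (nat_lit 4) (nat_lit 4) (nat_lit 2) (nat_lit 4) (nat_lit 420) (nat_lit 360) (nat_lit 240)))) (XT.nd (nat_lit 78) (nat_lit 0) (nat_lit 0) (XT.lf (nat_lit 0) (nat_lit 28966631850) (nat_lit 76) (nat_lit 17290689471300) (nat_lit 76) (nat_lit 17201858289343) (nat_lit 1) (nat_lit 4) (nat_lit 2) (nat_lit 5) (nat_lit 2) (nat_lit 4) (nat_lit 421) (nat_lit 360) (nat_lit 239)) (XT.nd (nat_lit 78) (nat_lit 0) (nat_lit 0) (XT.lf (nat_lit 0) (nat_lit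 4176405358956) (nat_lit 76) (nat_lit 17726151536091) (nat_lit 76) (nat_lit 17637320353611) (nat_lit 1) (nat_lit 4) (nat_lit 2) (nat_lit 5) (nat_lit 2) (nat_lit 4) (nat_lit 422) (nat_lit 360) (nat_lit 238)) (XT.lf (nat_lit 0) (nat_lit 8945959849416) (nat_lit 76) (nat_lit 18226932934266) (nat_lit 76) (nat_lit 18138101751329) (nat_lit 1) (nat_lit 4) (nat_lit 2) (nat_lit 5) (nat_lit 2) (nat_lit 4) (nat_lit 423) (nat_lit 360) (nat_lit 237))))))) (XT.nd (nat_lit 48906) (nat_lit 0) (nat_lit 3420) (XT.nd (nat_lit 48516) (nat_lit 0) (nat_lit 5396) (XT.nd (nat_lit 48282) (nat_lit 0) (nat_lit 6460) (XT.nd (nat_lit 48204) (nat_lit 0) (nat_lit 6992) (XT.lf (nat_lit 0) (nat_lit 14430947473697) (nat_lit 76) (nat_lit 18802831562744) (nat_lit 76) (nat_lit 18714000379411) (nat_lit 1) (nat_lit 4) (nat_lit 2) (nat_lit 5) (nat_lit 2) (nat_lit 4) (nat_lit 424) (nat_lit 360) (nat_lit 236)) (XT.lf (nat_lit 0) (nat_lit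 37655815771) (nat_lit 532) (nat_lit 276550487) (nat_lit 532) (nat_lit 276550487) (nat_lit 93) (nat_lit 3) (nat_lit 100) (nat_lit 3) (nat_lit 100) (nat_lit 5) (nat_lit 361) (nat_lit 361) (nat_lit 298))) (XT.nd (nat_lit 78) (nat_lit 0) (nat_lit 76) (XT.lf (nat_lit 0) (nat_lit 728884620) (nat_lit 532) (nat_lit 7492624076) (nat_lit 608) (nat_lit 73781262731) (nat_lit 86) (nat_lit 5) (nat_lit 93) (nat_lit 3) (nat_lit 94) (nat_lit 5) (nat_lit 362) (nat_lit 361) (nat_lit 297)) (XT.nd (nat_lit 78) (nat_lit 0) (nat_lit 76) (XT.lf (nat_lit 0) (nat_lit 6343718426) (nat_lit 532) (nat_lit 13775280300) (nat_lit 608) (nat_lit 68018554446) (nat_lit 87) (nat_lit 5) (nat_lit 94) (nat_lit 5) (nat_lit 95) (nat_lit 5) (nat_lit 363) (nat_lit 361) (nat_lit 296)) (XT.lf (nat_lit 0) (nat_lit 16608952903) (nat_lit 532) (nat_lit 19094907089) (nat_lit 608) (nat_lit 59184038503) (nat_lit 88) (nat_lit 5) (nat_lit 95) (nat_lit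 5) (nat_lit 96) (nat_lit 5) (nat_lit 364) (nat_lit 361) (nat_lit 295))))) (XT.nd (nat_lit 156) (nat_lit 760) (nat_lit 0) (XT.nd (nat_lit 78) (nat_lit 532) (nat_lit 0) (XT.lf (nat_lit 0) (nat_lit 32496578795) (nat_lit 532) (nat_lit 23132703625) (nat_lit 76) (nat_lit 46694905013) (nat_lit 89) (nat_lit 5) (nat_lit 96) (nat_lit 5) (nat_lit 90) (nat_lit 5) (nat_lit 365) (nat_lit 361) (nat_lit 294)) (XT.lf (nat_lit 0) (nat_lit 55143465316) (nat_lit 608) (nat_lit 25507311186) (nat_lit 76) (nat_lit 29875054147) (nat_lit 82) (nat_lit 5) (nat_lit 90) (nat_lit 5) (nat_lit 83) (nat_lit 5) (nat_lit 366) (nat_lit 361) (nat_lit 293))) (XT.nd (nat_lit 78) (nat_lit 532) (nat_lit 0) (XT.lf (nat_lit 0) (nat_lit 85877367544) (nat_lit 304) (nat_lit 25764499702) (nat_lit 76) (nat_lit 7940654722) (nat_lit 79) (nat_lit 5) (nat_lit 83) (nat_lit 5) (nat_lit 80) (nat_lit 5) (nat_lit 367) (nat_lit 361) (nat_lit 292))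 (XT.nd (nat_lit 78) (nat_lit 304) (nat_lit 0) (XT.lf (nat_lit 0) (nat_lit 105683087595) (nat_lit 228) (nat_lit 21070542786) (nat_lit 304) (nat_lit 2801504791) (nat_lit 76) (nat_lit 5) (nat_lit 79) (nat_lit 5) (nat_lit 80) (nat_lit 5) (nat_lit 368) (nat_lit 361) (nat_lit 291)) (XT.lf (nat_lit 0) (nat_lit 36936007558) (nat_lit 304) (nat_lit 20001087486) (nat_lit 76) (nat_lit 83556679118) (nat_lit 72) (nat_lit 5) (nat_lit 76) (nat_lit 5) (nat_lit 73) (nat_lit 5) (nat_lit 369) (nat_lit 361) (nat_lit 290)))))) (XT.nd (nat_lit 390) (nat_lit 912) (nat_lit 0) (XT.nd (nat_lit 156) (nat_lit 684) (nat_lit 0) (XT.nd (nat_lit 78) (nat_lit 152) (nat_lit 0) (XT.lf (nat_lit 0) (nat_lit 88468834656) (nat_lit 304) (nat_lit 12664511294) (nat_lit 76) (nat_lit 51453996430) (nat_lit 69) (nat_lit 5) (nat_lit 73) (nat_lit 5) (nat_lit 70) (nat_lit 5) (nat_lit 370) (nat_lit 361) (nat_lit 289)) (XT.lf (nat_lit 0) (nat_lit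 154151265192) (nat_lit 228) (nat_lit 1003385275) (nat_lit 76) (nat_lit 10826721139) (nat_lit 67) (nat_lit 5) (nat_lit 70) (nat_lit 5) (nat_lit 68) (nat_lit 5) (nat_lit 371) (nat_lit 361) (nat_lit 288))) (XT.nd (nat_lit 78) (nat_lit 304) (nat_lit 0) (XT.lf (nat_lit 0) (nat_lit 14250186851) (nat_lit 152) (nat_lit 40062173484) (nat_lit 228) (nat_lit 126305049127) (nat_lit 62) (nat_lit 5) (nat_lit 64) (nat_lit 5) (nat_lit 65) (nat_lit 5) (nat_lit 372) (nat_lit 361) (nat_lit 287)) (XT.nd (nat_lit 78) (nat_lit 152) (nat_lit 0) (XT.lf (nat_lit 0) (nat_lit 34858493229) (nat_lit 152) (nat_lit 102914128903) (nat_lit 228) (nat_lit 59003896967) (nat_lit 60) (nat_lit 5) (nat_lit 62) (nat_lit 5) (nat_lit 63) (nat_lit 5) (nat_lit 373) (nat_lit 361) (nat_lit 286)) (XT.lf (nat_lit 0) (nat_lit 25968346306) (nat_lit 152) (nat_lit 152789613685) (nat_lit 76) (nat_lit 35886469631) (nat_lit 58) (nat_lit 5) (nat_lit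 60) (nat_lit 5) (nat_lit 59) (nat_lit 5) (nat_lit 374) (nat_lit 361) (nat_lit 285))))) (XT.nd (nat_lit 234) (nat_lit 456) (nat_lit 0) (XT.nd (nat_lit 78) (nat_lit 304) (nat_lit 0) (XT.lf (nat_lit 0) (nat_lit 94298132982) (nat_lit 152) (nat_lit 35943593167) (nat_lit 228) (nat_lit 104024275999) (nat_lit 56) (nat_lit 5) (nat_lit 58) (nat_lit 5) (nat_lit 59) (nat_lit 5) (nat_lit 375) (nat_lit 361) (nat_lit 284)) (XT.nd (nat_lit 78) (nat_lit 152) (nat_lit 0) (XT.lf (nat_lit 0) (nat_lit 4831450305) (nat_lit 152) (nat_lit 121316583522) (nat_lit 76) (nat_lit 129801838710) (nat_lit 54) (nat_lit 5) (nat_lit 56) (nat_lit 5) (nat_lit 55) (nat_lit 5) (nat_lit 376) (nat_lit 361) (nat_lit 283)) (XT.lf (nat_lit 0) (nat_lit 134820195037) (nat_lit 228) (nat_lit 97546476932) (nat_lit 76) (nat_lit 47426372622) (nat_lit 52) (nat_lit 5) (nat_lit 55) (nat_lit 5) (nat_lit 53) (nat_lit 4) (nat_lit 377) (nat_lit 361)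 (nat_lit 282)))) (XT.nd (nat_lit 78) (nat_lit 380) (nat_lit 0) (XT.lf (nat_lit 0) (nat_lit 240193887309) (nat_lit 76) (nat_lit 57001862743) (nat_lit 152) (nat_lit 8985862553) (nat_lit 51) (nat_lit 5) (nat_lit 52) (nat_lit 5) (nat_lit 53) (nat_lit 4) (nat_lit 378) (nat_lit 361) (nat_lit 281)) (XT.nd (nat_lit 78) (nat_lit 152) (nat_lit 0) (XT.lf (nat_lit 0) (nat_lit 154237055558) (nat_lit 228) (nat_lit 29162813253) (nat_lit 76) (nat_lit 151708089818) (nat_lit 48) (nat_lit 5) (nat_lit 51) (nat_lit 5) (nat_lit 49) (nat_lit 4) (nat_lit 379) (nat_lit 361) (nat_lit 280)) (XT.lf (nat_lit 0) (nat_lit 19803949577) (nat_lit 76) (nat_lit 335736292368) (nat_lit 76) (nat_lit 11684031206) (nat_lit 46) (nat_lit 4) (nat_lit 47) (nat_lit 5) (nat_lit 47) (nat_lit 4) (nat_lit 380) (nat_lit 361) (nat_lit 279))))))))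
noncomputable def xc84 : XT := (XT.nd (nat_lit 1638) (nat_lit 988) (nat_lit 0) (XT.nd (nat_lit 780) (nat_lit 1140) (nat_lit 0) (XT.nd (nat_lit 390) (nat_lit 684) (nat_lit 0) (XT.nd (nat_lit 156) (nat_lit 304) (nat_lit 0) (XT.nd (nat_lit 78) (nat_lit 152) (nat_lit 0) (XT.lf (nat_lit 0) (nat_lit 76263726221) (nat_lit 76) (nat_lit 116196097251) (nat_lit 152) (nat_lit 209848156739) (nat_lit 44) (nat_lit 5) (nat_lit 45) (nat_lit 5) (nat_lit 46) (nat_lit 4) (nat_lit 381) (nat_lit 361) (nat_lit 278)) (XT.lf (nat_lit 0) (nat_lit 2343699690) (nat_lit 152) (nat_lit 295174265701) (nat_lit 76) (nat_lit 143732167660) (nat_lit 42) (nat_lit 5) (nat_lit 44) (nat_lit 5) (nat_lit 43) (nat_lit 4) (nat_lit 382) (nat_lit 361) (nat_lit 277))) (XT.nd (nat_lit 78) (nat_lit 228) (nat_lit 0) (XT.lf (nat_lit 0) (nat_lit 225499048093) (nat_lit 76) (nat_lit 27168510088) (nat_lit 152) (nat_lit 231431716435) (nat_lit 41)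 (nat_lit 5) (nat_lit 42) (nat_lit 5) (nat_lit 43) (nat_lit 4) (nat_lit 383) (nat_lit 361) (nat_lit 276)) (XT.nd (nat_lit 78) (nat_lit 76) (nat_lit 0) (XT.lf (nat_lit 0) (nat_lit 30707001403) (nat_lit 152) (nat_lit 213953274224) (nat_lit 76) (nat_lit 286789633766) (nat_lit 39) (nat_lit 5) (nat_lit 41) (nat_lit 5) (nat_lit 40) (nat_lit 4) (nat_lit 384) (nat_lit 361) (nat_lit 275)) (XT.lf (nat_lit 0) (nat_lit 339616440058) (nat_lit 152) (nat_lit 161741597764) (nat_lit 0) (nat_lit 82371944232) (nat_lit 38) (nat_lit 5) (nat_lit 40) (nat_lit 4) (nat_lit 38) (nat_lit 4) (nat_lit 385) (nat_lit 361) (nat_lit 274))))) (XT.nd (nat_lit 156) (nat_lit 456) (nat_lit 0) (XT.nd (nat_lit 78) (nat_lit 76) (nat_lit 0) (XT.lf (nat_lit 0) (nat_lit 75359669421) (nat_lit 152) (nat_lit 100496559234) (nat_lit 76) (nat_lit 465745598889) (nat_lit 36) (nat_lit 5) (nat_lit 38) (nat_lit 5) (nat_lit 37) (nat_lit 4) (nat_lit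 386) (nat_lit 361) (nat_lit 273)) (XT.lf (nat_lit 0) (nat_lit 455356213626) (nat_lit 152) (nat_lit 32959898263) (nat_lit 0) (nat_lit 217166561307) (nat_lit 35) (nat_lit 5) (nat_lit 37) (nat_lit 4) (nat_lit 35) (nat_lit 4) (nat_lit 387) (nat_lit 361) (nat_lit 272))) (XT.nd (nat_lit 78) (nat_lit 228) (nat_lit 0) (XT.lf (nat_lit 0) (nat_lit 47404239740) (nat_lit 76) (nat_lit 89900575233) (nat_lit 152) (nat_lit 639056933959) (nat_lit 32) (nat_lit 5) (nat_lit 33) (nat_lit 5) (nat_lit 34) (nat_lit 4) (nat_lit 388) (nat_lit 361) (nat_lit 271)) (XT.nd (nat_lit 78) (nat_lit 152) (nat_lit 0) (XT.lf (nat_lit 0) (nat_lit 132182777255) (nat_lit 76) (nat_lit 471435082208) (nat_lit 76) (nat_lit 250888894766) (nat_lit 31) (nat_lit 4) (nat_lit 32) (nat_lit 5) (nat_lit 32) (nat_lit 4) (nat_lit 389) (nat_lit 361) (nat_lit 270)) (XT.lf (nat_lit 0) (nat_lit 215750621605) (nat_lit 152) (nat_lit 714303533722) (nat_lit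 0) (nat_lit 11541108996) (nat_lit 29) (nat_lit 5) (nat_lit 31) (nat_lit 4) (nat_lit 29) (nat_lit 4) (nat_lit 390) (nat_lit 361) (nat_lit 269)))))) (XT.nd (nat_lit 390) (nat_lit 608) (nat_lit 0) (XT.nd (nat_lit 156) (nat_lit 304) (nat_lit 0) (XT.nd (nat_lit 78) (nat_lit 152) (nat_lit 0) (XT.lf (nat_lit 0) (nat_lit 318431347486) (nat_lit 76) (nat_lit 461794183424) (nat_lit 76) (nat_lit 257584601429) (nat_lit 28) (nat_lit 4) (nat_lit 29) (nat_lit 5) (nat_lit 29) (nat_lit 4) (nat_lit 391) (nat_lit 361) (nat_lit 268)) (XT.lf (nat_lit 0) (nat_lit 301038367535) (nat_lit 152) (nat_lit 732188905731) (nat_lit 0) (nat_lit 111955365377) (nat_lit 26) (nat_lit 5) (nat_lit 28) (nat_lit 4) (nat_lit 26) (nat_lit 4) (nat_lit 392) (nat_lit 361) (nat_lit 267))) (XT.nd (nat_lit 78) (nat_lit 228) (nat_lit 0) (XT.lf (nat_lit 0) (nat_lit 496179986266) (nat_lit 76) (nat_lit 478649364257) (nat_lit 76) (nat_lit 289566313520)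 (nat_lit 25) (nat_lit 4) (nat_lit 26) (nat_lit 5) (nat_lit 26) (nat_lit 4) (nat_lit 393) (nat_lit 361) (nat_lit 266)) (XT.nd (nat_lit 78) (nat_lit 76) (nat_lit 0) (XT.lf (nat_lit 0) (nat_lit 371403611174) (nat_lit 152) (nat_lit 829840539418) (nat_lit 0) (nat_lit 196326673229) (nat_lit 23) (nat_lit 5) (nat_lit 25) (nat_lit 4) (nat_lit 23) (nat_lit 4) (nat_lit 394) (nat_lit 361) (nat_lit 265)) (XT.lf (nat_lit 0) (nat_lit 610360121774) (nat_lit 76) (nat_lit 555364653447) (nat_lit 76) (nat_lit 380287681491) (nat_lit 22) (nat_lit 4) (nat_lit 23) (nat_lit 5) (nat_lit 23) (nat_lit 4) (nat_lit 395) (nat_lit 361) (nat_lit 264))))) (XT.nd (nat_lit 234) (nat_lit 228) (nat_lit 0) (XT.nd (nat_lit 78) (nat_lit 228) (nat_lit 0) (XT.lf (nat_lit 0) (nat_lit 389900744734) (nat_lit 152) (nat_lit 1094685029823) (nat_lit 0) (nat_lit 227792409983) (nat_lit 20) (nat_lit 5) (nat_lit 22) (nat_lit 4) (nat_lit 20) (nat_lit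 4) (nat_lit 396) (nat_lit 361) (nat_lit 263)) (XT.nd (nat_lit 78) (nat_lit 152) (nat_lit 0) (XT.lf (nat_lit 0) (nat_lit 560640780673) (nat_lit 76) (nat_lit 749890813292) (nat_lit 76) (nat_lit 587782454728) (nat_lit 19) (nat_lit 4) (nat_lit 20) (nat_lit 5) (nat_lit 20) (nat_lit 4) (nat_lit 397) (nat_lit 361) (nat_lit 262)) (XT.lf (nat_lit 0) (nat_lit 290999793588) (nat_lit 152) (nat_lit 1676006760250) (nat_lit 0) (nat_lit 140899442411) (nat_lit 17) (nat_lit 5) (nat_lit 19) (nat_lit 4) (nat_lit 17) (nat_lit 4) (nat_lit 398) (nat_lit 361) (nat_lit 261)))) (XT.nd (nat_lit 78) (nat_lit 152) (nat_lit 0) (XT.lf (nat_lit 0) (nat_lit 172723437087) (nat_lit 76) (nat_lit 1159912554561) (nat_lit 76) (nat_lit 1009812186712) (nat_lit 16) (nat_lit 4) (nat_lit 17) (nat_lit 5) (nat_lit 17) (nat_lit 4) (nat_lit 399) (nat_lit 361) (nat_lit 260)) (XT.nd (nat_lit 78) (nat_lit 152) (nat_lit 0) (XT.lf (nat_lit 0)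 (nat_lit 2400256584576) (nat_lit 76) (nat_lit 179055946320) (nat_lit 76) (nat_lit 28955563974) (nat_lit 16) (nat_lit 4) (nat_lit 17) (nat_lit 5) (nat_lit 17) (nat_lit 4) (nat_lit 400) (nat_lit 361) (nat_lit 259)) (XT.lf (nat_lit 0) (nat_lit 1120066930693) (nat_lit 152) (nat_lit 804613226651) (nat_lit 0) (nat_lit 981085083515) (nat_lit 14) (nat_lit 5) (nat_lit 16) (nat_lit 4) (nat_lit 14) (nat_lit 4) (nat_lit 401) (nat_lit 361) (nat_lit 258))))))) (XT.nd (nat_lit 780) (nat_lit 304) (nat_lit 0) (XT.nd (nat_lit 390) (nat_lit 228) (nat_lit 0) (XT.nd (nat_lit 156) (nat_lit 228) (nat_lit 0) (XT.nd (nat_lit 78) (nat_lit 152) (nat_lit 0) (XT.lf (nat_lit 0) (nat_lit 1595801840427) (nat_lit 76) (nat_lit 893519675756) (nat_lit 76) (nat_lit 754537818427) (nat_lit 13) (nat_lit 4) (nat_lit 14) (nat_lit 5) (nat_lit 14) (nat_lit 4) (nat_lit 402) (nat_lit 361) (nat_lit 257)) (XT.lf (nat_lit 0) (nat_lit 461503249421)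 (nat_lit 152) (nat_lit 2833375603927) (nat_lit 0) (nat_lit 332816336314) (nat_lit 11) (nat_lit 5) (nat_lit 13) (nat_lit 4) (nat_lit 11) (nat_lit 4) (nat_lit 403) (nat_lit 361) (nat_lit 256))) (XT.nd (nat_lit 78) (nat_lit 228) (nat_lit 0) (XT.lf (nat_lit 0) (nat_lit 1890483757032) (nat_lit 152) (nat_lit 409241131250) (nat_lit 0) (nat_lit 1761796836819) (nat_lit 11) (nat_lit 5) (nat_lit 13) (nat_lit 4) (nat_lit 11) (nat_lit 4) (nat_lit 404) (nat_lit 361) (nat_lit 255)) (XT.nd (nat_lit 78) (nat_lit 152) (nat_lit 0) (XT.lf (nat_lit 0) (nat_lit 2503761509155) (nat_lit 76) (nat_lit 1090265213762) (nat_lit 76) (nat_lit 961578287369) (nat_lit 10) (nat_lit 4) (nat_lit 11) (nat_lit 5) (nat_lit 11) (nat_lit 4) (nat_lit 405) (nat_lit 361) (nat_lit 254)) (XT.lf (nat_lit 0) (nat_lit 447215430483) (nat_lit 152) (nat_lit 4344547284883) (nat_lit 0) (nat_lit 328060864033) (nat_lit 8) (nat_lit 5) (nat_lit 10)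 (nat_lit 4) (nat_lit 8) (nat_lit 4) (nat_lit 406) (nat_lit 361) (nat_lit 253))))) (XT.nd (nat_lit 156) (nat_lit 152) (nat_lit 0) (XT.nd (nat_lit 78) (nat_lit 76) (nat_lit 0) (XT.lf (nat_lit 0) (nat_lit 2103453606314) (nat_lit 152) (nat_lit 1671479282045) (nat_lit 0) (nat_lit 1984299035537) (nat_lit 8) (nat_lit 5) (nat_lit 10) (nat_lit 4) (nat_lit 8) (nat_lit 4) (nat_lit 407) (nat_lit 361) (nat_lit 252)) (XT.lf (nat_lit 0) (nat_lit 1476404424297) (nat_lit 76) (nat_lit 2567230537042) (nat_lit 76) (nat_lit 2448075962503) (nat_lit 7) (nat_lit 4) (nat_lit 8) (nat_lit 5) (nat_lit 8) (nat_lit 4) (nat_lit 408) (nat_lit 361) (nat_lit 251))) (XT.nd (nat_lit 78) (nat_lit 152) (nat_lit 0) (XT.lf (nat_lit 0) (nat_lit 5197690187407) (nat_lit 76) (nat_lit 1125816553251) (nat_lit 76) (nat_lit 1006661975440) (nat_lit 7) (nat_lit 4) (nat_lit 8) (nat_lit 5) (nat_lit 8) (nat_lit 4) (nat_lit 409) (nat_lit 361)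 (nat_lit 250)) (XT.nd (nat_lit 78) (nat_lit 0) (nat_lit 0) (XT.lf (nat_lit 0) (nat_lit 661911577482) (nat_lit 152) (nat_lit 7076166975131) (nat_lit 0) (nat_lit 551583262060) (nat_lit 5) (nat_lit 5) (nat_lit 7) (nat_lit 4) (nat_lit 5) (nat_lit 4) (nat_lit 410) (nat_lit 361) (nat_lit 249)) (XT.lf (nat_lit 0) (nat_lit 2617694887427) (nat_lit 152) (nat_lit 4258203308022) (nat_lit 0) (nat_lit 2507366569715) (nat_lit 5) (nat_lit 5) (nat_lit 7) (nat_lit 4) (nat_lit 5) (nat_lit 4) (nat_lit 411) (nat_lit 361) (nat_lit 248)))))) (XT.nd (nat_lit 390) (nat_lit 76) (nat_lit 0) (XT.nd (nat_lit 156) (nat_lit 152) (nat_lit 0) (XT.nd (nat_lit 78) (nat_lit 76) (nat_lit 0) (XT.lf (nat_lit 0) (nat_lit 4866845621166) (nat_lit 152) (nat_lit 1017545241417) (nat_lit 0) (nat_lit 4756517301462) (nat_lit 5) (nat_lit 5) (nat_lit 7) (nat_lit 4) (nat_lit 5) (nat_lit 4) (nat_lit 412) (nat_lit 361) (nat_lit 247)) (XT.lf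 (nat_lit 0) (nat_lit 2851873675661) (nat_lit 76) (nat_lit 4670082856576) (nat_lit 76) (nat_lit 4559754535140) (nat_lit 4) (nat_lit 4) (nat_lit 5) (nat_lit 5) (nat_lit 5) (nat_lit 4) (nat_lit 413) (nat_lit 361) (nat_lit 246))) (XT.nd (nat_lit 78) (nat_lit 152) (nat_lit 0) (XT.lf (nat_lit 0) (nat_lit 7363324758997) (nat_lit 76) (nat_lit 3241633997995) (nat_lit 76) (nat_lit 3131305675054) (nat_lit 4) (nat_lit 4) (nat_lit 5) (nat_lit 5) (nat_lit 5) (nat_lit 4) (nat_lit 414) (nat_lit 361) (nat_lit 245)) (XT.nd (nat_lit 78) (nat_lit 152) (nat_lit 0) (XT.lf (nat_lit 0) (nat_lit 12551493400618) (nat_lit 76) (nat_lit 1598917864537) (nat_lit 76) (nat_lit 1488589540286) (nat_lit 4) (nat_lit 4) (nat_lit 5) (nat_lit 5) (nat_lit 5) (nat_lit 4) (nat_lit 415) (nat_lit 361) (nat_lit 244)) (XT.lf (nat_lit 0) (nat_lit 405418377458) (nat_lit 152) (nat_lit 17115702452848) (nat_lit 0) (nat_lit 303262520615) (nat_lit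 2) (nat_lit 5) (nat_lit 4) (nat_lit 4) (nat_lit 2) (nat_lit 4) (nat_lit 416) (nat_lit 361) (nat_lit 243))))) (XT.nd (nat_lit 234) (nat_lit 76) (nat_lit 0) (XT.nd (nat_lit 78) (nat_lit 0) (nat_lit 0) (XT.lf (nat_lit 0) (nat_lit 2634338733675) (nat_lit 152) (nat_lit 15156842306516) (nat_lit 0) (nat_lit 2532182875916) (nat_lit 2) (nat_lit 5) (nat_lit 4) (nat_lit 4) (nat_lit 2) (nat_lit 4) (nat_lit 417) (nat_lit 361) (nat_lit 242)) (XT.nd (nat_lit 78) (nat_lit 0) (nat_lit 0) (XT.lf (nat_lit 0) (nat_lit 5197597106687) (nat_lit 152) (nat_lit 12904153214183) (nat_lit 0) (nat_lit 5095441248131) (nat_lit 2) (nat_lit 5) (nat_lit 4) (nat_lit 4) (nat_lit 2) (nat_lit 4) (nat_lit 418) (nat_lit 361) (nat_lit 241)) (XT.lf (nat_lit 0) (nat_lit 8145344203793) (nat_lit 152) (nat_lit 10313560824043) (nat_lit 0) (nat_lit 8043188344543) (nat_lit 2) (nat_lit 5) (nat_lit 4) (nat_lit 4) (nat_lit 2) (nat_lit 4) (nat_lit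 419) (nat_lit 361) (nat_lit 240)))) (XT.nd (nat_lit 78) (nat_lit 76) (nat_lit 0) (XT.lf (nat_lit 0) (nat_lit 11535253337761) (nat_lit 152) (nat_lit 7334379632811) (nat_lit 0) (nat_lit 11433097477908) (nat_lit 2) (nat_lit 5) (nat_lit 4) (nat_lit 4) (nat_lit 2) (nat_lit 4) (nat_lit 420) (nat_lit 361) (nat_lit 239)) (XT.nd (nat_lit 78) (nat_lit 76) (nat_lit 0) (XT.lf (nat_lit 0) (nat_lit 15433648817734) (nat_lit 152) (nat_lit 3908321312831) (nat_lit 0) (nat_lit 15331492957357) (nat_lit 2) (nat_lit 5) (nat_lit 4) (nat_lit 4) (nat_lit 2) (nat_lit 4) (nat_lit 421) (nat_lit 361) (nat_lit 238)) (XT.lf (nat_lit 0) (nat_lit 33312118818) (nat_lit 76) (nat_lit 19884292637196) (nat_lit 76) (nat_lit 19782136776363) (nat_lit 1) (nat_lit 4) (nat_lit 2) (nat_lit 5) (nat_lit 2) (nat_lit 4) (nat_lit 422) (nat_lit 361) (nat_lit 237))))))))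
noncomputable def xc85 : XT := (XT.nd (nat_lit 49920) (nat_lit 0) (nat_lit 988) (XT.nd (nat_lit 49062) (nat_lit 0) (nat_lit 3420) (XT.nd (nat_lit 48672) (nat_lit 0) (nat_lit 5396) (XT.nd (nat_lit 48438) (nat_lit 0) (nat_lit 6460) (XT.nd (nat_lit 48360) (nat_lit 0) (nat_lit 6992) (XT.lf (nat_lit 0) (nat_lit 4802866590790) (nat_lit 76) (nat_lit 20385074044941) (nat_lit 76) (nat_lit 20282918183712) (nat_lit 1) (nat_lit 4) (nat_lit 2) (nat_lit 5) (nat_lit 2) (nat_lit 4) (nat_lit 423) (nat_lit 361) (nat_lit 236)) (XT.lf (nat_lit 0) (nat_lit 43322458909) (nat_lit 532) (nat_lit 308165624) (nat_lit 532) (nat_lit 308165624) (nat_lit 93) (nat_lit 3) (nat_lit 100) (nat_lit 3) (nat_lit 100) (nat_lit 5) (nat_lit 362) (nat_lit 362) (nat_lit 296))) (XT.nd (nat_lit 78) (nat_lit 0) (nat_lit 76) (XT.lf (nat_lit 0) (nat_lit 871267662) (nat_lit 532) (nat_lit 8596708977) (nat_lit 608) (nat_lit 84832562550) (nat_lit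 86) (nat_lit 5) (nat_lit 93) (nat_lit 3) (nat_lit 94) (nat_lit 5) (nat_lit 363) (nat_lit 362) (nat_lit 295)) (XT.nd (nat_lit 78) (nat_lit 0) (nat_lit 76) (XT.lf (nat_lit 0) (nat_lit 7324186103) (nat_lit 532) (nat_lit 15820837292) (nat_lit 608) (nat_lit 78210846547) (nat_lit 87) (nat_lit 5) (nat_lit 94) (nat_lit 5) (nat_lit 95) (nat_lit 5) (nat_lit 364) (nat_lit 362) (nat_lit 294)) (XT.lf (nat_lit 0) (nat_lit 19125732255) (nat_lit 532) (nat_lit 21937953504) (nat_lit 608) (nat_lit 68055359629) (nat_lit 88) (nat_lit 5) (nat_lit 95) (nat_lit 5) (nat_lit 96) (nat_lit 5) (nat_lit 365) (nat_lit 362) (nat_lit 293))))) (XT.nd (nat_lit 156) (nat_lit 760) (nat_lit 0) (XT.nd (nat_lit 78) (nat_lit 532) (nat_lit 0) (XT.lf (nat_lit 0) (nat_lit 37393574016) (nat_lit 532) (nat_lit 26581327033) (nat_lit 76) (nat_lit 53696111246) (nat_lit 89) (nat_lit 5) (nat_lit 96) (nat_lit 5) (nat_lit 90) (nat_lit 5) (nat_lit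 366) (nat_lit 362) (nat_lit 292)) (XT.lf (nat_lit 0) (nat_lit 63435012672) (nat_lit 608) (nat_lit 29312308153) (nat_lit 76) (nat_lit 34355779972) (nat_lit 82) (nat_lit 5) (nat_lit 90) (nat_lit 5) (nat_lit 83) (nat_lit 5) (nat_lit 367) (nat_lit 362) (nat_lit 291))) (XT.nd (nat_lit 78) (nat_lit 532) (nat_lit 0) (XT.lf (nat_lit 0) (nat_lit 98776886927) (nat_lit 304) (nat_lit 29608463085) (nat_lit 76) (nat_lit 9133115159) (nat_lit 79) (nat_lit 5) (nat_lit 83) (nat_lit 5) (nat_lit 80) (nat_lit 5) (nat_lit 368) (nat_lit 362) (nat_lit 290)) (XT.nd (nat_lit 78) (nat_lit 304) (nat_lit 0) (XT.lf (nat_lit 0) (nat_lit 121554509175) (nat_lit 228) (nat_lit 24228199324) (nat_lit 304) (nat_lit 3204412567) (nat_lit 76) (nat_lit 5) (nat_lit 79) (nat_lit 5) (nat_lit 80) (nat_lit 5) (nat_lit 369) (nat_lit 362) (nat_lit 289)) (XT.lf (nat_lit 0) (nat_lit 42491232831) (nat_lit 304) (nat_lit 22982003651) (nat_lit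 76) (nat_lit 96093416508) (nat_lit 72) (nat_lit 5) (nat_lit 76) (nat_lit 5) (nat_lit 73) (nat_lit 5) (nat_lit 370) (nat_lit 362) (nat_lit 288)))))) (XT.nd (nat_lit 390) (nat_lit 912) (nat_lit 0) (XT.nd (nat_lit 156) (nat_lit 684) (nat_lit 0) (XT.nd (nat_lit 78) (nat_lit 152) (nat_lit 0) (XT.lf (nat_lit 0) (nat_lit 101752577619) (nat_lit 304) (nat_lit 14545607360) (nat_lit 76) (nat_lit 59176184149) (nat_lit 69) (nat_lit 5) (nat_lit 73) (nat_lit 5) (nat_lit 70) (nat_lit 5) (nat_lit 371) (nat_lit 362) (nat_lit 287)) (XT.lf (nat_lit 0) (nat_lit 177286150227) (nat_lit 228) (nat_lit 1136036626) (nat_lit 76) (nat_lit 12455413840) (nat_lit 67) (nat_lit 5) (nat_lit 70) (nat_lit 5) (nat_lit 68) (nat_lit 5) (nat_lit 372) (nat_lit 362) (nat_lit 286))) (XT.nd (nat_lit 78) (nat_lit 304) (nat_lit 0) (XT.lf (nat_lit 0) (nat_lit 16405546928) (nat_lit 152) (nat_lit 46065380494) (nat_lit 228) (nat_lit 145238155585)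 (nat_lit 62) (nat_lit 5) (nat_lit 64) (nat_lit 5) (nat_lit 65) (nat_lit 5) (nat_lit 373) (nat_lit 362) (nat_lit 285)) (XT.nd (nat_lit 78) (nat_lit 152) (nat_lit 0) (XT.lf (nat_lit 0) (nat_lit 40104313651) (nat_lit 152) (nat_lit 118344924984) (nat_lit 228) (nat_lit 67842899750) (nat_lit 60) (nat_lit 5) (nat_lit 62) (nat_lit 5) (nat_lit 63) (nat_lit 5) (nat_lit 374) (nat_lit 362) (nat_lit 284)) (XT.lf (nat_lit 0) (nat_lit 29873702195) (nat_lit 152) (nat_lit 175691272857) (nat_lit 76) (nat_lit 41275310116) (nat_lit 58) (nat_lit 5) (nat_lit 60) (nat_lit 5) (nat_lit 59) (nat_lit 5) (nat_lit 375) (nat_lit 362) (nat_lit 283))))) (XT.nd (nat_lit 234) (nat_lit 456) (nat_lit 0) (XT.nd (nat_lit 78) (nat_lit 304) (nat_lit 0) (XT.lf (nat_lit 0) (nat_lit 108458215224) (nat_lit 152) (nat_lit 41328925349) (nat_lit 228) (nat_lit 119618028951) (nat_lit 56) (nat_lit 5) (nat_lit 58) (nat_lit 5) (nat_lit 59) (nat_lit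 5) (nat_lit 376) (nat_lit 362) (nat_lit 282)) (XT.nd (nat_lit 78) (nat_lit 152) (nat_lit 0) (XT.lf (nat_lit 0) (nat_lit 5564829693) (nat_lit 152) (nat_lit 139499018305) (nat_lit 76) (nat_lit 149277812064) (nat_lit 54) (nat_lit 5) (nat_lit 56) (nat_lit 5) (nat_lit 55) (nat_lit 5) (nat_lit 377) (nat_lit 362) (nat_lit 281)) (XT.lf (nat_lit 0) (nat_lit 155051229966) (nat_lit 228) (nat_lit 112164182699) (nat_lit 76) (nat_lit 54545947806) (nat_lit 52) (nat_lit 5) (nat_lit 55) (nat_lit 5) (nat_lit 53) (nat_lit 4) (nat_lit 378) (nat_lit 362) (nat_lit 280)))) (XT.nd (nat_lit 78) (nat_lit 380) (nat_lit 0) (XT.lf (nat_lit 0) (nat_lit 276236028652) (nat_lit 76) (nat_lit 65546359415) (nat_lit 152) (nat_lit 10325884081) (nat_lit 51) (nat_lit 5) (nat_lit 52) (nat_lit 5) (nat_lit 53) (nat_lit 4) (nat_lit 379) (nat_lit 362) (nat_lit 279)) (XT.nd (nat_lit 78) (nat_lit 152) (nat_lit 0) (XT.lf (nat_lit 0) (nat_lit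 177379534022) (nat_lit 228) (nat_lit 33524511908) (nat_lit 76) (nat_lit 174469552636) (nat_lit 48) (nat_lit 5) (nat_lit 51) (nat_lit 5) (nat_lit 49) (nat_lit 4) (nat_lit 380) (nat_lit 362) (nat_lit 278)) (XT.lf (nat_lit 0) (nat_lit 22787196810) (nat_lit 76) (nat_lit 386090812012) (nat_lit 76) (nat_lit 13429366639) (nat_lit 46) (nat_lit 4) (nat_lit 47) (nat_lit 5) (nat_lit 47) (nat_lit 4) (nat_lit 381) (nat_lit 362) (nat_lit 277))))))) (XT.nd (nat_lit 780) (nat_lit 1140) (nat_lit 0) (XT.nd (nat_lit 390) (nat_lit 684) (nat_lit 0) (XT.nd (nat_lit 156) (nat_lit 304) (nat_lit 0) (XT.nd (nat_lit 78) (nat_lit 152) (nat_lit 0) (XT.lf (nat_lit 0) (nat_lit 87715201826) (nat_lit 76) (nat_lit 133619886643) (nat_lit 152) (nat_lit 241318585282) (nat_lit 44) (nat_lit 5) (nat_lit 45) (nat_lit 5) (nat_lit 46) (nat_lit 4) (nat_lit 382) (nat_lit 362) (nat_lit 276)) (XT.lf (nat_lit 0) (nat_lit 2701265899) (nat_lit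 152) (nat_lit 339438843850) (nat_lit 76) (nat_lit 165297062219) (nat_lit 42) (nat_lit 5) (nat_lit 44) (nat_lit 5) (nat_lit 43) (nat_lit 4) (nat_lit 383) (nat_lit 362) (nat_lit 275))) (XT.nd (nat_lit 78) (nat_lit 228) (nat_lit 0) (XT.lf (nat_lit 0) (nat_lit 259334488371) (nat_lit 76) (nat_lit 31238685239) (nat_lit 152) (nat_lit 266140553541) (nat_lit 41) (nat_lit 5) (nat_lit 42) (nat_lit 5) (nat_lit 43) (nat_lit 4) (nat_lit 384) (nat_lit 362) (nat_lit 274)) (XT.nd (nat_lit 78) (nat_lit 76) (nat_lit 0) (XT.lf (nat_lit 0) (nat_lit 35318297844) (nat_lit 152) (nat_lit 246036012516) (nat_lit 76) (nat_lit 329812665644) (nat_lit 39) (nat_lit 5) (nat_lit 41) (nat_lit 5) (nat_lit 40) (nat_lit 4) (nat_lit 385) (nat_lit 362) (nat_lit 273)) (XT.lf (nat_lit 0) (nat_lit 390563804282) (nat_lit 152) (nat_lit 185993179909) (nat_lit 0) (nat_lit 94732103229) (nat_lit 38) (nat_lit 5) (nat_lit 40) (nat_lit 4) (nat_lit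 38) (nat_lit 4) (nat_lit 386) (nat_lit 362) (nat_lit 272))))) (XT.nd (nat_lit 156) (nat_lit 456) (nat_lit 0) (XT.nd (nat_lit 78) (nat_lit 76) (nat_lit 0) (XT.lf (nat_lit 0) (nat_lit 86668207979) (nat_lit 152) (nat_lit 115561961389) (nat_lit 76) (nat_lit 535611565188) (nat_lit 36) (nat_lit 5) (nat_lit 38) (nat_lit 5) (nat_lit 37) (nat_lit 4) (nat_lit 387) (nat_lit 362) (nat_lit 271)) (XT.lf (nat_lit 0) (nat_lit 523663934457) (nat_lit 152) (nat_lit 37895333934) (nat_lit 0) (nat_lit 249745462623) (nat_lit 35) (nat_lit 5) (nat_lit 37) (nat_lit 4) (nat_lit 35) (nat_lit 4) (nat_lit 388) (nat_lit 362) (nat_lit 270))) (XT.nd (nat_lit 78) (nat_lit 228) (nat_lit 0) (XT.lf (nat_lit 0) (nat_lit 54523336057) (nat_lit 76) (nat_lit 103381424020) (nat_lit 152) (nat_lit 734910913318) (nat_lit 32) (nat_lit 5) (nat_lit 33) (nat_lit 5) (nat_lit 34) (nat_lit 4) (nat_lit 389) (nat_lit 362) (nat_lit 269)) (XT.nd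 (nat_lit 78) (nat_lit 152) (nat_lit 0) (XT.lf (nat_lit 0) (nat_lit 152018154064) (nat_lit 76) (nat_lit 542146336431) (nat_lit 76) (nat_lit 288517960657) (nat_lit 31) (nat_lit 4) (nat_lit 32) (nat_lit 5) (nat_lit 32) (nat_lit 4) (nat_lit 390) (nat_lit 362) (nat_lit 268)) (XT.lf (nat_lit 0) (nat_lit 248117011518) (nat_lit 152) (nat_lit 821441376183) (nat_lit 0) (nat_lit 13275862502) (nat_lit 29) (nat_lit 5) (nat_lit 31) (nat_lit 4) (nat_lit 29) (nat_lit 4) (nat_lit 391) (nat_lit 362) (nat_lit 267)))))) (XT.nd (nat_lit 390) (nat_lit 608) (nat_lit 0) (XT.nd (nat_lit 156) (nat_lit 304) (nat_lit 0) (XT.nd (nat_lit 78) (nat_lit 152) (nat_lit 0) (XT.lf (nat_lit 0) (nat_lit 366203086489) (nat_lit 76) (nat_lit 531059744748) (nat_lit 76) (nat_lit 296218543268) (nat_lit 28) (nat_lit 4) (nat_lit 29) (nat_lit 5) (nat_lit 29) (nat_lit 4) (nat_lit 392) (nat_lit 362) (nat_lit 266)) (XT.lf (nat_lit 0) (nat_lit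 346197458858) (nat_lit 152) (nat_lit 842010448974) (nat_lit 0) (nat_lit 128751859689) (nat_lit 26) (nat_lit 5) (nat_lit 28) (nat_lit 4) (nat_lit 26) (nat_lit 4) (nat_lit 393) (nat_lit 362) (nat_lit 265))) (XT.nd (nat_lit 78) (nat_lit 228) (nat_lit 0) (XT.lf (nat_lit 0) (nat_lit 570613201863) (nat_lit 76) (nat_lit 550443601811) (nat_lit 76) (nat_lit 332997965909) (nat_lit 25) (nat_lit 4) (nat_lit 26) (nat_lit 5) (nat_lit 26) (nat_lit 4) (nat_lit 394) (nat_lit 362) (nat_lit 264)) (XT.nd (nat_lit 78) (nat_lit 76) (nat_lit 0) (XT.lf (nat_lit 0) (nat_lit 427117086617) (nat_lit 152) (nat_lit 954310620778) (nat_lit 0) (nat_lit 225778505281) (nat_lit 23) (nat_lit 5) (nat_lit 25) (nat_lit 4) (nat_lit 23) (nat_lit 4) (nat_lit 395) (nat_lit 362) (nat_lit 263)) (XT.lf (nat_lit 0) (nat_lit 701919631760) (nat_lit 76) (nat_lit 638666542923) (nat_lit 76) (nat_lit 437327935868) (nat_lit 22) (nat_lit 4) (nat_lit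 23) (nat_lit 5) (nat_lit 23) (nat_lit 4) (nat_lit 396) (nat_lit 362) (nat_lit 262))))) (XT.nd (nat_lit 234) (nat_lit 228) (nat_lit 0) (XT.nd (nat_lit 78) (nat_lit 228) (nat_lit 0) (XT.lf (nat_lit 0) (nat_lit 448388437878) (nat_lit 152) (nat_lit 1258882486808) (nat_lit 0) (nat_lit 261963781009) (nat_lit 20) (nat_lit 5) (nat_lit 22) (nat_lit 4) (nat_lit 20) (nat_lit 4) (nat_lit 397) (nat_lit 362) (nat_lit 261)) (XT.nd (nat_lit 78) (nat_lit 152) (nat_lit 0) (XT.lf (nat_lit 0) (nat_lit 644741746856) (nat_lit 76) (nat_lit 862371947548) (nat_lit 76) (nat_lit 675947272674) (nat_lit 19) (nat_lit 4) (nat_lit 20) (nat_lit 5) (nat_lit 20) (nat_lit 4) (nat_lit 398) (nat_lit 362) (nat_lit 260)) (XT.lf (nat_lit 0) (nat_lit 334652035127) (nat_lit 152) (nat_lit 1927403097821) (nat_lit 0) (nat_lit 162036580931) (nat_lit 17) (nat_lit 5) (nat_lit 19) (nat_lit 4) (nat_lit 17) (nat_lit 4) (nat_lit 399) (nat_lit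 362) (nat_lit 259)))) (XT.nd (nat_lit 78) (nat_lit 152) (nat_lit 0) (XT.lf (nat_lit 0) (nat_lit 198636233277) (nat_lit 76) (nat_lit 1333897236155) (nat_lit 76) (nat_lit 1161281769352) (nat_lit 16) (nat_lit 4) (nat_lit 17) (nat_lit 5) (nat_lit 17) (nat_lit 4) (nat_lit 400) (nat_lit 362) (nat_lit 258)) (XT.nd (nat_lit 78) (nat_lit 152) (nat_lit 0) (XT.lf (nat_lit 0) (nat_lit 2760298794547) (nat_lit 76) (nat_lit 205912423842) (nat_lit 76) (nat_lit 33296946077) (nat_lit 16) (nat_lit 4) (nat_lit 17) (nat_lit 5) (nat_lit 17) (nat_lit 4) (nat_lit 401) (nat_lit 362) (nat_lit 257)) (XT.lf (nat_lit 0) (nat_lit 1288078710560) (nat_lit 152) (nat_lit 925301621546) (nat_lit 0) (nat_lit 1128249555656) (nat_lit 14) (nat_lit 5) (nat_lit 16) (nat_lit 4) (nat_lit 14) (nat_lit 4) (nat_lit 402) (nat_lit 362) (nat_lit 256))))))))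
noncomputable def xc86 : XT := (XT.nd (nat_lit 49998) (nat_lit 0) (nat_lit 3268) (XT.nd (nat_lit 780) (nat_lit 304) (nat_lit 0) (XT.nd (nat_lit 390) (nat_lit 228) (nat_lit 0) (XT.nd (nat_lit 156) (nat_lit 228) (nat_lit 0) (XT.nd (nat_lit 78) (nat_lit 152) (nat_lit 0) (XT.lf (nat_lit 0) (nat_lit 1835175401794) (nat_lit 76) (nat_lit 1027545934100) (nat_lit 76) (nat_lit 867716771521) (nat_lit 13) (nat_lit 4) (nat_lit 14) (nat_lit 5) (nat_lit 14) (nat_lit 4) (nat_lit 403) (nat_lit 362) (nat_lit 255)) (XT.lf (nat_lit 0) (nat_lit 530730269881) (nat_lit 152) (nat_lit 3258378777233) (nat_lit 0) (nat_lit 382740298350) (nat_lit 11) (nat_lit 5) (nat_lit 13) (nat_lit 4) (nat_lit 11) (nat_lit 4) (nat_lit 404) (nat_lit 362) (nat_lit 254))) (XT.nd (nat_lit 78) (nat_lit 228) (nat_lit 0) (XT.lf (nat_lit 0) (nat_lit 2174057653672) (nat_lit 152) (nat_lit 470624546779) (nat_lit 0) (nat_lit 2026067676767) (nat_lit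 11) (nat_lit 5) (nat_lit 13) (nat_lit 4) (nat_lit 11) (nat_lit 4) (nat_lit 405) (nat_lit 362) (nat_lit 253)) (XT.nd (nat_lit 78) (nat_lit 152) (nat_lit 0) (XT.lf (nat_lit 0) (nat_lit 2879328256562) (nat_lit 76) (nat_lit 1253803694628) (nat_lit 76) (nat_lit 1105813713051) (nat_lit 10) (nat_lit 4) (nat_lit 11) (nat_lit 5) (nat_lit 11) (nat_lit 4) (nat_lit 406) (nat_lit 362) (nat_lit 252)) (XT.lf (nat_lit 0) (nat_lit 514298919692) (nat_lit 152) (nat_lit 4996226947434) (nat_lit 0) (nat_lit 377271155210) (nat_lit 8) (nat_lit 5) (nat_lit 10) (nat_lit 4) (nat_lit 8) (nat_lit 4) (nat_lit 407) (nat_lit 362) (nat_lit 251))))) (XT.nd (nat_lit 156) (nat_lit 152) (nat_lit 0) (XT.nd (nat_lit 78) (nat_lit 76) (nat_lit 0) (XT.lf (nat_lit 0) (nat_lit 2418972668684) (nat_lit 152) (nat_lit 1922199061151) (nat_lit 0) (nat_lit 2281944900930) (nat_lit 8) (nat_lit 5) (nat_lit 10) (nat_lit 4) (nat_lit 8) (nat_lit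 4) (nat_lit 408) (nat_lit 362) (nat_lit 250)) (XT.lf (nat_lit 0) (nat_lit 1697867022270) (nat_lit 76) (nat_lit 2952314117984) (nat_lit 76) (nat_lit 2815286347386) (nat_lit 7) (nat_lit 4) (nat_lit 8) (nat_lit 5) (nat_lit 8) (nat_lit 4) (nat_lit 409) (nat_lit 362) (nat_lit 249))) (XT.nd (nat_lit 78) (nat_lit 152) (nat_lit 0) (XT.lf (nat_lit 0) (nat_lit 5977345397543) (nat_lit 76) (nat_lit 1294688167008) (nat_lit 76) (nat_lit 1157660393936) (nat_lit 7) (nat_lit 4) (nat_lit 8) (nat_lit 5) (nat_lit 8) (nat_lit 4) (nat_lit 410) (nat_lit 362) (nat_lit 248)) (XT.nd (nat_lit 78) (nat_lit 0) (nat_lit 0) (XT.lf (nat_lit 0) (nat_lit 761199096879) (nat_lit 152) (nat_lit 8137590400144) (nat_lit 0) (nat_lit 634321527228) (nat_lit 5) (nat_lit 5) (nat_lit 7) (nat_lit 4) (nat_lit 5) (nat_lit 4) (nat_lit 411) (nat_lit 362) (nat_lit 247)) (XT.lf (nat_lit 0) (nat_lit 3010349801215) (nat_lit 152) (nat_lit 4896932394437)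 (nat_lit 0) (nat_lit 2883472229832) (nat_lit 5) (nat_lit 5) (nat_lit 7) (nat_lit 4) (nat_lit 5) (nat_lit 4) (nat_lit 412) (nat_lit 362) (nat_lit 246)))))) (XT.nd (nat_lit 390) (nat_lit 76) (nat_lit 0) (XT.nd (nat_lit 156) (nat_lit 152) (nat_lit 0) (XT.nd (nat_lit 78) (nat_lit 76) (nat_lit 0) (XT.lf (nat_lit 0) (nat_lit 5596873056231) (nat_lit 152) (nat_lit 1170175801727) (nat_lit 0) (nat_lit 5469995483342) (nat_lit 5) (nat_lit 5) (nat_lit 7) (nat_lit 4) (nat_lit 5) (nat_lit 4) (nat_lit 413) (nat_lit 362) (nat_lit 245)) (XT.lf (nat_lit 0) (nat_lit 3279655849146) (nat_lit 76) (nat_lit 5370594704601) (nat_lit 76) (nat_lit 5243717130402) (nat_lit 4) (nat_lit 4) (nat_lit 5) (nat_lit 5) (nat_lit 5) (nat_lit 4) (nat_lit 414) (nat_lit 362) (nat_lit 244))) (XT.nd (nat_lit 78) (nat_lit 152) (nat_lit 0) (XT.lf (nat_lit 0) (nat_lit 8467824448617) (nat_lit 76) (nat_lit 3727878592945) (nat_lit 76) (nat_lit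 3601001017608) (nat_lit 4) (nat_lit 4) (nat_lit 5) (nat_lit 5) (nat_lit 5) (nat_lit 4) (nat_lit 415) (nat_lit 362) (nat_lit 243)) (XT.nd (nat_lit 78) (nat_lit 152) (nat_lit 0) (XT.lf (nat_lit 0) (nat_lit 14434218259207) (nat_lit 76) (nat_lit 1838755105305) (nat_lit 76) (nat_lit 1711877528978) (nat_lit 4) (nat_lit 4) (nat_lit 5) (nat_lit 5) (nat_lit 5) (nat_lit 4) (nat_lit 416) (nat_lit 362) (nat_lit 242)) (XT.lf (nat_lit 0) (nat_lit 466231528571) (nat_lit 152) (nat_lit 19683057002995) (nat_lit 0) (nat_lit 348752290433) (nat_lit 2) (nat_lit 5) (nat_lit 4) (nat_lit 4) (nat_lit 2) (nat_lit 4) (nat_lit 417) (nat_lit 362) (nat_lit 241))))) (XT.nd (nat_lit 234) (nat_lit 76) (nat_lit 0) (XT.nd (nat_lit 78) (nat_lit 0) (nat_lit 0) (XT.lf (nat_lit 0) (nat_lit 3029489886765) (nat_lit 152) (nat_lit 17430367941380) (nat_lit 0) (nat_lit 2912010647934) (nat_lit 2) (nat_lit 5) (nat_lit 4) (nat_lit 4) (nat_lit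 2) (nat_lit 4) (nat_lit 418) (nat_lit 362) (nat_lit 240)) (XT.nd (nat_lit 78) (nat_lit 0) (nat_lit 0) (XT.lf (nat_lit 0) (nat_lit 5977236970985) (nat_lit 152) (nat_lit 14839775577951) (nat_lit 0) (nat_lit 5859757731552) (nat_lit 2) (nat_lit 5) (nat_lit 4) (nat_lit 4) (nat_lit 2) (nat_lit 4) (nat_lit 419) (nat_lit 362) (nat_lit 239)) (XT.lf (nat_lit 0) (nat_lit 9367146093748) (nat_lit 152) (nat_lit 11860594409946) (nat_lit 0) (nat_lit 9249666853791) (nat_lit 2) (nat_lit 5) (nat_lit 4) (nat_lit 4) (nat_lit 2) (nat_lit 4) (nat_lit 420) (nat_lit 362) (nat_lit 238)))) (XT.nd (nat_lit 78) (nat_lit 76) (nat_lit 0) (XT.lf (nat_lit 0) (nat_lit 13265541563978) (nat_lit 152) (nat_lit 8434536110164) (nat_lit 0) (nat_lit 13148062323565) (nat_lit 2) (nat_lit 5) (nat_lit 4) (nat_lit 4) (nat_lit 2) (nat_lit 4) (nat_lit 421) (nat_lit 362) (nat_lit 237)) (XT.nd (nat_lit 78) (nat_lit 76) (nat_lit 0) (XT.lf (nat_lit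 0) (nat_lit 17748696336527) (nat_lit 152) (nat_lit 4494569103175) (nat_lit 0) (nat_lit 17631217095717) (nat_lit 2) (nat_lit 5) (nat_lit 4) (nat_lit 4) (nat_lit 2) (nat_lit 4) (nat_lit 422) (nat_lit 362) (nat_lit 236)) (XT.lf (nat_lit 0) (nat_lit 38309308807) (nat_lit 76) (nat_lit 22866936340110) (nat_lit 76) (nat_lit 22749457098956) (nat_lit 1) (nat_lit 4) (nat_lit 2) (nat_lit 5) (nat_lit 2) (nat_lit 4) (nat_lit 423) (nat_lit 362) (nat_lit 235))))))) (XT.nd (nat_lit 780) (nat_lit 1900) (nat_lit 0) (XT.nd (nat_lit 390) (nat_lit 1292) (nat_lit 0) (XT.nd (nat_lit 156) (nat_lit 0) (nat_lit 76) (XT.nd (nat_lit 78) (nat_lit 532) (nat_lit 0) (XT.lf (nat_lit 0) (nat_lit 49834643074) (nat_lit 532) (nat_lit 346929269) (nat_lit 532) (nat_lit 346929269) (nat_lit 93) (nat_lit 3) (nat_lit 100) (nat_lit 3) (nat_lit 100) (nat_lit 5) (nat_lit 363) (nat_lit 363) (nat_lit 294)) (XT.lf (nat_lit 0) (nat_lit 1026948623)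 (nat_lit 532) (nat_lit 9871237092) (nat_lit 608) (nat_lit 97545432119) (nat_lit 86) (nat_lit 5) (nat_lit 93) (nat_lit 3) (nat_lit 94) (nat_lit 5) (nat_lit 364) (nat_lit 363) (nat_lit 293))) (XT.nd (nat_lit 78) (nat_lit 0) (nat_lit 76) (XT.lf (nat_lit 0) (nat_lit 8444674065) (nat_lit 532) (nat_lit 18178284208) (nat_lit 608) (nat_lit 89934540776) (nat_lit 87) (nat_lit 5) (nat_lit 94) (nat_lit 5) (nat_lit 95) (nat_lit 5) (nat_lit 365) (nat_lit 363) (nat_lit 292)) (XT.nd (nat_lit 78) (nat_lit 0) (nat_lit 76) (XT.lf (nat_lit 0) (nat_lit 22013825679) (nat_lit 532) (nat_lit 25212624111) (nat_lit 608) (nat_lit 78258911475) (nat_lit 88) (nat_lit 5) (nat_lit 95) (nat_lit 5) (nat_lit 96) (nat_lit 5) (nat_lit 366) (nat_lit 363) (nat_lit 291)) (XT.lf (nat_lit 0) (nat_lit 43019629705) (nat_lit 532) (nat_lit 30552433737) (nat_lit 76) (nat_lit 61748237181) (nat_lit 89) (nat_lit 5) (nat_lit 96) (nat_lit 5)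 (nat_lit 90) (nat_lit 5) (nat_lit 367) (nat_lit 363) (nat_lit 290))))) (XT.nd (nat_lit 156) (nat_lit 760) (nat_lit 0) (XT.nd (nat_lit 78) (nat_lit 228) (nat_lit 0) (XT.lf (nat_lit 0) (nat_lit 72965408285) (nat_lit 608) (nat_lit 33693199963) (nat_lit 76) (nat_lit 39508744475) (nat_lit 82) (nat_lit 5) (nat_lit 90) (nat_lit 5) (nat_lit 83) (nat_lit 5) (nat_lit 368) (nat_lit 363) (nat_lit 289)) (XT.lf (nat_lit 0) (nat_lit 113606965714) (nat_lit 304) (nat_lit 34034071625) (nat_lit 76) (nat_lit 10504112474) (nat_lit 79) (nat_lit 5) (nat_lit 83) (nat_lit 5) (nat_lit 80) (nat_lit 5) (nat_lit 369) (nat_lit 363) (nat_lit 288))) (XT.nd (nat_lit 78) (nat_lit 532) (nat_lit 0) (XT.lf (nat_lit 0) (nat_lit 139802020856) (nat_lit 228) (nat_lit 27860217594) (nat_lit 304) (nat_lit 3671979599) (nat_lit 76) (nat_lit 5) (nat_lit 79) (nat_lit 5) (nat_lit 80) (nat_lit 5) (nat_lit 370) (nat_lit 363) (nat_lit 287))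 (XT.nd (nat_lit 78) (nat_lit 228) (nat_lit 0) (XT.lf (nat_lit 0) (nat_lit 48876126934) (nat_lit 304) (nat_lit 26414750734) (nat_lit 76) (nat_lit 110509875503) (nat_lit 72) (nat_lit 5) (nat_lit 76) (nat_lit 5) (nat_lit 73) (nat_lit 5) (nat_lit 371) (nat_lit 363) (nat_lit 286)) (XT.lf (nat_lit 0) (nat_lit 117025610019) (nat_lit 304) (nat_lit 16713398840) (nat_lit 76) (nat_lit 68055703079) (nat_lit 69) (nat_lit 5) (nat_lit 73) (nat_lit 5) (nat_lit 70) (nat_lit 5) (nat_lit 372) (nat_lit 363) (nat_lit 285)))))) (XT.nd (nat_lit 390) (nat_lit 912) (nat_lit 0) (XT.nd (nat_lit 156) (nat_lit 456) (nat_lit 0) (XT.nd (nat_lit 78) (nat_lit 380) (nat_lit 0) (XT.lf (nat_lit 0) (nat_lit 203888294127) (nat_lit 228) (nat_lit 1292940086) (nat_lit 76) (nat_lit 14327268094) (nat_lit 67) (nat_lit 5) (nat_lit 70) (nat_lit 5) (nat_lit 68) (nat_lit 5) (nat_lit 373) (nat_lit 363) (nat_lit 284)) (XT.lf (nat_lit 0) (nat_lit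 18879862559) (nat_lit 152) (nat_lit 52970560715) (nat_lit 228) (nat_lit 167014313017) (nat_lit 62) (nat_lit 5) (nat_lit 64) (nat_lit 5) (nat_lit 65) (nat_lit 5) (nat_lit 374) (nat_lit 363) (nat_lit 283))) (XT.nd (nat_lit 78) (nat_lit 304) (nat_lit 0) (XT.lf (nat_lit 0) (nat_lit 46132850254) (nat_lit 152) (nat_lit 136091882443) (nat_lit 228) (nat_lit 78010577237) (nat_lit 60) (nat_lit 5) (nat_lit 62) (nat_lit 5) (nat_lit 63) (nat_lit 5) (nat_lit 375) (nat_lit 363) (nat_lit 282)) (XT.nd (nat_lit 78) (nat_lit 152) (nat_lit 0) (XT.lf (nat_lit 0) (nat_lit 34362397557) (nat_lit 152) (nat_lit 202032273516) (nat_lit 76) (nat_lit 47471045227) (nat_lit 58) (nat_lit 5) (nat_lit 60) (nat_lit 5) (nat_lit 59) (nat_lit 5) (nat_lit 376) (nat_lit 363) (nat_lit 281)) (XT.lf (nat_lit 0) (nat_lit 124738563609) (nat_lit 152) (nat_lit 47523570925) (nat_lit 228) (nat_lit 137553256207) (nat_lit 56) (nat_lit 5) (nat_lit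 58) (nat_lit 5) (nat_lit 59) (nat_lit 5) (nat_lit 377) (nat_lit 363) (nat_lit 280))))) (XT.nd (nat_lit 234) (nat_lit 532) (nat_lit 0) (XT.nd (nat_lit 78) (nat_lit 228) (nat_lit 0) (XT.lf (nat_lit 0) (nat_lit 6406103745) (nat_lit 152) (nat_lit 160412489013) (nat_lit 76) (nat_lit 171673792038) (nat_lit 54) (nat_lit 5) (nat_lit 56) (nat_lit 5) (nat_lit 55) (nat_lit 5) (nat_lit 378) (nat_lit 363) (nat_lit 279)) (XT.nd (nat_lit 78) (nat_lit 76) (nat_lit 0) (XT.lf (nat_lit 0) (nat_lit 178314967901) (nat_lit 228) (nat_lit 128978023131) (nat_lit 76) (nat_lit 62732088968) (nat_lit 52) (nat_lit 5) (nat_lit 55) (nat_lit 5) (nat_lit 53) (nat_lit 4) (nat_lit 379) (nat_lit 363) (nat_lit 278)) (XT.lf (nat_lit 0) (nat_lit 317681306859) (nat_lit 76) (nat_lit 75373940745) (nat_lit 152) (nat_lit 11868825026) (nat_lit 51) (nat_lit 5) (nat_lit 52) (nat_lit 5) (nat_lit 53) (nat_lit 4) (nat_lit 380) (nat_lit 363)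 (nat_lit 277)))) (XT.nd (nat_lit 78) (nat_lit 304) (nat_lit 0) (XT.lf (nat_lit 0) (nat_lit 203991696738) (nat_lit 228) (nat_lit 38543568027) (nat_lit 76) (nat_lit 200643954790) (nat_lit 48) (nat_lit 5) (nat_lit 51) (nat_lit 5) (nat_lit 49) (nat_lit 4) (nat_lit 381) (nat_lit 363) (nat_lit 276)) (XT.nd (nat_lit 78) (nat_lit 152) (nat_lit 0) (XT.lf (nat_lit 0) (nat_lit 26214845176) (nat_lit 76) (nat_lit 443999954260) (nat_lit 76) (nat_lit 15438275038) (nat_lit 46) (nat_lit 4) (nat_lit 47) (nat_lit 5) (nat_lit 47) (nat_lit 4) (nat_lit 382) (nat_lit 363) (nat_lit 275)) (XT.lf (nat_lit 0) (nat_lit 100881492815) (nat_lit 76) (nat_lit 153658616184) (nat_lit 152) (nat_lit 277511235103) (nat_lit 44) (nat_lit 5) (nat_lit 45) (nat_lit 5) (nat_lit 46) (nat_lit 4) (nat_lit 383) (nat_lit 363) (nat_lit 274))))))))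
noncomputable def xc87 : XT := (XT.nd (nat_lit 1638) (nat_lit 836) (nat_lit 0) (XT.nd (nat_lit 780) (nat_lit 1140) (nat_lit 0) (XT.nd (nat_lit 390) (nat_lit 608) (nat_lit 0) (XT.nd (nat_lit 156) (nat_lit 380) (nat_lit 0) (XT.nd (nat_lit 78) (nat_lit 76) (nat_lit 0) (XT.lf (nat_lit 0) (nat_lit 3111001156) (nat_lit 152) (nat_lit 390345928118) (nat_lit 76) (nat_lit 190095454754) (nat_lit 42) (nat_lit 5) (nat_lit 44) (nat_lit 5) (nat_lit 43) (nat_lit 4) (nat_lit 384) (nat_lit 363) (nat_lit 273)) (XT.lf (nat_lit 0) (nat_lit 298242663944) (nat_lit 76) (nat_lit 35920630661) (nat_lit 152) (nat_lit 306057159930) (nat_lit 41) (nat_lit 5) (nat_lit 42) (nat_lit 5) (nat_lit 43) (nat_lit 4) (nat_lit 385) (nat_lit 363) (nat_lit 272))) (XT.nd (nat_lit 78) (nat_lit 228) (nat_lit 0) (XT.lf (nat_lit 0) (nat_lit 40620009425) (nat_lit 152) (nat_lit 282933661774) (nat_lit 76) (nat_lit 379288033781) (nat_lit 39)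 (nat_lit 5) (nat_lit 41) (nat_lit 5) (nat_lit 40) (nat_lit 4) (nat_lit 386) (nat_lit 363) (nat_lit 271)) (XT.nd (nat_lit 78) (nat_lit 152) (nat_lit 0) (XT.lf (nat_lit 0) (nat_lit 449152078679) (nat_lit 152) (nat_lit 213884854423) (nat_lit 0) (nat_lit 108945221067) (nat_lit 38) (nat_lit 5) (nat_lit 40) (nat_lit 4) (nat_lit 38) (nat_lit 4) (nat_lit 387) (nat_lit 363) (nat_lit 270)) (XT.lf (nat_lit 0) (nat_lit 99671908473) (nat_lit 152) (nat_lit 132889388504) (nat_lit 76) (nat_lit 615956420167) (nat_lit 36) (nat_lit 5) (nat_lit 38) (nat_lit 5) (nat_lit 37) (nat_lit 4) (nat_lit 388) (nat_lit 363) (nat_lit 269))))) (XT.nd (nat_lit 156) (nat_lit 304) (nat_lit 0) (XT.nd (nat_lit 78) (nat_lit 228) (nat_lit 0) (XT.lf (nat_lit 0) (nat_lit 602216767565) (nat_lit 152) (nat_lit 43573169699) (nat_lit 0) (nat_lit 287210243922) (nat_lit 35) (nat_lit 5) (nat_lit 37) (nat_lit 4) (nat_lit 35) (nat_lit 4) (nat_lit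 389) (nat_lit 363) (nat_lit 268)) (XT.lf (nat_lit 0) (nat_lit 62708233711) (nat_lit 76) (nat_lit 118885433466) (nat_lit 152) (nat_lit 845144101744) (nat_lit 32) (nat_lit 5) (nat_lit 33) (nat_lit 5) (nat_lit 34) (nat_lit 4) (nat_lit 390) (nat_lit 363) (nat_lit 267))) (XT.nd (nat_lit 78) (nat_lit 228) (nat_lit 0) (XT.lf (nat_lit 0) (nat_lit 174826896244) (nat_lit 76) (nat_lit 623465256191) (nat_lit 76) (nat_lit 331792427289) (nat_lit 31) (nat_lit 4) (nat_lit 32) (nat_lit 5) (nat_lit 32) (nat_lit 4) (nat_lit 391) (nat_lit 363) (nat_lit 266)) (XT.nd (nat_lit 78) (nat_lit 76) (nat_lit 0) (XT.lf (nat_lit 0) (nat_lit 285337434075) (nat_lit 152) (nat_lit 944651769683) (nat_lit 0) (nat_lit 15269954284) (nat_lit 29) (nat_lit 5) (nat_lit 31) (nat_lit 4) (nat_lit 29) (nat_lit 4) (nat_lit 392) (nat_lit 363) (nat_lit 265)) (XT.lf (nat_lit 0) (nat_lit 421138870355) (nat_lit 76) (nat_lit 610716009909) (nat_lit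 76) (nat_lit 340648490447) (nat_lit 28) (nat_lit 4) (nat_lit 29) (nat_lit 5) (nat_lit 29) (nat_lit 4) (nat_lit 393) (nat_lit 363) (nat_lit 264)))))) (XT.nd (nat_lit 390) (nat_lit 532) (nat_lit 0) (XT.nd (nat_lit 156) (nat_lit 380) (nat_lit 0) (XT.nd (nat_lit 78) (nat_lit 76) (nat_lit 0) (XT.lf (nat_lit 0) (nat_lit 398129600328) (nat_lit 152) (nat_lit 968306880125) (nat_lit 0) (nat_lit 148067050366) (nat_lit 26) (nat_lit 5) (nat_lit 28) (nat_lit 4) (nat_lit 26) (nat_lit 4) (nat_lit 394) (nat_lit 363) (nat_lit 263)) (XT.lf (nat_lit 0) (nat_lit 656209883583) (nat_lit 76) (nat_lit 633007747313) (nat_lit 76) (nat_lit 382945169576) (nat_lit 25) (nat_lit 4) (nat_lit 26) (nat_lit 5) (nat_lit 26) (nat_lit 4) (nat_lit 395) (nat_lit 363) (nat_lit 262))) (XT.nd (nat_lit 78) (nat_lit 228) (nat_lit 0) (XT.lf (nat_lit 0) (nat_lit 491186867960) (nat_lit 152) (nat_lit 1097452677372) (nat_lit 0) (nat_lit 259647421766)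 (nat_lit 23) (nat_lit 5) (nat_lit 25) (nat_lit 4) (nat_lit 23) (nat_lit 4) (nat_lit 396) (nat_lit 363) (nat_lit 261)) (XT.nd (nat_lit 78) (nat_lit 152) (nat_lit 0) (XT.lf (nat_lit 0) (nat_lit 807211729053) (nat_lit 76) (nat_lit 734464400700) (nat_lit 76) (nat_lit 502924935060) (nat_lit 22) (nat_lit 4) (nat_lit 23) (nat_lit 5) (nat_lit 23) (nat_lit 4) (nat_lit 397) (nat_lit 363) (nat_lit 260)) (XT.lf (nat_lit 0) (nat_lit 515648655494) (nat_lit 152) (nat_lit 1447710854167) (nat_lit 0) (nat_lit 301260245725) (nat_lit 20) (nat_lit 5) (nat_lit 22) (nat_lit 4) (nat_lit 20) (nat_lit 4) (nat_lit 398) (nat_lit 363) (nat_lit 259))))) (XT.nd (nat_lit 234) (nat_lit 228) (nat_lit 0) (XT.nd (nat_lit 78) (nat_lit 228) (nat_lit 0) (XT.lf (nat_lit 0) (nat_lit 741456675488) (nat_lit 76) (nat_lit 991725858594) (nat_lit 76) (nat_lit 777337435210) (nat_lit 19) (nat_lit 4) (nat_lit 20) (nat_lit 5) (nat_lit 20)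 (nat_lit 4) (nat_lit 399) (nat_lit 363) (nat_lit 258)) (XT.nd (nat_lit 78) (nat_lit 76) (nat_lit 0) (XT.lf (nat_lit 0) (nat_lit 384851558732) (nat_lit 152) (nat_lit 2216510026414) (nat_lit 0) (nat_lit 186343748341) (nat_lit 17) (nat_lit 5) (nat_lit 19) (nat_lit 4) (nat_lit 17) (nat_lit 4) (nat_lit 400) (nat_lit 363) (nat_lit 257)) (XT.lf (nat_lit 0) (nat_lit 228434905038) (nat_lit 76) (nat_lit 1533980156859) (nat_lit 76) (nat_lit 1335472336935) (nat_lit 16) (nat_lit 4) (nat_lit 17) (nat_lit 5) (nat_lit 17) (nat_lit 4) (nat_lit 401) (nat_lit 363) (nat_lit 256)))) (XT.nd (nat_lit 78) (nat_lit 228) (nat_lit 0) (XT.lf (nat_lit 0) (nat_lit 3174346428310) (nat_lit 76) (nat_lit 236797839837) (nat_lit 76) (nat_lit 38290011624) (nat_lit 16) (nat_lit 4) (nat_lit 17) (nat_lit 5) (nat_lit 17) (nat_lit 4) (nat_lit 402) (nat_lit 363) (nat_lit 255)) (XT.nd (nat_lit 78) (nat_lit 76) (nat_lit 0) (XT.lf (nat_lit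 0) (nat_lit 1481291833033) (nat_lit 152) (nat_lit 1064094150900) (nat_lit 0) (nat_lit 1297488281718) (nat_lit 14) (nat_lit 5) (nat_lit 16) (nat_lit 4) (nat_lit 14) (nat_lit 4) (nat_lit 403) (nat_lit 363) (nat_lit 254)) (XT.lf (nat_lit 0) (nat_lit 2110454196224) (nat_lit 76) (nat_lit 1181676544050) (nat_lit 76) (nat_lit 997872986931) (nat_lit 13) (nat_lit 4) (nat_lit 14) (nat_lit 5) (nat_lit 14) (nat_lit 4) (nat_lit 404) (nat_lit 363) (nat_lit 253))))))) (XT.nd (nat_lit 780) (nat_lit 228) (nat_lit 0) (XT.nd (nat_lit 390) (nat_lit 228) (nat_lit 0) (XT.nd (nat_lit 156) (nat_lit 228) (nat_lit 0) (XT.nd (nat_lit 78) (nat_lit 0) (nat_lit 0) (XT.lf (nat_lit 0) (nat_lit 610340969568) (nat_lit 152) (nat_lit 3747133198896) (nat_lit 0) (nat_lit 440152486081) (nat_lit 11) (nat_lit 5) (nat_lit 13) (nat_lit 4) (nat_lit 11) (nat_lit 4) (nat_lit 405) (nat_lit 363) (nat_lit 252)) (XT.lf (nat_lit 0) (nat_lit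 2500167309726) (nat_lit 152) (nat_lit 541216146255) (nat_lit 0) (nat_lit 2329978822176) (nat_lit 11) (nat_lit 5) (nat_lit 13) (nat_lit 4) (nat_lit 11) (nat_lit 4) (nat_lit 406) (nat_lit 363) (nat_lit 251))) (XT.nd (nat_lit 78) (nat_lit 152) (nat_lit 0) (XT.lf (nat_lit 0) (nat_lit 3311229401310) (nat_lit 76) (nat_lit 1441873264929) (nat_lit 76) (nat_lit 1271684773846) (nat_lit 10) (nat_lit 4) (nat_lit 11) (nat_lit 5) (nat_lit 11) (nat_lit 4) (nat_lit 407) (nat_lit 363) (nat_lit 250)) (XT.nd (nat_lit 78) (nat_lit 0) (nat_lit 0) (XT.lf (nat_lit 0) (nat_lit 591444645839) (nat_lit 152) (nat_lit 5745659151983) (nat_lit 0) (nat_lit 433862706807) (nat_lit 8) (nat_lit 5) (nat_lit 10) (nat_lit 4) (nat_lit 8) (nat_lit 4) (nat_lit 408) (nat_lit 363) (nat_lit 249)) (XT.lf (nat_lit 0) (nat_lit 2781819341329) (nat_lit 152) (nat_lit 2210527322440) (nat_lit 0) (nat_lit 2624237399822) (nat_lit 8) (nat_lit 5)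 (nat_lit 10) (nat_lit 4) (nat_lit 8) (nat_lit 4) (nat_lit 409) (nat_lit 363) (nat_lit 248))))) (XT.nd (nat_lit 156) (nat_lit 152) (nat_lit 0) (XT.nd (nat_lit 78) (nat_lit 0) (nat_lit 0) (XT.lf (nat_lit 0) (nat_lit 1952548538242) (nat_lit 76) (nat_lit 3395160479830) (nat_lit 76) (nat_lit 3237578536172) (nat_lit 7) (nat_lit 4) (nat_lit 8) (nat_lit 5) (nat_lit 8) (nat_lit 4) (nat_lit 410) (nat_lit 363) (nat_lit 247)) (XT.lf (nat_lit 0) (nat_lit 6873948479028) (nat_lit 76) (nat_lit 1488890734797) (nat_lit 76) (nat_lit 1331308789269) (nat_lit 7) (nat_lit 4) (nat_lit 8) (nat_lit 5) (nat_lit 8) (nat_lit 4) (nat_lit 411) (nat_lit 363) (nat_lit 246))) (XT.nd (nat_lit 78) (nat_lit 0) (nat_lit 0) (XT.lf (nat_lit 0) (nat_lit 875379553301) (nat_lit 152) (nat_lit 9358227734264) (nat_lit 0) (nat_lit 729470342973) (nat_lit 5) (nat_lit 5) (nat_lit 7) (nat_lit 4) (nat_lit 5) (nat_lit 4) (nat_lit 412) (nat_lit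 363) (nat_lit 245)) (XT.nd (nat_lit 78) (nat_lit 0) (nat_lit 0) (XT.lf (nat_lit 0) (nat_lit 3461902786084) (nat_lit 152) (nat_lit 5631471187601) (nat_lit 0) (nat_lit 3315993574447) (nat_lit 5) (nat_lit 5) (nat_lit 7) (nat_lit 4) (nat_lit 5) (nat_lit 4) (nat_lit 413) (nat_lit 363) (nat_lit 244)) (XT.lf (nat_lit 0) (nat_lit 6436404462220) (nat_lit 152) (nat_lit 1345701245028) (nat_lit 0) (nat_lit 6290495249443) (nat_lit 5) (nat_lit 5) (nat_lit 7) (nat_lit 4) (nat_lit 5) (nat_lit 4) (nat_lit 414) (nat_lit 363) (nat_lit 243)))))) (XT.nd (nat_lit 390) (nat_lit 0) (nat_lit 0) (XT.nd (nat_lit 156) (nat_lit 152) (nat_lit 0) (XT.nd (nat_lit 78) (nat_lit 0) (nat_lit 0) (XT.lf (nat_lit 0) (nat_lit 3771605075014) (nat_lit 76) (nat_lit 6176183471378) (nat_lit 76) (nat_lit 6030274257612) (nat_lit 4) (nat_lit 4) (nat_lit 5) (nat_lit 5) (nat_lit 5) (nat_lit 4) (nat_lit 415) (nat_lit 363) (nat_lit 242)) (XT.lf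 (nat_lit 0) (nat_lit 9737998853732) (nat_lit 76) (nat_lit 4287060000224) (nat_lit 76) (nat_lit 4141150785597) (nat_lit 4) (nat_lit 4) (nat_lit 5) (nat_lit 5) (nat_lit 5) (nat_lit 4) (nat_lit 416) (nat_lit 363) (nat_lit 241))) (XT.nd (nat_lit 78) (nat_lit 152) (nat_lit 0) (XT.lf (nat_lit 0) (nat_lit 16599351639673) (nat_lit 76) (nat_lit 2114568039220) (nat_lit 76) (nat_lit 1968658823844) (nat_lit 4) (nat_lit 4) (nat_lit 5) (nat_lit 5) (nat_lit 5) (nat_lit 4) (nat_lit 417) (nat_lit 363) (nat_lit 240)) (XT.nd (nat_lit 78) (nat_lit 0) (nat_lit 0) (XT.lf (nat_lit 0) (nat_lit 536166556151) (nat_lit 152) (nat_lit 22635514935086) (nat_lit 0) (nat_lit 401065430199) (nat_lit 2) (nat_lit 5) (nat_lit 4) (nat_lit 4) (nat_lit 2) (nat_lit 4) (nat_lit 418) (nat_lit 363) (nat_lit 239)) (XT.lf (nat_lit 0) (nat_lit 3483913629166) (nat_lit 152) (nat_lit 20044922594884) (nat_lit 0) (nat_lit 3348812502691) (nat_lit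 2) (nat_lit 5) (nat_lit 4) (nat_lit 4) (nat_lit 2) (nat_lit 4) (nat_lit 419) (nat_lit 363) (nat_lit 238))))) (XT.nd (nat_lit 234) (nat_lit 0) (nat_lit 0) (XT.nd (nat_lit 78) (nat_lit 0) (nat_lit 0) (XT.lf (nat_lit 0) (nat_lit 6873822742186) (nat_lit 152) (nat_lit 17065741447075) (nat_lit 0) (nat_lit 6738721615255) (nat_lit 2) (nat_lit 5) (nat_lit 4) (nat_lit 4) (nat_lit 2) (nat_lit 4) (nat_lit 420) (nat_lit 363) (nat_lit 237)) (XT.nd (nat_lit 78) (nat_lit 0) (nat_lit 0) (XT.lf (nat_lit 0) (nat_lit 10772218203944) (nat_lit 152) (nat_lit 13639683164857) (nat_lit 0) (nat_lit 10637117076616) (nat_lit 2) (nat_lit 5) (nat_lit 4) (nat_lit 4) (nat_lit 2) (nat_lit 4) (nat_lit 421) (nat_lit 363) (nat_lit 236)) (XT.lf (nat_lit 0) (nat_lit 15255372969126) (nat_lit 152) (nat_lit 9699716173140) (nat_lit 0) (nat_lit 15120271841453) (nat_lit 2) (nat_lit 5) (nat_lit 4) (nat_lit 4) (nat_lit 2) (nat_lit 4) (nat_lit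 422) (nat_lit 363) (nat_lit 235)))) (XT.nd (nat_lit 48516) (nat_lit 0) (nat_lit 6384) (XT.lf (nat_lit 0) (nat_lit 20411000935312) (nat_lit 152) (nat_lit 5168754161217) (nat_lit 0) (nat_lit 20275899807339) (nat_lit 2) (nat_lit 5) (nat_lit 4) (nat_lit 4) (nat_lit 2) (nat_lit 4) (nat_lit 423) (nat_lit 363) (nat_lit 234)) (XT.nd (nat_lit 78) (nat_lit 532) (nat_lit 0) (XT.lf (nat_lit 0) (nat_lit 57320285909) (nat_lit 532) (nat_lit 393326921) (nat_lit 532) (nat_lit 393326921) (nat_lit 93) (nat_lit 3) (nat_lit 100) (nat_lit 3) (nat_lit 100) (nat_lit 5) (nat_lit 364) (nat_lit 364) (nat_lit 292)) (XT.lf (nat_lit 0) (nat_lit 1199887561) (nat_lit 532) (nat_lit 11340596961) (nat_lit 608) (nat_lit 112168162012) (nat_lit 86) (nat_lit 5) (nat_lit 93) (nat_lit 3) (nat_lit 94) (nat_lit 5) (nat_lit 365) (nat_lit 364) (nat_lit 291))))))))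
noncomputable def xc88 : XT := (XT.nd (nat_lit 1638) (nat_lit 2280) (nat_lit 0) (XT.nd (nat_lit 780) (nat_lit 1596) (nat_lit 0) (XT.nd (nat_lit 390) (nat_lit 1292) (nat_lit 0) (XT.nd (nat_lit 156) (nat_lit 608) (nat_lit 0) (XT.nd (nat_lit 78) (nat_lit 0) (nat_lit 76) (XT.lf (nat_lit 0) (nat_lit 9727904511) (nat_lit 532) (nat_lit 20893171505) (nat_lit 608) (nat_lit 103418723592) (nat_lit 87) (nat_lit 5) (nat_lit 94) (nat_lit 5) (nat_lit 95) (nat_lit 5) (nat_lit 366) (nat_lit 364) (nat_lit 290)) (XT.lf (nat_lit 0) (nat_lit 25330442885) (nat_lit 532) (nat_lit 28982402478) (nat_lit 608) (nat_lit 89994154927) (nat_lit 88) (nat_lit 5) (nat_lit 95) (nat_lit 5) (nat_lit 96) (nat_lit 5) (nat_lit 367) (nat_lit 364) (nat_lit 289))) (XT.nd (nat_lit 78) (nat_lit 760) (nat_lit 0) (XT.lf (nat_lit 0) (nat_lit 49485443412) (nat_lit 532) (nat_lit 35123130667) (nat_lit 76) (nat_lit 71008740620) (nat_lit 89)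 (nat_lit 5) (nat_lit 96) (nat_lit 5) (nat_lit 90) (nat_lit 5) (nat_lit 368) (nat_lit 364) (nat_lit 288)) (XT.nd (nat_lit 78) (nat_lit 228) (nat_lit 0) (XT.lf (nat_lit 0) (nat_lit 83921670350) (nat_lit 608) (nat_lit 38735116129) (nat_lit 76) (nat_lit 45434751805) (nat_lit 82) (nat_lit 5) (nat_lit 90) (nat_lit 5) (nat_lit 83) (nat_lit 5) (nat_lit 369) (nat_lit 364) (nat_lit 287)) (XT.lf (nat_lit 0) (nat_lit 130658253103) (nat_lit 304) (nat_lit 39127340460) (nat_lit 76) (nat_lit 12080508204) (nat_lit 79) (nat_lit 5) (nat_lit 83) (nat_lit 5) (nat_lit 80) (nat_lit 5) (nat_lit 370) (nat_lit 364) (nat_lit 286))))) (XT.nd (nat_lit 156) (nat_lit 760) (nat_lit 0) (XT.nd (nat_lit 78) (nat_lit 304) (nat_lit 0) (XT.lf (nat_lit 0) (nat_lit 160783163534) (nat_lit 228) (nat_lit 32037577923) (nat_lit 304) (nat_lit 4212874950) (nat_lit 76) (nat_lit 5) (nat_lit 79) (nat_lit 5) (nat_lit 80) (nat_lit 5) (nat_lit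 371) (nat_lit 364) (nat_lit 285)) (XT.lf (nat_lit 0) (nat_lit 56216021724) (nat_lit 304) (nat_lit 30365958833) (nat_lit 76) (nat_lit 127088206748) (nat_lit 72) (nat_lit 5) (nat_lit 76) (nat_lit 5) (nat_lit 73) (nat_lit 5) (nat_lit 372) (nat_lit 364) (nat_lit 284))) (XT.nd (nat_lit 78) (nat_lit 532) (nat_lit 0) (XT.lf (nat_lit 0) (nat_lit 134587123172) (nat_lit 304) (nat_lit 19209785132) (nat_lit 76) (nat_lit 78266396013) (nat_lit 69) (nat_lit 5) (nat_lit 73) (nat_lit 5) (nat_lit 70) (nat_lit 5) (nat_lit 373) (nat_lit 364) (nat_lit 283)) (XT.nd (nat_lit 78) (nat_lit 380) (nat_lit 0) (XT.lf (nat_lit 0) (nat_lit 234478510924) (nat_lit 228) (nat_lit 1476671621) (nat_lit 76) (nat_lit 16479036704) (nat_lit 67) (nat_lit 5) (nat_lit 70) (nat_lit 5) (nat_lit 68) (nat_lit 5) (nat_lit 374) (nat_lit 364) (nat_lit 282)) (XT.lf (nat_lit 0) (nat_lit 21722037475) (nat_lit 152) (nat_lit 60912646257) (nat_lit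 228) (nat_lit 192059226770) (nat_lit 62) (nat_lit 5) (nat_lit 64) (nat_lit 5) (nat_lit 65) (nat_lit 5) (nat_lit 375) (nat_lit 364) (nat_lit 281)))))) (XT.nd (nat_lit 390) (nat_lit 836) (nat_lit 0) (XT.nd (nat_lit 156) (nat_lit 456) (nat_lit 0) (XT.nd (nat_lit 78) (nat_lit 152) (nat_lit 0) (XT.lf (nat_lit 0) (nat_lit 53062524149) (nat_lit 152) (nat_lit 156502049468) (nat_lit 228) (nat_lit 89705541913) (nat_lit 60) (nat_lit 5) (nat_lit 62) (nat_lit 5) (nat_lit 63) (nat_lit 5) (nat_lit 376) (nat_lit 364) (nat_lit 280)) (XT.lf (nat_lit 0) (nat_lit 39522534153) (nat_lit 152) (nat_lit 232327518876) (nat_lit 76) (nat_lit 54595058226) (nat_lit 58) (nat_lit 5) (nat_lit 60) (nat_lit 5) (nat_lit 59) (nat_lit 5) (nat_lit 377) (nat_lit 364) (nat_lit 279))) (XT.nd (nat_lit 78) (nat_lit 304) (nat_lit 0) (XT.lf (nat_lit 0) (nat_lit 143458131592) (nat_lit 152) (nat_lit 54648557809) (nat_lit 228) (nat_lit 158180590886)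 (nat_lit 56) (nat_lit 5) (nat_lit 58) (nat_lit 5) (nat_lit 59) (nat_lit 5) (nat_lit 378) (nat_lit 364) (nat_lit 278)) (XT.nd (nat_lit 78) (nat_lit 152) (nat_lit 0) (XT.lf (nat_lit 0) (nat_lit 7371971743) (nat_lit 152) (nat_lit 184465755909) (nat_lit 76) (nat_lit 197428118435) (nat_lit 54) (nat_lit 5) (nat_lit 56) (nat_lit 5) (nat_lit 55) (nat_lit 5) (nat_lit 379) (nat_lit 364) (nat_lit 277)) (XT.lf (nat_lit 0) (nat_lit 205066790356) (nat_lit 228) (nat_lit 148316570099) (nat_lit 76) (nat_lit 72145115161) (nat_lit 52) (nat_lit 5) (nat_lit 55) (nat_lit 5) (nat_lit 53) (nat_lit 4) (nat_lit 380) (nat_lit 364) (nat_lit 276))))) (XT.nd (nat_lit 234) (nat_lit 380) (nat_lit 0) (XT.nd (nat_lit 78) (nat_lit 380) (nat_lit 0) (XT.lf (nat_lit 0) (nat_lit 365340968983) (nat_lit 76) (nat_lit 86676725557) (nat_lit 152) (nat_lit 13644656026) (nat_lit 51) (nat_lit 5) (nat_lit 52) (nat_lit 5) (nat_lit 53) (nat_lit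 4) (nat_lit 381) (nat_lit 364) (nat_lit 275)) (XT.nd (nat_lit 78) (nat_lit 152) (nat_lit 0) (XT.lf (nat_lit 0) (nat_lit 234594407856) (nat_lit 228) (nat_lit 44317828624) (nat_lit 76) (nat_lit 230743549338) (nat_lit 48) (nat_lit 5) (nat_lit 51) (nat_lit 5) (nat_lit 49) (nat_lit 4) (nat_lit 382) (nat_lit 364) (nat_lit 274)) (XT.lf (nat_lit 0) (nat_lit 30154307373) (nat_lit 76) (nat_lit 510596560212) (nat_lit 76) (nat_lit 17749860078) (nat_lit 46) (nat_lit 4) (nat_lit 47) (nat_lit 5) (nat_lit 47) (nat_lit 4) (nat_lit 383) (nat_lit 364) (nat_lit 273)))) (XT.nd (nat_lit 78) (nat_lit 228) (nat_lit 0) (XT.lf (nat_lit 0) (nat_lit 116020530133) (nat_lit 76) (nat_lit 176704192387) (nat_lit 152) (nat_lit 319134035324) (nat_lit 44) (nat_lit 5) (nat_lit 45) (nat_lit 5) (nat_lit 46) (nat_lit 4) (nat_lit 384) (nat_lit 364) (nat_lit 272)) (XT.nd (nat_lit 78) (nat_lit 76) (nat_lit 0) (XT.lf (nat_lit 0) (nat_lit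 3581088285) (nat_lit 152) (nat_lit 448891206893) (nat_lit 76) (nat_lit 218612671418) (nat_lit 42) (nat_lit 5) (nat_lit 44) (nat_lit 5) (nat_lit 43) (nat_lit 4) (nat_lit 385) (nat_lit 364) (nat_lit 271)) (XT.lf (nat_lit 0) (nat_lit 342985114437) (nat_lit 76) (nat_lit 41305808539) (nat_lit 152) (nat_lit 351962348935) (nat_lit 41) (nat_lit 5) (nat_lit 42) (nat_lit 5) (nat_lit 43) (nat_lit 4) (nat_lit 386) (nat_lit 364) (nat_lit 270))))))) (XT.nd (nat_lit 780) (nat_lit 1064) (nat_lit 0) (XT.nd (nat_lit 390) (nat_lit 532) (nat_lit 0) (XT.nd (nat_lit 156) (nat_lit 456) (nat_lit 0) (XT.nd (nat_lit 78) (nat_lit 76) (nat_lit 0) (XT.lf (nat_lit 0) (nat_lit 46716010388) (nat_lit 152) (nat_lit 325367848945) (nat_lit 76) (nat_lit 436183861374) (nat_lit 39) (nat_lit 5) (nat_lit 41) (nat_lit 5) (nat_lit 40) (nat_lit 4) (nat_lit 387) (nat_lit 364) (nat_lit 269)) (XT.lf (nat_lit 0) (nat_lit 516527691051) (nat_lit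 152) (nat_lit 245962060868) (nat_lit 0) (nat_lit 125289501281) (nat_lit 38) (nat_lit 5) (nat_lit 40) (nat_lit 4) (nat_lit 38) (nat_lit 4) (nat_lit 388) (nat_lit 364) (nat_lit 268))) (XT.nd (nat_lit 78) (nat_lit 304) (nat_lit 0) (XT.lf (nat_lit 0) (nat_lit 114625318031) (nat_lit 152) (nat_lit 152817604270) (nat_lit 76) (nat_lit 708352242513) (nat_lit 36) (nat_lit 5) (nat_lit 38) (nat_lit 5) (nat_lit 37) (nat_lit 4) (nat_lit 389) (nat_lit 364) (nat_lit 267)) (XT.nd (nat_lit 78) (nat_lit 228) (nat_lit 0) (XT.lf (nat_lit 0) (nat_lit 692551734827) (nat_lit 152) (nat_lit 50104257196) (nat_lit 0) (nat_lit 330294020136) (nat_lit 35) (nat_lit 5) (nat_lit 37) (nat_lit 4) (nat_lit 35) (nat_lit 4) (nat_lit 390) (nat_lit 364) (nat_lit 266)) (XT.lf (nat_lit 0) (nat_lit 72119306003) (nat_lit 76) (nat_lit 136715825683) (nat_lit 152) (nat_lit 971913109391) (nat_lit 32) (nat_lit 5) (nat_lit 33) (nat_lit 5)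 (nat_lit 34) (nat_lit 4) (nat_lit 391) (nat_lit 364) (nat_lit 265))))) (XT.nd (nat_lit 156) (nat_lit 304) (nat_lit 0) (XT.nd (nat_lit 78) (nat_lit 152) (nat_lit 0) (XT.lf (nat_lit 0) (nat_lit 201055481963) (nat_lit 76) (nat_lit 716982752971) (nat_lit 76) (nat_lit 381558850955) (nat_lit 31) (nat_lit 4) (nat_lit 32) (nat_lit 5) (nat_lit 32) (nat_lit 4) (nat_lit 392) (nat_lit 364) (nat_lit 264)) (XT.lf (nat_lit 0) (nat_lit 328140219946) (nat_lit 152) (nat_lit 1086345139728) (nat_lit 0) (nat_lit 17562498396) (nat_lit 29) (nat_lit 5) (nat_lit 31) (nat_lit 4) (nat_lit 29) (nat_lit 4) (nat_lit 393) (nat_lit 364) (nat_lit 263))) (XT.nd (nat_lit 78) (nat_lit 228) (nat_lit 0) (XT.lf (nat_lit 0) (nat_lit 484313724267) (nat_lit 76) (nat_lit 702321372415) (nat_lit 76) (nat_lit 391743620869) (nat_lit 28) (nat_lit 4) (nat_lit 29) (nat_lit 5) (nat_lit 29) (nat_lit 4) (nat_lit 394) (nat_lit 364) (nat_lit 262))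 (XT.nd (nat_lit 78) (nat_lit 76) (nat_lit 0) (XT.lf (nat_lit 0) (nat_lit 457850947857) (nat_lit 152) (nat_lit 1113549028443) (nat_lit 0) (nat_lit 170278931531) (nat_lit 26) (nat_lit 5) (nat_lit 28) (nat_lit 4) (nat_lit 26) (nat_lit 4) (nat_lit 395) (nat_lit 364) (nat_lit 261)) (XT.lf (nat_lit 0) (nat_lit 754644921086) (nat_lit 76) (nat_lit 727957098619) (nat_lit 76) (nat_lit 440385061292) (nat_lit 25) (nat_lit 4) (nat_lit 26) (nat_lit 5) (nat_lit 26) (nat_lit 4) (nat_lit 396) (nat_lit 364) (nat_lit 260)))))) (XT.nd (nat_lit 390) (nat_lit 456) (nat_lit 0) (XT.nd (nat_lit 156) (nat_lit 380) (nat_lit 0) (XT.nd (nat_lit 78) (nat_lit 76) (nat_lit 0) (XT.lf (nat_lit 0) (nat_lit 564866575545) (nat_lit 152) (nat_lit 1262067148714) (nat_lit 0) (nat_lit 298596153702) (nat_lit 23) (nat_lit 5) (nat_lit 25) (nat_lit 4) (nat_lit 23) (nat_lit 4) (nat_lit 397) (nat_lit 364) (nat_lit 259)) (XT.lf (nat_lit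 0) (nat_lit 928296628320) (nat_lit 76) (nat_lit 844632455012) (nat_lit 76) (nat_lit 578362018465) (nat_lit 22) (nat_lit 4) (nat_lit 23) (nat_lit 5) (nat_lit 23) (nat_lit 4) (nat_lit 398) (nat_lit 364) (nat_lit 258))) (XT.nd (nat_lit 78) (nat_lit 228) (nat_lit 0) (XT.lf (nat_lit 0) (nat_lit 592997429761) (nat_lit 152) (nat_lit 1664864453436) (nat_lit 0) (nat_lit 346450717415) (nat_lit 20) (nat_lit 5) (nat_lit 22) (nat_lit 4) (nat_lit 20) (nat_lit 4) (nat_lit 399) (nat_lit 364) (nat_lit 257)) (XT.nd (nat_lit 78) (nat_lit 152) (nat_lit 0) (XT.lf (nat_lit 0) (nat_lit 852677949290) (nat_lit 76) (nat_lit 1140483315011) (nat_lit 76) (nat_lit 893936592371) (nat_lit 19) (nat_lit 4) (nat_lit 20) (nat_lit 5) (nat_lit 20) (nat_lit 4) (nat_lit 400) (nat_lit 364) (nat_lit 256)) (XT.lf (nat_lit 0) (nat_lit 442580591852) (nat_lit 152) (nat_lit 2548983856592) (nat_lit 0) (nat_lit 214296581118) (nat_lit 17)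 (nat_lit 5) (nat_lit 19) (nat_lit 4) (nat_lit 17) (nat_lit 4) (nat_lit 401) (nat_lit 364) (nat_lit 255))))) (XT.nd (nat_lit 234) (nat_lit 228) (nat_lit 0) (XT.nd (nat_lit 78) (nat_lit 152) (nat_lit 0) (XT.lf (nat_lit 0) (nat_lit 262702588256) (nat_lit 76) (nat_lit 1764075921622) (nat_lit 76) (nat_lit 1535791903680) (nat_lit 16) (nat_lit 4) (nat_lit 17) (nat_lit 5) (nat_lit 17) (nat_lit 4) (nat_lit 402) (nat_lit 364) (nat_lit 254)) (XT.nd (nat_lit 78) (nat_lit 152) (nat_lit 0) (XT.lf (nat_lit 0) (nat_lit 3650500520785) (nat_lit 76) (nat_lit 272316421233) (nat_lit 76) (nat_lit 44032397024) (nat_lit 16) (nat_lit 4) (nat_lit 17) (nat_lit 5) (nat_lit 17) (nat_lit 4) (nat_lit 403) (nat_lit 364) (nat_lit 253)) (XT.lf (nat_lit 0) (nat_lit 1703486602990) (nat_lit 152) (nat_lit 1223706221454) (nat_lit 0) (nat_lit 1492112501453) (nat_lit 14) (nat_lit 5) (nat_lit 16) (nat_lit 4) (nat_lit 14) (nat_lit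 4) (nat_lit 404) (nat_lit 364) (nat_lit 252)))) (XT.nd (nat_lit 78) (nat_lit 152) (nat_lit 0) (XT.lf (nat_lit 0) (nat_lit 2427024204041) (nat_lit 76) (nat_lit 1358927057668) (nat_lit 76) (nat_lit 1147552951743) (nat_lit 13) (nat_lit 4) (nat_lit 14) (nat_lit 5) (nat_lit 14) (nat_lit 4) (nat_lit 405) (nat_lit 364) (nat_lit 251)) (XT.nd (nat_lit 78) (nat_lit 0) (nat_lit 0) (XT.lf (nat_lit 0) (nat_lit 701892991528) (nat_lit 152) (nat_lit 4309201367826) (nat_lit 0) (nat_lit 506176223249) (nat_lit 11) (nat_lit 5) (nat_lit 13) (nat_lit 4) (nat_lit 11) (nat_lit 4) (nat_lit 406) (nat_lit 364) (nat_lit 250)) (XT.lf (nat_lit 0) (nat_lit 2875193168380) (nat_lit 152) (nat_lit 622396993494) (nat_lit 0) (nat_lit 2679476397030) (nat_lit 11) (nat_lit 5) (nat_lit 13) (nat_lit 4) (nat_lit 11) (nat_lit 4) (nat_lit 407) (nat_lit 364) (nat_lit 249))))))))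
noncomputable def xc89 : XT := (XT.nd (nat_lit 50154) (nat_lit 0) (nat_lit 2584) (XT.nd (nat_lit 780) (nat_lit 152) (nat_lit 0) (XT.nd (nat_lit 390) (nat_lit 228) (nat_lit 0) (XT.nd (nat_lit 156) (nat_lit 76) (nat_lit 0) (XT.nd (nat_lit 78) (nat_lit 152) (nat_lit 0) (XT.lf (nat_lit 0) (nat_lit 3807915252915) (nat_lit 76) (nat_lit 1658153510704) (nat_lit 76) (nat_lit 1462436736682) (nat_lit 10) (nat_lit 4) (nat_lit 11) (nat_lit 5) (nat_lit 11) (nat_lit 4) (nat_lit 408) (nat_lit 364) (nat_lit 248)) (XT.lf (nat_lit 0) (nat_lit 680162014317) (nat_lit 152) (nat_lit 6607506635317) (nat_lit 0) (nat_lit 498942776960) (nat_lit 8) (nat_lit 5) (nat_lit 10) (nat_lit 4) (nat_lit 8) (nat_lit 4) (nat_lit 409) (nat_lit 364) (nat_lit 247))) (XT.nd (nat_lit 78) (nat_lit 76) (nat_lit 0) (XT.lf (nat_lit 0) (nat_lit 3199092826530) (nat_lit 152) (nat_lit 2542105212577) (nat_lit 0) (nat_lit 3017873587302) (nat_lit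 8) (nat_lit 5) (nat_lit 10) (nat_lit 4) (nat_lit 8) (nat_lit 4) (nat_lit 410) (nat_lit 364) (nat_lit 246)) (XT.nd (nat_lit 78) (nat_lit 0) (nat_lit 0) (XT.lf (nat_lit 0) (nat_lit 2245431924937) (nat_lit 76) (nat_lit 3904433980271) (nat_lit 76) (nat_lit 3723214739417) (nat_lit 7) (nat_lit 4) (nat_lit 8) (nat_lit 5) (nat_lit 8) (nat_lit 4) (nat_lit 411) (nat_lit 364) (nat_lit 245)) (XT.lf (nat_lit 0) (nat_lit 7905041712585) (nat_lit 76) (nat_lit 1712223848031) (nat_lit 76) (nat_lit 1531004605763) (nat_lit 7) (nat_lit 4) (nat_lit 8) (nat_lit 5) (nat_lit 8) (nat_lit 4) (nat_lit 412) (nat_lit 364) (nat_lit 244))))) (XT.nd (nat_lit 156) (nat_lit 76) (nat_lit 0) (XT.nd (nat_lit 78) (nat_lit 0) (nat_lit 0) (XT.lf (nat_lit 0) (nat_lit 1006686933850) (nat_lit 152) (nat_lit 10761960967445) (nat_lit 0) (nat_lit 838891338018) (nat_lit 5) (nat_lit 5) (nat_lit 7) (nat_lit 4) (nat_lit 5) (nat_lit 4) (nat_lit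 413) (nat_lit 364) (nat_lit 243)) (XT.lf (nat_lit 0) (nat_lit 3981188593174) (nat_lit 152) (nat_lit 6476191059690) (nat_lit 0) (nat_lit 3813392996352) (nat_lit 5) (nat_lit 5) (nat_lit 7) (nat_lit 4) (nat_lit 5) (nat_lit 4) (nat_lit 414) (nat_lit 364) (nat_lit 242))) (XT.nd (nat_lit 78) (nat_lit 76) (nat_lit 0) (XT.lf (nat_lit 0) (nat_lit 7401865469968) (nat_lit 152) (nat_lit 1547555730868) (nat_lit 0) (nat_lit 7234069872285) (nat_lit 5) (nat_lit 5) (nat_lit 7) (nat_lit 4) (nat_lit 5) (nat_lit 4) (nat_lit 415) (nat_lit 364) (nat_lit 241)) (XT.nd (nat_lit 78) (nat_lit 0) (nat_lit 0) (XT.lf (nat_lit 0) (nat_lit 4337346477851) (nat_lit 76) (nat_lit 7102610660204) (nat_lit 76) (nat_lit 6934815061773) (nat_lit 4) (nat_lit 4) (nat_lit 5) (nat_lit 5) (nat_lit 5) (nat_lit 4) (nat_lit 416) (nat_lit 364) (nat_lit 240)) (XT.lf (nat_lit 0) (nat_lit 11198699239692) (nat_lit 76) (nat_lit 4930118711666) (nat_lit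 76) (nat_lit 4762323112584) (nat_lit 4) (nat_lit 4) (nat_lit 5) (nat_lit 5) (nat_lit 5) (nat_lit 4) (nat_lit 417) (nat_lit 364) (nat_lit 239)))))) (XT.nd (nat_lit 390) (nat_lit 0) (nat_lit 0) (XT.nd (nat_lit 156) (nat_lit 0) (nat_lit 0) (XT.nd (nat_lit 78) (nat_lit 152) (nat_lit 0) (XT.lf (nat_lit 0) (nat_lit 19089254870754) (nat_lit 76) (nat_lit 2431752994154) (nat_lit 76) (nat_lit 2263957394505) (nat_lit 4) (nat_lit 4) (nat_lit 5) (nat_lit 5) (nat_lit 5) (nat_lit 4) (nat_lit 418) (nat_lit 364) (nat_lit 238)) (XT.lf (nat_lit 0) (nat_lit 616591765127) (nat_lit 152) (nat_lit 26030841707780) (nat_lit 0) (nat_lit 461225468700) (nat_lit 2) (nat_lit 5) (nat_lit 4) (nat_lit 4) (nat_lit 2) (nat_lit 4) (nat_lit 419) (nat_lit 364) (nat_lit 237))) (XT.nd (nat_lit 78) (nat_lit 0) (nat_lit 0) (XT.lf (nat_lit 0) (nat_lit 4006500869675) (nat_lit 152) (nat_lit 23051660577535) (nat_lit 0) (nat_lit 3851134572851)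 (nat_lit 2) (nat_lit 5) (nat_lit 4) (nat_lit 4) (nat_lit 2) (nat_lit 4) (nat_lit 420) (nat_lit 364) (nat_lit 236)) (XT.nd (nat_lit 78) (nat_lit 0) (nat_lit 0) (XT.lf (nat_lit 0) (nat_lit 7904896324065) (nat_lit 152) (nat_lit 19625602310588) (nat_lit 0) (nat_lit 7749530026897) (nat_lit 2) (nat_lit 5) (nat_lit 4) (nat_lit 4) (nat_lit 2) (nat_lit 4) (nat_lit 421) (nat_lit 364) (nat_lit 235)) (XT.lf (nat_lit 0) (nat_lit 12388051082841) (nat_lit 152) (nat_lit 15685635332151) (nat_lit 0) (nat_lit 12232684785373) (nat_lit 2) (nat_lit 5) (nat_lit 4) (nat_lit 4) (nat_lit 2) (nat_lit 4) (nat_lit 422) (nat_lit 364) (nat_lit 234))))) (XT.nd (nat_lit 48750) (nat_lit 0) (nat_lit 6460) (XT.nd (nat_lit 48594) (nat_lit 0) (nat_lit 6384) (XT.lf (nat_lit 0) (nat_lit 17543679043456) (nat_lit 152) (nat_lit 11154673331777) (nat_lit 0) (nat_lit 17388312745727) (nat_lit 2) (nat_lit 5) (nat_lit 4) (nat_lit 4) (nat_lit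 2) (nat_lit 4) (nat_lit 423) (nat_lit 364) (nat_lit 233)) (XT.nd (nat_lit 78) (nat_lit 532) (nat_lit 0) (XT.lf (nat_lit 0) (nat_lit 65926227755) (nat_lit 532) (nat_lit 448059994) (nat_lit 532) (nat_lit 448059994) (nat_lit 93) (nat_lit 3) (nat_lit 100) (nat_lit 3) (nat_lit 100) (nat_lit 5) (nat_lit 365) (nat_lit 365) (nat_lit 290)) (XT.lf (nat_lit 0) (nat_lit 1394159273) (nat_lit 532) (nat_lit 13033122653) (nat_lit 608) (nat_lit 128986516806) (nat_lit 86) (nat_lit 5) (nat_lit 93) (nat_lit 3) (nat_lit 94) (nat_lit 5) (nat_lit 366) (nat_lit 365) (nat_lit 289)))) (XT.nd (nat_lit 78) (nat_lit 0) (nat_lit 76) (XT.lf (nat_lit 0) (nat_lit 11199588740) (nat_lit 532) (nat_lit 24018182896) (nat_lit 608) (nat_lit 118926996553) (nat_lit 87) (nat_lit 5) (nat_lit 94) (nat_lit 5) (nat_lit 95) (nat_lit 5) (nat_lit 367) (nat_lit 365) (nat_lit 288)) (XT.nd (nat_lit 78) (nat_lit 0) (nat_lit 76) (XT.lf (nat_lit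 0) (nat_lit 29141006183) (nat_lit 532) (nat_lit 33320601980) (nat_lit 608) (nat_lit 103490561139) (nat_lit 88) (nat_lit 5) (nat_lit 95) (nat_lit 5) (nat_lit 96) (nat_lit 5) (nat_lit 368) (nat_lit 365) (nat_lit 287)) (XT.lf (nat_lit 0) (nat_lit 56917990927) (nat_lit 532) (nat_lit 40382399413) (nat_lit 76) (nat_lit 81658741969) (nat_lit 89) (nat_lit 5) (nat_lit 96) (nat_lit 5) (nat_lit 90) (nat_lit 5) (nat_lit 369) (nat_lit 365) (nat_lit 286))))))) (XT.nd (nat_lit 780) (nat_lit 1520) (nat_lit 0) (XT.nd (nat_lit 390) (nat_lit 988) (nat_lit 0) (XT.nd (nat_lit 156) (nat_lit 760) (nat_lit 0) (XT.nd (nat_lit 78) (nat_lit 228) (nat_lit 0) (XT.lf (nat_lit 0) (nat_lit 96518579369) (nat_lit 608) (nat_lit 44536261561) (nat_lit 76) (nat_lit 52249734449) (nat_lit 82) (nat_lit 5) (nat_lit 90) (nat_lit 5) (nat_lit 83) (nat_lit 5) (nat_lit 370) (nat_lit 365) (nat_lit 285)) (XT.lf (nat_lit 0) (nat_lit 150264735893)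 (nat_lit 304) (nat_lit 44987487345) (nat_lit 76) (nat_lit 13893173364) (nat_lit 79) (nat_lit 5) (nat_lit 83) (nat_lit 5) (nat_lit 80) (nat_lit 5) (nat_lit 371) (nat_lit 365) (nat_lit 284))) (XT.nd (nat_lit 78) (nat_lit 532) (nat_lit 0) (XT.lf (nat_lit 0) (nat_lit 184908834321) (nat_lit 228) (nat_lit 36841950106) (nat_lit 304) (nat_lit 4837319168) (nat_lit 76) (nat_lit 5) (nat_lit 79) (nat_lit 5) (nat_lit 80) (nat_lit 5) (nat_lit 372) (nat_lit 365) (nat_lit 283)) (XT.nd (nat_lit 78) (nat_lit 228) (nat_lit 0) (XT.lf (nat_lit 0) (nat_lit 64654833867) (nat_lit 304) (nat_lit 34912531667) (nat_lit 76) (nat_lit 146152836566) (nat_lit 72) (nat_lit 5) (nat_lit 76) (nat_lit 5) (nat_lit 73) (nat_lit 5) (nat_lit 373) (nat_lit 365) (nat_lit 282)) (XT.lf (nat_lit 0) (nat_lit 154780992518) (nat_lit 304) (nat_lit 22083219984) (nat_lit 76) (nat_lit 90008122880) (nat_lit 69) (nat_lit 5) (nat_lit 73) (nat_lit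 5) (nat_lit 70) (nat_lit 5) (nat_lit 374) (nat_lit 365) (nat_lit 281))))) (XT.nd (nat_lit 156) (nat_lit 456) (nat_lit 0) (XT.nd (nat_lit 78) (nat_lit 380) (nat_lit 0) (XT.lf (nat_lit 0) (nat_lit 269655559909) (nat_lit 228) (nat_lit 1690452532) (nat_lit 76) (nat_lit 18952917461) (nat_lit 67) (nat_lit 5) (nat_lit 70) (nat_lit 5) (nat_lit 68) (nat_lit 5) (nat_lit 375) (nat_lit 365) (nat_lit 280)) (XT.lf (nat_lit 0) (nat_lit 24988052383) (nat_lit 152) (nat_lit 70046897777) (nat_lit 228) (nat_lit 220862641447) (nat_lit 62) (nat_lit 5) (nat_lit 64) (nat_lit 5) (nat_lit 65) (nat_lit 5) (nat_lit 376) (nat_lit 365) (nat_lit 279))) (XT.nd (nat_lit 78) (nat_lit 304) (nat_lit 0) (XT.lf (nat_lit 0) (nat_lit 61029272417) (nat_lit 152) (nat_lit 179974623171) (nat_lit 228) (nat_lit 103156366085) (nat_lit 60) (nat_lit 5) (nat_lit 62) (nat_lit 5) (nat_lit 63) (nat_lit 5) (nat_lit 377) (nat_lit 365) (nat_lit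 278)) (XT.nd (nat_lit 78) (nat_lit 152) (nat_lit 0) (XT.lf (nat_lit 0) (nat_lit 45455282489) (nat_lit 152) (nat_lit 267169391005) (nat_lit 76) (nat_lit 62786854740) (nat_lit 58) (nat_lit 5) (nat_lit 60) (nat_lit 5) (nat_lit 59) (nat_lit 5) (nat_lit 378) (nat_lit 365) (nat_lit 277)) (XT.lf (nat_lit 0) (nat_lit 164983492874) (nat_lit 152) (nat_lit 62843158113) (nat_lit 228) (nat_lit 181903404470) (nat_lit 56) (nat_lit 5) (nat_lit 58) (nat_lit 5) (nat_lit 59) (nat_lit 5) (nat_lit 379) (nat_lit 365) (nat_lit 276)))))) (XT.nd (nat_lit 390) (nat_lit 760) (nat_lit 0) (XT.nd (nat_lit 156) (nat_lit 456) (nat_lit 0) (XT.nd (nat_lit 78) (nat_lit 152) (nat_lit 0) (XT.lf (nat_lit 0) (nat_lit 8481512258) (nat_lit 152) (nat_lit 212129111578) (nat_lit 76) (nat_lit 227044799408) (nat_lit 54) (nat_lit 5) (nat_lit 56) (nat_lit 5) (nat_lit 55) (nat_lit 5) (nat_lit 380) (nat_lit 365) (nat_lit 275)) (XT.lf (nat_lit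 0) (nat_lit 235830269983) (nat_lit 228) (nat_lit 170557888126) (nat_lit 76) (nat_lit 82969311809) (nat_lit 52) (nat_lit 5) (nat_lit 55) (nat_lit 5) (nat_lit 53) (nat_lit 4) (nat_lit 381) (nat_lit 365) (nat_lit 274))) (XT.nd (nat_lit 78) (nat_lit 380) (nat_lit 0) (XT.lf (nat_lit 0) (nat_lit 420147759771) (nat_lit 76) (nat_lit 99675734352) (nat_lit 152) (nat_lit 15687957263) (nat_lit 51) (nat_lit 5) (nat_lit 52) (nat_lit 5) (nat_lit 53) (nat_lit 4) (nat_lit 382) (nat_lit 365) (nat_lit 273)) (XT.nd (nat_lit 78) (nat_lit 152) (nat_lit 0) (XT.lf (nat_lit 0) (nat_lit 269786560797) (nat_lit 228) (nat_lit 50960002269) (nat_lit 76) (nat_lit 265357351175) (nat_lit 48) (nat_lit 5) (nat_lit 51) (nat_lit 5) (nat_lit 49) (nat_lit 4) (nat_lit 383) (nat_lit 365) (nat_lit 272)) (XT.lf (nat_lit 0) (nat_lit 34682924497) (nat_lit 76) (nat_lit 587183483044) (nat_lit 76) (nat_lit 20409196393) (nat_lit 46) (nat_lit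 4) (nat_lit 47) (nat_lit 5) (nat_lit 47) (nat_lit 4) (nat_lit 384) (nat_lit 365) (nat_lit 271))))) (XT.nd (nat_lit 234) (nat_lit 380) (nat_lit 0) (XT.nd (nat_lit 78) (nat_lit 228) (nat_lit 0) (XT.lf (nat_lit 0) (nat_lit 133428761559) (nat_lit 76) (nat_lit 203207389318) (nat_lit 152) (nat_lit 367001202970) (nat_lit 44) (nat_lit 5) (nat_lit 45) (nat_lit 5) (nat_lit 46) (nat_lit 4) (nat_lit 385) (nat_lit 365) (nat_lit 270)) (XT.nd (nat_lit 78) (nat_lit 76) (nat_lit 0) (XT.lf (nat_lit 0) (nat_lit 4120850359) (nat_lit 152) (nat_lit 516219889483) (nat_lit 76) (nat_lit 251406763777) (nat_lit 42) (nat_lit 5) (nat_lit 44) (nat_lit 5) (nat_lit 43) (nat_lit 4) (nat_lit 386) (nat_lit 365) (nat_lit 269)) (XT.lf (nat_lit 0) (nat_lit 394437456954) (nat_lit 76) (nat_lit 47499474360) (nat_lit 152) (nat_lit 404754141741) (nat_lit 41) (nat_lit 5) (nat_lit 42) (nat_lit 5) (nat_lit 43) (nat_lit 4) (nat_lit 387)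 (nat_lit 365) (nat_lit 268)))) (XT.nd (nat_lit 78) (nat_lit 228) (nat_lit 0) (XT.lf (nat_lit 0) (nat_lit 53725680037) (nat_lit 152) (nat_lit 374168593701) (nat_lit 76) (nat_lit 501613423586) (nat_lit 39) (nat_lit 5) (nat_lit 41) (nat_lit 5) (nat_lit 40) (nat_lit 4) (nat_lit 388) (nat_lit 365) (nat_lit 267)) (XT.nd (nat_lit 78) (nat_lit 152) (nat_lit 0) (XT.lf (nat_lit 0) (nat_lit 594008962342) (nat_lit 152) (nat_lit 282852194787) (nat_lit 0) (nat_lit 144084814604) (nat_lit 38) (nat_lit 5) (nat_lit 40) (nat_lit 4) (nat_lit 38) (nat_lit 4) (nat_lit 389) (nat_lit 365) (nat_lit 266)) (XT.lf (nat_lit 0) (nat_lit 131821099317) (nat_lit 152) (nat_lit 175736318628) (nat_lit 76) (nat_lit 814606862874) (nat_lit 36) (nat_lit 5) (nat_lit 38) (nat_lit 5) (nat_lit 37) (nat_lit 4) (nat_lit 390) (nat_lit 365) (nat_lit 265))))))))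
noncomputable def xc90 : XT := (XT.nd (nat_lit 1638) (nat_lit 456) (nat_lit 0) (XT.nd (nat_lit 780) (nat_lit 912) (nat_lit 0) (XT.nd (nat_lit 390) (nat_lit 608) (nat_lit 0) (XT.nd (nat_lit 156) (nat_lit 304) (nat_lit 0) (XT.nd (nat_lit 78) (nat_lit 228) (nat_lit 0) (XT.lf (nat_lit 0) (nat_lit 796436349213) (nat_lit 152) (nat_lit 57616199777) (nat_lit 0) (nat_lit 379839816635) (nat_lit 35) (nat_lit 5) (nat_lit 37) (nat_lit 4) (nat_lit 35) (nat_lit 4) (nat_lit 391) (nat_lit 365) (nat_lit 264)) (XT.lf (nat_lit 0) (nat_lit 82940859549) (nat_lit 76) (nat_lit 157221367548) (nat_lit 152) (nat_lit 1117698104068) (nat_lit 32) (nat_lit 5) (nat_lit 33) (nat_lit 5) (nat_lit 34) (nat_lit 4) (nat_lit 392) (nat_lit 365) (nat_lit 263))) (XT.nd (nat_lit 78) (nat_lit 228) (nat_lit 0) (XT.lf (nat_lit 0) (nat_lit 231217245680) (nat_lit 76) (nat_lit 824528433102) (nat_lit 76) (nat_lit 438790833284) (nat_lit 31)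 (nat_lit 4) (nat_lit 32) (nat_lit 5) (nat_lit 32) (nat_lit 4) (nat_lit 393) (nat_lit 365) (nat_lit 262)) (XT.nd (nat_lit 78) (nat_lit 76) (nat_lit 0) (XT.lf (nat_lit 0) (nat_lit 377362894343) (nat_lit 152) (nat_lit 1249293587127) (nat_lit 0) (nat_lit 20198423983) (nat_lit 29) (nat_lit 5) (nat_lit 31) (nat_lit 4) (nat_lit 29) (nat_lit 4) (nat_lit 394) (nat_lit 365) (nat_lit 261)) (XT.lf (nat_lit 0) (nat_lit 556963825145) (nat_lit 76) (nat_lit 807668036516) (nat_lit 76) (nat_lit 450503543473) (nat_lit 28) (nat_lit 4) (nat_lit 29) (nat_lit 5) (nat_lit 29) (nat_lit 4) (nat_lit 395) (nat_lit 365) (nat_lit 260))))) (XT.nd (nat_lit 156) (nat_lit 380) (nat_lit 0) (XT.nd (nat_lit 78) (nat_lit 76) (nat_lit 0) (XT.lf (nat_lit 0) (nat_lit 526530032364) (nat_lit 152) (nat_lit 1280578446073) (nat_lit 0) (nat_lit 195822150172) (nat_lit 26) (nat_lit 5) (nat_lit 28) (nat_lit 4) (nat_lit 26) (nat_lit 4) (nat_lit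 396) (nat_lit 365) (nat_lit 259)) (XT.lf (nat_lit 0) (nat_lit 867844347313) (nat_lit 76) (nat_lit 837149294195) (nat_lit 76) (nat_lit 506441396123) (nat_lit 25) (nat_lit 4) (nat_lit 26) (nat_lit 5) (nat_lit 26) (nat_lit 4) (nat_lit 397) (nat_lit 365) (nat_lit 258))) (XT.nd (nat_lit 78) (nat_lit 228) (nat_lit 0) (XT.lf (nat_lit 0) (nat_lit 649597830226) (nat_lit 152) (nat_lit 1451374627250) (nat_lit 0) (nat_lit 343386800706) (nat_lit 23) (nat_lit 5) (nat_lit 25) (nat_lit 4) (nat_lit 23) (nat_lit 4) (nat_lit 398) (nat_lit 365) (nat_lit 257)) (XT.nd (nat_lit 78) (nat_lit 152) (nat_lit 0) (XT.lf (nat_lit 0) (nat_lit 1067543496790) (nat_lit 76) (nat_lit 971326109054) (nat_lit 76) (nat_lit 665115068416) (nat_lit 22) (nat_lit 4) (nat_lit 23) (nat_lit 5) (nat_lit 23) (nat_lit 4) (nat_lit 399) (nat_lit 365) (nat_lit 256)) (XT.lf (nat_lit 0) (nat_lit 681948160250) (nat_lit 152) (nat_lit 1914591831201)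 (nat_lit 0) (nat_lit 398419409966) (nat_lit 20) (nat_lit 5) (nat_lit 22) (nat_lit 4) (nat_lit 20) (nat_lit 4) (nat_lit 400) (nat_lit 365) (nat_lit 255)))))) (XT.nd (nat_lit 390) (nat_lit 456) (nat_lit 0) (XT.nd (nat_lit 156) (nat_lit 228) (nat_lit 0) (XT.nd (nat_lit 78) (nat_lit 152) (nat_lit 0) (XT.lf (nat_lit 0) (nat_lit 980581738075) (nat_lit 76) (nat_lit 1311554736746) (nat_lit 76) (nat_lit 1028025978678) (nat_lit 19) (nat_lit 4) (nat_lit 20) (nat_lit 5) (nat_lit 20) (nat_lit 4) (nat_lit 401) (nat_lit 365) (nat_lit 254)) (XT.lf (nat_lit 0) (nat_lit 508968663094) (nat_lit 152) (nat_lit 2931329413315) (nat_lit 0) (nat_lit 246442028986) (nat_lit 17) (nat_lit 5) (nat_lit 19) (nat_lit 4) (nat_lit 17) (nat_lit 4) (nat_lit 402) (nat_lit 365) (nat_lit 253))) (XT.nd (nat_lit 78) (nat_lit 152) (nat_lit 0) (XT.lf (nat_lit 0) (nat_lit 302109827128) (nat_lit 76) (nat_lit 2028686358057) (nat_lit 76)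 (nat_lit 1766159718498) (nat_lit 16) (nat_lit 4) (nat_lit 17) (nat_lit 5) (nat_lit 17) (nat_lit 4) (nat_lit 403) (nat_lit 365) (nat_lit 252)) (XT.nd (nat_lit 78) (nat_lit 152) (nat_lit 0) (XT.lf (nat_lit 0) (nat_lit 4198077208149) (nat_lit 76) (nat_lit 313163056759) (nat_lit 76) (nat_lit 50636412461) (nat_lit 16) (nat_lit 4) (nat_lit 17) (nat_lit 5) (nat_lit 17) (nat_lit 4) (nat_lit 404) (nat_lit 365) (nat_lit 251)) (XT.lf (nat_lit 0) (nat_lit 1959010345802) (nat_lit 152) (nat_lit 1407260603004) (nat_lit 0) (nat_lit 1715930115784) (nat_lit 14) (nat_lit 5) (nat_lit 16) (nat_lit 4) (nat_lit 14) (nat_lit 4) (nat_lit 405) (nat_lit 365) (nat_lit 250))))) (XT.nd (nat_lit 234) (nat_lit 228) (nat_lit 0) (XT.nd (nat_lit 78) (nat_lit 152) (nat_lit 0) (XT.lf (nat_lit 0) (nat_lit 2791079254974) (nat_lit 76) (nat_lit 1562765384379) (nat_lit 76) (nat_lit 1319685151043) (nat_lit 13) (nat_lit 4) (nat_lit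 14) (nat_lit 5) (nat_lit 14) (nat_lit 4) (nat_lit 406) (nat_lit 365) (nat_lit 249)) (XT.nd (nat_lit 78) (nat_lit 0) (nat_lit 0) (XT.lf (nat_lit 0) (nat_lit 807177603036) (nat_lit 152) (nat_lit 4955580203696) (nat_lit 0) (nat_lit 582103310238) (nat_lit 11) (nat_lit 5) (nat_lit 13) (nat_lit 4) (nat_lit 11) (nat_lit 4) (nat_lit 407) (nat_lit 365) (nat_lit 248)) (XT.lf (nat_lit 0) (nat_lit 3306472719967) (nat_lit 152) (nat_lit 715755351819) (nat_lit 0) (nat_lit 3081398424846) (nat_lit 11) (nat_lit 5) (nat_lit 13) (nat_lit 4) (nat_lit 11) (nat_lit 4) (nat_lit 408) (nat_lit 365) (nat_lit 247)))) (XT.nd (nat_lit 78) (nat_lit 152) (nat_lit 0) (XT.lf (nat_lit 0) (nat_lit 4379103630765) (nat_lit 76) (nat_lit 1906875974766) (nat_lit 76) (nat_lit 1681801677625) (nat_lit 10) (nat_lit 4) (nat_lit 11) (nat_lit 5) (nat_lit 11) (nat_lit 4) (nat_lit 409) (nat_lit 365) (nat_lit 246)) (XT.nd (nat_lit 78) (nat_lit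 0) (nat_lit 0) (XT.lf (nat_lit 0) (nat_lit 782186824293) (nat_lit 152) (nat_lit 7598631579981) (nat_lit 0) (nat_lit 573784695684) (nat_lit 8) (nat_lit 5) (nat_lit 10) (nat_lit 4) (nat_lit 8) (nat_lit 4) (nat_lit 410) (nat_lit 365) (nat_lit 245)) (XT.lf (nat_lit 0) (nat_lit 3678957192099) (nat_lit 152) (nat_lit 2923420080869) (nat_lit 0) (nat_lit 3470555062076) (nat_lit 8) (nat_lit 5) (nat_lit 10) (nat_lit 4) (nat_lit 8) (nat_lit 4) (nat_lit 411) (nat_lit 365) (nat_lit 244))))))) (XT.nd (nat_lit 780) (nat_lit 0) (nat_lit 0) (XT.nd (nat_lit 390) (nat_lit 228) (nat_lit 0) (XT.nd (nat_lit 156) (nat_lit 152) (nat_lit 0) (XT.nd (nat_lit 78) (nat_lit 0) (nat_lit 0) (XT.lf (nat_lit 0) (nat_lit 2582247549941) (nat_lit 76) (nat_lit 4490098645151) (nat_lit 76) (nat_lit 4281696513898) (nat_lit 7) (nat_lit 4) (nat_lit 8) (nat_lit 5) (nat_lit 8) (nat_lit 4) (nat_lit 412) (nat_lit 365) (nat_lit 243)) (XT.lf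 (nat_lit 0) (nat_lit 9090798696659) (nat_lit 76) (nat_lit 1969057049444) (nat_lit 76) (nat_lit 1760654917121) (nat_lit 7) (nat_lit 4) (nat_lit 8) (nat_lit 5) (nat_lit 8) (nat_lit 4) (nat_lit 413) (nat_lit 365) (nat_lit 242))) (XT.nd (nat_lit 78) (nat_lit 0) (nat_lit 0) (XT.lf (nat_lit 0) (nat_lit 1157690312342) (nat_lit 152) (nat_lit 12376254411648) (nat_lit 0) (nat_lit 964725374146) (nat_lit 5) (nat_lit 5) (nat_lit 7) (nat_lit 4) (nat_lit 5) (nat_lit 4) (nat_lit 414) (nat_lit 365) (nat_lit 241)) (XT.nd (nat_lit 78) (nat_lit 0) (nat_lit 0) (XT.lf (nat_lit 0) (nat_lit 4578367176424) (nat_lit 152) (nat_lit 7447619109154) (nat_lit 0) (nat_lit 4385402237479) (nat_lit 5) (nat_lit 5) (nat_lit 7) (nat_lit 4) (nat_lit 5) (nat_lit 4) (nat_lit 415) (nat_lit 365) (nat_lit 240)) (XT.lf (nat_lit 0) (nat_lit 8512145546354) (nat_lit 152) (nat_lit 1779688560507) (nat_lit 0) (nat_lit 8319180606757) (nat_lit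 5) (nat_lit 5) (nat_lit 7) (nat_lit 4) (nat_lit 5) (nat_lit 4) (nat_lit 416) (nat_lit 365) (nat_lit 239))))) (XT.nd (nat_lit 156) (nat_lit 152) (nat_lit 0) (XT.nd (nat_lit 78) (nat_lit 0) (nat_lit 0) (XT.lf (nat_lit 0) (nat_lit 4987948934659) (nat_lit 76) (nat_lit 8168002008286) (nat_lit 76) (nat_lit 7975037068123) (nat_lit 4) (nat_lit 4) (nat_lit 5) (nat_lit 5) (nat_lit 5) (nat_lit 4) (nat_lit 417) (nat_lit 365) (nat_lit 238)) (XT.lf (nat_lit 0) (nat_lit 12878504547499) (nat_lit 76) (nat_lit 5669636300199) (nat_lit 76) (nat_lit 5476671359544) (nat_lit 4) (nat_lit 4) (nat_lit 5) (nat_lit 5) (nat_lit 5) (nat_lit 4) (nat_lit 418) (nat_lit 365) (nat_lit 237))) (XT.nd (nat_lit 78) (nat_lit 152) (nat_lit 0) (XT.lf (nat_lit 0) (nat_lit 21952643468195) (nat_lit 76) (nat_lit 2796515753523) (nat_lit 76) (nat_lit 2603550812440) (nat_lit 4) (nat_lit 4) (nat_lit 5) (nat_lit 5) (nat_lit 5) (nat_lit 4)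 (nat_lit 419) (nat_lit 365) (nat_lit 236)) (XT.nd (nat_lit 78) (nat_lit 0) (nat_lit 0) (XT.lf (nat_lit 0) (nat_lit 709080700447) (nat_lit 152) (nat_lit 29935467610398) (nat_lit 0) (nat_lit 530409458359) (nat_lit 2) (nat_lit 5) (nat_lit 4) (nat_lit 4) (nat_lit 2) (nat_lit 4) (nat_lit 420) (nat_lit 365) (nat_lit 235)) (XT.lf (nat_lit 0) (nat_lit 4607476148431) (nat_lit 152) (nat_lit 26509409356731) (nat_lit 0) (nat_lit 4428804906043) (nat_lit 2) (nat_lit 5) (nat_lit 4) (nat_lit 4) (nat_lit 2) (nat_lit 4) (nat_lit 421) (nat_lit 365) (nat_lit 234)))))) (XT.nd (nat_lit 48984) (nat_lit 0) (nat_lit 5320) (XT.nd (nat_lit 48750) (nat_lit 0) (nat_lit 6384) (XT.nd (nat_lit 78) (nat_lit 0) (nat_lit 0) (XT.lf (nat_lit 0) (nat_lit 9090630901636) (nat_lit 152) (nat_lit 22569442389842) (nat_lit 0) (nat_lit 8911959658988) (nat_lit 2) (nat_lit 5) (nat_lit 4) (nat_lit 4) (nat_lit 2) (nat_lit 4) (nat_lit 422)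 (nat_lit 365) (nat_lit 233)) (XT.lf (nat_lit 0) (nat_lit 14246258857407) (nat_lit 152) (nat_lit 18038480399510) (nat_lit 0) (nat_lit 14067587614532) (nat_lit 2) (nat_lit 5) (nat_lit 4) (nat_lit 4) (nat_lit 2) (nat_lit 4) (nat_lit 423) (nat_lit 365) (nat_lit 232))) (XT.nd (nat_lit 78) (nat_lit 532) (nat_lit 0) (XT.lf (nat_lit 0) (nat_lit 75821134666) (nat_lit 532) (nat_lit 512043311) (nat_lit 532) (nat_lit 512043311) (nat_lit 93) (nat_lit 3) (nat_lit 100) (nat_lit 3) (nat_lit 100) (nat_lit 5) (nat_lit 366) (nat_lit 366) (nat_lit 288)) (XT.nd (nat_lit 78) (nat_lit 0) (nat_lit 76) (XT.lf (nat_lit 0) (nat_lit 1614087381) (nat_lit 532) (nat_lit 14981615548) (nat_lit 608) (nat_lit 148329299991) (nat_lit 86) (nat_lit 5) (nat_lit 93) (nat_lit 3) (nat_lit 94) (nat_lit 5) (nat_lit 367) (nat_lit 366) (nat_lit 287)) (XT.lf (nat_lit 0) (nat_lit 12888977753) (nat_lit 532) (nat_lit 27614132005) (nat_lit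 608) (nat_lit 136762616488) (nat_lit 87) (nat_lit 5) (nat_lit 94) (nat_lit 5) (nat_lit 95) (nat_lit 5) (nat_lit 368) (nat_lit 366) (nat_lit 286))))) (XT.nd (nat_lit 234) (nat_lit 760) (nat_lit 0) (XT.nd (nat_lit 78) (nat_lit 456) (nat_lit 0) (XT.lf (nat_lit 0) (nat_lit 33520472320) (nat_lit 532) (nat_lit 38311765343) (nat_lit 608) (nat_lit 119012090847) (nat_lit 88) (nat_lit 5) (nat_lit 95) (nat_lit 5) (nat_lit 96) (nat_lit 5) (nat_lit 369) (nat_lit 366) (nat_lit 285)) (XT.nd (nat_lit 78) (nat_lit 532) (nat_lit 0) (XT.lf (nat_lit 0) (nat_lit 65463047603) (nat_lit 532) (nat_lit 46432802157) (nat_lit 76) (nat_lit 93906562909) (nat_lit 89) (nat_lit 5) (nat_lit 96) (nat_lit 5) (nat_lit 90) (nat_lit 5) (nat_lit 370) (nat_lit 366) (nat_lit 284)) (XT.lf (nat_lit 0) (nat_lit 111002913319) (nat_lit 608) (nat_lit 51209803262) (nat_lit 76) (nat_lit 60087020607) (nat_lit 82) (nat_lit 5) (nat_lit 90) (nat_lit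 5) (nat_lit 83) (nat_lit 5) (nat_lit 371) (nat_lit 366) (nat_lit 283)))) (XT.nd (nat_lit 78) (nat_lit 532) (nat_lit 0) (XT.lf (nat_lit 0) (nat_lit 172810302478) (nat_lit 304) (nat_lit 51728839797) (nat_lit 76) (nat_lit 15977594683) (nat_lit 79) (nat_lit 5) (nat_lit 83) (nat_lit 5) (nat_lit 80) (nat_lit 5) (nat_lit 372) (nat_lit 366) (nat_lit 282)) (XT.nd (nat_lit 78) (nat_lit 304) (nat_lit 0) (XT.lf (nat_lit 0) (nat_lit 212651357017) (nat_lit 228) (nat_lit 42367286473) (nat_lit 304) (nat_lit 5557255777) (nat_lit 76) (nat_lit 5) (nat_lit 79) (nat_lit 5) (nat_lit 80) (nat_lit 5) (nat_lit 373) (nat_lit 366) (nat_lit 281)) (XT.lf (nat_lit 0) (nat_lit 74357904984) (nat_lit 304) (nat_lit 40143119553) (nat_lit 76) (nat_lit 168076819749) (nat_lit 72) (nat_lit 5) (nat_lit 76) (nat_lit 5) (nat_lit 73) (nat_lit 5) (nat_lit 374) (nat_lit 366) (nat_lit 280))))))))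
noncomputable def xc91 : XT := (XT.nd (nat_lit 1638) (nat_lit 1824) (nat_lit 0) (XT.nd (nat_lit 780) (nat_lit 1444) (nat_lit 0) (XT.nd (nat_lit 390) (nat_lit 760) (nat_lit 0) (XT.nd (nat_lit 156) (nat_lit 684) (nat_lit 0) (XT.nd (nat_lit 78) (nat_lit 152) (nat_lit 0) (XT.lf (nat_lit 0) (nat_lit 178002527686) (nat_lit 304) (nat_lit 25389628941) (nat_lit 76) (nat_lit 103510677770) (nat_lit 69) (nat_lit 5) (nat_lit 73) (nat_lit 5) (nat_lit 70) (nat_lit 5) (nat_lit 375) (nat_lit 366) (nat_lit 279)) (XT.lf (nat_lit 0) (nat_lit 310107880546) (nat_lit 228) (nat_lit 1938183110) (nat_lit 76) (nat_lit 21797386462) (nat_lit 67) (nat_lit 5) (nat_lit 70) (nat_lit 5) (nat_lit 68) (nat_lit 5) (nat_lit 376) (nat_lit 366) (nat_lit 278))) (XT.nd (nat_lit 78) (nat_lit 304) (nat_lit 0) (XT.lf (nat_lit 0) (nat_lit 28742089569) (nat_lit 152) (nat_lit 80551932127) (nat_lit 228) (nat_lit 253987902059) (nat_lit 62)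 (nat_lit 5) (nat_lit 64) (nat_lit 5) (nat_lit 65) (nat_lit 5) (nat_lit 377) (nat_lit 366) (nat_lit 277)) (XT.nd (nat_lit 78) (nat_lit 152) (nat_lit 0) (XT.lf (nat_lit 0) (nat_lit 70189235790) (nat_lit 152) (nat_lit 206968749564) (nat_lit 228) (nat_lit 118626034899) (nat_lit 60) (nat_lit 5) (nat_lit 62) (nat_lit 5) (nat_lit 63) (nat_lit 5) (nat_lit 378) (nat_lit 366) (nat_lit 276)) (XT.lf (nat_lit 0) (nat_lit 52276877860) (nat_lit 152) (nat_lit 307239313302) (nat_lit 76) (nat_lit 72206801878) (nat_lit 58) (nat_lit 5) (nat_lit 60) (nat_lit 5) (nat_lit 59) (nat_lit 5) (nat_lit 379) (nat_lit 366) (nat_lit 275))))) (XT.nd (nat_lit 156) (nat_lit 456) (nat_lit 0) (XT.nd (nat_lit 78) (nat_lit 152) (nat_lit 0) (XT.lf (nat_lit 0) (nat_lit 189736038767) (nat_lit 152) (nat_lit 72267602818) (nat_lit 228) (nat_lit 209185682590) (nat_lit 56) (nat_lit 5) (nat_lit 58) (nat_lit 5) (nat_lit 59) (nat_lit 5) (nat_lit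 380) (nat_lit 366) (nat_lit 274)) (XT.lf (nat_lit 0) (nat_lit 9756570669) (nat_lit 152) (nat_lit 243943557545) (nat_lit 76) (nat_lit 261103381858) (nat_lit 54) (nat_lit 5) (nat_lit 56) (nat_lit 5) (nat_lit 55) (nat_lit 5) (nat_lit 381) (nat_lit 366) (nat_lit 273))) (XT.nd (nat_lit 78) (nat_lit 304) (nat_lit 0) (XT.lf (nat_lit 0) (nat_lit 271207427549) (nat_lit 228) (nat_lit 196136907839) (nat_lit 76) (nat_lit 95416545537) (nat_lit 52) (nat_lit 5) (nat_lit 55) (nat_lit 5) (nat_lit 53) (nat_lit 4) (nat_lit 382) (nat_lit 366) (nat_lit 272)) (XT.nd (nat_lit 78) (nat_lit 228) (nat_lit 0) (XT.lf (nat_lit 0) (nat_lit 483174192500) (nat_lit 76) (nat_lit 114625204117) (nat_lit 152) (nat_lit 18038582105) (nat_lit 51) (nat_lit 5) (nat_lit 52) (nat_lit 5) (nat_lit 53) (nat_lit 4) (nat_lit 383) (nat_lit 366) (nat_lit 271)) (XT.lf (nat_lit 0) (nat_lit 310256807120) (nat_lit 228) (nat_lit 58599843329) (nat_lit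 76) (nat_lit 305162669872) (nat_lit 48) (nat_lit 5) (nat_lit 51) (nat_lit 5) (nat_lit 49) (nat_lit 4) (nat_lit 384) (nat_lit 366) (nat_lit 270)))))) (XT.nd (nat_lit 390) (nat_lit 760) (nat_lit 0) (XT.nd (nat_lit 156) (nat_lit 380) (nat_lit 0) (XT.nd (nat_lit 78) (nat_lit 152) (nat_lit 0) (XT.lf (nat_lit 0) (nat_lit 39889500047) (nat_lit 76) (nat_lit 675259068866) (nat_lit 76) (nat_lit 23468199521) (nat_lit 46) (nat_lit 4) (nat_lit 47) (nat_lit 5) (nat_lit 47) (nat_lit 4) (nat_lit 385) (nat_lit 366) (nat_lit 269)) (XT.lf (nat_lit 0) (nat_lit 153446971373) (nat_lit 76) (nat_lit 233686658830) (nat_lit 152) (nat_lit 422049162129) (nat_lit 44) (nat_lit 5) (nat_lit 45) (nat_lit 5) (nat_lit 46) (nat_lit 4) (nat_lit 386) (nat_lit 366) (nat_lit 268))) (XT.nd (nat_lit 78) (nat_lit 228) (nat_lit 0) (XT.lf (nat_lit 0) (nat_lit 4740943003) (nat_lit 152) (nat_lit 593649093363) (nat_lit 76) (nat_lit 289119435543)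 (nat_lit 42) (nat_lit 5) (nat_lit 44) (nat_lit 5) (nat_lit 43) (nat_lit 4) (nat_lit 387) (nat_lit 366) (nat_lit 267)) (XT.nd (nat_lit 78) (nat_lit 152) (nat_lit 0) (XT.lf (nat_lit 0) (nat_lit 453606535119) (nat_lit 76) (nat_lit 54622727870) (nat_lit 152) (nat_lit 465465327626) (nat_lit 41) (nat_lit 5) (nat_lit 42) (nat_lit 5) (nat_lit 43) (nat_lit 4) (nat_lit 388) (nat_lit 366) (nat_lit 266)) (XT.lf (nat_lit 0) (nat_lit 61786247045) (nat_lit 152) (nat_lit 430290531084) (nat_lit 76) (nat_lit 576856936561) (nat_lit 39) (nat_lit 5) (nat_lit 41) (nat_lit 5) (nat_lit 40) (nat_lit 4) (nat_lit 389) (nat_lit 366) (nat_lit 265))))) (XT.nd (nat_lit 234) (nat_lit 456) (nat_lit 0) (XT.nd (nat_lit 78) (nat_lit 228) (nat_lit 0) (XT.lf (nat_lit 0) (nat_lit 683111907929) (nat_lit 152) (nat_lit 325276866944) (nat_lit 0) (nat_lit 165698964493) (nat_lit 38) (nat_lit 5) (nat_lit 40) (nat_lit 4) (nat_lit 38) (nat_lit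 4) (nat_lit 390) (nat_lit 366) (nat_lit 264)) (XT.nd (nat_lit 78) (nat_lit 76) (nat_lit 0) (XT.lf (nat_lit 0) (nat_lit 151595764088) (nat_lit 152) (nat_lit 202093797588) (nat_lit 76) (nat_lit 936799241255) (nat_lit 36) (nat_lit 5) (nat_lit 38) (nat_lit 5) (nat_lit 37) (nat_lit 4) (nat_lit 391) (nat_lit 366) (nat_lit 263)) (XT.lf (nat_lit 0) (nat_lit 915903203607) (nat_lit 152) (nat_lit 66255835037) (nat_lit 0) (nat_lit 436817069644) (nat_lit 35) (nat_lit 5) (nat_lit 37) (nat_lit 4) (nat_lit 35) (nat_lit 4) (nat_lit 392) (nat_lit 366) (nat_lit 262)))) (XT.nd (nat_lit 78) (nat_lit 228) (nat_lit 0) (XT.lf (nat_lit 0) (nat_lit 95384754187) (nat_lit 76) (nat_lit 180803187435) (nat_lit 152) (nat_lit 1285351328766) (nat_lit 32) (nat_lit 5) (nat_lit 33) (nat_lit 5) (nat_lit 34) (nat_lit 4) (nat_lit 393) (nat_lit 366) (nat_lit 261)) (XT.nd (nat_lit 78) (nat_lit 152) (nat_lit 0) (XT.lf (nat_lit 0) (nat_lit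 265902434743) (nat_lit 76) (nat_lit 948206387810) (nat_lit 76) (nat_lit 504608062954) (nat_lit 31) (nat_lit 4) (nat_lit 32) (nat_lit 5) (nat_lit 32) (nat_lit 4) (nat_lit 394) (nat_lit 366) (nat_lit 260)) (XT.lf (nat_lit 0) (nat_lit 433968569634) (nat_lit 152) (nat_lit 1436685112107) (nat_lit 0) (nat_lit 23229360228) (nat_lit 29) (nat_lit 5) (nat_lit 31) (nat_lit 4) (nat_lit 29) (nat_lit 4) (nat_lit 395) (nat_lit 366) (nat_lit 259))))))) (XT.nd (nat_lit 780) (nat_lit 836) (nat_lit 0) (XT.nd (nat_lit 390) (nat_lit 456) (nat_lit 0) (XT.nd (nat_lit 156) (nat_lit 304) (nat_lit 0) (XT.nd (nat_lit 78) (nat_lit 152) (nat_lit 0) (XT.lf (nat_lit 0) (nat_lit 640510699285) (nat_lit 76) (nat_lit 928817076200) (nat_lit 76) (nat_lit 518077849643) (nat_lit 28) (nat_lit 4) (nat_lit 29) (nat_lit 5) (nat_lit 29) (nat_lit 4) (nat_lit 396) (nat_lit 366) (nat_lit 258)) (XT.lf (nat_lit 0) (nat_lit 605510627826)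 (nat_lit 152) (nat_lit 1472662992466) (nat_lit 0) (nat_lit 225196515353) (nat_lit 26) (nat_lit 5) (nat_lit 28) (nat_lit 4) (nat_lit 26) (nat_lit 4) (nat_lit 397) (nat_lit 366) (nat_lit 257))) (XT.nd (nat_lit 78) (nat_lit 228) (nat_lit 0) (XT.lf (nat_lit 0) (nat_lit 998023031973) (nat_lit 76) (nat_lit 962720652998) (nat_lit 76) (nat_lit 582406528518) (nat_lit 25) (nat_lit 4) (nat_lit 26) (nat_lit 5) (nat_lit 26) (nat_lit 4) (nat_lit 398) (nat_lit 366) (nat_lit 256)) (XT.nd (nat_lit 78) (nat_lit 76) (nat_lit 0) (XT.lf (nat_lit 0) (nat_lit 747038463813) (nat_lit 152) (nat_lit 1669078860073) (nat_lit 0) (nat_lit 394895746293) (nat_lit 23) (nat_lit 5) (nat_lit 25) (nat_lit 4) (nat_lit 23) (nat_lit 4) (nat_lit 399) (nat_lit 366) (nat_lit 255)) (XT.lf (nat_lit 0) (nat_lit 1227676816562) (nat_lit 76) (nat_lit 1117024107295) (nat_lit 76) (nat_lit 764881381367) (nat_lit 22) (nat_lit 4) (nat_lit 23)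 (nat_lit 5) (nat_lit 23) (nat_lit 4) (nat_lit 400) (nat_lit 366) (nat_lit 254))))) (XT.nd (nat_lit 156) (nat_lit 228) (nat_lit 0) (XT.nd (nat_lit 78) (nat_lit 76) (nat_lit 0) (XT.lf (nat_lit 0) (nat_lit 784241228163) (nat_lit 152) (nat_lit 2201778874123) (nat_lit 0) (nat_lit 458183141831) (nat_lit 20) (nat_lit 5) (nat_lit 22) (nat_lit 4) (nat_lit 20) (nat_lit 4) (nat_lit 401) (nat_lit 366) (nat_lit 253)) (XT.lf (nat_lit 0) (nat_lit 1127670583960) (nat_lit 76) (nat_lit 1508287134012) (nat_lit 76) (nat_lit 1182229041794) (nat_lit 19) (nat_lit 4) (nat_lit 20) (nat_lit 5) (nat_lit 20) (nat_lit 4) (nat_lit 402) (nat_lit 366) (nat_lit 252))) (XT.nd (nat_lit 78) (nat_lit 76) (nat_lit 0) (XT.lf (nat_lit 0) (nat_lit 585314705443) (nat_lit 152) (nat_lit 3371027296567) (nat_lit 0) (nat_lit 283409059761) (nat_lit 17) (nat_lit 5) (nat_lit 19) (nat_lit 4) (nat_lit 17) (nat_lit 4) (nat_lit 403) (nat_lit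 366) (nat_lit 251)) (XT.nd (nat_lit 78) (nat_lit 0) (nat_lit 0) (XT.lf (nat_lit 0) (nat_lit 347427700542) (nat_lit 76) (nat_lit 2332988592062) (nat_lit 76) (nat_lit 2031082942259) (nat_lit 16) (nat_lit 4) (nat_lit 17) (nat_lit 5) (nat_lit 17) (nat_lit 4) (nat_lit 404) (nat_lit 366) (nat_lit 250)) (XT.lf (nat_lit 0) (nat_lit 4827790006193) (nat_lit 76) (nat_lit 360136889443) (nat_lit 76) (nat_lit 58231236057) (nat_lit 16) (nat_lit 4) (nat_lit 17) (nat_lit 5) (nat_lit 17) (nat_lit 4) (nat_lit 405) (nat_lit 366) (nat_lit 249)))))) (XT.nd (nat_lit 390) (nat_lit 380) (nat_lit 0) (XT.nd (nat_lit 156) (nat_lit 228) (nat_lit 0) (XT.nd (nat_lit 78) (nat_lit 76) (nat_lit 0) (XT.lf (nat_lit 0) (nat_lit 2252862466567) (nat_lit 152) (nat_lit 1618348520171) (nat_lit 0) (nat_lit 1973320192028) (nat_lit 14) (nat_lit 5) (nat_lit 16) (nat_lit 4) (nat_lit 14) (nat_lit 4) (nat_lit 406) (nat_lit 366) (nat_lit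 248)) (XT.lf (nat_lit 0) (nat_lit 3209742217192) (nat_lit 76) (nat_lit 1797179638585) (nat_lit 76) (nat_lit 1517637361537) (nat_lit 13) (nat_lit 4) (nat_lit 14) (nat_lit 5) (nat_lit 14) (nat_lit 4) (nat_lit 407) (nat_lit 366) (nat_lit 247))) (XT.nd (nat_lit 78) (nat_lit 76) (nat_lit 0) (XT.lf (nat_lit 0) (nat_lit 928254744647) (nat_lit 152) (nat_lit 5698916198860) (nat_lit 0) (nat_lit 669419300915) (nat_lit 11) (nat_lit 5) (nat_lit 13) (nat_lit 4) (nat_lit 11) (nat_lit 4) (nat_lit 408) (nat_lit 366) (nat_lit 246)) (XT.nd (nat_lit 78) (nat_lit 76) (nat_lit 0) (XT.lf (nat_lit 0) (nat_lit 3802444063749) (nat_lit 152) (nat_lit 823117754253) (nat_lit 0) (nat_lit 3543608618261) (nat_lit 11) (nat_lit 5) (nat_lit 13) (nat_lit 4) (nat_lit 11) (nat_lit 4) (nat_lit 409) (nat_lit 366) (nat_lit 245)) (XT.lf (nat_lit 0) (nat_lit 5035969999510) (nat_lit 76) (nat_lit 2192906945617) (nat_lit 76) (nat_lit 1934071498601)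 (nat_lit 10) (nat_lit 4) (nat_lit 11) (nat_lit 5) (nat_lit 11) (nat_lit 4) (nat_lit 410) (nat_lit 366) (nat_lit 244))))) (XT.nd (nat_lit 234) (nat_lit 152) (nat_lit 0) (XT.nd (nat_lit 78) (nat_lit 76) (nat_lit 0) (XT.lf (nat_lit 0) (nat_lit 899515231927) (nat_lit 152) (nat_lit 8738425522547) (nat_lit 0) (nat_lit 659852779757) (nat_lit 8) (nat_lit 5) (nat_lit 10) (nat_lit 4) (nat_lit 8) (nat_lit 4) (nat_lit 411) (nat_lit 366) (nat_lit 243)) (XT.nd (nat_lit 78) (nat_lit 76) (nat_lit 0) (XT.lf (nat_lit 0) (nat_lit 4230801104818) (nat_lit 152) (nat_lit 3361932402190) (nat_lit 0) (nat_lit 3991138651578) (nat_lit 8) (nat_lit 5) (nat_lit 10) (nat_lit 4) (nat_lit 8) (nat_lit 4) (nat_lit 412) (nat_lit 366) (nat_lit 242)) (XT.lf (nat_lit 0) (nat_lit 2969585314768) (nat_lit 76) (nat_lit 5163613115148) (nat_lit 76) (nat_lit 4923950660978) (nat_lit 7) (nat_lit 4) (nat_lit 8) (nat_lit 5) (nat_lit 8) (nat_lit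 4) (nat_lit 413) (nat_lit 366) (nat_lit 241)))) (XT.nd (nat_lit 78) (nat_lit 152) (nat_lit 0) (XT.lf (nat_lit 0) (nat_lit 10454419051015) (nat_lit 76) (nat_lit 2264415322707) (nat_lit 76) (nat_lit 2024752867729) (nat_lit 7) (nat_lit 4) (nat_lit 8) (nat_lit 5) (nat_lit 8) (nat_lit 4) (nat_lit 414) (nat_lit 366) (nat_lit 240)) (XT.nd (nat_lit 78) (nat_lit 0) (nat_lit 0) (XT.lf (nat_lit 0) (nat_lit 1331344115084) (nat_lit 152) (nat_lit 14232692043404) (nat_lit 0) (nat_lit 1109434433898) (nat_lit 5) (nat_lit 5) (nat_lit 7) (nat_lit 4) (nat_lit 5) (nat_lit 4) (nat_lit 415) (nat_lit 366) (nat_lit 239)) (XT.lf (nat_lit 0) (nat_lit 5265122475402) (nat_lit 152) (nat_lit 8564761514665) (nat_lit 0) (nat_lit 5043212793649) (nat_lit 5) (nat_lit 5) (nat_lit 7) (nat_lit 4) (nat_lit 5) (nat_lit 4) (nat_lit 416) (nat_lit 366) (nat_lit 238))))))))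
noncomputable def xc92 : XT := (XT.nd (nat_lit 50232) (nat_lit 0) (nat_lit 1596) (XT.nd (nat_lit 49374) (nat_lit 0) (nat_lit 4408) (XT.nd (nat_lit 390) (nat_lit 0) (nat_lit 0) (XT.nd (nat_lit 156) (nat_lit 152) (nat_lit 0) (XT.nd (nat_lit 78) (nat_lit 76) (nat_lit 0) (XT.lf (nat_lit 0) (nat_lit 9788967571796) (nat_lit 152) (nat_lit 2046641443833) (nat_lit 0) (nat_lit 9567057889551) (nat_lit 5) (nat_lit 5) (nat_lit 7) (nat_lit 4) (nat_lit 5) (nat_lit 4) (nat_lit 417) (nat_lit 366) (nat_lit 237)) (XT.lf (nat_lit 0) (nat_lit 5736141641686) (nat_lit 76) (nat_lit 9393202119775) (nat_lit 76) (nat_lit 9171292437101) (nat_lit 4) (nat_lit 4) (nat_lit 5) (nat_lit 5) (nat_lit 5) (nat_lit 4) (nat_lit 418) (nat_lit 366) (nat_lit 236))) (XT.nd (nat_lit 78) (nat_lit 152) (nat_lit 0) (XT.lf (nat_lit 0) (nat_lit 14810280548604) (nat_lit 76) (nat_lit 6520081580226) (nat_lit 76) (nat_lit 6298171897180) (nat_lit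 4) (nat_lit 4) (nat_lit 5) (nat_lit 5) (nat_lit 5) (nat_lit 4) (nat_lit 419) (nat_lit 366) (nat_lit 235)) (XT.nd (nat_lit 78) (nat_lit 152) (nat_lit 0) (XT.lf (nat_lit 0) (nat_lit 25245540265800) (nat_lit 76) (nat_lit 3215992973070) (nat_lit 76) (nat_lit 2994083289701) (nat_lit 4) (nat_lit 4) (nat_lit 5) (nat_lit 5) (nat_lit 5) (nat_lit 4) (nat_lit 420) (nat_lit 366) (nat_lit 234)) (XT.lf (nat_lit 0) (nat_lit 815442934475) (nat_lit 152) (nat_lit 34425787484624) (nat_lit 0) (nat_lit 609971005169) (nat_lit 2) (nat_lit 5) (nat_lit 4) (nat_lit 4) (nat_lit 2) (nat_lit 4) (nat_lit 421) (nat_lit 366) (nat_lit 233))))) (XT.nd (nat_lit 156) (nat_lit 0) (nat_lit 0) (XT.nd (nat_lit 78) (nat_lit 0) (nat_lit 0) (XT.lf (nat_lit 0) (nat_lit 5298597682836) (nat_lit 152) (nat_lit 30485820527777) (nat_lit 0) (nat_lit 5093125753303) (nat_lit 2) (nat_lit 5) (nat_lit 4) (nat_lit 4) (nat_lit 2) (nat_lit 4) (nat_lit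 422) (nat_lit 366) (nat_lit 232)) (XT.lf (nat_lit 0) (nat_lit 10454225634394) (nat_lit 152) (nat_lit 25954858546176) (nat_lit 0) (nat_lit 10248753704664) (nat_lit 2) (nat_lit 5) (nat_lit 4) (nat_lit 4) (nat_lit 2) (nat_lit 4) (nat_lit 423) (nat_lit 366) (nat_lit 231))) (XT.nd (nat_lit 48672) (nat_lit 0) (nat_lit 6384) (XT.lf (nat_lit 0) (nat_lit 16383197770812) (nat_lit 152) (nat_lit 20744252283660) (nat_lit 0) (nat_lit 16177725840911) (nat_lit 2) (nat_lit 5) (nat_lit 4) (nat_lit 4) (nat_lit 2) (nat_lit 4) (nat_lit 424) (nat_lit 366) (nat_lit 230)) (XT.nd (nat_lit 78) (nat_lit 532) (nat_lit 0) (XT.lf (nat_lit 0) (nat_lit 87198821121) (nat_lit 532) (nat_lit 586410728) (nat_lit 532) (nat_lit 586410728) (nat_lit 93) (nat_lit 3) (nat_lit 100) (nat_lit 3) (nat_lit 100) (nat_lit 5) (nat_lit 367) (nat_lit 367) (nat_lit 286)) (XT.lf (nat_lit 0) (nat_lit 1864370029) (nat_lit 532) (nat_lit 17223961470)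 (nat_lit 608) (nat_lit 170574767326) (nat_lit 86) (nat_lit 5) (nat_lit 93) (nat_lit 3) (nat_lit 94) (nat_lit 5) (nat_lit 368) (nat_lit 367) (nat_lit 285)))))) (XT.nd (nat_lit 390) (nat_lit 1444) (nat_lit 0) (XT.nd (nat_lit 156) (nat_lit 608) (nat_lit 0) (XT.nd (nat_lit 78) (nat_lit 0) (nat_lit 76) (XT.lf (nat_lit 0) (nat_lit 14829470504) (nat_lit 532) (nat_lit 31751126418) (nat_lit 608) (nat_lit 157274415731) (nat_lit 87) (nat_lit 5) (nat_lit 94) (nat_lit 5) (nat_lit 95) (nat_lit 5) (nat_lit 369) (nat_lit 367) (nat_lit 284)) (XT.lf (nat_lit 0) (nat_lit 38554830661) (nat_lit 532) (nat_lit 44053292388) (nat_lit 608) (nat_lit 136862351004) (nat_lit 88) (nat_lit 5) (nat_lit 95) (nat_lit 5) (nat_lit 96) (nat_lit 5) (nat_lit 370) (nat_lit 367) (nat_lit 283))) (XT.nd (nat_lit 78) (nat_lit 760) (nat_lit 0) (XT.lf (nat_lit 0) (nat_lit 75288068477) (nat_lit 532) (nat_lit 53392461862) (nat_lit 76) (nat_lit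 107991798494) (nat_lit 89) (nat_lit 5) (nat_lit 96) (nat_lit 5) (nat_lit 90) (nat_lit 5) (nat_lit 371) (nat_lit 367) (nat_lit 282)) (XT.nd (nat_lit 78) (nat_lit 228) (nat_lit 0) (XT.lf (nat_lit 0) (nat_lit 127658300823) (nat_lit 608) (nat_lit 58886058225) (nat_lit 76) (nat_lit 69099942123) (nat_lit 82) (nat_lit 5) (nat_lit 90) (nat_lit 5) (nat_lit 83) (nat_lit 5) (nat_lit 372) (nat_lit 367) (nat_lit 281)) (XT.lf (nat_lit 0) (nat_lit 198736275979) (nat_lit 304) (nat_lit 59483046183) (nat_lit 76) (nat_lit 18374570608) (nat_lit 79) (nat_lit 5) (nat_lit 83) (nat_lit 5) (nat_lit 80) (nat_lit 5) (nat_lit 373) (nat_lit 367) (nat_lit 280))))) (XT.nd (nat_lit 234) (nat_lit 684) (nat_lit 0) (XT.nd (nat_lit 78) (nat_lit 532) (nat_lit 0) (XT.lf (nat_lit 0) (nat_lit 244553746806) (nat_lit 228) (nat_lit 48721656459) (nat_lit 304) (nat_lit 6386563413) (nat_lit 76) (nat_lit 5) (nat_lit 79) (nat_lit 5) (nat_lit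 80) (nat_lit 5) (nat_lit 374) (nat_lit 367) (nat_lit 279)) (XT.nd (nat_lit 78) (nat_lit 228) (nat_lit 0) (XT.lf (nat_lit 0) (nat_lit 85515255032) (nat_lit 304) (nat_lit 46159829932) (nat_lit 76) (nat_lit 193289142483) (nat_lit 72) (nat_lit 5) (nat_lit 76) (nat_lit 5) (nat_lit 73) (nat_lit 5) (nat_lit 375) (nat_lit 367) (nat_lit 278)) (XT.lf (nat_lit 0) (nat_lit 204706223506) (nat_lit 304) (nat_lit 29193480435) (nat_lit 76) (nat_lit 119038289990) (nat_lit 69) (nat_lit 5) (nat_lit 73) (nat_lit 5) (nat_lit 70) (nat_lit 5) (nat_lit 376) (nat_lit 367) (nat_lit 277)))) (XT.nd (nat_lit 78) (nat_lit 532) (nat_lit 0) (XT.lf (nat_lit 0) (nat_lit 356627077109) (nat_lit 228) (nat_lit 2224496738) (nat_lit 76) (nat_lit 25068152376) (nat_lit 67) (nat_lit 5) (nat_lit 70) (nat_lit 5) (nat_lit 68) (nat_lit 5) (nat_lit 377) (nat_lit 367) (nat_lit 276)) (XT.nd (nat_lit 78) (nat_lit 152) (nat_lit 0) (XT.lf (nat_lit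 0) (nat_lit 33057810815) (nat_lit 152) (nat_lit 92633209420) (nat_lit 228) (nat_lit 292082960256) (nat_lit 62) (nat_lit 5) (nat_lit 64) (nat_lit 5) (nat_lit 65) (nat_lit 5) (nat_lit 378) (nat_lit 367) (nat_lit 275)) (XT.lf (nat_lit 0) (nat_lit 80721834777) (nat_lit 152) (nat_lit 238012498987) (nat_lit 228) (nat_lit 136417077300) (nat_lit 60) (nat_lit 5) (nat_lit 62) (nat_lit 5) (nat_lit 63) (nat_lit 5) (nat_lit 379) (nat_lit 367) (nat_lit 274))))))) (XT.nd (nat_lit 780) (nat_lit 1368) (nat_lit 0) (XT.nd (nat_lit 390) (nat_lit 760) (nat_lit 0) (XT.nd (nat_lit 156) (nat_lit 380) (nat_lit 0) (XT.nd (nat_lit 78) (nat_lit 152) (nat_lit 0) (XT.lf (nat_lit 0) (nat_lit 60120907079) (nat_lit 152) (nat_lit 353321061826) (nat_lit 76) (nat_lit 83039273144) (nat_lit 58) (nat_lit 5) (nat_lit 60) (nat_lit 5) (nat_lit 59) (nat_lit 5) (nat_lit 380) (nat_lit 367) (nat_lit 273)) (XT.lf (nat_lit 0) (nat_lit 218200241906)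 (nat_lit 152) (nat_lit 83106209017) (nat_lit 228) (nat_lit 240561090705) (nat_lit 56) (nat_lit 5) (nat_lit 58) (nat_lit 5) (nat_lit 59) (nat_lit 5) (nat_lit 381) (nat_lit 367) (nat_lit 272))) (XT.nd (nat_lit 78) (nat_lit 228) (nat_lit 0) (XT.lf (nat_lit 0) (nat_lit 11222197344) (nat_lit 152) (nat_lit 280531370369) (nat_lit 76) (nat_lit 300270297483) (nat_lit 54) (nat_lit 5) (nat_lit 56) (nat_lit 5) (nat_lit 55) (nat_lit 5) (nat_lit 382) (nat_lit 367) (nat_lit 271)) (XT.nd (nat_lit 78) (nat_lit 76) (nat_lit 0) (XT.lf (nat_lit 0) (nat_lit 311890520562) (nat_lit 228) (nat_lit 225553917734) (nat_lit 76) (nat_lit 109730416370) (nat_lit 52) (nat_lit 5) (nat_lit 55) (nat_lit 5) (nat_lit 53) (nat_lit 4) (nat_lit 383) (nat_lit 367) (nat_lit 270)) (XT.lf (nat_lit 0) (nat_lit 555653549174) (nat_lit 76) (nat_lit 131817555330) (nat_lit 152) (nat_lit 20742427080) (nat_lit 51) (nat_lit 5) (nat_lit 52) (nat_lit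 5) (nat_lit 53) (nat_lit 4) (nat_lit 384) (nat_lit 367) (nat_lit 269))))) (XT.nd (nat_lit 156) (nat_lit 380) (nat_lit 0) (XT.nd (nat_lit 78) (nat_lit 152) (nat_lit 0) (XT.lf (nat_lit 0) (nat_lit 356797038738) (nat_lit 228) (nat_lit 67386674815) (nat_lit 76) (nat_lit 350938367910) (nat_lit 48) (nat_lit 5) (nat_lit 51) (nat_lit 5) (nat_lit 49) (nat_lit 4) (nat_lit 385) (nat_lit 367) (nat_lit 268)) (XT.lf (nat_lit 0) (nat_lit 45876053127) (nat_lit 76) (nat_lit 776546464821) (nat_lit 76) (nat_lit 26986632602) (nat_lit 46) (nat_lit 4) (nat_lit 47) (nat_lit 5) (nat_lit 47) (nat_lit 4) (nat_lit 386) (nat_lit 367) (nat_lit 267))) (XT.nd (nat_lit 78) (nat_lit 228) (nat_lit 0) (XT.lf (nat_lit 0) (nat_lit 176466962698) (nat_lit 76) (nat_lit 268738267192) (nat_lit 152) (nat_lit 485354856836) (nat_lit 44) (nat_lit 5) (nat_lit 45) (nat_lit 5) (nat_lit 46) (nat_lit 4) (nat_lit 387) (nat_lit 367) (nat_lit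 266)) (XT.nd (nat_lit 78) (nat_lit 76) (nat_lit 0) (XT.lf (nat_lit 0) (nat_lit 5453570344) (nat_lit 152) (nat_lit 682693599491) (nat_lit 76) (nat_lit 332488603955) (nat_lit 42) (nat_lit 5) (nat_lit 44) (nat_lit 5) (nat_lit 43) (nat_lit 4) (nat_lit 388) (nat_lit 367) (nat_lit 265)) (XT.lf (nat_lit 0) (nat_lit 521650131359) (nat_lit 76) (nat_lit 62814876071) (nat_lit 152) (nat_lit 535283663348) (nat_lit 41) (nat_lit 5) (nat_lit 42) (nat_lit 5) (nat_lit 43) (nat_lit 4) (nat_lit 389) (nat_lit 367) (nat_lit 264)))))) (XT.nd (nat_lit 390) (nat_lit 684) (nat_lit 0) (XT.nd (nat_lit 156) (nat_lit 456) (nat_lit 0) (XT.nd (nat_lit 78) (nat_lit 76) (nat_lit 0) (XT.lf (nat_lit 0) (nat_lit 71055480889) (nat_lit 152) (nat_lit 494831576401) (nat_lit 76) (nat_lit 663386610836) (nat_lit 39) (nat_lit 5) (nat_lit 41) (nat_lit 5) (nat_lit 40) (nat_lit 4) (nat_lit 390) (nat_lit 367) (nat_lit 263)) (XT.lf (nat_lit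 0) (nat_lit 785579904882) (nat_lit 152) (nat_lit 374066009795) (nat_lit 0) (nat_lit 190554888712) (nat_lit 38) (nat_lit 5) (nat_lit 40) (nat_lit 4) (nat_lit 38) (nat_lit 4) (nat_lit 391) (nat_lit 367) (nat_lit 262))) (XT.nd (nat_lit 78) (nat_lit 304) (nat_lit 0) (XT.lf (nat_lit 0) (nat_lit 174336262820) (nat_lit 152) (nat_lit 232405622361) (nat_lit 76) (nat_lit 1077320147442) (nat_lit 36) (nat_lit 5) (nat_lit 38) (nat_lit 5) (nat_lit 37) (nat_lit 4) (nat_lit 392) (nat_lit 367) (nat_lit 261)) (XT.nd (nat_lit 78) (nat_lit 228) (nat_lit 0) (XT.lf (nat_lit 0) (nat_lit 1053289744270) (nat_lit 152) (nat_lit 76192097094) (nat_lit 0) (nat_lit 502340598343) (nat_lit 35) (nat_lit 5) (nat_lit 37) (nat_lit 4) (nat_lit 35) (nat_lit 4) (nat_lit 393) (nat_lit 367) (nat_lit 260)) (XT.lf (nat_lit 0) (nat_lit 109694558586) (nat_lit 76) (nat_lit 207922618105) (nat_lit 152) (nat_lit 1478152900737) (nat_lit 32)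 (nat_lit 5) (nat_lit 33) (nat_lit 5) (nat_lit 34) (nat_lit 4) (nat_lit 394) (nat_lit 367) (nat_lit 259))))) (XT.nd (nat_lit 234) (nat_lit 380) (nat_lit 0) (XT.nd (nat_lit 78) (nat_lit 228) (nat_lit 0) (XT.lf (nat_lit 0) (nat_lit 305789767599) (nat_lit 76) (nat_lit 1090436355238) (nat_lit 76) (nat_lit 580298217332) (nat_lit 31) (nat_lit 4) (nat_lit 32) (nat_lit 5) (nat_lit 32) (nat_lit 4) (nat_lit 395) (nat_lit 367) (nat_lit 258)) (XT.nd (nat_lit 78) (nat_lit 76) (nat_lit 0) (XT.lf (nat_lit 0) (nat_lit 499064793558) (nat_lit 152) (nat_lit 1652185978666) (nat_lit 0) (nat_lit 26714650953) (nat_lit 29) (nat_lit 5) (nat_lit 31) (nat_lit 4) (nat_lit 29) (nat_lit 4) (nat_lit 396) (nat_lit 367) (nat_lit 257)) (XT.lf (nat_lit 0) (nat_lit 736589043587) (nat_lit 76) (nat_lit 1068138756123) (nat_lit 76) (nat_lit 595788600549) (nat_lit 28) (nat_lit 4) (nat_lit 29) (nat_lit 5) (nat_lit 29) (nat_lit 4) (nat_lit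 397) (nat_lit 367) (nat_lit 256)))) (XT.nd (nat_lit 78) (nat_lit 228) (nat_lit 0) (XT.lf (nat_lit 0) (nat_lit 696338046656) (nat_lit 152) (nat_lit 1693560762305) (nat_lit 0) (nat_lit 258976781053) (nat_lit 26) (nat_lit 5) (nat_lit 28) (nat_lit 4) (nat_lit 26) (nat_lit 4) (nat_lit 398) (nat_lit 367) (nat_lit 255)) (XT.nd (nat_lit 78) (nat_lit 152) (nat_lit 0) (XT.lf (nat_lit 0) (nat_lit 1147728023679) (nat_lit 76) (nat_lit 1107127968094) (nat_lit 76) (nat_lit 669766693411) (nat_lit 25) (nat_lit 4) (nat_lit 26) (nat_lit 5) (nat_lit 26) (nat_lit 4) (nat_lit 399) (nat_lit 367) (nat_lit 254)) (XT.lf (nat_lit 0) (nat_lit 859094958568) (nat_lit 152) (nat_lit 1919439206086) (nat_lit 0) (nat_lit 454130808033) (nat_lit 23) (nat_lit 5) (nat_lit 25) (nat_lit 4) (nat_lit 23) (nat_lit 4) (nat_lit 400) (nat_lit 367) (nat_lit 253))))))))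
noncomputable def xc93 : XT := (XT.nd (nat_lit 1638) (nat_lit 152) (nat_lit 0) (XT.nd (nat_lit 780) (nat_lit 532) (nat_lit 0) (XT.nd (nat_lit 390) (nat_lit 380) (nat_lit 0) (XT.nd (nat_lit 156) (nat_lit 304) (nat_lit 0) (XT.nd (nat_lit 78) (nat_lit 152) (nat_lit 0) (XT.lf (nat_lit 0) (nat_lit 1411829696515) (nat_lit 76) (nat_lit 1284577029161) (nat_lit 76) (nat_lit 879612872269) (nat_lit 22) (nat_lit 4) (nat_lit 23) (nat_lit 5) (nat_lit 23) (nat_lit 4) (nat_lit 401) (nat_lit 367) (nat_lit 252)) (XT.lf (nat_lit 0) (nat_lit 901878050478) (nat_lit 152) (nat_lit 2532044395783) (nat_lit 0) (nat_lit 526911233423) (nat_lit 20) (nat_lit 5) (nat_lit 22) (nat_lit 4) (nat_lit 20) (nat_lit 4) (nat_lit 402) (nat_lit 367) (nat_lit 251))) (XT.nd (nat_lit 78) (nat_lit 228) (nat_lit 0) (XT.lf (nat_lit 0) (nat_lit 1296822370173) (nat_lit 76) (nat_lit 1734529589183) (nat_lit 76) (nat_lit 1359562767677) (nat_lit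 19) (nat_lit 4) (nat_lit 20) (nat_lit 5) (nat_lit 20) (nat_lit 4) (nat_lit 403) (nat_lit 367) (nat_lit 250)) (XT.nd (nat_lit 78) (nat_lit 76) (nat_lit 0) (XT.lf (nat_lit 0) (nat_lit 673112472987) (nat_lit 152) (nat_lit 3876680235101) (nat_lit 0) (nat_lit 325920968009) (nat_lit 17) (nat_lit 5) (nat_lit 19) (nat_lit 4) (nat_lit 17) (nat_lit 4) (nat_lit 404) (nat_lit 367) (nat_lit 249)) (XT.lf (nat_lit 0) (nat_lit 399542913728) (nat_lit 76) (nat_lit 2682936336672) (nat_lit 76) (nat_lit 2335744828577) (nat_lit 16) (nat_lit 4) (nat_lit 17) (nat_lit 5) (nat_lit 17) (nat_lit 4) (nat_lit 405) (nat_lit 367) (nat_lit 248))))) (XT.nd (nat_lit 156) (nat_lit 228) (nat_lit 0) (XT.nd (nat_lit 78) (nat_lit 152) (nat_lit 0) (XT.lf (nat_lit 0) (nat_lit 5551959427214) (nat_lit 76) (nat_lit 414156949643) (nat_lit 76) (nat_lit 66965438839) (nat_lit 16) (nat_lit 4) (nat_lit 17) (nat_lit 5) (nat_lit 17) (nat_lit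 4) (nat_lit 406) (nat_lit 367) (nat_lit 247)) (XT.lf (nat_lit 0) (nat_lit 2590792266719) (nat_lit 152) (nat_lit 1861099911025) (nat_lit 0) (nat_lit 2269318643422) (nat_lit 14) (nat_lit 5) (nat_lit 16) (nat_lit 4) (nat_lit 14) (nat_lit 4) (nat_lit 407) (nat_lit 367) (nat_lit 246))) (XT.nd (nat_lit 78) (nat_lit 152) (nat_lit 0) (XT.lf (nat_lit 0) (nat_lit 3691204361848) (nat_lit 76) (nat_lit 2066756165884) (nat_lit 76) (nat_lit 1745282540691) (nat_lit 13) (nat_lit 4) (nat_lit 14) (nat_lit 5) (nat_lit 14) (nat_lit 4) (nat_lit 408) (nat_lit 367) (nat_lit 245)) (XT.nd (nat_lit 78) (nat_lit 0) (nat_lit 0) (XT.lf (nat_lit 0) (nat_lit 1067493335290) (nat_lit 152) (nat_lit 6553752845786) (nat_lit 0) (nat_lit 769832569694) (nat_lit 11) (nat_lit 5) (nat_lit 13) (nat_lit 4) (nat_lit 11) (nat_lit 4) (nat_lit 409) (nat_lit 367) (nat_lit 244)) (XT.lf (nat_lit 0) (nat_lit 4372811002830) (nat_lit 152) (nat_lit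 946584736605) (nat_lit 0) (nat_lit 4075150235906) (nat_lit 11) (nat_lit 5) (nat_lit 13) (nat_lit 4) (nat_lit 11) (nat_lit 4) (nat_lit 410) (nat_lit 367) (nat_lit 243)))))) (XT.nd (nat_lit 390) (nat_lit 228) (nat_lit 0) (XT.nd (nat_lit 156) (nat_lit 76) (nat_lit 0) (XT.nd (nat_lit 78) (nat_lit 152) (nat_lit 0) (XT.lf (nat_lit 0) (nat_lit 5791366122598) (nat_lit 76) (nat_lit 2521842665823) (nat_lit 76) (nat_lit 2224181897744) (nat_lit 10) (nat_lit 4) (nat_lit 11) (nat_lit 5) (nat_lit 11) (nat_lit 4) (nat_lit 411) (nat_lit 367) (nat_lit 242)) (XT.lf (nat_lit 0) (nat_lit 1034442807068) (nat_lit 152) (nat_lit 10049188750226) (nat_lit 0) (nat_lit 758830983843) (nat_lit 8) (nat_lit 5) (nat_lit 10) (nat_lit 4) (nat_lit 8) (nat_lit 4) (nat_lit 412) (nat_lit 367) (nat_lit 241))) (XT.nd (nat_lit 78) (nat_lit 76) (nat_lit 0) (XT.lf (nat_lit 0) (nat_lit 4865421523021) (nat_lit 152) (nat_lit 3866221740168)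 (nat_lit 0) (nat_lit 4589809698987) (nat_lit 8) (nat_lit 5) (nat_lit 10) (nat_lit 4) (nat_lit 8) (nat_lit 4) (nat_lit 413) (nat_lit 367) (nat_lit 240)) (XT.nd (nat_lit 78) (nat_lit 0) (nat_lit 0) (XT.lf (nat_lit 0) (nat_lit 3415023590119) (nat_lit 76) (nat_lit 5938154835331) (nat_lit 76) (nat_lit 5662543010594) (nat_lit 7) (nat_lit 4) (nat_lit 8) (nat_lit 5) (nat_lit 8) (nat_lit 4) (nat_lit 414) (nat_lit 367) (nat_lit 239)) (XT.lf (nat_lit 0) (nat_lit 12022582324438) (nat_lit 76) (nat_lit 2604077406253) (nat_lit 76) (nat_lit 2328465580905) (nat_lit 7) (nat_lit 4) (nat_lit 8) (nat_lit 5) (nat_lit 8) (nat_lit 4) (nat_lit 415) (nat_lit 367) (nat_lit 238))))) (XT.nd (nat_lit 234) (nat_lit 76) (nat_lit 0) (XT.nd (nat_lit 78) (nat_lit 0) (nat_lit 0) (XT.lf (nat_lit 0) (nat_lit 1531045925837) (nat_lit 152) (nat_lit 16367595449165) (nat_lit 0) (nat_lit 1275849790763) (nat_lit 5) (nat_lit 5) (nat_lit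 7) (nat_lit 4) (nat_lit 5) (nat_lit 4) (nat_lit 416) (nat_lit 367) (nat_lit 237)) (XT.nd (nat_lit 78) (nat_lit 0) (nat_lit 0) (XT.lf (nat_lit 0) (nat_lit 6054891014964) (nat_lit 152) (nat_lit 9849475393386) (nat_lit 0) (nat_lit 5799694879462) (nat_lit 5) (nat_lit 5) (nat_lit 7) (nat_lit 4) (nat_lit 5) (nat_lit 4) (nat_lit 417) (nat_lit 367) (nat_lit 236)) (XT.lf (nat_lit 0) (nat_lit 11257312853872) (nat_lit 152) (nat_lit 2353637357384) (nat_lit 0) (nat_lit 11002116717998) (nat_lit 5) (nat_lit 5) (nat_lit 7) (nat_lit 4) (nat_lit 5) (nat_lit 4) (nat_lit 418) (nat_lit 367) (nat_lit 235)))) (XT.nd (nat_lit 78) (nat_lit 0) (nat_lit 0) (XT.lf (nat_lit 0) (nat_lit 6596563165314) (nat_lit 76) (nat_lit 10802182294260) (nat_lit 76) (nat_lit 10546986158061) (nat_lit 4) (nat_lit 4) (nat_lit 5) (nat_lit 5) (nat_lit 5) (nat_lit 4) (nat_lit 419) (nat_lit 367) (nat_lit 234)) (XT.nd (nat_lit 78) (nat_lit 0)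 (nat_lit 0) (XT.lf (nat_lit 0) (nat_lit 17031822872091) (nat_lit 76) (nat_lit 7498093692493) (nat_lit 76) (nat_lit 7242897556014) (nat_lit 4) (nat_lit 4) (nat_lit 5) (nat_lit 5) (nat_lit 5) (nat_lit 4) (nat_lit 420) (nat_lit 367) (nat_lit 233)) (XT.lf (nat_lit 0) (nat_lit 29032371515405) (nat_lit 76) (nat_lit 3698391810538) (nat_lit 76) (nat_lit 3443195673814) (nat_lit 4) (nat_lit 4) (nat_lit 5) (nat_lit 5) (nat_lit 5) (nat_lit 4) (nat_lit 421) (nat_lit 367) (nat_lit 232))))))) (XT.nd (nat_lit 49452) (nat_lit 0) (nat_lit 3724) (XT.nd (nat_lit 49062) (nat_lit 0) (nat_lit 5852) (XT.nd (nat_lit 156) (nat_lit 0) (nat_lit 0) (XT.nd (nat_lit 78) (nat_lit 0) (nat_lit 0) (XT.lf (nat_lit 0) (nat_lit 937759472159) (nat_lit 152) (nat_lit 39589655405175) (nat_lit 0) (nat_lit 701466752773) (nat_lit 2) (nat_lit 5) (nat_lit 4) (nat_lit 4) (nat_lit 2) (nat_lit 4) (nat_lit 422) (nat_lit 367) (nat_lit 231))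 (XT.lf (nat_lit 0) (nat_lit 6093387420055) (nat_lit 152) (nat_lit 35058693431167) (nat_lit 0) (nat_lit 5857094700497) (nat_lit 2) (nat_lit 5) (nat_lit 4) (nat_lit 4) (nat_lit 2) (nat_lit 4) (nat_lit 423) (nat_lit 367) (nat_lit 230))) (XT.nd (nat_lit 48750) (nat_lit 0) (nat_lit 6384) (XT.lf (nat_lit 0) (nat_lit 12022359553288) (nat_lit 152) (nat_lit 29848087175254) (nat_lit 0) (nat_lit 11786066833581) (nat_lit 2) (nat_lit 5) (nat_lit 4) (nat_lit 4) (nat_lit 2) (nat_lit 4) (nat_lit 424) (nat_lit 367) (nat_lit 229)) (XT.nd (nat_lit 78) (nat_lit 532) (nat_lit 0) (XT.lf (nat_lit 0) (nat_lit 100282059227) (nat_lit 532) (nat_lit 672528044) (nat_lit 532) (nat_lit 672528044) (nat_lit 93) (nat_lit 3) (nat_lit 100) (nat_lit 3) (nat_lit 100) (nat_lit 5) (nat_lit 368) (nat_lit 368) (nat_lit 284)) (XT.lf (nat_lit 0) (nat_lit 2150202880) (nat_lit 532) (nat_lit 19803853301) (nat_lit 608) (nat_lit 196158012547)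 (nat_lit 86) (nat_lit 5) (nat_lit 93) (nat_lit 3) (nat_lit 94) (nat_lit 5) (nat_lit 369) (nat_lit 368) (nat_lit 283))))) (XT.nd (nat_lit 156) (nat_lit 608) (nat_lit 0) (XT.nd (nat_lit 78) (nat_lit 0) (nat_lit 76) (XT.lf (nat_lit 0) (nat_lit 17059294549) (nat_lit 532) (nat_lit 36509919851) (nat_lit 608) (nat_lit 180863617235) (nat_lit 87) (nat_lit 5) (nat_lit 94) (nat_lit 5) (nat_lit 95) (nat_lit 5) (nat_lit 370) (nat_lit 368) (nat_lit 282)) (XT.lf (nat_lit 0) (nat_lit 44342809509) (nat_lit 532) (nat_lit 50657325750) (nat_lit 608) (nat_lit 157390529009) (nat_lit 88) (nat_lit 5) (nat_lit 95) (nat_lit 5) (nat_lit 96) (nat_lit 5) (nat_lit 371) (nat_lit 368) (nat_lit 281))) (XT.nd (nat_lit 78) (nat_lit 760) (nat_lit 0) (XT.lf (nat_lit 0) (nat_lit 86585485729) (nat_lit 532) (nat_lit 61397353358) (nat_lit 76) (nat_lit 124190002029) (nat_lit 89) (nat_lit 5) (nat_lit 96) (nat_lit 5) (nat_lit 90) (nat_lit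 5) (nat_lit 372) (nat_lit 368) (nat_lit 280)) (XT.nd (nat_lit 78) (nat_lit 228) (nat_lit 0) (XT.lf (nat_lit 0) (nat_lit 146810789241) (nat_lit 608) (nat_lit 67715023272) (nat_lit 76) (nat_lit 79464833951) (nat_lit 82) (nat_lit 5) (nat_lit 90) (nat_lit 5) (nat_lit 83) (nat_lit 5) (nat_lit 373) (nat_lit 368) (nat_lit 279)) (XT.lf (nat_lit 0) (nat_lit 228550065677) (nat_lit 304) (nat_lit 68401631970) (nat_lit 76) (nat_lit 21131010810) (nat_lit 79) (nat_lit 5) (nat_lit 83) (nat_lit 5) (nat_lit 80) (nat_lit 5) (nat_lit 374) (nat_lit 368) (nat_lit 278)))))) (XT.nd (nat_lit 390) (nat_lit 836) (nat_lit 0) (XT.nd (nat_lit 156) (nat_lit 760) (nat_lit 0) (XT.nd (nat_lit 78) (nat_lit 304) (nat_lit 0) (XT.lf (nat_lit 0) (nat_lit 281240352295) (nat_lit 228) (nat_lit 56029358247) (nat_lit 304) (nat_lit 7341311077) (nat_lit 76) (nat_lit 5) (nat_lit 79) (nat_lit 5) (nat_lit 80) (nat_lit 5) (nat_lit 375) (nat_lit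 368) (nat_lit 277)) (XT.lf (nat_lit 0) (nat_lit 98345314025) (nat_lit 304) (nat_lit 53080207028) (nat_lit 76) (nat_lit 222283118597) (nat_lit 72) (nat_lit 5) (nat_lit 76) (nat_lit 5) (nat_lit 73) (nat_lit 5) (nat_lit 376) (nat_lit 368) (nat_lit 276))) (XT.nd (nat_lit 78) (nat_lit 532) (nat_lit 0) (XT.lf (nat_lit 0) (nat_lit 235414664908) (nat_lit 304) (nat_lit 33569029649) (nat_lit 76) (nat_lit 136894797612) (nat_lit 69) (nat_lit 5) (nat_lit 73) (nat_lit 5) (nat_lit 70) (nat_lit 5) (nat_lit 377) (nat_lit 368) (nat_lit 275)) (XT.nd (nat_lit 78) (nat_lit 380) (nat_lit 0) (XT.lf (nat_lit 0) (nat_lit 410123418056) (nat_lit 228) (nat_lit 2554833752) (nat_lit 76) (nat_lit 28829250804) (nat_lit 67) (nat_lit 5) (nat_lit 70) (nat_lit 5) (nat_lit 68) (nat_lit 5) (nat_lit 378) (nat_lit 368) (nat_lit 274)) (XT.lf (nat_lit 0) (nat_lit 38019815374) (nat_lit 152) (nat_lit 106527047146) (nat_lit 228) (nat_lit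 335893039749) (nat_lit 62) (nat_lit 5) (nat_lit 64) (nat_lit 5) (nat_lit 65) (nat_lit 5) (nat_lit 379) (nat_lit 368) (nat_lit 273))))) (XT.nd (nat_lit 234) (nat_lit 380) (nat_lit 0) (XT.nd (nat_lit 78) (nat_lit 304) (nat_lit 0) (XT.lf (nat_lit 0) (nat_lit 92833296095) (nat_lit 152) (nat_lit 273713191974) (nat_lit 228) (nat_lit 156877474181) (nat_lit 60) (nat_lit 5) (nat_lit 62) (nat_lit 5) (nat_lit 63) (nat_lit 5) (nat_lit 380) (nat_lit 368) (nat_lit 272)) (XT.nd (nat_lit 78) (nat_lit 152) (nat_lit 0) (XT.lf (nat_lit 0) (nat_lit 69140931640) (nat_lit 152) (nat_lit 406316084259) (nat_lit 76) (nat_lit 95496261268) (nat_lit 58) (nat_lit 5) (nat_lit 60) (nat_lit 5) (nat_lit 59) (nat_lit 5) (nat_lit 381) (nat_lit 368) (nat_lit 271)) (XT.lf (nat_lit 0) (nat_lit 250933149515) (nat_lit 152) (nat_lit 95570980275) (nat_lit 228) (nat_lit 276643406090) (nat_lit 56) (nat_lit 5) (nat_lit 58) (nat_lit 5)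 (nat_lit 59) (nat_lit 5) (nat_lit 382) (nat_lit 368) (nat_lit 270)))) (XT.nd (nat_lit 78) (nat_lit 228) (nat_lit 0) (XT.lf (nat_lit 0) (nat_lit 12907145907) (nat_lit 152) (nat_lit 322608262458) (nat_lit 76) (nat_lit 345311907018) (nat_lit 54) (nat_lit 5) (nat_lit 56) (nat_lit 5) (nat_lit 55) (nat_lit 5) (nat_lit 383) (nat_lit 368) (nat_lit 269)) (XT.nd (nat_lit 78) (nat_lit 76) (nat_lit 0) (XT.lf (nat_lit 0) (nat_lit 358675594964) (nat_lit 228) (nat_lit 259384339020) (nat_lit 76) (nat_lit 126191029111) (nat_lit 52) (nat_lit 5) (nat_lit 55) (nat_lit 5) (nat_lit 53) (nat_lit 4) (nat_lit 384) (nat_lit 368) (nat_lit 268)) (XT.lf (nat_lit 0) (nat_lit 639004022229) (nat_lit 76) (nat_lit 151589107794) (nat_lit 152) (nat_lit 23852322452) (nat_lit 51) (nat_lit 5) (nat_lit 52) (nat_lit 5) (nat_lit 53) (nat_lit 4) (nat_lit 385) (nat_lit 368) (nat_lit 267))))))))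
noncomputable def xc94 : XT := (XT.nd (nat_lit 1638) (nat_lit 1064) (nat_lit 0) (XT.nd (nat_lit 780) (nat_lit 1216) (nat_lit 0) (XT.nd (nat_lit 390) (nat_lit 684) (nat_lit 0) (XT.nd (nat_lit 156) (nat_lit 380) (nat_lit 0) (XT.nd (nat_lit 78) (nat_lit 152) (nat_lit 0) (XT.lf (nat_lit 0) (nat_lit 410317887971) (nat_lit 228) (nat_lit 77492297956) (nat_lit 76) (nat_lit 403580104237) (nat_lit 48) (nat_lit 5) (nat_lit 51) (nat_lit 5) (nat_lit 49) (nat_lit 4) (nat_lit 386) (nat_lit 368) (nat_lit 266)) (XT.lf (nat_lit 0) (nat_lit 52759826368) (nat_lit 76) (nat_lit 893027327267) (nat_lit 76) (nat_lit 31033268818) (nat_lit 46) (nat_lit 4) (nat_lit 47) (nat_lit 5) (nat_lit 47) (nat_lit 4) (nat_lit 387) (nat_lit 368) (nat_lit 265))) (XT.nd (nat_lit 78) (nat_lit 228) (nat_lit 0) (XT.lf (nat_lit 0) (nat_lit 202939234414) (nat_lit 76) (nat_lit 309047955882) (nat_lit 152) (nat_lit 558156815334) (nat_lit 44)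 (nat_lit 5) (nat_lit 45) (nat_lit 5) (nat_lit 46) (nat_lit 4) (nat_lit 388) (nat_lit 368) (nat_lit 264)) (XT.nd (nat_lit 78) (nat_lit 76) (nat_lit 0) (XT.lf (nat_lit 0) (nat_lit 6272729442) (nat_lit 152) (nat_lit 785095478449) (nat_lit 76) (nat_lit 382362842057) (nat_lit 42) (nat_lit 5) (nat_lit 44) (nat_lit 5) (nat_lit 43) (nat_lit 4) (nat_lit 389) (nat_lit 368) (nat_lit 263)) (XT.lf (nat_lit 0) (nat_lit 599899629113) (nat_lit 76) (nat_lit 72236154001) (nat_lit 152) (nat_lit 615575106293) (nat_lit 41) (nat_lit 5) (nat_lit 42) (nat_lit 5) (nat_lit 43) (nat_lit 4) (nat_lit 390) (nat_lit 368) (nat_lit 262))))) (XT.nd (nat_lit 156) (nat_lit 456) (nat_lit 0) (XT.nd (nat_lit 78) (nat_lit 76) (nat_lit 0) (XT.lf (nat_lit 0) (nat_lit 81714783581) (nat_lit 152) (nat_lit 569054396532) (nat_lit 76) (nat_lit 762895459769) (nat_lit 39) (nat_lit 5) (nat_lit 41) (nat_lit 5) (nat_lit 40) (nat_lit 4) (nat_lit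 391) (nat_lit 368) (nat_lit 261)) (XT.lf (nat_lit 0) (nat_lit 903417806126) (nat_lit 152) (nat_lit 430174106205) (nat_lit 0) (nat_lit 219138938310) (nat_lit 38) (nat_lit 5) (nat_lit 40) (nat_lit 4) (nat_lit 38) (nat_lit 4) (nat_lit 392) (nat_lit 368) (nat_lit 260))) (XT.nd (nat_lit 78) (nat_lit 304) (nat_lit 0) (XT.lf (nat_lit 0) (nat_lit 200487559800) (nat_lit 152) (nat_lit 267264768275) (nat_lit 76) (nat_lit 1238918940824) (nat_lit 36) (nat_lit 5) (nat_lit 38) (nat_lit 5) (nat_lit 37) (nat_lit 4) (nat_lit 393) (nat_lit 368) (nat_lit 259)) (XT.nd (nat_lit 78) (nat_lit 228) (nat_lit 0) (XT.lf (nat_lit 0) (nat_lit 1211284007516) (nat_lit 152) (nat_lit 87619313776) (nat_lit 0) (nat_lit 577692420232) (nat_lit 35) (nat_lit 5) (nat_lit 37) (nat_lit 4) (nat_lit 35) (nat_lit 4) (nat_lit 394) (nat_lit 368) (nat_lit 258)) (XT.lf (nat_lit 0) (nat_lit 126150323675) (nat_lit 76) (nat_lit 239110218803)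 (nat_lit 152) (nat_lit 1699874983414) (nat_lit 32) (nat_lit 5) (nat_lit 33) (nat_lit 5) (nat_lit 34) (nat_lit 4) (nat_lit 395) (nat_lit 368) (nat_lit 257)))))) (XT.nd (nat_lit 390) (nat_lit 684) (nat_lit 0) (XT.nd (nat_lit 156) (nat_lit 304) (nat_lit 0) (XT.nd (nat_lit 78) (nat_lit 152) (nat_lit 0) (XT.lf (nat_lit 0) (nat_lit 351659720561) (nat_lit 76) (nat_lit 1254001059380) (nat_lit 76) (nat_lit 667342152152) (nat_lit 31) (nat_lit 4) (nat_lit 32) (nat_lit 5) (nat_lit 32) (nat_lit 4) (nat_lit 396) (nat_lit 368) (nat_lit 256)) (XT.lf (nat_lit 0) (nat_lit 573925222217) (nat_lit 152) (nat_lit 1900012438600) (nat_lit 0) (nat_lit 30722519062) (nat_lit 29) (nat_lit 5) (nat_lit 31) (nat_lit 4) (nat_lit 29) (nat_lit 4) (nat_lit 397) (nat_lit 368) (nat_lit 255))) (XT.nd (nat_lit 78) (nat_lit 228) (nat_lit 0) (XT.lf (nat_lit 0) (nat_lit 847078715369) (nat_lit 76) (nat_lit 1228358902995) (nat_lit 76)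 (nat_lit 685156190033) (nat_lit 28) (nat_lit 4) (nat_lit 29) (nat_lit 5) (nat_lit 29) (nat_lit 4) (nat_lit 398) (nat_lit 368) (nat_lit 254)) (XT.nd (nat_lit 78) (nat_lit 76) (nat_lit 0) (XT.lf (nat_lit 0) (nat_lit 800789377212) (nat_lit 152) (nat_lit 1947593607062) (nat_lit 0) (nat_lit 297823894353) (nat_lit 26) (nat_lit 5) (nat_lit 28) (nat_lit 4) (nat_lit 26) (nat_lit 4) (nat_lit 399) (nat_lit 368) (nat_lit 253)) (XT.lf (nat_lit 0) (nat_lit 1319888389355) (nat_lit 76) (nat_lit 1273196571357) (nat_lit 76) (nat_lit 770231081632) (nat_lit 25) (nat_lit 4) (nat_lit 26) (nat_lit 5) (nat_lit 26) (nat_lit 4) (nat_lit 400) (nat_lit 368) (nat_lit 252))))) (XT.nd (nat_lit 234) (nat_lit 304) (nat_lit 0) (XT.nd (nat_lit 78) (nat_lit 228) (nat_lit 0) (XT.lf (nat_lit 0) (nat_lit 987959750695) (nat_lit 152) (nat_lit 2207353965640) (nat_lit 0) (nat_lit 522250958385) (nat_lit 23) (nat_lit 5) (nat_lit 25)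 (nat_lit 4) (nat_lit 23) (nat_lit 4) (nat_lit 401) (nat_lit 368) (nat_lit 251)) (XT.nd (nat_lit 78) (nat_lit 152) (nat_lit 0) (XT.lf (nat_lit 0) (nat_lit 1623605177434) (nat_lit 76) (nat_lit 1477263058599) (nat_lit 76) (nat_lit 1011554261481) (nat_lit 22) (nat_lit 4) (nat_lit 23) (nat_lit 5) (nat_lit 23) (nat_lit 4) (nat_lit 402) (nat_lit 368) (nat_lit 250)) (XT.lf (nat_lit 0) (nat_lit 1037160240538) (nat_lit 152) (nat_lit 2911850065013) (nat_lit 0) (nat_lit 605948387485) (nat_lit 20) (nat_lit 5) (nat_lit 22) (nat_lit 4) (nat_lit 20) (nat_lit 4) (nat_lit 403) (nat_lit 368) (nat_lit 249)))) (XT.nd (nat_lit 78) (nat_lit 228) (nat_lit 0) (XT.lf (nat_lit 0) (nat_lit 1491346632028) (nat_lit 76) (nat_lit 1994708562585) (nat_lit 76) (nat_lit 1563496706166) (nat_lit 19) (nat_lit 4) (nat_lit 20) (nat_lit 5) (nat_lit 20) (nat_lit 4) (nat_lit 404) (nat_lit 368) (nat_lit 248)) (XT.nd (nat_lit 78) (nat_lit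 76) (nat_lit 0) (XT.lf (nat_lit 0) (nat_lit 774079768682) (nat_lit 152) (nat_lit 4458181396301) (nat_lit 0) (nat_lit 374809528547) (nat_lit 17) (nat_lit 5) (nat_lit 19) (nat_lit 4) (nat_lit 17) (nat_lit 4) (nat_lit 405) (nat_lit 368) (nat_lit 247)) (XT.lf (nat_lit 0) (nat_lit 459475150867) (nat_lit 76) (nat_lit 3085376375679) (nat_lit 76) (nat_lit 2686106133189) (nat_lit 16) (nat_lit 4) (nat_lit 17) (nat_lit 5) (nat_lit 17) (nat_lit 4) (nat_lit 406) (nat_lit 368) (nat_lit 246))))))) (XT.nd (nat_lit 780) (nat_lit 380) (nat_lit 0) (XT.nd (nat_lit 390) (nat_lit 304) (nat_lit 0) (XT.nd (nat_lit 156) (nat_lit 228) (nat_lit 0) (XT.nd (nat_lit 78) (nat_lit 152) (nat_lit 0) (XT.lf (nat_lit 0) (nat_lit 6384754037017) (nat_lit 76) (nat_lit 476280134269) (nat_lit 76) (nat_lit 77009889730) (nat_lit 16) (nat_lit 4) (nat_lit 17) (nat_lit 5) (nat_lit 17) (nat_lit 4) (nat_lit 407) (nat_lit 368) (nat_lit 245))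 (XT.lf (nat_lit 0) (nat_lit 2979411431994) (nat_lit 152) (nat_lit 2140264226850) (nat_lit 0) (nat_lit 2609716759475) (nat_lit 14) (nat_lit 5) (nat_lit 16) (nat_lit 4) (nat_lit 14) (nat_lit 4) (nat_lit 408) (nat_lit 368) (nat_lit 244))) (XT.nd (nat_lit 78) (nat_lit 152) (nat_lit 0) (XT.lf (nat_lit 0) (nat_lit 4244885630171) (nat_lit 76) (nat_lit 2376769274330) (nat_lit 76) (nat_lit 2007074600376) (nat_lit 13) (nat_lit 4) (nat_lit 14) (nat_lit 5) (nat_lit 14) (nat_lit 4) (nat_lit 409) (nat_lit 368) (nat_lit 243)) (XT.nd (nat_lit 78) (nat_lit 0) (nat_lit 0) (XT.lf (nat_lit 0) (nat_lit 1227617622121) (nat_lit 152) (nat_lit 7536815180666) (nat_lit 0) (nat_lit 885307737675) (nat_lit 11) (nat_lit 5) (nat_lit 13) (nat_lit 4) (nat_lit 11) (nat_lit 4) (nat_lit 410) (nat_lit 368) (nat_lit 242)) (XT.lf (nat_lit 0) (nat_lit 5028732902418) (nat_lit 152) (nat_lit 1088571932323) (nat_lit 0) (nat_lit 4686423016968)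 (nat_lit 11) (nat_lit 5) (nat_lit 13) (nat_lit 4) (nat_lit 11) (nat_lit 4) (nat_lit 411) (nat_lit 368) (nat_lit 241))))) (XT.nd (nat_lit 156) (nat_lit 76) (nat_lit 0) (XT.nd (nat_lit 78) (nat_lit 152) (nat_lit 0) (XT.lf (nat_lit 0) (nat_lit 6660071512187) (nat_lit 76) (nat_lit 2900118822493) (nat_lit 76) (nat_lit 2557808936169) (nat_lit 10) (nat_lit 4) (nat_lit 11) (nat_lit 5) (nat_lit 11) (nat_lit 4) (nat_lit 412) (nat_lit 368) (nat_lit 240)) (XT.lf (nat_lit 0) (nat_lit 1189609447677) (nat_lit 152) (nat_lit 11556566608542) (nat_lit 0) (nat_lit 872655848526) (nat_lit 8) (nat_lit 5) (nat_lit 10) (nat_lit 4) (nat_lit 8) (nat_lit 4) (nat_lit 413) (nat_lit 368) (nat_lit 239))) (XT.nd (nat_lit 78) (nat_lit 76) (nat_lit 0) (XT.lf (nat_lit 0) (nat_lit 5595234942386) (nat_lit 152) (nat_lit 4446154606221) (nat_lit 0) (nat_lit 5278281342623) (nat_lit 8) (nat_lit 5) (nat_lit 10) (nat_lit 4) (nat_lit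 8) (nat_lit 4) (nat_lit 414) (nat_lit 368) (nat_lit 238)) (XT.nd (nat_lit 78) (nat_lit 0) (nat_lit 0) (XT.lf (nat_lit 0) (nat_lit 3927277490177) (nat_lit 76) (nat_lit 6828877873795) (nat_lit 76) (nat_lit 6511924273501) (nat_lit 7) (nat_lit 4) (nat_lit 8) (nat_lit 5) (nat_lit 8) (nat_lit 4) (nat_lit 415) (nat_lit 368) (nat_lit 237)) (XT.lf (nat_lit 0) (nat_lit 13825969987486) (nat_lit 76) (nat_lit 2994688854726) (nat_lit 76) (nat_lit 2677735253970) (nat_lit 7) (nat_lit 4) (nat_lit 8) (nat_lit 5) (nat_lit 8) (nat_lit 4) (nat_lit 416) (nat_lit 368) (nat_lit 236)))))) (XT.nd (nat_lit 390) (nat_lit 152) (nat_lit 0) (XT.nd (nat_lit 156) (nat_lit 76) (nat_lit 0) (XT.nd (nat_lit 78) (nat_lit 0) (nat_lit 0) (XT.lf (nat_lit 0) (nat_lit 1760702961019) (nat_lit 152) (nat_lit 18822734463515) (nat_lit 0) (nat_lit 1467227404391) (nat_lit 5) (nat_lit 5) (nat_lit 7) (nat_lit 4) (nat_lit 5) (nat_lit 4) (nat_lit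 417) (nat_lit 368) (nat_lit 235)) (XT.lf (nat_lit 0) (nat_lit 6963124794431) (nat_lit 152) (nat_lit 11326896438895) (nat_lit 0) (nat_lit 6669649237480) (nat_lit 5) (nat_lit 5) (nat_lit 7) (nat_lit 4) (nat_lit 5) (nat_lit 4) (nat_lit 418) (nat_lit 368) (nat_lit 234))) (XT.nd (nat_lit 78) (nat_lit 76) (nat_lit 0) (XT.lf (nat_lit 0) (nat_lit 12945909892582) (nat_lit 152) (nat_lit 2706682731862) (nat_lit 0) (nat_lit 12652434335348) (nat_lit 5) (nat_lit 5) (nat_lit 7) (nat_lit 4) (nat_lit 5) (nat_lit 4) (nat_lit 419) (nat_lit 368) (nat_lit 233)) (XT.nd (nat_lit 78) (nat_lit 0) (nat_lit 0) (XT.lf (nat_lit 0) (nat_lit 7586047849847) (nat_lit 76) (nat_lit 12422509529906) (nat_lit 76) (nat_lit 12129033972428) (nat_lit 4) (nat_lit 4) (nat_lit 5) (nat_lit 5) (nat_lit 5) (nat_lit 4) (nat_lit 420) (nat_lit 368) (nat_lit 232)) (XT.lf (nat_lit 0) (nat_lit 19586596485283) (nat_lit 76) (nat_lit 8622807652026)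 (nat_lit 76) (nat_lit 8329332094335) (nat_lit 4) (nat_lit 4) (nat_lit 5) (nat_lit 5) (nat_lit 5) (nat_lit 4) (nat_lit 421) (nat_lit 368) (nat_lit 231))))) (XT.nd (nat_lit 48984) (nat_lit 0) (nat_lit 6384) (XT.nd (nat_lit 78) (nat_lit 152) (nat_lit 0) (XT.lf (nat_lit 0) (nat_lit 33387227401306) (nat_lit 76) (nat_lit 4253150500083) (nat_lit 76) (nat_lit 3959674942207) (nat_lit 4) (nat_lit 4) (nat_lit 5) (nat_lit 5) (nat_lit 5) (nat_lit 4) (nat_lit 422) (nat_lit 368) (nat_lit 230)) (XT.nd (nat_lit 78) (nat_lit 0) (nat_lit 0) (XT.lf (nat_lit 0) (nat_lit 1078423466717) (nat_lit 152) (nat_lit 45528103563102) (nat_lit 0) (nat_lit 806686838905) (nat_lit 2) (nat_lit 5) (nat_lit 4) (nat_lit 4) (nat_lit 2) (nat_lit 4) (nat_lit 423) (nat_lit 368) (nat_lit 229)) (XT.lf (nat_lit 0) (nat_lit 7007395597180) (nat_lit 152) (nat_lit 40317497312930) (nat_lit 0) (nat_lit 6735658969238) (nat_lit 2) (nat_lit 5)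 (nat_lit 4) (nat_lit 4) (nat_lit 2) (nat_lit 4) (nat_lit 424) (nat_lit 368) (nat_lit 228)))) (XT.nd (nat_lit 78) (nat_lit 532) (nat_lit 0) (XT.lf (nat_lit 0) (nat_lit 115326950295) (nat_lit 532) (nat_lit 772012699) (nat_lit 532) (nat_lit 772012699) (nat_lit 93) (nat_lit 3) (nat_lit 100) (nat_lit 3) (nat_lit 100) (nat_lit 5) (nat_lit 369) (nat_lit 369) (nat_lit 282)) (XT.nd (nat_lit 78) (nat_lit 0) (nat_lit 76) (XT.lf (nat_lit 0) (nat_lit 2477404274) (nat_lit 532) (nat_lit 22771631758) (nat_lit 608) (nat_lit 225579468775) (nat_lit 86) (nat_lit 5) (nat_lit 93) (nat_lit 3) (nat_lit 94) (nat_lit 5) (nat_lit 370) (nat_lit 369) (nat_lit 281)) (XT.lf (nat_lit 0) (nat_lit 19622274531) (nat_lit 532) (nat_lit 41983477372) (nat_lit 608) (nat_lit 207991677132) (nat_lit 87) (nat_lit 5) (nat_lit 94) (nat_lit 5) (nat_lit 95) (nat_lit 5) (nat_lit 371) (nat_lit 369) (nat_lit 280))))))))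
noncomputable def xc95 : XT := (XT.nd (nat_lit 1638) (nat_lit 2204) (nat_lit 0) (XT.nd (nat_lit 780) (nat_lit 1596) (nat_lit 0) (XT.nd (nat_lit 390) (nat_lit 1216) (nat_lit 0) (XT.nd (nat_lit 156) (nat_lit 912) (nat_lit 0) (XT.nd (nat_lit 78) (nat_lit 0) (nat_lit 76) (XT.lf (nat_lit 0) (nat_lit 50997825830) (nat_lit 532) (nat_lit 58252929908) (nat_lit 608) (nat_lit 180998220159) (nat_lit 88) (nat_lit 5) (nat_lit 95) (nat_lit 5) (nat_lit 96) (nat_lit 5) (nat_lit 372) (nat_lit 369) (nat_lit 279)) (XT.lf (nat_lit 0) (nat_lit 99576489671) (nat_lit 532) (nat_lit 70603948587) (nat_lit 76) (nat_lit 142818074176) (nat_lit 89) (nat_lit 5) (nat_lit 96) (nat_lit 5) (nat_lit 90) (nat_lit 5) (nat_lit 373) (nat_lit 369) (nat_lit 278))) (XT.nd (nat_lit 78) (nat_lit 456) (nat_lit 0) (XT.lf (nat_lit 0) (nat_lit 168835238095) (nat_lit 608) (nat_lit 77869294769) (nat_lit 76) (nat_lit 91384483816) (nat_lit 82)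 (nat_lit 5) (nat_lit 90) (nat_lit 5) (nat_lit 83) (nat_lit 5) (nat_lit 374) (nat_lit 369) (nat_lit 277)) (XT.nd (nat_lit 78) (nat_lit 228) (nat_lit 0) (XT.lf (nat_lit 0) (nat_lit 262835107326) (nat_lit 304) (nat_lit 78658949627) (nat_lit 76) (nat_lit 24300854953) (nat_lit 79) (nat_lit 5) (nat_lit 83) (nat_lit 5) (nat_lit 80) (nat_lit 5) (nat_lit 375) (nat_lit 369) (nat_lit 276)) (XT.lf (nat_lit 0) (nat_lit 323429084511) (nat_lit 228) (nat_lit 64433348615) (nat_lit 304) (nat_lit 8440060218) (nat_lit 76) (nat_lit 5) (nat_lit 79) (nat_lit 5) (nat_lit 80) (nat_lit 5) (nat_lit 376) (nat_lit 369) (nat_lit 275))))) (XT.nd (nat_lit 156) (nat_lit 684) (nat_lit 0) (XT.nd (nat_lit 78) (nat_lit 228) (nat_lit 0) (XT.lf (nat_lit 0) (nat_lit 113099206204) (nat_lit 304) (nat_lit 61039517935) (nat_lit 76) (nat_lit 255626043659) (nat_lit 72) (nat_lit 5) (nat_lit 76) (nat_lit 5) (nat_lit 73) (nat_lit 5) (nat_lit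 377) (nat_lit 369) (nat_lit 274)) (XT.lf (nat_lit 0) (nat_lit 270728760958) (nat_lit 304) (nat_lit 38601758121) (nat_lit 76) (nat_lit 157429595042) (nat_lit 69) (nat_lit 5) (nat_lit 73) (nat_lit 5) (nat_lit 70) (nat_lit 5) (nat_lit 378) (nat_lit 369) (nat_lit 273))) (XT.nd (nat_lit 78) (nat_lit 532) (nat_lit 0) (XT.lf (nat_lit 0) (nat_lit 471643654304) (nat_lit 228) (nat_lit 2935535188) (nat_lit 76) (nat_lit 33154300483) (nat_lit 67) (nat_lit 5) (nat_lit 70) (nat_lit 5) (nat_lit 68) (nat_lit 5) (nat_lit 379) (nat_lit 369) (nat_lit 272)) (XT.nd (nat_lit 78) (nat_lit 152) (nat_lit 0) (XT.lf (nat_lit 0) (nat_lit 43725307860) (nat_lit 152) (nat_lit 122505239426) (nat_lit 228) (nat_lit 386275207775) (nat_lit 62) (nat_lit 5) (nat_lit 64) (nat_lit 5) (nat_lit 65) (nat_lit 5) (nat_lit 380) (nat_lit 369) (nat_lit 271)) (XT.lf (nat_lit 0) (nat_lit 106760699660) (nat_lit 152) (nat_lit 314769277113) (nat_lit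 228) (nat_lit 180407458473) (nat_lit 60) (nat_lit 5) (nat_lit 62) (nat_lit 5) (nat_lit 63) (nat_lit 5) (nat_lit 381) (nat_lit 369) (nat_lit 270)))))) (XT.nd (nat_lit 390) (nat_lit 912) (nat_lit 0) (XT.nd (nat_lit 156) (nat_lit 380) (nat_lit 0) (XT.nd (nat_lit 78) (nat_lit 152) (nat_lit 0) (XT.lf (nat_lit 0) (nat_lit 79513499363) (nat_lit 152) (nat_lit 467261124996) (nat_lit 76) (nat_lit 109821530063) (nat_lit 58) (nat_lit 5) (nat_lit 60) (nat_lit 5) (nat_lit 59) (nat_lit 5) (nat_lit 382) (nat_lit 369) (nat_lit 269)) (XT.lf (nat_lit 0) (nat_lit 288575293074) (nat_lit 152) (nat_lit 109905750119) (nat_lit 228) (nat_lit 318138519482) (nat_lit 56) (nat_lit 5) (nat_lit 58) (nat_lit 5) (nat_lit 59) (nat_lit 5) (nat_lit 383) (nat_lit 369) (nat_lit 268))) (XT.nd (nat_lit 78) (nat_lit 228) (nat_lit 0) (XT.lf (nat_lit 0) (nat_lit 14844441959) (nat_lit 152) (nat_lit 370997374443) (nat_lit 76) (nat_lit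 397109498297) (nat_lit 54) (nat_lit 5) (nat_lit 56) (nat_lit 5) (nat_lit 55) (nat_lit 5) (nat_lit 384) (nat_lit 369) (nat_lit 267)) (XT.nd (nat_lit 78) (nat_lit 76) (nat_lit 0) (XT.lf (nat_lit 0) (nat_lit 412478065639) (nat_lit 228) (nat_lit 298289973710) (nat_lit 76) (nat_lit 145120477645) (nat_lit 52) (nat_lit 5) (nat_lit 55) (nat_lit 5) (nat_lit 53) (nat_lit 4) (nat_lit 385) (nat_lit 369) (nat_lit 266)) (XT.lf (nat_lit 0) (nat_lit 734856471068) (nat_lit 76) (nat_lit 174326656697) (nat_lit 152) (nat_lit 27429060280) (nat_lit 51) (nat_lit 5) (nat_lit 52) (nat_lit 5) (nat_lit 53) (nat_lit 4) (nat_lit 386) (nat_lit 369) (nat_lit 265))))) (XT.nd (nat_lit 234) (nat_lit 380) (nat_lit 0) (XT.nd (nat_lit 78) (nat_lit 304) (nat_lit 0) (XT.lf (nat_lit 0) (nat_lit 471866549179) (nat_lit 228) (nat_lit 89114344478) (nat_lit 76) (nat_lit 464117861755) (nat_lit 48) (nat_lit 5) (nat_lit 51) (nat_lit 5)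 (nat_lit 49) (nat_lit 4) (nat_lit 387) (nat_lit 369) (nat_lit 264)) (XT.nd (nat_lit 78) (nat_lit 152) (nat_lit 0) (XT.lf (nat_lit 0) (nat_lit 60675588808) (nat_lit 76) (nat_lit 1026980589097) (nat_lit 76) (nat_lit 35687231788) (nat_lit 46) (nat_lit 4) (nat_lit 47) (nat_lit 5) (nat_lit 47) (nat_lit 4) (nat_lit 388) (nat_lit 369) (nat_lit 263)) (XT.lf (nat_lit 0) (nat_lit 233381803744) (nat_lit 76) (nat_lit 355404354263) (nat_lit 152) (nat_lit 641879377310) (nat_lit 44) (nat_lit 5) (nat_lit 45) (nat_lit 5) (nat_lit 46) (nat_lit 4) (nat_lit 389) (nat_lit 369) (nat_lit 262)))) (XT.nd (nat_lit 78) (nat_lit 228) (nat_lit 0) (XT.lf (nat_lit 0) (nat_lit 7214488421) (nat_lit 152) (nat_lit 902858166217) (nat_lit 76) (nat_lit 439717984818) (nat_lit 42) (nat_lit 5) (nat_lit 44) (nat_lit 5) (nat_lit 43) (nat_lit 4) (nat_lit 390) (nat_lit 369) (nat_lit 261)) (XT.nd (nat_lit 78) (nat_lit 152) (nat_lit 0)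 (XT.lf (nat_lit 0) (nat_lit 689886069171) (nat_lit 76) (nat_lit 83070856132) (nat_lit 152) (nat_lit 707910535521) (nat_lit 41) (nat_lit 5) (nat_lit 42) (nat_lit 5) (nat_lit 43) (nat_lit 4) (nat_lit 391) (nat_lit 369) (nat_lit 260)) (XT.lf (nat_lit 0) (nat_lit 93972742561) (nat_lit 152) (nat_lit 654411106992) (nat_lit 76) (nat_lit 877330426983) (nat_lit 39) (nat_lit 5) (nat_lit 41) (nat_lit 5) (nat_lit 40) (nat_lit 4) (nat_lit 392) (nat_lit 369) (nat_lit 259))))))) (XT.nd (nat_lit 780) (nat_lit 988) (nat_lit 0) (XT.nd (nat_lit 390) (nat_lit 608) (nat_lit 0) (XT.nd (nat_lit 156) (nat_lit 380) (nat_lit 0) (XT.nd (nat_lit 78) (nat_lit 152) (nat_lit 0) (XT.lf (nat_lit 0) (nat_lit 1038931169303) (nat_lit 152) (nat_lit 494698857251) (nat_lit 0) (nat_lit 252010396290) (nat_lit 38) (nat_lit 5) (nat_lit 40) (nat_lit 4) (nat_lit 38) (nat_lit 4) (nat_lit 393) (nat_lit 369) (nat_lit 258)) (XT.lf (nat_lit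 0) (nat_lit 230561342207) (nat_lit 152) (nat_lit 307353200008) (nat_lit 76) (nat_lit 1424757365136) (nat_lit 36) (nat_lit 5) (nat_lit 38) (nat_lit 5) (nat_lit 37) (nat_lit 4) (nat_lit 394) (nat_lit 369) (nat_lit 257))) (XT.nd (nat_lit 78) (nat_lit 304) (nat_lit 0) (XT.lf (nat_lit 0) (nat_lit 1392977214772) (nat_lit 152) (nat_lit 100761002614) (nat_lit 0) (nat_lit 664346836868) (nat_lit 35) (nat_lit 5) (nat_lit 37) (nat_lit 4) (nat_lit 35) (nat_lit 4) (nat_lit 395) (nat_lit 369) (nat_lit 256)) (XT.nd (nat_lit 78) (nat_lit 76) (nat_lit 0) (XT.lf (nat_lit 0) (nat_lit 145074067917) (nat_lit 76) (nat_lit 274976152743) (nat_lit 152) (nat_lit 1954855586363) (nat_lit 32) (nat_lit 5) (nat_lit 33) (nat_lit 5) (nat_lit 34) (nat_lit 4) (nat_lit 396) (nat_lit 369) (nat_lit 255)) (XT.lf (nat_lit 0) (nat_lit 404409803653) (nat_lit 76) (nat_lit 1442100651827) (nat_lit 76) (nat_lit 767442871738) (nat_lit 31)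 (nat_lit 4) (nat_lit 32) (nat_lit 5) (nat_lit 32) (nat_lit 4) (nat_lit 397) (nat_lit 369) (nat_lit 254))))) (XT.nd (nat_lit 156) (nat_lit 380) (nat_lit 0) (XT.nd (nat_lit 78) (nat_lit 76) (nat_lit 0) (XT.lf (nat_lit 0) (nat_lit 660014542128) (nat_lit 152) (nat_lit 2185013217912) (nat_lit 0) (nat_lit 35331403889) (nat_lit 29) (nat_lit 5) (nat_lit 31) (nat_lit 4) (nat_lit 29) (nat_lit 4) (nat_lit 398) (nat_lit 369) (nat_lit 253)) (XT.lf (nat_lit 0) (nat_lit 974141517187) (nat_lit 76) (nat_lit 1412612234439) (nat_lit 76) (nat_lit 787929088785) (nat_lit 28) (nat_lit 4) (nat_lit 29) (nat_lit 5) (nat_lit 29) (nat_lit 4) (nat_lit 399) (nat_lit 369) (nat_lit 252))) (XT.nd (nat_lit 78) (nat_lit 228) (nat_lit 0) (XT.lf (nat_lit 0) (nat_lit 920908255294) (nat_lit 152) (nat_lit 2239731688129) (nat_lit 0) (nat_lit 342497929274) (nat_lit 26) (nat_lit 5) (nat_lit 28) (nat_lit 4) (nat_lit 26) (nat_lit 4)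 (nat_lit 400) (nat_lit 369) (nat_lit 251)) (XT.nd (nat_lit 78) (nat_lit 152) (nat_lit 0) (XT.lf (nat_lit 0) (nat_lit 1517872526491) (nat_lit 76) (nat_lit 1464175609461) (nat_lit 76) (nat_lit 885765278250) (nat_lit 25) (nat_lit 4) (nat_lit 26) (nat_lit 5) (nat_lit 26) (nat_lit 4) (nat_lit 401) (nat_lit 369) (nat_lit 250)) (XT.lf (nat_lit 0) (nat_lit 1136154127925) (nat_lit 152) (nat_lit 2538456212578) (nat_lit 0) (nat_lit 600589002253) (nat_lit 23) (nat_lit 5) (nat_lit 25) (nat_lit 4) (nat_lit 23) (nat_lit 4) (nat_lit 402) (nat_lit 369) (nat_lit 249)))))) (XT.nd (nat_lit 390) (nat_lit 456) (nat_lit 0) (XT.nd (nat_lit 156) (nat_lit 304) (nat_lit 0) (XT.nd (nat_lit 78) (nat_lit 152) (nat_lit 0) (XT.lf (nat_lit 0) (nat_lit 1867146730187) (nat_lit 76) (nat_lit 1698852120461) (nat_lit 76) (nat_lit 1163286991155) (nat_lit 22) (nat_lit 4) (nat_lit 23) (nat_lit 5) (nat_lit 23) (nat_lit 4) (nat_lit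 403) (nat_lit 369) (nat_lit 248)) (XT.lf (nat_lit 0) (nat_lit 1192734641449) (nat_lit 152) (nat_lit 3348626826078) (nat_lit 0) (nat_lit 696841000276) (nat_lit 20) (nat_lit 5) (nat_lit 22) (nat_lit 4) (nat_lit 20) (nat_lit 4) (nat_lit 404) (nat_lit 369) (nat_lit 247))) (XT.nd (nat_lit 78) (nat_lit 228) (nat_lit 0) (XT.lf (nat_lit 0) (nat_lit 1715049312146) (nat_lit 76) (nat_lit 2293914495384) (nat_lit 76) (nat_lit 1798020851666) (nat_lit 19) (nat_lit 4) (nat_lit 20) (nat_lit 5) (nat_lit 20) (nat_lit 4) (nat_lit 405) (nat_lit 369) (nat_lit 246)) (XT.nd (nat_lit 78) (nat_lit 76) (nat_lit 0) (XT.lf (nat_lit 0) (nat_lit 890192055153) (nat_lit 152) (nat_lit 5126907944828) (nat_lit 0) (nat_lit 431031271884) (nat_lit 17) (nat_lit 5) (nat_lit 19) (nat_lit 4) (nat_lit 17) (nat_lit 4) (nat_lit 406) (nat_lit 369) (nat_lit 245)) (XT.lf (nat_lit 0) (nat_lit 528397028473) (nat_lit 76) (nat_lit 3548182520884)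 (nat_lit 76) (nat_lit 3089021735833) (nat_lit 16) (nat_lit 4) (nat_lit 17) (nat_lit 5) (nat_lit 17) (nat_lit 4) (nat_lit 407) (nat_lit 369) (nat_lit 244))))) (XT.nd (nat_lit 234) (nat_lit 228) (nat_lit 0) (XT.nd (nat_lit 78) (nat_lit 228) (nat_lit 0) (XT.lf (nat_lit 0) (nat_lit 7342467668635) (nat_lit 76) (nat_lit 547721883847) (nat_lit 76) (nat_lit 88561097246) (nat_lit 16) (nat_lit 4) (nat_lit 17) (nat_lit 5) (nat_lit 17) (nat_lit 4) (nat_lit 408) (nat_lit 369) (nat_lit 243)) (XT.nd (nat_lit 78) (nat_lit 76) (nat_lit 0) (XT.lf (nat_lit 0) (nat_lit 3426323392742) (nat_lit 152) (nat_lit 2461303353634) (nat_lit 0) (nat_lit 3001174515013) (nat_lit 14) (nat_lit 5) (nat_lit 16) (nat_lit 4) (nat_lit 14) (nat_lit 4) (nat_lit 409) (nat_lit 369) (nat_lit 242)) (XT.lf (nat_lit 0) (nat_lit 4881618939005) (nat_lit 76) (nat_lit 2733284426207) (nat_lit 76) (nat_lit 2308135547393) (nat_lit 13) (nat_lit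 4) (nat_lit 14) (nat_lit 5) (nat_lit 14) (nat_lit 4) (nat_lit 410) (nat_lit 369) (nat_lit 241)))) (XT.nd (nat_lit 78) (nat_lit 76) (nat_lit 0) (XT.lf (nat_lit 0) (nat_lit 1411760482102) (nat_lit 152) (nat_lit 8667337010138) (nat_lit 0) (nat_lit 1018104111957) (nat_lit 11) (nat_lit 5) (nat_lit 13) (nat_lit 4) (nat_lit 11) (nat_lit 4) (nat_lit 411) (nat_lit 369) (nat_lit 240)) (XT.nd (nat_lit 78) (nat_lit 76) (nat_lit 0) (XT.lf (nat_lit 0) (nat_lit 5783043026184) (nat_lit 152) (nat_lit 1251857332930) (nat_lit 0) (nat_lit 5389386655279) (nat_lit 11) (nat_lit 5) (nat_lit 13) (nat_lit 4) (nat_lit 11) (nat_lit 4) (nat_lit 412) (nat_lit 369) (nat_lit 239)) (XT.lf (nat_lit 0) (nat_lit 7659082595309) (nat_lit 76) (nat_lit 3335136461970) (nat_lit 76) (nat_lit 2941480090405) (nat_lit 10) (nat_lit 4) (nat_lit 11) (nat_lit 5) (nat_lit 11) (nat_lit 4) (nat_lit 413) (nat_lit 369) (nat_lit 238))))))))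
noncomputable def xc96 : XT := (XT.nd (nat_lit 50466) (nat_lit 0) (nat_lit 1976) (XT.nd (nat_lit 780) (nat_lit 152) (nat_lit 0) (XT.nd (nat_lit 390) (nat_lit 76) (nat_lit 0) (XT.nd (nat_lit 156) (nat_lit 228) (nat_lit 0) (XT.nd (nat_lit 78) (nat_lit 0) (nat_lit 0) (XT.lf (nat_lit 0) (nat_lit 1368051030838) (nat_lit 152) (nat_lit 13290051256369) (nat_lit 0) (nat_lit 1003554389968) (nat_lit 8) (nat_lit 5) (nat_lit 10) (nat_lit 4) (nat_lit 8) (nat_lit 4) (nat_lit 414) (nat_lit 369) (nat_lit 237)) (XT.lf (nat_lit 0) (nat_lit 6434520328100) (nat_lit 152) (nat_lit 5113077498498) (nat_lit 0) (nat_lit 6070023686768) (nat_lit 8) (nat_lit 5) (nat_lit 10) (nat_lit 4) (nat_lit 8) (nat_lit 4) (nat_lit 415) (nat_lit 369) (nat_lit 236))) (XT.nd (nat_lit 78) (nat_lit 152) (nat_lit 0) (XT.lf (nat_lit 0) (nat_lit 4516369387080) (nat_lit 76) (nat_lit 7853209413590) (nat_lit 76) (nat_lit 7488712771856) (nat_lit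 7) (nat_lit 4) (nat_lit 8) (nat_lit 5) (nat_lit 8) (nat_lit 4) (nat_lit 416) (nat_lit 369) (nat_lit 235)) (XT.nd (nat_lit 78) (nat_lit 152) (nat_lit 0) (XT.lf (nat_lit 0) (nat_lit 15899865723327) (nat_lit 76) (nat_lit 3443892060088) (nat_lit 76) (nat_lit 3079395418004) (nat_lit 7) (nat_lit 4) (nat_lit 8) (nat_lit 5) (nat_lit 8) (nat_lit 4) (nat_lit 417) (nat_lit 369) (nat_lit 234)) (XT.lf (nat_lit 0) (nat_lit 2024808515800) (nat_lit 152) (nat_lit 21646144403912) (nat_lit 0) (nat_lit 1687311624700) (nat_lit 5) (nat_lit 5) (nat_lit 7) (nat_lit 4) (nat_lit 5) (nat_lit 4) (nat_lit 418) (nat_lit 369) (nat_lit 233))))) (XT.nd (nat_lit 156) (nat_lit 76) (nat_lit 0) (XT.nd (nat_lit 78) (nat_lit 0) (nat_lit 0) (XT.lf (nat_lit 0) (nat_lit 8007593609795) (nat_lit 152) (nat_lit 13025930705486) (nat_lit 0) (nat_lit 7670096718450) (nat_lit 5) (nat_lit 5) (nat_lit 7) (nat_lit 4) (nat_lit 5) (nat_lit 4) (nat_lit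 419) (nat_lit 369) (nat_lit 232)) (XT.lf (nat_lit 0) (nat_lit 14887796460120) (nat_lit 152) (nat_lit 3112684968386) (nat_lit 0) (nat_lit 14550299568562) (nat_lit 5) (nat_lit 5) (nat_lit 7) (nat_lit 4) (nat_lit 5) (nat_lit 4) (nat_lit 420) (nat_lit 369) (nat_lit 231))) (XT.nd (nat_lit 78) (nat_lit 0) (nat_lit 0) (XT.lf (nat_lit 0) (nat_lit 8723955185914) (nat_lit 76) (nat_lit 14285885877356) (nat_lit 76) (nat_lit 13948388985614) (nat_lit 4) (nat_lit 4) (nat_lit 5) (nat_lit 5) (nat_lit 5) (nat_lit 4) (nat_lit 421) (nat_lit 369) (nat_lit 230)) (XT.nd (nat_lit 78) (nat_lit 0) (nat_lit 0) (XT.lf (nat_lit 0) (nat_lit 22524586095980) (nat_lit 76) (nat_lit 9916228728495) (nat_lit 76) (nat_lit 9578731836591) (nat_lit 4) (nat_lit 4) (nat_lit 5) (nat_lit 5) (nat_lit 5) (nat_lit 4) (nat_lit 422) (nat_lit 369) (nat_lit 229)) (XT.lf (nat_lit 0) (nat_lit 38395311631418) (nat_lit 76) (nat_lit 4891123013065)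 (nat_lit 76) (nat_lit 4553626121022) (nat_lit 4) (nat_lit 4) (nat_lit 5) (nat_lit 5) (nat_lit 5) (nat_lit 4) (nat_lit 423) (nat_lit 369) (nat_lit 228)))))) (XT.nd (nat_lit 49218) (nat_lit 0) (nat_lit 5092) (XT.nd (nat_lit 48984) (nat_lit 0) (nat_lit 6384) (XT.nd (nat_lit 48906) (nat_lit 0) (nat_lit 6916) (XT.lf (nat_lit 0) (nat_lit 1240187042478) (nat_lit 152) (nat_lit 52357318981992) (nat_lit 0) (nat_lit 927689920103) (nat_lit 2) (nat_lit 5) (nat_lit 4) (nat_lit 4) (nat_lit 2) (nat_lit 4) (nat_lit 424) (nat_lit 369) (nat_lit 227)) (XT.lf (nat_lit 0) (nat_lit 132627945342) (nat_lit 532) (nat_lit 886760122) (nat_lit 532) (nat_lit 886760122) (nat_lit 93) (nat_lit 3) (nat_lit 100) (nat_lit 3) (nat_lit 100) (nat_lit 5) (nat_lit 370) (nat_lit 370) (nat_lit 280))) (XT.nd (nat_lit 78) (nat_lit 0) (nat_lit 76) (XT.lf (nat_lit 0) (nat_lit 2852546833) (nat_lit 532) (nat_lit 26185259668) (nat_lit 608)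 (nat_lit 259414691053) (nat_lit 86) (nat_lit 5) (nat_lit 93) (nat_lit 3) (nat_lit 94) (nat_lit 5) (nat_lit 371) (nat_lit 370) (nat_lit 279)) (XT.nd (nat_lit 78) (nat_lit 0) (nat_lit 76) (XT.lf (nat_lit 0) (nat_lit 22568705161) (nat_lit 532) (nat_lit 48278783131) (nat_lit 608) (nat_lit 239189307577) (nat_lit 87) (nat_lit 5) (nat_lit 94) (nat_lit 5) (nat_lit 95) (nat_lit 5) (nat_lit 372) (nat_lit 370) (nat_lit 278)) (XT.lf (nat_lit 0) (nat_lit 58650217961) (nat_lit 532) (nat_lit 66988604967) (nat_lit 608) (nat_lit 208147281576) (nat_lit 88) (nat_lit 5) (nat_lit 95) (nat_lit 5) (nat_lit 96) (nat_lit 5) (nat_lit 373) (nat_lit 370) (nat_lit 277))))) (XT.nd (nat_lit 234) (nat_lit 760) (nat_lit 0) (XT.nd (nat_lit 78) (nat_lit 760) (nat_lit 0) (XT.lf (nat_lit 0) (nat_lit 114515368477) (nat_lit 532) (nat_lit 81192266564) (nat_lit 76) (nat_lit 164240461553) (nat_lit 89) (nat_lit 5) (nat_lit 96) (nat_lit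 5) (nat_lit 90) (nat_lit 5) (nat_lit 374) (nat_lit 370) (nat_lit 276)) (XT.nd (nat_lit 78) (nat_lit 228) (nat_lit 0) (XT.lf (nat_lit 0) (nat_lit 194162664050) (nat_lit 608) (nat_lit 89547434169) (nat_lit 76) (nat_lit 105092099504) (nat_lit 82) (nat_lit 5) (nat_lit 90) (nat_lit 5) (nat_lit 83) (nat_lit 5) (nat_lit 375) (nat_lit 370) (nat_lit 275)) (XT.lf (nat_lit 0) (nat_lit 302262287827) (nat_lit 304) (nat_lit 90455578734) (nat_lit 76) (nat_lit 27946128770) (nat_lit 79) (nat_lit 5) (nat_lit 83) (nat_lit 5) (nat_lit 80) (nat_lit 5) (nat_lit 376) (nat_lit 370) (nat_lit 274)))) (XT.nd (nat_lit 78) (nat_lit 532) (nat_lit 0) (XT.lf (nat_lit 0) (nat_lit 371945473177) (nat_lit 228) (nat_lit 74098038340) (nat_lit 304) (nat_lit 9704218572) (nat_lit 76) (nat_lit 5) (nat_lit 79) (nat_lit 5) (nat_lit 80) (nat_lit 5) (nat_lit 377) (nat_lit 370) (nat_lit 273)) (XT.nd (nat_lit 78) (nat_lit 228) (nat_lit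 0) (XT.lf (nat_lit 0) (nat_lit 130065671313) (nat_lit 304) (nat_lit 70193388804) (nat_lit 76) (nat_lit 293970295971) (nat_lit 72) (nat_lit 5) (nat_lit 76) (nat_lit 5) (nat_lit 73) (nat_lit 5) (nat_lit 378) (nat_lit 370) (nat_lit 272)) (XT.lf (nat_lit 0) (nat_lit 311339508989) (nat_lit 304) (nat_lit 44390036224) (nat_lit 76) (nat_lit 181044471189) (nat_lit 69) (nat_lit 5) (nat_lit 73) (nat_lit 5) (nat_lit 70) (nat_lit 5) (nat_lit 379) (nat_lit 370) (nat_lit 271))))))) (XT.nd (nat_lit 780) (nat_lit 1368) (nat_lit 0) (XT.nd (nat_lit 390) (nat_lit 760) (nat_lit 0) (XT.nd (nat_lit 156) (nat_lit 456) (nat_lit 0) (XT.nd (nat_lit 78) (nat_lit 380) (nat_lit 0) (XT.lf (nat_lit 0) (nat_lit 542391505693) (nat_lit 228) (nat_lit 3373957242) (nat_lit 76) (nat_lit 38127946167) (nat_lit 67) (nat_lit 5) (nat_lit 70) (nat_lit 5) (nat_lit 68) (nat_lit 5) (nat_lit 380) (nat_lit 370) (nat_lit 270)) (XT.lf (nat_lit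 0) (nat_lit 50286009657) (nat_lit 152) (nat_lit 140880371433) (nat_lit 228) (nat_lit 444215137005) (nat_lit 62) (nat_lit 5) (nat_lit 64) (nat_lit 5) (nat_lit 65) (nat_lit 5) (nat_lit 381) (nat_lit 370) (nat_lit 269))) (XT.nd (nat_lit 78) (nat_lit 304) (nat_lit 0) (XT.lf (nat_lit 0) (nat_lit 122776626272) (nat_lit 152) (nat_lit 361983992947) (nat_lit 228) (nat_lit 207467339562) (nat_lit 60) (nat_lit 5) (nat_lit 62) (nat_lit 5) (nat_lit 63) (nat_lit 5) (nat_lit 382) (nat_lit 370) (nat_lit 268)) (XT.nd (nat_lit 78) (nat_lit 152) (nat_lit 0) (XT.lf (nat_lit 0) (nat_lit 91441604023) (nat_lit 152) (nat_lit 537348500247) (nat_lit 76) (nat_lit 126295386873) (nat_lit 58) (nat_lit 5) (nat_lit 60) (nat_lit 5) (nat_lit 59) (nat_lit 5) (nat_lit 383) (nat_lit 370) (nat_lit 267)) (XT.lf (nat_lit 0) (nat_lit 331863228724) (nat_lit 152) (nat_lit 126390949350) (nat_lit 228) (nat_lit 365858240678) (nat_lit 56)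 (nat_lit 5) (nat_lit 58) (nat_lit 5) (nat_lit 59) (nat_lit 5) (nat_lit 384) (nat_lit 370) (nat_lit 266))))) (XT.nd (nat_lit 156) (nat_lit 456) (nat_lit 0) (XT.nd (nat_lit 78) (nat_lit 152) (nat_lit 0) (XT.lf (nat_lit 0) (nat_lit 17072033899) (nat_lit 152) (nat_lit 426645372001) (nat_lit 76) (nat_lit 456676531909) (nat_lit 54) (nat_lit 5) (nat_lit 56) (nat_lit 5) (nat_lit 55) (nat_lit 5) (nat_lit 385) (nat_lit 370) (nat_lit 265)) (XT.lf (nat_lit 0) (nat_lit 474350631010) (nat_lit 228) (nat_lit 343031945258) (nat_lit 76) (nat_lit 166889149796) (nat_lit 52) (nat_lit 5) (nat_lit 55) (nat_lit 5) (nat_lit 53) (nat_lit 4) (nat_lit 386) (nat_lit 370) (nat_lit 264))) (XT.nd (nat_lit 78) (nat_lit 380) (nat_lit 0) (XT.lf (nat_lit 0) (nat_lit 845086337195) (nat_lit 76) (nat_lit 200475037230) (nat_lit 152) (nat_lit 31542579594) (nat_lit 51) (nat_lit 5) (nat_lit 52) (nat_lit 5) (nat_lit 53) (nat_lit 4)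 (nat_lit 387) (nat_lit 370) (nat_lit 263)) (XT.nd (nat_lit 78) (nat_lit 152) (nat_lit 0) (XT.lf (nat_lit 0) (nat_lit 542647271074) (nat_lit 228) (nat_lit 102480136473) (nat_lit 76) (nat_lit 533736101989) (nat_lit 48) (nat_lit 5) (nat_lit 51) (nat_lit 5) (nat_lit 49) (nat_lit 4) (nat_lit 388) (nat_lit 370) (nat_lit 262)) (XT.lf (nat_lit 0) (nat_lit 69778279482) (nat_lit 76) (nat_lit 1181027044372) (nat_lit 76) (nat_lit 41039539730) (nat_lit 46) (nat_lit 4) (nat_lit 47) (nat_lit 5) (nat_lit 47) (nat_lit 4) (nat_lit 389) (nat_lit 370) (nat_lit 261)))))) (XT.nd (nat_lit 390) (nat_lit 760) (nat_lit 0) (XT.nd (nat_lit 156) (nat_lit 304) (nat_lit 0) (XT.nd (nat_lit 78) (nat_lit 152) (nat_lit 0) (XT.lf (nat_lit 0) (nat_lit 268390347778) (nat_lit 76) (nat_lit 408714406267) (nat_lit 152) (nat_lit 738160557764) (nat_lit 44) (nat_lit 5) (nat_lit 45) (nat_lit 5) (nat_lit 46) (nat_lit 4) (nat_lit 390) (nat_lit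 370) (nat_lit 260)) (XT.lf (nat_lit 0) (nat_lit 8297304075) (nat_lit 152) (nat_lit 1038285655610) (nat_lit 76) (nat_lit 505676224282) (nat_lit 42) (nat_lit 5) (nat_lit 44) (nat_lit 5) (nat_lit 43) (nat_lit 4) (nat_lit 391) (nat_lit 370) (nat_lit 259))) (XT.nd (nat_lit 78) (nat_lit 228) (nat_lit 0) (XT.lf (nat_lit 0) (nat_lit 793370110503) (nat_lit 76) (nat_lit 95530939396) (nat_lit 152) (nat_lit 814096483171) (nat_lit 41) (nat_lit 5) (nat_lit 42) (nat_lit 5) (nat_lit 43) (nat_lit 4) (nat_lit 392) (nat_lit 370) (nat_lit 258)) (XT.nd (nat_lit 78) (nat_lit 76) (nat_lit 0) (XT.lf (nat_lit 0) (nat_lit 108069214582) (nat_lit 152) (nat_lit 752571677373) (nat_lit 76) (nat_lit 1008930481199) (nat_lit 39) (nat_lit 5) (nat_lit 41) (nat_lit 5) (nat_lit 40) (nat_lit 4) (nat_lit 393) (nat_lit 370) (nat_lit 257)) (XT.lf (nat_lit 0) (nat_lit 1194771368145) (nat_lit 152) (nat_lit 568902653790) (nat_lit 0)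 (nat_lit 289812422451) (nat_lit 38) (nat_lit 5) (nat_lit 40) (nat_lit 4) (nat_lit 38) (nat_lit 4) (nat_lit 394) (nat_lit 370) (nat_lit 256))))) (XT.nd (nat_lit 234) (nat_lit 304) (nat_lit 0) (XT.nd (nat_lit 78) (nat_lit 304) (nat_lit 0) (XT.lf (nat_lit 0) (nat_lit 265146033849) (nat_lit 152) (nat_lit 353455209492) (nat_lit 76) (nat_lit 1638471410880) (nat_lit 36) (nat_lit 5) (nat_lit 38) (nat_lit 5) (nat_lit 37) (nat_lit 4) (nat_lit 395) (nat_lit 370) (nat_lit 255)) (XT.nd (nat_lit 78) (nat_lit 228) (nat_lit 0) (XT.lf (nat_lit 0) (nat_lit 1601924255308) (nat_lit 152) (nat_lit 115874239412) (nat_lit 0) (nat_lit 763999281000) (nat_lit 35) (nat_lit 5) (nat_lit 37) (nat_lit 4) (nat_lit 35) (nat_lit 4) (nat_lit 396) (nat_lit 370) (nat_lit 254)) (XT.lf (nat_lit 0) (nat_lit 166836082219) (nat_lit 76) (nat_lit 316222122815) (nat_lit 152) (nat_lit 2248083436936) (nat_lit 32) (nat_lit 5) (nat_lit 33)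 (nat_lit 5) (nat_lit 34) (nat_lit 4) (nat_lit 397) (nat_lit 370) (nat_lit 253)))) (XT.nd (nat_lit 78) (nat_lit 228) (nat_lit 0) (XT.lf (nat_lit 0) (nat_lit 465072124868) (nat_lit 76) (nat_lit 1658415321276) (nat_lit 76) (nat_lit 882558846365) (nat_lit 31) (nat_lit 4) (nat_lit 32) (nat_lit 5) (nat_lit 32) (nat_lit 4) (nat_lit 398) (nat_lit 370) (nat_lit 252)) (XT.nd (nat_lit 78) (nat_lit 76) (nat_lit 0) (XT.lf (nat_lit 0) (nat_lit 759017129178) (nat_lit 152) (nat_lit 2512764379065) (nat_lit 0) (nat_lit 40631497814) (nat_lit 29) (nat_lit 5) (nat_lit 31) (nat_lit 4) (nat_lit 29) (nat_lit 4) (nat_lit 399) (nat_lit 370) (nat_lit 251)) (XT.lf (nat_lit 0) (nat_lit 1120263496760) (nat_lit 76) (nat_lit 1624503688505) (nat_lit 76) (nat_lit 906118051534) (nat_lit 28) (nat_lit 4) (nat_lit 29) (nat_lit 5) (nat_lit 29) (nat_lit 4) (nat_lit 400) (nat_lit 370) (nat_lit 250))))))))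
noncomputable def xc97 : XT := (XT.nd (nat_lit 1638) (nat_lit 76) (nat_lit 0) (XT.nd (nat_lit 780) (nat_lit 684) (nat_lit 0) (XT.nd (nat_lit 390) (nat_lit 456) (nat_lit 0) (XT.nd (nat_lit 156) (nat_lit 380) (nat_lit 0) (XT.nd (nat_lit 78) (nat_lit 76) (nat_lit 0) (XT.lf (nat_lit 0) (nat_lit 1059044850110) (nat_lit 152) (nat_lit 2575690715457) (nat_lit 0) (nat_lit 393872959511) (nat_lit 26) (nat_lit 5) (nat_lit 28) (nat_lit 4) (nat_lit 26) (nat_lit 4) (nat_lit 401) (nat_lit 370) (nat_lit 249)) (XT.lf (nat_lit 0) (nat_lit 1745554069914) (nat_lit 76) (nat_lit 1683801612431) (nat_lit 76) (nat_lit 1018629717906) (nat_lit 25) (nat_lit 4) (nat_lit 26) (nat_lit 5) (nat_lit 26) (nat_lit 4) (nat_lit 402) (nat_lit 370) (nat_lit 248))) (XT.nd (nat_lit 78) (nat_lit 228) (nat_lit 0) (XT.lf (nat_lit 0) (nat_lit 1306577560630) (nat_lit 152) (nat_lit 2919224003324) (nat_lit 0) (nat_lit 690677655133) (nat_lit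 23) (nat_lit 5) (nat_lit 25) (nat_lit 4) (nat_lit 23) (nat_lit 4) (nat_lit 403) (nat_lit 370) (nat_lit 247)) (XT.nd (nat_lit 78) (nat_lit 152) (nat_lit 0) (XT.lf (nat_lit 0) (nat_lit 2147219326586) (nat_lit 76) (nat_lit 1953679638396) (nat_lit 76) (nat_lit 1337779730150) (nat_lit 22) (nat_lit 4) (nat_lit 23) (nat_lit 5) (nat_lit 23) (nat_lit 4) (nat_lit 404) (nat_lit 370) (nat_lit 246)) (XT.lf (nat_lit 0) (nat_lit 1371645113531) (nat_lit 152) (nat_lit 3850920283875) (nat_lit 0) (nat_lit 801367418498) (nat_lit 20) (nat_lit 5) (nat_lit 22) (nat_lit 4) (nat_lit 20) (nat_lit 4) (nat_lit 405) (nat_lit 370) (nat_lit 245))))) (XT.nd (nat_lit 156) (nat_lit 228) (nat_lit 0) (XT.nd (nat_lit 78) (nat_lit 152) (nat_lit 0) (XT.lf (nat_lit 0) (nat_lit 1972307227164) (nat_lit 76) (nat_lit 2638001403840) (nat_lit 76) (nat_lit 2067723706883) (nat_lit 19) (nat_lit 4) (nat_lit 20) (nat_lit 5) (nat_lit 20) (nat_lit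 4) (nat_lit 406) (nat_lit 370) (nat_lit 244)) (XT.lf (nat_lit 0) (nat_lit 1023721106277) (nat_lit 152) (nat_lit 5895943636803) (nat_lit 0) (nat_lit 495686200137) (nat_lit 17) (nat_lit 5) (nat_lit 19) (nat_lit 4) (nat_lit 17) (nat_lit 4) (nat_lit 407) (nat_lit 370) (nat_lit 243))) (XT.nd (nat_lit 78) (nat_lit 152) (nat_lit 0) (XT.lf (nat_lit 0) (nat_lit 607657040192) (nat_lit 76) (nat_lit 4080409663744) (nat_lit 76) (nat_lit 3552374756257) (nat_lit 16) (nat_lit 4) (nat_lit 17) (nat_lit 5) (nat_lit 17) (nat_lit 4) (nat_lit 408) (nat_lit 370) (nat_lit 242)) (XT.nd (nat_lit 78) (nat_lit 152) (nat_lit 0) (XT.lf (nat_lit 0) (nat_lit 8443838216712) (nat_lit 76) (nat_lit 629879961839) (nat_lit 76) (nat_lit 101845053181) (nat_lit 16) (nat_lit 4) (nat_lit 17) (nat_lit 5) (nat_lit 17) (nat_lit 4) (nat_lit 409) (nat_lit 370) (nat_lit 241)) (XT.lf (nat_lit 0) (nat_lit 3940272087627) (nat_lit 152) (nat_lit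 2830498473131) (nat_lit 0) (nat_lit 3451350874963) (nat_lit 14) (nat_lit 5) (nat_lit 16) (nat_lit 4) (nat_lit 14) (nat_lit 4) (nat_lit 410) (nat_lit 370) (nat_lit 240)))))) (XT.nd (nat_lit 390) (nat_lit 228) (nat_lit 0) (XT.nd (nat_lit 156) (nat_lit 228) (nat_lit 0) (XT.nd (nat_lit 78) (nat_lit 152) (nat_lit 0) (XT.lf (nat_lit 0) (nat_lit 5613862130938) (nat_lit 76) (nat_lit 3143276909214) (nat_lit 76) (nat_lit 2654355695730) (nat_lit 13) (nat_lit 4) (nat_lit 14) (nat_lit 5) (nat_lit 14) (nat_lit 4) (nat_lit 411) (nat_lit 370) (nat_lit 239)) (XT.lf (nat_lit 0) (nat_lit 1623524718247) (nat_lit 152) (nat_lit 9967437223187) (nat_lit 0) (nat_lit 1170819890286) (nat_lit 11) (nat_lit 5) (nat_lit 13) (nat_lit 4) (nat_lit 11) (nat_lit 4) (nat_lit 412) (nat_lit 370) (nat_lit 238))) (XT.nd (nat_lit 78) (nat_lit 228) (nat_lit 0) (XT.lf (nat_lit 0) (nat_lit 6650499622571) (nat_lit 152) (nat_lit 1439635638547)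 (nat_lit 0) (nat_lit 6197794794036) (nat_lit 11) (nat_lit 5) (nat_lit 13) (nat_lit 4) (nat_lit 11) (nat_lit 4) (nat_lit 413) (nat_lit 370) (nat_lit 237)) (XT.nd (nat_lit 78) (nat_lit 152) (nat_lit 0) (XT.lf (nat_lit 0) (nat_lit 8807945254015) (nat_lit 76) (nat_lit 3835406792214) (nat_lit 76) (nat_lit 3382701963180) (nat_lit 10) (nat_lit 4) (nat_lit 11) (nat_lit 5) (nat_lit 11) (nat_lit 4) (nat_lit 414) (nat_lit 370) (nat_lit 236)) (XT.lf (nat_lit 0) (nat_lit 1573258810991) (nat_lit 152) (nat_lit 15283558685124) (nat_lit 0) (nat_lit 1154087672595) (nat_lit 8) (nat_lit 5) (nat_lit 10) (nat_lit 4) (nat_lit 8) (nat_lit 4) (nat_lit 415) (nat_lit 370) (nat_lit 235))))) (XT.nd (nat_lit 234) (nat_lit 152) (nat_lit 0) (XT.nd (nat_lit 78) (nat_lit 76) (nat_lit 0) (XT.lf (nat_lit 0) (nat_lit 7399698486469) (nat_lit 152) (nat_lit 5880038897446) (nat_lit 0) (nat_lit 6980527347723) (nat_lit 8) (nat_lit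 5) (nat_lit 10) (nat_lit 4) (nat_lit 8) (nat_lit 4) (nat_lit 416) (nat_lit 370) (nat_lit 234)) (XT.nd (nat_lit 78) (nat_lit 0) (nat_lit 0) (XT.lf (nat_lit 0) (nat_lit 5193825001854) (nat_lit 76) (nat_lit 9031190718806) (nat_lit 76) (nat_lit 8612019579756) (nat_lit 7) (nat_lit 4) (nat_lit 8) (nat_lit 5) (nat_lit 8) (nat_lit 4) (nat_lit 417) (nat_lit 370) (nat_lit 233)) (XT.lf (nat_lit 0) (nat_lit 18284845761576) (nat_lit 76) (nat_lit 3960475776211) (nat_lit 76) (nat_lit 3541304636897) (nat_lit 7) (nat_lit 4) (nat_lit 8) (nat_lit 5) (nat_lit 8) (nat_lit 4) (nat_lit 418) (nat_lit 370) (nat_lit 232)))) (XT.nd (nat_lit 78) (nat_lit 0) (nat_lit 0) (XT.lf (nat_lit 0) (nat_lit 2328529876821) (nat_lit 152) (nat_lit 24893065891244) (nat_lit 0) (nat_lit 1940408451317) (nat_lit 5) (nat_lit 5) (nat_lit 7) (nat_lit 4) (nat_lit 5) (nat_lit 4) (nat_lit 419) (nat_lit 370) (nat_lit 231)) (XT.nd (nat_lit 78)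 (nat_lit 0) (nat_lit 0) (XT.lf (nat_lit 0) (nat_lit 9208732724004) (nat_lit 152) (nat_lit 14979820160652) (nat_lit 0) (nat_lit 8820611298315) (nat_lit 5) (nat_lit 5) (nat_lit 7) (nat_lit 4) (nat_lit 5) (nat_lit 4) (nat_lit 420) (nat_lit 370) (nat_lit 230)) (XT.lf (nat_lit 0) (nat_lit 17120965992390) (nat_lit 152) (nat_lit 3579587582638) (nat_lit 0) (nat_lit 16732844566540) (nat_lit 5) (nat_lit 5) (nat_lit 7) (nat_lit 4) (nat_lit 5) (nat_lit 4) (nat_lit 421) (nat_lit 370) (nat_lit 229))))))) (XT.nd (nat_lit 49686) (nat_lit 0) (nat_lit 3572) (XT.nd (nat_lit 49296) (nat_lit 0) (nat_lit 5700) (XT.nd (nat_lit 156) (nat_lit 0) (nat_lit 0) (XT.nd (nat_lit 78) (nat_lit 0) (nat_lit 0) (XT.lf (nat_lit 0) (nat_lit 10032548583718) (nat_lit 76) (nat_lit 16428768696929) (nat_lit 76) (nat_lit 16040647270939) (nat_lit 4) (nat_lit 4) (nat_lit 5) (nat_lit 5) (nat_lit 5) (nat_lit 4) (nat_lit 422) (nat_lit 370)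 (nat_lit 228)) (XT.lf (nat_lit 0) (nat_lit 25903274114652) (nat_lit 76) (nat_lit 11403662983829) (nat_lit 76) (nat_lit 11015541557718) (nat_lit 4) (nat_lit 4) (nat_lit 5) (nat_lit 5) (nat_lit 5) (nat_lit 4) (nat_lit 423) (nat_lit 370) (nat_lit 227))) (XT.nd (nat_lit 48984) (nat_lit 0) (nat_lit 6232) (XT.lf (nat_lit 0) (nat_lit 44154608466806) (nat_lit 76) (nat_lit 5624791418120) (nat_lit 76) (nat_lit 5236669991903) (nat_lit 4) (nat_lit 4) (nat_lit 5) (nat_lit 5) (nat_lit 5) (nat_lit 4) (nat_lit 424) (nat_lit 370) (nat_lit 226)) (XT.nd (nat_lit 78) (nat_lit 532) (nat_lit 0) (XT.lf (nat_lit 0) (nat_lit 152523613515) (nat_lit 532) (nat_lit 1018976801) (nat_lit 532) (nat_lit 1018976801) (nat_lit 93) (nat_lit 3) (nat_lit 100) (nat_lit 3) (nat_lit 100) (nat_lit 5) (nat_lit 371) (nat_lit 371) (nat_lit 278)) (XT.lf (nat_lit 0) (nat_lit 3283099495) (nat_lit 532) (nat_lit 30111447973) (nat_lit 608)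 (nat_lit 298325610751) (nat_lit 86) (nat_lit 5) (nat_lit 93) (nat_lit 3) (nat_lit 94) (nat_lit 5) (nat_lit 372) (nat_lit 371) (nat_lit 277))))) (XT.nd (nat_lit 156) (nat_lit 608) (nat_lit 0) (XT.nd (nat_lit 78) (nat_lit 0) (nat_lit 76) (XT.lf (nat_lit 0) (nat_lit 25956347005) (nat_lit 532) (nat_lit 55518925102) (nat_lit 608) (nat_lit 275066855982) (nat_lit 87) (nat_lit 5) (nat_lit 94) (nat_lit 5) (nat_lit 95) (nat_lit 5) (nat_lit 373) (nat_lit 371) (nat_lit 276)) (XT.lf (nat_lit 0) (nat_lit 67449806048) (nat_lit 532) (nat_lit 77035183480) (nat_lit 608) (nat_lit 239368865980) (nat_lit 88) (nat_lit 5) (nat_lit 95) (nat_lit 5) (nat_lit 96) (nat_lit 5) (nat_lit 374) (nat_lit 371) (nat_lit 275))) (XT.nd (nat_lit 78) (nat_lit 760) (nat_lit 0) (XT.lf (nat_lit 0) (nat_lit 131694492543) (nat_lit 532) (nat_lit 93369386843) (nat_lit 76) (nat_lit 188876285986) (nat_lit 89) (nat_lit 5) (nat_lit 96) (nat_lit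 5) (nat_lit 90) (nat_lit 5) (nat_lit 375) (nat_lit 371) (nat_lit 274)) (XT.nd (nat_lit 78) (nat_lit 228) (nat_lit 0) (XT.lf (nat_lit 0) (nat_lit 223288681987) (nat_lit 608) (nat_lit 102977844330) (nat_lit 76) (nat_lit 120855871418) (nat_lit 82) (nat_lit 5) (nat_lit 90) (nat_lit 5) (nat_lit 83) (nat_lit 5) (nat_lit 376) (nat_lit 371) (nat_lit 273)) (XT.lf (nat_lit 0) (nat_lit 347603078564) (nat_lit 304) (nat_lit 104022241943) (nat_lit 76) (nat_lit 32138158161) (nat_lit 79) (nat_lit 5) (nat_lit 83) (nat_lit 5) (nat_lit 80) (nat_lit 5) (nat_lit 377) (nat_lit 371) (nat_lit 272)))))) (XT.nd (nat_lit 390) (nat_lit 836) (nat_lit 0) (XT.nd (nat_lit 156) (nat_lit 760) (nat_lit 0) (XT.nd (nat_lit 78) (nat_lit 304) (nat_lit 0) (XT.lf (nat_lit 0) (nat_lit 427738826092) (nat_lit 228) (nat_lit 85212507746) (nat_lit 304) (nat_lit 11158451980) (nat_lit 76) (nat_lit 5) (nat_lit 79) (nat_lit 5) (nat_lit 80)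 (nat_lit 5) (nat_lit 378) (nat_lit 371) (nat_lit 271)) (XT.lf (nat_lit 0) (nat_lit 149576719877) (nat_lit 304) (nat_lit 80720841872) (nat_lit 76) (nat_lit 338066101813) (nat_lit 72) (nat_lit 5) (nat_lit 76) (nat_lit 5) (nat_lit 73) (nat_lit 5) (nat_lit 379) (nat_lit 371) (nat_lit 270))) (XT.nd (nat_lit 78) (nat_lit 532) (nat_lit 0) (XT.lf (nat_lit 0) (nat_lit 358041519561) (nat_lit 304) (nat_lit 51047040248) (nat_lit 76) (nat_lit 208201472219) (nat_lit 69) (nat_lit 5) (nat_lit 73) (nat_lit 5) (nat_lit 70) (nat_lit 5) (nat_lit 380) (nat_lit 371) (nat_lit 269)) (XT.nd (nat_lit 78) (nat_lit 380) (nat_lit 0) (XT.lf (nat_lit 0) (nat_lit 623751216986) (nat_lit 228) (nat_lit 3878607937) (nat_lit 76) (nat_lit 43847516627) (nat_lit 67) (nat_lit 5) (nat_lit 70) (nat_lit 5) (nat_lit 68) (nat_lit 5) (nat_lit 381) (nat_lit 371) (nat_lit 268)) (XT.lf (nat_lit 0) (nat_lit 57830352027) (nat_lit 152) (nat_lit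 162011932700) (nat_lit 228) (nat_lit 510846385297) (nat_lit 62) (nat_lit 5) (nat_lit 64) (nat_lit 5) (nat_lit 65) (nat_lit 5) (nat_lit 382) (nat_lit 371) (nat_lit 267))))) (XT.nd (nat_lit 234) (nat_lit 380) (nat_lit 0) (XT.nd (nat_lit 78) (nat_lit 304) (nat_lit 0) (XT.lf (nat_lit 0) (nat_lit 141194497653) (nat_lit 152) (nat_lit 416281080937) (nat_lit 228) (nat_lit 238586504631) (nat_lit 60) (nat_lit 5) (nat_lit 62) (nat_lit 5) (nat_lit 63) (nat_lit 5) (nat_lit 383) (nat_lit 371) (nat_lit 266)) (XT.nd (nat_lit 78) (nat_lit 152) (nat_lit 0) (XT.lf (nat_lit 0) (nat_lit 105158661077) (nat_lit 152) (nat_lit 617949419141) (nat_lit 76) (nat_lit 145240169234) (nat_lit 58) (nat_lit 5) (nat_lit 60) (nat_lit 5) (nat_lit 59) (nat_lit 5) (nat_lit 384) (nat_lit 371) (nat_lit 265)) (XT.lf (nat_lit 0) (nat_lit 381643954384) (nat_lit 152) (nat_lit 145349090212) (nat_lit 228) (nat_lit 420736177742) (nat_lit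 56) (nat_lit 5) (nat_lit 58) (nat_lit 5) (nat_lit 59) (nat_lit 5) (nat_lit 385) (nat_lit 371) (nat_lit 264)))) (XT.nd (nat_lit 78) (nat_lit 228) (nat_lit 0) (XT.lf (nat_lit 0) (nat_lit 19633538905) (nat_lit 152) (nat_lit 490640961463) (nat_lit 76) (nat_lit 525178472086) (nat_lit 54) (nat_lit 5) (nat_lit 56) (nat_lit 5) (nat_lit 55) (nat_lit 5) (nat_lit 386) (nat_lit 371) (nat_lit 263)) (XT.nd (nat_lit 78) (nat_lit 76) (nat_lit 0) (XT.lf (nat_lit 0) (nat_lit 545503872561) (nat_lit 228) (nat_lit 394485584300) (nat_lit 76) (nat_lit 191922976332) (nat_lit 52) (nat_lit 5) (nat_lit 55) (nat_lit 5) (nat_lit 53) (nat_lit 4) (nat_lit 387) (nat_lit 371) (nat_lit 262)) (XT.lf (nat_lit 0) (nat_lit 971850342947) (nat_lit 76) (nat_lit 230545825540) (nat_lit 152) (nat_lit 36273331579) (nat_lit 51) (nat_lit 5) (nat_lit 52) (nat_lit 5) (nat_lit 53) (nat_lit 4) (nat_lit 388) (nat_lit 371) (nat_lit 261))))))))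
noncomputable def xc98 : XT := (XT.nd (nat_lit 1638) (nat_lit 912) (nat_lit 0) (XT.nd (nat_lit 780) (nat_lit 1216) (nat_lit 0) (XT.nd (nat_lit 390) (nat_lit 684) (nat_lit 0) (XT.nd (nat_lit 156) (nat_lit 380) (nat_lit 0) (XT.nd (nat_lit 78) (nat_lit 152) (nat_lit 0) (XT.lf (nat_lit 0) (nat_lit 624044920918) (nat_lit 228) (nat_lit 117851128834) (nat_lit 76) (nat_lit 613796941461) (nat_lit 48) (nat_lit 5) (nat_lit 51) (nat_lit 5) (nat_lit 49) (nat_lit 4) (nat_lit 389) (nat_lit 371) (nat_lit 260)) (XT.lf (nat_lit 0) (nat_lit 80246043976) (nat_lit 76) (nat_lit 1358180622321) (nat_lit 76) (nat_lit 47194883297) (nat_lit 46) (nat_lit 4) (nat_lit 47) (nat_lit 5) (nat_lit 47) (nat_lit 4) (nat_lit 390) (nat_lit 371) (nat_lit 259))) (XT.nd (nat_lit 78) (nat_lit 228) (nat_lit 0) (XT.lf (nat_lit 0) (nat_lit 308649862872) (nat_lit 76) (nat_lit 470021112662) (nat_lit 152) (nat_lit 848884092361) (nat_lit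 44) (nat_lit 5) (nat_lit 45) (nat_lit 5) (nat_lit 46) (nat_lit 4) (nat_lit 391) (nat_lit 371) (nat_lit 258)) (XT.nd (nat_lit 78) (nat_lit 76) (nat_lit 0) (XT.lf (nat_lit 0) (nat_lit 9542385427) (nat_lit 152) (nat_lit 1194027569707) (nat_lit 76) (nat_lit 581528067559) (nat_lit 42) (nat_lit 5) (nat_lit 44) (nat_lit 5) (nat_lit 43) (nat_lit 4) (nat_lit 392) (nat_lit 371) (nat_lit 257)) (XT.lf (nat_lit 0) (nat_lit 912376482245) (nat_lit 76) (nat_lit 109860168089) (nat_lit 152) (nat_lit 936210477251) (nat_lit 41) (nat_lit 5) (nat_lit 42) (nat_lit 5) (nat_lit 43) (nat_lit 4) (nat_lit 393) (nat_lit 371) (nat_lit 256))))) (XT.nd (nat_lit 156) (nat_lit 456) (nat_lit 0) (XT.nd (nat_lit 78) (nat_lit 76) (nat_lit 0) (XT.lf (nat_lit 0) (nat_lit 124280020692) (nat_lit 152) (nat_lit 865456600497) (nat_lit 76) (nat_lit 1160270424017) (nat_lit 39) (nat_lit 5) (nat_lit 41) (nat_lit 5) (nat_lit 40) (nat_lit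 4) (nat_lit 394) (nat_lit 371) (nat_lit 255)) (XT.lf (nat_lit 0) (nat_lit 1373987469168) (nat_lit 152) (nat_lit 654237271482) (nat_lit 0) (nat_lit 333284638724) (nat_lit 38) (nat_lit 5) (nat_lit 40) (nat_lit 4) (nat_lit 38) (nat_lit 4) (nat_lit 395) (nat_lit 371) (nat_lit 254))) (XT.nd (nat_lit 78) (nat_lit 304) (nat_lit 0) (XT.lf (nat_lit 0) (nat_lit 304918309672) (nat_lit 152) (nat_lit 406472757065) (nat_lit 76) (nat_lit 1884242455952) (nat_lit 36) (nat_lit 5) (nat_lit 38) (nat_lit 5) (nat_lit 37) (nat_lit 4) (nat_lit 396) (nat_lit 371) (nat_lit 253)) (XT.nd (nat_lit 78) (nat_lit 228) (nat_lit 0) (XT.lf (nat_lit 0) (nat_lit 1842213240161) (nat_lit 152) (nat_lit 133254684515) (nat_lit 0) (nat_lit 878599489673) (nat_lit 35) (nat_lit 5) (nat_lit 37) (nat_lit 4) (nat_lit 35) (nat_lit 4) (nat_lit 397) (nat_lit 371) (nat_lit 252)) (XT.lf (nat_lit 0) (nat_lit 191862178192) (nat_lit 76) (nat_lit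 363655098826) (nat_lit 152) (nat_lit 2585295583946) (nat_lit 32) (nat_lit 5) (nat_lit 33) (nat_lit 5) (nat_lit 34) (nat_lit 4) (nat_lit 398) (nat_lit 371) (nat_lit 251)))))) (XT.nd (nat_lit 390) (nat_lit 684) (nat_lit 0) (XT.nd (nat_lit 156) (nat_lit 304) (nat_lit 0) (XT.nd (nat_lit 78) (nat_lit 152) (nat_lit 0) (XT.lf (nat_lit 0) (nat_lit 534833586825) (nat_lit 76) (nat_lit 1907177295591) (nat_lit 76) (nat_lit 1014942328418) (nat_lit 31) (nat_lit 4) (nat_lit 32) (nat_lit 5) (nat_lit 32) (nat_lit 4) (nat_lit 399) (nat_lit 371) (nat_lit 250)) (XT.lf (nat_lit 0) (nat_lit 872870005345) (nat_lit 152) (nat_lit 2889678414728) (nat_lit 0) (nat_lit 46726512346) (nat_lit 29) (nat_lit 5) (nat_lit 31) (nat_lit 4) (nat_lit 29) (nat_lit 4) (nat_lit 400) (nat_lit 371) (nat_lit 249))) (XT.nd (nat_lit 78) (nat_lit 228) (nat_lit 0) (XT.lf (nat_lit 0) (nat_lit 1288303589890) (nat_lit 76) (nat_lit 1868178953615)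 (nat_lit 76) (nat_lit 1042035456376) (nat_lit 28) (nat_lit 4) (nat_lit 29) (nat_lit 5) (nat_lit 29) (nat_lit 4) (nat_lit 401) (nat_lit 371) (nat_lit 248)) (XT.nd (nat_lit 78) (nat_lit 76) (nat_lit 0) (XT.lf (nat_lit 0) (nat_lit 1217901847208) (nat_lit 152) (nat_lit 2962043773898) (nat_lit 0) (nat_lit 452954161166) (nat_lit 26) (nat_lit 5) (nat_lit 28) (nat_lit 4) (nat_lit 26) (nat_lit 4) (nat_lit 402) (nat_lit 371) (nat_lit 247)) (XT.lf (nat_lit 0) (nat_lit 2007387682819) (nat_lit 76) (nat_lit 1936371598379) (nat_lit 76) (nat_lit 1171423909369) (nat_lit 25) (nat_lit 4) (nat_lit 26) (nat_lit 5) (nat_lit 26) (nat_lit 4) (nat_lit 403) (nat_lit 371) (nat_lit 246))))) (XT.nd (nat_lit 234) (nat_lit 304) (nat_lit 0) (XT.nd (nat_lit 78) (nat_lit 228) (nat_lit 0) (XT.lf (nat_lit 0) (nat_lit 1502564431788) (nat_lit 152) (nat_lit 3357107119028) (nat_lit 0) (nat_lit 794279532167) (nat_lit 23) (nat_lit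 5) (nat_lit 25) (nat_lit 4) (nat_lit 23) (nat_lit 4) (nat_lit 404) (nat_lit 371) (nat_lit 245)) (XT.nd (nat_lit 78) (nat_lit 152) (nat_lit 0) (XT.lf (nat_lit 0) (nat_lit 2469302669334) (nat_lit 76) (nat_lit 2246731357211) (nat_lit 76) (nat_lit 1538446455512) (nat_lit 22) (nat_lit 4) (nat_lit 23) (nat_lit 5) (nat_lit 23) (nat_lit 4) (nat_lit 405) (nat_lit 371) (nat_lit 244)) (XT.lf (nat_lit 0) (nat_lit 1577392089154) (nat_lit 152) (nat_lit 4428557898392) (nat_lit 0) (nat_lit 921572734055) (nat_lit 20) (nat_lit 5) (nat_lit 22) (nat_lit 4) (nat_lit 20) (nat_lit 4) (nat_lit 406) (nat_lit 371) (nat_lit 243)))) (XT.nd (nat_lit 78) (nat_lit 228) (nat_lit 0) (XT.lf (nat_lit 0) (nat_lit 2268153703069) (nat_lit 76) (nat_lit 3033701413395) (nat_lit 76) (nat_lit 2377882056841) (nat_lit 19) (nat_lit 4) (nat_lit 20) (nat_lit 5) (nat_lit 20) (nat_lit 4) (nat_lit 407) (nat_lit 371) (nat_lit 242)) (XT.nd (nat_lit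 78) (nat_lit 76) (nat_lit 0) (XT.lf (nat_lit 0) (nat_lit 1177279455848) (nat_lit 152) (nat_lit 6780334804441) (nat_lit 0) (nat_lit 570039309720) (nat_lit 17) (nat_lit 5) (nat_lit 19) (nat_lit 4) (nat_lit 17) (nat_lit 4) (nat_lit 408) (nat_lit 371) (nat_lit 241)) (XT.lf (nat_lit 0) (nat_lit 698805942118) (nat_lit 76) (nat_lit 4692470935406) (nat_lit 76) (nat_lit 4085230788259) (nat_lit 16) (nat_lit 4) (nat_lit 17) (nat_lit 5) (nat_lit 17) (nat_lit 4) (nat_lit 409) (nat_lit 371) (nat_lit 240))))))) (XT.nd (nat_lit 780) (nat_lit 228) (nat_lit 0) (XT.nd (nat_lit 390) (nat_lit 304) (nat_lit 0) (XT.nd (nat_lit 156) (nat_lit 228) (nat_lit 0) (XT.nd (nat_lit 78) (nat_lit 152) (nat_lit 0) (XT.lf (nat_lit 0) (nat_lit 9710414249998) (nat_lit 76) (nat_lit 724361801419) (nat_lit 76) (nat_lit 117121653387) (nat_lit 16) (nat_lit 4) (nat_lit 17) (nat_lit 5) (nat_lit 17) (nat_lit 4) (nat_lit 410) (nat_lit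 371) (nat_lit 239)) (XT.lf (nat_lit 0) (nat_lit 4531313041393) (nat_lit 152) (nat_lit 3255072954083) (nat_lit 0) (nat_lit 3969053644353) (nat_lit 14) (nat_lit 5) (nat_lit 16) (nat_lit 4) (nat_lit 14) (nat_lit 4) (nat_lit 411) (nat_lit 371) (nat_lit 238))) (XT.nd (nat_lit 78) (nat_lit 152) (nat_lit 0) (XT.lf (nat_lit 0) (nat_lit 6455941716049) (nat_lit 76) (nat_lit 3614768308792) (nat_lit 76) (nat_lit 3052508911132) (nat_lit 13) (nat_lit 4) (nat_lit 14) (nat_lit 5) (nat_lit 14) (nat_lit 4) (nat_lit 412) (nat_lit 371) (nat_lit 237)) (XT.nd (nat_lit 78) (nat_lit 0) (nat_lit 0) (XT.lf (nat_lit 0) (nat_lit 1867053549862) (nat_lit 152) (nat_lit 11462552550733) (nat_lit 0) (nat_lit 1346442995973) (nat_lit 11) (nat_lit 5) (nat_lit 13) (nat_lit 4) (nat_lit 11) (nat_lit 4) (nat_lit 413) (nat_lit 371) (nat_lit 236)) (XT.lf (nat_lit 0) (nat_lit 7648074673677) (nat_lit 152) (nat_lit 1655580761779) (nat_lit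 0) (nat_lit 7127464119354) (nat_lit 11) (nat_lit 5) (nat_lit 13) (nat_lit 4) (nat_lit 11) (nat_lit 4) (nat_lit 414) (nat_lit 371) (nat_lit 235))))) (XT.nd (nat_lit 156) (nat_lit 76) (nat_lit 0) (XT.nd (nat_lit 78) (nat_lit 152) (nat_lit 0) (XT.lf (nat_lit 0) (nat_lit 10129137245830) (nat_lit 76) (nat_lit 4410717705902) (nat_lit 76) (nat_lit 3890107151202) (nat_lit 10) (nat_lit 4) (nat_lit 11) (nat_lit 5) (nat_lit 11) (nat_lit 4) (nat_lit 415) (nat_lit 371) (nat_lit 234)) (XT.lf (nat_lit 0) (nat_lit 1809247727556) (nat_lit 152) (nat_lit 17576092291521) (nat_lit 0) (nat_lit 1327200917345) (nat_lit 8) (nat_lit 5) (nat_lit 10) (nat_lit 4) (nat_lit 8) (nat_lit 4) (nat_lit 416) (nat_lit 371) (nat_lit 233))) (XT.nd (nat_lit 78) (nat_lit 76) (nat_lit 0) (XT.lf (nat_lit 0) (nat_lit 8509653341976) (nat_lit 152) (nat_lit 6762044561306) (nat_lit 0) (nat_lit 8027606531500) (nat_lit 8) (nat_lit 5) (nat_lit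 10) (nat_lit 4) (nat_lit 8) (nat_lit 4) (nat_lit 417) (nat_lit 371) (nat_lit 232)) (XT.nd (nat_lit 78) (nat_lit 0) (nat_lit 0) (XT.lf (nat_lit 0) (nat_lit 5972898908435) (nat_lit 76) (nat_lit 10385869245853) (nat_lit 76) (nat_lit 9903822435147) (nat_lit 7) (nat_lit 4) (nat_lit 8) (nat_lit 5) (nat_lit 8) (nat_lit 4) (nat_lit 418) (nat_lit 371) (nat_lit 231)) (XT.lf (nat_lit 0) (nat_lit 21027572761729) (nat_lit 76) (nat_lit 4554547072404) (nat_lit 76) (nat_lit 4072500261499) (nat_lit 7) (nat_lit 4) (nat_lit 8) (nat_lit 5) (nat_lit 8) (nat_lit 4) (nat_lit 419) (nat_lit 371) (nat_lit 230)))))) (XT.nd (nat_lit 49374) (nat_lit 0) (nat_lit 5928) (XT.nd (nat_lit 156) (nat_lit 76) (nat_lit 0) (XT.nd (nat_lit 78) (nat_lit 0) (nat_lit 0) (XT.lf (nat_lit 0) (nat_lit 2677809421597) (nat_lit 152) (nat_lit 28627025643925) (nat_lit 0) (nat_lit 2231469781708) (nat_lit 5) (nat_lit 5) (nat_lit 7) (nat_lit 4)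 (nat_lit 5) (nat_lit 4) (nat_lit 420) (nat_lit 371) (nat_lit 229)) (XT.lf (nat_lit 0) (nat_lit 10590042687607) (nat_lit 152) (nat_lit 17226793070832) (nat_lit 0) (nat_lit 10143703047579) (nat_lit 5) (nat_lit 5) (nat_lit 7) (nat_lit 4) (nat_lit 5) (nat_lit 4) (nat_lit 421) (nat_lit 371) (nat_lit 228))) (XT.nd (nat_lit 78) (nat_lit 76) (nat_lit 0) (XT.lf (nat_lit 0) (nat_lit 19689110939077) (nat_lit 152) (nat_lit 4116525620975) (nat_lit 0) (nat_lit 19242771298927) (nat_lit 5) (nat_lit 5) (nat_lit 7) (nat_lit 4) (nat_lit 5) (nat_lit 4) (nat_lit 422) (nat_lit 371) (nat_lit 227)) (XT.nd (nat_lit 78) (nat_lit 0) (nat_lit 0) (XT.lf (nat_lit 0) (nat_lit 11537430961950) (nat_lit 76) (nat_lit 18893083954564) (nat_lit 76) (nat_lit 18446744314308) (nat_lit 4) (nat_lit 4) (nat_lit 5) (nat_lit 5) (nat_lit 5) (nat_lit 4) (nat_lit 423) (nat_lit 371) (nat_lit 226)) (XT.lf (nat_lit 0) (nat_lit 29788765310697)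 (nat_lit 76) (nat_lit 13114212390617) (nat_lit 76) (nat_lit 12667872750269) (nat_lit 4) (nat_lit 4) (nat_lit 5) (nat_lit 5) (nat_lit 5) (nat_lit 4) (nat_lit 424) (nat_lit 371) (nat_lit 225))))) (XT.nd (nat_lit 234) (nat_lit 304) (nat_lit 0) (XT.nd (nat_lit 78) (nat_lit 532) (nat_lit 0) (XT.lf (nat_lit 0) (nat_lit 175403271891) (nat_lit 532) (nat_lit 1171220419) (nat_lit 532) (nat_lit 1171220419) (nat_lit 93) (nat_lit 3) (nat_lit 100) (nat_lit 3) (nat_lit 100) (nat_lit 5) (nat_lit 372) (nat_lit 372) (nat_lit 276)) (XT.nd (nat_lit 78) (nat_lit 0) (nat_lit 76) (XT.lf (nat_lit 0) (nat_lit 3777583805) (nat_lit 532) (nat_lit 34626954852) (nat_lit 608) (nat_lit 343073481506) (nat_lit 86) (nat_lit 5) (nat_lit 93) (nat_lit 3) (nat_lit 94) (nat_lit 5) (nat_lit 373) (nat_lit 372) (nat_lit 275)) (XT.lf (nat_lit 0) (nat_lit 29851565459) (nat_lit 532) (nat_lit 63845496950) (nat_lit 608) (nat_lit 316326243372)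 (nat_lit 87) (nat_lit 5) (nat_lit 94) (nat_lit 5) (nat_lit 95) (nat_lit 5) (nat_lit 374) (nat_lit 372) (nat_lit 274)))) (XT.nd (nat_lit 78) (nat_lit 456) (nat_lit 0) (XT.lf (nat_lit 0) (nat_lit 77568831127) (nat_lit 532) (nat_lit 88589166309) (nat_lit 608) (nat_lit 275273811884) (nat_lit 88) (nat_lit 5) (nat_lit 95) (nat_lit 5) (nat_lit 96) (nat_lit 5) (nat_lit 375) (nat_lit 372) (nat_lit 273)) (XT.nd (nat_lit 78) (nat_lit 532) (nat_lit 0) (XT.lf (nat_lit 0) (nat_lit 151450041694) (nat_lit 532) (nat_lit 107373494526) (nat_lit 76) (nat_lit 217207543779) (nat_lit 89) (nat_lit 5) (nat_lit 96) (nat_lit 5) (nat_lit 90) (nat_lit 5) (nat_lit 376) (nat_lit 372) (nat_lit 272)) (XT.lf (nat_lit 0) (nat_lit 256783207975) (nat_lit 608) (nat_lit 118423231781) (nat_lit 76) (nat_lit 138984219607) (nat_lit 82) (nat_lit 5) (nat_lit 90) (nat_lit 5) (nat_lit 83) (nat_lit 5) (nat_lit 377) (nat_lit 372) (nat_lit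 271))))))))
noncomputable def xc99 : XT := (XT.nd (nat_lit 1638) (nat_lit 2128) (nat_lit 0) (XT.nd (nat_lit 780) (nat_lit 1444) (nat_lit 0) (XT.nd (nat_lit 390) (nat_lit 988) (nat_lit 0) (XT.nd (nat_lit 156) (nat_lit 684) (nat_lit 0) (XT.nd (nat_lit 78) (nat_lit 228) (nat_lit 0) (XT.lf (nat_lit 0) (nat_lit 399744634915) (nat_lit 304) (nat_lit 119624312751) (nat_lit 76) (nat_lit 36958965118) (nat_lit 79) (nat_lit 5) (nat_lit 83) (nat_lit 5) (nat_lit 80) (nat_lit 5) (nat_lit 378) (nat_lit 372) (nat_lit 270)) (XT.lf (nat_lit 0) (nat_lit 491900808372) (nat_lit 228) (nat_lit 97994205197) (nat_lit 304) (nat_lit 12831161646) (nat_lit 76) (nat_lit 5) (nat_lit 79) (nat_lit 5) (nat_lit 80) (nat_lit 5) (nat_lit 379) (nat_lit 372) (nat_lit 269))) (XT.nd (nat_lit 78) (nat_lit 380) (nat_lit 0) (XT.lf (nat_lit 0) (nat_lit 172014133617) (nat_lit 304) (nat_lit 92827792158) (nat_lit 76) (nat_lit 388776214777)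 (nat_lit 72) (nat_lit 5) (nat_lit 76) (nat_lit 5) (nat_lit 73) (nat_lit 5) (nat_lit 380) (nat_lit 372) (nat_lit 268)) (XT.nd (nat_lit 78) (nat_lit 152) (nat_lit 0) (XT.lf (nat_lit 0) (nat_lit 411748567324) (nat_lit 304) (nat_lit 58702961004) (nat_lit 76) (nat_lit 239431942845) (nat_lit 69) (nat_lit 5) (nat_lit 73) (nat_lit 5) (nat_lit 70) (nat_lit 5) (nat_lit 381) (nat_lit 372) (nat_lit 267)) (XT.lf (nat_lit 0) (nat_lit 717314644667) (nat_lit 228) (nat_lit 4459308094) (nat_lit 76) (nat_lit 50424930347) (nat_lit 67) (nat_lit 5) (nat_lit 70) (nat_lit 5) (nat_lit 68) (nat_lit 5) (nat_lit 382) (nat_lit 372) (nat_lit 266))))) (XT.nd (nat_lit 156) (nat_lit 456) (nat_lit 0) (XT.nd (nat_lit 78) (nat_lit 152) (nat_lit 0) (XT.lf (nat_lit 0) (nat_lit 66505994374) (nat_lit 152) (nat_lit 186313348732) (nat_lit 228) (nat_lit 587472570118) (nat_lit 62) (nat_lit 5) (nat_lit 64) (nat_lit 5) (nat_lit 65) (nat_lit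 5) (nat_lit 383) (nat_lit 372) (nat_lit 265)) (XT.lf (nat_lit 0) (nat_lit 162374713843) (nat_lit 152) (nat_lit 478722856726) (nat_lit 228) (nat_lit 274373772677) (nat_lit 60) (nat_lit 5) (nat_lit 62) (nat_lit 5) (nat_lit 63) (nat_lit 5) (nat_lit 384) (nat_lit 372) (nat_lit 264))) (XT.nd (nat_lit 78) (nat_lit 304) (nat_lit 0) (XT.lf (nat_lit 0) (nat_lit 120933077592) (nat_lit 152) (nat_lit 710640806574) (nat_lit 76) (nat_lit 167026553280) (nat_lit 58) (nat_lit 5) (nat_lit 60) (nat_lit 5) (nat_lit 59) (nat_lit 5) (nat_lit 385) (nat_lit 372) (nat_lit 263)) (XT.nd (nat_lit 78) (nat_lit 152) (nat_lit 0) (XT.lf (nat_lit 0) (nat_lit 438891486182) (nat_lit 152) (nat_lit 167151074507) (nat_lit 228) (nat_lit 483846000217) (nat_lit 56) (nat_lit 5) (nat_lit 58) (nat_lit 5) (nat_lit 59) (nat_lit 5) (nat_lit 386) (nat_lit 372) (nat_lit 262)) (XT.lf (nat_lit 0) (nat_lit 22579098982) (nat_lit 152) (nat_lit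 564236185955) (nat_lit 76) (nat_lit 603955591021) (nat_lit 54) (nat_lit 5) (nat_lit 56) (nat_lit 5) (nat_lit 55) (nat_lit 5) (nat_lit 387) (nat_lit 372) (nat_lit 261)))))) (XT.nd (nat_lit 390) (nat_lit 684) (nat_lit 0) (XT.nd (nat_lit 156) (nat_lit 532) (nat_lit 0) (XT.nd (nat_lit 78) (nat_lit 76) (nat_lit 0) (XT.lf (nat_lit 0) (nat_lit 627329942594) (nat_lit 228) (nat_lit 453657550302) (nat_lit 76) (nat_lit 220711766123) (nat_lit 52) (nat_lit 5) (nat_lit 55) (nat_lit 5) (nat_lit 53) (nat_lit 4) (nat_lit 388) (nat_lit 372) (nat_lit 260)) (XT.lf (nat_lit 0) (nat_lit 1117628692252) (nat_lit 76) (nat_lit 265127346044) (nat_lit 152) (nat_lit 41713851198) (nat_lit 51) (nat_lit 5) (nat_lit 52) (nat_lit 5) (nat_lit 53) (nat_lit 4) (nat_lit 389) (nat_lit 372) (nat_lit 259))) (XT.nd (nat_lit 78) (nat_lit 304) (nat_lit 0) (XT.lf (nat_lit 0) (nat_lit 717652081877) (nat_lit 228) (nat_lit 135528020760)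 (nat_lit 76) (nat_lit 705866803417) (nat_lit 48) (nat_lit 5) (nat_lit 51) (nat_lit 5) (nat_lit 49) (nat_lit 4) (nat_lit 390) (nat_lit 372) (nat_lit 258)) (XT.nd (nat_lit 78) (nat_lit 152) (nat_lit 0) (XT.lf (nat_lit 0) (nat_lit 92283723784) (nat_lit 76) (nat_lit 1561907353699) (nat_lit 76) (nat_lit 54273671638) (nat_lit 46) (nat_lit 4) (nat_lit 47) (nat_lit 5) (nat_lit 47) (nat_lit 4) (nat_lit 391) (nat_lit 372) (nat_lit 257)) (XT.lf (nat_lit 0) (nat_lit 354948070415) (nat_lit 76) (nat_lit 540523935861) (nat_lit 152) (nat_lit 976216291041) (nat_lit 44) (nat_lit 5) (nat_lit 45) (nat_lit 5) (nat_lit 46) (nat_lit 4) (nat_lit 392) (nat_lit 372) (nat_lit 256))))) (XT.nd (nat_lit 234) (nat_lit 304) (nat_lit 0) (XT.nd (nat_lit 78) (nat_lit 228) (nat_lit 0) (XT.lf (nat_lit 0) (nat_lit 10974110530) (nat_lit 152) (nat_lit 1373130998740) (nat_lit 76) (nat_lit 668757587435) (nat_lit 42) (nat_lit 5) (nat_lit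 44) (nat_lit 5) (nat_lit 43) (nat_lit 4) (nat_lit 393) (nat_lit 372) (nat_lit 255)) (XT.nd (nat_lit 78) (nat_lit 152) (nat_lit 0) (XT.lf (nat_lit 0) (nat_lit 1049233601210) (nat_lit 76) (nat_lit 126338881608) (nat_lit 152) (nat_lit 1076641687104) (nat_lit 41) (nat_lit 5) (nat_lit 42) (nat_lit 5) (nat_lit 43) (nat_lit 4) (nat_lit 394) (nat_lit 372) (nat_lit 254)) (XT.lf (nat_lit 0) (nat_lit 142922344342) (nat_lit 152) (nat_lit 995274464121) (nat_lit 76) (nat_lit 1334311267875) (nat_lit 39) (nat_lit 5) (nat_lit 41) (nat_lit 5) (nat_lit 40) (nat_lit 4) (nat_lit 395) (nat_lit 372) (nat_lit 253)))) (XT.nd (nat_lit 78) (nat_lit 228) (nat_lit 0) (XT.lf (nat_lit 0) (nat_lit 1580085888826) (nat_lit 152) (nat_lit 752372272127) (nat_lit 0) (nat_lit 383277601380) (nat_lit 38) (nat_lit 5) (nat_lit 40) (nat_lit 4) (nat_lit 38) (nat_lit 4) (nat_lit 396) (nat_lit 372) (nat_lit 252)) (XT.nd (nat_lit 78) (nat_lit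 76) (nat_lit 0) (XT.lf (nat_lit 0) (nat_lit 350656336460) (nat_lit 152) (nat_lit 467443115729) (nat_lit 76) (nat_lit 2166879076473) (nat_lit 36) (nat_lit 5) (nat_lit 38) (nat_lit 5) (nat_lit 37) (nat_lit 4) (nat_lit 397) (nat_lit 372) (nat_lit 251)) (XT.lf (nat_lit 0) (nat_lit 2118545488231) (nat_lit 152) (nat_lit 153242364842) (nat_lit 0) (nat_lit 1010389652462) (nat_lit 35) (nat_lit 5) (nat_lit 37) (nat_lit 4) (nat_lit 35) (nat_lit 4) (nat_lit 398) (nat_lit 372) (nat_lit 250))))))) (XT.nd (nat_lit 780) (nat_lit 912) (nat_lit 0) (XT.nd (nat_lit 390) (nat_lit 532) (nat_lit 0) (XT.nd (nat_lit 156) (nat_lit 380) (nat_lit 0) (XT.nd (nat_lit 78) (nat_lit 76) (nat_lit 0) (XT.lf (nat_lit 0) (nat_lit 220642021851) (nat_lit 76) (nat_lit 418203104738) (nat_lit 152) (nat_lit 2973089642875) (nat_lit 32) (nat_lit 5) (nat_lit 33) (nat_lit 5) (nat_lit 34) (nat_lit 4) (nat_lit 399) (nat_lit 372) (nat_lit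 249)) (XT.lf (nat_lit 0) (nat_lit 615059111221) (nat_lit 76) (nat_lit 2193253645034) (nat_lit 76) (nat_lit 1167183416885) (nat_lit 31) (nat_lit 4) (nat_lit 32) (nat_lit 5) (nat_lit 32) (nat_lit 4) (nat_lit 400) (nat_lit 372) (nat_lit 248))) (XT.nd (nat_lit 78) (nat_lit 228) (nat_lit 0) (XT.lf (nat_lit 0) (nat_lit 1003800738125) (nat_lit 152) (nat_lit 3323129707223) (nat_lit 0) (nat_lit 53735708375) (nat_lit 29) (nat_lit 5) (nat_lit 31) (nat_lit 4) (nat_lit 29) (nat_lit 4) (nat_lit 401) (nat_lit 372) (nat_lit 247)) (XT.nd (nat_lit 78) (nat_lit 152) (nat_lit 0) (XT.lf (nat_lit 0) (nat_lit 1481549558329) (nat_lit 76) (nat_lit 2148405578762) (nat_lit 76) (nat_lit 1198340545806) (nat_lit 28) (nat_lit 4) (nat_lit 29) (nat_lit 5) (nat_lit 29) (nat_lit 4) (nat_lit 402) (nat_lit 372) (nat_lit 246)) (XT.lf (nat_lit 0) (nat_lit 1400587328131) (nat_lit 152) (nat_lit 3406349924952) (nat_lit 0) (nat_lit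 520897480221) (nat_lit 26) (nat_lit 5) (nat_lit 28) (nat_lit 4) (nat_lit 26) (nat_lit 4) (nat_lit 403) (nat_lit 372) (nat_lit 245))))) (XT.nd (nat_lit 156) (nat_lit 304) (nat_lit 0) (XT.nd (nat_lit 78) (nat_lit 152) (nat_lit 0) (XT.lf (nat_lit 0) (nat_lit 2308496215143) (nat_lit 76) (nat_lit 2226827144626) (nat_lit 76) (nat_lit 1347137294471) (nat_lit 25) (nat_lit 4) (nat_lit 26) (nat_lit 5) (nat_lit 26) (nat_lit 4) (nat_lit 404) (nat_lit 372) (nat_lit 244)) (XT.lf (nat_lit 0) (nat_lit 1727949275811) (nat_lit 152) (nat_lit 3860672820308) (nat_lit 0) (nat_lit 913421634971) (nat_lit 23) (nat_lit 5) (nat_lit 25) (nat_lit 4) (nat_lit 23) (nat_lit 4) (nat_lit 405) (nat_lit 372) (nat_lit 243))) (XT.nd (nat_lit 78) (nat_lit 228) (nat_lit 0) (XT.lf (nat_lit 0) (nat_lit 2839698405279) (nat_lit 76) (nat_lit 2583740889190) (nat_lit 76) (nat_lit 1769213246779) (nat_lit 22) (nat_lit 4) (nat_lit 23) (nat_lit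 5) (nat_lit 23) (nat_lit 4) (nat_lit 406) (nat_lit 372) (nat_lit 242)) (XT.nd (nat_lit 78) (nat_lit 76) (nat_lit 0) (XT.lf (nat_lit 0) (nat_lit 1814001060254) (nat_lit 152) (nat_lit 5092841259472) (nat_lit 0) (nat_lit 1059808797497) (nat_lit 20) (nat_lit 5) (nat_lit 22) (nat_lit 4) (nat_lit 20) (nat_lit 4) (nat_lit 407) (nat_lit 372) (nat_lit 241)) (XT.lf (nat_lit 0) (nat_lit 2608377054810) (nat_lit 76) (nat_lit 3488756473402) (nat_lit 76) (nat_lit 2734564209546) (nat_lit 19) (nat_lit 4) (nat_lit 20) (nat_lit 5) (nat_lit 20) (nat_lit 4) (nat_lit 408) (nat_lit 372) (nat_lit 240)))))) (XT.nd (nat_lit 390) (nat_lit 456) (nat_lit 0) (XT.nd (nat_lit 156) (nat_lit 228) (nat_lit 0) (XT.nd (nat_lit 78) (nat_lit 76) (nat_lit 0) (XT.lf (nat_lit 0) (nat_lit 1353871513076) (nat_lit 152) (nat_lit 7797384739374) (nat_lit 0) (nat_lit 655545341952) (nat_lit 17) (nat_lit 5) (nat_lit 19) (nat_lit 4) (nat_lit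 17) (nat_lit 4) (nat_lit 409) (nat_lit 372) (nat_lit 239)) (XT.lf (nat_lit 0) (nat_lit 803627094983) (nat_lit 76) (nat_lit 5396341441199) (nat_lit 76) (nat_lit 4698015269305) (nat_lit 16) (nat_lit 4) (nat_lit 17) (nat_lit 5) (nat_lit 17) (nat_lit 4) (nat_lit 410) (nat_lit 372) (nat_lit 238))) (XT.nd (nat_lit 78) (nat_lit 228) (nat_lit 0) (XT.lf (nat_lit 0) (nat_lit 11166976614931) (nat_lit 76) (nat_lit 833015954660) (nat_lit 76) (nat_lit 134689782097) (nat_lit 16) (nat_lit 4) (nat_lit 17) (nat_lit 5) (nat_lit 17) (nat_lit 4) (nat_lit 411) (nat_lit 372) (nat_lit 237)) (XT.nd (nat_lit 78) (nat_lit 76) (nat_lit 0) (XT.lf (nat_lit 0) (nat_lit 5211010103933) (nat_lit 152) (nat_lit 3743333677900) (nat_lit 0) (nat_lit 4564411795464) (nat_lit 14) (nat_lit 5) (nat_lit 16) (nat_lit 4) (nat_lit 14) (nat_lit 4) (nat_lit 412) (nat_lit 372) (nat_lit 236)) (XT.lf (nat_lit 0) (nat_lit 7424333174189) (nat_lit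 76) (nat_lit 4156983451667) (nat_lit 76) (nat_lit 3510385142729) (nat_lit 13) (nat_lit 4) (nat_lit 14) (nat_lit 5) (nat_lit 14) (nat_lit 4) (nat_lit 413) (nat_lit 372) (nat_lit 235))))) (XT.nd (nat_lit 234) (nat_lit 228) (nat_lit 0) (XT.nd (nat_lit 78) (nat_lit 76) (nat_lit 0) (XT.lf (nat_lit 0) (nat_lit 2147111676011) (nat_lit 152) (nat_lit 13181935239821) (nat_lit 0) (nat_lit 1548409537728) (nat_lit 11) (nat_lit 5) (nat_lit 13) (nat_lit 4) (nat_lit 11) (nat_lit 4) (nat_lit 414) (nat_lit 372) (nat_lit 234)) (XT.nd (nat_lit 78) (nat_lit 76) (nat_lit 0) (XT.lf (nat_lit 0) (nat_lit 8795285956180) (nat_lit 152) (nat_lit 1903917707766) (nat_lit 0) (nat_lit 8196583817569) (nat_lit 11) (nat_lit 5) (nat_lit 13) (nat_lit 4) (nat_lit 11) (nat_lit 4) (nat_lit 415) (nat_lit 372) (nat_lit 233)) (XT.lf (nat_lit 0) (nat_lit 11648507986740) (nat_lit 76) (nat_lit 5072325282284) (nat_lit 76) (nat_lit 4473623143388)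 (nat_lit 10) (nat_lit 4) (nat_lit 11) (nat_lit 5) (nat_lit 11) (nat_lit 4) (nat_lit 416) (nat_lit 372) (nat_lit 232)))) (XT.nd (nat_lit 78) (nat_lit 76) (nat_lit 0) (XT.lf (nat_lit 0) (nat_lit 2080634958460) (nat_lit 152) (nat_lit 20212505986765) (nat_lit 0) (nat_lit 1526281125919) (nat_lit 8) (nat_lit 5) (nat_lit 10) (nat_lit 4) (nat_lit 8) (nat_lit 4) (nat_lit 417) (nat_lit 372) (nat_lit 231)) (XT.nd (nat_lit 78) (nat_lit 76) (nat_lit 0) (XT.lf (nat_lit 0) (nat_lit 9786101405681) (nat_lit 152) (nat_lit 7776351116384) (nat_lit 0) (nat_lit 9231747572940) (nat_lit 8) (nat_lit 5) (nat_lit 10) (nat_lit 4) (nat_lit 8) (nat_lit 4) (nat_lit 418) (nat_lit 372) (nat_lit 230)) (XT.lf (nat_lit 0) (nat_lit 6868833862889) (nat_lit 76) (nat_lit 11943749571654) (nat_lit 76) (nat_lit 11389395738738) (nat_lit 7) (nat_lit 4) (nat_lit 8) (nat_lit 5) (nat_lit 8) (nat_lit 4) (nat_lit 419) (nat_lit 372) (nat_lit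 229))))))))
noncomputable def xc100 : XT := (XT.nd (nat_lit 50700) (nat_lit 0) (nat_lit 1140) (XT.nd (nat_lit 49842) (nat_lit 0) (nat_lit 3800) (XT.nd (nat_lit 49452) (nat_lit 0) (nat_lit 6232) (XT.nd (nat_lit 156) (nat_lit 76) (nat_lit 0) (XT.nd (nat_lit 78) (nat_lit 152) (nat_lit 0) (XT.lf (nat_lit 0) (nat_lit 24181708778760) (nat_lit 76) (nat_lit 5237729080155) (nat_lit 76) (nat_lit 4683375247089) (nat_lit 7) (nat_lit 4) (nat_lit 8) (nat_lit 5) (nat_lit 8) (nat_lit 4) (nat_lit 420) (nat_lit 372) (nat_lit 228)) (XT.lf (nat_lit 0) (nat_lit 3079480882664) (nat_lit 152) (nat_lit 32921079391455) (nat_lit 0) (nat_lit 2566190296370) (nat_lit 5) (nat_lit 5) (nat_lit 7) (nat_lit 4) (nat_lit 5) (nat_lit 4) (nat_lit 421) (nat_lit 372) (nat_lit 227))) (XT.nd (nat_lit 78) (nat_lit 76) (nat_lit 0) (XT.lf (nat_lit 0) (nat_lit 12178549132337) (nat_lit 152) (nat_lit 19810811945318) (nat_lit 0) (nat_lit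 11665258545937) (nat_lit 5) (nat_lit 5) (nat_lit 7) (nat_lit 4) (nat_lit 5) (nat_lit 4) (nat_lit 422) (nat_lit 372) (nat_lit 226)) (XT.nd (nat_lit 78) (nat_lit 76) (nat_lit 0) (XT.lf (nat_lit 0) (nat_lit 22642477616103) (nat_lit 152) (nat_lit 4734004389218) (nat_lit 0) (nat_lit 22129187029611) (nat_lit 5) (nat_lit 5) (nat_lit 7) (nat_lit 4) (nat_lit 5) (nat_lit 4) (nat_lit 423) (nat_lit 372) (nat_lit 225)) (XT.lf (nat_lit 0) (nat_lit 13268045674805) (nat_lit 76) (nat_lit 21727046512282) (nat_lit 76) (nat_lit 21213755925710) (nat_lit 4) (nat_lit 4) (nat_lit 5) (nat_lit 5) (nat_lit 5) (nat_lit 4) (nat_lit 424) (nat_lit 372) (nat_lit 224))))) (XT.nd (nat_lit 156) (nat_lit 0) (nat_lit 76) (XT.nd (nat_lit 78) (nat_lit 532) (nat_lit 0) (XT.lf (nat_lit 0) (nat_lit 201714606796) (nat_lit 532) (nat_lit 1346447600) (nat_lit 532) (nat_lit 1346447600) (nat_lit 93) (nat_lit 3) (nat_lit 100) (nat_lit 3)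 (nat_lit 100) (nat_lit 5) (nat_lit 373) (nat_lit 373) (nat_lit 274)) (XT.lf (nat_lit 0) (nat_lit 4345748321) (nat_lit 532) (nat_lit 39820082905) (nat_lit 608) (nat_lit 394533769623) (nat_lit 86) (nat_lit 5) (nat_lit 93) (nat_lit 3) (nat_lit 94) (nat_lit 5) (nat_lit 374) (nat_lit 373) (nat_lit 273))) (XT.nd (nat_lit 78) (nat_lit 0) (nat_lit 76) (XT.lf (nat_lit 0) (nat_lit 34330635933) (nat_lit 532) (nat_lit 73421363521) (nat_lit 608) (nat_lit 363774695185) (nat_lit 87) (nat_lit 5) (nat_lit 94) (nat_lit 5) (nat_lit 95) (nat_lit 5) (nat_lit 375) (nat_lit 373) (nat_lit 272)) (XT.nd (nat_lit 78) (nat_lit 0) (nat_lit 76) (XT.lf (nat_lit 0) (nat_lit 89205330974) (nat_lit 532) (nat_lit 101876562281) (nat_lit 608) (nat_lit 316564593312) (nat_lit 88) (nat_lit 5) (nat_lit 95) (nat_lit 5) (nat_lit 96) (nat_lit 5) (nat_lit 376) (nat_lit 373) (nat_lit 271)) (XT.lf (nat_lit 0) (nat_lit 174168587850) (nat_lit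 532) (nat_lit 123478535457) (nat_lit 76) (nat_lit 249788535381) (nat_lit 89) (nat_lit 5) (nat_lit 96) (nat_lit 5) (nat_lit 90) (nat_lit 5) (nat_lit 377) (nat_lit 373) (nat_lit 270)))))) (XT.nd (nat_lit 390) (nat_lit 1140) (nat_lit 0) (XT.nd (nat_lit 156) (nat_lit 760) (nat_lit 0) (XT.nd (nat_lit 78) (nat_lit 228) (nat_lit 0) (XT.lf (nat_lit 0) (nat_lit 295301614456) (nat_lit 608) (nat_lit 136185741729) (nat_lit 76) (nat_lit 159831827955) (nat_lit 82) (nat_lit 5) (nat_lit 90) (nat_lit 5) (nat_lit 83) (nat_lit 5) (nat_lit 378) (nat_lit 373) (nat_lit 269)) (XT.lf (nat_lit 0) (nat_lit 459707157801) (nat_lit 304) (nat_lit 137567002777) (nat_lit 76) (nat_lit 42502872821) (nat_lit 79) (nat_lit 5) (nat_lit 83) (nat_lit 5) (nat_lit 80) (nat_lit 5) (nat_lit 379) (nat_lit 373) (nat_lit 268))) (XT.nd (nat_lit 78) (nat_lit 532) (nat_lit 0) (XT.lf (nat_lit 0) (nat_lit 565686805519) (nat_lit 228) (nat_lit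 112693200846) (nat_lit 304) (nat_lit 14755035794) (nat_lit 76) (nat_lit 5) (nat_lit 79) (nat_lit 5) (nat_lit 80) (nat_lit 5) (nat_lit 380) (nat_lit 373) (nat_lit 267)) (XT.nd (nat_lit 78) (nat_lit 228) (nat_lit 0) (XT.lf (nat_lit 0) (nat_lit 197816938544) (nat_lit 304) (nat_lit 106751071761) (nat_lit 76) (nat_lit 447092796476) (nat_lit 72) (nat_lit 5) (nat_lit 76) (nat_lit 5) (nat_lit 73) (nat_lit 5) (nat_lit 381) (nat_lit 373) (nat_lit 266)) (XT.lf (nat_lit 0) (nat_lit 473511472332) (nat_lit 304) (nat_lit 67507546719) (nat_lit 76) (nat_lit 275346923152) (nat_lit 69) (nat_lit 5) (nat_lit 73) (nat_lit 5) (nat_lit 70) (nat_lit 5) (nat_lit 382) (nat_lit 373) (nat_lit 265))))) (XT.nd (nat_lit 234) (nat_lit 456) (nat_lit 0) (XT.nd (nat_lit 78) (nat_lit 532) (nat_lit 0) (XT.lf (nat_lit 0) (nat_lit 824912404795) (nat_lit 228) (nat_lit 5127379330) (nat_lit 76) (nat_lit 57988886327) (nat_lit 67) (nat_lit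 5) (nat_lit 70) (nat_lit 5) (nat_lit 68) (nat_lit 5) (nat_lit 383) (nat_lit 373) (nat_lit 264)) (XT.nd (nat_lit 78) (nat_lit 152) (nat_lit 0) (XT.lf (nat_lit 0) (nat_lit 76482717382) (nat_lit 152) (nat_lit 214260068339) (nat_lit 228) (nat_lit 675592871156) (nat_lit 62) (nat_lit 5) (nat_lit 64) (nat_lit 5) (nat_lit 65) (nat_lit 5) (nat_lit 384) (nat_lit 373) (nat_lit 263)) (XT.lf (nat_lit 0) (nat_lit 186731708475) (nat_lit 152) (nat_lit 550530993096) (nat_lit 228) (nat_lit 315529303494) (nat_lit 60) (nat_lit 5) (nat_lit 62) (nat_lit 5) (nat_lit 63) (nat_lit 5) (nat_lit 385) (nat_lit 373) (nat_lit 262)))) (XT.nd (nat_lit 78) (nat_lit 304) (nat_lit 0) (XT.lf (nat_lit 0) (nat_lit 139073506039) (nat_lit 152) (nat_lit 817236152181) (nat_lit 76) (nat_lit 192080807472) (nat_lit 58) (nat_lit 5) (nat_lit 60) (nat_lit 5) (nat_lit 59) (nat_lit 5) (nat_lit 386) (nat_lit 373) (nat_lit 261)) (XT.nd (nat_lit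 78) (nat_lit 152) (nat_lit 0) (XT.lf (nat_lit 0) (nat_lit 504725918857) (nat_lit 152) (nat_lit 192223448925) (nat_lit 228) (nat_lit 556422443397) (nat_lit 56) (nat_lit 5) (nat_lit 58) (nat_lit 5) (nat_lit 59) (nat_lit 5) (nat_lit 387) (nat_lit 373) (nat_lit 260)) (XT.lf (nat_lit 0) (nat_lit 25966364012) (nat_lit 152) (nat_lit 648870918403) (nat_lit 76) (nat_lit 694549192904) (nat_lit 54) (nat_lit 5) (nat_lit 56) (nat_lit 5) (nat_lit 55) (nat_lit 5) (nat_lit 388) (nat_lit 373) (nat_lit 259))))))) (XT.nd (nat_lit 780) (nat_lit 1292) (nat_lit 0) (XT.nd (nat_lit 390) (nat_lit 608) (nat_lit 0) (XT.nd (nat_lit 156) (nat_lit 532) (nat_lit 0) (XT.nd (nat_lit 78) (nat_lit 76) (nat_lit 0) (XT.lf (nat_lit 0) (nat_lit 721429803850) (nat_lit 228) (nat_lit 521705523760) (nat_lit 76) (nat_lit 253818790656) (nat_lit 52) (nat_lit 5) (nat_lit 55) (nat_lit 5) (nat_lit 53) (nat_lit 4) (nat_lit 389) (nat_lit 373)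 (nat_lit 258)) (XT.lf (nat_lit 0) (nat_lit 1285273599389) (nat_lit 76) (nat_lit 304896180785) (nat_lit 152) (nat_lit 47970565841) (nat_lit 51) (nat_lit 5) (nat_lit 52) (nat_lit 5) (nat_lit 53) (nat_lit 4) (nat_lit 390) (nat_lit 373) (nat_lit 257))) (XT.nd (nat_lit 78) (nat_lit 304) (nat_lit 0) (XT.lf (nat_lit 0) (nat_lit 825300213873) (nat_lit 228) (nat_lit 155856636048) (nat_lit 76) (nat_lit 811747066452) (nat_lit 48) (nat_lit 5) (nat_lit 51) (nat_lit 5) (nat_lit 49) (nat_lit 4) (nat_lit 391) (nat_lit 373) (nat_lit 256)) (XT.nd (nat_lit 78) (nat_lit 152) (nat_lit 0) (XT.lf (nat_lit 0) (nat_lit 106126867011) (nat_lit 76) (nat_lit 1796193183052) (nat_lit 76) (nat_lit 62414386540) (nat_lit 46) (nat_lit 4) (nat_lit 47) (nat_lit 5) (nat_lit 47) (nat_lit 4) (nat_lit 392) (nat_lit 373) (nat_lit 255)) (XT.lf (nat_lit 0) (nat_lit 408190831535) (nat_lit 76) (nat_lit 621602266352) (nat_lit 152) (nat_lit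 1122648420766) (nat_lit 44) (nat_lit 5) (nat_lit 45) (nat_lit 5) (nat_lit 46) (nat_lit 4) (nat_lit 393) (nat_lit 373) (nat_lit 254))))) (XT.nd (nat_lit 156) (nat_lit 380) (nat_lit 0) (XT.nd (nat_lit 78) (nat_lit 76) (nat_lit 0) (XT.lf (nat_lit 0) (nat_lit 12620504833) (nat_lit 152) (nat_lit 1579100114393) (nat_lit 76) (nat_lit 769071459760) (nat_lit 42) (nat_lit 5) (nat_lit 44) (nat_lit 5) (nat_lit 43) (nat_lit 4) (nat_lit 394) (nat_lit 373) (nat_lit 253)) (XT.lf (nat_lit 0) (nat_lit 1206619130335) (nat_lit 76) (nat_lit 145289478163) (nat_lit 152) (nat_lit 1238137666645) (nat_lit 41) (nat_lit 5) (nat_lit 42) (nat_lit 5) (nat_lit 43) (nat_lit 4) (nat_lit 395) (nat_lit 373) (nat_lit 252))) (XT.nd (nat_lit 78) (nat_lit 228) (nat_lit 0) (XT.lf (nat_lit 0) (nat_lit 164360938372) (nat_lit 152) (nat_lit 1144565160052) (nat_lit 76) (nat_lit 1534458169970) (nat_lit 39) (nat_lit 5) (nat_lit 41) (nat_lit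 5) (nat_lit 40) (nat_lit 4) (nat_lit 396) (nat_lit 373) (nat_lit 251)) (XT.nd (nat_lit 78) (nat_lit 152) (nat_lit 0) (XT.lf (nat_lit 0) (nat_lit 1817098998450) (nat_lit 152) (nat_lit 865227666763) (nat_lit 0) (nat_lit 440769443362) (nat_lit 38) (nat_lit 5) (nat_lit 40) (nat_lit 4) (nat_lit 38) (nat_lit 4) (nat_lit 397) (nat_lit 373) (nat_lit 250)) (XT.lf (nat_lit 0) (nat_lit 403254998904) (nat_lit 152) (nat_lit 537559163507) (nat_lit 76) (nat_lit 2491911128589) (nat_lit 36) (nat_lit 5) (nat_lit 38) (nat_lit 5) (nat_lit 37) (nat_lit 4) (nat_lit 398) (nat_lit 373) (nat_lit 249)))))) (XT.nd (nat_lit 390) (nat_lit 684) (nat_lit 0) (XT.nd (nat_lit 156) (nat_lit 304) (nat_lit 0) (XT.nd (nat_lit 78) (nat_lit 228) (nat_lit 0) (XT.lf (nat_lit 0) (nat_lit 2436327509610) (nat_lit 152) (nat_lit 176228324596) (nat_lit 0) (nat_lit 1161948281304) (nat_lit 35) (nat_lit 5) (nat_lit 37) (nat_lit 4) (nat_lit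 35) (nat_lit 4) (nat_lit 399) (nat_lit 373) (nat_lit 248)) (XT.lf (nat_lit 0) (nat_lit 253738716002) (nat_lit 76) (nat_lit 480933374674) (nat_lit 152) (nat_lit 3419052878598) (nat_lit 32) (nat_lit 5) (nat_lit 33) (nat_lit 5) (nat_lit 34) (nat_lit 4) (nat_lit 400) (nat_lit 373) (nat_lit 247))) (XT.nd (nat_lit 78) (nat_lit 228) (nat_lit 0) (XT.lf (nat_lit 0) (nat_lit 707318345671) (nat_lit 76) (nat_lit 2522241506612) (nat_lit 76) (nat_lit 1342260732219) (nat_lit 31) (nat_lit 4) (nat_lit 32) (nat_lit 5) (nat_lit 32) (nat_lit 4) (nat_lit 401) (nat_lit 373) (nat_lit 246)) (XT.nd (nat_lit 78) (nat_lit 76) (nat_lit 0) (XT.lf (nat_lit 0) (nat_lit 1154371024252) (nat_lit 152) (nat_lit 3821598808135) (nat_lit 0) (nat_lit 61796230360) (nat_lit 29) (nat_lit 5) (nat_lit 31) (nat_lit 4) (nat_lit 29) (nat_lit 4) (nat_lit 402) (nat_lit 373) (nat_lit 245)) (XT.lf (nat_lit 0) (nat_lit 1703782317186) (nat_lit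 76) (nat_lit 2470666250816) (nat_lit 76) (nat_lit 1378091454500) (nat_lit 28) (nat_lit 4) (nat_lit 29) (nat_lit 5) (nat_lit 29) (nat_lit 4) (nat_lit 403) (nat_lit 373) (nat_lit 244))))) (XT.nd (nat_lit 234) (nat_lit 304) (nat_lit 0) (XT.nd (nat_lit 78) (nat_lit 228) (nat_lit 0) (XT.lf (nat_lit 0) (nat_lit 1610675581485) (nat_lit 152) (nat_lit 3917302099872) (nat_lit 0) (nat_lit 599032249611) (nat_lit 26) (nat_lit 5) (nat_lit 28) (nat_lit 4) (nat_lit 26) (nat_lit 4) (nat_lit 404) (nat_lit 373) (nat_lit 243)) (XT.nd (nat_lit 78) (nat_lit 152) (nat_lit 0) (XT.lf (nat_lit 0) (nat_lit 2654770934674) (nat_lit 76) (nat_lit 2560851069999) (nat_lit 76) (nat_lit 1549207736427) (nat_lit 25) (nat_lit 4) (nat_lit 26) (nat_lit 5) (nat_lit 26) (nat_lit 4) (nat_lit 405) (nat_lit 373) (nat_lit 242)) (XT.lf (nat_lit 0) (nat_lit 1987141802724) (nat_lit 152) (nat_lit 4439773466171) (nat_lit 0) (nat_lit 1050435011014)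 (nat_lit 23) (nat_lit 5) (nat_lit 25) (nat_lit 4) (nat_lit 23) (nat_lit 4) (nat_lit 406) (nat_lit 373) (nat_lit 241)))) (XT.nd (nat_lit 78) (nat_lit 228) (nat_lit 0) (XT.lf (nat_lit 0) (nat_lit 3265653419792) (nat_lit 76) (nat_lit 2971301892813) (nat_lit 76) (nat_lit 2034595099914) (nat_lit 22) (nat_lit 4) (nat_lit 23) (nat_lit 5) (nat_lit 23) (nat_lit 4) (nat_lit 407) (nat_lit 373) (nat_lit 240)) (XT.nd (nat_lit 78) (nat_lit 76) (nat_lit 0) (XT.lf (nat_lit 0) (nat_lit 2086101338555) (nat_lit 152) (nat_lit 5856767203646) (nat_lit 0) (nat_lit 1218780233063) (nat_lit 20) (nat_lit 5) (nat_lit 22) (nat_lit 4) (nat_lit 20) (nat_lit 4) (nat_lit 408) (nat_lit 373) (nat_lit 239)) (XT.lf (nat_lit 0) (nat_lit 2999633837062) (nat_lit 76) (nat_lit 4012069829478) (nat_lit 76) (nat_lit 3144748723154) (nat_lit 19) (nat_lit 4) (nat_lit 20) (nat_lit 5) (nat_lit 20) (nat_lit 4) (nat_lit 409) (nat_lit 373) (nat_lit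 238))))))))
noncomputable def xc101 : XT := (XT.nd (nat_lit 50778) (nat_lit 0) (nat_lit 2280) (XT.nd (nat_lit 780) (nat_lit 228) (nat_lit 0) (XT.nd (nat_lit 390) (nat_lit 380) (nat_lit 0) (XT.nd (nat_lit 156) (nat_lit 228) (nat_lit 0) (XT.nd (nat_lit 78) (nat_lit 76) (nat_lit 0) (XT.lf (nat_lit 0) (nat_lit 1556952345028) (nat_lit 152) (nat_lit 8966992234224) (nat_lit 0) (nat_lit 753877245910) (nat_lit 17) (nat_lit 5) (nat_lit 19) (nat_lit 4) (nat_lit 17) (nat_lit 4) (nat_lit 410) (nat_lit 373) (nat_lit 237)) (XT.lf (nat_lit 0) (nat_lit 924171356998) (nat_lit 76) (nat_lit 6205792555664) (nat_lit 76) (nat_lit 5402717455964) (nat_lit 16) (nat_lit 4) (nat_lit 17) (nat_lit 5) (nat_lit 17) (nat_lit 4) (nat_lit 411) (nat_lit 373) (nat_lit 236))) (XT.nd (nat_lit 78) (nat_lit 228) (nat_lit 0) (XT.lf (nat_lit 0) (nat_lit 12842023279142) (nat_lit 76) (nat_lit 957968259412) (nat_lit 76) (nat_lit 154893159205)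 (nat_lit 16) (nat_lit 4) (nat_lit 17) (nat_lit 5) (nat_lit 17) (nat_lit 4) (nat_lit 412) (nat_lit 373) (nat_lit 235)) (XT.nd (nat_lit 78) (nat_lit 76) (nat_lit 0) (XT.lf (nat_lit 0) (nat_lit 5992661699924) (nat_lit 152) (nat_lit 4304833563766) (nat_lit 0) (nat_lit 5249073643769) (nat_lit 14) (nat_lit 5) (nat_lit 16) (nat_lit 4) (nat_lit 14) (nat_lit 4) (nat_lit 413) (nat_lit 373) (nat_lit 234)) (XT.lf (nat_lit 0) (nat_lit 8537983302100) (nat_lit 76) (nat_lit 4780530891198) (nat_lit 76) (nat_lit 4036942834689) (nat_lit 13) (nat_lit 4) (nat_lit 14) (nat_lit 5) (nat_lit 14) (nat_lit 4) (nat_lit 414) (nat_lit 373) (nat_lit 233))))) (XT.nd (nat_lit 156) (nat_lit 228) (nat_lit 0) (XT.nd (nat_lit 78) (nat_lit 0) (nat_lit 0) (XT.lf (nat_lit 0) (nat_lit 2469178498240) (nat_lit 152) (nat_lit 15159225379464) (nat_lit 0) (nat_lit 1780671038224) (nat_lit 11) (nat_lit 5) (nat_lit 13) (nat_lit 4) (nat_lit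 11) (nat_lit 4) (nat_lit 415) (nat_lit 373) (nat_lit 232)) (XT.lf (nat_lit 0) (nat_lit 10114578911197) (nat_lit 152) (nat_lit 2189505236687) (nat_lit 0) (nat_lit 9426071450932) (nat_lit 11) (nat_lit 5) (nat_lit 13) (nat_lit 4) (nat_lit 11) (nat_lit 4) (nat_lit 416) (nat_lit 373) (nat_lit 231))) (XT.nd (nat_lit 78) (nat_lit 152) (nat_lit 0) (XT.lf (nat_lit 0) (nat_lit 13395784301225) (nat_lit 76) (nat_lit 5833174014511) (nat_lit 76) (nat_lit 5144666554030) (nat_lit 10) (nat_lit 4) (nat_lit 11) (nat_lit 5) (nat_lit 11) (nat_lit 4) (nat_lit 417) (nat_lit 373) (nat_lit 230)) (XT.nd (nat_lit 78) (nat_lit 0) (nat_lit 0) (XT.lf (nat_lit 0) (nat_lit 2392730256499) (nat_lit 152) (nat_lit 23244381772504) (nat_lit 0) (nat_lit 1755223348472) (nat_lit 8) (nat_lit 5) (nat_lit 10) (nat_lit 4) (nat_lit 8) (nat_lit 4) (nat_lit 418) (nat_lit 373) (nat_lit 229)) (XT.lf (nat_lit 0) (nat_lit 11254016663724) (nat_lit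 152) (nat_lit 8942803686211) (nat_lit 0) (nat_lit 10616509755546) (nat_lit 8) (nat_lit 5) (nat_lit 10) (nat_lit 4) (nat_lit 8) (nat_lit 4) (nat_lit 419) (nat_lit 373) (nat_lit 228)))))) (XT.nd (nat_lit 49530) (nat_lit 0) (nat_lit 5852) (XT.nd (nat_lit 156) (nat_lit 152) (nat_lit 0) (XT.nd (nat_lit 78) (nat_lit 0) (nat_lit 0) (XT.lf (nat_lit 0) (nat_lit 7899159031689) (nat_lit 76) (nat_lit 13735311961219) (nat_lit 76) (nat_lit 13097805052910) (nat_lit 7) (nat_lit 4) (nat_lit 8) (nat_lit 5) (nat_lit 8) (nat_lit 4) (nat_lit 420) (nat_lit 373) (nat_lit 227)) (XT.lf (nat_lit 0) (nat_lit 27808965173285) (nat_lit 76) (nat_lit 6023388402019) (nat_lit 76) (nat_lit 5385881493596) (nat_lit 7) (nat_lit 4) (nat_lit 8) (nat_lit 5) (nat_lit 8) (nat_lit 4) (nat_lit 421) (nat_lit 373) (nat_lit 226))) (XT.nd (nat_lit 78) (nat_lit 0) (nat_lit 0) (XT.lf (nat_lit 0) (nat_lit 3541403051228) (nat_lit 152) (nat_lit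 37859241225270) (nat_lit 0) (nat_lit 2951118876671) (nat_lit 5) (nat_lit 5) (nat_lit 7) (nat_lit 4) (nat_lit 5) (nat_lit 4) (nat_lit 422) (nat_lit 373) (nat_lit 225)) (XT.nd (nat_lit 78) (nat_lit 0) (nat_lit 0) (XT.lf (nat_lit 0) (nat_lit 14005331533636) (nat_lit 152) (nat_lit 22782433671983) (nat_lit 0) (nat_lit 13415047358998) (nat_lit 5) (nat_lit 5) (nat_lit 7) (nat_lit 4) (nat_lit 5) (nat_lit 4) (nat_lit 423) (nat_lit 373) (nat_lit 224)) (XT.lf (nat_lit 0) (nat_lit 26038849285864) (nat_lit 152) (nat_lit 5444104990963) (nat_lit 0) (nat_lit 25448565111157) (nat_lit 5) (nat_lit 5) (nat_lit 7) (nat_lit 4) (nat_lit 5) (nat_lit 4) (nat_lit 424) (nat_lit 373) (nat_lit 223))))) (XT.nd (nat_lit 234) (nat_lit 304) (nat_lit 0) (XT.nd (nat_lit 78) (nat_lit 532) (nat_lit 0) (XT.lf (nat_lit 0) (nat_lit 231972436091) (nat_lit 532) (nat_lit 1548070028) (nat_lit 532) (nat_lit 1548070028) (nat_lit 93) (nat_lit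 3) (nat_lit 100) (nat_lit 3) (nat_lit 100) (nat_lit 5) (nat_lit 374) (nat_lit 374) (nat_lit 272)) (XT.nd (nat_lit 78) (nat_lit 0) (nat_lit 76) (XT.lf (nat_lit 0) (nat_lit 4998765160) (nat_lit 532) (nat_lit 45792403338) (nat_lit 608) (nat_lit 453713279975) (nat_lit 86) (nat_lit 5) (nat_lit 93) (nat_lit 3) (nat_lit 94) (nat_lit 5) (nat_lit 375) (nat_lit 374) (nat_lit 271)) (XT.lf (nat_lit 0) (nat_lit 39481241270) (nat_lit 532) (nat_lit 84433843685) (nat_lit 608) (nat_lit 418340532965) (nat_lit 87) (nat_lit 5) (nat_lit 94) (nat_lit 5) (nat_lit 95) (nat_lit 5) (nat_lit 376) (nat_lit 374) (nat_lit 270)))) (XT.nd (nat_lit 78) (nat_lit 456) (nat_lit 0) (XT.lf (nat_lit 0) (nat_lit 102587019223) (nat_lit 532) (nat_lit 117157306378) (nat_lit 608) (nat_lit 364049062759) (nat_lit 88) (nat_lit 5) (nat_lit 95) (nat_lit 5) (nat_lit 96) (nat_lit 5) (nat_lit 377) (nat_lit 374) (nat_lit 269)) (XT.nd (nat_lit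 78) (nat_lit 532) (nat_lit 0) (XT.lf (nat_lit 0) (nat_lit 200294662342) (nat_lit 532) (nat_lit 141999572300) (nat_lit 76) (nat_lit 287256709854) (nat_lit 89) (nat_lit 5) (nat_lit 96) (nat_lit 5) (nat_lit 90) (nat_lit 5) (nat_lit 378) (nat_lit 374) (nat_lit 268)) (XT.lf (nat_lit 0) (nat_lit 339597556273) (nat_lit 608) (nat_lit 156612865885) (nat_lit 76) (nat_lit 183806583553) (nat_lit 82) (nat_lit 5) (nat_lit 90) (nat_lit 5) (nat_lit 83) (nat_lit 5) (nat_lit 379) (nat_lit 374) (nat_lit 267))))))) (XT.nd (nat_lit 780) (nat_lit 1444) (nat_lit 0) (XT.nd (nat_lit 390) (nat_lit 988) (nat_lit 0) (XT.nd (nat_lit 156) (nat_lit 684) (nat_lit 0) (XT.nd (nat_lit 78) (nat_lit 228) (nat_lit 0) (XT.lf (nat_lit 0) (nat_lit 528663857293) (nat_lit 304) (nat_lit 158201329650) (nat_lit 76) (nat_lit 48878351333) (nat_lit 79) (nat_lit 5) (nat_lit 83) (nat_lit 5) (nat_lit 80) (nat_lit 5) (nat_lit 380) (nat_lit 374)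 (nat_lit 266)) (XT.lf (nat_lit 0) (nat_lit 650540488647) (nat_lit 228) (nat_lit 129597078794) (nat_lit 304) (nat_lit 16967686173) (nat_lit 76) (nat_lit 5) (nat_lit 79) (nat_lit 5) (nat_lit 80) (nat_lit 5) (nat_lit 381) (nat_lit 374) (nat_lit 265))) (XT.nd (nat_lit 78) (nat_lit 380) (nat_lit 0) (XT.lf (nat_lit 0) (nat_lit 227489997196) (nat_lit 304) (nat_lit 122763060147) (nat_lit 76) (nat_lit 514156828978) (nat_lit 72) (nat_lit 5) (nat_lit 76) (nat_lit 5) (nat_lit 73) (nat_lit 5) (nat_lit 382) (nat_lit 374) (nat_lit 264)) (XT.nd (nat_lit 78) (nat_lit 152) (nat_lit 0) (XT.lf (nat_lit 0) (nat_lit 544538661921) (nat_lit 304) (nat_lit 77633029626) (nat_lit 76) (nat_lit 316649104445) (nat_lit 69) (nat_lit 5) (nat_lit 73) (nat_lit 5) (nat_lit 70) (nat_lit 5) (nat_lit 383) (nat_lit 374) (nat_lit 263)) (XT.lf (nat_lit 0) (nat_lit 948649691547) (nat_lit 228) (nat_lit 5895862427) (nat_lit 76) (nat_lit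 66687382927) (nat_lit 67) (nat_lit 5) (nat_lit 70) (nat_lit 5) (nat_lit 68) (nat_lit 5) (nat_lit 384) (nat_lit 374) (nat_lit 262))))) (XT.nd (nat_lit 156) (nat_lit 456) (nat_lit 0) (XT.nd (nat_lit 78) (nat_lit 152) (nat_lit 0) (XT.lf (nat_lit 0) (nat_lit 87955747939) (nat_lit 152) (nat_lit 246398864827) (nat_lit 228) (nat_lit 776931359879) (nat_lit 62) (nat_lit 5) (nat_lit 64) (nat_lit 5) (nat_lit 65) (nat_lit 5) (nat_lit 385) (nat_lit 374) (nat_lit 261)) (XT.lf (nat_lit 0) (nat_lit 214742060251) (nat_lit 152) (nat_lit 633110421163) (nat_lit 228) (nat_lit 362858294418) (nat_lit 60) (nat_lit 5) (nat_lit 62) (nat_lit 5) (nat_lit 63) (nat_lit 5) (nat_lit 386) (nat_lit 374) (nat_lit 260))) (XT.nd (nat_lit 78) (nat_lit 304) (nat_lit 0) (XT.lf (nat_lit 0) (nat_lit 159934884919) (nat_lit 152) (nat_lit 939820988710) (nat_lit 76) (nat_lit 220893133658) (nat_lit 58) (nat_lit 5) (nat_lit 60) (nat_lit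 5) (nat_lit 59) (nat_lit 5) (nat_lit 387) (nat_lit 374) (nat_lit 259)) (XT.nd (nat_lit 78) (nat_lit 152) (nat_lit 0) (XT.lf (nat_lit 0) (nat_lit 580435343356) (nat_lit 152) (nat_lit 221056749434) (nat_lit 228) (nat_lit 639885464461) (nat_lit 56) (nat_lit 5) (nat_lit 58) (nat_lit 5) (nat_lit 59) (nat_lit 5) (nat_lit 388) (nat_lit 374) (nat_lit 258)) (XT.lf (nat_lit 0) (nat_lit 29861621209) (nat_lit 152) (nat_lit 746201030307) (nat_lit 76) (nat_lit 798731770880) (nat_lit 54) (nat_lit 5) (nat_lit 56) (nat_lit 5) (nat_lit 55) (nat_lit 5) (nat_lit 389) (nat_lit 374) (nat_lit 257)))))) (XT.nd (nat_lit 390) (nat_lit 684) (nat_lit 0) (XT.nd (nat_lit 156) (nat_lit 532) (nat_lit 0) (XT.nd (nat_lit 78) (nat_lit 76) (nat_lit 0) (XT.lf (nat_lit 0) (nat_lit 829644554100) (nat_lit 228) (nat_lit 599960853960) (nat_lit 76) (nat_lit 291891805560) (nat_lit 52) (nat_lit 5) (nat_lit 55) (nat_lit 5) (nat_lit 53)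 (nat_lit 4) (nat_lit 390) (nat_lit 374) (nat_lit 256)) (XT.lf (nat_lit 0) (nat_lit 1478065095478) (nat_lit 76) (nat_lit 350630405887) (nat_lit 152) (nat_lit 55165876208) (nat_lit 51) (nat_lit 5) (nat_lit 52) (nat_lit 5) (nat_lit 53) (nat_lit 4) (nat_lit 391) (nat_lit 374) (nat_lit 255))) (XT.nd (nat_lit 78) (nat_lit 304) (nat_lit 0) (XT.lf (nat_lit 0) (nat_lit 949095487704) (nat_lit 228) (nat_lit 179234686975) (nat_lit 76) (nat_lit 933509309802) (nat_lit 48) (nat_lit 5) (nat_lit 51) (nat_lit 5) (nat_lit 49) (nat_lit 4) (nat_lit 392) (nat_lit 374) (nat_lit 254)) (XT.nd (nat_lit 78) (nat_lit 152) (nat_lit 0) (XT.lf (nat_lit 0) (nat_lit 122046339149) (nat_lit 76) (nat_lit 2065621953551) (nat_lit 76) (nat_lit 71776290576) (nat_lit 46) (nat_lit 4) (nat_lit 47) (nat_lit 5) (nat_lit 47) (nat_lit 4) (nat_lit 393) (nat_lit 374) (nat_lit 253)) (XT.lf (nat_lit 0) (nat_lit 469419872565) (nat_lit 76) (nat_lit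 714842409793) (nat_lit 152) (nat_lit 1291045446503) (nat_lit 44) (nat_lit 5) (nat_lit 45) (nat_lit 5) (nat_lit 46) (nat_lit 4) (nat_lit 394) (nat_lit 374) (nat_lit 252))))) (XT.nd (nat_lit 234) (nat_lit 304) (nat_lit 0) (XT.nd (nat_lit 78) (nat_lit 228) (nat_lit 0) (XT.lf (nat_lit 0) (nat_lit 14513790557) (nat_lit 152) (nat_lit 1815964727652) (nat_lit 76) (nat_lit 884432355821) (nat_lit 42) (nat_lit 5) (nat_lit 44) (nat_lit 5) (nat_lit 43) (nat_lit 4) (nat_lit 395) (nat_lit 374) (nat_lit 251)) (XT.nd (nat_lit 78) (nat_lit 152) (nat_lit 0) (XT.lf (nat_lit 0) (nat_lit 1387612369597) (nat_lit 76) (nat_lit 167082721675) (nat_lit 152) (nat_lit 1423858109818) (nat_lit 41) (nat_lit 5) (nat_lit 42) (nat_lit 5) (nat_lit 43) (nat_lit 4) (nat_lit 396) (nat_lit 374) (nat_lit 250)) (XT.lf (nat_lit 0) (nat_lit 189015262401) (nat_lit 152) (nat_lit 1316249575884) (nat_lit 76) (nat_lit 1764627055703) (nat_lit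 39) (nat_lit 5) (nat_lit 41) (nat_lit 5) (nat_lit 40) (nat_lit 4) (nat_lit 397) (nat_lit 374) (nat_lit 249)))) (XT.nd (nat_lit 78) (nat_lit 228) (nat_lit 0) (XT.lf (nat_lit 0) (nat_lit 2089664019333) (nat_lit 152) (nat_lit 995011479399) (nat_lit 0) (nat_lit 506885012437) (nat_lit 38) (nat_lit 5) (nat_lit 40) (nat_lit 4) (nat_lit 38) (nat_lit 4) (nat_lit 398) (nat_lit 374) (nat_lit 248)) (XT.nd (nat_lit 78) (nat_lit 76) (nat_lit 0) (XT.lf (nat_lit 0) (nat_lit 463743409024) (nat_lit 152) (nat_lit 618192720770) (nat_lit 76) (nat_lit 2865697942032) (nat_lit 36) (nat_lit 5) (nat_lit 38) (nat_lit 5) (nat_lit 37) (nat_lit 4) (nat_lit 399) (nat_lit 374) (nat_lit 247)) (XT.lf (nat_lit 0) (nat_lit 2801776785877) (nat_lit 152) (nat_lit 202662274630) (nat_lit 0) (nat_lit 1336240660342) (nat_lit 35) (nat_lit 5) (nat_lit 37) (nat_lit 4) (nat_lit 35) (nat_lit 4) (nat_lit 400) (nat_lit 374) (nat_lit 246))))))))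
noncomputable def xc102 : XT := (XT.nd (nat_lit 1638) (nat_lit 152) (nat_lit 0) (XT.nd (nat_lit 780) (nat_lit 912) (nat_lit 0) (XT.nd (nat_lit 390) (nat_lit 532) (nat_lit 0) (XT.nd (nat_lit 156) (nat_lit 380) (nat_lit 0) (XT.nd (nat_lit 78) (nat_lit 76) (nat_lit 0) (XT.lf (nat_lit 0) (nat_lit 291799818959) (nat_lit 76) (nat_lit 553073232841) (nat_lit 152) (nat_lit 3931910651062) (nat_lit 32) (nat_lit 5) (nat_lit 33) (nat_lit 5) (nat_lit 34) (nat_lit 4) (nat_lit 401) (nat_lit 374) (nat_lit 245)) (XT.lf (nat_lit 0) (nat_lit 813416375606) (nat_lit 76) (nat_lit 2900577592583) (nat_lit 76) (nat_lit 1543599692941) (nat_lit 31) (nat_lit 4) (nat_lit 32) (nat_lit 5) (nat_lit 32) (nat_lit 4) (nat_lit 402) (nat_lit 374) (nat_lit 244))) (XT.nd (nat_lit 78) (nat_lit 228) (nat_lit 0) (XT.lf (nat_lit 0) (nat_lit 1327526810524) (nat_lit 152) (nat_lit 4394838360795) (nat_lit 0) (nat_lit 71065790229) (nat_lit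 29) (nat_lit 5) (nat_lit 31) (nat_lit 4) (nat_lit 29) (nat_lit 4) (nat_lit 403) (nat_lit 374) (nat_lit 243)) (XT.nd (nat_lit 78) (nat_lit 152) (nat_lit 0) (XT.lf (nat_lit 0) (nat_lit 1959349910592) (nat_lit 76) (nat_lit 2841266063857) (nat_lit 76) (nat_lit 1584805041728) (nat_lit 28) (nat_lit 4) (nat_lit 29) (nat_lit 5) (nat_lit 29) (nat_lit 4) (nat_lit 404) (nat_lit 374) (nat_lit 242)) (XT.lf (nat_lit 0) (nat_lit 1852277035256) (nat_lit 152) (nat_lit 4504897177557) (nat_lit 0) (nat_lit 688887198476) (nat_lit 26) (nat_lit 5) (nat_lit 28) (nat_lit 4) (nat_lit 26) (nat_lit 4) (nat_lit 405) (nat_lit 374) (nat_lit 241))))) (XT.nd (nat_lit 156) (nat_lit 304) (nat_lit 0) (XT.nd (nat_lit 78) (nat_lit 152) (nat_lit 0) (XT.lf (nat_lit 0) (nat_lit 3052986792084) (nat_lit 76) (nat_lit 2944978619859) (nat_lit 76) (nat_lit 1781588781796) (nat_lit 25) (nat_lit 4) (nat_lit 26) (nat_lit 5) (nat_lit 26) (nat_lit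 4) (nat_lit 406) (nat_lit 374) (nat_lit 240)) (XT.lf (nat_lit 0) (nat_lit 2285213175622) (nat_lit 152) (nat_lit 5105739276507) (nat_lit 0) (nat_lit 1208000361567) (nat_lit 23) (nat_lit 5) (nat_lit 25) (nat_lit 4) (nat_lit 23) (nat_lit 4) (nat_lit 407) (nat_lit 374) (nat_lit 239))) (XT.nd (nat_lit 78) (nat_lit 228) (nat_lit 0) (XT.lf (nat_lit 0) (nat_lit 3755501624610) (nat_lit 76) (nat_lit 3416997078620) (nat_lit 76) (nat_lit 2339784263667) (nat_lit 22) (nat_lit 4) (nat_lit 23) (nat_lit 5) (nat_lit 23) (nat_lit 4) (nat_lit 408) (nat_lit 374) (nat_lit 238)) (XT.nd (nat_lit 78) (nat_lit 76) (nat_lit 0) (XT.lf (nat_lit 0) (nat_lit 2399016629519) (nat_lit 152) (nat_lit 6735282099129) (nat_lit 0) (nat_lit 1401597355691) (nat_lit 20) (nat_lit 5) (nat_lit 22) (nat_lit 4) (nat_lit 20) (nat_lit 4) (nat_lit 409) (nat_lit 374) (nat_lit 237)) (XT.lf (nat_lit 0) (nat_lit 3449579082021) (nat_lit 76) (nat_lit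 4613880216992) (nat_lit 76) (nat_lit 3616460942535) (nat_lit 19) (nat_lit 4) (nat_lit 20) (nat_lit 5) (nat_lit 20) (nat_lit 4) (nat_lit 410) (nat_lit 374) (nat_lit 236)))))) (XT.nd (nat_lit 390) (nat_lit 456) (nat_lit 0) (XT.nd (nat_lit 156) (nat_lit 228) (nat_lit 0) (XT.nd (nat_lit 78) (nat_lit 76) (nat_lit 0) (XT.lf (nat_lit 0) (nat_lit 1790495276170) (nat_lit 152) (nat_lit 10312040905989) (nat_lit 0) (nat_lit 866958910426) (nat_lit 17) (nat_lit 5) (nat_lit 19) (nat_lit 4) (nat_lit 17) (nat_lit 4) (nat_lit 411) (nat_lit 374) (nat_lit 235)) (XT.lf (nat_lit 0) (nat_lit 1062797210088) (nat_lit 76) (nat_lit 7136661362103) (nat_lit 76) (nat_lit 6213124995918) (nat_lit 16) (nat_lit 4) (nat_lit 17) (nat_lit 5) (nat_lit 17) (nat_lit 4) (nat_lit 412) (nat_lit 374) (nat_lit 234))) (XT.nd (nat_lit 78) (nat_lit 228) (nat_lit 0) (XT.lf (nat_lit 0) (nat_lit 14768326901049) (nat_lit 76) (nat_lit 1101663431445)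 (nat_lit 76) (nat_lit 178127064877) (nat_lit 16) (nat_lit 4) (nat_lit 17) (nat_lit 5) (nat_lit 17) (nat_lit 4) (nat_lit 413) (nat_lit 374) (nat_lit 233)) (XT.nd (nat_lit 78) (nat_lit 76) (nat_lit 0) (XT.lf (nat_lit 0) (nat_lit 6891561015707) (nat_lit 152) (nat_lit 4950558472949) (nat_lit 0) (nat_lit 6036434750058) (nat_lit 14) (nat_lit 5) (nat_lit 16) (nat_lit 4) (nat_lit 14) (nat_lit 4) (nat_lit 414) (nat_lit 374) (nat_lit 232)) (XT.lf (nat_lit 0) (nat_lit 9818680912185) (nat_lit 76) (nat_lit 5497610465734) (nat_lit 76) (nat_lit 4642484199817) (nat_lit 13) (nat_lit 4) (nat_lit 14) (nat_lit 5) (nat_lit 14) (nat_lit 4) (nat_lit 415) (nat_lit 374) (nat_lit 231))))) (XT.nd (nat_lit 234) (nat_lit 228) (nat_lit 0) (XT.nd (nat_lit 78) (nat_lit 76) (nat_lit 0) (XT.lf (nat_lit 0) (nat_lit 2839555326532) (nat_lit 152) (nat_lit 17433109075737) (nat_lit 0) (nat_lit 2047771746763) (nat_lit 11) (nat_lit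 5) (nat_lit 13) (nat_lit 4) (nat_lit 11) (nat_lit 4) (nat_lit 416) (nat_lit 374) (nat_lit 230)) (XT.nd (nat_lit 78) (nat_lit 76) (nat_lit 0) (XT.lf (nat_lit 0) (nat_lit 11631765794446) (nat_lit 152) (nat_lit 2517930925976) (nat_lit 0) (nat_lit 10839982214490) (nat_lit 11) (nat_lit 5) (nat_lit 13) (nat_lit 4) (nat_lit 11) (nat_lit 4) (nat_lit 417) (nat_lit 374) (nat_lit 229)) (XT.lf (nat_lit 0) (nat_lit 15405152034479) (nat_lit 76) (nat_lit 6708150071231) (nat_lit 76) (nat_lit 5916366491111) (nat_lit 10) (nat_lit 4) (nat_lit 11) (nat_lit 5) (nat_lit 11) (nat_lit 4) (nat_lit 418) (nat_lit 374) (nat_lit 228)))) (XT.nd (nat_lit 78) (nat_lit 76) (nat_lit 0) (XT.lf (nat_lit 0) (nat_lit 2751639836008) (nat_lit 152) (nat_lit 26731038953483) (nat_lit 0) (nat_lit 2018506891322) (nat_lit 8) (nat_lit 5) (nat_lit 10) (nat_lit 4) (nat_lit 8) (nat_lit 4) (nat_lit 419) (nat_lit 374) (nat_lit 227)) (XT.nd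 (nat_lit 78) (nat_lit 76) (nat_lit 0) (XT.lf (nat_lit 0) (nat_lit 12942119198965) (nat_lit 152) (nat_lit 10284224165320) (nat_lit 0) (nat_lit 12208986254164) (nat_lit 8) (nat_lit 5) (nat_lit 10) (nat_lit 4) (nat_lit 8) (nat_lit 4) (nat_lit 420) (nat_lit 374) (nat_lit 226)) (XT.lf (nat_lit 0) (nat_lit 9084032954017) (nat_lit 76) (nat_lit 15795608720481) (nat_lit 76) (nat_lit 15062475775581) (nat_lit 7) (nat_lit 4) (nat_lit 8) (nat_lit 5) (nat_lit 8) (nat_lit 4) (nat_lit 421) (nat_lit 374) (nat_lit 225))))))) (XT.nd (nat_lit 49998) (nat_lit 0) (nat_lit 3496) (XT.nd (nat_lit 49608) (nat_lit 0) (nat_lit 5624) (XT.nd (nat_lit 156) (nat_lit 0) (nat_lit 0) (XT.nd (nat_lit 78) (nat_lit 152) (nat_lit 0) (XT.lf (nat_lit 0) (nat_lit 31980310008038) (nat_lit 76) (nat_lit 6926896631956) (nat_lit 76) (nat_lit 6193763686970) (nat_lit 7) (nat_lit 4) (nat_lit 8) (nat_lit 5) (nat_lit 8) (nat_lit 4) (nat_lit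 422) (nat_lit 374) (nat_lit 224)) (XT.lf (nat_lit 0) (nat_lit 4072613536259) (nat_lit 152) (nat_lit 43538127352423) (nat_lit 0) (nat_lit 3393786735275) (nat_lit 5) (nat_lit 5) (nat_lit 7) (nat_lit 4) (nat_lit 5) (nat_lit 4) (nat_lit 423) (nat_lit 374) (nat_lit 223))) (XT.nd (nat_lit 49296) (nat_lit 0) (nat_lit 6156) (XT.lf (nat_lit 0) (nat_lit 16106131287460) (nat_lit 152) (nat_lit 26199798673531) (nat_lit 0) (nat_lit 15427304486416) (nat_lit 5) (nat_lit 5) (nat_lit 7) (nat_lit 4) (nat_lit 5) (nat_lit 4) (nat_lit 424) (nat_lit 374) (nat_lit 222)) (XT.nd (nat_lit 78) (nat_lit 532) (nat_lit 0) (XT.lf (nat_lit 0) (nat_lit 266768784134) (nat_lit 532) (nat_lit 1780019881) (nat_lit 532) (nat_lit 1780019881) (nat_lit 93) (nat_lit 3) (nat_lit 100) (nat_lit 3) (nat_lit 100) (nat_lit 5) (nat_lit 375) (nat_lit 375) (nat_lit 270)) (XT.lf (nat_lit 0) (nat_lit 5749452970) (nat_lit 532) (nat_lit 52660740585)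 (nat_lit 608) (nat_lit 521769852242) (nat_lit 86) (nat_lit 5) (nat_lit 93) (nat_lit 3) (nat_lit 94) (nat_lit 5) (nat_lit 376) (nat_lit 375) (nat_lit 269))))) (XT.nd (nat_lit 156) (nat_lit 608) (nat_lit 0) (XT.nd (nat_lit 78) (nat_lit 0) (nat_lit 76) (XT.lf (nat_lit 0) (nat_lit 45404191126) (nat_lit 532) (nat_lit 97098372515) (nat_lit 608) (nat_lit 481091335784) (nat_lit 87) (nat_lit 5) (nat_lit 94) (nat_lit 5) (nat_lit 95) (nat_lit 5) (nat_lit 377) (nat_lit 375) (nat_lit 268)) (XT.lf (nat_lit 0) (nat_lit 117975744018) (nat_lit 532) (nat_lit 134730342603) (nat_lit 608) (nat_lit 418656256162) (nat_lit 88) (nat_lit 5) (nat_lit 95) (nat_lit 5) (nat_lit 96) (nat_lit 5) (nat_lit 378) (nat_lit 375) (nat_lit 267))) (XT.nd (nat_lit 78) (nat_lit 760) (nat_lit 0) (XT.lf (nat_lit 0) (nat_lit 230339456260) (nat_lit 532) (nat_lit 163298945970) (nat_lit 76) (nat_lit 330345136306) (nat_lit 89) (nat_lit 5)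 (nat_lit 96) (nat_lit 5) (nat_lit 90) (nat_lit 5) (nat_lit 379) (nat_lit 375) (nat_lit 266)) (XT.nd (nat_lit 78) (nat_lit 228) (nat_lit 0) (XT.lf (nat_lit 0) (nat_lit 390537718749) (nat_lit 608) (nat_lit 180104238412) (nat_lit 76) (nat_lit 211377557026) (nat_lit 82) (nat_lit 5) (nat_lit 90) (nat_lit 5) (nat_lit 83) (nat_lit 5) (nat_lit 380) (nat_lit 375) (nat_lit 265)) (XT.lf (nat_lit 0) (nat_lit 607963909098) (nat_lit 304) (nat_lit 181930981995) (nat_lit 76) (nat_lit 56210140017) (nat_lit 79) (nat_lit 5) (nat_lit 83) (nat_lit 5) (nat_lit 80) (nat_lit 5) (nat_lit 381) (nat_lit 375) (nat_lit 264)))))) (XT.nd (nat_lit 390) (nat_lit 836) (nat_lit 0) (XT.nd (nat_lit 156) (nat_lit 760) (nat_lit 0) (XT.nd (nat_lit 78) (nat_lit 304) (nat_lit 0) (XT.lf (nat_lit 0) (nat_lit 748122062737) (nat_lit 228) (nat_lit 149036563351) (nat_lit 304) (nat_lit 19512381640) (nat_lit 76) (nat_lit 5) (nat_lit 79) (nat_lit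 5) (nat_lit 80) (nat_lit 5) (nat_lit 382) (nat_lit 375) (nat_lit 263)) (XT.lf (nat_lit 0) (nat_lit 261613888360) (nat_lit 304) (nat_lit 141177010754) (nat_lit 76) (nat_lit 591280438793) (nat_lit 72) (nat_lit 5) (nat_lit 76) (nat_lit 5) (nat_lit 73) (nat_lit 5) (nat_lit 383) (nat_lit 375) (nat_lit 262))) (XT.nd (nat_lit 78) (nat_lit 532) (nat_lit 0) (XT.lf (nat_lit 0) (nat_lit 626219815644) (nat_lit 304) (nat_lit 89277493256) (nat_lit 76) (nat_lit 364146578104) (nat_lit 69) (nat_lit 5) (nat_lit 73) (nat_lit 5) (nat_lit 70) (nat_lit 5) (nat_lit 384) (nat_lit 375) (nat_lit 261)) (XT.nd (nat_lit 78) (nat_lit 380) (nat_lit 0) (XT.lf (nat_lit 0) (nat_lit 1090947467421) (nat_lit 228) (nat_lit 6779770108) (nat_lit 76) (nat_lit 76690614109) (nat_lit 67) (nat_lit 5) (nat_lit 70) (nat_lit 5) (nat_lit 68) (nat_lit 5) (nat_lit 385) (nat_lit 375) (nat_lit 260)) (XT.lf (nat_lit 0) (nat_lit 101149581169)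 (nat_lit 152) (nat_lit 283358532915) (nat_lit 228) (nat_lit 893470729683) (nat_lit 62) (nat_lit 5) (nat_lit 64) (nat_lit 5) (nat_lit 65) (nat_lit 5) (nat_lit 386) (nat_lit 375) (nat_lit 259))))) (XT.nd (nat_lit 234) (nat_lit 380) (nat_lit 0) (XT.nd (nat_lit 78) (nat_lit 304) (nat_lit 0) (XT.lf (nat_lit 0) (nat_lit 246953819576) (nat_lit 152) (nat_lit 728076817306) (nat_lit 228) (nat_lit 417286732645) (nat_lit 60) (nat_lit 5) (nat_lit 62) (nat_lit 5) (nat_lit 63) (nat_lit 5) (nat_lit 387) (nat_lit 375) (nat_lit 258)) (XT.nd (nat_lit 78) (nat_lit 152) (nat_lit 0) (XT.lf (nat_lit 0) (nat_lit 183925384556) (nat_lit 152) (nat_lit 1080793693691) (nat_lit 76) (nat_lit 254027258766) (nat_lit 58) (nat_lit 5) (nat_lit 60) (nat_lit 5) (nat_lit 59) (nat_lit 5) (nat_lit 388) (nat_lit 375) (nat_lit 257)) (XT.lf (nat_lit 0) (nat_lit 667501050660) (nat_lit 152) (nat_lit 254215097895) (nat_lit 228) (nat_lit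 735868022924) (nat_lit 56) (nat_lit 5) (nat_lit 58) (nat_lit 5) (nat_lit 59) (nat_lit 5) (nat_lit 389) (nat_lit 375) (nat_lit 256)))) (XT.nd (nat_lit 78) (nat_lit 228) (nat_lit 0) (XT.lf (nat_lit 0) (nat_lit 34341093196) (nat_lit 152) (nat_lit 858130787229) (nat_lit 76) (nat_lit 918541687015) (nat_lit 54) (nat_lit 5) (nat_lit 56) (nat_lit 5) (nat_lit 55) (nat_lit 5) (nat_lit 390) (nat_lit 375) (nat_lit 255)) (XT.nd (nat_lit 78) (nat_lit 76) (nat_lit 0) (XT.lf (nat_lit 0) (nat_lit 954091448687) (nat_lit 228) (nat_lit 689954605219) (nat_lit 76) (nat_lit 335675724829) (nat_lit 52) (nat_lit 5) (nat_lit 55) (nat_lit 5) (nat_lit 53) (nat_lit 4) (nat_lit 391) (nat_lit 375) (nat_lit 254)) (XT.lf (nat_lit 0) (nat_lit 1699775204737) (nat_lit 76) (nat_lit 403224814017) (nat_lit 152) (nat_lit 63440550072) (nat_lit 51) (nat_lit 5) (nat_lit 52) (nat_lit 5) (nat_lit 53) (nat_lit 4) (nat_lit 392) (nat_lit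 375) (nat_lit 253))))))))
noncomputable def xc103 : XT := (XT.nd (nat_lit 1638) (nat_lit 836) (nat_lit 0) (XT.nd (nat_lit 780) (nat_lit 1216) (nat_lit 0) (XT.nd (nat_lit 390) (nat_lit 684) (nat_lit 0) (XT.nd (nat_lit 156) (nat_lit 380) (nat_lit 0) (XT.nd (nat_lit 78) (nat_lit 152) (nat_lit 0) (XT.lf (nat_lit 0) (nat_lit 1091459993657) (nat_lit 228) (nat_lit 206119553930) (nat_lit 76) (nat_lit 1073535844936) (nat_lit 48) (nat_lit 5) (nat_lit 51) (nat_lit 5) (nat_lit 49) (nat_lit 4) (nat_lit 393) (nat_lit 375) (nat_lit 252)) (XT.lf (nat_lit 0) (nat_lit 140353624302) (nat_lit 76) (nat_lit 2375465090094) (nat_lit 76) (nat_lit 82542542142) (nat_lit 46) (nat_lit 4) (nat_lit 47) (nat_lit 5) (nat_lit 47) (nat_lit 4) (nat_lit 394) (nat_lit 375) (nat_lit 251))) (XT.nd (nat_lit 78) (nat_lit 228) (nat_lit 0) (XT.lf (nat_lit 0) (nat_lit 539833168233) (nat_lit 76) (nat_lit 822068622671) (nat_lit 152) (nat_lit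 1484702083987) (nat_lit 44) (nat_lit 5) (nat_lit 45) (nat_lit 5) (nat_lit 46) (nat_lit 4) (nat_lit 395) (nat_lit 375) (nat_lit 250)) (XT.nd (nat_lit 78) (nat_lit 76) (nat_lit 0) (XT.lf (nat_lit 0) (nat_lit 16691017930) (nat_lit 152) (nat_lit 2088359131394) (nat_lit 76) (nat_lit 1017097343104) (nat_lit 42) (nat_lit 5) (nat_lit 44) (nat_lit 5) (nat_lit 43) (nat_lit 4) (nat_lit 396) (nat_lit 375) (nat_lit 249)) (XT.lf (nat_lit 0) (nat_lit 1595754504592) (nat_lit 76) (nat_lit 192144995172) (nat_lit 152) (nat_lit 1637436669903) (nat_lit 41) (nat_lit 5) (nat_lit 42) (nat_lit 5) (nat_lit 43) (nat_lit 4) (nat_lit 397) (nat_lit 375) (nat_lit 248))))) (XT.nd (nat_lit 156) (nat_lit 456) (nat_lit 0) (XT.nd (nat_lit 78) (nat_lit 76) (nat_lit 0) (XT.lf (nat_lit 0) (nat_lit 217367690343) (nat_lit 152) (nat_lit 1513686741434) (nat_lit 76) (nat_lit 2029321235220) (nat_lit 39) (nat_lit 5) (nat_lit 41) (nat_lit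 5) (nat_lit 40) (nat_lit 4) (nat_lit 398) (nat_lit 375) (nat_lit 247)) (XT.lf (nat_lit 0) (nat_lit 2403113751621) (nat_lit 152) (nat_lit 1144262946202) (nat_lit 0) (nat_lit 582917879668) (nat_lit 38) (nat_lit 5) (nat_lit 40) (nat_lit 4) (nat_lit 38) (nat_lit 4) (nat_lit 399) (nat_lit 375) (nat_lit 246))) (XT.nd (nat_lit 78) (nat_lit 304) (nat_lit 0) (XT.lf (nat_lit 0) (nat_lit 533305041575) (nat_lit 152) (nat_lit 710921388988) (nat_lit 76) (nat_lit 3295552742339) (nat_lit 36) (nat_lit 5) (nat_lit 38) (nat_lit 5) (nat_lit 37) (nat_lit 4) (nat_lit 400) (nat_lit 375) (nat_lit 245)) (XT.nd (nat_lit 78) (nat_lit 228) (nat_lit 0) (XT.lf (nat_lit 0) (nat_lit 3222043417049) (nat_lit 152) (nat_lit 233061389998) (nat_lit 0) (nat_lit 1536676862865) (nat_lit 35) (nat_lit 5) (nat_lit 37) (nat_lit 4) (nat_lit 35) (nat_lit 4) (nat_lit 401) (nat_lit 375) (nat_lit 244)) (XT.lf (nat_lit 0) (nat_lit 335570015286)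 (nat_lit 76) (nat_lit 636034105832) (nat_lit 152) (nat_lit 4521697128248) (nat_lit 32) (nat_lit 5) (nat_lit 33) (nat_lit 5) (nat_lit 34) (nat_lit 4) (nat_lit 402) (nat_lit 375) (nat_lit 243)))))) (XT.nd (nat_lit 390) (nat_lit 684) (nat_lit 0) (XT.nd (nat_lit 156) (nat_lit 304) (nat_lit 0) (XT.nd (nat_lit 78) (nat_lit 152) (nat_lit 0) (XT.lf (nat_lit 0) (nat_lit 935429042219) (nat_lit 76) (nat_lit 3335664125595) (nat_lit 76) (nat_lit 1775139534133) (nat_lit 31) (nat_lit 4) (nat_lit 32) (nat_lit 5) (nat_lit 32) (nat_lit 4) (nat_lit 403) (nat_lit 375) (nat_lit 242)) (XT.lf (nat_lit 0) (nat_lit 1526655932393) (nat_lit 152) (nat_lit 5054063911844) (nat_lit 0) (nat_lit 81725753519) (nat_lit 29) (nat_lit 5) (nat_lit 31) (nat_lit 4) (nat_lit 29) (nat_lit 4) (nat_lit 404) (nat_lit 375) (nat_lit 241))) (XT.nd (nat_lit 78) (nat_lit 228) (nat_lit 0) (XT.lf (nat_lit 0) (nat_lit 2253252583063) (nat_lit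 76) (nat_lit 3267455879233) (nat_lit 76) (nat_lit 1822525698973) (nat_lit 28) (nat_lit 4) (nat_lit 29) (nat_lit 5) (nat_lit 29) (nat_lit 4) (nat_lit 405) (nat_lit 375) (nat_lit 240)) (XT.nd (nat_lit 78) (nat_lit 76) (nat_lit 0) (XT.lf (nat_lit 0) (nat_lit 2130118678671) (nat_lit 152) (nat_lit 5180631574762) (nat_lit 0) (nat_lit 792220362499) (nat_lit 26) (nat_lit 5) (nat_lit 28) (nat_lit 4) (nat_lit 26) (nat_lit 4) (nat_lit 406) (nat_lit 375) (nat_lit 239)) (XT.lf (nat_lit 0) (nat_lit 3510934975138) (nat_lit 76) (nat_lit 3386725329178) (nat_lit 76) (nat_lit 2048827012036) (nat_lit 25) (nat_lit 4) (nat_lit 26) (nat_lit 5) (nat_lit 26) (nat_lit 4) (nat_lit 407) (nat_lit 375) (nat_lit 238))))) (XT.nd (nat_lit 234) (nat_lit 304) (nat_lit 0) (XT.nd (nat_lit 78) (nat_lit 228) (nat_lit 0) (XT.lf (nat_lit 0) (nat_lit 2627995229462) (nat_lit 152) (nat_lit 5871600009503) (nat_lit 0) (nat_lit 1389200490586)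 (nat_lit 23) (nat_lit 5) (nat_lit 25) (nat_lit 4) (nat_lit 23) (nat_lit 4) (nat_lit 408) (nat_lit 375) (nat_lit 237)) (XT.nd (nat_lit 78) (nat_lit 152) (nat_lit 0) (XT.lf (nat_lit 0) (nat_lit 4318827013367) (nat_lit 76) (nat_lit 3929546566225) (nat_lit 76) (nat_lit 2690751826670) (nat_lit 22) (nat_lit 4) (nat_lit 23) (nat_lit 5) (nat_lit 23) (nat_lit 4) (nat_lit 409) (nat_lit 375) (nat_lit 236)) (XT.lf (nat_lit 0) (nat_lit 2758869192137) (nat_lit 152) (nat_lit 7745574274064) (nat_lit 0) (nat_lit 1611837025335) (nat_lit 20) (nat_lit 5) (nat_lit 22) (nat_lit 4) (nat_lit 20) (nat_lit 4) (nat_lit 410) (nat_lit 375) (nat_lit 235)))) (XT.nd (nat_lit 78) (nat_lit 228) (nat_lit 0) (XT.lf (nat_lit 0) (nat_lit 3967016072414) (nat_lit 76) (nat_lit 5305962183827) (nat_lit 76) (nat_lit 4158930016550) (nat_lit 19) (nat_lit 4) (nat_lit 20) (nat_lit 5) (nat_lit 20) (nat_lit 4) (nat_lit 411) (nat_lit 375)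 (nat_lit 234)) (XT.nd (nat_lit 78) (nat_lit 76) (nat_lit 0) (XT.lf (nat_lit 0) (nat_lit 2059069627625) (nat_lit 152) (nat_lit 11858846918357) (nat_lit 0) (nat_lit 997002805689) (nat_lit 17) (nat_lit 5) (nat_lit 19) (nat_lit 4) (nat_lit 17) (nat_lit 4) (nat_lit 412) (nat_lit 375) (nat_lit 233)) (XT.lf (nat_lit 0) (nat_lit 1222216904676) (nat_lit 76) (nat_lit 8207160508262) (nat_lit 76) (nat_lit 7145093685994) (nat_lit 16) (nat_lit 4) (nat_lit 17) (nat_lit 5) (nat_lit 17) (nat_lit 4) (nat_lit 413) (nat_lit 375) (nat_lit 232))))))) (XT.nd (nat_lit 780) (nat_lit 152) (nat_lit 0) (XT.nd (nat_lit 390) (nat_lit 304) (nat_lit 0) (XT.nd (nat_lit 156) (nat_lit 228) (nat_lit 0) (XT.nd (nat_lit 78) (nat_lit 152) (nat_lit 0) (XT.lf (nat_lit 0) (nat_lit 16983576034531) (nat_lit 76) (nat_lit 1266912895591) (nat_lit 76) (nat_lit 204846073033) (nat_lit 16) (nat_lit 4) (nat_lit 17) (nat_lit 5) (nat_lit 17)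 (nat_lit 4) (nat_lit 414) (nat_lit 375) (nat_lit 231)) (XT.lf (nat_lit 0) (nat_lit 7925295214033) (nat_lit 152) (nat_lit 5693142149084) (nat_lit 0) (nat_lit 6941900007727) (nat_lit 14) (nat_lit 5) (nat_lit 16) (nat_lit 4) (nat_lit 14) (nat_lit 4) (nat_lit 415) (nat_lit 375) (nat_lit 230))) (XT.nd (nat_lit 78) (nat_lit 152) (nat_lit 0) (XT.lf (nat_lit 0) (nat_lit 11291483135796) (nat_lit 76) (nat_lit 6322251990872) (nat_lit 76) (nat_lit 5338856784364) (nat_lit 13) (nat_lit 4) (nat_lit 14) (nat_lit 5) (nat_lit 14) (nat_lit 4) (nat_lit 416) (nat_lit 375) (nat_lit 229)) (XT.nd (nat_lit 78) (nat_lit 0) (nat_lit 0) (XT.lf (nat_lit 0) (nat_lit 3265488666008) (nat_lit 152) (nat_lit 20048075353433) (nat_lit 0) (nat_lit 2354937548707) (nat_lit 11) (nat_lit 5) (nat_lit 13) (nat_lit 4) (nat_lit 11) (nat_lit 4) (nat_lit 417) (nat_lit 375) (nat_lit 228)) (XT.lf (nat_lit 0) (nat_lit 13376530698827) (nat_lit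 152) (nat_lit 2895620492120) (nat_lit 0) (nat_lit 12465979581385) (nat_lit 11) (nat_lit 5) (nat_lit 13) (nat_lit 4) (nat_lit 11) (nat_lit 4) (nat_lit 418) (nat_lit 375) (nat_lit 227))))) (XT.nd (nat_lit 156) (nat_lit 76) (nat_lit 0) (XT.nd (nat_lit 78) (nat_lit 152) (nat_lit 0) (XT.lf (nat_lit 0) (nat_lit 17715924906245) (nat_lit 76) (nat_lit 7714372547544) (nat_lit 76) (nat_lit 6803821429978) (nat_lit 10) (nat_lit 4) (nat_lit 11) (nat_lit 5) (nat_lit 11) (nat_lit 4) (nat_lit 419) (nat_lit 375) (nat_lit 226)) (XT.lf (nat_lit 0) (nat_lit 3164385842438) (nat_lit 152) (nat_lit 30740694732311) (nat_lit 0) (nat_lit 2321282955703) (nat_lit 8) (nat_lit 5) (nat_lit 10) (nat_lit 4) (nat_lit 8) (nat_lit 4) (nat_lit 420) (nat_lit 375) (nat_lit 225))) (XT.nd (nat_lit 78) (nat_lit 76) (nat_lit 0) (XT.lf (nat_lit 0) (nat_lit 14883437105791) (nat_lit 152) (nat_lit 11826857734297) (nat_lit 0) (nat_lit 14040334218970)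 (nat_lit 8) (nat_lit 5) (nat_lit 10) (nat_lit 4) (nat_lit 8) (nat_lit 4) (nat_lit 421) (nat_lit 375) (nat_lit 224)) (XT.nd (nat_lit 78) (nat_lit 0) (nat_lit 0) (XT.lf (nat_lit 0) (nat_lit 10446637948216) (nat_lit 76) (nat_lit 18164950002148) (nat_lit 76) (nat_lit 17321847115252) (nat_lit 7) (nat_lit 4) (nat_lit 8) (nat_lit 5) (nat_lit 8) (nat_lit 4) (nat_lit 422) (nat_lit 375) (nat_lit 223)) (XT.lf (nat_lit 0) (nat_lit 36777356553675) (nat_lit 76) (nat_lit 7965931103789) (nat_lit 76) (nat_lit 7122828216827) (nat_lit 7) (nat_lit 4) (nat_lit 8) (nat_lit 5) (nat_lit 8) (nat_lit 4) (nat_lit 423) (nat_lit 375) (nat_lit 222)))))) (XT.nd (nat_lit 49686) (nat_lit 0) (nat_lit 4864) (XT.nd (nat_lit 49452) (nat_lit 0) (nat_lit 6156) (XT.nd (nat_lit 49374) (nat_lit 0) (nat_lit 6688) (XT.lf (nat_lit 0) (nat_lit 4683505587375) (nat_lit 152) (nat_lit 50068846412461) (nat_lit 0) (nat_lit 3902854766061) (nat_lit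 5) (nat_lit 5) (nat_lit 7) (nat_lit 4) (nat_lit 5) (nat_lit 4) (nat_lit 424) (nat_lit 375) (nat_lit 221)) (XT.lf (nat_lit 0) (nat_lit 306784466691) (nat_lit 532) (nat_lit 2046825773) (nat_lit 532) (nat_lit 2046825773) (nat_lit 93) (nat_lit 3) (nat_lit 100) (nat_lit 3) (nat_lit 100) (nat_lit 5) (nat_lit 376) (nat_lit 376) (nat_lit 268))) (XT.nd (nat_lit 78) (nat_lit 0) (nat_lit 76) (XT.lf (nat_lit 0) (nat_lit 6612531056) (nat_lit 532) (nat_lit 60559456018) (nat_lit 608) (nat_lit 600035012704) (nat_lit 86) (nat_lit 5) (nat_lit 93) (nat_lit 3) (nat_lit 94) (nat_lit 5) (nat_lit 377) (nat_lit 376) (nat_lit 267)) (XT.nd (nat_lit 78) (nat_lit 0) (nat_lit 76) (XT.lf (nat_lit 0) (nat_lit 52215397235) (nat_lit 532) (nat_lit 111662714235) (nat_lit 608) (nat_lit 553254826606) (nat_lit 87) (nat_lit 5) (nat_lit 94) (nat_lit 5) (nat_lit 95) (nat_lit 5) (nat_lit 378) (nat_lit 376) (nat_lit 266)) (XT.lf (nat_lit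 0) (nat_lit 135672613682) (nat_lit 532) (nat_lit 154939470756) (nat_lit 608) (nat_lit 481454569058) (nat_lit 88) (nat_lit 5) (nat_lit 95) (nat_lit 5) (nat_lit 96) (nat_lit 5) (nat_lit 379) (nat_lit 376) (nat_lit 265))))) (XT.nd (nat_lit 234) (nat_lit 760) (nat_lit 0) (XT.nd (nat_lit 78) (nat_lit 760) (nat_lit 0) (XT.lf (nat_lit 0) (nat_lit 264890824278) (nat_lit 532) (nat_lit 187793362781) (nat_lit 76) (nat_lit 379896846241) (nat_lit 89) (nat_lit 5) (nat_lit 96) (nat_lit 5) (nat_lit 90) (nat_lit 5) (nat_lit 380) (nat_lit 376) (nat_lit 264)) (XT.nd (nat_lit 78) (nat_lit 228) (nat_lit 0) (XT.lf (nat_lit 0) (nat_lit 449118776587) (nat_lit 608) (nat_lit 207119452733) (nat_lit 76) (nat_lit 243084179948) (nat_lit 82) (nat_lit 5) (nat_lit 90) (nat_lit 5) (nat_lit 83) (nat_lit 5) (nat_lit 381) (nat_lit 376) (nat_lit 263)) (XT.lf (nat_lit 0) (nat_lit 699158853278) (nat_lit 304) (nat_lit 209220215605)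 (nat_lit 76) (nat_lit 64641688229) (nat_lit 79) (nat_lit 5) (nat_lit 83) (nat_lit 5) (nat_lit 80) (nat_lit 5) (nat_lit 382) (nat_lit 376) (nat_lit 262)))) (XT.nd (nat_lit 78) (nat_lit 532) (nat_lit 0) (XT.lf (nat_lit 0) (nat_lit 860340750820) (nat_lit 228) (nat_lit 171391989433) (nat_lit 304) (nat_lit 22438892981) (nat_lit 76) (nat_lit 5) (nat_lit 79) (nat_lit 5) (nat_lit 80) (nat_lit 5) (nat_lit 383) (nat_lit 376) (nat_lit 261)) (XT.nd (nat_lit 78) (nat_lit 228) (nat_lit 0) (XT.lf (nat_lit 0) (nat_lit 300856267709) (nat_lit 304) (nat_lit 162353177932) (nat_lit 76) (nat_lit 679972569237) (nat_lit 72) (nat_lit 5) (nat_lit 76) (nat_lit 5) (nat_lit 73) (nat_lit 5) (nat_lit 384) (nat_lit 376) (nat_lit 260)) (XT.lf (nat_lit 0) (nat_lit 720153055995) (nat_lit 304) (nat_lit 102668746119) (nat_lit 76) (nat_lit 418768646478) (nat_lit 69) (nat_lit 5) (nat_lit 73) (nat_lit 5) (nat_lit 70) (nat_lit 5)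 (nat_lit 385) (nat_lit 376) (nat_lit 259))))))))
noncomputable def xc104 : XT := (XT.nd (nat_lit 1638) (nat_lit 1596) (nat_lit 0) (XT.nd (nat_lit 780) (nat_lit 1368) (nat_lit 0) (XT.nd (nat_lit 390) (nat_lit 760) (nat_lit 0) (XT.nd (nat_lit 156) (nat_lit 456) (nat_lit 0) (XT.nd (nat_lit 78) (nat_lit 380) (nat_lit 0) (XT.lf (nat_lit 0) (nat_lit 1254589831120) (nat_lit 228) (nat_lit 7796378963) (nat_lit 76) (nat_lit 88194299793) (nat_lit 67) (nat_lit 5) (nat_lit 70) (nat_lit 5) (nat_lit 68) (nat_lit 5) (nat_lit 386) (nat_lit 376) (nat_lit 258)) (XT.lf (nat_lit 0) (nat_lit 116322374518) (nat_lit 152) (nat_lit 325862190633) (nat_lit 228) (nat_lit 1027491086449) (nat_lit 62) (nat_lit 5) (nat_lit 64) (nat_lit 5) (nat_lit 65) (nat_lit 5) (nat_lit 387) (nat_lit 376) (nat_lit 257))) (XT.nd (nat_lit 78) (nat_lit 304) (nat_lit 0) (XT.lf (nat_lit 0) (nat_lit 283997232995) (nat_lit 152) (nat_lit 837288213603)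 (nat_lit 228) (nat_lit 479879511210) (nat_lit 60) (nat_lit 5) (nat_lit 62) (nat_lit 5) (nat_lit 63) (nat_lit 5) (nat_lit 388) (nat_lit 376) (nat_lit 256)) (XT.nd (nat_lit 78) (nat_lit 152) (nat_lit 0) (XT.lf (nat_lit 0) (nat_lit 211514394053) (nat_lit 152) (nat_lit 1242912412528) (nat_lit 76) (nat_lit 292131464828) (nat_lit 58) (nat_lit 5) (nat_lit 60) (nat_lit 5) (nat_lit 59) (nat_lit 5) (nat_lit 389) (nat_lit 376) (nat_lit 255)) (XT.lf (nat_lit 0) (nat_lit 767626515102) (nat_lit 152) (nat_lit 292347238606) (nat_lit 228) (nat_lit 846248028853) (nat_lit 56) (nat_lit 5) (nat_lit 58) (nat_lit 5) (nat_lit 59) (nat_lit 5) (nat_lit 390) (nat_lit 376) (nat_lit 254))))) (XT.nd (nat_lit 156) (nat_lit 456) (nat_lit 0) (XT.nd (nat_lit 78) (nat_lit 152) (nat_lit 0) (XT.lf (nat_lit 0) (nat_lit 39492430185) (nat_lit 152) (nat_lit 986850104653) (nat_lit 76) (nat_lit 1056323053869) (nat_lit 54) (nat_lit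 5) (nat_lit 56) (nat_lit 5) (nat_lit 55) (nat_lit 5) (nat_lit 391) (nat_lit 376) (nat_lit 253)) (XT.lf (nat_lit 0) (nat_lit 1097205325894) (nat_lit 228) (nat_lit 793447511060) (nat_lit 76) (nat_lit 386027195792) (nat_lit 52) (nat_lit 5) (nat_lit 55) (nat_lit 5) (nat_lit 53) (nat_lit 4) (nat_lit 392) (nat_lit 376) (nat_lit 252))) (XT.nd (nat_lit 78) (nat_lit 380) (nat_lit 0) (XT.lf (nat_lit 0) (nat_lit 1954741746271) (nat_lit 76) (nat_lit 463708420616) (nat_lit 152) (nat_lit 72956475631) (nat_lit 51) (nat_lit 5) (nat_lit 52) (nat_lit 5) (nat_lit 53) (nat_lit 4) (nat_lit 393) (nat_lit 376) (nat_lit 251)) (XT.nd (nat_lit 78) (nat_lit 152) (nat_lit 0) (XT.lf (nat_lit 0) (nat_lit 1255179130927) (nat_lit 228) (nat_lit 237037232886) (nat_lit 76) (nat_lit 1234566326526) (nat_lit 48) (nat_lit 5) (nat_lit 51) (nat_lit 5) (nat_lit 49) (nat_lit 4) (nat_lit 394) (nat_lit 376) (nat_lit 250)) (XT.lf (nat_lit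 0) (nat_lit 161406920712) (nat_lit 76) (nat_lit 2731784735279) (nat_lit 76) (nat_lit 94923778269) (nat_lit 46) (nat_lit 4) (nat_lit 47) (nat_lit 5) (nat_lit 47) (nat_lit 4) (nat_lit 395) (nat_lit 376) (nat_lit 249)))))) (XT.nd (nat_lit 390) (nat_lit 760) (nat_lit 0) (XT.nd (nat_lit 156) (nat_lit 304) (nat_lit 0) (XT.nd (nat_lit 78) (nat_lit 152) (nat_lit 0) (XT.lf (nat_lit 0) (nat_lit 620808381489) (nat_lit 76) (nat_lit 945378803715) (nat_lit 152) (nat_lit 1707407260864) (nat_lit 44) (nat_lit 5) (nat_lit 45) (nat_lit 5) (nat_lit 46) (nat_lit 4) (nat_lit 396) (nat_lit 376) (nat_lit 248)) (XT.lf (nat_lit 0) (nat_lit 19194790688) (nat_lit 152) (nat_lit 2401612770172) (nat_lit 76) (nat_lit 1169662045825) (nat_lit 42) (nat_lit 5) (nat_lit 44) (nat_lit 5) (nat_lit 43) (nat_lit 4) (nat_lit 397) (nat_lit 376) (nat_lit 247))) (XT.nd (nat_lit 78) (nat_lit 228) (nat_lit 0) (XT.lf (nat_lit 0) (nat_lit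 1835117891665) (nat_lit 76) (nat_lit 220966642555) (nat_lit 152) (nat_lit 1883052052136) (nat_lit 41) (nat_lit 5) (nat_lit 42) (nat_lit 5) (nat_lit 43) (nat_lit 4) (nat_lit 398) (nat_lit 376) (nat_lit 246)) (XT.nd (nat_lit 78) (nat_lit 76) (nat_lit 0) (XT.lf (nat_lit 0) (nat_lit 249972948681) (nat_lit 152) (nat_lit 1740739547861) (nat_lit 76) (nat_lit 2333719512120) (nat_lit 39) (nat_lit 5) (nat_lit 41) (nat_lit 5) (nat_lit 40) (nat_lit 4) (nat_lit 399) (nat_lit 376) (nat_lit 245)) (XT.lf (nat_lit 0) (nat_lit 2763580912200) (nat_lit 152) (nat_lit 1315902195236) (nat_lit 0) (nat_lit 670355648851) (nat_lit 38) (nat_lit 5) (nat_lit 40) (nat_lit 4) (nat_lit 38) (nat_lit 4) (nat_lit 400) (nat_lit 376) (nat_lit 244))))) (XT.nd (nat_lit 234) (nat_lit 304) (nat_lit 0) (XT.nd (nat_lit 78) (nat_lit 304) (nat_lit 0) (XT.lf (nat_lit 0) (nat_lit 613300889454) (nat_lit 152) (nat_lit 817559415940) (nat_lit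 76) (nat_lit 3789885736111) (nat_lit 36) (nat_lit 5) (nat_lit 38) (nat_lit 5) (nat_lit 37) (nat_lit 4) (nat_lit 401) (nat_lit 376) (nat_lit 243)) (XT.nd (nat_lit 78) (nat_lit 228) (nat_lit 0) (XT.lf (nat_lit 0) (nat_lit 3705350015269) (nat_lit 152) (nat_lit 268020427741) (nat_lit 0) (nat_lit 1767178470535) (nat_lit 35) (nat_lit 5) (nat_lit 37) (nat_lit 4) (nat_lit 35) (nat_lit 4) (nat_lit 402) (nat_lit 376) (nat_lit 242)) (XT.lf (nat_lit 0) (nat_lit 385905686564) (nat_lit 76) (nat_lit 731439137069) (nat_lit 152) (nat_lit 5199951606390) (nat_lit 32) (nat_lit 5) (nat_lit 33) (nat_lit 5) (nat_lit 34) (nat_lit 4) (nat_lit 403) (nat_lit 376) (nat_lit 241)))) (XT.nd (nat_lit 78) (nat_lit 228) (nat_lit 0) (XT.lf (nat_lit 0) (nat_lit 1075743557547) (nat_lit 76) (nat_lit 3836013664378) (nat_lit 76) (nat_lit 2041410378998) (nat_lit 31) (nat_lit 4) (nat_lit 32) (nat_lit 5) (nat_lit 32) (nat_lit 4) (nat_lit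 404) (nat_lit 376) (nat_lit 240)) (XT.nd (nat_lit 78) (nat_lit 76) (nat_lit 0) (XT.lf (nat_lit 0) (nat_lit 1755654398086) (nat_lit 152) (nat_lit 5812173345070) (nat_lit 0) (nat_lit 93984688196) (nat_lit 29) (nat_lit 5) (nat_lit 31) (nat_lit 4) (nat_lit 29) (nat_lit 4) (nat_lit 405) (nat_lit 376) (nat_lit 239)) (XT.lf (nat_lit 0) (nat_lit 2591240611075) (nat_lit 76) (nat_lit 3757574189888) (nat_lit 76) (nat_lit 2095904478950) (nat_lit 28) (nat_lit 4) (nat_lit 29) (nat_lit 5) (nat_lit 29) (nat_lit 4) (nat_lit 406) (nat_lit 376) (nat_lit 238))))))) (XT.nd (nat_lit 780) (nat_lit 532) (nat_lit 0) (XT.nd (nat_lit 390) (nat_lit 456) (nat_lit 0) (XT.nd (nat_lit 156) (nat_lit 380) (nat_lit 0) (XT.nd (nat_lit 78) (nat_lit 76) (nat_lit 0) (XT.lf (nat_lit 0) (nat_lit 2449636547108) (nat_lit 152) (nat_lit 5957726175302) (nat_lit 0) (nat_lit 911053480581) (nat_lit 26) (nat_lit 5) (nat_lit 28) (nat_lit 4)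 (nat_lit 26) (nat_lit 4) (nat_lit 407) (nat_lit 376) (nat_lit 237)) (XT.lf (nat_lit 0) (nat_lit 4037575345599) (nat_lit 76) (nat_lit 3894734065296) (nat_lit 76) (nat_lit 2356150998035) (nat_lit 25) (nat_lit 4) (nat_lit 26) (nat_lit 5) (nat_lit 26) (nat_lit 4) (nat_lit 408) (nat_lit 376) (nat_lit 236))) (XT.nd (nat_lit 78) (nat_lit 228) (nat_lit 0) (XT.lf (nat_lit 0) (nat_lit 3022194572480) (nat_lit 152) (nat_lit 6752339891094) (nat_lit 0) (nat_lit 1597580620721) (nat_lit 23) (nat_lit 5) (nat_lit 25) (nat_lit 4) (nat_lit 23) (nat_lit 4) (nat_lit 409) (nat_lit 376) (nat_lit 235)) (XT.nd (nat_lit 78) (nat_lit 152) (nat_lit 0) (XT.lf (nat_lit 0) (nat_lit 4966651175063) (nat_lit 76) (nat_lit 4518978495061) (nat_lit 76) (nat_lit 3094364542789) (nat_lit 22) (nat_lit 4) (nat_lit 23) (nat_lit 5) (nat_lit 23) (nat_lit 4) (nat_lit 410) (nat_lit 376) (nat_lit 234)) (XT.lf (nat_lit 0) (nat_lit 3172699622518)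 (nat_lit 152) (nat_lit 8907410309363) (nat_lit 0) (nat_lit 1853612629260) (nat_lit 20) (nat_lit 5) (nat_lit 22) (nat_lit 4) (nat_lit 20) (nat_lit 4) (nat_lit 411) (nat_lit 376) (nat_lit 233))))) (XT.nd (nat_lit 156) (nat_lit 228) (nat_lit 0) (XT.nd (nat_lit 78) (nat_lit 152) (nat_lit 0) (XT.lf (nat_lit 0) (nat_lit 4562068580131) (nat_lit 76) (nat_lit 6101856461711) (nat_lit 76) (nat_lit 4782769468094) (nat_lit 19) (nat_lit 4) (nat_lit 20) (nat_lit 5) (nat_lit 20) (nat_lit 4) (nat_lit 412) (nat_lit 376) (nat_lit 232)) (XT.lf (nat_lit 0) (nat_lit 2367930117159) (nat_lit 152) (nat_lit 13637673862704) (nat_lit 0) (nat_lit 1146553270928) (nat_lit 17) (nat_lit 5) (nat_lit 19) (nat_lit 4) (nat_lit 17) (nat_lit 4) (nat_lit 413) (nat_lit 376) (nat_lit 231))) (XT.nd (nat_lit 78) (nat_lit 152) (nat_lit 0) (XT.lf (nat_lit 0) (nat_lit 1405549525877) (nat_lit 76) (nat_lit 9438234540528) (nat_lit 76) (nat_lit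 8216857694044) (nat_lit 16) (nat_lit 4) (nat_lit 17) (nat_lit 5) (nat_lit 17) (nat_lit 4) (nat_lit 414) (nat_lit 376) (nat_lit 230)) (XT.nd (nat_lit 78) (nat_lit 152) (nat_lit 0) (XT.lf (nat_lit 0) (nat_lit 19531112514059) (nat_lit 76) (nat_lit 1456949791692) (nat_lit 76) (nat_lit 235572944989) (nat_lit 16) (nat_lit 4) (nat_lit 17) (nat_lit 5) (nat_lit 17) (nat_lit 4) (nat_lit 415) (nat_lit 376) (nat_lit 229)) (XT.lf (nat_lit 0) (nat_lit 9114089530898) (nat_lit 152) (nat_lit 6547113399758) (nat_lit 0) (nat_lit 7983185043034) (nat_lit 14) (nat_lit 5) (nat_lit 16) (nat_lit 4) (nat_lit 14) (nat_lit 4) (nat_lit 416) (nat_lit 376) (nat_lit 228)))))) (XT.nd (nat_lit 390) (nat_lit 76) (nat_lit 0) (XT.nd (nat_lit 156) (nat_lit 228) (nat_lit 0) (XT.nd (nat_lit 78) (nat_lit 152) (nat_lit 0) (XT.lf (nat_lit 0) (nat_lit 12985205671785) (nat_lit 76) (nat_lit 7270589755687) (nat_lit 76) (nat_lit 6139685267670)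 (nat_lit 13) (nat_lit 4) (nat_lit 14) (nat_lit 5) (nat_lit 14) (nat_lit 4) (nat_lit 417) (nat_lit 376) (nat_lit 227)) (XT.lf (nat_lit 0) (nat_lit 3755311996530) (nat_lit 152) (nat_lit 23055286593185) (nat_lit 0) (nat_lit 2708178211206) (nat_lit 11) (nat_lit 5) (nat_lit 13) (nat_lit 4) (nat_lit 11) (nat_lit 4) (nat_lit 418) (nat_lit 376) (nat_lit 226))) (XT.nd (nat_lit 78) (nat_lit 228) (nat_lit 0) (XT.lf (nat_lit 0) (nat_lit 15383010330278) (nat_lit 152) (nat_lit 3329963510927) (nat_lit 0) (nat_lit 14335876544846) (nat_lit 11) (nat_lit 5) (nat_lit 13) (nat_lit 4) (nat_lit 11) (nat_lit 4) (nat_lit 419) (nat_lit 376) (nat_lit 225)) (XT.nd (nat_lit 78) (nat_lit 152) (nat_lit 0) (XT.lf (nat_lit 0) (nat_lit 20373313692536) (nat_lit 76) (nat_lit 8871528403686) (nat_lit 76) (nat_lit 7824394618161) (nat_lit 10) (nat_lit 4) (nat_lit 11) (nat_lit 5) (nat_lit 11) (nat_lit 4) (nat_lit 420) (nat_lit 376)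 (nat_lit 224)) (XT.lf (nat_lit 0) (nat_lit 3639043742266) (nat_lit 152) (nat_lit 35351798893618) (nat_lit 0) (nat_lit 2669475422260) (nat_lit 8) (nat_lit 5) (nat_lit 10) (nat_lit 4) (nat_lit 8) (nat_lit 4) (nat_lit 421) (nat_lit 376) (nat_lit 223))))) (XT.nd (nat_lit 49608) (nat_lit 0) (nat_lit 6004) (XT.nd (nat_lit 78) (nat_lit 76) (nat_lit 0) (XT.lf (nat_lit 0) (nat_lit 17115952692062) (nat_lit 152) (nat_lit 13600886352232) (nat_lit 0) (nat_lit 16146384371991) (nat_lit 8) (nat_lit 5) (nat_lit 10) (nat_lit 4) (nat_lit 8) (nat_lit 4) (nat_lit 422) (nat_lit 376) (nat_lit 222)) (XT.nd (nat_lit 78) (nat_lit 0) (nat_lit 0) (XT.lf (nat_lit 0) (nat_lit 12013633679084) (nat_lit 76) (nat_lit 20889692482504) (nat_lit 76) (nat_lit 19920124162377) (nat_lit 7) (nat_lit 4) (nat_lit 8) (nat_lit 5) (nat_lit 8) (nat_lit 4) (nat_lit 423) (nat_lit 376) (nat_lit 221)) (XT.lf (nat_lit 0) (nat_lit 42293960070323)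 (nat_lit 76) (nat_lit 9160820751995) (nat_lit 76) (nat_lit 8191252431818) (nat_lit 7) (nat_lit 4) (nat_lit 8) (nat_lit 5) (nat_lit 8) (nat_lit 4) (nat_lit 424) (nat_lit 376) (nat_lit 220)))) (XT.nd (nat_lit 78) (nat_lit 532) (nat_lit 0) (XT.lf (nat_lit 0) (nat_lit 352802412639) (nat_lit 532) (nat_lit 2353700611) (nat_lit 532) (nat_lit 2353700611) (nat_lit 93) (nat_lit 3) (nat_lit 100) (nat_lit 3) (nat_lit 100) (nat_lit 5) (nat_lit 377) (nat_lit 377) (nat_lit 266)) (XT.nd (nat_lit 78) (nat_lit 0) (nat_lit 76) (XT.lf (nat_lit 0) (nat_lit 7604909876) (nat_lit 532) (nat_lit 69643075249) (nat_lit 608) (nat_lit 690040024628) (nat_lit 86) (nat_lit 5) (nat_lit 93) (nat_lit 3) (nat_lit 94) (nat_lit 5) (nat_lit 378) (nat_lit 377) (nat_lit 265)) (XT.lf (nat_lit 0) (nat_lit 60048143448) (nat_lit 532) (nat_lit 128411808207) (nat_lit 608) (nat_lit 636242892150) (nat_lit 87) (nat_lit 5) (nat_lit 94) (nat_lit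 5) (nat_lit 95) (nat_lit 5) (nat_lit 379) (nat_lit 377) (nat_lit 264))))))))
noncomputable def xc105 : XT := (XT.nd (nat_lit 1638) (nat_lit 2204) (nat_lit 0) (XT.nd (nat_lit 780) (nat_lit 1596) (nat_lit 0) (XT.nd (nat_lit 390) (nat_lit 1216) (nat_lit 0) (XT.nd (nat_lit 156) (nat_lit 912) (nat_lit 0) (XT.nd (nat_lit 78) (nat_lit 0) (nat_lit 76) (XT.lf (nat_lit 0) (nat_lit 156023889902) (nat_lit 532) (nat_lit 178180071341) (nat_lit 608) (nat_lit 553672659499) (nat_lit 88) (nat_lit 5) (nat_lit 95) (nat_lit 5) (nat_lit 96) (nat_lit 5) (nat_lit 380) (nat_lit 377) (nat_lit 263)) (XT.lf (nat_lit 0) (nat_lit 304624787865) (nat_lit 532) (nat_lit 215962045773) (nat_lit 76) (nat_lit 436881327422) (nat_lit 89) (nat_lit 5) (nat_lit 96) (nat_lit 5) (nat_lit 90) (nat_lit 5) (nat_lit 381) (nat_lit 377) (nat_lit 262))) (XT.nd (nat_lit 78) (nat_lit 456) (nat_lit 0) (XT.lf (nat_lit 0) (nat_lit 516486895553)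 (nat_lit 608) (nat_lit 238187051973) (nat_lit 76) (nat_lit 279546798901) (nat_lit 82) (nat_lit 5) (nat_lit 90) (nat_lit 5) (nat_lit 83) (nat_lit 5) (nat_lit 382) (nat_lit 377) (nat_lit 261)) (XT.nd (nat_lit 78) (nat_lit 228) (nat_lit 0) (XT.lf (nat_lit 0) (nat_lit 804032951830) (nat_lit 304) (nat_lit 240602935138) (nat_lit 76) (nat_lit 74337962037) (nat_lit 79) (nat_lit 5) (nat_lit 83) (nat_lit 5) (nat_lit 80) (nat_lit 5) (nat_lit 383) (nat_lit 377) (nat_lit 260)) (XT.lf (nat_lit 0) (nat_lit 989392149773) (nat_lit 228) (nat_lit 197100743674) (nat_lit 304) (nat_lit 25804465374) (nat_lit 76) (nat_lit 5) (nat_lit 79) (nat_lit 5) (nat_lit 80) (nat_lit 5) (nat_lit 384) (nat_lit 377) (nat_lit 259))))) (XT.nd (nat_lit 156) (nat_lit 684) (nat_lit 0) (XT.nd (nat_lit 78) (nat_lit 228) (nat_lit 0) (XT.lf (nat_lit 0) (nat_lit 345984931755) (nat_lit 304) (nat_lit 186705863934) (nat_lit 76) (nat_lit 781968503489)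 (nat_lit 72) (nat_lit 5) (nat_lit 76) (nat_lit 5) (nat_lit 73) (nat_lit 5) (nat_lit 385) (nat_lit 377) (nat_lit 258)) (XT.lf (nat_lit 0) (nat_lit 828176217043) (nat_lit 304) (nat_lit 118068777413) (nat_lit 76) (nat_lit 481584005195) (nat_lit 69) (nat_lit 5) (nat_lit 73) (nat_lit 5) (nat_lit 70) (nat_lit 5) (nat_lit 386) (nat_lit 377) (nat_lit 257))) (XT.nd (nat_lit 78) (nat_lit 532) (nat_lit 0) (XT.lf (nat_lit 0) (nat_lit 1442778489974) (nat_lit 228) (nat_lit 8965566121) (nat_lit 76) (nat_lit 101423515513) (nat_lit 67) (nat_lit 5) (nat_lit 70) (nat_lit 5) (nat_lit 68) (nat_lit 5) (nat_lit 387) (nat_lit 377) (nat_lit 256)) (XT.nd (nat_lit 78) (nat_lit 152) (nat_lit 0) (XT.lf (nat_lit 0) (nat_lit 133771000015) (nat_lit 152) (nat_lit 374741426812) (nat_lit 228) (nat_lit 1181614558349) (nat_lit 62) (nat_lit 5) (nat_lit 64) (nat_lit 5) (nat_lit 65) (nat_lit 5) (nat_lit 388) (nat_lit 377) (nat_lit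 255)) (XT.lf (nat_lit 0) (nat_lit 326597075397) (nat_lit 152) (nat_lit 962881350143) (nat_lit 228) (nat_lit 551861262971) (nat_lit 60) (nat_lit 5) (nat_lit 62) (nat_lit 5) (nat_lit 63) (nat_lit 5) (nat_lit 389) (nat_lit 377) (nat_lit 254)))))) (XT.nd (nat_lit 390) (nat_lit 912) (nat_lit 0) (XT.nd (nat_lit 156) (nat_lit 380) (nat_lit 0) (XT.nd (nat_lit 78) (nat_lit 152) (nat_lit 0) (XT.lf (nat_lit 0) (nat_lit 243241705762) (nat_lit 152) (nat_lit 1429349020934) (nat_lit 76) (nat_lit 335951273208) (nat_lit 58) (nat_lit 5) (nat_lit 60) (nat_lit 5) (nat_lit 59) (nat_lit 5) (nat_lit 390) (nat_lit 377) (nat_lit 253)) (XT.lf (nat_lit 0) (nat_lit 882770724385) (nat_lit 152) (nat_lit 336199230655) (nat_lit 228) (nat_lit 973185083835) (nat_lit 56) (nat_lit 5) (nat_lit 58) (nat_lit 5) (nat_lit 59) (nat_lit 5) (nat_lit 391) (nat_lit 377) (nat_lit 252))) (XT.nd (nat_lit 78) (nat_lit 228) (nat_lit 0) (XT.lf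 (nat_lit 0) (nat_lit 45416425533) (nat_lit 152) (nat_lit 1134877393009) (nat_lit 76) (nat_lit 1214771597999) (nat_lit 54) (nat_lit 5) (nat_lit 56) (nat_lit 5) (nat_lit 55) (nat_lit 5) (nat_lit 392) (nat_lit 377) (nat_lit 251)) (XT.nd (nat_lit 78) (nat_lit 76) (nat_lit 0) (XT.lf (nat_lit 0) (nat_lit 1261786245688) (nat_lit 228) (nat_lit 912464422262) (nat_lit 76) (nat_lit 443931360030) (nat_lit 52) (nat_lit 5) (nat_lit 55) (nat_lit 5) (nat_lit 53) (nat_lit 4) (nat_lit 393) (nat_lit 377) (nat_lit 250)) (XT.lf (nat_lit 0) (nat_lit 2247953205431) (nat_lit 76) (nat_lit 533264596371) (nat_lit 152) (nat_lit 83899828298) (nat_lit 51) (nat_lit 5) (nat_lit 52) (nat_lit 5) (nat_lit 53) (nat_lit 4) (nat_lit 394) (nat_lit 377) (nat_lit 249))))) (XT.nd (nat_lit 234) (nat_lit 380) (nat_lit 0) (XT.nd (nat_lit 78) (nat_lit 304) (nat_lit 0) (XT.lf (nat_lit 0) (nat_lit 1443456105081) (nat_lit 228) (nat_lit 272592625658)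 (nat_lit 76) (nat_lit 1419751354786) (nat_lit 48) (nat_lit 5) (nat_lit 51) (nat_lit 5) (nat_lit 49) (nat_lit 4) (nat_lit 395) (nat_lit 377) (nat_lit 248)) (XT.nd (nat_lit 78) (nat_lit 152) (nat_lit 0) (XT.lf (nat_lit 0) (nat_lit 185618149945) (nat_lit 76) (nat_lit 3141552356098) (nat_lit 76) (nat_lit 109162235222) (nat_lit 46) (nat_lit 4) (nat_lit 47) (nat_lit 5) (nat_lit 47) (nat_lit 4) (nat_lit 396) (nat_lit 377) (nat_lit 247)) (XT.lf (nat_lit 0) (nat_lit 713929818691) (nat_lit 76) (nat_lit 1087185539315) (nat_lit 152) (nat_lit 1963518247369) (nat_lit 44) (nat_lit 5) (nat_lit 45) (nat_lit 5) (nat_lit 46) (nat_lit 4) (nat_lit 397) (nat_lit 377) (nat_lit 246)))) (XT.nd (nat_lit 78) (nat_lit 228) (nat_lit 0) (XT.lf (nat_lit 0) (nat_lit 22074100079) (nat_lit 152) (nat_lit 2761854511080) (nat_lit 76) (nat_lit 1345111429262) (nat_lit 42) (nat_lit 5) (nat_lit 44) (nat_lit 5) (nat_lit 43) (nat_lit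 4) (nat_lit 398) (nat_lit 377) (nat_lit 245)) (XT.nd (nat_lit 78) (nat_lit 152) (nat_lit 0) (XT.lf (nat_lit 0) (nat_lit 2110385735251) (nat_lit 76) (nat_lit 254111561892) (nat_lit 152) (nat_lit 2165509770541) (nat_lit 41) (nat_lit 5) (nat_lit 42) (nat_lit 5) (nat_lit 43) (nat_lit 4) (nat_lit 399) (nat_lit 377) (nat_lit 244)) (XT.lf (nat_lit 0) (nat_lit 287468970218) (nat_lit 152) (nat_lit 2001850325191) (nat_lit 76) (nat_lit 2683777508213) (nat_lit 39) (nat_lit 5) (nat_lit 41) (nat_lit 5) (nat_lit 40) (nat_lit 4) (nat_lit 400) (nat_lit 377) (nat_lit 243))))))) (XT.nd (nat_lit 780) (nat_lit 988) (nat_lit 0) (XT.nd (nat_lit 390) (nat_lit 608) (nat_lit 0) (XT.nd (nat_lit 156) (nat_lit 380) (nat_lit 0) (XT.nd (nat_lit 78) (nat_lit 152) (nat_lit 0) (XT.lf (nat_lit 0) (nat_lit 3178118123008) (nat_lit 152) (nat_lit 1513287378663) (nat_lit 0) (nat_lit 770909062139) (nat_lit 38) (nat_lit 5) (nat_lit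 40) (nat_lit 4) (nat_lit 38) (nat_lit 4) (nat_lit 401) (nat_lit 377) (nat_lit 242)) (XT.lf (nat_lit 0) (nat_lit 705296092167) (nat_lit 152) (nat_lit 940193191169) (nat_lit 76) (nat_lit 4358368658850) (nat_lit 36) (nat_lit 5) (nat_lit 38) (nat_lit 5) (nat_lit 37) (nat_lit 4) (nat_lit 402) (nat_lit 377) (nat_lit 241))) (XT.nd (nat_lit 78) (nat_lit 304) (nat_lit 0) (XT.lf (nat_lit 0) (nat_lit 4261152582334) (nat_lit 152) (nat_lit 308223362785) (nat_lit 0) (nat_lit 2032255300275) (nat_lit 35) (nat_lit 5) (nat_lit 37) (nat_lit 4) (nat_lit 35) (nat_lit 4) (nat_lit 403) (nat_lit 377) (nat_lit 240)) (XT.nd (nat_lit 78) (nat_lit 76) (nat_lit 0) (XT.lf (nat_lit 0) (nat_lit 443791667326) (nat_lit 76) (nat_lit 841154943630) (nat_lit 152) (nat_lit 5979944278468) (nat_lit 32) (nat_lit 5) (nat_lit 33) (nat_lit 5) (nat_lit 34) (nat_lit 4) (nat_lit 404) (nat_lit 377) (nat_lit 239)) (XT.lf (nat_lit 0) (nat_lit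 1237105211403) (nat_lit 76) (nat_lit 4411415653500) (nat_lit 76) (nat_lit 2347621871383) (nat_lit 31) (nat_lit 4) (nat_lit 32) (nat_lit 5) (nat_lit 32) (nat_lit 4) (nat_lit 405) (nat_lit 377) (nat_lit 238))))) (XT.nd (nat_lit 156) (nat_lit 380) (nat_lit 0) (XT.nd (nat_lit 78) (nat_lit 76) (nat_lit 0) (XT.lf (nat_lit 0) (nat_lit 2019002615140) (nat_lit 152) (nat_lit 6683999230724) (nat_lit 0) (nat_lit 108082445602) (nat_lit 29) (nat_lit 5) (nat_lit 31) (nat_lit 4) (nat_lit 29) (nat_lit 4) (nat_lit 406) (nat_lit 377) (nat_lit 237)) (XT.lf (nat_lit 0) (nat_lit 2979926809015) (nat_lit 76) (nat_lit 4321210264511) (nat_lit 76) (nat_lit 2410290094180) (nat_lit 28) (nat_lit 4) (nat_lit 29) (nat_lit 5) (nat_lit 29) (nat_lit 4) (nat_lit 407) (nat_lit 377) (nat_lit 236))) (XT.nd (nat_lit 78) (nat_lit 228) (nat_lit 0) (XT.lf (nat_lit 0) (nat_lit 2817082079561) (nat_lit 152) (nat_lit 6851384999008) (nat_lit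 0) (nat_lit 1047711550839) (nat_lit 26) (nat_lit 5) (nat_lit 28) (nat_lit 4) (nat_lit 26) (nat_lit 4) (nat_lit 408) (nat_lit 377) (nat_lit 235)) (XT.nd (nat_lit 78) (nat_lit 152) (nat_lit 0) (XT.lf (nat_lit 0) (nat_lit 4643211741345) (nat_lit 76) (nat_lit 4478944127258) (nat_lit 76) (nat_lit 2709573597981) (nat_lit 25) (nat_lit 4) (nat_lit 26) (nat_lit 5) (nat_lit 26) (nat_lit 4) (nat_lit 409) (nat_lit 377) (nat_lit 234)) (XT.lf (nat_lit 0) (nat_lit 3475523802660) (nat_lit 152) (nat_lit 7765190784147) (nat_lit 0) (nat_lit 1837217756587) (nat_lit 23) (nat_lit 5) (nat_lit 25) (nat_lit 4) (nat_lit 23) (nat_lit 4) (nat_lit 410) (nat_lit 377) (nat_lit 233)))))) (XT.nd (nat_lit 390) (nat_lit 456) (nat_lit 0) (XT.nd (nat_lit 156) (nat_lit 304) (nat_lit 0) (XT.nd (nat_lit 78) (nat_lit 152) (nat_lit 0) (XT.lf (nat_lit 0) (nat_lit 5711648934264) (nat_lit 76) (nat_lit 5196825226903) (nat_lit 76) (nat_lit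 3558519180442) (nat_lit 22) (nat_lit 4) (nat_lit 23) (nat_lit 5) (nat_lit 23) (nat_lit 4) (nat_lit 411) (nat_lit 377) (nat_lit 232)) (XT.lf (nat_lit 0) (nat_lit 3648604604884) (nat_lit 152) (nat_lit 10243521775759) (nat_lit 0) (nat_lit 2131654561551) (nat_lit 20) (nat_lit 5) (nat_lit 22) (nat_lit 4) (nat_lit 20) (nat_lit 4) (nat_lit 412) (nat_lit 377) (nat_lit 231))) (XT.nd (nat_lit 78) (nat_lit 228) (nat_lit 0) (XT.lf (nat_lit 0) (nat_lit 5246378940387) (nat_lit 76) (nat_lit 7017134893396) (nat_lit 76) (nat_lit 5500184849791) (nat_lit 19) (nat_lit 4) (nat_lit 20) (nat_lit 5) (nat_lit 20) (nat_lit 4) (nat_lit 413) (nat_lit 377) (nat_lit 230)) (XT.nd (nat_lit 78) (nat_lit 76) (nat_lit 0) (XT.lf (nat_lit 0) (nat_lit 2723119669055) (nat_lit 152) (nat_lit 15683324871480) (nat_lit 0) (nat_lit 1318536295128) (nat_lit 17) (nat_lit 5) (nat_lit 19) (nat_lit 4) (nat_lit 17) (nat_lit 4) (nat_lit 414)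 (nat_lit 377) (nat_lit 229)) (XT.lf (nat_lit 0) (nat_lit 1616382019410) (nat_lit 76) (nat_lit 10853969688356) (nat_lit 76) (nat_lit 9449386314239) (nat_lit 16) (nat_lit 4) (nat_lit 17) (nat_lit 5) (nat_lit 17) (nat_lit 4) (nat_lit 415) (nat_lit 377) (nat_lit 228))))) (XT.nd (nat_lit 234) (nat_lit 228) (nat_lit 0) (XT.nd (nat_lit 78) (nat_lit 228) (nat_lit 0) (XT.lf (nat_lit 0) (nat_lit 22460779447386) (nat_lit 76) (nat_lit 1675492231532) (nat_lit 76) (nat_lit 270908857249) (nat_lit 16) (nat_lit 4) (nat_lit 17) (nat_lit 5) (nat_lit 17) (nat_lit 4) (nat_lit 416) (nat_lit 377) (nat_lit 227)) (XT.nd (nat_lit 78) (nat_lit 76) (nat_lit 0) (XT.lf (nat_lit 0) (nat_lit 10481202986816) (nat_lit 152) (nat_lit 7529180355516) (nat_lit 0) (nat_lit 9180662825309) (nat_lit 14) (nat_lit 5) (nat_lit 16) (nat_lit 4) (nat_lit 14) (nat_lit 4) (nat_lit 417) (nat_lit 377) (nat_lit 226)) (XT.lf (nat_lit 0) (nat_lit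 14932986572171) (nat_lit 76) (nat_lit 8361178193470) (nat_lit 76) (nat_lit 7060638031848) (nat_lit 13) (nat_lit 4) (nat_lit 14) (nat_lit 5) (nat_lit 14) (nat_lit 4) (nat_lit 418) (nat_lit 377) (nat_lit 225)))) (XT.nd (nat_lit 78) (nat_lit 76) (nat_lit 0) (XT.lf (nat_lit 0) (nat_lit 4318608819163) (nat_lit 152) (nat_lit 26513579534327) (nat_lit 0) (nat_lit 3114404965716) (nat_lit 11) (nat_lit 5) (nat_lit 13) (nat_lit 4) (nat_lit 11) (nat_lit 4) (nat_lit 419) (nat_lit 377) (nat_lit 224)) (XT.nd (nat_lit 78) (nat_lit 76) (nat_lit 0) (XT.lf (nat_lit 0) (nat_lit 17690461899954) (nat_lit 152) (nat_lit 3829457995970) (nat_lit 0) (nat_lit 16486258046425) (nat_lit 11) (nat_lit 5) (nat_lit 13) (nat_lit 4) (nat_lit 11) (nat_lit 4) (nat_lit 420) (nat_lit 377) (nat_lit 223)) (XT.lf (nat_lit 0) (nat_lit 23429310784492) (nat_lit 76) (nat_lit 10202257644587) (nat_lit 76) (nat_lit 8998053790988) (nat_lit 10)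 (nat_lit 4) (nat_lit 11) (nat_lit 5) (nat_lit 11) (nat_lit 4) (nat_lit 421) (nat_lit 377) (nat_lit 222))))))))
noncomputable def xc106 : XT := (XT.nd (nat_lit 51090) (nat_lit 0) (nat_lit 684) (XT.nd (nat_lit 50232) (nat_lit 0) (nat_lit 3344) (XT.nd (nat_lit 49842) (nat_lit 0) (nat_lit 5472) (XT.nd (nat_lit 156) (nat_lit 76) (nat_lit 0) (XT.nd (nat_lit 78) (nat_lit 0) (nat_lit 0) (XT.lf (nat_lit 0) (nat_lit 4184900321346) (nat_lit 152) (nat_lit 40654568690958) (nat_lit 0) (nat_lit 3069896753143) (nat_lit 8) (nat_lit 5) (nat_lit 10) (nat_lit 4) (nat_lit 8) (nat_lit 4) (nat_lit 422) (nat_lit 377) (nat_lit 221)) (XT.lf (nat_lit 0) (nat_lit 19683345611298) (nat_lit 152) (nat_lit 15641019273152) (nat_lit 0) (nat_lit 18568342043044) (nat_lit 8) (nat_lit 5) (nat_lit 10) (nat_lit 4) (nat_lit 8) (nat_lit 4) (nat_lit 423) (nat_lit 377) (nat_lit 220))) (XT.nd (nat_lit 49530) (nat_lit 0) (nat_lit 6004)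 (XT.lf (nat_lit 0) (nat_lit 13815678760161) (nat_lit 76) (nat_lit 24023146339783) (nat_lit 76) (nat_lit 22908142771487) (nat_lit 7) (nat_lit 4) (nat_lit 8) (nat_lit 5) (nat_lit 8) (nat_lit 4) (nat_lit 424) (nat_lit 377) (nat_lit 219)) (XT.nd (nat_lit 78) (nat_lit 532) (nat_lit 0) (XT.lf (nat_lit 0) (nat_lit 405722983188) (nat_lit 532) (nat_lit 2706643016) (nat_lit 532) (nat_lit 2706643016) (nat_lit 93) (nat_lit 3) (nat_lit 100) (nat_lit 3) (nat_lit 100) (nat_lit 5) (nat_lit 378) (nat_lit 378) (nat_lit 264)) (XT.lf (nat_lit 0) (nat_lit 8746023795) (nat_lit 532) (nat_lit 80089310319) (nat_lit 608) (nat_lit 793545846862) (nat_lit 86) (nat_lit 5) (nat_lit 93) (nat_lit 3) (nat_lit 94) (nat_lit 5) (nat_lit 379) (nat_lit 378) (nat_lit 263))))) (XT.nd (nat_lit 156) (nat_lit 608) (nat_lit 0) (XT.nd (nat_lit 78) (nat_lit 0) (nat_lit 76) (XT.lf (nat_lit 0) (nat_lit 69055695119) (nat_lit 532) (nat_lit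 147673342642) (nat_lit 608) (nat_lit 731679206163) (nat_lit 87) (nat_lit 5) (nat_lit 94) (nat_lit 5) (nat_lit 95) (nat_lit 5) (nat_lit 380) (nat_lit 378) (nat_lit 262)) (XT.lf (nat_lit 0) (nat_lit 179427763874) (nat_lit 532) (nat_lit 204906840054) (nat_lit 608) (nat_lit 636723486653) (nat_lit 88) (nat_lit 5) (nat_lit 95) (nat_lit 5) (nat_lit 96) (nat_lit 5) (nat_lit 381) (nat_lit 378) (nat_lit 261))) (XT.nd (nat_lit 78) (nat_lit 760) (nat_lit 0) (XT.lf (nat_lit 0) (nat_lit 350318763092) (nat_lit 532) (nat_lit 248356109595) (nat_lit 76) (nat_lit 502413491938) (nat_lit 89) (nat_lit 5) (nat_lit 96) (nat_lit 5) (nat_lit 90) (nat_lit 5) (nat_lit 382) (nat_lit 378) (nat_lit 260)) (XT.nd (nat_lit 78) (nat_lit 228) (nat_lit 0) (XT.lf (nat_lit 0) (nat_lit 593960158602) (nat_lit 608) (nat_lit 273914868808) (nat_lit 76) (nat_lit 321478812657) (nat_lit 82) (nat_lit 5) (nat_lit 90) (nat_lit 5) (nat_lit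 83) (nat_lit 5) (nat_lit 383) (nat_lit 378) (nat_lit 259)) (XT.lf (nat_lit 0) (nat_lit 924638099187) (nat_lit 304) (nat_lit 276693138881) (nat_lit 76) (nat_lit 85488671899) (nat_lit 79) (nat_lit 5) (nat_lit 83) (nat_lit 5) (nat_lit 80) (nat_lit 5) (nat_lit 384) (nat_lit 378) (nat_lit 258)))))) (XT.nd (nat_lit 390) (nat_lit 836) (nat_lit 0) (XT.nd (nat_lit 156) (nat_lit 760) (nat_lit 0) (XT.nd (nat_lit 78) (nat_lit 304) (nat_lit 0) (XT.lf (nat_lit 0) (nat_lit 1137801188746) (nat_lit 228) (nat_lit 226665821823) (nat_lit 304) (nat_lit 29674937408) (nat_lit 76) (nat_lit 5) (nat_lit 79) (nat_lit 5) (nat_lit 80) (nat_lit 5) (nat_lit 385) (nat_lit 378) (nat_lit 257)) (XT.lf (nat_lit 0) (nat_lit 397882840811) (nat_lit 304) (nat_lit 214711523723) (nat_lit 76) (nat_lit 899263815963) (nat_lit 72) (nat_lit 5) (nat_lit 76) (nat_lit 5) (nat_lit 73) (nat_lit 5) (nat_lit 386) (nat_lit 378) (nat_lit 256)))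 (XT.nd (nat_lit 78) (nat_lit 532) (nat_lit 0) (XT.lf (nat_lit 0) (nat_lit 952402802832) (nat_lit 304) (nat_lit 135778881833) (nat_lit 76) (nat_lit 553821652662) (nat_lit 69) (nat_lit 5) (nat_lit 73) (nat_lit 5) (nat_lit 70) (nat_lit 5) (nat_lit 387) (nat_lit 378) (nat_lit 255)) (XT.nd (nat_lit 78) (nat_lit 380) (nat_lit 0) (XT.lf (nat_lit 0) (nat_lit 1659195402741) (nat_lit 228) (nat_lit 10310197117) (nat_lit 76) (nat_lit 116637096338) (nat_lit 67) (nat_lit 5) (nat_lit 70) (nat_lit 5) (nat_lit 68) (nat_lit 5) (nat_lit 388) (nat_lit 378) (nat_lit 254)) (XT.lf (nat_lit 0) (nat_lit 153836853660) (nat_lit 152) (nat_lit 430952570954) (nat_lit 228) (nat_lit 1358856597626) (nat_lit 62) (nat_lit 5) (nat_lit 64) (nat_lit 5) (nat_lit 65) (nat_lit 5) (nat_lit 389) (nat_lit 378) (nat_lit 253))))) (XT.nd (nat_lit 234) (nat_lit 380) (nat_lit 0) (XT.nd (nat_lit 78) (nat_lit 304) (nat_lit 0) (XT.lf (nat_lit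 0) (nat_lit 375586831379) (nat_lit 152) (nat_lit 1107313480452) (nat_lit 228) (nat_lit 634640320152) (nat_lit 60) (nat_lit 5) (nat_lit 62) (nat_lit 5) (nat_lit 63) (nat_lit 5) (nat_lit 390) (nat_lit 378) (nat_lit 252)) (XT.nd (nat_lit 78) (nat_lit 152) (nat_lit 0) (XT.lf (nat_lit 0) (nat_lit 279728077014) (nat_lit 152) (nat_lit 1643751182412) (nat_lit 76) (nat_lit 386344031225) (nat_lit 58) (nat_lit 5) (nat_lit 60) (nat_lit 5) (nat_lit 59) (nat_lit 5) (nat_lit 391) (nat_lit 378) (nat_lit 251)) (XT.lf (nat_lit 0) (nat_lit 1015186508482) (nat_lit 152) (nat_lit 386629044372) (nat_lit 228) (nat_lit 1119162733483) (nat_lit 56) (nat_lit 5) (nat_lit 58) (nat_lit 5) (nat_lit 59) (nat_lit 5) (nat_lit 392) (nat_lit 378) (nat_lit 250)))) (XT.nd (nat_lit 78) (nat_lit 228) (nat_lit 0) (XT.lf (nat_lit 0) (nat_lit 52228988282) (nat_lit 152) (nat_lit 1305108830057) (nat_lit 76) (nat_lit 1396987402766) (nat_lit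 54) (nat_lit 5) (nat_lit 56) (nat_lit 5) (nat_lit 55) (nat_lit 5) (nat_lit 393) (nat_lit 378) (nat_lit 249)) (XT.nd (nat_lit 78) (nat_lit 76) (nat_lit 0) (XT.lf (nat_lit 0) (nat_lit 1451054273967) (nat_lit 228) (nat_lit 1049333922685) (nat_lit 76) (nat_lit 510521128207) (nat_lit 52) (nat_lit 5) (nat_lit 55) (nat_lit 5) (nat_lit 53) (nat_lit 4) (nat_lit 394) (nat_lit 378) (nat_lit 248)) (XT.lf (nat_lit 0) (nat_lit 2585146335371) (nat_lit 76) (nat_lit 613254219788) (nat_lit 152) (nat_lit 96484712806) (nat_lit 51) (nat_lit 5) (nat_lit 52) (nat_lit 5) (nat_lit 53) (nat_lit 4) (nat_lit 395) (nat_lit 378) (nat_lit 247))))))) (XT.nd (nat_lit 780) (nat_lit 1216) (nat_lit 0) (XT.nd (nat_lit 390) (nat_lit 684) (nat_lit 0) (XT.nd (nat_lit 156) (nat_lit 380) (nat_lit 0) (XT.nd (nat_lit 78) (nat_lit 152) (nat_lit 0) (XT.lf (nat_lit 0) (nat_lit 1659974599871) (nat_lit 228) (nat_lit 313481374206) (nat_lit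 76) (nat_lit 1632714117952) (nat_lit 48) (nat_lit 5) (nat_lit 51) (nat_lit 5) (nat_lit 49) (nat_lit 4) (nat_lit 396) (nat_lit 378) (nat_lit 246)) (XT.lf (nat_lit 0) (nat_lit 213461016955) (nat_lit 76) (nat_lit 3612785141857) (nat_lit 76) (nat_lit 125536487490) (nat_lit 46) (nat_lit 4) (nat_lit 47) (nat_lit 5) (nat_lit 47) (nat_lit 4) (nat_lit 397) (nat_lit 378) (nat_lit 245))) (XT.nd (nat_lit 78) (nat_lit 228) (nat_lit 0) (XT.lf (nat_lit 0) (nat_lit 821019427584) (nat_lit 76) (nat_lit 1250263305972) (nat_lit 152) (nat_lit 2258045906876) (nat_lit 44) (nat_lit 5) (nat_lit 45) (nat_lit 5) (nat_lit 46) (nat_lit 4) (nat_lit 398) (nat_lit 378) (nat_lit 244)) (XT.nd (nat_lit 78) (nat_lit 76) (nat_lit 0) (XT.lf (nat_lit 0) (nat_lit 25385283740) (nat_lit 152) (nat_lit 3176132555707) (nat_lit 76) (nat_lit 1546878201545) (nat_lit 42) (nat_lit 5) (nat_lit 44) (nat_lit 5) (nat_lit 43) (nat_lit 4) (nat_lit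 399) (nat_lit 378) (nat_lit 243)) (XT.lf (nat_lit 0) (nat_lit 2426943716398) (nat_lit 76) (nat_lit 292228237918) (nat_lit 152) (nat_lit 2490336168512) (nat_lit 41) (nat_lit 5) (nat_lit 42) (nat_lit 5) (nat_lit 43) (nat_lit 4) (nat_lit 400) (nat_lit 378) (nat_lit 242))))) (XT.nd (nat_lit 156) (nat_lit 456) (nat_lit 0) (XT.nd (nat_lit 78) (nat_lit 76) (nat_lit 0) (XT.lf (nat_lit 0) (nat_lit 330589375663) (nat_lit 152) (nat_lit 2302127756882) (nat_lit 76) (nat_lit 3086344186826) (nat_lit 39) (nat_lit 5) (nat_lit 41) (nat_lit 5) (nat_lit 40) (nat_lit 4) (nat_lit 401) (nat_lit 378) (nat_lit 241)) (XT.lf (nat_lit 0) (nat_lit 3654835897398) (nat_lit 152) (nat_lit 1740280375173) (nat_lit 0) (nat_lit 886545471335) (nat_lit 38) (nat_lit 5) (nat_lit 40) (nat_lit 4) (nat_lit 38) (nat_lit 4) (nat_lit 402) (nat_lit 378) (nat_lit 240))) (XT.nd (nat_lit 78) (nat_lit 304) (nat_lit 0) (XT.lf (nat_lit 0) (nat_lit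 811090558389) (nat_lit 152) (nat_lit 1081222066130) (nat_lit 76) (nat_lit 5012124004803) (nat_lit 36) (nat_lit 5) (nat_lit 38) (nat_lit 5) (nat_lit 37) (nat_lit 4) (nat_lit 403) (nat_lit 378) (nat_lit 239)) (XT.nd (nat_lit 78) (nat_lit 228) (nat_lit 0) (XT.lf (nat_lit 0) (nat_lit 4900325518662) (nat_lit 152) (nat_lit 354456769572) (nat_lit 0) (nat_lit 2337093640050) (nat_lit 35) (nat_lit 5) (nat_lit 37) (nat_lit 4) (nat_lit 35) (nat_lit 4) (nat_lit 404) (nat_lit 378) (nat_lit 238)) (XT.lf (nat_lit 0) (nat_lit 510360514043) (nat_lit 76) (nat_lit 967328136782) (nat_lit 152) (nat_lit 6876935868154) (nat_lit 32) (nat_lit 5) (nat_lit 33) (nat_lit 5) (nat_lit 34) (nat_lit 4) (nat_lit 405) (nat_lit 378) (nat_lit 237)))))) (XT.nd (nat_lit 390) (nat_lit 684) (nat_lit 0) (XT.nd (nat_lit 156) (nat_lit 304) (nat_lit 0) (XT.nd (nat_lit 78) (nat_lit 152) (nat_lit 0) (XT.lf (nat_lit 0) (nat_lit 1422671084020)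 (nat_lit 76) (nat_lit 5073127955752) (nat_lit 76) (nat_lit 2699765103346) (nat_lit 31) (nat_lit 4) (nat_lit 32) (nat_lit 5) (nat_lit 32) (nat_lit 4) (nat_lit 406) (nat_lit 378) (nat_lit 236)) (XT.lf (nat_lit 0) (nat_lit 2321853050770) (nat_lit 152) (nat_lit 7686599027540) (nat_lit 0) (nat_lit 124294853409) (nat_lit 29) (nat_lit 5) (nat_lit 31) (nat_lit 4) (nat_lit 29) (nat_lit 4) (nat_lit 407) (nat_lit 378) (nat_lit 235))) (XT.nd (nat_lit 78) (nat_lit 228) (nat_lit 0) (XT.lf (nat_lit 0) (nat_lit 3426915910729) (nat_lit 76) (nat_lit 4969391763461) (nat_lit 76) (nat_lit 2771833565501) (nat_lit 28) (nat_lit 4) (nat_lit 29) (nat_lit 5) (nat_lit 29) (nat_lit 4) (nat_lit 408) (nat_lit 378) (nat_lit 234)) (XT.nd (nat_lit 78) (nat_lit 76) (nat_lit 0) (XT.lf (nat_lit 0) (nat_lit 3239644429595) (nat_lit 152) (nat_lit 7879092671287) (nat_lit 0) (nat_lit 1204868319889) (nat_lit 26) (nat_lit 5) (nat_lit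 28) (nat_lit 4) (nat_lit 26) (nat_lit 4) (nat_lit 409) (nat_lit 378) (nat_lit 233)) (XT.lf (nat_lit 0) (nat_lit 5339693573553) (nat_lit 76) (nat_lit 5150785710178) (nat_lit 76) (nat_lit 3116009600054) (nat_lit 25) (nat_lit 4) (nat_lit 26) (nat_lit 5) (nat_lit 26) (nat_lit 4) (nat_lit 410) (nat_lit 378) (nat_lit 232))))) (XT.nd (nat_lit 234) (nat_lit 304) (nat_lit 0) (XT.nd (nat_lit 78) (nat_lit 228) (nat_lit 0) (XT.lf (nat_lit 0) (nat_lit 3996852406563) (nat_lit 152) (nat_lit 8929969333254) (nat_lit 0) (nat_lit 2112800452407) (nat_lit 23) (nat_lit 5) (nat_lit 25) (nat_lit 4) (nat_lit 23) (nat_lit 4) (nat_lit 411) (nat_lit 378) (nat_lit 231)) (XT.nd (nat_lit 78) (nat_lit 152) (nat_lit 0) (XT.lf (nat_lit 0) (nat_lit 6568396337120) (nat_lit 76) (nat_lit 5976348978865) (nat_lit 76) (nat_lit 4092297024414) (nat_lit 22) (nat_lit 4) (nat_lit 23) (nat_lit 5) (nat_lit 23) (nat_lit 4) (nat_lit 412)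 (nat_lit 378) (nat_lit 230)) (XT.lf (nat_lit 0) (nat_lit 4195895325096) (nat_lit 152) (nat_lit 11780049981625) (nat_lit 0) (nat_lit 2451402774443) (nat_lit 20) (nat_lit 5) (nat_lit 22) (nat_lit 4) (nat_lit 20) (nat_lit 4) (nat_lit 413) (nat_lit 378) (nat_lit 229)))) (XT.nd (nat_lit 78) (nat_lit 228) (nat_lit 0) (XT.lf (nat_lit 0) (nat_lit 6033335836822) (nat_lit 76) (nat_lit 8069705098995) (nat_lit 76) (nat_lit 6325212548136) (nat_lit 19) (nat_lit 4) (nat_lit 20) (nat_lit 5) (nat_lit 20) (nat_lit 4) (nat_lit 414) (nat_lit 378) (nat_lit 228)) (XT.nd (nat_lit 78) (nat_lit 76) (nat_lit 0) (XT.lf (nat_lit 0) (nat_lit 3131587645366) (nat_lit 152) (nat_lit 18035823548797) (nat_lit 0) (nat_lit 1516316764775) (nat_lit 17) (nat_lit 5) (nat_lit 19) (nat_lit 4) (nat_lit 17) (nat_lit 4) (nat_lit 415) (nat_lit 378) (nat_lit 227)) (XT.lf (nat_lit 0) (nat_lit 1858839371206) (nat_lit 76) (nat_lit 12482065116467)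 (nat_lit 76) (nat_lit 10866794235733) (nat_lit 16) (nat_lit 4) (nat_lit 17) (nat_lit 5) (nat_lit 17) (nat_lit 4) (nat_lit 416) (nat_lit 378) (nat_lit 226))))))))
noncomputable def xc107 : XT := (XT.nd (nat_lit 51168) (nat_lit 0) (nat_lit 1140) (XT.nd (nat_lit 50310) (nat_lit 0) (nat_lit 3952) (XT.nd (nat_lit 390) (nat_lit 228) (nat_lit 0) (XT.nd (nat_lit 156) (nat_lit 228) (nat_lit 0) (XT.nd (nat_lit 78) (nat_lit 152) (nat_lit 0) (XT.lf (nat_lit 0) (nat_lit 25829896407003) (nat_lit 76) (nat_lit 1926816044399) (nat_lit 76) (nat_lit 311545163539) (nat_lit 16) (nat_lit 4) (nat_lit 17) (nat_lit 5) (nat_lit 17) (nat_lit 4) (nat_lit 417) (nat_lit 378) (nat_lit 225)) (XT.lf (nat_lit 0) (nat_lit 12053383454712) (nat_lit 152) (nat_lit 8658557367855) (nat_lit 0) (nat_lit 10557762268630) (nat_lit 14) (nat_lit 5) (nat_lit 16) (nat_lit 4) (nat_lit 14) (nat_lit 4) (nat_lit 418) (nat_lit 378) (nat_lit 224)))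 (XT.nd (nat_lit 78) (nat_lit 152) (nat_lit 0) (XT.lf (nat_lit 0) (nat_lit 17172934595515) (nat_lit 76) (nat_lit 9615354903157) (nat_lit 76) (nat_lit 8119733716987) (nat_lit 13) (nat_lit 4) (nat_lit 14) (nat_lit 5) (nat_lit 14) (nat_lit 4) (nat_lit 419) (nat_lit 378) (nat_lit 223)) (XT.nd (nat_lit 78) (nat_lit 0) (nat_lit 0) (XT.lf (nat_lit 0) (nat_lit 4966400159545) (nat_lit 152) (nat_lit 30490616428306) (nat_lit 0) (nat_lit 3581565727836) (nat_lit 11) (nat_lit 5) (nat_lit 13) (nat_lit 4) (nat_lit 11) (nat_lit 4) (nat_lit 420) (nat_lit 378) (nat_lit 222)) (XT.lf (nat_lit 0) (nat_lit 20344031200171) (nat_lit 152) (nat_lit 4403876663913) (nat_lit 0) (nat_lit 18959196768400) (nat_lit 11) (nat_lit 5) (nat_lit 13) (nat_lit 4) (nat_lit 11) (nat_lit 4) (nat_lit 421) (nat_lit 378) (nat_lit 221))))) (XT.nd (nat_lit 156) (nat_lit 0) (nat_lit 0) (XT.nd (nat_lit 78) (nat_lit 152) (nat_lit 0) (XT.lf (nat_lit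 0) (nat_lit 26943707430956) (nat_lit 76) (nat_lit 11732596276415) (nat_lit 76) (nat_lit 10347761844591) (nat_lit 10) (nat_lit 4) (nat_lit 11) (nat_lit 5) (nat_lit 11) (nat_lit 4) (nat_lit 422) (nat_lit 378) (nat_lit 220)) (XT.lf (nat_lit 0) (nat_lit 4812635382963) (nat_lit 152) (nat_lit 46752753966849) (nat_lit 0) (nat_lit 3530381279379) (nat_lit 8) (nat_lit 5) (nat_lit 10) (nat_lit 4) (nat_lit 8) (nat_lit 4) (nat_lit 423) (nat_lit 378) (nat_lit 219))) (XT.nd (nat_lit 49608) (nat_lit 0) (nat_lit 5928) (XT.lf (nat_lit 0) (nat_lit 22635847464657) (nat_lit 152) (nat_lit 17987172139992) (nat_lit 0) (nat_lit 21353593361036) (nat_lit 8) (nat_lit 5) (nat_lit 10) (nat_lit 4) (nat_lit 8) (nat_lit 4) (nat_lit 424) (nat_lit 378) (nat_lit 218)) (XT.nd (nat_lit 78) (nat_lit 532) (nat_lit 0) (XT.lf (nat_lit 0) (nat_lit 466581588439) (nat_lit 532) (nat_lit 3112554261) (nat_lit 532) (nat_lit 3112554261) (nat_lit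 93) (nat_lit 3) (nat_lit 100) (nat_lit 3) (nat_lit 100) (nat_lit 5) (nat_lit 379) (nat_lit 379) (nat_lit 262)) (XT.lf (nat_lit 0) (nat_lit 10058212762) (nat_lit 532) (nat_lit 92102535814) (nat_lit 608) (nat_lit 912577586681) (nat_lit 86) (nat_lit 5) (nat_lit 93) (nat_lit 3) (nat_lit 94) (nat_lit 5) (nat_lit 380) (nat_lit 379) (nat_lit 261)))))) (XT.nd (nat_lit 390) (nat_lit 1444) (nat_lit 0) (XT.nd (nat_lit 156) (nat_lit 608) (nat_lit 0) (XT.nd (nat_lit 78) (nat_lit 0) (nat_lit 76) (XT.lf (nat_lit 0) (nat_lit 79414299030) (nat_lit 532) (nat_lit 169824164987) (nat_lit 608) (nat_lit 841430996495) (nat_lit 87) (nat_lit 5) (nat_lit 94) (nat_lit 5) (nat_lit 95) (nat_lit 5) (nat_lit 381) (nat_lit 379) (nat_lit 260)) (XT.lf (nat_lit 0) (nat_lit 206342148104) (nat_lit 532) (nat_lit 235642683085) (nat_lit 608) (nat_lit 732231955381) (nat_lit 88) (nat_lit 5) (nat_lit 95) (nat_lit 5) (nat_lit 96) (nat_lit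 5) (nat_lit 382) (nat_lit 379) (nat_lit 259))) (XT.nd (nat_lit 78) (nat_lit 760) (nat_lit 0) (XT.lf (nat_lit 0) (nat_lit 402866771921) (nat_lit 532) (nat_lit 285609342259) (nat_lit 76) (nat_lit 577775489569) (nat_lit 89) (nat_lit 5) (nat_lit 96) (nat_lit 5) (nat_lit 90) (nat_lit 5) (nat_lit 383) (nat_lit 379) (nat_lit 258)) (XT.nd (nat_lit 78) (nat_lit 228) (nat_lit 0) (XT.lf (nat_lit 0) (nat_lit 683054355335) (nat_lit 608) (nat_lit 315001916929) (nat_lit 76) (nat_lit 369700629959) (nat_lit 82) (nat_lit 5) (nat_lit 90) (nat_lit 5) (nat_lit 83) (nat_lit 5) (nat_lit 384) (nat_lit 379) (nat_lit 257)) (XT.lf (nat_lit 0) (nat_lit 1063333968758) (nat_lit 304) (nat_lit 318196930865) (nat_lit 76) (nat_lit 98311984447) (nat_lit 79) (nat_lit 5) (nat_lit 83) (nat_lit 5) (nat_lit 80) (nat_lit 5) (nat_lit 385) (nat_lit 379) (nat_lit 256))))) (XT.nd (nat_lit 234) (nat_lit 684) (nat_lit 0) (XT.nd (nat_lit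 78) (nat_lit 532) (nat_lit 0) (XT.lf (nat_lit 0) (nat_lit 1308471530768) (nat_lit 228) (nat_lit 260665669839) (nat_lit 304) (nat_lit 34126028475) (nat_lit 76) (nat_lit 5) (nat_lit 79) (nat_lit 5) (nat_lit 80) (nat_lit 5) (nat_lit 386) (nat_lit 379) (nat_lit 255)) (XT.nd (nat_lit 78) (nat_lit 228) (nat_lit 0) (XT.lf (nat_lit 0) (nat_lit 457565394942) (nat_lit 304) (nat_lit 246918086080) (nat_lit 76) (nat_lit 1034153416296) (nat_lit 72) (nat_lit 5) (nat_lit 76) (nat_lit 5) (nat_lit 73) (nat_lit 5) (nat_lit 387) (nat_lit 379) (nat_lit 254)) (XT.lf (nat_lit 0) (nat_lit 1095263339122) (nat_lit 304) (nat_lit 156145553660) (nat_lit 76) (nat_lit 636894935865) (nat_lit 69) (nat_lit 5) (nat_lit 73) (nat_lit 5) (nat_lit 70) (nat_lit 5) (nat_lit 388) (nat_lit 379) (nat_lit 253)))) (XT.nd (nat_lit 78) (nat_lit 532) (nat_lit 0) (XT.lf (nat_lit 0) (nat_lit 1908074818461) (nat_lit 228) (nat_lit 11856572491)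 (nat_lit 76) (nat_lit 134132701241) (nat_lit 67) (nat_lit 5) (nat_lit 70) (nat_lit 5) (nat_lit 68) (nat_lit 5) (nat_lit 389) (nat_lit 379) (nat_lit 252)) (XT.nd (nat_lit 78) (nat_lit 152) (nat_lit 0) (XT.lf (nat_lit 0) (nat_lit 176912535693) (nat_lit 152) (nat_lit 495595403759) (nat_lit 228) (nat_lit 1562684978027) (nat_lit 62) (nat_lit 5) (nat_lit 64) (nat_lit 5) (nat_lit 65) (nat_lit 5) (nat_lit 390) (nat_lit 379) (nat_lit 251)) (XT.lf (nat_lit 0) (nat_lit 431925003285) (nat_lit 152) (nat_lit 1273410447917) (nat_lit 228) (nat_lit 729836268164) (nat_lit 60) (nat_lit 5) (nat_lit 62) (nat_lit 5) (nat_lit 63) (nat_lit 5) (nat_lit 391) (nat_lit 379) (nat_lit 250))))))) (XT.nd (nat_lit 780) (nat_lit 1368) (nat_lit 0) (XT.nd (nat_lit 390) (nat_lit 760) (nat_lit 0) (XT.nd (nat_lit 156) (nat_lit 380) (nat_lit 0) (XT.nd (nat_lit 78) (nat_lit 152) (nat_lit 0) (XT.lf (nat_lit 0) (nat_lit 321687375816)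 (nat_lit 152) (nat_lit 1890313714850) (nat_lit 76) (nat_lit 444295686598) (nat_lit 58) (nat_lit 5) (nat_lit 60) (nat_lit 5) (nat_lit 59) (nat_lit 5) (nat_lit 392) (nat_lit 379) (nat_lit 249)) (XT.lf (nat_lit 0) (nat_lit 1167464617411) (nat_lit 152) (nat_lit 444623347430) (nat_lit 228) (nat_lit 1287037058117) (nat_lit 56) (nat_lit 5) (nat_lit 58) (nat_lit 5) (nat_lit 59) (nat_lit 5) (nat_lit 393) (nat_lit 379) (nat_lit 248))) (XT.nd (nat_lit 78) (nat_lit 228) (nat_lit 0) (XT.lf (nat_lit 0) (nat_lit 60063411321) (nat_lit 152) (nat_lit 1500875024582) (nat_lit 76) (nat_lit 1606535562380) (nat_lit 54) (nat_lit 5) (nat_lit 56) (nat_lit 5) (nat_lit 55) (nat_lit 5) (nat_lit 394) (nat_lit 379) (nat_lit 247)) (XT.nd (nat_lit 78) (nat_lit 76) (nat_lit 0) (XT.lf (nat_lit 0) (nat_lit 1668712484193) (nat_lit 228) (nat_lit 1206733887900) (nat_lit 76) (nat_lit 587099345962) (nat_lit 52) (nat_lit 5) (nat_lit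 55) (nat_lit 5) (nat_lit 53) (nat_lit 4) (nat_lit 395) (nat_lit 379) (nat_lit 246)) (XT.lf (nat_lit 0) (nat_lit 2972918398438) (nat_lit 76) (nat_lit 705242302821) (nat_lit 152) (nat_lit 110957351873) (nat_lit 51) (nat_lit 5) (nat_lit 52) (nat_lit 5) (nat_lit 53) (nat_lit 4) (nat_lit 396) (nat_lit 379) (nat_lit 245))))) (XT.nd (nat_lit 156) (nat_lit 380) (nat_lit 0) (XT.nd (nat_lit 78) (nat_lit 152) (nat_lit 0) (XT.lf (nat_lit 0) (nat_lit 1908970849609) (nat_lit 228) (nat_lit 360503470468) (nat_lit 76) (nat_lit 1877621280974) (nat_lit 48) (nat_lit 5) (nat_lit 51) (nat_lit 5) (nat_lit 49) (nat_lit 4) (nat_lit 397) (nat_lit 379) (nat_lit 244)) (XT.lf (nat_lit 0) (nat_lit 245480278776) (nat_lit 76) (nat_lit 4154702861979) (nat_lit 76) (nat_lit 144366897842) (nat_lit 46) (nat_lit 4) (nat_lit 47) (nat_lit 5) (nat_lit 47) (nat_lit 4) (nat_lit 398) (nat_lit 379) (nat_lit 243))) (XT.nd (nat_lit 78)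 (nat_lit 228) (nat_lit 0) (XT.lf (nat_lit 0) (nat_lit 944172444625) (nat_lit 76) (nat_lit 1437802753293) (nat_lit 152) (nat_lit 2596752734231) (nat_lit 44) (nat_lit 5) (nat_lit 45) (nat_lit 5) (nat_lit 46) (nat_lit 4) (nat_lit 399) (nat_lit 379) (nat_lit 242)) (XT.nd (nat_lit 78) (nat_lit 76) (nat_lit 0) (XT.lf (nat_lit 0) (nat_lit 29193128210) (nat_lit 152) (nat_lit 3652552339225) (nat_lit 76) (nat_lit 1778909975552) (nat_lit 42) (nat_lit 5) (nat_lit 44) (nat_lit 5) (nat_lit 43) (nat_lit 4) (nat_lit 400) (nat_lit 379) (nat_lit 241)) (XT.lf (nat_lit 0) (nat_lit 2790985365245) (nat_lit 76) (nat_lit 336062429554) (nat_lit 152) (nat_lit 2863886542665) (nat_lit 41) (nat_lit 5) (nat_lit 42) (nat_lit 5) (nat_lit 43) (nat_lit 4) (nat_lit 401) (nat_lit 379) (nat_lit 240)))))) (XT.nd (nat_lit 390) (nat_lit 684) (nat_lit 0) (XT.nd (nat_lit 156) (nat_lit 456) (nat_lit 0) (XT.nd (nat_lit 78) (nat_lit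 76) (nat_lit 0) (XT.lf (nat_lit 0) (nat_lit 380177827314) (nat_lit 152) (nat_lit 2647446831879) (nat_lit 76) (nat_lit 3549295854458) (nat_lit 39) (nat_lit 5) (nat_lit 41) (nat_lit 5) (nat_lit 40) (nat_lit 4) (nat_lit 402) (nat_lit 379) (nat_lit 239)) (XT.lf (nat_lit 0) (nat_lit 4203061324304) (nat_lit 152) (nat_lit 2001322348054) (nat_lit 0) (nat_lit 1019527329749) (nat_lit 38) (nat_lit 5) (nat_lit 40) (nat_lit 4) (nat_lit 38) (nat_lit 4) (nat_lit 403) (nat_lit 379) (nat_lit 238))) (XT.nd (nat_lit 78) (nat_lit 304) (nat_lit 0) (XT.lf (nat_lit 0) (nat_lit 932754181767) (nat_lit 152) (nat_lit 1243405297627) (nat_lit 76) (nat_lit 5763942641156) (nat_lit 36) (nat_lit 5) (nat_lit 38) (nat_lit 5) (nat_lit 37) (nat_lit 4) (nat_lit 404) (nat_lit 379) (nat_lit 237)) (XT.nd (nat_lit 78) (nat_lit 228) (nat_lit 0) (XT.lf (nat_lit 0) (nat_lit 5635374383496) (nat_lit 152) (nat_lit 407625211184) (nat_lit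 0) (nat_lit 2687657719883) (nat_lit 35) (nat_lit 5) (nat_lit 37) (nat_lit 4) (nat_lit 35) (nat_lit 4) (nat_lit 405) (nat_lit 379) (nat_lit 236)) (XT.lf (nat_lit 0) (nat_lit 586914664207) (nat_lit 76) (nat_lit 1112427320707) (nat_lit 152) (nat_lit 7908476208994) (nat_lit 32) (nat_lit 5) (nat_lit 33) (nat_lit 5) (nat_lit 34) (nat_lit 4) (nat_lit 406) (nat_lit 379) (nat_lit 235))))) (XT.nd (nat_lit 234) (nat_lit 380) (nat_lit 0) (XT.nd (nat_lit 78) (nat_lit 228) (nat_lit 0) (XT.lf (nat_lit 0) (nat_lit 1636071815362) (nat_lit 76) (nat_lit 5834097114504) (nat_lit 76) (nat_lit 3104729831990) (nat_lit 31) (nat_lit 4) (nat_lit 32) (nat_lit 5) (nat_lit 32) (nat_lit 4) (nat_lit 407) (nat_lit 379) (nat_lit 234)) (XT.nd (nat_lit 78) (nat_lit 76) (nat_lit 0) (XT.lf (nat_lit 0) (nat_lit 2670131041171) (nat_lit 152) (nat_lit 8839588815287) (nat_lit 0) (nat_lit 142939112396) (nat_lit 29) (nat_lit 5) (nat_lit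 31) (nat_lit 4) (nat_lit 29) (nat_lit 4) (nat_lit 408) (nat_lit 379) (nat_lit 233)) (XT.lf (nat_lit 0) (nat_lit 3940953358104) (nat_lit 76) (nat_lit 5714800497186) (nat_lit 76) (nat_lit 3187608567958) (nat_lit 28) (nat_lit 4) (nat_lit 29) (nat_lit 5) (nat_lit 29) (nat_lit 4) (nat_lit 409) (nat_lit 379) (nat_lit 232)))) (XT.nd (nat_lit 78) (nat_lit 228) (nat_lit 0) (XT.lf (nat_lit 0) (nat_lit 3725591122843) (nat_lit 152) (nat_lit 9060956513324) (nat_lit 0) (nat_lit 1385598595415) (nat_lit 26) (nat_lit 5) (nat_lit 28) (nat_lit 4) (nat_lit 26) (nat_lit 4) (nat_lit 410) (nat_lit 379) (nat_lit 231)) (XT.nd (nat_lit 78) (nat_lit 152) (nat_lit 0) (XT.lf (nat_lit 0) (nat_lit 6140647663276) (nat_lit 76) (nat_lit 5923403539357) (nat_lit 76) (nat_lit 3583411011612) (nat_lit 25) (nat_lit 4) (nat_lit 26) (nat_lit 5) (nat_lit 26) (nat_lit 4) (nat_lit 411) (nat_lit 379) (nat_lit 230)) (XT.lf (nat_lit 0)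 (nat_lit 4596380292882) (nat_lit 152) (nat_lit 10269464681435) (nat_lit 0) (nat_lit 2429720544714) (nat_lit 23) (nat_lit 5) (nat_lit 25) (nat_lit 4) (nat_lit 23) (nat_lit 4) (nat_lit 412) (nat_lit 379) (nat_lit 229))))))))
noncomputable def xc108 : XT := (XT.nd (nat_lit 51246) (nat_lit 0) (nat_lit 1596) (XT.nd (nat_lit 780) (nat_lit 228) (nat_lit 0) (XT.nd (nat_lit 390) (nat_lit 380) (nat_lit 0) (XT.nd (nat_lit 156) (nat_lit 304) (nat_lit 0) (XT.nd (nat_lit 78) (nat_lit 152) (nat_lit 0) (XT.lf (nat_lit 0) (nat_lit 7553655835110) (nat_lit 76) (nat_lit 6872801301442) (nat_lit 76) (nat_lit 4706141553053) (nat_lit 22) (nat_lit 4) (nat_lit 23) (nat_lit 5) (nat_lit 23) (nat_lit 4) (nat_lit 413) (nat_lit 379) (nat_lit 228)) (XT.lf (nat_lit 0) (nat_lit 4825279646152) (nat_lit 152) (nat_lit 13547057433124) (nat_lit 0) (nat_lit 2819113212279) (nat_lit 20) (nat_lit 5) (nat_lit 22) (nat_lit 4) (nat_lit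 20) (nat_lit 4) (nat_lit 414) (nat_lit 379) (nat_lit 227))) (XT.nd (nat_lit 78) (nat_lit 228) (nat_lit 0) (XT.lf (nat_lit 0) (nat_lit 6938336254218) (nat_lit 76) (nat_lit 9280160842362) (nat_lit 76) (nat_lit 7273994408334) (nat_lit 19) (nat_lit 4) (nat_lit 20) (nat_lit 5) (nat_lit 20) (nat_lit 4) (nat_lit 415) (nat_lit 379) (nat_lit 226)) (XT.nd (nat_lit 78) (nat_lit 76) (nat_lit 0) (XT.lf (nat_lit 0) (nat_lit 3601325811794) (nat_lit 152) (nat_lit 20741197040734) (nat_lit 0) (nat_lit 1743764298680) (nat_lit 17) (nat_lit 5) (nat_lit 19) (nat_lit 4) (nat_lit 17) (nat_lit 4) (nat_lit 416) (nat_lit 379) (nat_lit 225)) (XT.lf (nat_lit 0) (nat_lit 2137665313851) (nat_lit 76) (nat_lit 14354374864926) (nat_lit 76) (nat_lit 12496813351703) (nat_lit 16) (nat_lit 4) (nat_lit 17) (nat_lit 5) (nat_lit 17) (nat_lit 4) (nat_lit 417) (nat_lit 379) (nat_lit 224))))) (XT.nd (nat_lit 156) (nat_lit 228) (nat_lit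 0) (XT.nd (nat_lit 78) (nat_lit 152) (nat_lit 0) (XT.lf (nat_lit 0) (nat_lit 29704380900196) (nat_lit 76) (nat_lit 2215838434527) (nat_lit 76) (nat_lit 358276921209) (nat_lit 16) (nat_lit 4) (nat_lit 17) (nat_lit 5) (nat_lit 17) (nat_lit 4) (nat_lit 418) (nat_lit 379) (nat_lit 223)) (XT.lf (nat_lit 0) (nat_lit 13861390987946) (nat_lit 152) (nat_lit 9957340942041) (nat_lit 0) (nat_lit 12141426623687) (nat_lit 14) (nat_lit 5) (nat_lit 16) (nat_lit 4) (nat_lit 14) (nat_lit 4) (nat_lit 419) (nat_lit 379) (nat_lit 222))) (XT.nd (nat_lit 78) (nat_lit 152) (nat_lit 0) (XT.lf (nat_lit 0) (nat_lit 19748874813211) (nat_lit 76) (nat_lit 11057658124011) (nat_lit 76) (nat_lit 9337693759685) (nat_lit 13) (nat_lit 4) (nat_lit 14) (nat_lit 5) (nat_lit 14) (nat_lit 4) (nat_lit 420) (nat_lit 379) (nat_lit 221)) (XT.nd (nat_lit 78) (nat_lit 0) (nat_lit 0) (XT.lf (nat_lit 0) (nat_lit 5711360196715) (nat_lit 152)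 (nat_lit 35064208865201) (nat_lit 0) (nat_lit 4118800600064) (nat_lit 11) (nat_lit 5) (nat_lit 13) (nat_lit 4) (nat_lit 11) (nat_lit 4) (nat_lit 421) (nat_lit 379) (nat_lit 220)) (XT.lf (nat_lit 0) (nat_lit 23395635891708) (nat_lit 152) (nat_lit 5064458139717) (nat_lit 0) (nat_lit 21803076295010) (nat_lit 11) (nat_lit 5) (nat_lit 13) (nat_lit 4) (nat_lit 11) (nat_lit 4) (nat_lit 422) (nat_lit 379) (nat_lit 219)))))) (XT.nd (nat_lit 49998) (nat_lit 0) (nat_lit 4864) (XT.nd (nat_lit 49764) (nat_lit 0) (nat_lit 5928) (XT.nd (nat_lit 78) (nat_lit 152) (nat_lit 0) (XT.lf (nat_lit 0) (nat_lit 30985263567369) (nat_lit 76) (nat_lit 13492485706641) (nat_lit 76) (nat_lit 11899926109903) (nat_lit 10) (nat_lit 4) (nat_lit 11) (nat_lit 5) (nat_lit 11) (nat_lit 4) (nat_lit 423) (nat_lit 379) (nat_lit 218)) (XT.lf (nat_lit 0) (nat_lit 5534530700551) (nat_lit 152) (nat_lit 53765667040891) (nat_lit 0) (nat_lit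 4059938481316) (nat_lit 8) (nat_lit 5) (nat_lit 10) (nat_lit 4) (nat_lit 8) (nat_lit 4) (nat_lit 424) (nat_lit 379) (nat_lit 217))) (XT.nd (nat_lit 78) (nat_lit 532) (nat_lit 0) (XT.lf (nat_lit 0) (nat_lit 536568946003) (nat_lit 532) (nat_lit 3579372971) (nat_lit 532) (nat_lit 3579372971) (nat_lit 93) (nat_lit 3) (nat_lit 100) (nat_lit 3) (nat_lit 100) (nat_lit 5) (nat_lit 380) (nat_lit 380) (nat_lit 260)) (XT.nd (nat_lit 78) (nat_lit 0) (nat_lit 76) (XT.lf (nat_lit 0) (nat_lit 11567160477) (nat_lit 532) (nat_lit 105917786846) (nat_lit 608) (nat_lit 1049464120933) (nat_lit 86) (nat_lit 5) (nat_lit 93) (nat_lit 3) (nat_lit 94) (nat_lit 5) (nat_lit 381) (nat_lit 380) (nat_lit 259)) (XT.lf (nat_lit 0) (nat_lit 91326632651) (nat_lit 532) (nat_lit 195297654346) (nat_lit 608) (nat_lit 967645577469) (nat_lit 87) (nat_lit 5) (nat_lit 94) (nat_lit 5) (nat_lit 95) (nat_lit 5) (nat_lit 382) (nat_lit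 380) (nat_lit 258))))) (XT.nd (nat_lit 234) (nat_lit 760) (nat_lit 0) (XT.nd (nat_lit 78) (nat_lit 456) (nat_lit 0) (XT.lf (nat_lit 0) (nat_lit 237293636406) (nat_lit 532) (nat_lit 270988947191) (nat_lit 608) (nat_lit 842066707653) (nat_lit 88) (nat_lit 5) (nat_lit 95) (nat_lit 5) (nat_lit 96) (nat_lit 5) (nat_lit 383) (nat_lit 380) (nat_lit 257)) (XT.nd (nat_lit 78) (nat_lit 532) (nat_lit 0) (XT.lf (nat_lit 0) (nat_lit 463296934677) (nat_lit 532) (nat_lit 328450604636) (nat_lit 76) (nat_lit 664441793223) (nat_lit 89) (nat_lit 5) (nat_lit 96) (nat_lit 5) (nat_lit 90) (nat_lit 5) (nat_lit 384) (nat_lit 380) (nat_lit 256)) (XT.lf (nat_lit 0) (nat_lit 785512639404) (nat_lit 608) (nat_lit 362252066698) (nat_lit 76) (nat_lit 425155720977) (nat_lit 82) (nat_lit 5) (nat_lit 90) (nat_lit 5) (nat_lit 83) (nat_lit 5) (nat_lit 385) (nat_lit 380) (nat_lit 255)))) (XT.nd (nat_lit 78) (nat_lit 532) (nat_lit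 0) (XT.lf (nat_lit 0) (nat_lit 1222834181042) (nat_lit 304) (nat_lit 365926335259) (nat_lit 76) (nat_lit 113058791009) (nat_lit 79) (nat_lit 5) (nat_lit 83) (nat_lit 5) (nat_lit 80) (nat_lit 5) (nat_lit 386) (nat_lit 380) (nat_lit 254)) (XT.nd (nat_lit 78) (nat_lit 304) (nat_lit 0) (XT.lf (nat_lit 0) (nat_lit 1504742384172) (nat_lit 228) (nat_lit 299765501217) (nat_lit 304) (nat_lit 39244819669) (nat_lit 76) (nat_lit 5) (nat_lit 79) (nat_lit 5) (nat_lit 80) (nat_lit 5) (nat_lit 387) (nat_lit 380) (nat_lit 253)) (XT.lf (nat_lit 0) (nat_lit 526200300978) (nat_lit 304) (nat_lit 283955673319) (nat_lit 76) (nat_lit 1189276449867) (nat_lit 72) (nat_lit 5) (nat_lit 76) (nat_lit 5) (nat_lit 73) (nat_lit 5) (nat_lit 388) (nat_lit 380) (nat_lit 252))))))) (XT.nd (nat_lit 780) (nat_lit 1444) (nat_lit 0) (XT.nd (nat_lit 390) (nat_lit 760) (nat_lit 0) (XT.nd (nat_lit 156) (nat_lit 684) (nat_lit 0) (XT.nd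 (nat_lit 78) (nat_lit 152) (nat_lit 0) (XT.lf (nat_lit 0) (nat_lit 1259552927601) (nat_lit 304) (nat_lit 179567265387) (nat_lit 76) (nat_lit 732429202939) (nat_lit 69) (nat_lit 5) (nat_lit 73) (nat_lit 5) (nat_lit 70) (nat_lit 5) (nat_lit 389) (nat_lit 380) (nat_lit 251)) (XT.lf (nat_lit 0) (nat_lit 2194286120858) (nat_lit 228) (nat_lit 13634941771) (nat_lit 76) (nat_lit 154252637014) (nat_lit 67) (nat_lit 5) (nat_lit 70) (nat_lit 5) (nat_lit 68) (nat_lit 5) (nat_lit 390) (nat_lit 380) (nat_lit 250))) (XT.nd (nat_lit 78) (nat_lit 304) (nat_lit 0) (XT.lf (nat_lit 0) (nat_lit 203449532481) (nat_lit 152) (nat_lit 569934674368) (nat_lit 228) (nat_lit 1797087642128) (nat_lit 62) (nat_lit 5) (nat_lit 64) (nat_lit 5) (nat_lit 65) (nat_lit 5) (nat_lit 391) (nat_lit 380) (nat_lit 249)) (XT.nd (nat_lit 78) (nat_lit 152) (nat_lit 0) (XT.lf (nat_lit 0) (nat_lit 496713865082) (nat_lit 152) (nat_lit 1464421973818)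 (nat_lit 228) (nat_lit 839311632766) (nat_lit 60) (nat_lit 5) (nat_lit 62) (nat_lit 5) (nat_lit 63) (nat_lit 5) (nat_lit 392) (nat_lit 380) (nat_lit 248)) (XT.lf (nat_lit 0) (nat_lit 369940548162) (nat_lit 152) (nat_lit 2173860662495) (nat_lit 76) (nat_lit 510940077916) (nat_lit 58) (nat_lit 5) (nat_lit 60) (nat_lit 5) (nat_lit 59) (nat_lit 5) (nat_lit 393) (nat_lit 380) (nat_lit 247))))) (XT.nd (nat_lit 156) (nat_lit 456) (nat_lit 0) (XT.nd (nat_lit 78) (nat_lit 152) (nat_lit 0) (XT.lf (nat_lit 0) (nat_lit 1342584410330) (nat_lit 152) (nat_lit 511316809018) (nat_lit 228) (nat_lit 1480092552268) (nat_lit 56) (nat_lit 5) (nat_lit 58) (nat_lit 5) (nat_lit 59) (nat_lit 5) (nat_lit 394) (nat_lit 380) (nat_lit 246)) (XT.lf (nat_lit 0) (nat_lit 69072979576) (nat_lit 152) (nat_lit 1726006179983) (nat_lit 76) (nat_lit 1847515933939) (nat_lit 54) (nat_lit 5) (nat_lit 56) (nat_lit 5) (nat_lit 55) (nat_lit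 5) (nat_lit 395) (nat_lit 380) (nat_lit 245))) (XT.nd (nat_lit 78) (nat_lit 304) (nat_lit 0) (XT.lf (nat_lit 0) (nat_lit 1919019409095) (nat_lit 228) (nat_lit 1387743877937) (nat_lit 76) (nat_lit 675164284547) (nat_lit 52) (nat_lit 5) (nat_lit 55) (nat_lit 5) (nat_lit 53) (nat_lit 4) (nat_lit 396) (nat_lit 380) (nat_lit 244)) (XT.nd (nat_lit 78) (nat_lit 228) (nat_lit 0) (XT.lf (nat_lit 0) (nat_lit 3418856243467) (nat_lit 76) (nat_lit 811028610486) (nat_lit 152) (nat_lit 127600903346) (nat_lit 51) (nat_lit 5) (nat_lit 52) (nat_lit 5) (nat_lit 53) (nat_lit 4) (nat_lit 397) (nat_lit 380) (nat_lit 243)) (XT.lf (nat_lit 0) (nat_lit 2195316522235) (nat_lit 228) (nat_lit 414578907962) (nat_lit 76) (nat_lit 2159264507395) (nat_lit 48) (nat_lit 5) (nat_lit 51) (nat_lit 5) (nat_lit 49) (nat_lit 4) (nat_lit 398) (nat_lit 380) (nat_lit 242)))))) (XT.nd (nat_lit 390) (nat_lit 760) (nat_lit 0) (XT.nd (nat_lit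 156) (nat_lit 380) (nat_lit 0) (XT.nd (nat_lit 78) (nat_lit 152) (nat_lit 0) (XT.lf (nat_lit 0) (nat_lit 282302403221) (nat_lit 76) (nat_lit 4777908252594) (nat_lit 76) (nat_lit 166021885054) (nat_lit 46) (nat_lit 4) (nat_lit 47) (nat_lit 5) (nat_lit 47) (nat_lit 4) (nat_lit 399) (nat_lit 380) (nat_lit 241)) (XT.lf (nat_lit 0) (nat_lit 1085798389128) (nat_lit 76) (nat_lit 1653473129558) (nat_lit 152) (nat_lit 2986265599998) (nat_lit 44) (nat_lit 5) (nat_lit 45) (nat_lit 5) (nat_lit 46) (nat_lit 4) (nat_lit 400) (nat_lit 380) (nat_lit 240))) (XT.nd (nat_lit 78) (nat_lit 228) (nat_lit 0) (XT.lf (nat_lit 0) (nat_lit 33572136692) (nat_lit 152) (nat_lit 4200435114617) (nat_lit 76) (nat_lit 2045746504985) (nat_lit 42) (nat_lit 5) (nat_lit 44) (nat_lit 5) (nat_lit 43) (nat_lit 4) (nat_lit 401) (nat_lit 380) (nat_lit 239)) (XT.nd (nat_lit 78) (nat_lit 152) (nat_lit 0) (XT.lf (nat_lit 0) (nat_lit 3209633239134)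 (nat_lit 76) (nat_lit 386471760678) (nat_lit 152) (nat_lit 3293469485408) (nat_lit 41) (nat_lit 5) (nat_lit 42) (nat_lit 5) (nat_lit 43) (nat_lit 4) (nat_lit 402) (nat_lit 380) (nat_lit 238)) (XT.lf (nat_lit 0) (nat_lit 437204535667) (nat_lit 152) (nat_lit 3044563789715) (nat_lit 76) (nat_lit 4081690262577) (nat_lit 39) (nat_lit 5) (nat_lit 41) (nat_lit 5) (nat_lit 40) (nat_lit 4) (nat_lit 403) (nat_lit 380) (nat_lit 237))))) (XT.nd (nat_lit 234) (nat_lit 456) (nat_lit 0) (XT.nd (nat_lit 78) (nat_lit 228) (nat_lit 0) (XT.lf (nat_lit 0) (nat_lit 4833520554933) (nat_lit 152) (nat_lit 2301520637204) (nat_lit 0) (nat_lit 1172456457728) (nat_lit 38) (nat_lit 5) (nat_lit 40) (nat_lit 4) (nat_lit 38) (nat_lit 4) (nat_lit 404) (nat_lit 380) (nat_lit 236)) (XT.nd (nat_lit 78) (nat_lit 76) (nat_lit 0) (XT.lf (nat_lit 0) (nat_lit 1072667338990) (nat_lit 152) (nat_lit 1429916032972) (nat_lit 76) (nat_lit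 6628534064273) (nat_lit 36) (nat_lit 5) (nat_lit 38) (nat_lit 5) (nat_lit 37) (nat_lit 4) (nat_lit 405) (nat_lit 380) (nat_lit 235)) (XT.lf (nat_lit 0) (nat_lit 6480680569024) (nat_lit 152) (nat_lit 468768937041) (nat_lit 0) (nat_lit 3090806403443) (nat_lit 35) (nat_lit 5) (nat_lit 37) (nat_lit 4) (nat_lit 35) (nat_lit 4) (nat_lit 406) (nat_lit 380) (nat_lit 234)))) (XT.nd (nat_lit 78) (nat_lit 228) (nat_lit 0) (XT.lf (nat_lit 0) (nat_lit 674951919080) (nat_lit 76) (nat_lit 1279291391145) (nat_lit 152) (nat_lit 9094747610564) (nat_lit 32) (nat_lit 5) (nat_lit 33) (nat_lit 5) (nat_lit 34) (nat_lit 4) (nat_lit 407) (nat_lit 380) (nat_lit 233)) (XT.nd (nat_lit 78) (nat_lit 152) (nat_lit 0) (XT.lf (nat_lit 0) (nat_lit 1881482639642) (nat_lit 76) (nat_lit 6709211655509) (nat_lit 76) (nat_lit 3570439278918) (nat_lit 31) (nat_lit 4) (nat_lit 32) (nat_lit 5) (nat_lit 32) (nat_lit 4) (nat_lit 408)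 (nat_lit 380) (nat_lit 232)) (XT.lf (nat_lit 0) (nat_lit 3070650722136) (nat_lit 152) (nat_lit 10165527087384) (nat_lit 0) (nat_lit 164380002677) (nat_lit 29) (nat_lit 5) (nat_lit 31) (nat_lit 4) (nat_lit 29) (nat_lit 4) (nat_lit 409) (nat_lit 380) (nat_lit 231))))))))
noncomputable def xc109 : XT := (XT.nd (nat_lit 51324) (nat_lit 0) (nat_lit 1900) (XT.nd (nat_lit 780) (nat_lit 456) (nat_lit 0) (XT.nd (nat_lit 390) (nat_lit 456) (nat_lit 0) (XT.nd (nat_lit 156) (nat_lit 304) (nat_lit 0) (XT.nd (nat_lit 78) (nat_lit 152) (nat_lit 0) (XT.lf (nat_lit 0) (nat_lit 4532096407767) (nat_lit 76) (nat_lit 6572020548478) (nat_lit 76) (nat_lit 3665749828677) (nat_lit 28) (nat_lit 4) (nat_lit 29) (nat_lit 5) (nat_lit 29) (nat_lit 4) (nat_lit 410) (nat_lit 380) (nat_lit 230)) (XT.lf (nat_lit 0) (nat_lit 4284429813053) (nat_lit 152) (nat_lit 10420099945971) (nat_lit 0) (nat_lit 1593438405553) (nat_lit 26)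 (nat_lit 5) (nat_lit 28) (nat_lit 4) (nat_lit 26) (nat_lit 4) (nat_lit 411) (nat_lit 380) (nat_lit 229))) (XT.nd (nat_lit 78) (nat_lit 228) (nat_lit 0) (XT.lf (nat_lit 0) (nat_lit 7061744853366) (nat_lit 76) (nat_lit 6811914049581) (nat_lit 76) (nat_lit 4120922641841) (nat_lit 25) (nat_lit 4) (nat_lit 26) (nat_lit 5) (nat_lit 26) (nat_lit 4) (nat_lit 412) (nat_lit 380) (nat_lit 228)) (XT.nd (nat_lit 78) (nat_lit 76) (nat_lit 0) (XT.lf (nat_lit 0) (nat_lit 5285837355970) (nat_lit 152) (nat_lit 11809884344476) (nat_lit 0) (nat_lit 2794178644907) (nat_lit 23) (nat_lit 5) (nat_lit 25) (nat_lit 4) (nat_lit 23) (nat_lit 4) (nat_lit 413) (nat_lit 380) (nat_lit 227)) (XT.lf (nat_lit 0) (nat_lit 8686704246235) (nat_lit 76) (nat_lit 7903721478320) (nat_lit 76) (nat_lit 5412062767089) (nat_lit 22) (nat_lit 4) (nat_lit 23) (nat_lit 5) (nat_lit 23) (nat_lit 4) (nat_lit 414) (nat_lit 380) (nat_lit 226)))))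 (XT.nd (nat_lit 156) (nat_lit 228) (nat_lit 0) (XT.nd (nat_lit 78) (nat_lit 76) (nat_lit 0) (XT.lf (nat_lit 0) (nat_lit 5549071609930) (nat_lit 152) (nat_lit 15579116013503) (nat_lit 0) (nat_lit 3241980210507) (nat_lit 20) (nat_lit 5) (nat_lit 22) (nat_lit 4) (nat_lit 20) (nat_lit 4) (nat_lit 415) (nat_lit 380) (nat_lit 225)) (XT.lf (nat_lit 0) (nat_lit 7979086724013) (nat_lit 76) (nat_lit 10672184952473) (nat_lit 76) (nat_lit 8365093552932) (nat_lit 19) (nat_lit 4) (nat_lit 20) (nat_lit 5) (nat_lit 20) (nat_lit 4) (nat_lit 416) (nat_lit 380) (nat_lit 224))) (XT.nd (nat_lit 78) (nat_lit 76) (nat_lit 0) (XT.lf (nat_lit 0) (nat_lit 4141524698401) (nat_lit 152) (nat_lit 23852376566309) (nat_lit 0) (nat_lit 2005328957991) (nat_lit 17) (nat_lit 5) (nat_lit 19) (nat_lit 4) (nat_lit 17) (nat_lit 4) (nat_lit 417) (nat_lit 380) (nat_lit 223)) (XT.nd (nat_lit 78) (nat_lit 0) (nat_lit 0) (XT.lf (nat_lit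 0) (nat_lit 2458315138880) (nat_lit 76) (nat_lit 16507531080290) (nat_lit 76) (nat_lit 14371335339798) (nat_lit 16) (nat_lit 4) (nat_lit 17) (nat_lit 5) (nat_lit 17) (nat_lit 4) (nat_lit 418) (nat_lit 380) (nat_lit 222)) (XT.lf (nat_lit 0) (nat_lit 34160038059531) (nat_lit 76) (nat_lit 2548214187206) (nat_lit 76) (nat_lit 412018446642) (nat_lit 16) (nat_lit 4) (nat_lit 17) (nat_lit 5) (nat_lit 17) (nat_lit 4) (nat_lit 419) (nat_lit 380) (nat_lit 221)))))) (XT.nd (nat_lit 50076) (nat_lit 0) (nat_lit 5472) (XT.nd (nat_lit 156) (nat_lit 228) (nat_lit 0) (XT.nd (nat_lit 78) (nat_lit 76) (nat_lit 0) (XT.lf (nat_lit 0) (nat_lit 15940599647501) (nat_lit 152) (nat_lit 11450942059912) (nat_lit 0) (nat_lit 13962640628403) (nat_lit 14) (nat_lit 5) (nat_lit 16) (nat_lit 4) (nat_lit 14) (nat_lit 4) (nat_lit 420) (nat_lit 380) (nat_lit 220)) (XT.lf (nat_lit 0) (nat_lit 22711206056645) (nat_lit 76) (nat_lit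 12716306831558) (nat_lit 76) (nat_lit 10738347812409) (nat_lit 13) (nat_lit 4) (nat_lit 14) (nat_lit 5) (nat_lit 14) (nat_lit 4) (nat_lit 421) (nat_lit 380) (nat_lit 219))) (XT.nd (nat_lit 78) (nat_lit 76) (nat_lit 0) (XT.lf (nat_lit 0) (nat_lit 6568064236233) (nat_lit 152) (nat_lit 40323840174301) (nat_lit 0) (nat_lit 4736620699944) (nat_lit 11) (nat_lit 5) (nat_lit 13) (nat_lit 4) (nat_lit 11) (nat_lit 4) (nat_lit 422) (nat_lit 380) (nat_lit 218)) (XT.nd (nat_lit 78) (nat_lit 76) (nat_lit 0) (XT.lf (nat_lit 0) (nat_lit 26904981284168) (nat_lit 152) (nat_lit 5824126842692) (nat_lit 0) (nat_lit 25073537747844) (nat_lit 11) (nat_lit 5) (nat_lit 13) (nat_lit 4) (nat_lit 11) (nat_lit 4) (nat_lit 423) (nat_lit 380) (nat_lit 217)) (XT.lf (nat_lit 0) (nat_lit 35633053118936) (nat_lit 76) (nat_lit 15516358554141) (nat_lit 76) (nat_lit 13684915017787) (nat_lit 10) (nat_lit 4) (nat_lit 11) (nat_lit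 5) (nat_lit 11) (nat_lit 4) (nat_lit 424) (nat_lit 380) (nat_lit 216))))) (XT.nd (nat_lit 234) (nat_lit 304) (nat_lit 0) (XT.nd (nat_lit 78) (nat_lit 532) (nat_lit 0) (XT.lf (nat_lit 0) (nat_lit 617054378110) (nat_lit 532) (nat_lit 4116230199) (nat_lit 532) (nat_lit 4116230199) (nat_lit 93) (nat_lit 3) (nat_lit 100) (nat_lit 3) (nat_lit 100) (nat_lit 5) (nat_lit 381) (nat_lit 381) (nat_lit 258)) (XT.nd (nat_lit 78) (nat_lit 0) (nat_lit 76) (XT.lf (nat_lit 0) (nat_lit 13302397725) (nat_lit 532) (nat_lit 121805357073) (nat_lit 608) (nat_lit 1206883660622) (nat_lit 86) (nat_lit 5) (nat_lit 93) (nat_lit 3) (nat_lit 94) (nat_lit 5) (nat_lit 382) (nat_lit 381) (nat_lit 257)) (XT.lf (nat_lit 0) (nat_lit 105025770284) (nat_lit 532) (nat_lit 224592200125) (nat_lit 608) (nat_lit 1112792362292) (nat_lit 87) (nat_lit 5) (nat_lit 94) (nat_lit 5) (nat_lit 95) (nat_lit 5) (nat_lit 383) (nat_lit 381) (nat_lit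 256)))) (XT.nd (nat_lit 78) (nat_lit 456) (nat_lit 0) (XT.lf (nat_lit 0) (nat_lit 272887807452) (nat_lit 532) (nat_lit 311637184652) (nat_lit 608) (nat_lit 968376682773) (nat_lit 88) (nat_lit 5) (nat_lit 95) (nat_lit 5) (nat_lit 96) (nat_lit 5) (nat_lit 384) (nat_lit 381) (nat_lit 255)) (XT.nd (nat_lit 78) (nat_lit 532) (nat_lit 0) (XT.lf (nat_lit 0) (nat_lit 532791586008) (nat_lit 532) (nat_lit 377718090257) (nat_lit 76) (nat_lit 764108047249) (nat_lit 89) (nat_lit 5) (nat_lit 96) (nat_lit 5) (nat_lit 90) (nat_lit 5) (nat_lit 385) (nat_lit 381) (nat_lit 254)) (XT.lf (nat_lit 0) (nat_lit 903339634195) (nat_lit 608) (nat_lit 416589772530) (nat_lit 76) (nat_lit 488929076496) (nat_lit 82) (nat_lit 5) (nat_lit 90) (nat_lit 5) (nat_lit 83) (nat_lit 5) (nat_lit 386) (nat_lit 381) (nat_lit 253))))))) (XT.nd (nat_lit 780) (nat_lit 1444) (nat_lit 0) (XT.nd (nat_lit 390) (nat_lit 988) (nat_lit 0) (XT.nd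 (nat_lit 156) (nat_lit 684) (nat_lit 0) (XT.nd (nat_lit 78) (nat_lit 228) (nat_lit 0) (XT.lf (nat_lit 0) (nat_lit 1406259396645) (nat_lit 304) (nat_lit 420815183290) (nat_lit 76) (nat_lit 130017616386) (nat_lit 79) (nat_lit 5) (nat_lit 83) (nat_lit 5) (nat_lit 80) (nat_lit 5) (nat_lit 387) (nat_lit 381) (nat_lit 252)) (XT.lf (nat_lit 0) (nat_lit 1730453835400) (nat_lit 228) (nat_lit 344730311959) (nat_lit 304) (nat_lit 45131457118) (nat_lit 76) (nat_lit 5) (nat_lit 79) (nat_lit 5) (nat_lit 80) (nat_lit 5) (nat_lit 388) (nat_lit 381) (nat_lit 251))) (XT.nd (nat_lit 78) (nat_lit 380) (nat_lit 0) (XT.lf (nat_lit 0) (nat_lit 605130419314) (nat_lit 304) (nat_lit 326548929291) (nat_lit 76) (nat_lit 1367667933322) (nat_lit 72) (nat_lit 5) (nat_lit 76) (nat_lit 5) (nat_lit 73) (nat_lit 5) (nat_lit 389) (nat_lit 381) (nat_lit 250)) (XT.nd (nat_lit 78) (nat_lit 152) (nat_lit 0) (XT.lf (nat_lit 0) (nat_lit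 1448485932988) (nat_lit 304) (nat_lit 206502263459) (nat_lit 76) (nat_lit 842293603564) (nat_lit 69) (nat_lit 5) (nat_lit 73) (nat_lit 5) (nat_lit 70) (nat_lit 5) (nat_lit 390) (nat_lit 381) (nat_lit 249)) (XT.lf (nat_lit 0) (nat_lit 2523429099198) (nat_lit 228) (nat_lit 15680094876) (nat_lit 76) (nat_lit 177390555695) (nat_lit 67) (nat_lit 5) (nat_lit 70) (nat_lit 5) (nat_lit 68) (nat_lit 5) (nat_lit 391) (nat_lit 381) (nat_lit 248))))) (XT.nd (nat_lit 156) (nat_lit 456) (nat_lit 0) (XT.nd (nat_lit 78) (nat_lit 152) (nat_lit 0) (XT.lf (nat_lit 0) (nat_lit 233967050394) (nat_lit 152) (nat_lit 655424845313) (nat_lit 228) (nat_lit 2066650725987) (nat_lit 62) (nat_lit 5) (nat_lit 64) (nat_lit 5) (nat_lit 65) (nat_lit 5) (nat_lit 392) (nat_lit 381) (nat_lit 247)) (XT.lf (nat_lit 0) (nat_lit 571221029007) (nat_lit 152) (nat_lit 1684085238671) (nat_lit 228) (nat_lit 965208320499) (nat_lit 60) (nat_lit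 5) (nat_lit 62) (nat_lit 5) (nat_lit 63) (nat_lit 5) (nat_lit 393) (nat_lit 381) (nat_lit 246))) (XT.nd (nat_lit 78) (nat_lit 304) (nat_lit 0) (XT.lf (nat_lit 0) (nat_lit 425431680271) (nat_lit 152) (nat_lit 2499939679008) (nat_lit 76) (nat_lit 587581118585) (nat_lit 58) (nat_lit 5) (nat_lit 60) (nat_lit 5) (nat_lit 59) (nat_lit 5) (nat_lit 394) (nat_lit 381) (nat_lit 245)) (XT.nd (nat_lit 78) (nat_lit 152) (nat_lit 0) (XT.lf (nat_lit 0) (nat_lit 1543972147726) (nat_lit 152) (nat_lit 588014299726) (nat_lit 228) (nat_lit 1702106386287) (nat_lit 56) (nat_lit 5) (nat_lit 58) (nat_lit 5) (nat_lit 59) (nat_lit 5) (nat_lit 395) (nat_lit 381) (nat_lit 244)) (XT.lf (nat_lit 0) (nat_lit 79433969278) (nat_lit 152) (nat_lit 1984907032661) (nat_lit 76) (nat_lit 2124643352160) (nat_lit 54) (nat_lit 5) (nat_lit 56) (nat_lit 5) (nat_lit 55) (nat_lit 5) (nat_lit 396) (nat_lit 381) (nat_lit 243)))))) (XT.nd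 (nat_lit 390) (nat_lit 684) (nat_lit 0) (XT.nd (nat_lit 156) (nat_lit 532) (nat_lit 0) (XT.nd (nat_lit 78) (nat_lit 76) (nat_lit 0) (XT.lf (nat_lit 0) (nat_lit 2206872359985) (nat_lit 228) (nat_lit 1595905389195) (nat_lit 76) (nat_lit 776438954973) (nat_lit 52) (nat_lit 5) (nat_lit 55) (nat_lit 5) (nat_lit 53) (nat_lit 4) (nat_lit 397) (nat_lit 381) (nat_lit 242)) (XT.lf (nat_lit 0) (nat_lit 3931684744459) (nat_lit 76) (nat_lit 932682873508) (nat_lit 152) (nat_lit 146741000052) (nat_lit 51) (nat_lit 5) (nat_lit 52) (nat_lit 5) (nat_lit 53) (nat_lit 4) (nat_lit 398) (nat_lit 381) (nat_lit 241))) (XT.nd (nat_lit 78) (nat_lit 304) (nat_lit 0) (XT.lf (nat_lit 0) (nat_lit 2524614034737) (nat_lit 228) (nat_lit 476765681338) (nat_lit 76) (nat_lit 2483154209422) (nat_lit 48) (nat_lit 5) (nat_lit 51) (nat_lit 5) (nat_lit 49) (nat_lit 4) (nat_lit 399) (nat_lit 381) (nat_lit 240)) (XT.nd (nat_lit 78)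 (nat_lit 152) (nat_lit 0) (XT.lf (nat_lit 0) (nat_lit 324647826184) (nat_lit 76) (nat_lit 5494594461234) (nat_lit 76) (nat_lit 190925131922) (nat_lit 46) (nat_lit 4) (nat_lit 47) (nat_lit 5) (nat_lit 47) (nat_lit 4) (nat_lit 400) (nat_lit 381) (nat_lit 239)) (XT.lf (nat_lit 0) (nat_lit 1248668206333) (nat_lit 76) (nat_lit 1901494071218) (nat_lit 152) (nat_lit 3434205406450) (nat_lit 44) (nat_lit 5) (nat_lit 45) (nat_lit 5) (nat_lit 46) (nat_lit 4) (nat_lit 401) (nat_lit 381) (nat_lit 238))))) (XT.nd (nat_lit 234) (nat_lit 304) (nat_lit 0) (XT.nd (nat_lit 78) (nat_lit 228) (nat_lit 0) (XT.lf (nat_lit 0) (nat_lit 38607986874) (nat_lit 152) (nat_lit 4830500324727) (nat_lit 76) (nat_lit 2352608505762) (nat_lit 42) (nat_lit 5) (nat_lit 44) (nat_lit 5) (nat_lit 43) (nat_lit 4) (nat_lit 402) (nat_lit 381) (nat_lit 237)) (XT.nd (nat_lit 78) (nat_lit 152) (nat_lit 0) (XT.lf (nat_lit 0) (nat_lit 3691078277255)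 (nat_lit 76) (nat_lit 444442499594) (nat_lit 152) (nat_lit 3787489878989) (nat_lit 41) (nat_lit 5) (nat_lit 42) (nat_lit 5) (nat_lit 43) (nat_lit 4) (nat_lit 403) (nat_lit 381) (nat_lit 236)) (XT.lf (nat_lit 0) (nat_lit 502785241919) (nat_lit 152) (nat_lit 3501248307552) (nat_lit 76) (nat_lit 4693943824609) (nat_lit 39) (nat_lit 5) (nat_lit 41) (nat_lit 5) (nat_lit 40) (nat_lit 4) (nat_lit 404) (nat_lit 381) (nat_lit 235)))) (XT.nd (nat_lit 78) (nat_lit 228) (nat_lit 0) (XT.lf (nat_lit 0) (nat_lit 5558548662357) (nat_lit 152) (nat_lit 2646748685103) (nat_lit 0) (nat_lit 1348324947950) (nat_lit 38) (nat_lit 5) (nat_lit 40) (nat_lit 4) (nat_lit 38) (nat_lit 4) (nat_lit 405) (nat_lit 381) (nat_lit 234)) (XT.nd (nat_lit 78) (nat_lit 76) (nat_lit 0) (XT.lf (nat_lit 0) (nat_lit 1233567462491) (nat_lit 152) (nat_lit 1644403393080) (nat_lit 76) (nat_lit 7622814194287) (nat_lit 36) (nat_lit 5) (nat_lit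 38) (nat_lit 5) (nat_lit 37) (nat_lit 4) (nat_lit 406) (nat_lit 381) (nat_lit 233)) (XT.lf (nat_lit 0) (nat_lit 7452782675552) (nat_lit 152) (nat_lit 539084235389) (nat_lit 0) (nat_lit 3554427383299) (nat_lit 35) (nat_lit 5) (nat_lit 37) (nat_lit 4) (nat_lit 35) (nat_lit 4) (nat_lit 407) (nat_lit 381) (nat_lit 232))))))))
noncomputable def xc110 : XT := (XT.nd (nat_lit 51402) (nat_lit 0) (nat_lit 2052) (XT.nd (nat_lit 780) (nat_lit 608) (nat_lit 0) (XT.nd (nat_lit 390) (nat_lit 532) (nat_lit 0) (XT.nd (nat_lit 156) (nat_lit 380) (nat_lit 0) (XT.nd (nat_lit 78) (nat_lit 76) (nat_lit 0) (XT.lf (nat_lit 0) (nat_lit 776194748713) (nat_lit 76) (nat_lit 1471185078895) (nat_lit 152) (nat_lit 10458959729632) (nat_lit 32) (nat_lit 5) (nat_lit 33) (nat_lit 5) (nat_lit 34) (nat_lit 4) (nat_lit 408) (nat_lit 381) (nat_lit 231)) (XT.lf (nat_lit 0) (nat_lit 2163705074889) (nat_lit 76) (nat_lit 7715593384046)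 (nat_lit 76) (nat_lit 4106005149683) (nat_lit 31) (nat_lit 4) (nat_lit 32) (nat_lit 5) (nat_lit 32) (nat_lit 4) (nat_lit 409) (nat_lit 381) (nat_lit 230))) (XT.nd (nat_lit 78) (nat_lit 228) (nat_lit 0) (XT.lf (nat_lit 0) (nat_lit 3531248349202) (nat_lit 152) (nat_lit 11690356112536) (nat_lit 0) (nat_lit 189037020790) (nat_lit 29) (nat_lit 5) (nat_lit 31) (nat_lit 4) (nat_lit 29) (nat_lit 4) (nat_lit 410) (nat_lit 381) (nat_lit 229)) (XT.nd (nat_lit 78) (nat_lit 152) (nat_lit 0) (XT.lf (nat_lit 0) (nat_lit 5211910903674) (nat_lit 76) (nat_lit 7557823613143) (nat_lit 76) (nat_lit 4215612284472) (nat_lit 28) (nat_lit 4) (nat_lit 29) (nat_lit 5) (nat_lit 29) (nat_lit 4) (nat_lit 411) (nat_lit 381) (nat_lit 228)) (XT.lf (nat_lit 0) (nat_lit 4927094301482) (nat_lit 152) (nat_lit 11983114904330) (nat_lit 0) (nat_lit 1832454182133) (nat_lit 26) (nat_lit 5) (nat_lit 28) (nat_lit 4) (nat_lit 26) (nat_lit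 4) (nat_lit 412) (nat_lit 381) (nat_lit 227))))) (XT.nd (nat_lit 156) (nat_lit 304) (nat_lit 0) (XT.nd (nat_lit 78) (nat_lit 152) (nat_lit 0) (XT.lf (nat_lit 0) (nat_lit 8121006612069) (nat_lit 76) (nat_lit 7833701141381) (nat_lit 76) (nat_lit 4739061021851) (nat_lit 25) (nat_lit 4) (nat_lit 26) (nat_lit 5) (nat_lit 26) (nat_lit 4) (nat_lit 413) (nat_lit 381) (nat_lit 226)) (XT.lf (nat_lit 0) (nat_lit 6078712973850) (nat_lit 152) (nat_lit 13581366966526) (nat_lit 0) (nat_lit 3213305455621) (nat_lit 23) (nat_lit 5) (nat_lit 25) (nat_lit 4) (nat_lit 23) (nat_lit 4) (nat_lit 414) (nat_lit 381) (nat_lit 225))) (XT.nd (nat_lit 78) (nat_lit 228) (nat_lit 0) (XT.lf (nat_lit 0) (nat_lit 9989709910284) (nat_lit 76) (nat_lit 9089279686202) (nat_lit 76) (nat_lit 6223872167846) (nat_lit 22) (nat_lit 4) (nat_lit 23) (nat_lit 5) (nat_lit 23) (nat_lit 4) (nat_lit 415) (nat_lit 381) (nat_lit 224)) (XT.nd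 (nat_lit 78) (nat_lit 76) (nat_lit 0) (XT.lf (nat_lit 0) (nat_lit 6381432364165) (nat_lit 152) (nat_lit 17915983389373) (nat_lit 0) (nat_lit 3728277254474) (nat_lit 20) (nat_lit 5) (nat_lit 22) (nat_lit 4) (nat_lit 20) (nat_lit 4) (nat_lit 416) (nat_lit 381) (nat_lit 223)) (XT.lf (nat_lit 0) (nat_lit 9175949756556) (nat_lit 76) (nat_lit 12273012683062) (nat_lit 76) (nat_lit 9619857573281) (nat_lit 19) (nat_lit 4) (nat_lit 20) (nat_lit 5) (nat_lit 20) (nat_lit 4) (nat_lit 417) (nat_lit 381) (nat_lit 222)))))) (XT.nd (nat_lit 390) (nat_lit 152) (nat_lit 0) (XT.nd (nat_lit 156) (nat_lit 228) (nat_lit 0) (XT.nd (nat_lit 78) (nat_lit 76) (nat_lit 0) (XT.lf (nat_lit 0) (nat_lit 4762753414381) (nat_lit 152) (nat_lit 27430233028167) (nat_lit 0) (nat_lit 2306128312661) (nat_lit 17) (nat_lit 5) (nat_lit 19) (nat_lit 4) (nat_lit 17) (nat_lit 4) (nat_lit 418) (nat_lit 381) (nat_lit 221)) (XT.lf (nat_lit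 0) (nat_lit 2827062430846) (nat_lit 76) (nat_lit 18983660731464) (nat_lit 76) (nat_lit 16527035629682) (nat_lit 16) (nat_lit 4) (nat_lit 17) (nat_lit 5) (nat_lit 17) (nat_lit 4) (nat_lit 419) (nat_lit 381) (nat_lit 220))) (XT.nd (nat_lit 78) (nat_lit 228) (nat_lit 0) (XT.lf (nat_lit 0) (nat_lit 39284043786837) (nat_lit 76) (nat_lit 2930446305835) (nat_lit 76) (nat_lit 473821203999) (nat_lit 16) (nat_lit 4) (nat_lit 17) (nat_lit 5) (nat_lit 17) (nat_lit 4) (nat_lit 420) (nat_lit 381) (nat_lit 219)) (XT.nd (nat_lit 78) (nat_lit 76) (nat_lit 0) (XT.lf (nat_lit 0) (nat_lit 18331689603219) (nat_lit 152) (nat_lit 13168583351179) (nat_lit 0) (nat_lit 16057036731104) (nat_lit 14) (nat_lit 5) (nat_lit 16) (nat_lit 4) (nat_lit 14) (nat_lit 4) (nat_lit 421) (nat_lit 381) (nat_lit 218)) (XT.lf (nat_lit 0) (nat_lit 26117886981362) (nat_lit 76) (nat_lit 14623752847933) (nat_lit 76) (nat_lit 12349099975780)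 (nat_lit 13) (nat_lit 4) (nat_lit 14) (nat_lit 5) (nat_lit 14) (nat_lit 4) (nat_lit 422) (nat_lit 381) (nat_lit 217))))) (XT.nd (nat_lit 49998) (nat_lit 0) (nat_lit 5700) (XT.nd (nat_lit 78) (nat_lit 0) (nat_lit 0) (XT.lf (nat_lit 0) (nat_lit 7553273879237) (nat_lit 152) (nat_lit 46372416184809) (nat_lit 0) (nat_lit 5447113812398) (nat_lit 11) (nat_lit 5) (nat_lit 13) (nat_lit 4) (nat_lit 11) (nat_lit 4) (nat_lit 423) (nat_lit 381) (nat_lit 216)) (XT.nd (nat_lit 49842) (nat_lit 0) (nat_lit 6232) (XT.lf (nat_lit 0) (nat_lit 30940728483376) (nat_lit 152) (nat_lit 6697745855498) (nat_lit 0) (nat_lit 28834568416511) (nat_lit 11) (nat_lit 5) (nat_lit 13) (nat_lit 4) (nat_lit 11) (nat_lit 4) (nat_lit 424) (nat_lit 381) (nat_lit 215)) (XT.lf (nat_lit 0) (nat_lit 709612603036) (nat_lit 532) (nat_lit 4733627891) (nat_lit 532) (nat_lit 4733627891) (nat_lit 93) (nat_lit 3) (nat_lit 100) (nat_lit 3) (nat_lit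 100) (nat_lit 5) (nat_lit 382) (nat_lit 382) (nat_lit 256)))) (XT.nd (nat_lit 78) (nat_lit 0) (nat_lit 76) (XT.lf (nat_lit 0) (nat_lit 15297880769) (nat_lit 532) (nat_lit 140076086684) (nat_lit 608) (nat_lit 1387916150396) (nat_lit 86) (nat_lit 5) (nat_lit 93) (nat_lit 3) (nat_lit 94) (nat_lit 5) (nat_lit 383) (nat_lit 382) (nat_lit 255)) (XT.nd (nat_lit 78) (nat_lit 0) (nat_lit 76) (XT.lf (nat_lit 0) (nat_lit 120779743754) (nat_lit 532) (nat_lit 258280952735) (nat_lit 608) (nat_lit 1279711177471) (nat_lit 87) (nat_lit 5) (nat_lit 94) (nat_lit 5) (nat_lit 95) (nat_lit 5) (nat_lit 384) (nat_lit 382) (nat_lit 254)) (XT.lf (nat_lit 0) (nat_lit 313821073530) (nat_lit 532) (nat_lit 358382683244) (nat_lit 608) (nat_lit 1113633161727) (nat_lit 88) (nat_lit 5) (nat_lit 95) (nat_lit 5) (nat_lit 96) (nat_lit 5) (nat_lit 385) (nat_lit 382) (nat_lit 253))))))) (XT.nd (nat_lit 780) (nat_lit 1520) (nat_lit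 0) (XT.nd (nat_lit 390) (nat_lit 1064) (nat_lit 0) (XT.nd (nat_lit 156) (nat_lit 760) (nat_lit 0) (XT.nd (nat_lit 78) (nat_lit 532) (nat_lit 0) (XT.lf (nat_lit 0) (nat_lit 612710407939) (nat_lit 532) (nat_lit 434375724345) (nat_lit 76) (nat_lit 878724243026) (nat_lit 89) (nat_lit 5) (nat_lit 96) (nat_lit 5) (nat_lit 90) (nat_lit 5) (nat_lit 386) (nat_lit 382) (nat_lit 252)) (XT.lf (nat_lit 0) (nat_lit 1038840654092) (nat_lit 608) (nat_lit 479078159639) (nat_lit 76) (nat_lit 562268435983) (nat_lit 82) (nat_lit 5) (nat_lit 90) (nat_lit 5) (nat_lit 83) (nat_lit 5) (nat_lit 387) (nat_lit 382) (nat_lit 251))) (XT.nd (nat_lit 78) (nat_lit 532) (nat_lit 0) (XT.lf (nat_lit 0) (nat_lit 1617198373021) (nat_lit 304) (nat_lit 483937383462) (nat_lit 76) (nat_lit 149520263930) (nat_lit 79) (nat_lit 5) (nat_lit 83) (nat_lit 5) (nat_lit 80) (nat_lit 5) (nat_lit 388) (nat_lit 382) (nat_lit 250)) (XT.nd (nat_lit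 78) (nat_lit 304) (nat_lit 0) (XT.lf (nat_lit 0) (nat_lit 1990021981487) (nat_lit 228) (nat_lit 396439847834) (nat_lit 304) (nat_lit 51901111033) (nat_lit 76) (nat_lit 5) (nat_lit 79) (nat_lit 5) (nat_lit 80) (nat_lit 5) (nat_lit 389) (nat_lit 382) (nat_lit 249)) (XT.lf (nat_lit 0) (nat_lit 695900037554) (nat_lit 304) (nat_lit 375531196831) (nat_lit 76) (nat_lit 1572818135399) (nat_lit 72) (nat_lit 5) (nat_lit 76) (nat_lit 5) (nat_lit 73) (nat_lit 5) (nat_lit 390) (nat_lit 382) (nat_lit 248))))) (XT.nd (nat_lit 156) (nat_lit 684) (nat_lit 0) (XT.nd (nat_lit 78) (nat_lit 152) (nat_lit 0) (XT.lf (nat_lit 0) (nat_lit 1665758873028) (nat_lit 304) (nat_lit 237477533612) (nat_lit 76) (nat_lit 968637659361) (nat_lit 69) (nat_lit 5) (nat_lit 73) (nat_lit 5) (nat_lit 70) (nat_lit 5) (nat_lit 391) (nat_lit 382) (nat_lit 247)) (XT.lf (nat_lit 0) (nat_lit 2901943509605) (nat_lit 228) (nat_lit 18032042445)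 (nat_lit 76) (nat_lit 203999156538) (nat_lit 67) (nat_lit 5) (nat_lit 70) (nat_lit 5) (nat_lit 68) (nat_lit 5) (nat_lit 392) (nat_lit 382) (nat_lit 246))) (XT.nd (nat_lit 78) (nat_lit 304) (nat_lit 0) (XT.lf (nat_lit 0) (nat_lit 269062174524) (nat_lit 152) (nat_lit 753738549266) (nat_lit 228) (nat_lit 2376648287656) (nat_lit 62) (nat_lit 5) (nat_lit 64) (nat_lit 5) (nat_lit 65) (nat_lit 5) (nat_lit 393) (nat_lit 382) (nat_lit 245)) (XT.nd (nat_lit 78) (nat_lit 152) (nat_lit 0) (XT.lf (nat_lit 0) (nat_lit 656904246996) (nat_lit 152) (nat_lit 1936698000865) (nat_lit 228) (nat_lit 1109989525337) (nat_lit 60) (nat_lit 5) (nat_lit 62) (nat_lit 5) (nat_lit 63) (nat_lit 5) (nat_lit 394) (nat_lit 382) (nat_lit 244)) (XT.lf (nat_lit 0) (nat_lit 489246470032) (nat_lit 152) (nat_lit 2874930568205) (nat_lit 76) (nat_lit 675718308287) (nat_lit 58) (nat_lit 5) (nat_lit 60) (nat_lit 5) (nat_lit 59) (nat_lit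 5) (nat_lit 395) (nat_lit 382) (nat_lit 243)))))) (XT.nd (nat_lit 390) (nat_lit 760) (nat_lit 0) (XT.nd (nat_lit 156) (nat_lit 456) (nat_lit 0) (XT.nd (nat_lit 78) (nat_lit 152) (nat_lit 0) (XT.lf (nat_lit 0) (nat_lit 1775568027237) (nat_lit 152) (nat_lit 676216421514) (nat_lit 228) (nat_lit 1957422307314) (nat_lit 56) (nat_lit 5) (nat_lit 58) (nat_lit 5) (nat_lit 59) (nat_lit 5) (nat_lit 396) (nat_lit 382) (nat_lit 242)) (XT.lf (nat_lit 0) (nat_lit 91349097007) (nat_lit 152) (nat_lit 2282643031365) (nat_lit 76) (nat_lit 2443339876255) (nat_lit 54) (nat_lit 5) (nat_lit 56) (nat_lit 5) (nat_lit 55) (nat_lit 5) (nat_lit 397) (nat_lit 382) (nat_lit 241))) (XT.nd (nat_lit 78) (nat_lit 304) (nat_lit 0) (XT.lf (nat_lit 0) (nat_lit 2537903243869) (nat_lit 228) (nat_lit 1835291144316) (nat_lit 76) (nat_lit 892904819197) (nat_lit 52) (nat_lit 5) (nat_lit 55) (nat_lit 5) (nat_lit 53) (nat_lit 4) (nat_lit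 398) (nat_lit 382) (nat_lit 240)) (XT.nd (nat_lit 78) (nat_lit 228) (nat_lit 0) (XT.lf (nat_lit 0) (nat_lit 4521437504877) (nat_lit 76) (nat_lit 1072585282946) (nat_lit 152) (nat_lit 168752120725) (nat_lit 51) (nat_lit 5) (nat_lit 52) (nat_lit 5) (nat_lit 53) (nat_lit 4) (nat_lit 399) (nat_lit 382) (nat_lit 239)) (XT.lf (nat_lit 0) (nat_lit 2903306165782) (nat_lit 228) (nat_lit 548280486040) (nat_lit 76) (nat_lit 2855627360432) (nat_lit 48) (nat_lit 5) (nat_lit 51) (nat_lit 5) (nat_lit 49) (nat_lit 4) (nat_lit 400) (nat_lit 382) (nat_lit 238))))) (XT.nd (nat_lit 234) (nat_lit 304) (nat_lit 0) (XT.nd (nat_lit 78) (nat_lit 304) (nat_lit 0) (XT.lf (nat_lit 0) (nat_lit 373345047355) (nat_lit 76) (nat_lit 6318783608303) (nat_lit 76) (nat_lit 219563874573) (nat_lit 46) (nat_lit 4) (nat_lit 47) (nat_lit 5) (nat_lit 47) (nat_lit 4) (nat_lit 401) (nat_lit 382) (nat_lit 237)) (XT.nd (nat_lit 78) (nat_lit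 152) (nat_lit 0) (XT.lf (nat_lit 0) (nat_lit 1435968481771) (nat_lit 76) (nat_lit 2186718160901) (nat_lit 152) (nat_lit 3949336192050) (nat_lit 44) (nat_lit 5) (nat_lit 45) (nat_lit 5) (nat_lit 46) (nat_lit 4) (nat_lit 402) (nat_lit 382) (nat_lit 236)) (XT.lf (nat_lit 0) (nat_lit 44399207347) (nat_lit 152) (nat_lit 5555075330274) (nat_lit 76) (nat_lit 2705499800552) (nat_lit 42) (nat_lit 5) (nat_lit 44) (nat_lit 5) (nat_lit 43) (nat_lit 4) (nat_lit 403) (nat_lit 382) (nat_lit 235)))) (XT.nd (nat_lit 78) (nat_lit 228) (nat_lit 0) (XT.lf (nat_lit 0) (nat_lit 4244740058352) (nat_lit 76) (nat_lit 511108855488) (nat_lit 152) (nat_lit 4355613338735) (nat_lit 41) (nat_lit 5) (nat_lit 42) (nat_lit 5) (nat_lit 43) (nat_lit 4) (nat_lit 404) (nat_lit 382) (nat_lit 234)) (XT.nd (nat_lit 78) (nat_lit 76) (nat_lit 0) (XT.lf (nat_lit 0) (nat_lit 578203047792) (nat_lit 152) (nat_lit 4026435515408) (nat_lit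 76) (nat_lit 5398035415425) (nat_lit 39) (nat_lit 5) (nat_lit 41) (nat_lit 5) (nat_lit 40) (nat_lit 4) (nat_lit 405) (nat_lit 382) (nat_lit 233)) (XT.lf (nat_lit 0) (nat_lit 6392330979996) (nat_lit 152) (nat_lit 3043760951815) (nat_lit 0) (nat_lit 1550573706447) (nat_lit 38) (nat_lit 5) (nat_lit 40) (nat_lit 4) (nat_lit 38) (nat_lit 4) (nat_lit 406) (nat_lit 382) (nat_lit 232))))))))
noncomputable def xc111 : XT := (XT.nd (nat_lit 51480) (nat_lit 0) (nat_lit 2128) (XT.nd (nat_lit 780) (nat_lit 836) (nat_lit 0) (XT.nd (nat_lit 390) (nat_lit 532) (nat_lit 0) (XT.nd (nat_lit 156) (nat_lit 456) (nat_lit 0) (XT.nd (nat_lit 78) (nat_lit 76) (nat_lit 0) (XT.lf (nat_lit 0) (nat_lit 1418602598994) (nat_lit 152) (nat_lit 1891063868138) (nat_lit 76) (nat_lit 8766236338836) (nat_lit 36) (nat_lit 5) (nat_lit 38) (nat_lit 5) (nat_lit 37) (nat_lit 4) (nat_lit 407) (nat_lit 382) (nat_lit 231)) (XT.lf (nat_lit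 0) (nat_lit 8570700092896) (nat_lit 152) (nat_lit 619946838781) (nat_lit 0) (nat_lit 4087591505417) (nat_lit 35) (nat_lit 5) (nat_lit 37) (nat_lit 4) (nat_lit 35) (nat_lit 4) (nat_lit 408) (nat_lit 382) (nat_lit 230))) (XT.nd (nat_lit 78) (nat_lit 228) (nat_lit 0) (XT.lf (nat_lit 0) (nat_lit 892623992604) (nat_lit 76) (nat_lit 1691862824910) (nat_lit 152) (nat_lit 12027803672050) (nat_lit 32) (nat_lit 5) (nat_lit 33) (nat_lit 5) (nat_lit 34) (nat_lit 4) (nat_lit 409) (nat_lit 382) (nat_lit 229)) (XT.nd (nat_lit 78) (nat_lit 152) (nat_lit 0) (XT.lf (nat_lit 0) (nat_lit 2488260865840) (nat_lit 76) (nat_lit 8872932376690) (nat_lit 76) (nat_lit 4721905906200) (nat_lit 31) (nat_lit 4) (nat_lit 32) (nat_lit 5) (nat_lit 32) (nat_lit 4) (nat_lit 410) (nat_lit 382) (nat_lit 228)) (XT.lf (nat_lit 0) (nat_lit 4060935615756) (nat_lit 152) (nat_lit 13443909500717) (nat_lit 0) (nat_lit 217392587300) (nat_lit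 29) (nat_lit 5) (nat_lit 31) (nat_lit 4) (nat_lit 29) (nat_lit 4) (nat_lit 411) (nat_lit 382) (nat_lit 227))))) (XT.nd (nat_lit 156) (nat_lit 304) (nat_lit 0) (XT.nd (nat_lit 78) (nat_lit 152) (nat_lit 0) (XT.lf (nat_lit 0) (nat_lit 5993697565496) (nat_lit 76) (nat_lit 8691497141801) (nat_lit 76) (nat_lit 4847954113149) (nat_lit 28) (nat_lit 4) (nat_lit 29) (nat_lit 5) (nat_lit 29) (nat_lit 4) (nat_lit 412) (nat_lit 382) (nat_lit 226)) (XT.lf (nat_lit 0) (nat_lit 5666158459159) (nat_lit 152) (nat_lit 13780582114621) (nat_lit 0) (nat_lit 2107322321361) (nat_lit 26) (nat_lit 5) (nat_lit 28) (nat_lit 4) (nat_lit 26) (nat_lit 4) (nat_lit 413) (nat_lit 382) (nat_lit 225))) (XT.nd (nat_lit 78) (nat_lit 228) (nat_lit 0) (XT.lf (nat_lit 0) (nat_lit 9339157627091) (nat_lit 76) (nat_lit 9008756300765) (nat_lit 76) (nat_lit 5449920162829) (nat_lit 25) (nat_lit 4) (nat_lit 26) (nat_lit 5) (nat_lit 26)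 (nat_lit 4) (nat_lit 414) (nat_lit 382) (nat_lit 224)) (XT.nd (nat_lit 78) (nat_lit 76) (nat_lit 0) (XT.lf (nat_lit 0) (nat_lit 6990519930880) (nat_lit 152) (nat_lit 15618571989107) (nat_lit 0) (nat_lit 3695301284533) (nat_lit 23) (nat_lit 5) (nat_lit 25) (nat_lit 4) (nat_lit 23) (nat_lit 4) (nat_lit 415) (nat_lit 382) (nat_lit 223)) (XT.lf (nat_lit 0) (nat_lit 11488166417328) (nat_lit 76) (nat_lit 10452671628647) (nat_lit 76) (nat_lit 7157452982204) (nat_lit 22) (nat_lit 4) (nat_lit 23) (nat_lit 5) (nat_lit 23) (nat_lit 4) (nat_lit 416) (nat_lit 382) (nat_lit 222)))))) (XT.nd (nat_lit 390) (nat_lit 380) (nat_lit 0) (XT.nd (nat_lit 156) (nat_lit 228) (nat_lit 0) (XT.nd (nat_lit 78) (nat_lit 76) (nat_lit 0) (XT.lf (nat_lit 0) (nat_lit 7338647228427) (nat_lit 152) (nat_lit 20603380878003) (nat_lit 0) (nat_lit 4287518852013) (nat_lit 20) (nat_lit 5) (nat_lit 22) (nat_lit 4) (nat_lit 20) (nat_lit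 4) (nat_lit 417) (nat_lit 382) (nat_lit 221)) (XT.lf (nat_lit 0) (nat_lit 10552342238142) (nat_lit 76) (nat_lit 14113964576234) (nat_lit 76) (nat_lit 11062836199753) (nat_lit 19) (nat_lit 4) (nat_lit 20) (nat_lit 5) (nat_lit 20) (nat_lit 4) (nat_lit 418) (nat_lit 382) (nat_lit 220))) (XT.nd (nat_lit 78) (nat_lit 76) (nat_lit 0) (XT.lf (nat_lit 0) (nat_lit 5477166435023) (nat_lit 152) (nat_lit 31544767964934) (nat_lit 0) (nat_lit 2652047567857) (nat_lit 17) (nat_lit 5) (nat_lit 19) (nat_lit 4) (nat_lit 17) (nat_lit 4) (nat_lit 419) (nat_lit 382) (nat_lit 219)) (XT.nd (nat_lit 78) (nat_lit 0) (nat_lit 0) (XT.lf (nat_lit 0) (nat_lit 3251121811453) (nat_lit 76) (nat_lit 21831209832965) (nat_lit 76) (nat_lit 19006090965752) (nat_lit 16) (nat_lit 4) (nat_lit 17) (nat_lit 5) (nat_lit 17) (nat_lit 4) (nat_lit 420) (nat_lit 382) (nat_lit 218)) (XT.lf (nat_lit 0) (nat_lit 45176650368760) (nat_lit 76)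 (nat_lit 3370013244563) (nat_lit 76) (nat_lit 544894377310) (nat_lit 16) (nat_lit 4) (nat_lit 17) (nat_lit 5) (nat_lit 17) (nat_lit 4) (nat_lit 421) (nat_lit 382) (nat_lit 217))))) (XT.nd (nat_lit 50076) (nat_lit 0) (nat_lit 5700) (XT.nd (nat_lit 78) (nat_lit 228) (nat_lit 0) (XT.lf (nat_lit 0) (nat_lit 21081443050199) (nat_lit 152) (nat_lit 15143870840456) (nat_lit 0) (nat_lit 18465592247153) (nat_lit 14) (nat_lit 5) (nat_lit 16) (nat_lit 4) (nat_lit 14) (nat_lit 4) (nat_lit 422) (nat_lit 382) (nat_lit 216)) (XT.nd (nat_lit 78) (nat_lit 152) (nat_lit 0) (XT.lf (nat_lit 0) (nat_lit 30035570040831) (nat_lit 76) (nat_lit 16817315768802) (nat_lit 76) (nat_lit 14201464965728) (nat_lit 13) (nat_lit 4) (nat_lit 14) (nat_lit 5) (nat_lit 14) (nat_lit 4) (nat_lit 423) (nat_lit 382) (nat_lit 215)) (XT.lf (nat_lit 0) (nat_lit 8686264966845) (nat_lit 152) (nat_lit 53328278600706) (nat_lit 0) (nat_lit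 6264180889902) (nat_lit 11) (nat_lit 5) (nat_lit 13) (nat_lit 4) (nat_lit 11) (nat_lit 4) (nat_lit 424) (nat_lit 382) (nat_lit 214)))) (XT.nd (nat_lit 78) (nat_lit 532) (nat_lit 0) (XT.lf (nat_lit 0) (nat_lit 816054545067) (nat_lit 532) (nat_lit 5443644220) (nat_lit 532) (nat_lit 5443644220) (nat_lit 93) (nat_lit 3) (nat_lit 100) (nat_lit 3) (nat_lit 100) (nat_lit 5) (nat_lit 383) (nat_lit 383) (nat_lit 254)) (XT.nd (nat_lit 78) (nat_lit 0) (nat_lit 76) (XT.lf (nat_lit 0) (nat_lit 17592656181) (nat_lit 532) (nat_lit 161087443769) (nat_lit 608) (nat_lit 1596103528101) (nat_lit 86) (nat_lit 5) (nat_lit 93) (nat_lit 3) (nat_lit 94) (nat_lit 5) (nat_lit 384) (nat_lit 383) (nat_lit 253)) (XT.lf (nat_lit 0) (nat_lit 138896786926) (nat_lit 532) (nat_lit 297023037113) (nat_lit 608) (nat_lit 1471667824476) (nat_lit 87) (nat_lit 5) (nat_lit 94) (nat_lit 5) (nat_lit 95) (nat_lit 5) (nat_lit 385) (nat_lit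 383) (nat_lit 252))))))) (XT.nd (nat_lit 780) (nat_lit 1596) (nat_lit 0) (XT.nd (nat_lit 390) (nat_lit 1216) (nat_lit 0) (XT.nd (nat_lit 156) (nat_lit 912) (nat_lit 0) (XT.nd (nat_lit 78) (nat_lit 0) (nat_lit 76) (XT.lf (nat_lit 0) (nat_lit 360894306363) (nat_lit 532) (nat_lit 412140025915) (nat_lit 608) (nat_lit 1280678118245) (nat_lit 88) (nat_lit 5) (nat_lit 95) (nat_lit 5) (nat_lit 96) (nat_lit 5) (nat_lit 386) (nat_lit 383) (nat_lit 251)) (XT.lf (nat_lit 0) (nat_lit 704617032668) (nat_lit 532) (nat_lit 499532022920) (nat_lit 76) (nat_lit 1010532870928) (nat_lit 89) (nat_lit 5) (nat_lit 96) (nat_lit 5) (nat_lit 90) (nat_lit 5) (nat_lit 387) (nat_lit 383) (nat_lit 250))) (XT.nd (nat_lit 78) (nat_lit 456) (nat_lit 0) (XT.lf (nat_lit 0) (nat_lit 1194666808742) (nat_lit 608) (nat_lit 550939824023) (nat_lit 76) (nat_lit 646608699878) (nat_lit 82) (nat_lit 5) (nat_lit 90) (nat_lit 5) (nat_lit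 83) (nat_lit 5) (nat_lit 388) (nat_lit 383) (nat_lit 249)) (XT.nd (nat_lit 78) (nat_lit 228) (nat_lit 0) (XT.lf (nat_lit 0) (nat_lit 1859778179543) (nat_lit 304) (nat_lit 556527932516) (nat_lit 76) (nat_lit 171948307365) (nat_lit 79) (nat_lit 5) (nat_lit 83) (nat_lit 5) (nat_lit 80) (nat_lit 5) (nat_lit 389) (nat_lit 383) (nat_lit 248)) (XT.lf (nat_lit 0) (nat_lit 2288525332227) (nat_lit 228) (nat_lit 455905816752) (nat_lit 304) (nat_lit 59686228802) (nat_lit 76) (nat_lit 5) (nat_lit 79) (nat_lit 5) (nat_lit 80) (nat_lit 5) (nat_lit 390) (nat_lit 383) (nat_lit 247))))) (XT.nd (nat_lit 156) (nat_lit 684) (nat_lit 0) (XT.nd (nat_lit 78) (nat_lit 228) (nat_lit 0) (XT.lf (nat_lit 0) (nat_lit 800285085033) (nat_lit 304) (nat_lit 431860822024) (nat_lit 76) (nat_lit 1808740864843) (nat_lit 72) (nat_lit 5) (nat_lit 76) (nat_lit 5) (nat_lit 73) (nat_lit 5) (nat_lit 391) (nat_lit 383) (nat_lit 246))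 (XT.lf (nat_lit 0) (nat_lit 1915622741859) (nat_lit 304) (nat_lit 273099111203) (nat_lit 76) (nat_lit 1113933319806) (nat_lit 69) (nat_lit 5) (nat_lit 73) (nat_lit 5) (nat_lit 70) (nat_lit 5) (nat_lit 392) (nat_lit 383) (nat_lit 245))) (XT.nd (nat_lit 78) (nat_lit 532) (nat_lit 0) (XT.lf (nat_lit 0) (nat_lit 3337235070472) (nat_lit 228) (nat_lit 20736798405) (nat_lit 76) (nat_lit 234599043243) (nat_lit 67) (nat_lit 5) (nat_lit 70) (nat_lit 5) (nat_lit 68) (nat_lit 5) (nat_lit 393) (nat_lit 383) (nat_lit 244)) (XT.nd (nat_lit 78) (nat_lit 152) (nat_lit 0) (XT.lf (nat_lit 0) (nat_lit 309421551041) (nat_lit 152) (nat_lit 866799314383) (nat_lit 228) (nat_lit 2733145495092) (nat_lit 62) (nat_lit 5) (nat_lit 64) (nat_lit 5) (nat_lit 65) (nat_lit 5) (nat_lit 394) (nat_lit 383) (nat_lit 243)) (XT.lf (nat_lit 0) (nat_lit 755439932166) (nat_lit 152) (nat_lit 2227202683146) (nat_lit 228) (nat_lit 1276487921444)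 (nat_lit 60) (nat_lit 5) (nat_lit 62) (nat_lit 5) (nat_lit 63) (nat_lit 5) (nat_lit 395) (nat_lit 383) (nat_lit 242)))))) (XT.nd (nat_lit 390) (nat_lit 912) (nat_lit 0) (XT.nd (nat_lit 156) (nat_lit 380) (nat_lit 0) (XT.nd (nat_lit 78) (nat_lit 152) (nat_lit 0) (XT.lf (nat_lit 0) (nat_lit 562633469059) (nat_lit 152) (nat_lit 3306170106060) (nat_lit 76) (nat_lit 777076071101) (nat_lit 58) (nat_lit 5) (nat_lit 60) (nat_lit 5) (nat_lit 59) (nat_lit 5) (nat_lit 396) (nat_lit 383) (nat_lit 241)) (XT.lf (nat_lit 0) (nat_lit 2041903274688) (nat_lit 152) (nat_lit 777648867220) (nat_lit 228) (nat_lit 2251035625498) (nat_lit 56) (nat_lit 5) (nat_lit 58) (nat_lit 5) (nat_lit 59) (nat_lit 5) (nat_lit 397) (nat_lit 383) (nat_lit 240))) (XT.nd (nat_lit 78) (nat_lit 228) (nat_lit 0) (XT.lf (nat_lit 0) (nat_lit 105051486009) (nat_lit 152) (nat_lit 2625039443578) (nat_lit 76) (nat_lit 2809840873776) (nat_lit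 54) (nat_lit 5) (nat_lit 56) (nat_lit 5) (nat_lit 55) (nat_lit 5) (nat_lit 398) (nat_lit 383) (nat_lit 239)) (XT.nd (nat_lit 78) (nat_lit 76) (nat_lit 0) (XT.lf (nat_lit 0) (nat_lit 2918588753049) (nat_lit 228) (nat_lit 2110584775694) (nat_lit 76) (nat_lit 1026840557939) (nat_lit 52) (nat_lit 5) (nat_lit 55) (nat_lit 5) (nat_lit 53) (nat_lit 4) (nat_lit 399) (nat_lit 383) (nat_lit 238)) (XT.lf (nat_lit 0) (nat_lit 5199653167471) (nat_lit 76) (nat_lit 1233473059064) (nat_lit 152) (nat_lit 194064916652) (nat_lit 51) (nat_lit 5) (nat_lit 52) (nat_lit 5) (nat_lit 53) (nat_lit 4) (nat_lit 400) (nat_lit 383) (nat_lit 237))))) (XT.nd (nat_lit 234) (nat_lit 380) (nat_lit 0) (XT.nd (nat_lit 78) (nat_lit 304) (nat_lit 0) (XT.lf (nat_lit 0) (nat_lit 3338802110184) (nat_lit 228) (nat_lit 630522523029) (nat_lit 76) (nat_lit 3283971479315) (nat_lit 48) (nat_lit 5) (nat_lit 51) (nat_lit 5) (nat_lit 49) (nat_lit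 4) (nat_lit 401) (nat_lit 383) (nat_lit 236)) (XT.nd (nat_lit 78) (nat_lit 152) (nat_lit 0) (XT.lf (nat_lit 0) (nat_lit 429346840181) (nat_lit 76) (nat_lit 7266601132825) (nat_lit 76) (nat_lit 252498435238) (nat_lit 46) (nat_lit 4) (nat_lit 47) (nat_lit 5) (nat_lit 47) (nat_lit 4) (nat_lit 402) (nat_lit 383) (nat_lit 235)) (XT.lf (nat_lit 0) (nat_lit 1651363787675) (nat_lit 76) (nat_lit 2514725869157) (nat_lit 152) (nat_lit 4541736601676) (nat_lit 44) (nat_lit 5) (nat_lit 45) (nat_lit 5) (nat_lit 46) (nat_lit 4) (nat_lit 403) (nat_lit 383) (nat_lit 234)))) (XT.nd (nat_lit 78) (nat_lit 228) (nat_lit 0) (XT.lf (nat_lit 0) (nat_lit 51059105418) (nat_lit 152) (nat_lit 6388336597178) (nat_lit 76) (nat_lit 3111324784945) (nat_lit 42) (nat_lit 5) (nat_lit 44) (nat_lit 5) (nat_lit 43) (nat_lit 4) (nat_lit 404) (nat_lit 383) (nat_lit 233)) (XT.nd (nat_lit 78) (nat_lit 152) (nat_lit 0) (XT.lf (nat_lit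 0) (nat_lit 4881451096980) (nat_lit 76) (nat_lit 587775169411) (nat_lit 152) (nat_lit 5008955322833) (nat_lit 41) (nat_lit 5) (nat_lit 42) (nat_lit 5) (nat_lit 43) (nat_lit 4) (nat_lit 405) (nat_lit 383) (nat_lit 232)) (XT.lf (nat_lit 0) (nat_lit 664933519770) (nat_lit 152) (nat_lit 4630400813777) (nat_lit 76) (nat_lit 6207740740686) (nat_lit 39) (nat_lit 5) (nat_lit 41) (nat_lit 5) (nat_lit 40) (nat_lit 4) (nat_lit 406) (nat_lit 383) (nat_lit 231))))))))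
noncomputable def xc112 : XT := (XT.nd (nat_lit 51636) (nat_lit 0) (nat_lit 1824) (XT.nd (nat_lit 780) (nat_lit 684) (nat_lit 0) (XT.nd (nat_lit 390) (nat_lit 608) (nat_lit 0) (XT.nd (nat_lit 156) (nat_lit 380) (nat_lit 0) (XT.nd (nat_lit 78) (nat_lit 152) (nat_lit 0) (XT.lf (nat_lit 0) (nat_lit 7351180640823) (nat_lit 152) (nat_lit 3500325067325) (nat_lit 0) (nat_lit 1783159774742) (nat_lit 38) (nat_lit 5) (nat_lit 40) (nat_lit 4) (nat_lit 38) (nat_lit 4) (nat_lit 407) (nat_lit 383) (nat_lit 230)) (XT.lf (nat_lit 0) (nat_lit 1631393001795) (nat_lit 152) (nat_lit 2174723422722) (nat_lit 76) (nat_lit 10081171801310) (nat_lit 36) (nat_lit 5) (nat_lit 38) (nat_lit 5) (nat_lit 37) (nat_lit 4) (nat_lit 408) (nat_lit 383) (nat_lit 229))) (XT.nd (nat_lit 78) (nat_lit 304) (nat_lit 0) (XT.lf (nat_lit 0) (nat_lit 9856305118937) (nat_lit 152) (nat_lit 712938840466) (nat_lit 0) (nat_lit 4700730242287)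 (nat_lit 35) (nat_lit 5) (nat_lit 37) (nat_lit 4) (nat_lit 35) (nat_lit 4) (nat_lit 409) (nat_lit 383) (nat_lit 228)) (XT.nd (nat_lit 78) (nat_lit 76) (nat_lit 0) (XT.lf (nat_lit 0) (nat_lit 1026517615377) (nat_lit 76) (nat_lit 1945642236685) (nat_lit 152) (nat_lit 13831974209983) (nat_lit 32) (nat_lit 5) (nat_lit 33) (nat_lit 5) (nat_lit 34) (nat_lit 4) (nat_lit 410) (nat_lit 383) (nat_lit 227)) (XT.lf (nat_lit 0) (nat_lit 2861500018187) (nat_lit 76) (nat_lit 10203872221879) (nat_lit 76) (nat_lit 5430191780082) (nat_lit 31) (nat_lit 4) (nat_lit 32) (nat_lit 5) (nat_lit 32) (nat_lit 4) (nat_lit 411) (nat_lit 383) (nat_lit 226))))) (XT.nd (nat_lit 156) (nat_lit 380) (nat_lit 0) (XT.nd (nat_lit 78) (nat_lit 76) (nat_lit 0) (XT.lf (nat_lit 0) (nat_lit 4670075968837) (nat_lit 152) (nat_lit 15460495904124) (nat_lit 0) (nat_lit 250001485521) (nat_lit 29) (nat_lit 5) (nat_lit 31) (nat_lit 4) (nat_lit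 29) (nat_lit 4) (nat_lit 412) (nat_lit 383) (nat_lit 225)) (XT.lf (nat_lit 0) (nat_lit 6892752220184) (nat_lit 76) (nat_lit 9995221703004) (nat_lit 76) (nat_lit 5575147219540) (nat_lit 28) (nat_lit 4) (nat_lit 29) (nat_lit 5) (nat_lit 29) (nat_lit 4) (nat_lit 413) (nat_lit 383) (nat_lit 224))) (XT.nd (nat_lit 78) (nat_lit 228) (nat_lit 0) (XT.lf (nat_lit 0) (nat_lit 6516082237451) (nat_lit 152) (nat_lit 15847669412639) (nat_lit 0) (nat_lit 2423420678568) (nat_lit 26) (nat_lit 5) (nat_lit 28) (nat_lit 4) (nat_lit 26) (nat_lit 4) (nat_lit 414) (nat_lit 383) (nat_lit 223)) (XT.nd (nat_lit 78) (nat_lit 152) (nat_lit 0) (XT.lf (nat_lit 0) (nat_lit 10740031288707) (nat_lit 76) (nat_lit 10360069736940) (nat_lit 76) (nat_lit 6267408177953) (nat_lit 25) (nat_lit 4) (nat_lit 26) (nat_lit 5) (nat_lit 26) (nat_lit 4) (nat_lit 415) (nat_lit 383) (nat_lit 222)) (XT.lf (nat_lit 0) (nat_lit 8039097928794)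 (nat_lit 152) (nat_lit 17961357770538) (nat_lit 0) (nat_lit 4249596485205) (nat_lit 23) (nat_lit 5) (nat_lit 25) (nat_lit 4) (nat_lit 23) (nat_lit 4) (nat_lit 416) (nat_lit 383) (nat_lit 221)))))) (XT.nd (nat_lit 390) (nat_lit 152) (nat_lit 0) (XT.nd (nat_lit 156) (nat_lit 304) (nat_lit 0) (XT.nd (nat_lit 78) (nat_lit 152) (nat_lit 0) (XT.lf (nat_lit 0) (nat_lit 13211391395430) (nat_lit 76) (nat_lit 12020572365016) (nat_lit 76) (nat_lit 8231070921355) (nat_lit 22) (nat_lit 4) (nat_lit 23) (nat_lit 5) (nat_lit 23) (nat_lit 4) (nat_lit 417) (nat_lit 383) (nat_lit 220)) (XT.lf (nat_lit 0) (nat_lit 8439444319978) (nat_lit 152) (nat_lit 23693887994749) (nat_lit 0) (nat_lit 4930646686900) (nat_lit 20) (nat_lit 5) (nat_lit 22) (nat_lit 4) (nat_lit 20) (nat_lit 4) (nat_lit 418) (nat_lit 383) (nat_lit 219))) (XT.nd (nat_lit 78) (nat_lit 228) (nat_lit 0) (XT.lf (nat_lit 0) (nat_lit 12135193587552) (nat_lit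 76) (nat_lit 16231059255646) (nat_lit 76) (nat_lit 12722261622517) (nat_lit 19) (nat_lit 4) (nat_lit 20) (nat_lit 5) (nat_lit 20) (nat_lit 4) (nat_lit 419) (nat_lit 383) (nat_lit 218)) (XT.nd (nat_lit 78) (nat_lit 76) (nat_lit 0) (XT.lf (nat_lit 0) (nat_lit 6298741406691) (nat_lit 152) (nat_lit 36276483146473) (nat_lit 0) (nat_lit 3049854709308) (nat_lit 17) (nat_lit 5) (nat_lit 19) (nat_lit 4) (nat_lit 17) (nat_lit 4) (nat_lit 420) (nat_lit 383) (nat_lit 217)) (XT.lf (nat_lit 0) (nat_lit 3738790095255) (nat_lit 76) (nat_lit 25105891301695) (nat_lit 76) (nat_lit 21857004604276) (nat_lit 16) (nat_lit 4) (nat_lit 17) (nat_lit 5) (nat_lit 17) (nat_lit 4) (nat_lit 421) (nat_lit 383) (nat_lit 216))))) (XT.nd (nat_lit 50232) (nat_lit 0) (nat_lit 5472) (XT.nd (nat_lit 78) (nat_lit 152) (nat_lit 0) (XT.lf (nat_lit 0) (nat_lit 51953147934582) (nat_lit 76) (nat_lit 3875515225844) (nat_lit 76) (nat_lit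 626628528394) (nat_lit 16) (nat_lit 4) (nat_lit 17) (nat_lit 5) (nat_lit 17) (nat_lit 4) (nat_lit 422) (nat_lit 383) (nat_lit 215)) (XT.nd (nat_lit 50076) (nat_lit 0) (nat_lit 6004) (XT.lf (nat_lit 0) (nat_lit 24243659512641) (nat_lit 152) (nat_lit 17415451456394) (nat_lit 0) (nat_lit 21235431089052) (nat_lit 14) (nat_lit 5) (nat_lit 16) (nat_lit 4) (nat_lit 14) (nat_lit 4) (nat_lit 423) (nat_lit 383) (nat_lit 214)) (XT.lf (nat_lit 0) (nat_lit 938462765827) (nat_lit 532) (nat_lit 6260169791) (nat_lit 532) (nat_lit 6260169791) (nat_lit 93) (nat_lit 3) (nat_lit 100) (nat_lit 3) (nat_lit 100) (nat_lit 5) (nat_lit 384) (nat_lit 384) (nat_lit 252)))) (XT.nd (nat_lit 78) (nat_lit 0) (nat_lit 76) (XT.lf (nat_lit 0) (nat_lit 20231625155) (nat_lit 532) (nat_lit 185250518053) (nat_lit 608) (nat_lit 1835519023400) (nat_lit 86) (nat_lit 5) (nat_lit 93) (nat_lit 3) (nat_lit 94) (nat_lit 5) (nat_lit 385)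 (nat_lit 384) (nat_lit 251)) (XT.nd (nat_lit 78) (nat_lit 0) (nat_lit 76) (XT.lf (nat_lit 0) (nat_lit 159731366673) (nat_lit 532) (nat_lit 341576448421) (nat_lit 608) (nat_lit 1692417975755) (nat_lit 87) (nat_lit 5) (nat_lit 94) (nat_lit 5) (nat_lit 95) (nat_lit 5) (nat_lit 386) (nat_lit 384) (nat_lit 250)) (XT.lf (nat_lit 0) (nat_lit 415028506611) (nat_lit 532) (nat_lit 473960984573) (nat_lit 608) (nat_lit 1472779822567) (nat_lit 88) (nat_lit 5) (nat_lit 95) (nat_lit 5) (nat_lit 96) (nat_lit 5) (nat_lit 387) (nat_lit 384) (nat_lit 249))))))) (XT.nd (nat_lit 780) (nat_lit 1520) (nat_lit 0) (XT.nd (nat_lit 390) (nat_lit 1064) (nat_lit 0) (XT.nd (nat_lit 156) (nat_lit 760) (nat_lit 0) (XT.nd (nat_lit 78) (nat_lit 532) (nat_lit 0) (XT.lf (nat_lit 0) (nat_lit 810309635612) (nat_lit 532) (nat_lit 574461780931) (nat_lit 76) (nat_lit 1162112795101) (nat_lit 89) (nat_lit 5) (nat_lit 96) (nat_lit 5)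 (nat_lit 90) (nat_lit 5) (nat_lit 388) (nat_lit 384) (nat_lit 248)) (XT.lf (nat_lit 0) (nat_lit 1373866872802) (nat_lit 608) (nat_lit 633580752589) (nat_lit 76) (nat_lit 743600003724) (nat_lit 82) (nat_lit 5) (nat_lit 90) (nat_lit 5) (nat_lit 83) (nat_lit 5) (nat_lit 389) (nat_lit 384) (nat_lit 247))) (XT.nd (nat_lit 78) (nat_lit 532) (nat_lit 0) (XT.lf (nat_lit 0) (nat_lit 2138744944713) (nat_lit 304) (nat_lit 640007078185) (nat_lit 76) (nat_lit 197740556377) (nat_lit 79) (nat_lit 5) (nat_lit 83) (nat_lit 5) (nat_lit 80) (nat_lit 5) (nat_lit 390) (nat_lit 384) (nat_lit 246)) (XT.nd (nat_lit 78) (nat_lit 304) (nat_lit 0) (XT.lf (nat_lit 0) (nat_lit 2631804172528) (nat_lit 228) (nat_lit 524291683022) (nat_lit 304) (nat_lit 68639126157) (nat_lit 76) (nat_lit 5) (nat_lit 79) (nat_lit 5) (nat_lit 80) (nat_lit 5) (nat_lit 391) (nat_lit 384) (nat_lit 245)) (XT.lf (nat_lit 0) (nat_lit 920327879431)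 (nat_lit 304) (nat_lit 496639904245) (nat_lit 76) (nat_lit 2080052001475) (nat_lit 72) (nat_lit 5) (nat_lit 76) (nat_lit 5) (nat_lit 73) (nat_lit 5) (nat_lit 392) (nat_lit 384) (nat_lit 244))))) (XT.nd (nat_lit 156) (nat_lit 684) (nat_lit 0) (XT.nd (nat_lit 78) (nat_lit 152) (nat_lit 0) (XT.lf (nat_lit 0) (nat_lit 2202966181778) (nat_lit 304) (nat_lit 314063938223) (nat_lit 76) (nat_lit 1281023326503) (nat_lit 69) (nat_lit 5) (nat_lit 73) (nat_lit 5) (nat_lit 70) (nat_lit 5) (nat_lit 393) (nat_lit 384) (nat_lit 243)) (XT.lf (nat_lit 0) (nat_lit 3837820357073) (nat_lit 228) (nat_lit 23847280052) (nat_lit 76) (nat_lit 269788909728) (nat_lit 67) (nat_lit 5) (nat_lit 70) (nat_lit 5) (nat_lit 68) (nat_lit 5) (nat_lit 394) (nat_lit 384) (nat_lit 242))) (XT.nd (nat_lit 78) (nat_lit 304) (nat_lit 0) (XT.lf (nat_lit 0) (nat_lit 355834821759) (nat_lit 152) (nat_lit 996819198480) (nat_lit 228) (nat_lit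 3143117292353) (nat_lit 62) (nat_lit 5) (nat_lit 64) (nat_lit 5) (nat_lit 65) (nat_lit 5) (nat_lit 395) (nat_lit 384) (nat_lit 241)) (XT.nd (nat_lit 78) (nat_lit 152) (nat_lit 0) (XT.lf (nat_lit 0) (nat_lit 868755958376) (nat_lit 152) (nat_lit 2561283072121) (nat_lit 228) (nat_lit 1467961084939) (nat_lit 60) (nat_lit 5) (nat_lit 62) (nat_lit 5) (nat_lit 63) (nat_lit 5) (nat_lit 396) (nat_lit 384) (nat_lit 240)) (XT.lf (nat_lit 0) (nat_lit 647028510985) (nat_lit 152) (nat_lit 3802095586146) (nat_lit 76) (nat_lit 893637494296) (nat_lit 58) (nat_lit 5) (nat_lit 60) (nat_lit 5) (nat_lit 59) (nat_lit 5) (nat_lit 397) (nat_lit 384) (nat_lit 239)))))) (XT.nd (nat_lit 390) (nat_lit 760) (nat_lit 0) (XT.nd (nat_lit 156) (nat_lit 456) (nat_lit 0) (XT.nd (nat_lit 78) (nat_lit 152) (nat_lit 0) (XT.lf (nat_lit 0) (nat_lit 2348188798682) (nat_lit 152) (nat_lit 894296184055) (nat_lit 228) (nat_lit 2588690948216)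 (nat_lit 56) (nat_lit 5) (nat_lit 58) (nat_lit 5) (nat_lit 59) (nat_lit 5) (nat_lit 398) (nat_lit 384) (nat_lit 238)) (XT.lf (nat_lit 0) (nat_lit 120809227399) (nat_lit 152) (nat_lit 3018795327985) (nat_lit 76) (nat_lit 3231317017004) (nat_lit 54) (nat_lit 5) (nat_lit 56) (nat_lit 5) (nat_lit 55) (nat_lit 5) (nat_lit 399) (nat_lit 384) (nat_lit 237))) (XT.nd (nat_lit 78) (nat_lit 304) (nat_lit 0) (XT.lf (nat_lit 0) (nat_lit 3356377083094) (nat_lit 228) (nat_lit 2427172461597) (nat_lit 76) (nat_lit 1180866653625) (nat_lit 52) (nat_lit 5) (nat_lit 55) (nat_lit 5) (nat_lit 53) (nat_lit 4) (nat_lit 400) (nat_lit 384) (nat_lit 236)) (XT.nd (nat_lit 78) (nat_lit 228) (nat_lit 0) (XT.lf (nat_lit 0) (nat_lit 5979601170464) (nat_lit 76) (nat_lit 1418494005581) (nat_lit 152) (nat_lit 223174637377) (nat_lit 51) (nat_lit 5) (nat_lit 52) (nat_lit 5) (nat_lit 53) (nat_lit 4) (nat_lit 401) (nat_lit 384)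 (nat_lit 235)) (XT.lf (nat_lit 0) (nat_lit 3839622441482) (nat_lit 228) (nat_lit 725100874326) (nat_lit 76) (nat_lit 3776567212417) (nat_lit 48) (nat_lit 5) (nat_lit 51) (nat_lit 5) (nat_lit 49) (nat_lit 4) (nat_lit 402) (nat_lit 384) (nat_lit 234))))) (XT.nd (nat_lit 234) (nat_lit 304) (nat_lit 0) (XT.nd (nat_lit 78) (nat_lit 304) (nat_lit 0) (XT.lf (nat_lit 0) (nat_lit 493748893220) (nat_lit 76) (nat_lit 8356591290104) (nat_lit 76) (nat_lit 290373185008) (nat_lit 46) (nat_lit 4) (nat_lit 47) (nat_lit 5) (nat_lit 47) (nat_lit 4) (nat_lit 403) (nat_lit 384) (nat_lit 233)) (XT.nd (nat_lit 78) (nat_lit 152) (nat_lit 0) (XT.lf (nat_lit 0) (nat_lit 1899068381263) (nat_lit 76) (nat_lit 2891934737524) (nat_lit 152) (nat_lit 5222997077424) (nat_lit 44) (nat_lit 5) (nat_lit 45) (nat_lit 5) (nat_lit 46) (nat_lit 4) (nat_lit 404) (nat_lit 384) (nat_lit 232)) (XT.lf (nat_lit 0) (nat_lit 58717984062)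 (nat_lit 152) (nat_lit 7346587062076) (nat_lit 76) (nat_lit 3578023513507) (nat_lit 42) (nat_lit 5) (nat_lit 44) (nat_lit 5) (nat_lit 43) (nat_lit 4) (nat_lit 405) (nat_lit 384) (nat_lit 231)))) (XT.nd (nat_lit 78) (nat_lit 228) (nat_lit 0) (XT.lf (nat_lit 0) (nat_lit 5613668784116) (nat_lit 76) (nat_lit 675941433934) (nat_lit 152) (nat_lit 5760298608622) (nat_lit 41) (nat_lit 5) (nat_lit 42) (nat_lit 5) (nat_lit 43) (nat_lit 4) (nat_lit 406) (nat_lit 384) (nat_lit 230)) (XT.nd (nat_lit 78) (nat_lit 76) (nat_lit 0) (XT.lf (nat_lit 0) (nat_lit 764673558934) (nat_lit 152) (nat_lit 5324960913959) (nat_lit 76) (nat_lit 7138901861580) (nat_lit 39) (nat_lit 5) (nat_lit 41) (nat_lit 5) (nat_lit 40) (nat_lit 4) (nat_lit 407) (nat_lit 384) (nat_lit 229)) (XT.lf (nat_lit 0) (nat_lit 8453857747402) (nat_lit 152) (nat_lit 4025373806810) (nat_lit 0) (nat_lit 2050633750276) (nat_lit 38) (nat_lit 5) (nat_lit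 40) (nat_lit 4) (nat_lit 38) (nat_lit 4) (nat_lit 408) (nat_lit 384) (nat_lit 228))))))))
noncomputable def xc113 : XT := (XT.nd (nat_lit 51714) (nat_lit 0) (nat_lit 1444) (XT.nd (nat_lit 780) (nat_lit 456) (nat_lit 0) (XT.nd (nat_lit 390) (nat_lit 532) (nat_lit 0) (XT.nd (nat_lit 156) (nat_lit 456) (nat_lit 0) (XT.nd (nat_lit 78) (nat_lit 76) (nat_lit 0) (XT.lf (nat_lit 0) (nat_lit 1876101961857) (nat_lit 152) (nat_lit 2500931916745) (nat_lit 76) (nat_lit 11593347580314) (nat_lit 36) (nat_lit 5) (nat_lit 38) (nat_lit 5) (nat_lit 37) (nat_lit 4) (nat_lit 409) (nat_lit 384) (nat_lit 227)) (XT.lf (nat_lit 0) (nat_lit 11334750895933) (nat_lit 152) (nat_lit 819879648288) (nat_lit 0) (nat_lit 5405839786992) (nat_lit 35) (nat_lit 5) (nat_lit 37) (nat_lit 4) (nat_lit 35) (nat_lit 4) (nat_lit 410) (nat_lit 384) (nat_lit 226))) (XT.nd (nat_lit 78) (nat_lit 228) (nat_lit 0) (XT.lf (nat_lit 0) (nat_lit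 1180495275742) (nat_lit 76) (nat_lit 2237488563142) (nat_lit 152) (nat_lit 15906770331746) (nat_lit 32) (nat_lit 5) (nat_lit 33) (nat_lit 5) (nat_lit 34) (nat_lit 4) (nat_lit 411) (nat_lit 384) (nat_lit 225)) (XT.nd (nat_lit 78) (nat_lit 152) (nat_lit 0) (XT.lf (nat_lit 0) (nat_lit 3290725037906) (nat_lit 76) (nat_lit 11734453046606) (nat_lit 76) (nat_lit 6244720537983) (nat_lit 31) (nat_lit 4) (nat_lit 32) (nat_lit 5) (nat_lit 32) (nat_lit 4) (nat_lit 412) (nat_lit 384) (nat_lit 224)) (XT.lf (nat_lit 0) (nat_lit 5370587372267) (nat_lit 152) (nat_lit 17779570273333) (nat_lit 0) (nat_lit 287501716006) (nat_lit 29) (nat_lit 5) (nat_lit 31) (nat_lit 4) (nat_lit 29) (nat_lit 4) (nat_lit 413) (nat_lit 384) (nat_lit 223))))) (XT.nd (nat_lit 156) (nat_lit 304) (nat_lit 0) (XT.nd (nat_lit 78) (nat_lit 152) (nat_lit 0) (XT.lf (nat_lit 0) (nat_lit 7926665068232) (nat_lit 76) (nat_lit 11494504950843)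 (nat_lit 76) (nat_lit 6411419294470) (nat_lit 28) (nat_lit 4) (nat_lit 29) (nat_lit 5) (nat_lit 29) (nat_lit 4) (nat_lit 414) (nat_lit 384) (nat_lit 222)) (XT.lf (nat_lit 0) (nat_lit 7493494580190) (nat_lit 152) (nat_lit 18224819810037) (nat_lit 0) (nat_lit 2786933787162) (nat_lit 26) (nat_lit 5) (nat_lit 28) (nat_lit 4) (nat_lit 26) (nat_lit 4) (nat_lit 415) (nat_lit 384) (nat_lit 221))) (XT.nd (nat_lit 78) (nat_lit 228) (nat_lit 0) (XT.lf (nat_lit 0) (nat_lit 12351035995284) (nat_lit 76) (nat_lit 11914080190720) (nat_lit 76) (nat_lit 7207519397614) (nat_lit 25) (nat_lit 4) (nat_lit 26) (nat_lit 5) (nat_lit 26) (nat_lit 4) (nat_lit 416) (nat_lit 384) (nat_lit 220)) (XT.nd (nat_lit 78) (nat_lit 76) (nat_lit 0) (XT.lf (nat_lit 0) (nat_lit 9244962624375) (nat_lit 152) (nat_lit 20655561423312) (nat_lit 0) (nat_lit 4887035964029) (nat_lit 23) (nat_lit 5) (nat_lit 25) (nat_lit 4) (nat_lit 23) (nat_lit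 4) (nat_lit 417) (nat_lit 384) (nat_lit 219)) (XT.lf (nat_lit 0) (nat_lit 15193100116467) (nat_lit 76) (nat_lit 13823658213774) (nat_lit 76) (nat_lit 9465731553372) (nat_lit 22) (nat_lit 4) (nat_lit 23) (nat_lit 5) (nat_lit 23) (nat_lit 4) (nat_lit 418) (nat_lit 384) (nat_lit 218)))))) (XT.nd (nat_lit 50466) (nat_lit 0) (nat_lit 5016) (XT.nd (nat_lit 156) (nat_lit 228) (nat_lit 0) (XT.nd (nat_lit 78) (nat_lit 76) (nat_lit 0) (XT.lf (nat_lit 0) (nat_lit 9705360973485) (nat_lit 152) (nat_lit 27247971182654) (nat_lit 0) (nat_lit 5670243695291) (nat_lit 20) (nat_lit 5) (nat_lit 22) (nat_lit 4) (nat_lit 20) (nat_lit 4) (nat_lit 419) (nat_lit 384) (nat_lit 217)) (XT.lf (nat_lit 0) (nat_lit 13955472636035) (nat_lit 76) (nat_lit 18665718138683) (nat_lit 76) (nat_lit 14630600860451) (nat_lit 19) (nat_lit 4) (nat_lit 20) (nat_lit 5) (nat_lit 20) (nat_lit 4) (nat_lit 420) (nat_lit 384) (nat_lit 216)))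 (XT.nd (nat_lit 78) (nat_lit 76) (nat_lit 0) (XT.lf (nat_lit 0) (nat_lit 7243552622545) (nat_lit 152) (nat_lit 41717955608462) (nat_lit 0) (nat_lit 3507332920447) (nat_lit 17) (nat_lit 5) (nat_lit 19) (nat_lit 4) (nat_lit 17) (nat_lit 4) (nat_lit 421) (nat_lit 384) (nat_lit 215)) (XT.nd (nat_lit 78) (nat_lit 0) (nat_lit 0) (XT.lf (nat_lit 0) (nat_lit 4299608618681) (nat_lit 76) (nat_lit 28871774992250) (nat_lit 76) (nat_lit 25135555290125) (nat_lit 16) (nat_lit 4) (nat_lit 17) (nat_lit 5) (nat_lit 17) (nat_lit 4) (nat_lit 422) (nat_lit 384) (nat_lit 214)) (XT.lf (nat_lit 0) (nat_lit 59746120132714) (nat_lit 76) (nat_lit 4456842505634) (nat_lit 76) (nat_lit 720622803486) (nat_lit 16) (nat_lit 4) (nat_lit 17) (nat_lit 5) (nat_lit 17) (nat_lit 4) (nat_lit 423) (nat_lit 384) (nat_lit 213))))) (XT.nd (nat_lit 234) (nat_lit 304) (nat_lit 0) (XT.nd (nat_lit 78) (nat_lit 532) (nat_lit 0) (XT.lf (nat_lit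 0) (nat_lit 1079232210189) (nat_lit 532) (nat_lit 7199179334) (nat_lit 532) (nat_lit 7199179334) (nat_lit 93) (nat_lit 3) (nat_lit 100) (nat_lit 3) (nat_lit 100) (nat_lit 5) (nat_lit 385) (nat_lit 385) (nat_lit 250)) (XT.nd (nat_lit 78) (nat_lit 0) (nat_lit 76) (XT.lf (nat_lit 0) (nat_lit 23266422271) (nat_lit 532) (nat_lit 213038063790) (nat_lit 608) (nat_lit 2110846851265) (nat_lit 86) (nat_lit 5) (nat_lit 93) (nat_lit 3) (nat_lit 94) (nat_lit 5) (nat_lit 386) (nat_lit 385) (nat_lit 249)) (XT.lf (nat_lit 0) (nat_lit 183691118334) (nat_lit 532) (nat_lit 392812882218) (nat_lit 608) (nat_lit 1946280655186) (nat_lit 87) (nat_lit 5) (nat_lit 94) (nat_lit 5) (nat_lit 95) (nat_lit 5) (nat_lit 387) (nat_lit 385) (nat_lit 248)))) (XT.nd (nat_lit 78) (nat_lit 456) (nat_lit 0) (XT.lf (nat_lit 0) (nat_lit 477282823657) (nat_lit 532) (nat_lit 545055098059) (nat_lit 608) (nat_lit 1693696785809) (nat_lit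 88) (nat_lit 5) (nat_lit 95) (nat_lit 5) (nat_lit 96) (nat_lit 5) (nat_lit 388) (nat_lit 385) (nat_lit 247)) (XT.nd (nat_lit 78) (nat_lit 532) (nat_lit 0) (XT.lf (nat_lit 0) (nat_lit 931856117282) (nat_lit 532) (nat_lit 660631013722) (nat_lit 76) (nat_lit 1336429709477) (nat_lit 89) (nat_lit 5) (nat_lit 96) (nat_lit 5) (nat_lit 90) (nat_lit 5) (nat_lit 389) (nat_lit 385) (nat_lit 246)) (XT.lf (nat_lit 0) (nat_lit 1579946936046) (nat_lit 608) (nat_lit 728617831423) (nat_lit 76) (nat_lit 855140003424) (nat_lit 82) (nat_lit 5) (nat_lit 90) (nat_lit 5) (nat_lit 83) (nat_lit 5) (nat_lit 390) (nat_lit 385) (nat_lit 245))))))) (XT.nd (nat_lit 780) (nat_lit 1444) (nat_lit 0) (XT.nd (nat_lit 390) (nat_lit 988) (nat_lit 0) (XT.nd (nat_lit 156) (nat_lit 684) (nat_lit 0) (XT.nd (nat_lit 78) (nat_lit 228) (nat_lit 0) (XT.lf (nat_lit 0) (nat_lit 2459556715333) (nat_lit 304) (nat_lit 736008106484) (nat_lit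 76) (nat_lit 227401642032) (nat_lit 79) (nat_lit 5) (nat_lit 83) (nat_lit 5) (nat_lit 80) (nat_lit 5) (nat_lit 391) (nat_lit 385) (nat_lit 244)) (XT.lf (nat_lit 0) (nat_lit 3026574829006) (nat_lit 228) (nat_lit 602935430754) (nat_lit 304) (nat_lit 78934967130) (nat_lit 76) (nat_lit 5) (nat_lit 79) (nat_lit 5) (nat_lit 80) (nat_lit 5) (nat_lit 392) (nat_lit 385) (nat_lit 243))) (XT.nd (nat_lit 78) (nat_lit 380) (nat_lit 0) (XT.lf (nat_lit 0) (nat_lit 1058377085271) (nat_lit 304) (nat_lit 571135858818) (nat_lit 76) (nat_lit 2392059806919) (nat_lit 72) (nat_lit 5) (nat_lit 76) (nat_lit 5) (nat_lit 73) (nat_lit 5) (nat_lit 393) (nat_lit 385) (nat_lit 242)) (XT.nd (nat_lit 78) (nat_lit 152) (nat_lit 0) (XT.lf (nat_lit 0) (nat_lit 2533411130701) (nat_lit 304) (nat_lit 361173498968) (nat_lit 76) (nat_lit 1473176832077) (nat_lit 69) (nat_lit 5) (nat_lit 73) (nat_lit 5) (nat_lit 70) (nat_lit 5) (nat_lit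 394) (nat_lit 385) (nat_lit 241)) (XT.lf (nat_lit 0) (nat_lit 4413493430317) (nat_lit 228) (nat_lit 27424343240) (nat_lit 76) (nat_lit 310257253748) (nat_lit 67) (nat_lit 5) (nat_lit 70) (nat_lit 5) (nat_lit 68) (nat_lit 5) (nat_lit 395) (nat_lit 385) (nat_lit 240))))) (XT.nd (nat_lit 156) (nat_lit 456) (nat_lit 0) (XT.nd (nat_lit 78) (nat_lit 152) (nat_lit 0) (XT.lf (nat_lit 0) (nat_lit 409210073804) (nat_lit 152) (nat_lit 1146342068376) (nat_lit 228) (nat_lit 3614584865787) (nat_lit 62) (nat_lit 5) (nat_lit 64) (nat_lit 5) (nat_lit 65) (nat_lit 5) (nat_lit 396) (nat_lit 385) (nat_lit 239)) (XT.lf (nat_lit 0) (nat_lit 999069379645) (nat_lit 152) (nat_lit 2945475522733) (nat_lit 228) (nat_lit 1688155228987) (nat_lit 60) (nat_lit 5) (nat_lit 62) (nat_lit 5) (nat_lit 63) (nat_lit 5) (nat_lit 397) (nat_lit 385) (nat_lit 238))) (XT.nd (nat_lit 78) (nat_lit 304) (nat_lit 0) (XT.lf (nat_lit 0) (nat_lit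 744082803941) (nat_lit 152) (nat_lit 4372409896981) (nat_lit 76) (nat_lit 1027683127914) (nat_lit 58) (nat_lit 5) (nat_lit 60) (nat_lit 5) (nat_lit 59) (nat_lit 5) (nat_lit 398) (nat_lit 385) (nat_lit 237)) (XT.nd (nat_lit 78) (nat_lit 152) (nat_lit 0) (XT.lf (nat_lit 0) (nat_lit 2700417143279) (nat_lit 152) (nat_lit 1028440601646) (nat_lit 228) (nat_lit 2976994574488) (nat_lit 56) (nat_lit 5) (nat_lit 58) (nat_lit 5) (nat_lit 59) (nat_lit 5) (nat_lit 399) (nat_lit 385) (nat_lit 236)) (XT.lf (nat_lit 0) (nat_lit 138930625489) (nat_lit 152) (nat_lit 3471614602888) (nat_lit 76) (nat_lit 3716014578751) (nat_lit 54) (nat_lit 5) (nat_lit 56) (nat_lit 5) (nat_lit 55) (nat_lit 5) (nat_lit 400) (nat_lit 385) (nat_lit 235)))))) (XT.nd (nat_lit 390) (nat_lit 684) (nat_lit 0) (XT.nd (nat_lit 156) (nat_lit 532) (nat_lit 0) (XT.nd (nat_lit 78) (nat_lit 76) (nat_lit 0) (XT.lf (nat_lit 0) (nat_lit 3859833658480)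 (nat_lit 228) (nat_lit 2791248307812) (nat_lit 76) (nat_lit 1357996660738) (nat_lit 52) (nat_lit 5) (nat_lit 55) (nat_lit 5) (nat_lit 53) (nat_lit 4) (nat_lit 401) (nat_lit 385) (nat_lit 234)) (XT.lf (nat_lit 0) (nat_lit 6876541367110) (nat_lit 76) (nat_lit 1631268097085) (nat_lit 152) (nat_lit 256650820301) (nat_lit 51) (nat_lit 5) (nat_lit 52) (nat_lit 5) (nat_lit 53) (nat_lit 4) (nat_lit 402) (nat_lit 385) (nat_lit 233))) (XT.nd (nat_lit 78) (nat_lit 304) (nat_lit 0) (XT.lf (nat_lit 0) (nat_lit 4415565818874) (nat_lit 228) (nat_lit 833865984939) (nat_lit 76) (nat_lit 4343052302752) (nat_lit 48) (nat_lit 5) (nat_lit 51) (nat_lit 5) (nat_lit 49) (nat_lit 4) (nat_lit 403) (nat_lit 385) (nat_lit 232)) (XT.nd (nat_lit 78) (nat_lit 152) (nat_lit 0) (XT.lf (nat_lit 0) (nat_lit 567811247628) (nat_lit 76) (nat_lit 9610079974058) (nat_lit 76) (nat_lit 333929151027) (nat_lit 46) (nat_lit 4) (nat_lit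 47) (nat_lit 5) (nat_lit 47) (nat_lit 4) (nat_lit 404) (nat_lit 385) (nat_lit 231)) (XT.lf (nat_lit 0) (nat_lit 2183928657686) (nat_lit 76) (nat_lit 3325724939073) (nat_lit 152) (nat_lit 6006446628071) (nat_lit 44) (nat_lit 5) (nat_lit 45) (nat_lit 5) (nat_lit 46) (nat_lit 4) (nat_lit 405) (nat_lit 385) (nat_lit 230))))) (XT.nd (nat_lit 234) (nat_lit 304) (nat_lit 0) (XT.nd (nat_lit 78) (nat_lit 228) (nat_lit 0) (XT.lf (nat_lit 0) (nat_lit 67525691373) (nat_lit 152) (nat_lit 8448575102727) (nat_lit 76) (nat_lit 4114727048715) (nat_lit 42) (nat_lit 5) (nat_lit 44) (nat_lit 5) (nat_lit 43) (nat_lit 4) (nat_lit 406) (nat_lit 385) (nat_lit 229)) (XT.nd (nat_lit 78) (nat_lit 152) (nat_lit 0) (XT.lf (nat_lit 0) (nat_lit 6455719118815) (nat_lit 76) (nat_lit 777332640790) (nat_lit 152) (nat_lit 6624343390360) (nat_lit 41) (nat_lit 5) (nat_lit 42) (nat_lit 5) (nat_lit 43) (nat_lit 4) (nat_lit 407)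 (nat_lit 385) (nat_lit 228)) (XT.lf (nat_lit 0) (nat_lit 879374601241) (nat_lit 152) (nat_lit 6123705034505) (nat_lit 76) (nat_lit 8209737148220) (nat_lit 39) (nat_lit 5) (nat_lit 41) (nat_lit 5) (nat_lit 40) (nat_lit 4) (nat_lit 408) (nat_lit 385) (nat_lit 227)))) (XT.nd (nat_lit 78) (nat_lit 228) (nat_lit 0) (XT.lf (nat_lit 0) (nat_lit 9721936417417) (nat_lit 152) (nat_lit 4629179862244) (nat_lit 0) (nat_lit 2358228819866) (nat_lit 38) (nat_lit 5) (nat_lit 40) (nat_lit 4) (nat_lit 38) (nat_lit 4) (nat_lit 409) (nat_lit 385) (nat_lit 226)) (XT.nd (nat_lit 78) (nat_lit 76) (nat_lit 0) (XT.lf (nat_lit 0) (nat_lit 2157517263541) (nat_lit 152) (nat_lit 2876071689599) (nat_lit 76) (nat_lit 13332349724021) (nat_lit 36) (nat_lit 5) (nat_lit 38) (nat_lit 5) (nat_lit 37) (nat_lit 4) (nat_lit 410) (nat_lit 385) (nat_lit 225)) (XT.lf (nat_lit 0) (nat_lit 13034963537244) (nat_lit 152) (nat_lit 942861581733)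 (nat_lit 0) (nat_lit 6216715761362) (nat_lit 35) (nat_lit 5) (nat_lit 37) (nat_lit 4) (nat_lit 35) (nat_lit 4) (nat_lit 411) (nat_lit 385) (nat_lit 224))))))))
noncomputable def xc114 : XT := (XT.nd (nat_lit 51870) (nat_lit 0) (nat_lit 836) (XT.nd (nat_lit 780) (nat_lit 152) (nat_lit 0) (XT.nd (nat_lit 390) (nat_lit 532) (nat_lit 0) (XT.nd (nat_lit 156) (nat_lit 380) (nat_lit 0) (XT.nd (nat_lit 78) (nat_lit 76) (nat_lit 0) (XT.lf (nat_lit 0) (nat_lit 1357569580759) (nat_lit 76) (nat_lit 2573111840775) (nat_lit 152) (nat_lit 18292785874147) (nat_lit 32) (nat_lit 5) (nat_lit 33) (nat_lit 5) (nat_lit 34) (nat_lit 4) (nat_lit 412) (nat_lit 385) (nat_lit 223)) (XT.lf (nat_lit 0) (nat_lit 3784333806440) (nat_lit 76) (nat_lit 13494620997128) (nat_lit 76) (nat_lit 7181428611792) (nat_lit 31) (nat_lit 4) (nat_lit 32) (nat_lit 5) (nat_lit 32) (nat_lit 4) (nat_lit 413) (nat_lit 385) (nat_lit 222))) (XT.nd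 (nat_lit 78) (nat_lit 228) (nat_lit 0) (XT.lf (nat_lit 0) (nat_lit 6176175484235) (nat_lit 152) (nat_lit 20446505801926) (nat_lit 0) (nat_lit 330626979197) (nat_lit 29) (nat_lit 5) (nat_lit 31) (nat_lit 4) (nat_lit 29) (nat_lit 4) (nat_lit 414) (nat_lit 385) (nat_lit 221)) (XT.nd (nat_lit 78) (nat_lit 152) (nat_lit 0) (XT.lf (nat_lit 0) (nat_lit 9115664839824) (nat_lit 76) (nat_lit 13218680687714) (nat_lit 76) (nat_lit 7373132182591) (nat_lit 28) (nat_lit 4) (nat_lit 29) (nat_lit 5) (nat_lit 29) (nat_lit 4) (nat_lit 415) (nat_lit 385) (nat_lit 220)) (XT.lf (nat_lit 0) (nat_lit 8617518772603) (nat_lit 152) (nat_lit 20958542770579) (nat_lit 0) (nat_lit 3204973860384) (nat_lit 26) (nat_lit 5) (nat_lit 28) (nat_lit 4) (nat_lit 26) (nat_lit 4) (nat_lit 416) (nat_lit 385) (nat_lit 219))))) (XT.nd (nat_lit 156) (nat_lit 304) (nat_lit 0) (XT.nd (nat_lit 78) (nat_lit 152) (nat_lit 0) (XT.lf (nat_lit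 0) (nat_lit 14203691404612) (nat_lit 76) (nat_lit 13701192214217) (nat_lit 76) (nat_lit 8288647301939) (nat_lit 25) (nat_lit 4) (nat_lit 26) (nat_lit 5) (nat_lit 26) (nat_lit 4) (nat_lit 417) (nat_lit 385) (nat_lit 218)) (XT.lf (nat_lit 0) (nat_lit 10631707022767) (nat_lit 152) (nat_lit 23753895627126) (nat_lit 0) (nat_lit 5620091363202) (nat_lit 23) (nat_lit 5) (nat_lit 25) (nat_lit 4) (nat_lit 23) (nat_lit 4) (nat_lit 418) (nat_lit 385) (nat_lit 217))) (XT.nd (nat_lit 78) (nat_lit 228) (nat_lit 0) (XT.lf (nat_lit 0) (nat_lit 17472065142801) (nat_lit 76) (nat_lit 15897206941307) (nat_lit 76) (nat_lit 10885591281701) (nat_lit 22) (nat_lit 4) (nat_lit 23) (nat_lit 5) (nat_lit 23) (nat_lit 4) (nat_lit 419) (nat_lit 385) (nat_lit 216)) (XT.nd (nat_lit 78) (nat_lit 76) (nat_lit 0) (XT.lf (nat_lit 0) (nat_lit 11161165123674) (nat_lit 152) (nat_lit 31335166851502) (nat_lit 0) (nat_lit 6520780253635)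 (nat_lit 20) (nat_lit 5) (nat_lit 22) (nat_lit 4) (nat_lit 20) (nat_lit 4) (nat_lit 420) (nat_lit 385) (nat_lit 215)) (XT.lf (nat_lit 0) (nat_lit 16048793539267) (nat_lit 76) (nat_lit 21465575855471) (nat_lit 76) (nat_lit 16825190985402) (nat_lit 19) (nat_lit 4) (nat_lit 20) (nat_lit 5) (nat_lit 20) (nat_lit 4) (nat_lit 421) (nat_lit 385) (nat_lit 214)))))) (XT.nd (nat_lit 50622) (nat_lit 0) (nat_lit 3952) (XT.nd (nat_lit 50388) (nat_lit 0) (nat_lit 5244) (XT.nd (nat_lit 50310) (nat_lit 0) (nat_lit 5776) (XT.lf (nat_lit 0) (nat_lit 8330085519595) (nat_lit 152) (nat_lit 47975648942184) (nat_lit 0) (nat_lit 4033432862101) (nat_lit 17) (nat_lit 5) (nat_lit 19) (nat_lit 4) (nat_lit 17) (nat_lit 4) (nat_lit 422) (nat_lit 385) (nat_lit 213)) (XT.lf (nat_lit 0) (nat_lit 1241117064016) (nat_lit 532) (nat_lit 8279044192) (nat_lit 532) (nat_lit 8279044192) (nat_lit 93) (nat_lit 3) (nat_lit 100) (nat_lit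 3) (nat_lit 100) (nat_lit 5) (nat_lit 386) (nat_lit 386) (nat_lit 248))) (XT.nd (nat_lit 78) (nat_lit 0) (nat_lit 76) (XT.lf (nat_lit 0) (nat_lit 26756425946) (nat_lit 532) (nat_lit 244993749184) (nat_lit 608) (nat_lit 2427473859563) (nat_lit 86) (nat_lit 5) (nat_lit 93) (nat_lit 3) (nat_lit 94) (nat_lit 5) (nat_lit 387) (nat_lit 386) (nat_lit 247)) (XT.nd (nat_lit 78) (nat_lit 0) (nat_lit 76) (XT.lf (nat_lit 0) (nat_lit 211244821366) (nat_lit 532) (nat_lit 451734789246) (nat_lit 608) (nat_lit 2238222740660) (nat_lit 87) (nat_lit 5) (nat_lit 94) (nat_lit 5) (nat_lit 95) (nat_lit 5) (nat_lit 388) (nat_lit 386) (nat_lit 246)) (XT.lf (nat_lit 0) (nat_lit 548875278249) (nat_lit 532) (nat_lit 626813336908) (nat_lit 608) (nat_lit 1947751296011) (nat_lit 88) (nat_lit 5) (nat_lit 95) (nat_lit 5) (nat_lit 96) (nat_lit 5) (nat_lit 389) (nat_lit 386) (nat_lit 245))))) (XT.nd (nat_lit 234) (nat_lit 760)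 (nat_lit 0) (XT.nd (nat_lit 78) (nat_lit 760) (nat_lit 0) (XT.lf (nat_lit 0) (nat_lit 1071634562344) (nat_lit 532) (nat_lit 759725639808) (nat_lit 76) (nat_lit 1536894162201) (nat_lit 89) (nat_lit 5) (nat_lit 96) (nat_lit 5) (nat_lit 90) (nat_lit 5) (nat_lit 390) (nat_lit 386) (nat_lit 244)) (XT.nd (nat_lit 78) (nat_lit 228) (nat_lit 0) (XT.lf (nat_lit 0) (nat_lit 1816939000895) (nat_lit 608) (nat_lit 837910480386) (nat_lit 76) (nat_lit 983411003287) (nat_lit 82) (nat_lit 5) (nat_lit 90) (nat_lit 5) (nat_lit 83) (nat_lit 5) (nat_lit 391) (nat_lit 386) (nat_lit 243)) (XT.lf (nat_lit 0) (nat_lit 2828490244496) (nat_lit 304) (nat_lit 846409297180) (nat_lit 76) (nat_lit 261511890000) (nat_lit 79) (nat_lit 5) (nat_lit 83) (nat_lit 5) (nat_lit 80) (nat_lit 5) (nat_lit 392) (nat_lit 386) (nat_lit 242)))) (XT.nd (nat_lit 78) (nat_lit 532) (nat_lit 0) (XT.lf (nat_lit 0) (nat_lit 3480561076494) (nat_lit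 228) (nat_lit 693375741798) (nat_lit 304) (nat_lit 90775191065) (nat_lit 76) (nat_lit 5) (nat_lit 79) (nat_lit 5) (nat_lit 80) (nat_lit 5) (nat_lit 393) (nat_lit 386) (nat_lit 241)) (XT.nd (nat_lit 78) (nat_lit 228) (nat_lit 0) (XT.lf (nat_lit 0) (nat_lit 1217133666153) (nat_lit 304) (nat_lit 656806214151) (nat_lit 76) (nat_lit 2750868781905) (nat_lit 72) (nat_lit 5) (nat_lit 76) (nat_lit 5) (nat_lit 73) (nat_lit 5) (nat_lit 394) (nat_lit 386) (nat_lit 240)) (XT.lf (nat_lit 0) (nat_lit 2913422816681) (nat_lit 304) (nat_lit 415349501137) (nat_lit 76) (nat_lit 1694153361878) (nat_lit 69) (nat_lit 5) (nat_lit 73) (nat_lit 5) (nat_lit 70) (nat_lit 5) (nat_lit 395) (nat_lit 386) (nat_lit 239))))))) (XT.nd (nat_lit 780) (nat_lit 1368) (nat_lit 0) (XT.nd (nat_lit 390) (nat_lit 760) (nat_lit 0) (XT.nd (nat_lit 156) (nat_lit 456) (nat_lit 0) (XT.nd (nat_lit 78) (nat_lit 380) (nat_lit 0) (XT.lf (nat_lit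 0) (nat_lit 5075517459748) (nat_lit 228) (nat_lit 31537972934) (nat_lit 76) (nat_lit 356795847528) (nat_lit 67) (nat_lit 5) (nat_lit 70) (nat_lit 5) (nat_lit 68) (nat_lit 5) (nat_lit 396) (nat_lit 386) (nat_lit 238)) (XT.lf (nat_lit 0) (nat_lit 470591606637) (nat_lit 152) (nat_lit 1318293371164) (nat_lit 228) (nat_lit 4156772580216) (nat_lit 62) (nat_lit 5) (nat_lit 64) (nat_lit 5) (nat_lit 65) (nat_lit 5) (nat_lit 397) (nat_lit 386) (nat_lit 237))) (XT.nd (nat_lit 78) (nat_lit 304) (nat_lit 0) (XT.lf (nat_lit 0) (nat_lit 1148929807396) (nat_lit 152) (nat_lit 3387296843426) (nat_lit 228) (nat_lit 1941378499201) (nat_lit 60) (nat_lit 5) (nat_lit 62) (nat_lit 5) (nat_lit 63) (nat_lit 5) (nat_lit 398) (nat_lit 386) (nat_lit 236)) (XT.nd (nat_lit 78) (nat_lit 152) (nat_lit 0) (XT.lf (nat_lit 0) (nat_lit 855695236863) (nat_lit 152) (nat_lit 5028271361046) (nat_lit 76) (nat_lit 1181835604265) (nat_lit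 58) (nat_lit 5) (nat_lit 60) (nat_lit 5) (nat_lit 59) (nat_lit 5) (nat_lit 399) (nat_lit 386) (nat_lit 235)) (XT.lf (nat_lit 0) (nat_lit 3105479733519) (nat_lit 152) (nat_lit 1182706684318) (nat_lit 228) (nat_lit 3423543748594) (nat_lit 56) (nat_lit 5) (nat_lit 58) (nat_lit 5) (nat_lit 59) (nat_lit 5) (nat_lit 400) (nat_lit 386) (nat_lit 234))))) (XT.nd (nat_lit 156) (nat_lit 456) (nat_lit 0) (XT.nd (nat_lit 78) (nat_lit 152) (nat_lit 0) (XT.lf (nat_lit 0) (nat_lit 159770229884) (nat_lit 152) (nat_lit 3992356774951) (nat_lit 76) (nat_lit 4273416772517) (nat_lit 54) (nat_lit 5) (nat_lit 56) (nat_lit 5) (nat_lit 55) (nat_lit 5) (nat_lit 401) (nat_lit 386) (nat_lit 233)) (XT.lf (nat_lit 0) (nat_lit 4438808717022) (nat_lit 228) (nat_lit 3209935536574) (nat_lit 76) (nat_lit 1561696166707) (nat_lit 52) (nat_lit 5) (nat_lit 55) (nat_lit 5) (nat_lit 53) (nat_lit 4) (nat_lit 402) (nat_lit 386) (nat_lit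 232))) (XT.nd (nat_lit 78) (nat_lit 380) (nat_lit 0) (XT.lf (nat_lit 0) (nat_lit 7908022588112) (nat_lit 76) (nat_lit 1875958304590) (nat_lit 152) (nat_lit 295148433756) (nat_lit 51) (nat_lit 5) (nat_lit 52) (nat_lit 5) (nat_lit 53) (nat_lit 4) (nat_lit 403) (nat_lit 386) (nat_lit 231)) (XT.nd (nat_lit 78) (nat_lit 152) (nat_lit 0) (XT.lf (nat_lit 0) (nat_lit 5077900700150) (nat_lit 228) (nat_lit 958945867153) (nat_lit 76) (nat_lit 4994510154571) (nat_lit 48) (nat_lit 5) (nat_lit 51) (nat_lit 5) (nat_lit 49) (nat_lit 4) (nat_lit 404) (nat_lit 386) (nat_lit 230)) (XT.lf (nat_lit 0) (nat_lit 652982950216) (nat_lit 76) (nat_lit 11051591962937) (nat_lit 76) (nat_lit 384018514810) (nat_lit 46) (nat_lit 4) (nat_lit 47) (nat_lit 5) (nat_lit 47) (nat_lit 4) (nat_lit 405) (nat_lit 386) (nat_lit 229)))))) (XT.nd (nat_lit 390) (nat_lit 760) (nat_lit 0) (XT.nd (nat_lit 156) (nat_lit 304) (nat_lit 0) (XT.nd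 (nat_lit 78) (nat_lit 152) (nat_lit 0) (XT.lf (nat_lit 0) (nat_lit 2511517970882) (nat_lit 76) (nat_lit 3824583673070) (nat_lit 152) (nat_lit 6907413613989) (nat_lit 44) (nat_lit 5) (nat_lit 45) (nat_lit 5) (nat_lit 46) (nat_lit 4) (nat_lit 406) (nat_lit 386) (nat_lit 228)) (XT.lf (nat_lit 0) (nat_lit 77654552415) (nat_lit 152) (nat_lit 9715861354026) (nat_lit 76) (nat_lit 4731936112210) (nat_lit 42) (nat_lit 5) (nat_lit 44) (nat_lit 5) (nat_lit 43) (nat_lit 4) (nat_lit 407) (nat_lit 386) (nat_lit 227))) (XT.nd (nat_lit 78) (nat_lit 228) (nat_lit 0) (XT.lf (nat_lit 0) (nat_lit 7424076999553) (nat_lit 76) (nat_lit 893932530683) (nat_lit 152) (nat_lit 7617994891688) (nat_lit 41) (nat_lit 5) (nat_lit 42) (nat_lit 5) (nat_lit 43) (nat_lit 4) (nat_lit 408) (nat_lit 386) (nat_lit 226)) (XT.nd (nat_lit 78) (nat_lit 76) (nat_lit 0) (XT.lf (nat_lit 0) (nat_lit 1011280797830) (nat_lit 152) (nat_lit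 7042260777169) (nat_lit 76) (nat_lit 9441197726051) (nat_lit 39) (nat_lit 5) (nat_lit 41) (nat_lit 5) (nat_lit 40) (nat_lit 4) (nat_lit 409) (nat_lit 386) (nat_lit 225)) (XT.lf (nat_lit 0) (nat_lit 11180226886008) (nat_lit 152) (nat_lit 5323556829795) (nat_lit 0) (nat_lit 2711963148176) (nat_lit 38) (nat_lit 5) (nat_lit 40) (nat_lit 4) (nat_lit 38) (nat_lit 4) (nat_lit 410) (nat_lit 386) (nat_lit 224))))) (XT.nd (nat_lit 234) (nat_lit 304) (nat_lit 0) (XT.nd (nat_lit 78) (nat_lit 304) (nat_lit 0) (XT.lf (nat_lit 0) (nat_lit 2481144858672) (nat_lit 152) (nat_lit 3307482431956) (nat_lit 76) (nat_lit 15332202187660) (nat_lit 36) (nat_lit 5) (nat_lit 38) (nat_lit 5) (nat_lit 37) (nat_lit 4) (nat_lit 411) (nat_lit 386) (nat_lit 223)) (XT.nd (nat_lit 78) (nat_lit 228) (nat_lit 0) (XT.lf (nat_lit 0) (nat_lit 14990208073065) (nat_lit 152) (nat_lit 1084290808560) (nat_lit 0) (nat_lit 7149223130347)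 (nat_lit 35) (nat_lit 5) (nat_lit 37) (nat_lit 4) (nat_lit 35) (nat_lit 4) (nat_lit 412) (nat_lit 386) (nat_lit 222)) (XT.lf (nat_lit 0) (nat_lit 1561205028198) (nat_lit 76) (nat_lit 2959078611719) (nat_lit 152) (nat_lit 21036703749703) (nat_lit 32) (nat_lit 5) (nat_lit 33) (nat_lit 5) (nat_lit 34) (nat_lit 4) (nat_lit 413) (nat_lit 386) (nat_lit 221)))) (XT.nd (nat_lit 78) (nat_lit 228) (nat_lit 0) (XT.lf (nat_lit 0) (nat_lit 4351983887121) (nat_lit 76) (nat_lit 15518814141806) (nat_lit 76) (nat_lit 8258642898352) (nat_lit 31) (nat_lit 4) (nat_lit 32) (nat_lit 5) (nat_lit 32) (nat_lit 4) (nat_lit 414) (nat_lit 386) (nat_lit 220)) (XT.nd (nat_lit 78) (nat_lit 76) (nat_lit 0) (XT.lf (nat_lit 0) (nat_lit 7102601811504) (nat_lit 152) (nat_lit 23513481662833) (nat_lit 0) (nat_lit 380221030454) (nat_lit 29) (nat_lit 5) (nat_lit 31) (nat_lit 4) (nat_lit 29) (nat_lit 4) (nat_lit 415) (nat_lit 386)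 (nat_lit 219)) (XT.lf (nat_lit 0) (nat_lit 10483014574386) (nat_lit 76) (nat_lit 15201482786519) (nat_lit 76) (nat_lit 8479102005405) (nat_lit 28) (nat_lit 4) (nat_lit 29) (nat_lit 5) (nat_lit 29) (nat_lit 4) (nat_lit 416) (nat_lit 386) (nat_lit 218))))))))
noncomputable def xc115 : XT := (XT.nd (nat_lit 51948) (nat_lit 0) (nat_lit 228) (XT.nd (nat_lit 51090) (nat_lit 0) (nat_lit 2812) (XT.nd (nat_lit 390) (nat_lit 76) (nat_lit 0) (XT.nd (nat_lit 156) (nat_lit 380) (nat_lit 0) (XT.nd (nat_lit 78) (nat_lit 76) (nat_lit 0) (XT.lf (nat_lit 0) (nat_lit 9910146592565) (nat_lit 152) (nat_lit 24102324177876) (nat_lit 0) (nat_lit 3685719943334) (nat_lit 26) (nat_lit 5) (nat_lit 28) (nat_lit 4) (nat_lit 26) (nat_lit 4) (nat_lit 417) (nat_lit 386) (nat_lit 217)) (XT.lf (nat_lit 0) (nat_lit 16334245122892) (nat_lit 76) (nat_lit 15756371042485) (nat_lit 76) (nat_lit 9531944393209) (nat_lit 25) (nat_lit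 4) (nat_lit 26) (nat_lit 5) (nat_lit 26) (nat_lit 4) (nat_lit 418) (nat_lit 386) (nat_lit 216))) (XT.nd (nat_lit 78) (nat_lit 228) (nat_lit 0) (XT.lf (nat_lit 0) (nat_lit 12226463079762) (nat_lit 152) (nat_lit 27316979963873) (nat_lit 0) (nat_lit 6463105071138) (nat_lit 23) (nat_lit 5) (nat_lit 25) (nat_lit 4) (nat_lit 23) (nat_lit 4) (nat_lit 419) (nat_lit 386) (nat_lit 215)) (XT.nd (nat_lit 78) (nat_lit 152) (nat_lit 0) (XT.lf (nat_lit 0) (nat_lit 20092874920923) (nat_lit 76) (nat_lit 18281787979076) (nat_lit 76) (nat_lit 12518429970420) (nat_lit 22) (nat_lit 4) (nat_lit 23) (nat_lit 5) (nat_lit 23) (nat_lit 4) (nat_lit 420) (nat_lit 386) (nat_lit 214)) (XT.lf (nat_lit 0) (nat_lit 12835339895376) (nat_lit 152) (nat_lit 36035441872763) (nat_lit 0) (nat_lit 7498897294743) (nat_lit 20) (nat_lit 5) (nat_lit 22) (nat_lit 4) (nat_lit 20) (nat_lit 4) (nat_lit 421) (nat_lit 386) (nat_lit 213)))))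 (XT.nd (nat_lit 50466) (nat_lit 0) (nat_lit 5092) (XT.nd (nat_lit 50388) (nat_lit 0) (nat_lit 5624) (XT.lf (nat_lit 0) (nat_lit 18456112576075) (nat_lit 76) (nat_lit 24685412230755) (nat_lit 76) (nat_lit 19348969630100) (nat_lit 19) (nat_lit 4) (nat_lit 20) (nat_lit 5) (nat_lit 20) (nat_lit 4) (nat_lit 422) (nat_lit 386) (nat_lit 212)) (XT.lf (nat_lit 0) (nat_lit 1427284640478) (nat_lit 532) (nat_lit 9520891715) (nat_lit 532) (nat_lit 9520891715) (nat_lit 93) (nat_lit 3) (nat_lit 100) (nat_lit 3) (nat_lit 100) (nat_lit 5) (nat_lit 387) (nat_lit 387) (nat_lit 246))) (XT.nd (nat_lit 78) (nat_lit 0) (nat_lit 76) (XT.lf (nat_lit 0) (nat_lit 30769920337) (nat_lit 532) (nat_lit 281742793282) (nat_lit 608) (nat_lit 2791594923834) (nat_lit 86) (nat_lit 5) (nat_lit 93) (nat_lit 3) (nat_lit 94) (nat_lit 5) (nat_lit 388) (nat_lit 387) (nat_lit 245)) (XT.nd (nat_lit 78) (nat_lit 0) (nat_lit 76) (XT.lf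 (nat_lit 0) (nat_lit 242931571249) (nat_lit 532) (nat_lit 519494988499) (nat_lit 608) (nat_lit 2573956142078) (nat_lit 87) (nat_lit 5) (nat_lit 94) (nat_lit 5) (nat_lit 95) (nat_lit 5) (nat_lit 389) (nat_lit 387) (nat_lit 244)) (XT.lf (nat_lit 0) (nat_lit 631206593459) (nat_lit 532) (nat_lit 720835317891) (nat_lit 608) (nat_lit 2239913984613) (nat_lit 88) (nat_lit 5) (nat_lit 95) (nat_lit 5) (nat_lit 96) (nat_lit 5) (nat_lit 390) (nat_lit 387) (nat_lit 243)))))) (XT.nd (nat_lit 390) (nat_lit 1216) (nat_lit 0) (XT.nd (nat_lit 156) (nat_lit 760) (nat_lit 0) (XT.nd (nat_lit 78) (nat_lit 532) (nat_lit 0) (XT.lf (nat_lit 0) (nat_lit 1232379767466) (nat_lit 532) (nat_lit 873684466140) (nat_lit 76) (nat_lit 1767428283736) (nat_lit 89) (nat_lit 5) (nat_lit 96) (nat_lit 5) (nat_lit 90) (nat_lit 5) (nat_lit 391) (nat_lit 387) (nat_lit 242)) (XT.lf (nat_lit 0) (nat_lit 2089479869510) (nat_lit 608) (nat_lit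 963597032973) (nat_lit 76) (nat_lit 1130922653290) (nat_lit 82) (nat_lit 5) (nat_lit 90) (nat_lit 5) (nat_lit 83) (nat_lit 5) (nat_lit 392) (nat_lit 387) (nat_lit 241))) (XT.nd (nat_lit 78) (nat_lit 532) (nat_lit 0) (XT.lf (nat_lit 0) (nat_lit 3252763797701) (nat_lit 304) (nat_lit 973370672645) (nat_lit 76) (nat_lit 300738674757) (nat_lit 79) (nat_lit 5) (nat_lit 83) (nat_lit 5) (nat_lit 80) (nat_lit 5) (nat_lit 393) (nat_lit 387) (nat_lit 240)) (XT.nd (nat_lit 78) (nat_lit 304) (nat_lit 0) (XT.lf (nat_lit 0) (nat_lit 4002645255463) (nat_lit 228) (nat_lit 797382100369) (nat_lit 304) (nat_lit 104391453743) (nat_lit 76) (nat_lit 5) (nat_lit 79) (nat_lit 5) (nat_lit 80) (nat_lit 5) (nat_lit 394) (nat_lit 387) (nat_lit 239)) (XT.lf (nat_lit 0) (nat_lit 1399703729756) (nat_lit 304) (nat_lit 755327128513) (nat_lit 76) (nat_lit 3163499102177) (nat_lit 72) (nat_lit 5) (nat_lit 76) (nat_lit 5) (nat_lit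 73) (nat_lit 5) (nat_lit 395) (nat_lit 387) (nat_lit 238))))) (XT.nd (nat_lit 234) (nat_lit 456) (nat_lit 0) (XT.nd (nat_lit 78) (nat_lit 532) (nat_lit 0) (XT.lf (nat_lit 0) (nat_lit 3350436251565) (nat_lit 304) (nat_lit 477651909161) (nat_lit 76) (nat_lit 1948276369933) (nat_lit 69) (nat_lit 5) (nat_lit 73) (nat_lit 5) (nat_lit 70) (nat_lit 5) (nat_lit 396) (nat_lit 387) (nat_lit 237)) (XT.nd (nat_lit 78) (nat_lit 380) (nat_lit 0) (XT.lf (nat_lit 0) (nat_lit 5836845089964) (nat_lit 228) (nat_lit 36268652396) (nat_lit 76) (nat_lit 410315228980) (nat_lit 67) (nat_lit 5) (nat_lit 70) (nat_lit 5) (nat_lit 68) (nat_lit 5) (nat_lit 397) (nat_lit 387) (nat_lit 236)) (XT.lf (nat_lit 0) (nat_lit 541180364088) (nat_lit 152) (nat_lit 1516037371192) (nat_lit 228) (nat_lit 4780288455575) (nat_lit 62) (nat_lit 5) (nat_lit 64) (nat_lit 5) (nat_lit 65) (nat_lit 5) (nat_lit 398) (nat_lit 387) (nat_lit 235))))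 (XT.nd (nat_lit 78) (nat_lit 304) (nat_lit 0) (XT.lf (nat_lit 0) (nat_lit 1321269294236) (nat_lit 152) (nat_lit 3895391364105) (nat_lit 228) (nat_lit 2232585263393) (nat_lit 60) (nat_lit 5) (nat_lit 62) (nat_lit 5) (nat_lit 63) (nat_lit 5) (nat_lit 399) (nat_lit 387) (nat_lit 234)) (XT.nd (nat_lit 78) (nat_lit 152) (nat_lit 0) (XT.lf (nat_lit 0) (nat_lit 984049531716) (nat_lit 152) (nat_lit 5782512049716) (nat_lit 76) (nat_lit 1359110950322) (nat_lit 58) (nat_lit 5) (nat_lit 60) (nat_lit 5) (nat_lit 59) (nat_lit 5) (nat_lit 400) (nat_lit 387) (nat_lit 233)) (XT.lf (nat_lit 0) (nat_lit 3571301707723) (nat_lit 152) (nat_lit 1360112681238) (nat_lit 228) (nat_lit 3937075301758) (nat_lit 56) (nat_lit 5) (nat_lit 58) (nat_lit 5) (nat_lit 59) (nat_lit 5) (nat_lit 401) (nat_lit 387) (nat_lit 232))))))) (XT.nd (nat_lit 780) (nat_lit 1216) (nat_lit 0) (XT.nd (nat_lit 390) (nat_lit 608) (nat_lit 0) (XT.nd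 (nat_lit 156) (nat_lit 456) (nat_lit 0) (XT.nd (nat_lit 78) (nat_lit 152) (nat_lit 0) (XT.lf (nat_lit 0) (nat_lit 183735772360) (nat_lit 152) (nat_lit 4591210277303) (nat_lit 76) (nat_lit 4914429293652) (nat_lit 54) (nat_lit 5) (nat_lit 56) (nat_lit 5) (nat_lit 55) (nat_lit 5) (nat_lit 402) (nat_lit 387) (nat_lit 231)) (XT.lf (nat_lit 0) (nat_lit 5104630031963) (nat_lit 228) (nat_lit 3691425853896) (nat_lit 76) (nat_lit 1795950596898) (nat_lit 52) (nat_lit 5) (nat_lit 55) (nat_lit 5) (nat_lit 53) (nat_lit 4) (nat_lit 403) (nat_lit 387) (nat_lit 230))) (XT.nd (nat_lit 78) (nat_lit 380) (nat_lit 0) (XT.lf (nat_lit 0) (nat_lit 9094225988380) (nat_lit 76) (nat_lit 2157352044942) (nat_lit 152) (nat_lit 339420691569) (nat_lit 51) (nat_lit 5) (nat_lit 52) (nat_lit 5) (nat_lit 53) (nat_lit 4) (nat_lit 404) (nat_lit 387) (nat_lit 229)) (XT.nd (nat_lit 78) (nat_lit 152) (nat_lit 0) (XT.lf (nat_lit 0)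 (nat_lit 5839585811559) (nat_lit 228) (nat_lit 1102787735485) (nat_lit 76) (nat_lit 5743686682601) (nat_lit 48) (nat_lit 5) (nat_lit 51) (nat_lit 5) (nat_lit 49) (nat_lit 4) (nat_lit 405) (nat_lit 387) (nat_lit 228)) (XT.lf (nat_lit 0) (nat_lit 750930404426) (nat_lit 76) (nat_lit 12709330751911) (nat_lit 76) (nat_lit 441621285323) (nat_lit 46) (nat_lit 4) (nat_lit 47) (nat_lit 5) (nat_lit 47) (nat_lit 4) (nat_lit 406) (nat_lit 387) (nat_lit 227))))) (XT.nd (nat_lit 156) (nat_lit 304) (nat_lit 0) (XT.nd (nat_lit 78) (nat_lit 152) (nat_lit 0) (XT.lf (nat_lit 0) (nat_lit 2888245677511) (nat_lit 76) (nat_lit 4398271218839) (nat_lit 152) (nat_lit 7943525649817) (nat_lit 44) (nat_lit 5) (nat_lit 45) (nat_lit 5) (nat_lit 46) (nat_lit 4) (nat_lit 407) (nat_lit 387) (nat_lit 226)) (XT.lf (nat_lit 0) (nat_lit 89302740825) (nat_lit 152) (nat_lit 11173240546461) (nat_lit 76) (nat_lit 5441726533719) (nat_lit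 42) (nat_lit 5) (nat_lit 44) (nat_lit 5) (nat_lit 43) (nat_lit 4) (nat_lit 408) (nat_lit 387) (nat_lit 225))) (XT.nd (nat_lit 78) (nat_lit 228) (nat_lit 0) (XT.lf (nat_lit 0) (nat_lit 8537688559251) (nat_lit 76) (nat_lit 1028022405578) (nat_lit 152) (nat_lit 8760694119978) (nat_lit 41) (nat_lit 5) (nat_lit 42) (nat_lit 5) (nat_lit 43) (nat_lit 4) (nat_lit 409) (nat_lit 387) (nat_lit 224)) (XT.nd (nat_lit 78) (nat_lit 76) (nat_lit 0) (XT.lf (nat_lit 0) (nat_lit 1162972922346) (nat_lit 152) (nat_lit 8098599884283) (nat_lit 76) (nat_lit 10857377389191) (nat_lit 39) (nat_lit 5) (nat_lit 41) (nat_lit 5) (nat_lit 40) (nat_lit 4) (nat_lit 410) (nat_lit 387) (nat_lit 223)) (XT.lf (nat_lit 0) (nat_lit 12857260923429) (nat_lit 152) (nat_lit 6122090345352) (nat_lit 0) (nat_lit 3118757624433) (nat_lit 38) (nat_lit 5) (nat_lit 40) (nat_lit 4) (nat_lit 38) (nat_lit 4) (nat_lit 411) (nat_lit 387) (nat_lit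 222)))))) (XT.nd (nat_lit 390) (nat_lit 532) (nat_lit 0) (XT.nd (nat_lit 156) (nat_lit 456) (nat_lit 0) (XT.nd (nat_lit 78) (nat_lit 76) (nat_lit 0) (XT.lf (nat_lit 0) (nat_lit 2853316591706) (nat_lit 152) (nat_lit 3803604788369) (nat_lit 76) (nat_lit 17632032519618) (nat_lit 36) (nat_lit 5) (nat_lit 38) (nat_lit 5) (nat_lit 37) (nat_lit 4) (nat_lit 412) (nat_lit 387) (nat_lit 221)) (XT.lf (nat_lit 0) (nat_lit 17238739287983) (nat_lit 152) (nat_lit 1246934421954) (nat_lit 0) (nat_lit 8221606603514) (nat_lit 35) (nat_lit 5) (nat_lit 37) (nat_lit 4) (nat_lit 35) (nat_lit 4) (nat_lit 413) (nat_lit 387) (nat_lit 220))) (XT.nd (nat_lit 78) (nat_lit 228) (nat_lit 0) (XT.lf (nat_lit 0) (nat_lit 1795385790234) (nat_lit 76) (nat_lit 3402940399567) (nat_lit 152) (nat_lit 24192209307950) (nat_lit 32) (nat_lit 5) (nat_lit 33) (nat_lit 5) (nat_lit 34) (nat_lit 4) (nat_lit 414) (nat_lit 387) (nat_lit 219))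 (XT.nd (nat_lit 78) (nat_lit 152) (nat_lit 0) (XT.lf (nat_lit 0) (nat_lit 5004781477535) (nat_lit 76) (nat_lit 17846636259378) (nat_lit 76) (nat_lit 9497439329166) (nat_lit 31) (nat_lit 4) (nat_lit 32) (nat_lit 5) (nat_lit 32) (nat_lit 4) (nat_lit 415) (nat_lit 387) (nat_lit 218)) (XT.lf (nat_lit 0) (nat_lit 8167992086733) (nat_lit 152) (nat_lit 27040503905163) (nat_lit 0) (nat_lit 437254188333) (nat_lit 29) (nat_lit 5) (nat_lit 31) (nat_lit 4) (nat_lit 29) (nat_lit 4) (nat_lit 416) (nat_lit 387) (nat_lit 217))))) (XT.nd (nat_lit 234) (nat_lit 228) (nat_lit 0) (XT.nd (nat_lit 78) (nat_lit 228) (nat_lit 0) (XT.lf (nat_lit 0) (nat_lit 12055466767038) (nat_lit 76) (nat_lit 17481705201206) (nat_lit 76) (nat_lit 9750967302757) (nat_lit 28) (nat_lit 4) (nat_lit 29) (nat_lit 5) (nat_lit 29) (nat_lit 4) (nat_lit 417) (nat_lit 387) (nat_lit 216)) (XT.nd (nat_lit 78) (nat_lit 76) (nat_lit 0) (XT.lf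 (nat_lit 0) (nat_lit 11396668584528) (nat_lit 152) (nat_lit 27717672798289) (nat_lit 0) (nat_lit 4238577937778) (nat_lit 26) (nat_lit 5) (nat_lit 28) (nat_lit 4) (nat_lit 26) (nat_lit 4) (nat_lit 418) (nat_lit 387) (nat_lit 215)) (XT.lf (nat_lit 0) (nat_lit 18784381897064) (nat_lit 76) (nat_lit 18119826695935) (nat_lit 76) (nat_lit 10961736049150) (nat_lit 25) (nat_lit 4) (nat_lit 26) (nat_lit 5) (nat_lit 26) (nat_lit 4) (nat_lit 419) (nat_lit 387) (nat_lit 214)))) (XT.nd (nat_lit 78) (nat_lit 76) (nat_lit 0) (XT.lf (nat_lit 0) (nat_lit 14060432544434) (nat_lit 152) (nat_lit 31414526952918) (nat_lit 0) (nat_lit 7432570834421) (nat_lit 23) (nat_lit 5) (nat_lit 25) (nat_lit 4) (nat_lit 23) (nat_lit 4) (nat_lit 420) (nat_lit 387) (nat_lit 213)) (XT.nd (nat_lit 50544) (nat_lit 0) (nat_lit 5396) (XT.lf (nat_lit 0) (nat_lit 23106806164129) (nat_lit 76) (nat_lit 21024056173346) (nat_lit 76) (nat_lit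 14396194463309) (nat_lit 22) (nat_lit 4) (nat_lit 23) (nat_lit 5) (nat_lit 23) (nat_lit 4) (nat_lit 421) (nat_lit 387) (nat_lit 212)) (XT.lf (nat_lit 0) (nat_lit 1641377349299) (nat_lit 532) (nat_lit 10949018588) (nat_lit 532) (nat_lit 10949018588) (nat_lit 93) (nat_lit 3) (nat_lit 100) (nat_lit 3) (nat_lit 100) (nat_lit 5) (nat_lit 388) (nat_lit 388) (nat_lit 244))))))))
noncomputable def xc116 : XT := (XT.nd (nat_lit 1638) (nat_lit 1444) (nat_lit 0) (XT.nd (nat_lit 780) (nat_lit 1900) (nat_lit 0) (XT.nd (nat_lit 390) (nat_lit 1140) (nat_lit 0) (XT.nd (nat_lit 156) (nat_lit 304) (nat_lit 0) (XT.nd (nat_lit 78) (nat_lit 0) (nat_lit 76) (XT.lf (nat_lit 0) (nat_lit 35385431449) (nat_lit 532) (nat_lit 324004198452) (nat_lit 608) (nat_lit 3210334151322) (nat_lit 86) (nat_lit 5) (nat_lit 93) (nat_lit 3) (nat_lit 94) (nat_lit 5) (nat_lit 389) (nat_lit 388) (nat_lit 243)) (XT.lf (nat_lit 0) (nat_lit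 279371327109) (nat_lit 532) (nat_lit 597419222305) (nat_lit 608) (nat_lit 2960049556070) (nat_lit 87) (nat_lit 5) (nat_lit 94) (nat_lit 5) (nat_lit 95) (nat_lit 5) (nat_lit 390) (nat_lit 388) (nat_lit 242))) (XT.nd (nat_lit 78) (nat_lit 456) (nat_lit 0) (XT.lf (nat_lit 0) (nat_lit 725887600226) (nat_lit 532) (nat_lit 828960600789) (nat_lit 608) (nat_lit 2575901077920) (nat_lit 88) (nat_lit 5) (nat_lit 95) (nat_lit 5) (nat_lit 96) (nat_lit 5) (nat_lit 391) (nat_lit 388) (nat_lit 241)) (XT.nd (nat_lit 78) (nat_lit 532) (nat_lit 0) (XT.lf (nat_lit 0) (nat_lit 1417236748292) (nat_lit 532) (nat_lit 1004737121211) (nat_lit 76) (nat_lit 2032542524182) (nat_lit 89) (nat_lit 5) (nat_lit 96) (nat_lit 5) (nat_lit 90) (nat_lit 5) (nat_lit 392) (nat_lit 388) (nat_lit 240)) (XT.lf (nat_lit 0) (nat_lit 2402901863912) (nat_lit 608) (nat_lit 1108136573197) (nat_lit 76) (nat_lit 1300561050912) (nat_lit 82)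 (nat_lit 5) (nat_lit 90) (nat_lit 5) (nat_lit 83) (nat_lit 5) (nat_lit 393) (nat_lit 388) (nat_lit 239))))) (XT.nd (nat_lit 156) (nat_lit 684) (nat_lit 0) (XT.nd (nat_lit 78) (nat_lit 228) (nat_lit 0) (XT.lf (nat_lit 0) (nat_lit 3740678379857) (nat_lit 304) (nat_lit 1119376259090) (nat_lit 76) (nat_lit 345849476921) (nat_lit 79) (nat_lit 5) (nat_lit 83) (nat_lit 5) (nat_lit 80) (nat_lit 5) (nat_lit 394) (nat_lit 388) (nat_lit 238)) (XT.lf (nat_lit 0) (nat_lit 4603042057011) (nat_lit 228) (nat_lit 916989413383) (nat_lit 304) (nat_lit 120050159721) (nat_lit 76) (nat_lit 5) (nat_lit 79) (nat_lit 5) (nat_lit 80) (nat_lit 5) (nat_lit 395) (nat_lit 388) (nat_lit 237))) (XT.nd (nat_lit 78) (nat_lit 380) (nat_lit 0) (XT.lf (nat_lit 0) (nat_lit 1609659299563) (nat_lit 304) (nat_lit 868626184360) (nat_lit 76) (nat_lit 3638023969761) (nat_lit 72) (nat_lit 5) (nat_lit 76) (nat_lit 5) (nat_lit 73) (nat_lit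 5) (nat_lit 396) (nat_lit 388) (nat_lit 236)) (XT.nd (nat_lit 78) (nat_lit 152) (nat_lit 0) (XT.lf (nat_lit 0) (nat_lit 3853001698662) (nat_lit 304) (nat_lit 549299682571) (nat_lit 76) (nat_lit 2240517828276) (nat_lit 69) (nat_lit 5) (nat_lit 73) (nat_lit 5) (nat_lit 70) (nat_lit 5) (nat_lit 397) (nat_lit 388) (nat_lit 235)) (XT.lf (nat_lit 0) (nat_lit 6712371861968) (nat_lit 228) (nat_lit 41708937796) (nat_lit 76) (nat_lit 471862516595) (nat_lit 67) (nat_lit 5) (nat_lit 70) (nat_lit 5) (nat_lit 68) (nat_lit 5) (nat_lit 398) (nat_lit 388) (nat_lit 234)))))) (XT.nd (nat_lit 390) (nat_lit 912) (nat_lit 0) (XT.nd (nat_lit 156) (nat_lit 456) (nat_lit 0) (XT.nd (nat_lit 78) (nat_lit 152) (nat_lit 0) (XT.lf (nat_lit 0) (nat_lit 622357431144) (nat_lit 152) (nat_lit 1743442972602) (nat_lit 228) (nat_lit 5497331715083) (nat_lit 62) (nat_lit 5) (nat_lit 64) (nat_lit 5) (nat_lit 65) (nat_lit 5) (nat_lit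 399) (nat_lit 388) (nat_lit 233)) (XT.lf (nat_lit 0) (nat_lit 1519459700265) (nat_lit 152) (nat_lit 4479700064309) (nat_lit 228) (nat_lit 2567473044821) (nat_lit 60) (nat_lit 5) (nat_lit 62) (nat_lit 5) (nat_lit 63) (nat_lit 5) (nat_lit 400) (nat_lit 388) (nat_lit 232))) (XT.nd (nat_lit 78) (nat_lit 304) (nat_lit 0) (XT.lf (nat_lit 0) (nat_lit 1131656968524) (nat_lit 152) (nat_lit 6649888845463) (nat_lit 76) (nat_lit 1562977596966) (nat_lit 58) (nat_lit 5) (nat_lit 60) (nat_lit 5) (nat_lit 59) (nat_lit 5) (nat_lit 401) (nat_lit 388) (nat_lit 231)) (XT.nd (nat_lit 78) (nat_lit 152) (nat_lit 0) (XT.lf (nat_lit 0) (nat_lit 4106996974601) (nat_lit 152) (nat_lit 1564129579093) (nat_lit 228) (nat_lit 4527636590122) (nat_lit 56) (nat_lit 5) (nat_lit 58) (nat_lit 5) (nat_lit 59) (nat_lit 5) (nat_lit 402) (nat_lit 388) (nat_lit 230)) (XT.lf (nat_lit 0) (nat_lit 211296144258) (nat_lit 152) (nat_lit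 5279891808395) (nat_lit 76) (nat_lit 5651593691675) (nat_lit 54) (nat_lit 5) (nat_lit 56) (nat_lit 5) (nat_lit 55) (nat_lit 5) (nat_lit 403) (nat_lit 388) (nat_lit 229))))) (XT.nd (nat_lit 234) (nat_lit 456) (nat_lit 0) (XT.nd (nat_lit 78) (nat_lit 304) (nat_lit 0) (XT.lf (nat_lit 0) (nat_lit 5870324542343) (nat_lit 228) (nat_lit 4245139722026) (nat_lit 76) (nat_lit 2065343190354) (nat_lit 52) (nat_lit 5) (nat_lit 55) (nat_lit 5) (nat_lit 53) (nat_lit 4) (nat_lit 404) (nat_lit 388) (nat_lit 228)) (XT.nd (nat_lit 78) (nat_lit 228) (nat_lit 0) (XT.lf (nat_lit 0) (nat_lit 10458359895748) (nat_lit 76) (nat_lit 2480954847649) (nat_lit 152) (nat_lit 390333789821) (nat_lit 51) (nat_lit 5) (nat_lit 52) (nat_lit 5) (nat_lit 53) (nat_lit 4) (nat_lit 405) (nat_lit 388) (nat_lit 227)) (XT.lf (nat_lit 0) (nat_lit 6715523688121) (nat_lit 228) (nat_lit 1268205886930) (nat_lit 76) (nat_lit 6605239688654)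 (nat_lit 48) (nat_lit 5) (nat_lit 51) (nat_lit 5) (nat_lit 49) (nat_lit 4) (nat_lit 406) (nat_lit 388) (nat_lit 226)))) (XT.nd (nat_lit 78) (nat_lit 304) (nat_lit 0) (XT.lf (nat_lit 0) (nat_lit 863569973920) (nat_lit 76) (nat_lit 14615730360564) (nat_lit 76) (nat_lit 507864473049) (nat_lit 46) (nat_lit 4) (nat_lit 47) (nat_lit 5) (nat_lit 47) (nat_lit 4) (nat_lit 407) (nat_lit 388) (nat_lit 225)) (XT.nd (nat_lit 78) (nat_lit 152) (nat_lit 0) (XT.lf (nat_lit 0) (nat_lit 3321482537453) (nat_lit 76) (nat_lit 5058011897740) (nat_lit 152) (nat_lit 9135054492548) (nat_lit 44) (nat_lit 5) (nat_lit 45) (nat_lit 5) (nat_lit 46) (nat_lit 4) (nat_lit 408) (nat_lit 388) (nat_lit 224)) (XT.lf (nat_lit 0) (nat_lit 102698156143) (nat_lit 152) (nat_lit 12849226620363) (nat_lit 76) (nat_lit 6257985517314) (nat_lit 42) (nat_lit 5) (nat_lit 44) (nat_lit 5) (nat_lit 43) (nat_lit 4) (nat_lit 409) (nat_lit 388)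 (nat_lit 223))))))) (XT.nd (nat_lit 780) (nat_lit 228) (nat_lit 0) (XT.nd (nat_lit 390) (nat_lit 684) (nat_lit 0) (XT.nd (nat_lit 156) (nat_lit 304) (nat_lit 0) (XT.nd (nat_lit 78) (nat_lit 152) (nat_lit 0) (XT.lf (nat_lit 0) (nat_lit 9818341850524) (nat_lit 76) (nat_lit 1182225762856) (nat_lit 152) (nat_lit 10074798233844) (nat_lit 41) (nat_lit 5) (nat_lit 42) (nat_lit 5) (nat_lit 43) (nat_lit 4) (nat_lit 410) (nat_lit 388) (nat_lit 222)) (XT.lf (nat_lit 0) (nat_lit 1337418864359) (nat_lit 152) (nat_lit 9313389859771) (nat_lit 76) (nat_lit 12485984000771) (nat_lit 39) (nat_lit 5) (nat_lit 41) (nat_lit 5) (nat_lit 40) (nat_lit 4) (nat_lit 411) (nat_lit 388) (nat_lit 221))) (XT.nd (nat_lit 78) (nat_lit 228) (nat_lit 0) (XT.lf (nat_lit 0) (nat_lit 14785850065362) (nat_lit 152) (nat_lit 7040403890417) (nat_lit 0) (nat_lit 3586571271145) (nat_lit 38) (nat_lit 5) (nat_lit 40) (nat_lit 4) (nat_lit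 38) (nat_lit 4) (nat_lit 412) (nat_lit 388) (nat_lit 220)) (XT.nd (nat_lit 78) (nat_lit 76) (nat_lit 0) (XT.lf (nat_lit 0) (nat_lit 3281314083664) (nat_lit 152) (nat_lit 4374145500287) (nat_lit 76) (nat_lit 20276837400440) (nat_lit 36) (nat_lit 5) (nat_lit 38) (nat_lit 5) (nat_lit 37) (nat_lit 4) (nat_lit 413) (nat_lit 388) (nat_lit 219)) (XT.lf (nat_lit 0) (nat_lit 19824550184173) (nat_lit 152) (nat_lit 1433974579283) (nat_lit 0) (nat_lit 9454847596775) (nat_lit 35) (nat_lit 5) (nat_lit 37) (nat_lit 4) (nat_lit 35) (nat_lit 4) (nat_lit 414) (nat_lit 388) (nat_lit 218))))) (XT.nd (nat_lit 156) (nat_lit 380) (nat_lit 0) (XT.nd (nat_lit 78) (nat_lit 76) (nat_lit 0) (XT.lf (nat_lit 0) (nat_lit 2064693664673) (nat_lit 76) (nat_lit 3913381456546) (nat_lit 152) (nat_lit 27821040700961) (nat_lit 32) (nat_lit 5) (nat_lit 33) (nat_lit 5) (nat_lit 34) (nat_lit 4) (nat_lit 415) (nat_lit 388) (nat_lit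 217)) (XT.lf (nat_lit 0) (nat_lit 5755498704719) (nat_lit 76) (nat_lit 20523631695488) (nat_lit 76) (nat_lit 10922055225562) (nat_lit 31) (nat_lit 4) (nat_lit 32) (nat_lit 5) (nat_lit 32) (nat_lit 4) (nat_lit 416) (nat_lit 388) (nat_lit 216))) (XT.nd (nat_lit 78) (nat_lit 228) (nat_lit 0) (XT.lf (nat_lit 0) (nat_lit 9393190902392) (nat_lit 152) (nat_lit 31096579485574) (nat_lit 0) (nat_lit 502842319085) (nat_lit 29) (nat_lit 5) (nat_lit 31) (nat_lit 4) (nat_lit 29) (nat_lit 4) (nat_lit 417) (nat_lit 388) (nat_lit 215)) (XT.nd (nat_lit 78) (nat_lit 152) (nat_lit 0) (XT.lf (nat_lit 0) (nat_lit 13863786787004) (nat_lit 76) (nat_lit 20103960978898) (nat_lit 76) (nat_lit 11213612395555) (nat_lit 28) (nat_lit 4) (nat_lit 29) (nat_lit 5) (nat_lit 29) (nat_lit 4) (nat_lit 418) (nat_lit 388) (nat_lit 214)) (XT.lf (nat_lit 0) (nat_lit 13106168874536) (nat_lit 152) (nat_lit 31875323713293) (nat_lit 0)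 (nat_lit 4874364630670) (nat_lit 26) (nat_lit 5) (nat_lit 28) (nat_lit 4) (nat_lit 26) (nat_lit 4) (nat_lit 419) (nat_lit 388) (nat_lit 213)))))) (XT.nd (nat_lit 50934) (nat_lit 0) (nat_lit 3724) (XT.nd (nat_lit 50700) (nat_lit 0) (nat_lit 4788) (XT.nd (nat_lit 78) (nat_lit 152) (nat_lit 0) (XT.lf (nat_lit 0) (nat_lit 21602039185962) (nat_lit 76) (nat_lit 20837800698115) (nat_lit 76) (nat_lit 12605996454224) (nat_lit 25) (nat_lit 4) (nat_lit 26) (nat_lit 5) (nat_lit 26) (nat_lit 4) (nat_lit 420) (nat_lit 388) (nat_lit 212)) (XT.lf (nat_lit 0) (nat_lit 16169497428146) (nat_lit 152) (nat_lit 36126705991670) (nat_lit 0) (nat_lit 8547456461559) (nat_lit 23) (nat_lit 5) (nat_lit 25) (nat_lit 4) (nat_lit 23) (nat_lit 4) (nat_lit 421) (nat_lit 388) (nat_lit 211))) (XT.nd (nat_lit 78) (nat_lit 532) (nat_lit 0) (XT.lf (nat_lit 0) (nat_lit 1887583961334) (nat_lit 532) (nat_lit 12591366170) (nat_lit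 532) (nat_lit 12591366170) (nat_lit 93) (nat_lit 3) (nat_lit 100) (nat_lit 3) (nat_lit 100) (nat_lit 5) (nat_lit 389) (nat_lit 389) (nat_lit 242)) (XT.nd (nat_lit 78) (nat_lit 0) (nat_lit 76) (XT.lf (nat_lit 0) (nat_lit 40693263604) (nat_lit 532) (nat_lit 372604817769) (nat_lit 608) (nat_lit 3691884265637) (nat_lit 86) (nat_lit 5) (nat_lit 93) (nat_lit 3) (nat_lit 94) (nat_lit 5) (nat_lit 390) (nat_lit 389) (nat_lit 241)) (XT.lf (nat_lit 0) (nat_lit 321277041429) (nat_lit 532) (nat_lit 687032094711) (nat_lit 608) (nat_lit 3404056983945) (nat_lit 87) (nat_lit 5) (nat_lit 94) (nat_lit 5) (nat_lit 95) (nat_lit 5) (nat_lit 391) (nat_lit 389) (nat_lit 240))))) (XT.nd (nat_lit 234) (nat_lit 760) (nat_lit 0) (XT.nd (nat_lit 78) (nat_lit 456) (nat_lit 0) (XT.lf (nat_lit 0) (nat_lit 834770753681) (nat_lit 532) (nat_lit 953304679727) (nat_lit 608) (nat_lit 2962286236292) (nat_lit 88) (nat_lit 5) (nat_lit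 95) (nat_lit 5) (nat_lit 96) (nat_lit 5) (nat_lit 392) (nat_lit 389) (nat_lit 239)) (XT.nd (nat_lit 78) (nat_lit 532) (nat_lit 0) (XT.lf (nat_lit 0) (nat_lit 1629822272412) (nat_lit 532) (nat_lit 1155447678163) (nat_lit 76) (nat_lit 2337423901211) (nat_lit 89) (nat_lit 5) (nat_lit 96) (nat_lit 5) (nat_lit 90) (nat_lit 5) (nat_lit 393) (nat_lit 389) (nat_lit 238)) (XT.lf (nat_lit 0) (nat_lit 2763337154065) (nat_lit 608) (nat_lit 1274357048044) (nat_lit 76) (nat_lit 1495645208268) (nat_lit 82) (nat_lit 5) (nat_lit 90) (nat_lit 5) (nat_lit 83) (nat_lit 5) (nat_lit 394) (nat_lit 389) (nat_lit 237)))) (XT.nd (nat_lit 78) (nat_lit 532) (nat_lit 0) (XT.lf (nat_lit 0) (nat_lit 4301780146287) (nat_lit 304) (nat_lit 1287282687025) (nat_lit 76) (nat_lit 397726899178) (nat_lit 79) (nat_lit 5) (nat_lit 83) (nat_lit 5) (nat_lit 80) (nat_lit 5) (nat_lit 395) (nat_lit 389) (nat_lit 236)) (XT.nd (nat_lit 78)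 (nat_lit 304) (nat_lit 0) (XT.lf (nat_lit 0) (nat_lit 5293498375565) (nat_lit 228) (nat_lit 1054537823848) (nat_lit 304) (nat_lit 138057674542) (nat_lit 76) (nat_lit 5) (nat_lit 79) (nat_lit 5) (nat_lit 80) (nat_lit 5) (nat_lit 396) (nat_lit 389) (nat_lit 235)) (XT.lf (nat_lit 0) (nat_lit 1851108202319) (nat_lit 304) (nat_lit 998920101859) (nat_lit 76) (nat_lit 4183727566933) (nat_lit 72) (nat_lit 5) (nat_lit 76) (nat_lit 5) (nat_lit 73) (nat_lit 5) (nat_lit 397) (nat_lit 389) (nat_lit 234))))))))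
noncomputable def xc117 : XT := (XT.nd (nat_lit 1638) (nat_lit 228) (nat_lit 0) (XT.nd (nat_lit 780) (nat_lit 1444) (nat_lit 0) (XT.nd (nat_lit 390) (nat_lit 760) (nat_lit 0) (XT.nd (nat_lit 156) (nat_lit 684) (nat_lit 0) (XT.nd (nat_lit 78) (nat_lit 152) (nat_lit 0) (XT.lf (nat_lit 0) (nat_lit 4430951960541) (nat_lit 304) (nat_lit 631694625153) (nat_lit 76) (nat_lit 2576595504674) (nat_lit 69) (nat_lit 5) (nat_lit 73) (nat_lit 5) (nat_lit 70) (nat_lit 5) (nat_lit 398) (nat_lit 389) (nat_lit 233)) (XT.lf (nat_lit 0) (nat_lit 7719227647698) (nat_lit 228) (nat_lit 47965269044) (nat_lit 76) (nat_lit 542641896556) (nat_lit 67) (nat_lit 5) (nat_lit 70) (nat_lit 5) (nat_lit 68) (nat_lit 5) (nat_lit 399) (nat_lit 389) (nat_lit 232))) (XT.nd (nat_lit 78) (nat_lit 304) (nat_lit 0) (XT.lf (nat_lit 0) (nat_lit 715711055224) (nat_lit 152) (nat_lit 2004959415264) (nat_lit 228) (nat_lit 6321931465671) (nat_lit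 62) (nat_lit 5) (nat_lit 64) (nat_lit 5) (nat_lit 65) (nat_lit 5) (nat_lit 400) (nat_lit 389) (nat_lit 231)) (XT.nd (nat_lit 78) (nat_lit 152) (nat_lit 0) (XT.lf (nat_lit 0) (nat_lit 1747378664299) (nat_lit 152) (nat_lit 5151655070619) (nat_lit 228) (nat_lit 2952593995434) (nat_lit 60) (nat_lit 5) (nat_lit 62) (nat_lit 5) (nat_lit 63) (nat_lit 5) (nat_lit 401) (nat_lit 389) (nat_lit 230)) (XT.lf (nat_lit 0) (nat_lit 1301405519134) (nat_lit 152) (nat_lit 7647372163427) (nat_lit 76) (nat_lit 1797424239608) (nat_lit 58) (nat_lit 5) (nat_lit 60) (nat_lit 5) (nat_lit 59) (nat_lit 5) (nat_lit 402) (nat_lit 389) (nat_lit 229))))) (XT.nd (nat_lit 156) (nat_lit 456) (nat_lit 0) (XT.nd (nat_lit 78) (nat_lit 152) (nat_lit 0) (XT.lf (nat_lit 0) (nat_lit 4723046528897) (nat_lit 152) (nat_lit 1798749012682) (nat_lit 228) (nat_lit 5206782073423) (nat_lit 56) (nat_lit 5) (nat_lit 58) (nat_lit 5) (nat_lit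 59) (nat_lit 5) (nat_lit 403) (nat_lit 389) (nat_lit 228)) (XT.lf (nat_lit 0) (nat_lit 242990570467) (nat_lit 152) (nat_lit 6071875571712) (nat_lit 76) (nat_lit 6499332748433) (nat_lit 54) (nat_lit 5) (nat_lit 56) (nat_lit 5) (nat_lit 55) (nat_lit 5) (nat_lit 404) (nat_lit 389) (nat_lit 227))) (XT.nd (nat_lit 78) (nat_lit 304) (nat_lit 0) (XT.lf (nat_lit 0) (nat_lit 6750873227919) (nat_lit 228) (nat_lit 4881910672803) (nat_lit 76) (nat_lit 2375144671872) (nat_lit 52) (nat_lit 5) (nat_lit 55) (nat_lit 5) (nat_lit 53) (nat_lit 4) (nat_lit 405) (nat_lit 389) (nat_lit 226)) (XT.nd (nat_lit 78) (nat_lit 228) (nat_lit 0) (XT.lf (nat_lit 0) (nat_lit 12027113887000) (nat_lit 76) (nat_lit 2853098071745) (nat_lit 152) (nat_lit 448883854148) (nat_lit 51) (nat_lit 5) (nat_lit 52) (nat_lit 5) (nat_lit 53) (nat_lit 4) (nat_lit 406) (nat_lit 389) (nat_lit 225)) (XT.lf (nat_lit 0) (nat_lit 7722852244991)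 (nat_lit 228) (nat_lit 1458436763256) (nat_lit 76) (nat_lit 7596025644722) (nat_lit 48) (nat_lit 5) (nat_lit 51) (nat_lit 5) (nat_lit 49) (nat_lit 4) (nat_lit 407) (nat_lit 389) (nat_lit 224)))))) (XT.nd (nat_lit 390) (nat_lit 760) (nat_lit 0) (XT.nd (nat_lit 156) (nat_lit 380) (nat_lit 0) (XT.nd (nat_lit 78) (nat_lit 152) (nat_lit 0) (XT.lf (nat_lit 0) (nat_lit 993105476686) (nat_lit 76) (nat_lit 16808089911523) (nat_lit 76) (nat_lit 584044140171) (nat_lit 46) (nat_lit 4) (nat_lit 47) (nat_lit 5) (nat_lit 47) (nat_lit 4) (nat_lit 408) (nat_lit 389) (nat_lit 223)) (XT.lf (nat_lit 0) (nat_lit 3819704924358) (nat_lit 76) (nat_lit 5816713679433) (nat_lit 152) (nat_lit 10505312662845) (nat_lit 44) (nat_lit 5) (nat_lit 45) (nat_lit 5) (nat_lit 46) (nat_lit 4) (nat_lit 409) (nat_lit 389) (nat_lit 222))) (XT.nd (nat_lit 78) (nat_lit 228) (nat_lit 0) (XT.lf (nat_lit 0) (nat_lit 118102882736) (nat_lit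 152) (nat_lit 14776610607318) (nat_lit 76) (nat_lit 7196683347586) (nat_lit 42) (nat_lit 5) (nat_lit 44) (nat_lit 5) (nat_lit 43) (nat_lit 4) (nat_lit 410) (nat_lit 389) (nat_lit 221)) (XT.nd (nat_lit 78) (nat_lit 152) (nat_lit 0) (XT.lf (nat_lit 0) (nat_lit 11291093133686) (nat_lit 76) (nat_lit 1359559624593) (nat_lit 152) (nat_lit 11586017965797) (nat_lit 41) (nat_lit 5) (nat_lit 42) (nat_lit 5) (nat_lit 43) (nat_lit 4) (nat_lit 411) (nat_lit 389) (nat_lit 220)) (XT.lf (nat_lit 0) (nat_lit 1538031696781) (nat_lit 152) (nat_lit 10710398333327) (nat_lit 76) (nat_lit 14358881603306) (nat_lit 39) (nat_lit 5) (nat_lit 41) (nat_lit 5) (nat_lit 40) (nat_lit 4) (nat_lit 412) (nat_lit 389) (nat_lit 219))))) (XT.nd (nat_lit 234) (nat_lit 456) (nat_lit 0) (XT.nd (nat_lit 78) (nat_lit 228) (nat_lit 0) (XT.lf (nat_lit 0) (nat_lit 17003727577750) (nat_lit 152) (nat_lit 8096464468883) (nat_lit 0) (nat_lit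 4124556964121) (nat_lit 38) (nat_lit 5) (nat_lit 40) (nat_lit 4) (nat_lit 38) (nat_lit 4) (nat_lit 413) (nat_lit 389) (nat_lit 218)) (XT.nd (nat_lit 78) (nat_lit 76) (nat_lit 0) (XT.lf (nat_lit 0) (nat_lit 3773511198634) (nat_lit 152) (nat_lit 5030267320539) (nat_lit 76) (nat_lit 23318363012683) (nat_lit 36) (nat_lit 5) (nat_lit 38) (nat_lit 5) (nat_lit 37) (nat_lit 4) (nat_lit 414) (nat_lit 389) (nat_lit 217)) (XT.lf (nat_lit 0) (nat_lit 22798232714062) (nat_lit 152) (nat_lit 1649070761665) (nat_lit 0) (nat_lit 10873074738358) (nat_lit 35) (nat_lit 5) (nat_lit 37) (nat_lit 4) (nat_lit 35) (nat_lit 4) (nat_lit 415) (nat_lit 389) (nat_lit 216)))) (XT.nd (nat_lit 78) (nat_lit 228) (nat_lit 0) (XT.lf (nat_lit 0) (nat_lit 2374397718838) (nat_lit 76) (nat_lit 4500388672792) (nat_lit 152) (nat_lit 31994196803698) (nat_lit 32) (nat_lit 5) (nat_lit 33) (nat_lit 5) (nat_lit 34) (nat_lit 4) (nat_lit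 416) (nat_lit 389) (nat_lit 215)) (XT.nd (nat_lit 78) (nat_lit 152) (nat_lit 0) (XT.lf (nat_lit 0) (nat_lit 6618823514627) (nat_lit 76) (nat_lit 23602176447697) (nat_lit 76) (nat_lit 12560363507145) (nat_lit 31) (nat_lit 4) (nat_lit 32) (nat_lit 5) (nat_lit 32) (nat_lit 4) (nat_lit 417) (nat_lit 389) (nat_lit 214)) (XT.lf (nat_lit 0) (nat_lit 10802169539754) (nat_lit 152) (nat_lit 35761066404354) (nat_lit 0) (nat_lit 578268668841) (nat_lit 29) (nat_lit 5) (nat_lit 31) (nat_lit 4) (nat_lit 29) (nat_lit 4) (nat_lit 418) (nat_lit 389) (nat_lit 213))))))) (XT.nd (nat_lit 51480) (nat_lit 0) (nat_lit 1672) (XT.nd (nat_lit 51090) (nat_lit 0) (nat_lit 3800) (XT.nd (nat_lit 50856) (nat_lit 0) (nat_lit 4560) (XT.nd (nat_lit 78) (nat_lit 152) (nat_lit 0) (XT.lf (nat_lit 0) (nat_lit 15943354808767) (nat_lit 76) (nat_lit 23119555123851) (nat_lit 76) (nat_lit 12895654252911) (nat_lit 28) (nat_lit 4) (nat_lit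 29) (nat_lit 5) (nat_lit 29) (nat_lit 4) (nat_lit 419) (nat_lit 389) (nat_lit 212)) (XT.lf (nat_lit 0) (nat_lit 15072094207476) (nat_lit 152) (nat_lit 36656622266704) (nat_lit 0) (nat_lit 5605519326953) (nat_lit 26) (nat_lit 5) (nat_lit 28) (nat_lit 4) (nat_lit 26) (nat_lit 4) (nat_lit 420) (nat_lit 389) (nat_lit 211))) (XT.nd (nat_lit 78) (nat_lit 532) (nat_lit 0) (XT.lf (nat_lit 0) (nat_lit 2170721562823) (nat_lit 532) (nat_lit 14480067158) (nat_lit 532) (nat_lit 14480067158) (nat_lit 93) (nat_lit 3) (nat_lit 100) (nat_lit 3) (nat_lit 100) (nat_lit 5) (nat_lit 390) (nat_lit 390) (nat_lit 240)) (XT.nd (nat_lit 78) (nat_lit 0) (nat_lit 76) (XT.lf (nat_lit 0) (nat_lit 46797266331) (nat_lit 532) (nat_lit 428495532532) (nat_lit 608) (nat_lit 4245666899144) (nat_lit 86) (nat_lit 5) (nat_lit 93) (nat_lit 3) (nat_lit 94) (nat_lit 5) (nat_lit 391) (nat_lit 390) (nat_lit 239)) (XT.lf (nat_lit 0) (nat_lit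 369468609177) (nat_lit 532) (nat_lit 790086900645) (nat_lit 608) (nat_lit 3914665527351) (nat_lit 87) (nat_lit 5) (nat_lit 94) (nat_lit 5) (nat_lit 95) (nat_lit 5) (nat_lit 392) (nat_lit 390) (nat_lit 238))))) (XT.nd (nat_lit 156) (nat_lit 912) (nat_lit 0) (XT.nd (nat_lit 78) (nat_lit 0) (nat_lit 76) (XT.lf (nat_lit 0) (nat_lit 959986376881) (nat_lit 532) (nat_lit 1096300373233) (nat_lit 608) (nat_lit 3406629169228) (nat_lit 88) (nat_lit 5) (nat_lit 95) (nat_lit 5) (nat_lit 96) (nat_lit 5) (nat_lit 393) (nat_lit 390) (nat_lit 237)) (XT.lf (nat_lit 0) (nat_lit 1874295622253) (nat_lit 532) (nat_lit 1328764821397) (nat_lit 76) (nat_lit 2688037485184) (nat_lit 89) (nat_lit 5) (nat_lit 96) (nat_lit 5) (nat_lit 90) (nat_lit 5) (nat_lit 394) (nat_lit 390) (nat_lit 236))) (XT.nd (nat_lit 78) (nat_lit 456) (nat_lit 0) (XT.lf (nat_lit 0) (nat_lit 3177837735165) (nat_lit 608) (nat_lit 1465510596833)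 (nat_lit 76) (nat_lit 1719991989295) (nat_lit 82) (nat_lit 5) (nat_lit 90) (nat_lit 5) (nat_lit 83) (nat_lit 5) (nat_lit 395) (nat_lit 390) (nat_lit 235)) (XT.nd (nat_lit 78) (nat_lit 228) (nat_lit 0) (XT.lf (nat_lit 0) (nat_lit 4947047175377) (nat_lit 304) (nat_lit 1480375081816) (nat_lit 76) (nat_lit 457385934598) (nat_lit 79) (nat_lit 5) (nat_lit 83) (nat_lit 5) (nat_lit 80) (nat_lit 5) (nat_lit 396) (nat_lit 390) (nat_lit 234)) (XT.lf (nat_lit 0) (nat_lit 6087523139464) (nat_lit 228) (nat_lit 1212718496258) (nat_lit 304) (nat_lit 158766318815) (nat_lit 76) (nat_lit 5) (nat_lit 79) (nat_lit 5) (nat_lit 80) (nat_lit 5) (nat_lit 397) (nat_lit 390) (nat_lit 233)))))) (XT.nd (nat_lit 390) (nat_lit 912) (nat_lit 0) (XT.nd (nat_lit 156) (nat_lit 684) (nat_lit 0) (XT.nd (nat_lit 78) (nat_lit 228) (nat_lit 0) (XT.lf (nat_lit 0) (nat_lit 2128774438582) (nat_lit 304) (nat_lit 1148758109459) (nat_lit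 76) (nat_lit 4811286703263) (nat_lit 72) (nat_lit 5) (nat_lit 76) (nat_lit 5) (nat_lit 73) (nat_lit 5) (nat_lit 398) (nat_lit 390) (nat_lit 232)) (XT.lf (nat_lit 0) (nat_lit 5095594759976) (nat_lit 304) (nat_lit 726448811513) (nat_lit 76) (nat_lit 2963084832006) (nat_lit 69) (nat_lit 5) (nat_lit 73) (nat_lit 5) (nat_lit 70) (nat_lit 5) (nat_lit 399) (nat_lit 390) (nat_lit 231))) (XT.nd (nat_lit 78) (nat_lit 532) (nat_lit 0) (XT.lf (nat_lit 0) (nat_lit 8877111799718) (nat_lit 228) (nat_lit 55160052277) (nat_lit 76) (nat_lit 624038182909) (nat_lit 67) (nat_lit 5) (nat_lit 70) (nat_lit 5) (nat_lit 68) (nat_lit 5) (nat_lit 400) (nat_lit 390) (nat_lit 230)) (XT.nd (nat_lit 78) (nat_lit 152) (nat_lit 0) (XT.lf (nat_lit 0) (nat_lit 823067720622) (nat_lit 152) (nat_lit 2305703325112) (nat_lit 228) (nat_lit 7270221180475) (nat_lit 62) (nat_lit 5) (nat_lit 64) (nat_lit 5) (nat_lit 65) (nat_lit 5) (nat_lit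 401) (nat_lit 390) (nat_lit 229)) (XT.lf (nat_lit 0) (nat_lit 2009485470745) (nat_lit 152) (nat_lit 5924403328689) (nat_lit 228) (nat_lit 3395483090128) (nat_lit 60) (nat_lit 5) (nat_lit 62) (nat_lit 5) (nat_lit 63) (nat_lit 5) (nat_lit 402) (nat_lit 390) (nat_lit 228))))) (XT.nd (nat_lit 234) (nat_lit 456) (nat_lit 0) (XT.nd (nat_lit 78) (nat_lit 304) (nat_lit 0) (XT.lf (nat_lit 0) (nat_lit 1496616351035) (nat_lit 152) (nat_lit 8794477981246) (nat_lit 76) (nat_lit 2067037877891) (nat_lit 58) (nat_lit 5) (nat_lit 60) (nat_lit 5) (nat_lit 59) (nat_lit 5) (nat_lit 403) (nat_lit 390) (nat_lit 227)) (XT.nd (nat_lit 78) (nat_lit 152) (nat_lit 0) (XT.lf (nat_lit 0) (nat_lit 5431503514360) (nat_lit 152) (nat_lit 2068561362108) (nat_lit 228) (nat_lit 5987799380491) (nat_lit 56) (nat_lit 5) (nat_lit 58) (nat_lit 5) (nat_lit 59) (nat_lit 5) (nat_lit 404) (nat_lit 390) (nat_lit 226)) (XT.lf (nat_lit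 0) (nat_lit 279439159492) (nat_lit 152) (nat_lit 6982656901463) (nat_lit 76) (nat_lit 7474232662971) (nat_lit 54) (nat_lit 5) (nat_lit 56) (nat_lit 5) (nat_lit 55) (nat_lit 5) (nat_lit 405) (nat_lit 390) (nat_lit 225)))) (XT.nd (nat_lit 78) (nat_lit 304) (nat_lit 0) (XT.lf (nat_lit 0) (nat_lit 7763504215301) (nat_lit 228) (nat_lit 5614197268033) (nat_lit 76) (nat_lit 2731416374895) (nat_lit 52) (nat_lit 5) (nat_lit 55) (nat_lit 5) (nat_lit 53) (nat_lit 4) (nat_lit 406) (nat_lit 390) (nat_lit 224)) (XT.nd (nat_lit 78) (nat_lit 228) (nat_lit 0) (XT.lf (nat_lit 0) (nat_lit 13831180975260) (nat_lit 76) (nat_lit 3281062780200) (nat_lit 152) (nat_lit 516216429136) (nat_lit 51) (nat_lit 5) (nat_lit 52) (nat_lit 5) (nat_lit 53) (nat_lit 4) (nat_lit 407) (nat_lit 390) (nat_lit 223)) (XT.lf (nat_lit 0) (nat_lit 8881280084500) (nat_lit 228) (nat_lit 1677202272668) (nat_lit 76) (nat_lit 8735429493525)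 (nat_lit 48) (nat_lit 5) (nat_lit 51) (nat_lit 5) (nat_lit 49) (nat_lit 4) (nat_lit 408) (nat_lit 390) (nat_lit 222))))))))
noncomputable def xc118 : XT := (XT.nd (nat_lit 52416) (nat_lit 0) (nat_lit 228) (XT.nd (nat_lit 780) (nat_lit 228) (nat_lit 0) (XT.nd (nat_lit 390) (nat_lit 608) (nat_lit 0) (XT.nd (nat_lit 156) (nat_lit 380) (nat_lit 0) (XT.nd (nat_lit 78) (nat_lit 152) (nat_lit 0) (XT.lf (nat_lit 0) (nat_lit 1142071303237) (nat_lit 76) (nat_lit 19329303395888) (nat_lit 76) (nat_lit 671650758297) (nat_lit 46) (nat_lit 4) (nat_lit 47) (nat_lit 5) (nat_lit 47) (nat_lit 4) (nat_lit 409) (nat_lit 390) (nat_lit 221)) (XT.lf (nat_lit 0) (nat_lit 4392660667766) (nat_lit 76) (nat_lit 6689220729104) (nat_lit 152) (nat_lit 12081109559561) (nat_lit 44) (nat_lit 5) (nat_lit 45) (nat_lit 5) (nat_lit 46) (nat_lit 4) (nat_lit 410) (nat_lit 390) (nat_lit 220))) (XT.nd (nat_lit 78) (nat_lit 228) (nat_lit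 0) (XT.lf (nat_lit 0) (nat_lit 135818317545) (nat_lit 152) (nat_lit 16993102193803) (nat_lit 76) (nat_lit 8276185851747) (nat_lit 42) (nat_lit 5) (nat_lit 44) (nat_lit 5) (nat_lit 43) (nat_lit 4) (nat_lit 411) (nat_lit 390) (nat_lit 219)) (XT.nd (nat_lit 78) (nat_lit 152) (nat_lit 0) (XT.lf (nat_lit 0) (nat_lit 12984757107961) (nat_lit 76) (nat_lit 1563493566246) (nat_lit 152) (nat_lit 13323920658305) (nat_lit 41) (nat_lit 5) (nat_lit 42) (nat_lit 5) (nat_lit 43) (nat_lit 4) (nat_lit 412) (nat_lit 390) (nat_lit 218)) (XT.lf (nat_lit 0) (nat_lit 1768736453391) (nat_lit 152) (nat_lit 12316958079236) (nat_lit 76) (nat_lit 16512713845632) (nat_lit 39) (nat_lit 5) (nat_lit 41) (nat_lit 5) (nat_lit 40) (nat_lit 4) (nat_lit 413) (nat_lit 390) (nat_lit 217))))) (XT.nd (nat_lit 156) (nat_lit 380) (nat_lit 0) (XT.nd (nat_lit 78) (nat_lit 152) (nat_lit 0) (XT.lf (nat_lit 0) (nat_lit 19554286716367) (nat_lit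 152) (nat_lit 9310934135363) (nat_lit 0) (nat_lit 4743240510482) (nat_lit 38) (nat_lit 5) (nat_lit 40) (nat_lit 4) (nat_lit 38) (nat_lit 4) (nat_lit 414) (nat_lit 390) (nat_lit 216)) (XT.lf (nat_lit 0) (nat_lit 4339537880260) (nat_lit 152) (nat_lit 5784807414996) (nat_lit 76) (nat_lit 26816117466232) (nat_lit 36) (nat_lit 5) (nat_lit 38) (nat_lit 5) (nat_lit 37) (nat_lit 4) (nat_lit 415) (nat_lit 390) (nat_lit 215))) (XT.nd (nat_lit 78) (nat_lit 304) (nat_lit 0) (XT.lf (nat_lit 0) (nat_lit 26217967622882) (nat_lit 152) (nat_lit 1896431372504) (nat_lit 0) (nat_lit 12504035950674) (nat_lit 35) (nat_lit 5) (nat_lit 37) (nat_lit 4) (nat_lit 35) (nat_lit 4) (nat_lit 416) (nat_lit 390) (nat_lit 214)) (XT.nd (nat_lit 78) (nat_lit 76) (nat_lit 0) (XT.lf (nat_lit 0) (nat_lit 2730557380039) (nat_lit 76) (nat_lit 5175446972020) (nat_lit 152) (nat_lit 36793326322434) (nat_lit 32) (nat_lit 5) (nat_lit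 33) (nat_lit 5) (nat_lit 34) (nat_lit 4) (nat_lit 417) (nat_lit 390) (nat_lit 213)) (XT.lf (nat_lit 0) (nat_lit 7611647044997) (nat_lit 76) (nat_lit 27142502913252) (nat_lit 76) (nat_lit 14444418031514) (nat_lit 31) (nat_lit 4) (nat_lit 32) (nat_lit 5) (nat_lit 32) (nat_lit 4) (nat_lit 418) (nat_lit 390) (nat_lit 212)))))) (XT.nd (nat_lit 51168) (nat_lit 0) (nat_lit 3344) (XT.nd (nat_lit 50934) (nat_lit 0) (nat_lit 4408) (XT.nd (nat_lit 78) (nat_lit 76) (nat_lit 0) (XT.lf (nat_lit 0) (nat_lit 12422494972232) (nat_lit 152) (nat_lit 41125226361940) (nat_lit 0) (nat_lit 665008970598) (nat_lit 29) (nat_lit 5) (nat_lit 31) (nat_lit 4) (nat_lit 29) (nat_lit 4) (nat_lit 419) (nat_lit 390) (nat_lit 211)) (XT.lf (nat_lit 0) (nat_lit 18334858032889) (nat_lit 76) (nat_lit 26587488391007) (nat_lit 76) (nat_lit 14830002389352) (nat_lit 28) (nat_lit 4) (nat_lit 29) (nat_lit 5) (nat_lit 29) (nat_lit 4) (nat_lit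 420) (nat_lit 390) (nat_lit 210))) (XT.nd (nat_lit 78) (nat_lit 532) (nat_lit 0) (XT.lf (nat_lit 0) (nat_lit 2496329802758) (nat_lit 532) (nat_lit 16652074256) (nat_lit 532) (nat_lit 16652074256) (nat_lit 93) (nat_lit 3) (nat_lit 100) (nat_lit 3) (nat_lit 100) (nat_lit 5) (nat_lit 391) (nat_lit 391) (nat_lit 238)) (XT.nd (nat_lit 78) (nat_lit 0) (nat_lit 76) (XT.lf (nat_lit 0) (nat_lit 53816866250) (nat_lit 532) (nat_lit 492769856436) (nat_lit 608) (nat_lit 4882516929222) (nat_lit 86) (nat_lit 5) (nat_lit 93) (nat_lit 3) (nat_lit 94) (nat_lit 5) (nat_lit 392) (nat_lit 391) (nat_lit 237)) (XT.lf (nat_lit 0) (nat_lit 424888909275) (nat_lit 532) (nat_lit 908599929487) (nat_lit 608) (nat_lit 4501865353289) (nat_lit 87) (nat_lit 5) (nat_lit 94) (nat_lit 5) (nat_lit 95) (nat_lit 5) (nat_lit 393) (nat_lit 391) (nat_lit 236))))) (XT.nd (nat_lit 234) (nat_lit 760) (nat_lit 0) (XT.nd (nat_lit 78) (nat_lit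 456) (nat_lit 0) (XT.lf (nat_lit 0) (nat_lit 1103984341087) (nat_lit 532) (nat_lit 1260745422825) (nat_lit 608) (nat_lit 3917623542717) (nat_lit 88) (nat_lit 5) (nat_lit 95) (nat_lit 5) (nat_lit 96) (nat_lit 5) (nat_lit 394) (nat_lit 391) (nat_lit 235)) (XT.nd (nat_lit 78) (nat_lit 532) (nat_lit 0) (XT.lf (nat_lit 0) (nat_lit 2155439972381) (nat_lit 532) (nat_lit 1528079538187) (nat_lit 76) (nat_lit 3091243107048) (nat_lit 89) (nat_lit 5) (nat_lit 96) (nat_lit 5) (nat_lit 90) (nat_lit 5) (nat_lit 395) (nat_lit 391) (nat_lit 234)) (XT.lf (nat_lit 0) (nat_lit 3654513401482) (nat_lit 608) (nat_lit 1685337179993) (nat_lit 76) (nat_lit 1977990787529) (nat_lit 82) (nat_lit 5) (nat_lit 90) (nat_lit 5) (nat_lit 83) (nat_lit 5) (nat_lit 396) (nat_lit 391) (nat_lit 233)))) (XT.nd (nat_lit 78) (nat_lit 532) (nat_lit 0) (XT.lf (nat_lit 0) (nat_lit 5689104257088) (nat_lit 304) (nat_lit 1702431337841) (nat_lit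 76) (nat_lit 525993825198) (nat_lit 79) (nat_lit 5) (nat_lit 83) (nat_lit 5) (nat_lit 80) (nat_lit 5) (nat_lit 397) (nat_lit 391) (nat_lit 232)) (XT.nd (nat_lit 78) (nat_lit 304) (nat_lit 0) (XT.lf (nat_lit 0) (nat_lit 7000651616102) (nat_lit 228) (nat_lit 1394626269815) (nat_lit 304) (nat_lit 182581261413) (nat_lit 76) (nat_lit 5) (nat_lit 79) (nat_lit 5) (nat_lit 80) (nat_lit 5) (nat_lit 398) (nat_lit 391) (nat_lit 231)) (XT.lf (nat_lit 0) (nat_lit 2448090608841) (nat_lit 304) (nat_lit 1321071820072) (nat_lit 76) (nat_lit 5532979709729) (nat_lit 72) (nat_lit 5) (nat_lit 76) (nat_lit 5) (nat_lit 73) (nat_lit 5) (nat_lit 399) (nat_lit 391) (nat_lit 230))))))) (XT.nd (nat_lit 780) (nat_lit 1292) (nat_lit 0) (XT.nd (nat_lit 390) (nat_lit 760) (nat_lit 0) (XT.nd (nat_lit 156) (nat_lit 684) (nat_lit 0) (XT.nd (nat_lit 78) (nat_lit 152) (nat_lit 0) (XT.lf (nat_lit 0) (nat_lit 5859933978020) (nat_lit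 304) (nat_lit 835416127635) (nat_lit 76) (nat_lit 3407547558040) (nat_lit 69) (nat_lit 5) (nat_lit 73) (nat_lit 5) (nat_lit 70) (nat_lit 5) (nat_lit 400) (nat_lit 391) (nat_lit 229)) (XT.lf (nat_lit 0) (nat_lit 10208678573355) (nat_lit 228) (nat_lit 63434054731) (nat_lit 76) (nat_lit 717643911758) (nat_lit 67) (nat_lit 5) (nat_lit 70) (nat_lit 5) (nat_lit 68) (nat_lit 5) (nat_lit 401) (nat_lit 391) (nat_lit 228))) (XT.nd (nat_lit 78) (nat_lit 304) (nat_lit 0) (XT.lf (nat_lit 0) (nat_lit 946527884094) (nat_lit 152) (nat_lit 2651558822033) (nat_lit 228) (nat_lit 8360754353730) (nat_lit 62) (nat_lit 5) (nat_lit 64) (nat_lit 5) (nat_lit 65) (nat_lit 5) (nat_lit 402) (nat_lit 391) (nat_lit 227)) (XT.nd (nat_lit 78) (nat_lit 152) (nat_lit 0) (XT.lf (nat_lit 0) (nat_lit 2310908296499) (nat_lit 152) (nat_lit 6813063826085) (nat_lit 228) (nat_lit 3904805550154) (nat_lit 60) (nat_lit 5) (nat_lit 62)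 (nat_lit 5) (nat_lit 63) (nat_lit 5) (nat_lit 403) (nat_lit 391) (nat_lit 226)) (XT.lf (nat_lit 0) (nat_lit 1721108806738) (nat_lit 152) (nat_lit 10113649673370) (nat_lit 76) (nat_lit 2377093561346) (nat_lit 58) (nat_lit 5) (nat_lit 60) (nat_lit 5) (nat_lit 59) (nat_lit 5) (nat_lit 404) (nat_lit 391) (nat_lit 225))))) (XT.nd (nat_lit 156) (nat_lit 456) (nat_lit 0) (XT.nd (nat_lit 78) (nat_lit 152) (nat_lit 0) (XT.lf (nat_lit 0) (nat_lit 6246229046149) (nat_lit 152) (nat_lit 2378845564552) (nat_lit 228) (nat_lit 6885969284582) (nat_lit 56) (nat_lit 5) (nat_lit 58) (nat_lit 5) (nat_lit 59) (nat_lit 5) (nat_lit 405) (nat_lit 391) (nat_lit 224)) (XT.lf (nat_lit 0) (nat_lit 321355036029) (nat_lit 152) (nat_lit 8030055432142) (nat_lit 76) (nat_lit 8595367564136) (nat_lit 54) (nat_lit 5) (nat_lit 56) (nat_lit 5) (nat_lit 55) (nat_lit 5) (nat_lit 406) (nat_lit 391) (nat_lit 223))) (XT.nd (nat_lit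 78) (nat_lit 304) (nat_lit 0) (XT.lf (nat_lit 0) (nat_lit 8928029850011) (nat_lit 228) (nat_lit 6456326853934) (nat_lit 76) (nat_lit 3141128832824) (nat_lit 52) (nat_lit 5) (nat_lit 55) (nat_lit 5) (nat_lit 53) (nat_lit 4) (nat_lit 407) (nat_lit 391) (nat_lit 222)) (XT.nd (nat_lit 78) (nat_lit 228) (nat_lit 0) (XT.lf (nat_lit 0) (nat_lit 15905858125488) (nat_lit 76) (nat_lit 3773222195485) (nat_lit 152) (nat_lit 593648891136) (nat_lit 51) (nat_lit 5) (nat_lit 52) (nat_lit 5) (nat_lit 53) (nat_lit 4) (nat_lit 408) (nat_lit 391) (nat_lit 221)) (XT.lf (nat_lit 0) (nat_lit 10213472099263) (nat_lit 228) (nat_lit 1928782609730) (nat_lit 76) (nat_lit 10045743919137) (nat_lit 48) (nat_lit 5) (nat_lit 51) (nat_lit 5) (nat_lit 49) (nat_lit 4) (nat_lit 409) (nat_lit 391) (nat_lit 220)))))) (XT.nd (nat_lit 390) (nat_lit 608) (nat_lit 0) (XT.nd (nat_lit 156) (nat_lit 380) (nat_lit 0) (XT.nd (nat_lit 78)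 (nat_lit 152) (nat_lit 0) (XT.lf (nat_lit 0) (nat_lit 1313382002540) (nat_lit 76) (nat_lit 22228698903483) (nat_lit 76) (nat_lit 772398369849) (nat_lit 46) (nat_lit 4) (nat_lit 47) (nat_lit 5) (nat_lit 47) (nat_lit 4) (nat_lit 410) (nat_lit 391) (nat_lit 219)) (XT.lf (nat_lit 0) (nat_lit 5051559771525) (nat_lit 76) (nat_lit 7692603836773) (nat_lit 152) (nat_lit 13893275991445) (nat_lit 44) (nat_lit 5) (nat_lit 45) (nat_lit 5) (nat_lit 46) (nat_lit 4) (nat_lit 411) (nat_lit 391) (nat_lit 218))) (XT.nd (nat_lit 78) (nat_lit 228) (nat_lit 0) (XT.lf (nat_lit 0) (nat_lit 156191066990) (nat_lit 152) (nat_lit 19542067519385) (nat_lit 76) (nat_lit 9517613731038) (nat_lit 42) (nat_lit 5) (nat_lit 44) (nat_lit 5) (nat_lit 43) (nat_lit 4) (nat_lit 412) (nat_lit 391) (nat_lit 217)) (XT.nd (nat_lit 78) (nat_lit 152) (nat_lit 0) (XT.lf (nat_lit 0) (nat_lit 14932470677348) (nat_lit 76) (nat_lit 1798017599644)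 (nat_lit 152) (nat_lit 15322508755265) (nat_lit 41) (nat_lit 5) (nat_lit 42) (nat_lit 5) (nat_lit 43) (nat_lit 4) (nat_lit 413) (nat_lit 391) (nat_lit 216)) (XT.lf (nat_lit 0) (nat_lit 2034046922982) (nat_lit 152) (nat_lit 14164501788029) (nat_lit 76) (nat_lit 18989620923861) (nat_lit 39) (nat_lit 5) (nat_lit 41) (nat_lit 5) (nat_lit 40) (nat_lit 4) (nat_lit 414) (nat_lit 391) (nat_lit 215))))) (XT.nd (nat_lit 234) (nat_lit 304) (nat_lit 0) (XT.nd (nat_lit 78) (nat_lit 228) (nat_lit 0) (XT.lf (nat_lit 0) (nat_lit 22487429725300) (nat_lit 152) (nat_lit 10707574252754) (nat_lit 0) (nat_lit 5454726588372) (nat_lit 38) (nat_lit 5) (nat_lit 40) (nat_lit 4) (nat_lit 38) (nat_lit 4) (nat_lit 415) (nat_lit 391) (nat_lit 214)) (XT.nd (nat_lit 78) (nat_lit 76) (nat_lit 0) (XT.lf (nat_lit 0) (nat_lit 4990468563683) (nat_lit 152) (nat_lit 6652528524506) (nat_lit 76) (nat_lit 30838535087411) (nat_lit 36)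 (nat_lit 5) (nat_lit 38) (nat_lit 5) (nat_lit 37) (nat_lit 4) (nat_lit 416) (nat_lit 391) (nat_lit 213)) (XT.lf (nat_lit 0) (nat_lit 30150662767608) (nat_lit 152) (nat_lit 2180896075800) (nat_lit 0) (nat_lit 14379641344457) (nat_lit 35) (nat_lit 5) (nat_lit 37) (nat_lit 4) (nat_lit 35) (nat_lit 4) (nat_lit 417) (nat_lit 391) (nat_lit 212)))) (XT.nd (nat_lit 78) (nat_lit 76) (nat_lit 0) (XT.lf (nat_lit 0) (nat_lit 3140140989597) (nat_lit 76) (nat_lit 5951764016544) (nat_lit 152) (nat_lit 42312325269423) (nat_lit 32) (nat_lit 5) (nat_lit 33) (nat_lit 5) (nat_lit 34) (nat_lit 4) (nat_lit 418) (nat_lit 391) (nat_lit 211)) (XT.nd (nat_lit 51012) (nat_lit 0) (nat_lit 4712) (XT.lf (nat_lit 0) (nat_lit 8753394104149) (nat_lit 76) (nat_lit 31213878349031) (nat_lit 76) (nat_lit 16611080734953) (nat_lit 31) (nat_lit 4) (nat_lit 32) (nat_lit 5) (nat_lit 32) (nat_lit 4) (nat_lit 419) (nat_lit 391) (nat_lit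 210)) (XT.lf (nat_lit 0) (nat_lit 2870779277340) (nat_lit 532) (nat_lit 19149883143) (nat_lit 532) (nat_lit 19149883143) (nat_lit 93) (nat_lit 3) (nat_lit 100) (nat_lit 3) (nat_lit 100) (nat_lit 5) (nat_lit 392) (nat_lit 392) (nat_lit 236))))))))
noncomputable def xc119 : XT := (XT.nd (nat_lit 1638) (nat_lit 760) (nat_lit 0) (XT.nd (nat_lit 780) (nat_lit 1900) (nat_lit 0) (XT.nd (nat_lit 390) (nat_lit 1140) (nat_lit 0) (XT.nd (nat_lit 156) (nat_lit 304) (nat_lit 0) (XT.nd (nat_lit 78) (nat_lit 0) (nat_lit 76) (XT.lf (nat_lit 0) (nat_lit 61889403727) (nat_lit 532) (nat_lit 566685330383) (nat_lit 608) (nat_lit 5614894464981) (nat_lit 86) (nat_lit 5) (nat_lit 93) (nat_lit 3) (nat_lit 94) (nat_lit 5) (nat_lit 393) (nat_lit 392) (nat_lit 235)) (XT.lf (nat_lit 0) (nat_lit 488622252261) (nat_lit 532) (nat_lit 1044889914180) (nat_lit 608) (nat_lit 5177145153890) (nat_lit 87) (nat_lit 5) (nat_lit 94)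 (nat_lit 5) (nat_lit 95) (nat_lit 5) (nat_lit 394) (nat_lit 392) (nat_lit 234))) (XT.nd (nat_lit 78) (nat_lit 456) (nat_lit 0) (XT.lf (nat_lit 0) (nat_lit 1269581998052) (nat_lit 532) (nat_lit 1449857231416) (nat_lit 608) (nat_lit 4505267072691) (nat_lit 88) (nat_lit 5) (nat_lit 95) (nat_lit 5) (nat_lit 96) (nat_lit 5) (nat_lit 395) (nat_lit 392) (nat_lit 233)) (XT.nd (nat_lit 78) (nat_lit 532) (nat_lit 0) (XT.lf (nat_lit 0) (nat_lit 2478755973373) (nat_lit 532) (nat_lit 1757291464061) (nat_lit 76) (nat_lit 3554929572415) (nat_lit 89) (nat_lit 5) (nat_lit 96) (nat_lit 5) (nat_lit 90) (nat_lit 5) (nat_lit 396) (nat_lit 392) (nat_lit 232)) (XT.lf (nat_lit 0) (nat_lit 4202690416273) (nat_lit 608) (nat_lit 1938137752179) (nat_lit 76) (nat_lit 2274689405537) (nat_lit 82) (nat_lit 5) (nat_lit 90) (nat_lit 5) (nat_lit 83) (nat_lit 5) (nat_lit 397) (nat_lit 392) (nat_lit 231))))) (XT.nd (nat_lit 156)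 (nat_lit 684) (nat_lit 0) (XT.nd (nat_lit 78) (nat_lit 228) (nat_lit 0) (XT.lf (nat_lit 0) (nat_lit 6542469899738) (nat_lit 304) (nat_lit 1957796033793) (nat_lit 76) (nat_lit 604892899289) (nat_lit 79) (nat_lit 5) (nat_lit 83) (nat_lit 5) (nat_lit 80) (nat_lit 5) (nat_lit 398) (nat_lit 392) (nat_lit 230)) (XT.lf (nat_lit 0) (nat_lit 8050749362842) (nat_lit 228) (nat_lit 1603820209620) (nat_lit 304) (nat_lit 209968446674) (nat_lit 76) (nat_lit 5) (nat_lit 79) (nat_lit 5) (nat_lit 80) (nat_lit 5) (nat_lit 399) (nat_lit 392) (nat_lit 229))) (XT.nd (nat_lit 78) (nat_lit 380) (nat_lit 0) (XT.lf (nat_lit 0) (nat_lit 2815304203548) (nat_lit 304) (nat_lit 1519232588693) (nat_lit 76) (nat_lit 6362926666926) (nat_lit 72) (nat_lit 5) (nat_lit 76) (nat_lit 5) (nat_lit 73) (nat_lit 5) (nat_lit 400) (nat_lit 392) (nat_lit 228)) (XT.nd (nat_lit 78) (nat_lit 152) (nat_lit 0) (XT.lf (nat_lit 0) (nat_lit 6738924077783)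 (nat_lit 304) (nat_lit 960728542542) (nat_lit 76) (nat_lit 3918679692679) (nat_lit 69) (nat_lit 5) (nat_lit 73) (nat_lit 5) (nat_lit 70) (nat_lit 5) (nat_lit 401) (nat_lit 392) (nat_lit 227)) (XT.lf (nat_lit 0) (nat_lit 11739980362140) (nat_lit 228) (nat_lit 72949158868) (nat_lit 76) (nat_lit 825290499591) (nat_lit 67) (nat_lit 5) (nat_lit 70) (nat_lit 5) (nat_lit 68) (nat_lit 5) (nat_lit 402) (nat_lit 392) (nat_lit 226)))))) (XT.nd (nat_lit 390) (nat_lit 912) (nat_lit 0) (XT.nd (nat_lit 156) (nat_lit 456) (nat_lit 0) (XT.nd (nat_lit 78) (nat_lit 152) (nat_lit 0) (XT.lf (nat_lit 0) (nat_lit 1088507070776) (nat_lit 152) (nat_lit 3049292643942) (nat_lit 228) (nat_lit 9614867503904) (nat_lit 62) (nat_lit 5) (nat_lit 64) (nat_lit 5) (nat_lit 65) (nat_lit 5) (nat_lit 403) (nat_lit 392) (nat_lit 225)) (XT.lf (nat_lit 0) (nat_lit 2657544544862) (nat_lit 152) (nat_lit 7835023398556) (nat_lit 228)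 (nat_lit 4490526380035) (nat_lit 60) (nat_lit 5) (nat_lit 62) (nat_lit 5) (nat_lit 63) (nat_lit 5) (nat_lit 404) (nat_lit 392) (nat_lit 224))) (XT.nd (nat_lit 78) (nat_lit 304) (nat_lit 0) (XT.lf (nat_lit 0) (nat_lit 1979275130053) (nat_lit 152) (nat_lit 11630697120547) (nat_lit 76) (nat_lit 2733657596887) (nat_lit 58) (nat_lit 5) (nat_lit 60) (nat_lit 5) (nat_lit 59) (nat_lit 5) (nat_lit 405) (nat_lit 392) (nat_lit 223)) (XT.nd (nat_lit 78) (nat_lit 152) (nat_lit 0) (XT.lf (nat_lit 0) (nat_lit 7183163406575) (nat_lit 152) (nat_lit 2735672397819) (nat_lit 228) (nat_lit 7918864675013) (nat_lit 56) (nat_lit 5) (nat_lit 58) (nat_lit 5) (nat_lit 59) (nat_lit 5) (nat_lit 406) (nat_lit 392) (nat_lit 222)) (XT.lf (nat_lit 0) (nat_lit 369558293410) (nat_lit 152) (nat_lit 9234563743530) (nat_lit 76) (nat_lit 9884672700056) (nat_lit 54) (nat_lit 5) (nat_lit 56) (nat_lit 5) (nat_lit 55) (nat_lit 5) (nat_lit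 407) (nat_lit 392) (nat_lit 221))))) (XT.nd (nat_lit 234) (nat_lit 456) (nat_lit 0) (XT.nd (nat_lit 78) (nat_lit 304) (nat_lit 0) (XT.lf (nat_lit 0) (nat_lit 10267234329339) (nat_lit 228) (nat_lit 7424775878770) (nat_lit 76) (nat_lit 3612298159030) (nat_lit 52) (nat_lit 5) (nat_lit 55) (nat_lit 5) (nat_lit 53) (nat_lit 4) (nat_lit 408) (nat_lit 392) (nat_lit 220)) (XT.nd (nat_lit 78) (nat_lit 228) (nat_lit 0) (XT.lf (nat_lit 0) (nat_lit 18291736847290) (nat_lit 76) (nat_lit 4339205523489) (nat_lit 152) (nat_lit 682696223014) (nat_lit 51) (nat_lit 5) (nat_lit 52) (nat_lit 5) (nat_lit 53) (nat_lit 4) (nat_lit 409) (nat_lit 392) (nat_lit 219)) (XT.lf (nat_lit 0) (nat_lit 11745492915731) (nat_lit 228) (nat_lit 2218099998288) (nat_lit 76) (nat_lit 11552605508205) (nat_lit 48) (nat_lit 5) (nat_lit 51) (nat_lit 5) (nat_lit 49) (nat_lit 4) (nat_lit 410) (nat_lit 392) (nat_lit 218)))) (XT.nd (nat_lit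 78) (nat_lit 304) (nat_lit 0) (XT.lf (nat_lit 0) (nat_lit 1510389305808) (nat_lit 76) (nat_lit 25563003737655) (nat_lit 76) (nat_lit 888258123668) (nat_lit 46) (nat_lit 4) (nat_lit 47) (nat_lit 5) (nat_lit 47) (nat_lit 4) (nat_lit 411) (nat_lit 392) (nat_lit 217)) (XT.nd (nat_lit 78) (nat_lit 152) (nat_lit 0) (XT.lf (nat_lit 0) (nat_lit 5809293739973) (nat_lit 76) (nat_lit 8846494411006) (nat_lit 152) (nat_lit 15977267388612) (nat_lit 44) (nat_lit 5) (nat_lit 45) (nat_lit 5) (nat_lit 46) (nat_lit 4) (nat_lit 412) (nat_lit 392) (nat_lit 216)) (XT.lf (nat_lit 0) (nat_lit 179619728410) (nat_lit 152) (nat_lit 22473377644656) (nat_lit 76) (nat_lit 10945255791850) (nat_lit 42) (nat_lit 5) (nat_lit 44) (nat_lit 5) (nat_lit 43) (nat_lit 4) (nat_lit 413) (nat_lit 392) (nat_lit 215))))))) (XT.nd (nat_lit 51792) (nat_lit 0) (nat_lit 1824) (XT.nd (nat_lit 390) (nat_lit 228) (nat_lit 0) (XT.nd (nat_lit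 156) (nat_lit 304) (nat_lit 0) (XT.nd (nat_lit 78) (nat_lit 152) (nat_lit 0) (XT.lf (nat_lit 0) (nat_lit 17172341281364) (nat_lit 76) (nat_lit 2067720238427) (nat_lit 152) (nat_lit 17620885067204) (nat_lit 41) (nat_lit 5) (nat_lit 42) (nat_lit 5) (nat_lit 43) (nat_lit 4) (nat_lit 414) (nat_lit 392) (nat_lit 214)) (XT.lf (nat_lit 0) (nat_lit 2339153962626) (nat_lit 152) (nat_lit 16289177053894) (nat_lit 76) (nat_lit 21838064063486) (nat_lit 39) (nat_lit 5) (nat_lit 41) (nat_lit 5) (nat_lit 40) (nat_lit 4) (nat_lit 415) (nat_lit 392) (nat_lit 213))) (XT.nd (nat_lit 78) (nat_lit 228) (nat_lit 0) (XT.lf (nat_lit 0) (nat_lit 25860544185212) (nat_lit 152) (nat_lit 12313710388465) (nat_lit 0) (nat_lit 6272935577624) (nat_lit 38) (nat_lit 5) (nat_lit 40) (nat_lit 4) (nat_lit 38) (nat_lit 4) (nat_lit 416) (nat_lit 392) (nat_lit 212)) (XT.nd (nat_lit 78) (nat_lit 76) (nat_lit 0) (XT.lf (nat_lit 0) (nat_lit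 5739038849282) (nat_lit 152) (nat_lit 7650407801111) (nat_lit 76) (nat_lit 35464315351464) (nat_lit 36) (nat_lit 5) (nat_lit 38) (nat_lit 5) (nat_lit 37) (nat_lit 4) (nat_lit 417) (nat_lit 392) (nat_lit 211)) (XT.lf (nat_lit 0) (nat_lit 34673262183728) (nat_lit 152) (nat_lit 2508030485220) (nat_lit 0) (nat_lit 16536587547019) (nat_lit 35) (nat_lit 5) (nat_lit 37) (nat_lit 4) (nat_lit 35) (nat_lit 4) (nat_lit 418) (nat_lit 392) (nat_lit 210))))) (XT.nd (nat_lit 51168) (nat_lit 0) (nat_lit 4104) (XT.nd (nat_lit 51090) (nat_lit 0) (nat_lit 4636) (XT.lf (nat_lit 0) (nat_lit 3611162139967) (nat_lit 76) (nat_lit 6844528618060) (nat_lit 152) (nat_lit 48659174058796) (nat_lit 32) (nat_lit 5) (nat_lit 33) (nat_lit 5) (nat_lit 34) (nat_lit 4) (nat_lit 419) (nat_lit 392) (nat_lit 209)) (XT.lf (nat_lit 0) (nat_lit 3301396172092) (nat_lit 532) (nat_lit 22022363913) (nat_lit 532) (nat_lit 22022363913) (nat_lit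 93) (nat_lit 3) (nat_lit 100) (nat_lit 3) (nat_lit 100) (nat_lit 5) (nat_lit 393) (nat_lit 393) (nat_lit 234))) (XT.nd (nat_lit 78) (nat_lit 0) (nat_lit 76) (XT.lf (nat_lit 0) (nat_lit 71172819986) (nat_lit 532) (nat_lit 651688126524) (nat_lit 608) (nat_lit 6457128631987) (nat_lit 86) (nat_lit 5) (nat_lit 93) (nat_lit 3) (nat_lit 94) (nat_lit 5) (nat_lit 394) (nat_lit 393) (nat_lit 233)) (XT.nd (nat_lit 78) (nat_lit 0) (nat_lit 76) (XT.lf (nat_lit 0) (nat_lit 561915595086) (nat_lit 532) (nat_lit 1201623397731) (nat_lit 608) (nat_lit 5953716925164) (nat_lit 87) (nat_lit 5) (nat_lit 94) (nat_lit 5) (nat_lit 95) (nat_lit 5) (nat_lit 395) (nat_lit 393) (nat_lit 232)) (XT.lf (nat_lit 0) (nat_lit 1460019302147) (nat_lit 532) (nat_lit 1667335812474) (nat_lit 608) (nat_lit 5181057132511) (nat_lit 88) (nat_lit 5) (nat_lit 95) (nat_lit 5) (nat_lit 96) (nat_lit 5) (nat_lit 396) (nat_lit 393) (nat_lit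 231)))))) (XT.nd (nat_lit 390) (nat_lit 1216) (nat_lit 0) (XT.nd (nat_lit 156) (nat_lit 760) (nat_lit 0) (XT.nd (nat_lit 78) (nat_lit 532) (nat_lit 0) (XT.lf (nat_lit 0) (nat_lit 2850569373261) (nat_lit 532) (nat_lit 2020885179999) (nat_lit 76) (nat_lit 4088169007754) (nat_lit 89) (nat_lit 5) (nat_lit 96) (nat_lit 5) (nat_lit 90) (nat_lit 5) (nat_lit 397) (nat_lit 393) (nat_lit 230)) (XT.lf (nat_lit 0) (nat_lit 4833093982168) (nat_lit 608) (nat_lit 2228858411366) (nat_lit 76) (nat_lit 2615892816276) (nat_lit 82) (nat_lit 5) (nat_lit 90) (nat_lit 5) (nat_lit 83) (nat_lit 5) (nat_lit 398) (nat_lit 393) (nat_lit 229))) (XT.nd (nat_lit 78) (nat_lit 532) (nat_lit 0) (XT.lf (nat_lit 0) (nat_lit 7523840387788) (nat_lit 304) (nat_lit 2251465435290) (nat_lit 76) (nat_lit 695626834417) (nat_lit 79) (nat_lit 5) (nat_lit 83) (nat_lit 5) (nat_lit 80) (nat_lit 5) (nat_lit 399) (nat_lit 393) (nat_lit 228))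 (XT.nd (nat_lit 78) (nat_lit 304) (nat_lit 0) (XT.lf (nat_lit 0) (nat_lit 9258361770538) (nat_lit 228) (nat_lit 1844393240558) (nat_lit 304) (nat_lit 241463710689) (nat_lit 76) (nat_lit 5) (nat_lit 79) (nat_lit 5) (nat_lit 80) (nat_lit 5) (nat_lit 400) (nat_lit 393) (nat_lit 227)) (XT.lf (nat_lit 0) (nat_lit 3237599836638) (nat_lit 304) (nat_lit 1747117473677) (nat_lit 76) (nat_lit 7317365667524) (nat_lit 72) (nat_lit 5) (nat_lit 76) (nat_lit 5) (nat_lit 73) (nat_lit 5) (nat_lit 401) (nat_lit 393) (nat_lit 226))))) (XT.nd (nat_lit 234) (nat_lit 456) (nat_lit 0) (XT.nd (nat_lit 78) (nat_lit 532) (nat_lit 0) (XT.lf (nat_lit 0) (nat_lit 7749762691765) (nat_lit 304) (nat_lit 1104837820719) (nat_lit 76) (nat_lit 4506481647286) (nat_lit 69) (nat_lit 5) (nat_lit 73) (nat_lit 5) (nat_lit 70) (nat_lit 5) (nat_lit 402) (nat_lit 393) (nat_lit 225)) (XT.nd (nat_lit 78) (nat_lit 380) (nat_lit 0) (XT.lf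 (nat_lit 0) (nat_lit 13500977418564) (nat_lit 228) (nat_lit 83891529619) (nat_lit 76) (nat_lit 949084075337) (nat_lit 67) (nat_lit 5) (nat_lit 70) (nat_lit 5) (nat_lit 68) (nat_lit 5) (nat_lit 403) (nat_lit 393) (nat_lit 224)) (XT.lf (nat_lit 0) (nat_lit 1251783134468) (nat_lit 152) (nat_lit 3506686539478) (nat_lit 228) (nat_lit 11057097627307) (nat_lit 62) (nat_lit 5) (nat_lit 64) (nat_lit 5) (nat_lit 65) (nat_lit 5) (nat_lit 404) (nat_lit 393) (nat_lit 223)))) (XT.nd (nat_lit 78) (nat_lit 304) (nat_lit 0) (XT.lf (nat_lit 0) (nat_lit 3056176229532) (nat_lit 152) (nat_lit 9010276907249) (nat_lit 228) (nat_lit 5164105335043) (nat_lit 60) (nat_lit 5) (nat_lit 62) (nat_lit 5) (nat_lit 63) (nat_lit 5) (nat_lit 405) (nat_lit 393) (nat_lit 222)) (XT.nd (nat_lit 78) (nat_lit 152) (nat_lit 0) (XT.lf (nat_lit 0) (nat_lit 2276166401304) (nat_lit 152) (nat_lit 13375301685735) (nat_lit 76) (nat_lit 3143706237432)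 (nat_lit 58) (nat_lit 5) (nat_lit 60) (nat_lit 5) (nat_lit 59) (nat_lit 5) (nat_lit 406) (nat_lit 393) (nat_lit 221)) (XT.lf (nat_lit 0) (nat_lit 8260637920211) (nat_lit 152) (nat_lit 3146023256421) (nat_lit 228) (nat_lit 9106694374560) (nat_lit 56) (nat_lit 5) (nat_lit 58) (nat_lit 5) (nat_lit 59) (nat_lit 5) (nat_lit 407) (nat_lit 393) (nat_lit 220))))))))
noncomputable def xc120 : XT := (XT.nd (nat_lit 52728) (nat_lit 0) (nat_lit 228) (XT.nd (nat_lit 780) (nat_lit 228) (nat_lit 0) (XT.nd (nat_lit 390) (nat_lit 608) (nat_lit 0) (XT.nd (nat_lit 156) (nat_lit 456) (nat_lit 0) (XT.nd (nat_lit 78) (nat_lit 152) (nat_lit 0) (XT.lf (nat_lit 0) (nat_lit 424992038915) (nat_lit 152) (nat_lit 10619748302463) (nat_lit 76) (nat_lit 11367373606047) (nat_lit 54) (nat_lit 5) (nat_lit 56) (nat_lit 5) (nat_lit 55) (nat_lit 5) (nat_lit 408) (nat_lit 393) (nat_lit 219)) (XT.lf (nat_lit 0) (nat_lit 11807319480120)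 (nat_lit 228) (nat_lit 8538492258125) (nat_lit 76) (nat_lit 4154142883853) (nat_lit 52) (nat_lit 5) (nat_lit 55) (nat_lit 5) (nat_lit 53) (nat_lit 4) (nat_lit 409) (nat_lit 393) (nat_lit 218))) (XT.nd (nat_lit 78) (nat_lit 380) (nat_lit 0) (XT.lf (nat_lit 0) (nat_lit 21035497376636) (nat_lit 76) (nat_lit 4990086351015) (nat_lit 152) (nat_lit 785100655111) (nat_lit 51) (nat_lit 5) (nat_lit 52) (nat_lit 5) (nat_lit 53) (nat_lit 4) (nat_lit 410) (nat_lit 393) (nat_lit 217)) (XT.nd (nat_lit 78) (nat_lit 152) (nat_lit 0) (XT.lf (nat_lit 0) (nat_lit 13507316854284) (nat_lit 228) (nat_lit 2550814995837) (nat_lit 76) (nat_lit 13285496335341) (nat_lit 48) (nat_lit 5) (nat_lit 51) (nat_lit 5) (nat_lit 49) (nat_lit 4) (nat_lit 411) (nat_lit 393) (nat_lit 216)) (XT.lf (nat_lit 0) (nat_lit 1736947703862) (nat_lit 76) (nat_lit 29397454297281) (nat_lit 76) (nat_lit 1021496840965) (nat_lit 46) (nat_lit 4)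 (nat_lit 47) (nat_lit 5) (nat_lit 47) (nat_lit 4) (nat_lit 412) (nat_lit 393) (nat_lit 215))))) (XT.nd (nat_lit 156) (nat_lit 304) (nat_lit 0) (XT.nd (nat_lit 78) (nat_lit 152) (nat_lit 0) (XT.lf (nat_lit 0) (nat_lit 6680687803024) (nat_lit 76) (nat_lit 10173468571686) (nat_lit 152) (nat_lit 18373857495732) (nat_lit 44) (nat_lit 5) (nat_lit 45) (nat_lit 5) (nat_lit 46) (nat_lit 4) (nat_lit 413) (nat_lit 393) (nat_lit 214)) (XT.lf (nat_lit 0) (nat_lit 206562688708) (nat_lit 152) (nat_lit 25844384289360) (nat_lit 76) (nat_lit 12587044161502) (nat_lit 42) (nat_lit 5) (nat_lit 44) (nat_lit 5) (nat_lit 43) (nat_lit 4) (nat_lit 414) (nat_lit 393) (nat_lit 213))) (XT.nd (nat_lit 78) (nat_lit 228) (nat_lit 0) (XT.lf (nat_lit 0) (nat_lit 19748192475395) (nat_lit 76) (nat_lit 2377878273312) (nat_lit 152) (nat_lit 20264017826264) (nat_lit 41) (nat_lit 5) (nat_lit 42) (nat_lit 5) (nat_lit 43) (nat_lit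 4) (nat_lit 415) (nat_lit 393) (nat_lit 212)) (XT.nd (nat_lit 78) (nat_lit 76) (nat_lit 0) (XT.lf (nat_lit 0) (nat_lit 2690027057925) (nat_lit 152) (nat_lit 18732553610210) (nat_lit 76) (nat_lit 25113773673801) (nat_lit 39) (nat_lit 5) (nat_lit 41) (nat_lit 5) (nat_lit 40) (nat_lit 4) (nat_lit 416) (nat_lit 393) (nat_lit 211)) (XT.lf (nat_lit 0) (nat_lit 29739625813839) (nat_lit 152) (nat_lit 14160766945069) (nat_lit 0) (nat_lit 7213875915020) (nat_lit 38) (nat_lit 5) (nat_lit 40) (nat_lit 4) (nat_lit 38) (nat_lit 4) (nat_lit 417) (nat_lit 393) (nat_lit 210)))))) (XT.nd (nat_lit 51480) (nat_lit 0) (nat_lit 2812) (XT.nd (nat_lit 51246) (nat_lit 0) (nat_lit 3876) (XT.nd (nat_lit 78) (nat_lit 76) (nat_lit 0) (XT.lf (nat_lit 0) (nat_lit 6599894677466) (nat_lit 152) (nat_lit 8797968969710) (nat_lit 76) (nat_lit 40783962654896) (nat_lit 36) (nat_lit 5) (nat_lit 38) (nat_lit 5) (nat_lit 37) (nat_lit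 4) (nat_lit 418) (nat_lit 393) (nat_lit 209)) (XT.lf (nat_lit 0) (nat_lit 39874251512027) (nat_lit 152) (nat_lit 2884235056529) (nat_lit 0) (nat_lit 19017075679748) (nat_lit 35) (nat_lit 5) (nat_lit 37) (nat_lit 4) (nat_lit 35) (nat_lit 4) (nat_lit 419) (nat_lit 393) (nat_lit 208))) (XT.nd (nat_lit 78) (nat_lit 532) (nat_lit 0) (XT.lf (nat_lit 0) (nat_lit 3796605600289) (nat_lit 532) (nat_lit 25325717213) (nat_lit 532) (nat_lit 25325717213) (nat_lit 93) (nat_lit 3) (nat_lit 100) (nat_lit 3) (nat_lit 100) (nat_lit 5) (nat_lit 394) (nat_lit 394) (nat_lit 232)) (XT.nd (nat_lit 78) (nat_lit 0) (nat_lit 76) (XT.lf (nat_lit 0) (nat_lit 81848747295) (nat_lit 532) (nat_lit 749441342919) (nat_lit 608) (nat_lit 7425697924713) (nat_lit 86) (nat_lit 5) (nat_lit 93) (nat_lit 3) (nat_lit 94) (nat_lit 5) (nat_lit 395) (nat_lit 394) (nat_lit 231)) (XT.lf (nat_lit 0) (nat_lit 646202938119) (nat_lit 532) (nat_lit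 1381866904687) (nat_lit 608) (nat_lit 6846774462570) (nat_lit 87) (nat_lit 5) (nat_lit 94) (nat_lit 5) (nat_lit 95) (nat_lit 5) (nat_lit 396) (nat_lit 394) (nat_lit 230))))) (XT.nd (nat_lit 234) (nat_lit 760) (nat_lit 0) (XT.nd (nat_lit 78) (nat_lit 456) (nat_lit 0) (XT.lf (nat_lit 0) (nat_lit 1679022200786) (nat_lit 532) (nat_lit 1917436181581) (nat_lit 608) (nat_lit 5958215701568) (nat_lit 88) (nat_lit 5) (nat_lit 95) (nat_lit 5) (nat_lit 96) (nat_lit 5) (nat_lit 397) (nat_lit 394) (nat_lit 229)) (XT.nd (nat_lit 78) (nat_lit 532) (nat_lit 0) (XT.lf (nat_lit 0) (nat_lit 3278154782186) (nat_lit 532) (nat_lit 2324017954224) (nat_lit 76) (nat_lit 4701394358522) (nat_lit 89) (nat_lit 5) (nat_lit 96) (nat_lit 5) (nat_lit 90) (nat_lit 5) (nat_lit 398) (nat_lit 394) (nat_lit 228)) (XT.lf (nat_lit 0) (nat_lit 5558058082105) (nat_lit 608) (nat_lit 2563187170319) (nat_lit 76) (nat_lit 3008276738648)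 (nat_lit 82) (nat_lit 5) (nat_lit 90) (nat_lit 5) (nat_lit 83) (nat_lit 5) (nat_lit 399) (nat_lit 394) (nat_lit 227)))) (XT.nd (nat_lit 78) (nat_lit 532) (nat_lit 0) (XT.lf (nat_lit 0) (nat_lit 8652416448293) (nat_lit 304) (nat_lit 2589185247882) (nat_lit 76) (nat_lit 799970859758) (nat_lit 79) (nat_lit 5) (nat_lit 83) (nat_lit 5) (nat_lit 80) (nat_lit 5) (nat_lit 400) (nat_lit 394) (nat_lit 226)) (XT.nd (nat_lit 78) (nat_lit 304) (nat_lit 0) (XT.lf (nat_lit 0) (nat_lit 10647116038592) (nat_lit 228) (nat_lit 2121052226261) (nat_lit 304) (nat_lit 277683265033) (nat_lit 76) (nat_lit 5) (nat_lit 79) (nat_lit 5) (nat_lit 80) (nat_lit 5) (nat_lit 401) (nat_lit 394) (nat_lit 225)) (XT.lf (nat_lit 0) (nat_lit 3723239814067) (nat_lit 304) (nat_lit 2009185092218) (nat_lit 76) (nat_lit 8414970518074) (nat_lit 72) (nat_lit 5) (nat_lit 76) (nat_lit 5) (nat_lit 73) (nat_lit 5) (nat_lit 402) (nat_lit 394)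 (nat_lit 224))))))) (XT.nd (nat_lit 780) (nat_lit 760) (nat_lit 0) (XT.nd (nat_lit 390) (nat_lit 760) (nat_lit 0) (XT.nd (nat_lit 156) (nat_lit 684) (nat_lit 0) (XT.nd (nat_lit 78) (nat_lit 152) (nat_lit 0) (XT.lf (nat_lit 0) (nat_lit 8912227097280) (nat_lit 304) (nat_lit 1270563491404) (nat_lit 76) (nat_lit 5182453894912) (nat_lit 69) (nat_lit 5) (nat_lit 73) (nat_lit 5) (nat_lit 70) (nat_lit 5) (nat_lit 403) (nat_lit 394) (nat_lit 223)) (XT.lf (nat_lit 0) (nat_lit 15526124032939) (nat_lit 228) (nat_lit 96475256732) (nat_lit 76) (nat_lit 1091446687249) (nat_lit 67) (nat_lit 5) (nat_lit 70) (nat_lit 5) (nat_lit 68) (nat_lit 5) (nat_lit 404) (nat_lit 394) (nat_lit 222))) (XT.nd (nat_lit 78) (nat_lit 304) (nat_lit 0) (XT.lf (nat_lit 0) (nat_lit 1439550606964) (nat_lit 152) (nat_lit 4032689519602) (nat_lit 228) (nat_lit 12715662269754) (nat_lit 62) (nat_lit 5) (nat_lit 64) (nat_lit 5) (nat_lit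 65) (nat_lit 5) (nat_lit 405) (nat_lit 394) (nat_lit 221)) (XT.nd (nat_lit 78) (nat_lit 152) (nat_lit 0) (XT.lf (nat_lit 0) (nat_lit 3514602666185) (nat_lit 152) (nat_lit 10361818442511) (nat_lit 228) (nat_lit 5938721133789) (nat_lit 60) (nat_lit 5) (nat_lit 62) (nat_lit 5) (nat_lit 63) (nat_lit 5) (nat_lit 406) (nat_lit 394) (nat_lit 220)) (XT.lf (nat_lit 0) (nat_lit 2617591362818) (nat_lit 152) (nat_lit 15381596936406) (nat_lit 76) (nat_lit 3615262173813) (nat_lit 58) (nat_lit 5) (nat_lit 60) (nat_lit 5) (nat_lit 59) (nat_lit 5) (nat_lit 407) (nat_lit 394) (nat_lit 219))))) (XT.nd (nat_lit 156) (nat_lit 456) (nat_lit 0) (XT.nd (nat_lit 78) (nat_lit 152) (nat_lit 0) (XT.lf (nat_lit 0) (nat_lit 9499733610246) (nat_lit 152) (nat_lit 3617926744075) (nat_lit 228) (nat_lit 10472698529454) (nat_lit 56) (nat_lit 5) (nat_lit 58) (nat_lit 5) (nat_lit 59) (nat_lit 5) (nat_lit 408) (nat_lit 394) (nat_lit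 218)) (XT.lf (nat_lit 0) (nat_lit 488740845882) (nat_lit 152) (nat_lit 12212710545870) (nat_lit 76) (nat_lit 13072479647697) (nat_lit 54) (nat_lit 5) (nat_lit 56) (nat_lit 5) (nat_lit 55) (nat_lit 5) (nat_lit 409) (nat_lit 394) (nat_lit 217))) (XT.nd (nat_lit 78) (nat_lit 304) (nat_lit 0) (XT.lf (nat_lit 0) (nat_lit 13578417403182) (nat_lit 228) (nat_lit 9819266094984) (nat_lit 76) (nat_lit 4777264317164) (nat_lit 52) (nat_lit 5) (nat_lit 55) (nat_lit 5) (nat_lit 53) (nat_lit 4) (nat_lit 410) (nat_lit 394) (nat_lit 216)) (XT.nd (nat_lit 78) (nat_lit 228) (nat_lit 0) (XT.lf (nat_lit 0) (nat_lit 24190821984834) (nat_lit 76) (nat_lit 5738599302913) (nat_lit 152) (nat_lit 902865752353) (nat_lit 51) (nat_lit 5) (nat_lit 52) (nat_lit 5) (nat_lit 53) (nat_lit 4) (nat_lit 411) (nat_lit 394) (nat_lit 215)) (XT.lf (nat_lit 0) (nat_lit 15533414383330) (nat_lit 228) (nat_lit 2933437243553) (nat_lit 76)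 (nat_lit 15278320786327) (nat_lit 48) (nat_lit 5) (nat_lit 51) (nat_lit 5) (nat_lit 49) (nat_lit 4) (nat_lit 412) (nat_lit 394) (nat_lit 214)))))) (XT.nd (nat_lit 390) (nat_lit 76) (nat_lit 0) (XT.nd (nat_lit 156) (nat_lit 380) (nat_lit 0) (XT.nd (nat_lit 78) (nat_lit 152) (nat_lit 0) (XT.lf (nat_lit 0) (nat_lit 1997489861092) (nat_lit 76) (nat_lit 33807072441101) (nat_lit 76) (nat_lit 1174721366161) (nat_lit 46) (nat_lit 4) (nat_lit 47) (nat_lit 5) (nat_lit 47) (nat_lit 4) (nat_lit 413) (nat_lit 394) (nat_lit 213)) (XT.lf (nat_lit 0) (nat_lit 7682790975032) (nat_lit 76) (nat_lit 11699488856706) (nat_lit 152) (nat_lit 21129936119206) (nat_lit 44) (nat_lit 5) (nat_lit 45) (nat_lit 5) (nat_lit 46) (nat_lit 4) (nat_lit 414) (nat_lit 394) (nat_lit 212))) (XT.nd (nat_lit 78) (nat_lit 228) (nat_lit 0) (XT.lf (nat_lit 0) (nat_lit 237547092799) (nat_lit 152) (nat_lit 29721041931256) (nat_lit 76) (nat_lit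 14475100786389) (nat_lit 42) (nat_lit 5) (nat_lit 44) (nat_lit 5) (nat_lit 43) (nat_lit 4) (nat_lit 415) (nat_lit 394) (nat_lit 211)) (XT.nd (nat_lit 78) (nat_lit 152) (nat_lit 0) (XT.lf (nat_lit 0) (nat_lit 22710421348084) (nat_lit 76) (nat_lit 2734560013643) (nat_lit 152) (nat_lit 23303620499431) (nat_lit 41) (nat_lit 5) (nat_lit 42) (nat_lit 5) (nat_lit 43) (nat_lit 4) (nat_lit 416) (nat_lit 394) (nat_lit 210)) (XT.lf (nat_lit 0) (nat_lit 3093531117298) (nat_lit 152) (nat_lit 21542436650404) (nat_lit 76) (nat_lit 28880839725469) (nat_lit 39) (nat_lit 5) (nat_lit 41) (nat_lit 5) (nat_lit 40) (nat_lit 4) (nat_lit 417) (nat_lit 394) (nat_lit 209))))) (XT.nd (nat_lit 51480) (nat_lit 0) (nat_lit 3724) (XT.nd (nat_lit 51324) (nat_lit 0) (nat_lit 3648) (XT.lf (nat_lit 0) (nat_lit 34200569686554) (nat_lit 152) (nat_lit 16284881985570) (nat_lit 0) (nat_lit 8295957302843) (nat_lit 38) (nat_lit 5)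 (nat_lit 40) (nat_lit 4) (nat_lit 38) (nat_lit 4) (nat_lit 418) (nat_lit 394) (nat_lit 208)) (XT.nd (nat_lit 78) (nat_lit 532) (nat_lit 0) (XT.lf (nat_lit 0) (nat_lit 4366096442134) (nat_lit 532) (nat_lit 29124573822) (nat_lit 532) (nat_lit 29124573822) (nat_lit 93) (nat_lit 3) (nat_lit 100) (nat_lit 3) (nat_lit 100) (nat_lit 5) (nat_lit 395) (nat_lit 395) (nat_lit 230)) (XT.lf (nat_lit 0) (nat_lit 94126062648) (nat_lit 532) (nat_lit 861857542404) (nat_lit 608) (nat_lit 8539552611853) (nat_lit 86) (nat_lit 5) (nat_lit 93) (nat_lit 3) (nat_lit 94) (nat_lit 5) (nat_lit 396) (nat_lit 395) (nat_lit 229)))) (XT.nd (nat_lit 78) (nat_lit 0) (nat_lit 76) (XT.lf (nat_lit 0) (nat_lit 743133381688) (nat_lit 532) (nat_lit 1589146938345) (nat_lit 608) (nat_lit 7873790630921) (nat_lit 87) (nat_lit 5) (nat_lit 94) (nat_lit 5) (nat_lit 95) (nat_lit 5) (nat_lit 397) (nat_lit 395) (nat_lit 228)) (XT.nd (nat_lit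 78) (nat_lit 0) (nat_lit 76) (XT.lf (nat_lit 0) (nat_lit 1930875533413) (nat_lit 532) (nat_lit 2205051606729) (nat_lit 608) (nat_lit 6851948056183) (nat_lit 88) (nat_lit 5) (nat_lit 95) (nat_lit 5) (nat_lit 96) (nat_lit 5) (nat_lit 398) (nat_lit 395) (nat_lit 227)) (XT.lf (nat_lit 0) (nat_lit 3769878001733) (nat_lit 532) (nat_lit 2672620645258) (nat_lit 76) (nat_lit 5406603512002) (nat_lit 89) (nat_lit 5) (nat_lit 96) (nat_lit 5) (nat_lit 90) (nat_lit 5) (nat_lit 399) (nat_lit 395) (nat_lit 226))))))))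
noncomputable def xc121 : XT := (XT.nd (nat_lit 52962) (nat_lit 0) (nat_lit 152) (XT.nd (nat_lit 780) (nat_lit 1292) (nat_lit 0) (XT.nd (nat_lit 390) (nat_lit 988) (nat_lit 0) (XT.nd (nat_lit 156) (nat_lit 760) (nat_lit 0) (XT.nd (nat_lit 78) (nat_lit 228) (nat_lit 0) (XT.lf (nat_lit 0) (nat_lit 6391766796396) (nat_lit 608) (nat_lit 2947665243787) (nat_lit 76) (nat_lit 3459518249393) (nat_lit 82) (nat_lit 5) (nat_lit 90) (nat_lit 5) (nat_lit 83) (nat_lit 5) (nat_lit 400) (nat_lit 395) (nat_lit 225)) (XT.lf (nat_lit 0) (nat_lit 9950278917303) (nat_lit 304) (nat_lit 2977563033022) (nat_lit 76) (nat_lit 919966488856) (nat_lit 79) (nat_lit 5) (nat_lit 83) (nat_lit 5) (nat_lit 80) (nat_lit 5) (nat_lit 401) (nat_lit 395) (nat_lit 224))) (XT.nd (nat_lit 78) (nat_lit 532) (nat_lit 0) (XT.lf (nat_lit 0) (nat_lit 12244183446250) (nat_lit 228) (nat_lit 2439210059911) (nat_lit 304) (nat_lit 319335753081)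 (nat_lit 76) (nat_lit 5) (nat_lit 79) (nat_lit 5) (nat_lit 80) (nat_lit 5) (nat_lit 402) (nat_lit 395) (nat_lit 223)) (XT.nd (nat_lit 78) (nat_lit 228) (nat_lit 0) (XT.lf (nat_lit 0) (nat_lit 4281725787639) (nat_lit 304) (nat_lit 2310562854153) (nat_lit 76) (nat_lit 9677216096104) (nat_lit 72) (nat_lit 5) (nat_lit 76) (nat_lit 5) (nat_lit 73) (nat_lit 5) (nat_lit 403) (nat_lit 395) (nat_lit 222)) (XT.lf (nat_lit 0) (nat_lit 10249061163195) (nat_lit 304) (nat_lit 1461148013282) (nat_lit 76) (nat_lit 5959821979553) (nat_lit 69) (nat_lit 5) (nat_lit 73) (nat_lit 5) (nat_lit 70) (nat_lit 5) (nat_lit 404) (nat_lit 395) (nat_lit 221))))) (XT.nd (nat_lit 156) (nat_lit 456) (nat_lit 0) (XT.nd (nat_lit 78) (nat_lit 380) (nat_lit 0) (XT.lf (nat_lit 0) (nat_lit 17855042639083) (nat_lit 228) (nat_lit 110946543481) (nat_lit 76) (nat_lit 1255163690799) (nat_lit 67) (nat_lit 5) (nat_lit 70) (nat_lit 5) (nat_lit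 68) (nat_lit 5) (nat_lit 405) (nat_lit 395) (nat_lit 220)) (XT.lf (nat_lit 0) (nat_lit 1655483199767) (nat_lit 152) (nat_lit 4637592946939) (nat_lit 228) (nat_lit 14623011608969) (nat_lit 62) (nat_lit 5) (nat_lit 64) (nat_lit 5) (nat_lit 65) (nat_lit 5) (nat_lit 406) (nat_lit 395) (nat_lit 219))) (XT.nd (nat_lit 78) (nat_lit 304) (nat_lit 0) (XT.lf (nat_lit 0) (nat_lit 4041793067794) (nat_lit 152) (nat_lit 11916091208264) (nat_lit 228) (nat_lit 6829529302715) (nat_lit 60) (nat_lit 5) (nat_lit 62) (nat_lit 5) (nat_lit 63) (nat_lit 5) (nat_lit 407) (nat_lit 395) (nat_lit 218)) (XT.nd (nat_lit 78) (nat_lit 152) (nat_lit 0) (XT.lf (nat_lit 0) (nat_lit 3010230068237) (nat_lit 152) (nat_lit 17688836475212) (nat_lit 76) (nat_lit 4157551500464) (nat_lit 58) (nat_lit 5) (nat_lit 60) (nat_lit 5) (nat_lit 59) (nat_lit 5) (nat_lit 408) (nat_lit 395) (nat_lit 217)) (XT.lf (nat_lit 0) (nat_lit 10924693653298)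 (nat_lit 152) (nat_lit 4160615755074) (nat_lit 228) (nat_lit 12043603307897) (nat_lit 56) (nat_lit 5) (nat_lit 58) (nat_lit 5) (nat_lit 59) (nat_lit 5) (nat_lit 409) (nat_lit 395) (nat_lit 216)))))) (XT.nd (nat_lit 390) (nat_lit 532) (nat_lit 0) (XT.nd (nat_lit 156) (nat_lit 456) (nat_lit 0) (XT.nd (nat_lit 78) (nat_lit 152) (nat_lit 0) (XT.lf (nat_lit 0) (nat_lit 562051973619) (nat_lit 152) (nat_lit 14044617126266) (nat_lit 76) (nat_lit 15033351595413) (nat_lit 54) (nat_lit 5) (nat_lit 56) (nat_lit 5) (nat_lit 55) (nat_lit 5) (nat_lit 410) (nat_lit 395) (nat_lit 215)) (XT.lf (nat_lit 0) (nat_lit 15615180014449) (nat_lit 228) (nat_lit 11292156007825) (nat_lit 76) (nat_lit 5493853965293) (nat_lit 52) (nat_lit 5) (nat_lit 55) (nat_lit 5) (nat_lit 53) (nat_lit 4) (nat_lit 411) (nat_lit 395) (nat_lit 214))) (XT.nd (nat_lit 78) (nat_lit 380) (nat_lit 0) (XT.lf (nat_lit 0) (nat_lit 27819445283848)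 (nat_lit 76) (nat_lit 6599389197780) (nat_lit 152) (nat_lit 1038295614431) (nat_lit 51) (nat_lit 5) (nat_lit 52) (nat_lit 5) (nat_lit 53) (nat_lit 4) (nat_lit 412) (nat_lit 395) (nat_lit 213)) (XT.nd (nat_lit 78) (nat_lit 152) (nat_lit 0) (XT.lf (nat_lit 0) (nat_lit 17863426541512) (nat_lit 228) (nat_lit 3373452828831) (nat_lit 76) (nat_lit 17570068904794) (nat_lit 48) (nat_lit 5) (nat_lit 51) (nat_lit 5) (nat_lit 49) (nat_lit 4) (nat_lit 413) (nat_lit 395) (nat_lit 212)) (XT.lf (nat_lit 0) (nat_lit 2297113341503) (nat_lit 76) (nat_lit 38878133306682) (nat_lit 76) (nat_lit 1350929570369) (nat_lit 46) (nat_lit 4) (nat_lit 47) (nat_lit 5) (nat_lit 47) (nat_lit 4) (nat_lit 414) (nat_lit 395) (nat_lit 211))))) (XT.nd (nat_lit 234) (nat_lit 152) (nat_lit 0) (XT.nd (nat_lit 78) (nat_lit 228) (nat_lit 0) (XT.lf (nat_lit 0) (nat_lit 8835209622462) (nat_lit 76) (nat_lit 13454412184657) (nat_lit 152)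 (nat_lit 24299426536417) (nat_lit 44) (nat_lit 5) (nat_lit 45) (nat_lit 5) (nat_lit 46) (nat_lit 4) (nat_lit 415) (nat_lit 395) (nat_lit 210)) (XT.nd (nat_lit 78) (nat_lit 76) (nat_lit 0) (XT.lf (nat_lit 0) (nat_lit 273179157311) (nat_lit 152) (nat_lit 34179198219805) (nat_lit 76) (nat_lit 16646365904847) (nat_lit 42) (nat_lit 5) (nat_lit 44) (nat_lit 5) (nat_lit 43) (nat_lit 4) (nat_lit 416) (nat_lit 395) (nat_lit 209)) (XT.lf (nat_lit 0) (nat_lit 26116984551341) (nat_lit 76) (nat_lit 3144744015186) (nat_lit 152) (nat_lit 26799163573762) (nat_lit 41) (nat_lit 5) (nat_lit 42) (nat_lit 5) (nat_lit 43) (nat_lit 4) (nat_lit 417) (nat_lit 395) (nat_lit 208)))) (XT.nd (nat_lit 51402) (nat_lit 0) (nat_lit 3572) (XT.lf (nat_lit 0) (nat_lit 3557560785410) (nat_lit 152) (nat_lit 24773802146954) (nat_lit 76) (nat_lit 33212965684742) (nat_lit 39) (nat_lit 5) (nat_lit 41) (nat_lit 5) (nat_lit 40) (nat_lit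 4) (nat_lit 418) (nat_lit 395) (nat_lit 207)) (XT.nd (nat_lit 78) (nat_lit 532) (nat_lit 0) (XT.lf (nat_lit 0) (nat_lit 5021010909816) (nat_lit 532) (nat_lit 33493259160) (nat_lit 532) (nat_lit 33493259160) (nat_lit 93) (nat_lit 3) (nat_lit 100) (nat_lit 3) (nat_lit 100) (nat_lit 5) (nat_lit 396) (nat_lit 396) (nat_lit 228)) (XT.lf (nat_lit 0) (nat_lit 108244974510) (nat_lit 532) (nat_lit 991136172287) (nat_lit 608) (nat_lit 9820485502447) (nat_lit 86) (nat_lit 5) (nat_lit 93) (nat_lit 3) (nat_lit 94) (nat_lit 5) (nat_lit 397) (nat_lit 396) (nat_lit 227))))))) (XT.nd (nat_lit 780) (nat_lit 1596) (nat_lit 0) (XT.nd (nat_lit 390) (nat_lit 1292) (nat_lit 0) (XT.nd (nat_lit 156) (nat_lit 608) (nat_lit 0) (XT.nd (nat_lit 78) (nat_lit 0) (nat_lit 76) (XT.lf (nat_lit 0) (nat_lit 854603391097) (nat_lit 532) (nat_lit 1827518977551) (nat_lit 608) (nat_lit 9054859224777) (nat_lit 87) (nat_lit 5) (nat_lit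 94) (nat_lit 5) (nat_lit 95) (nat_lit 5) (nat_lit 398) (nat_lit 396) (nat_lit 226)) (XT.lf (nat_lit 0) (nat_lit 2220506865322) (nat_lit 532) (nat_lit 2535809346158) (nat_lit 608) (nat_lit 7879740264142) (nat_lit 88) (nat_lit 5) (nat_lit 95) (nat_lit 5) (nat_lit 96) (nat_lit 5) (nat_lit 399) (nat_lit 396) (nat_lit 225))) (XT.nd (nat_lit 78) (nat_lit 760) (nat_lit 0) (XT.lf (nat_lit 0) (nat_lit 4335359703672) (nat_lit 532) (nat_lit 3073513740461) (nat_lit 76) (nat_lit 6217594038577) (nat_lit 89) (nat_lit 5) (nat_lit 96) (nat_lit 5) (nat_lit 90) (nat_lit 5) (nat_lit 400) (nat_lit 396) (nat_lit 224)) (XT.nd (nat_lit 78) (nat_lit 228) (nat_lit 0) (XT.lf (nat_lit 0) (nat_lit 7350531817349) (nat_lit 608) (nat_lit 3389815028782) (nat_lit 76) (nat_lit 3978445986762) (nat_lit 82) (nat_lit 5) (nat_lit 90) (nat_lit 5) (nat_lit 83) (nat_lit 5) (nat_lit 401) (nat_lit 396) (nat_lit 223)) (XT.lf (nat_lit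 0) (nat_lit 11442820756235) (nat_lit 304) (nat_lit 3424197486431) (nat_lit 76) (nat_lit 1057961462286) (nat_lit 79) (nat_lit 5) (nat_lit 83) (nat_lit 5) (nat_lit 80) (nat_lit 5) (nat_lit 402) (nat_lit 396) (nat_lit 222))))) (XT.nd (nat_lit 156) (nat_lit 760) (nat_lit 0) (XT.nd (nat_lit 78) (nat_lit 304) (nat_lit 0) (XT.lf (nat_lit 0) (nat_lit 14080810964601) (nat_lit 228) (nat_lit 2805091568680) (nat_lit 304) (nat_lit 367236114751) (nat_lit 76) (nat_lit 5) (nat_lit 79) (nat_lit 5) (nat_lit 80) (nat_lit 5) (nat_lit 403) (nat_lit 396) (nat_lit 221)) (XT.lf (nat_lit 0) (nat_lit 4923984656890) (nat_lit 304) (nat_lit 2657147280841) (nat_lit 76) (nat_lit 11128798510762) (nat_lit 72) (nat_lit 5) (nat_lit 76) (nat_lit 5) (nat_lit 73) (nat_lit 5) (nat_lit 404) (nat_lit 396) (nat_lit 220))) (XT.nd (nat_lit 78) (nat_lit 532) (nat_lit 0) (XT.lf (nat_lit 0) (nat_lit 11786420338675) (nat_lit 304) (nat_lit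 1680320213889) (nat_lit 76) (nat_lit 6853795276790) (nat_lit 69) (nat_lit 5) (nat_lit 73) (nat_lit 5) (nat_lit 70) (nat_lit 5) (nat_lit 405) (nat_lit 396) (nat_lit 219)) (XT.nd (nat_lit 78) (nat_lit 380) (nat_lit 0) (XT.lf (nat_lit 0) (nat_lit 20533299035855) (nat_lit 228) (nat_lit 127588523672) (nat_lit 76) (nat_lit 1443438244767) (nat_lit 67) (nat_lit 5) (nat_lit 70) (nat_lit 5) (nat_lit 68) (nat_lit 5) (nat_lit 406) (nat_lit 396) (nat_lit 218)) (XT.lf (nat_lit 0) (nat_lit 1903805681062) (nat_lit 152) (nat_lit 5333231888523) (nat_lit 228) (nat_lit 16816463349371) (nat_lit 62) (nat_lit 5) (nat_lit 64) (nat_lit 5) (nat_lit 65) (nat_lit 5) (nat_lit 407) (nat_lit 396) (nat_lit 217)))))) (XT.nd (nat_lit 390) (nat_lit 836) (nat_lit 0) (XT.nd (nat_lit 156) (nat_lit 456) (nat_lit 0) (XT.nd (nat_lit 78) (nat_lit 152) (nat_lit 0) (XT.lf (nat_lit 0) (nat_lit 4648062029234) (nat_lit 152) (nat_lit 13703504889033)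 (nat_lit 228) (nat_lit 7853958697259) (nat_lit 60) (nat_lit 5) (nat_lit 62) (nat_lit 5) (nat_lit 63) (nat_lit 5) (nat_lit 408) (nat_lit 396) (nat_lit 216)) (XT.lf (nat_lit 0) (nat_lit 3461764579226) (nat_lit 152) (nat_lit 20342161945243) (nat_lit 76) (nat_lit 4781184225971) (nat_lit 58) (nat_lit 5) (nat_lit 60) (nat_lit 5) (nat_lit 59) (nat_lit 5) (nat_lit 409) (nat_lit 396) (nat_lit 215))) (XT.nd (nat_lit 78) (nat_lit 304) (nat_lit 0) (XT.lf (nat_lit 0) (nat_lit 12563397702438) (nat_lit 152) (nat_lit 4784708117873) (nat_lit 228) (nat_lit 13850143803345) (nat_lit 56) (nat_lit 5) (nat_lit 58) (nat_lit 5) (nat_lit 59) (nat_lit 5) (nat_lit 410) (nat_lit 396) (nat_lit 214)) (XT.nd (nat_lit 78) (nat_lit 152) (nat_lit 0) (XT.lf (nat_lit 0) (nat_lit 646359770307) (nat_lit 152) (nat_lit 16151309694084) (nat_lit 76) (nat_lit 17288354335150) (nat_lit 54) (nat_lit 5) (nat_lit 56) (nat_lit 5) (nat_lit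 55) (nat_lit 5) (nat_lit 411) (nat_lit 396) (nat_lit 213)) (XT.lf (nat_lit 0) (nat_lit 17957457017214) (nat_lit 228) (nat_lit 12985979407935) (nat_lit 76) (nat_lit 6317932060506) (nat_lit 52) (nat_lit 5) (nat_lit 55) (nat_lit 5) (nat_lit 53) (nat_lit 4) (nat_lit 412) (nat_lit 396) (nat_lit 212))))) (XT.nd (nat_lit 234) (nat_lit 380) (nat_lit 0) (XT.nd (nat_lit 78) (nat_lit 380) (nat_lit 0) (XT.lf (nat_lit 0) (nat_lit 31992362077399) (nat_lit 76) (nat_lit 7589297577016) (nat_lit 152) (nat_lit 1194039956009) (nat_lit 51) (nat_lit 5) (nat_lit 52) (nat_lit 5) (nat_lit 53) (nat_lit 4) (nat_lit 413) (nat_lit 396) (nat_lit 211)) (XT.nd (nat_lit 78) (nat_lit 152) (nat_lit 0) (XT.lf (nat_lit 0) (nat_lit 20542940523254) (nat_lit 228) (nat_lit 3879470752207) (nat_lit 76) (nat_lit 20205579240904) (nat_lit 48) (nat_lit 5) (nat_lit 51) (nat_lit 5) (nat_lit 49) (nat_lit 4) (nat_lit 414) (nat_lit 396) (nat_lit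 210)) (XT.lf (nat_lit 0) (nat_lit 2641680343673) (nat_lit 76) (nat_lit 44709853302243) (nat_lit 76) (nat_lit 1553569005382) (nat_lit 46) (nat_lit 4) (nat_lit 47) (nat_lit 5) (nat_lit 47) (nat_lit 4) (nat_lit 415) (nat_lit 396) (nat_lit 209)))) (XT.nd (nat_lit 78) (nat_lit 228) (nat_lit 0) (XT.lf (nat_lit 0) (nat_lit 10160491066720) (nat_lit 76) (nat_lit 15472574011936) (nat_lit 152) (nat_lit 27944340516373) (nat_lit 44) (nat_lit 5) (nat_lit 45) (nat_lit 5) (nat_lit 46) (nat_lit 4) (nat_lit 416) (nat_lit 396) (nat_lit 208)) (XT.nd (nat_lit 78) (nat_lit 76) (nat_lit 0) (XT.lf (nat_lit 0) (nat_lit 314156031356) (nat_lit 152) (nat_lit 39306077951914) (nat_lit 76) (nat_lit 19143320790952) (nat_lit 42) (nat_lit 5) (nat_lit 44) (nat_lit 5) (nat_lit 43) (nat_lit 4) (nat_lit 417) (nat_lit 396) (nat_lit 207)) (XT.lf (nat_lit 0) (nat_lit 30034532234831) (nat_lit 76) (nat_lit 3616455617084) (nat_lit 152)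 (nat_lit 30819038109385) (nat_lit 41) (nat_lit 5) (nat_lit 42) (nat_lit 5) (nat_lit 43) (nat_lit 4) (nat_lit 418) (nat_lit 396) (nat_lit 206))))))))
noncomputable def xc122 : XT := (XT.nd (nat_lit 1638) (nat_lit 152) (nat_lit 0) (XT.nd (nat_lit 780) (nat_lit 1900) (nat_lit 0) (XT.nd (nat_lit 390) (nat_lit 1292) (nat_lit 0) (XT.nd (nat_lit 156) (nat_lit 0) (nat_lit 76) (XT.nd (nat_lit 78) (nat_lit 532) (nat_lit 0) (XT.lf (nat_lit 0) (nat_lit 5774162547319) (nat_lit 532) (nat_lit 38517247477) (nat_lit 532) (nat_lit 38517247477) (nat_lit 93) (nat_lit 3) (nat_lit 100) (nat_lit 3) (nat_lit 100) (nat_lit 5) (nat_lit 397) (nat_lit 397) (nat_lit 226)) (XT.lf (nat_lit 0) (nat_lit 124481722550) (nat_lit 532) (nat_lit 1139806597013) (nat_lit 608) (nat_lit 11293558326918) (nat_lit 86) (nat_lit 5) (nat_lit 93) (nat_lit 3) (nat_lit 94) (nat_lit 5) (nat_lit 398) (nat_lit 397) (nat_lit 225))) (XT.nd (nat_lit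 78) (nat_lit 0) (nat_lit 76) (XT.lf (nat_lit 0) (nat_lit 982793901392) (nat_lit 532) (nat_lit 2101646823014) (nat_lit 608) (nat_lit 10413088107902) (nat_lit 87) (nat_lit 5) (nat_lit 94) (nat_lit 5) (nat_lit 95) (nat_lit 5) (nat_lit 399) (nat_lit 397) (nat_lit 224)) (XT.nd (nat_lit 78) (nat_lit 0) (nat_lit 76) (XT.lf (nat_lit 0) (nat_lit 2553582896554) (nat_lit 532) (nat_lit 2916180746887) (nat_lit 608) (nat_lit 9061701303409) (nat_lit 88) (nat_lit 5) (nat_lit 95) (nat_lit 5) (nat_lit 96) (nat_lit 5) (nat_lit 400) (nat_lit 397) (nat_lit 223)) (XT.lf (nat_lit 0) (nat_lit 4985663660492) (nat_lit 532) (nat_lit 3534540800330) (nat_lit 76) (nat_lit 7150233144192) (nat_lit 89) (nat_lit 5) (nat_lit 96) (nat_lit 5) (nat_lit 90) (nat_lit 5) (nat_lit 401) (nat_lit 397) (nat_lit 222))))) (XT.nd (nat_lit 156) (nat_lit 760) (nat_lit 0) (XT.nd (nat_lit 78) (nat_lit 228) (nat_lit 0) (XT.lf (nat_lit 0) (nat_lit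 8453111591080) (nat_lit 608) (nat_lit 3898287281909) (nat_lit 76) (nat_lit 4575212884747) (nat_lit 82) (nat_lit 5) (nat_lit 90) (nat_lit 5) (nat_lit 83) (nat_lit 5) (nat_lit 402) (nat_lit 397) (nat_lit 221)) (XT.lf (nat_lit 0) (nat_lit 13159243870680) (nat_lit 304) (nat_lit 3937827108228) (nat_lit 76) (nat_lit 1216655681706) (nat_lit 79) (nat_lit 5) (nat_lit 83) (nat_lit 5) (nat_lit 80) (nat_lit 5) (nat_lit 403) (nat_lit 397) (nat_lit 220))) (XT.nd (nat_lit 78) (nat_lit 532) (nat_lit 0) (XT.lf (nat_lit 0) (nat_lit 16192932610361) (nat_lit 228) (nat_lit 3225855303817) (nat_lit 304) (nat_lit 422321530988) (nat_lit 76) (nat_lit 5) (nat_lit 79) (nat_lit 5) (nat_lit 80) (nat_lit 5) (nat_lit 404) (nat_lit 397) (nat_lit 219)) (XT.nd (nat_lit 78) (nat_lit 228) (nat_lit 0) (XT.lf (nat_lit 0) (nat_lit 5662582356259) (nat_lit 304) (nat_lit 3055719371882) (nat_lit 76) (nat_lit 12798118287558) (nat_lit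 72) (nat_lit 5) (nat_lit 76) (nat_lit 5) (nat_lit 73) (nat_lit 5) (nat_lit 405) (nat_lit 397) (nat_lit 218)) (XT.lf (nat_lit 0) (nat_lit 13554383390233) (nat_lit 304) (nat_lit 1932368244924) (nat_lit 76) (nat_lit 7881864568539) (nat_lit 69) (nat_lit 5) (nat_lit 73) (nat_lit 5) (nat_lit 70) (nat_lit 5) (nat_lit 406) (nat_lit 397) (nat_lit 217)))))) (XT.nd (nat_lit 390) (nat_lit 912) (nat_lit 0) (XT.nd (nat_lit 156) (nat_lit 456) (nat_lit 0) (XT.nd (nat_lit 78) (nat_lit 380) (nat_lit 0) (XT.lf (nat_lit 0) (nat_lit 23613293891921) (nat_lit 228) (nat_lit 146726801216) (nat_lit 76) (nat_lit 1659953981747) (nat_lit 67) (nat_lit 5) (nat_lit 70) (nat_lit 5) (nat_lit 68) (nat_lit 5) (nat_lit 407) (nat_lit 397) (nat_lit 216)) (XT.lf (nat_lit 0) (nat_lit 2189376534227) (nat_lit 152) (nat_lit 6133216671457) (nat_lit 228) (nat_lit 19338932851064) (nat_lit 62) (nat_lit 5) (nat_lit 64) (nat_lit 5) (nat_lit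 65) (nat_lit 5) (nat_lit 408) (nat_lit 397) (nat_lit 215))) (XT.nd (nat_lit 78) (nat_lit 304) (nat_lit 0) (XT.lf (nat_lit 0) (nat_lit 5345271334580) (nat_lit 152) (nat_lit 15759030622031) (nat_lit 228) (nat_lit 9032052501195) (nat_lit 60) (nat_lit 5) (nat_lit 62) (nat_lit 5) (nat_lit 63) (nat_lit 5) (nat_lit 409) (nat_lit 397) (nat_lit 214)) (XT.nd (nat_lit 78) (nat_lit 152) (nat_lit 0) (XT.lf (nat_lit 0) (nat_lit 3981029266680) (nat_lit 152) (nat_lit 23393486236083) (nat_lit 76) (nat_lit 5498361860198) (nat_lit 58) (nat_lit 5) (nat_lit 60) (nat_lit 5) (nat_lit 59) (nat_lit 5) (nat_lit 410) (nat_lit 397) (nat_lit 213)) (XT.lf (nat_lit 0) (nat_lit 14447907358670) (nat_lit 152) (nat_lit 5502414335204) (nat_lit 228) (nat_lit 15927665373289) (nat_lit 56) (nat_lit 5) (nat_lit 58) (nat_lit 5) (nat_lit 59) (nat_lit 5) (nat_lit 411) (nat_lit 397) (nat_lit 212))))) (XT.nd (nat_lit 234) (nat_lit 532)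 (nat_lit 0) (XT.nd (nat_lit 78) (nat_lit 228) (nat_lit 0) (XT.lf (nat_lit 0) (nat_lit 743313736342) (nat_lit 152) (nat_lit 18574006147348) (nat_lit 76) (nat_lit 19881607485744) (nat_lit 54) (nat_lit 5) (nat_lit 56) (nat_lit 5) (nat_lit 55) (nat_lit 5) (nat_lit 412) (nat_lit 397) (nat_lit 211)) (XT.nd (nat_lit 78) (nat_lit 76) (nat_lit 0) (XT.lf (nat_lit 0) (nat_lit 20651075570247) (nat_lit 228) (nat_lit 14933876318320) (nat_lit 76) (nat_lit 7265621869899) (nat_lit 52) (nat_lit 5) (nat_lit 55) (nat_lit 5) (nat_lit 53) (nat_lit 4) (nat_lit 413) (nat_lit 397) (nat_lit 210)) (XT.lf (nat_lit 0) (nat_lit 36791216389744) (nat_lit 76) (nat_lit 8727692213243) (nat_lit 152) (nat_lit 1373145948968) (nat_lit 51) (nat_lit 5) (nat_lit 52) (nat_lit 5) (nat_lit 53) (nat_lit 4) (nat_lit 414) (nat_lit 397) (nat_lit 209)))) (XT.nd (nat_lit 78) (nat_lit 304) (nat_lit 0) (XT.lf (nat_lit 0) (nat_lit 23624381602133)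 (nat_lit 228) (nat_lit 4461391364321) (nat_lit 76) (nat_lit 23236416127336) (nat_lit 48) (nat_lit 5) (nat_lit 51) (nat_lit 5) (nat_lit 49) (nat_lit 4) (nat_lit 415) (nat_lit 397) (nat_lit 208)) (XT.nd (nat_lit 78) (nat_lit 152) (nat_lit 0) (XT.lf (nat_lit 0) (nat_lit 3037932395937) (nat_lit 76) (nat_lit 51416331297245) (nat_lit 76) (nat_lit 1786604355780) (nat_lit 46) (nat_lit 4) (nat_lit 47) (nat_lit 5) (nat_lit 47) (nat_lit 4) (nat_lit 416) (nat_lit 397) (nat_lit 207)) (XT.lf (nat_lit 0) (nat_lit 11684564727400) (nat_lit 76) (nat_lit 17793460113409) (nat_lit 152) (nat_lit 32135991593446) (nat_lit 44) (nat_lit 5) (nat_lit 45) (nat_lit 5) (nat_lit 46) (nat_lit 4) (nat_lit 417) (nat_lit 397) (nat_lit 206))))))) (XT.nd (nat_lit 52260) (nat_lit 0) (nat_lit 304) (XT.nd (nat_lit 51870) (nat_lit 0) (nat_lit 2280) (XT.nd (nat_lit 51636) (nat_lit 0) (nat_lit 3344) (XT.nd (nat_lit 51558) (nat_lit 0)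 (nat_lit 3876) (XT.lf (nat_lit 0) (nat_lit 361279436399) (nat_lit 152) (nat_lit 45201989644049) (nat_lit 76) (nat_lit 22014818909881) (nat_lit 42) (nat_lit 5) (nat_lit 44) (nat_lit 5) (nat_lit 43) (nat_lit 4) (nat_lit 418) (nat_lit 397) (nat_lit 205)) (XT.lf (nat_lit 0) (nat_lit 6640286930196) (nat_lit 532) (nat_lit 44294834178) (nat_lit 532) (nat_lit 44294834178) (nat_lit 93) (nat_lit 3) (nat_lit 100) (nat_lit 3) (nat_lit 100) (nat_lit 5) (nat_lit 398) (nat_lit 398) (nat_lit 224))) (XT.nd (nat_lit 78) (nat_lit 0) (nat_lit 76) (XT.lf (nat_lit 0) (nat_lit 143153982342) (nat_lit 532) (nat_lit 1310777585721) (nat_lit 608) (nat_lit 12987592075278) (nat_lit 86) (nat_lit 5) (nat_lit 93) (nat_lit 3) (nat_lit 94) (nat_lit 5) (nat_lit 399) (nat_lit 398) (nat_lit 223)) (XT.nd (nat_lit 78) (nat_lit 0) (nat_lit 76) (XT.lf (nat_lit 0) (nat_lit 1130212987833) (nat_lit 532) (nat_lit 2416893845583) (nat_lit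 608) (nat_lit 11975051323640) (nat_lit 87) (nat_lit 5) (nat_lit 94) (nat_lit 5) (nat_lit 95) (nat_lit 5) (nat_lit 400) (nat_lit 398) (nat_lit 222)) (XT.lf (nat_lit 0) (nat_lit 2936620332122) (nat_lit 532) (nat_lit 3353607858017) (nat_lit 608) (nat_lit 10420956498653) (nat_lit 88) (nat_lit 5) (nat_lit 95) (nat_lit 5) (nat_lit 96) (nat_lit 5) (nat_lit 401) (nat_lit 398) (nat_lit 221))))) (XT.nd (nat_lit 156) (nat_lit 760) (nat_lit 0) (XT.nd (nat_lit 78) (nat_lit 532) (nat_lit 0) (XT.lf (nat_lit 0) (nat_lit 5733513210525) (nat_lit 532) (nat_lit 4064721919472) (nat_lit 76) (nat_lit 8222768115692) (nat_lit 89) (nat_lit 5) (nat_lit 96) (nat_lit 5) (nat_lit 90) (nat_lit 5) (nat_lit 402) (nat_lit 398) (nat_lit 220)) (XT.lf (nat_lit 0) (nat_lit 9721078330596) (nat_lit 608) (nat_lit 4483030373296) (nat_lit 76) (nat_lit 5261494817436) (nat_lit 82) (nat_lit 5) (nat_lit 90) (nat_lit 5) (nat_lit 83) (nat_lit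 5) (nat_lit 403) (nat_lit 398) (nat_lit 219))) (XT.nd (nat_lit 78) (nat_lit 532) (nat_lit 0) (XT.lf (nat_lit 0) (nat_lit 15133130452046) (nat_lit 304) (nat_lit 4528501173579) (nat_lit 76) (nat_lit 1399154034020) (nat_lit 79) (nat_lit 5) (nat_lit 83) (nat_lit 5) (nat_lit 80) (nat_lit 5) (nat_lit 404) (nat_lit 398) (nat_lit 218)) (XT.nd (nat_lit 78) (nat_lit 304) (nat_lit 0) (XT.lf (nat_lit 0) (nat_lit 18621872502723) (nat_lit 228) (nat_lit 3709733599265) (nat_lit 304) (nat_lit 485669759898) (nat_lit 76) (nat_lit 5) (nat_lit 79) (nat_lit 5) (nat_lit 80) (nat_lit 5) (nat_lit 405) (nat_lit 398) (nat_lit 217)) (XT.lf (nat_lit 0) (nat_lit 6511969710330) (nat_lit 304) (nat_lit 3514077276844) (nat_lit 76) (nat_lit 14717836030830) (nat_lit 72) (nat_lit 5) (nat_lit 76) (nat_lit 5) (nat_lit 73) (nat_lit 5) (nat_lit 406) (nat_lit 398) (nat_lit 216)))))) (XT.nd (nat_lit 390) (nat_lit 912) (nat_lit 0) (XT.nd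 (nat_lit 156) (nat_lit 684) (nat_lit 0) (XT.nd (nat_lit 78) (nat_lit 152) (nat_lit 0) (XT.lf (nat_lit 0) (nat_lit 15587540899340) (nat_lit 304) (nat_lit 2222223480871) (nat_lit 76) (nat_lit 9064144253995) (nat_lit 69) (nat_lit 5) (nat_lit 73) (nat_lit 5) (nat_lit 70) (nat_lit 5) (nat_lit 407) (nat_lit 398) (nat_lit 215)) (XT.lf (nat_lit 0) (nat_lit 27155287976229) (nat_lit 228) (nat_lit 168735820637) (nat_lit 76) (nat_lit 1908947079209) (nat_lit 67) (nat_lit 5) (nat_lit 70) (nat_lit 5) (nat_lit 68) (nat_lit 5) (nat_lit 408) (nat_lit 398) (nat_lit 214))) (XT.nd (nat_lit 78) (nat_lit 304) (nat_lit 0) (XT.lf (nat_lit 0) (nat_lit 2517783015121) (nat_lit 152) (nat_lit 7053199171915) (nat_lit 228) (nat_lit 22239772778184) (nat_lit 62) (nat_lit 5) (nat_lit 64) (nat_lit 5) (nat_lit 65) (nat_lit 5) (nat_lit 409) (nat_lit 398) (nat_lit 213)) (XT.nd (nat_lit 78) (nat_lit 152) (nat_lit 0) (XT.lf (nat_lit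 0) (nat_lit 6147062035495) (nat_lit 152) (nat_lit 18122885215066) (nat_lit 228) (nat_lit 10386860375880) (nat_lit 60) (nat_lit 5) (nat_lit 62) (nat_lit 5) (nat_lit 63) (nat_lit 5) (nat_lit 410) (nat_lit 398) (nat_lit 212)) (XT.lf (nat_lit 0) (nat_lit 4578183657112) (nat_lit 152) (nat_lit 26902509170780) (nat_lit 76) (nat_lit 6323116139478) (nat_lit 58) (nat_lit 5) (nat_lit 60) (nat_lit 5) (nat_lit 59) (nat_lit 5) (nat_lit 411) (nat_lit 398) (nat_lit 211))))) (XT.nd (nat_lit 234) (nat_lit 456) (nat_lit 0) (XT.nd (nat_lit 78) (nat_lit 304) (nat_lit 0) (XT.lf (nat_lit 0) (nat_lit 16615093463126) (nat_lit 152) (nat_lit 6327776485220) (nat_lit 228) (nat_lit 18316815178861) (nat_lit 56) (nat_lit 5) (nat_lit 58) (nat_lit 5) (nat_lit 59) (nat_lit 5) (nat_lit 412) (nat_lit 398) (nat_lit 210)) (XT.nd (nat_lit 78) (nat_lit 152) (nat_lit 0) (XT.lf (nat_lit 0) (nat_lit 854810797163) (nat_lit 152) (nat_lit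 21360107068808) (nat_lit 76) (nat_lit 22863848608849) (nat_lit 54) (nat_lit 5) (nat_lit 56) (nat_lit 5) (nat_lit 55) (nat_lit 5) (nat_lit 413) (nat_lit 398) (nat_lit 209)) (XT.lf (nat_lit 0) (nat_lit 23748736906126) (nat_lit 228) (nat_lit 17173957765461) (nat_lit 76) (nat_lit 8355465150623) (nat_lit 52) (nat_lit 5) (nat_lit 55) (nat_lit 5) (nat_lit 53) (nat_lit 4) (nat_lit 414) (nat_lit 398) (nat_lit 208)))) (XT.nd (nat_lit 78) (nat_lit 380) (nat_lit 0) (XT.lf (nat_lit 0) (nat_lit 42309898848763) (nat_lit 76) (nat_lit 10036846044982) (nat_lit 152) (nat_lit 1579117840978) (nat_lit 51) (nat_lit 5) (nat_lit 52) (nat_lit 5) (nat_lit 53) (nat_lit 4) (nat_lit 415) (nat_lit 398) (nat_lit 207)) (XT.nd (nat_lit 78) (nat_lit 152) (nat_lit 0) (XT.lf (nat_lit 0) (nat_lit 27168038842748) (nat_lit 228) (nat_lit 5130600068427) (nat_lit 76) (nat_lit 26721878546661) (nat_lit 48) (nat_lit 5) (nat_lit 51) (nat_lit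 5) (nat_lit 49) (nat_lit 4) (nat_lit 416) (nat_lit 398) (nat_lit 206)) (XT.lf (nat_lit 0) (nat_lit 3493622255867) (nat_lit 76) (nat_lit 59128780991579) (nat_lit 76) (nat_lit 2054595008837) (nat_lit 46) (nat_lit 4) (nat_lit 47) (nat_lit 5) (nat_lit 47) (nat_lit 4) (nat_lit 417) (nat_lit 398) (nat_lit 205))))))))
noncomputable def xc123 : XT := (XT.nd (nat_lit 104832) (nat_lit 0) (nat_lit 304) (XT.nd (nat_lit 52338) (nat_lit 0) (nat_lit 152) (XT.nd (nat_lit 51948) (nat_lit 0) (nat_lit 2128) (XT.nd (nat_lit 51714) (nat_lit 0) (nat_lit 3192) (XT.nd (nat_lit 51636) (nat_lit 0) (nat_lit 3724) (XT.lf (nat_lit 0) (nat_lit 13437249437018) (nat_lit 76) (nat_lit 20462479130181) (nat_lit 152) (nat_lit 36956390332173) (nat_lit 44) (nat_lit 5) (nat_lit 45) (nat_lit 5) (nat_lit 46) (nat_lit 4) (nat_lit 418) (nat_lit 398) (nat_lit 204)) (XT.lf (nat_lit 0) (nat_lit 7636329970314) (nat_lit 532) (nat_lit 50939058987)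 (nat_lit 532) (nat_lit 50939058987) (nat_lit 93) (nat_lit 3) (nat_lit 100) (nat_lit 3) (nat_lit 100) (nat_lit 5) (nat_lit 399) (nat_lit 399) (nat_lit 222))) (XT.nd (nat_lit 78) (nat_lit 0) (nat_lit 76) (XT.lf (nat_lit 0) (nat_lit 164627080759) (nat_lit 532) (nat_lit 1507394222941) (nat_lit 608) (nat_lit 14935730886057) (nat_lit 86) (nat_lit 5) (nat_lit 93) (nat_lit 3) (nat_lit 94) (nat_lit 5) (nat_lit 400) (nat_lit 399) (nat_lit 221)) (XT.nd (nat_lit 78) (nat_lit 0) (nat_lit 76) (XT.lf (nat_lit 0) (nat_lit 1299744936941) (nat_lit 532) (nat_lit 2779427921752) (nat_lit 608) (nat_lit 13771309021848) (nat_lit 87) (nat_lit 5) (nat_lit 94) (nat_lit 5) (nat_lit 95) (nat_lit 5) (nat_lit 401) (nat_lit 399) (nat_lit 220)) (XT.lf (nat_lit 0) (nat_lit 3377113382760) (nat_lit 532) (nat_lit 3856649036036) (nat_lit 608) (nat_lit 11984099973248) (nat_lit 88) (nat_lit 5) (nat_lit 95) (nat_lit 5) (nat_lit 96)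 (nat_lit 5) (nat_lit 402) (nat_lit 399) (nat_lit 219))))) (XT.nd (nat_lit 156) (nat_lit 760) (nat_lit 0) (XT.nd (nat_lit 78) (nat_lit 532) (nat_lit 0) (XT.lf (nat_lit 0) (nat_lit 6593540192829) (nat_lit 532) (nat_lit 4674430206707) (nat_lit 76) (nat_lit 9456183332948) (nat_lit 89) (nat_lit 5) (nat_lit 96) (nat_lit 5) (nat_lit 90) (nat_lit 5) (nat_lit 403) (nat_lit 399) (nat_lit 218)) (XT.lf (nat_lit 0) (nat_lit 11179240080831) (nat_lit 608) (nat_lit 5155484928610) (nat_lit 76) (nat_lit 6050719040034) (nat_lit 82) (nat_lit 5) (nat_lit 90) (nat_lit 5) (nat_lit 83) (nat_lit 5) (nat_lit 404) (nat_lit 399) (nat_lit 217))) (XT.nd (nat_lit 78) (nat_lit 532) (nat_lit 0) (XT.lf (nat_lit 0) (nat_lit 17403100020430) (nat_lit 304) (nat_lit 5207776348948) (nat_lit 76) (nat_lit 1609027139167) (nat_lit 79) (nat_lit 5) (nat_lit 83) (nat_lit 5) (nat_lit 80) (nat_lit 5) (nat_lit 405) (nat_lit 399) (nat_lit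 216)) (XT.nd (nat_lit 78) (nat_lit 304) (nat_lit 0) (XT.lf (nat_lit 0) (nat_lit 21415153378743) (nat_lit 228) (nat_lit 4266193639061) (nat_lit 304) (nat_lit 558520223324) (nat_lit 76) (nat_lit 5) (nat_lit 79) (nat_lit 5) (nat_lit 80) (nat_lit 5) (nat_lit 406) (nat_lit 399) (nat_lit 215)) (XT.lf (nat_lit 0) (nat_lit 7488765167358) (nat_lit 304) (nat_lit 4041188867750) (nat_lit 76) (nat_lit 16925511435559) (nat_lit 72) (nat_lit 5) (nat_lit 76) (nat_lit 5) (nat_lit 73) (nat_lit 5) (nat_lit 407) (nat_lit 399) (nat_lit 214)))))) (XT.nd (nat_lit 390) (nat_lit 912) (nat_lit 0) (XT.nd (nat_lit 156) (nat_lit 684) (nat_lit 0) (XT.nd (nat_lit 78) (nat_lit 152) (nat_lit 0) (XT.lf (nat_lit 0) (nat_lit 17925672034674) (nat_lit 304) (nat_lit 2555557002402) (nat_lit 76) (nat_lit 10423765892226) (nat_lit 69) (nat_lit 5) (nat_lit 73) (nat_lit 5) (nat_lit 70) (nat_lit 5) (nat_lit 408) (nat_lit 399) (nat_lit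 213)) (XT.lf (nat_lit 0) (nat_lit 31228581173056) (nat_lit 228) (nat_lit 194046193158) (nat_lit 76) (nat_lit 2195289141241) (nat_lit 67) (nat_lit 5) (nat_lit 70) (nat_lit 5) (nat_lit 68) (nat_lit 5) (nat_lit 409) (nat_lit 399) (nat_lit 212))) (XT.nd (nat_lit 78) (nat_lit 304) (nat_lit 0) (XT.lf (nat_lit 0) (nat_lit 2895450467964) (nat_lit 152) (nat_lit 8111179047505) (nat_lit 228) (nat_lit 25575738694504) (nat_lit 62) (nat_lit 5) (nat_lit 64) (nat_lit 5) (nat_lit 65) (nat_lit 5) (nat_lit 410) (nat_lit 399) (nat_lit 211)) (XT.nd (nat_lit 78) (nat_lit 152) (nat_lit 0) (XT.lf (nat_lit 0) (nat_lit 7069121341368) (nat_lit 152) (nat_lit 20841317997123) (nat_lit 228) (nat_lit 11944889431889) (nat_lit 60) (nat_lit 5) (nat_lit 62) (nat_lit 5) (nat_lit 63) (nat_lit 5) (nat_lit 411) (nat_lit 399) (nat_lit 210)) (XT.lf (nat_lit 0) (nat_lit 5264911206005) (nat_lit 152) (nat_lit 30937885545856) (nat_lit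 76) (nat_lit 7271583560589) (nat_lit 58) (nat_lit 5) (nat_lit 60) (nat_lit 5) (nat_lit 59) (nat_lit 5) (nat_lit 412) (nat_lit 399) (nat_lit 209))))) (XT.nd (nat_lit 234) (nat_lit 456) (nat_lit 0) (XT.nd (nat_lit 78) (nat_lit 304) (nat_lit 0) (XT.lf (nat_lit 0) (nat_lit 19107357483090) (nat_lit 152) (nat_lit 7276942957802) (nat_lit 228) (nat_lit 21064337455371) (nat_lit 56) (nat_lit 5) (nat_lit 58) (nat_lit 5) (nat_lit 59) (nat_lit 5) (nat_lit 413) (nat_lit 399) (nat_lit 208)) (XT.nd (nat_lit 78) (nat_lit 152) (nat_lit 0) (XT.lf (nat_lit 0) (nat_lit 983032417016) (nat_lit 152) (nat_lit 24564123128644) (nat_lit 76) (nat_lit 26293425900360) (nat_lit 54) (nat_lit 5) (nat_lit 56) (nat_lit 5) (nat_lit 55) (nat_lit 5) (nat_lit 414) (nat_lit 399) (nat_lit 207)) (XT.lf (nat_lit 0) (nat_lit 27311047442303) (nat_lit 228) (nat_lit 19750051429820) (nat_lit 76) (nat_lit 9608784923398) (nat_lit 52) (nat_lit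 5) (nat_lit 55) (nat_lit 5) (nat_lit 53) (nat_lit 4) (nat_lit 415) (nat_lit 399) (nat_lit 206)))) (XT.nd (nat_lit 78) (nat_lit 380) (nat_lit 0) (XT.lf (nat_lit 0) (nat_lit 48656383676499) (nat_lit 76) (nat_lit 11542372951543) (nat_lit 152) (nat_lit 1815985516872) (nat_lit 51) (nat_lit 5) (nat_lit 52) (nat_lit 5) (nat_lit 53) (nat_lit 4) (nat_lit 416) (nat_lit 399) (nat_lit 205)) (XT.nd (nat_lit 78) (nat_lit 152) (nat_lit 0) (XT.lf (nat_lit 0) (nat_lit 31243244669383) (nat_lit 228) (nat_lit 5900190078281) (nat_lit 76) (nat_lit 30730160328829) (nat_lit 48) (nat_lit 5) (nat_lit 51) (nat_lit 5) (nat_lit 49) (nat_lit 4) (nat_lit 417) (nat_lit 399) (nat_lit 204)) (XT.lf (nat_lit 0) (nat_lit 4017665594655) (nat_lit 76) (nat_lit 67998098140125) (nat_lit 76) (nat_lit 2362784259928) (nat_lit 46) (nat_lit 4) (nat_lit 47) (nat_lit 5) (nat_lit 47) (nat_lit 4) (nat_lit 418) (nat_lit 399) (nat_lit 203)))))))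 (XT.nd (nat_lit 780) (nat_lit 1596) (nat_lit 0) (XT.nd (nat_lit 390) (nat_lit 1292) (nat_lit 0) (XT.nd (nat_lit 156) (nat_lit 0) (nat_lit 76) (XT.nd (nat_lit 78) (nat_lit 532) (nat_lit 0) (XT.lf (nat_lit 0) (nat_lit 8781779466307) (nat_lit 532) (nat_lit 58579917595) (nat_lit 532) (nat_lit 58579917595) (nat_lit 93) (nat_lit 3) (nat_lit 100) (nat_lit 3) (nat_lit 100) (nat_lit 5) (nat_lit 400) (nat_lit 400) (nat_lit 220)) (XT.lf (nat_lit 0) (nat_lit 189321143678) (nat_lit 532) (nat_lit 1733503355899) (nat_lit 608) (nat_lit 17176090518579) (nat_lit 86) (nat_lit 5) (nat_lit 93) (nat_lit 3) (nat_lit 94) (nat_lit 5) (nat_lit 401) (nat_lit 400) (nat_lit 219))) (XT.nd (nat_lit 78) (nat_lit 0) (nat_lit 76) (XT.lf (nat_lit 0) (nat_lit 1494706678186) (nat_lit 532) (nat_lit 3196342109509) (nat_lit 608) (nat_lit 15837005374870) (nat_lit 87) (nat_lit 5) (nat_lit 94) (nat_lit 5) (nat_lit 95) (nat_lit 5) (nat_lit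 402) (nat_lit 400) (nat_lit 218)) (XT.nd (nat_lit 78) (nat_lit 0) (nat_lit 76) (XT.lf (nat_lit 0) (nat_lit 3883680390794) (nat_lit 532) (nat_lit 4435146390925) (nat_lit 608) (nat_lit 13781714969082) (nat_lit 88) (nat_lit 5) (nat_lit 95) (nat_lit 5) (nat_lit 96) (nat_lit 5) (nat_lit 403) (nat_lit 400) (nat_lit 217)) (XT.lf (nat_lit 0) (nat_lit 7582571222303) (nat_lit 532) (nat_lit 5375594737194) (nat_lit 76) (nat_lit 10874610832817) (nat_lit 89) (nat_lit 5) (nat_lit 96) (nat_lit 5) (nat_lit 90) (nat_lit 5) (nat_lit 404) (nat_lit 400) (nat_lit 216))))) (XT.nd (nat_lit 156) (nat_lit 760) (nat_lit 0) (XT.nd (nat_lit 78) (nat_lit 228) (nat_lit 0) (XT.lf (nat_lit 0) (nat_lit 12856126093444) (nat_lit 608) (nat_lit 5928807667387) (nat_lit 76) (nat_lit 6958326896027) (nat_lit 82) (nat_lit 5) (nat_lit 90) (nat_lit 5) (nat_lit 83) (nat_lit 5) (nat_lit 405) (nat_lit 400) (nat_lit 215)) (XT.lf (nat_lit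 0) (nat_lit 20013565023932) (nat_lit 304) (nat_lit 5988942800786) (nat_lit 76) (nat_lit 1850381210075) (nat_lit 79) (nat_lit 5) (nat_lit 83) (nat_lit 5) (nat_lit 80) (nat_lit 5) (nat_lit 406) (nat_lit 400) (nat_lit 214))) (XT.nd (nat_lit 78) (nat_lit 532) (nat_lit 0) (XT.lf (nat_lit 0) (nat_lit 24627426386017) (nat_lit 228) (nat_lit 4906122684848) (nat_lit 304) (nat_lit 642298256400) (nat_lit 76) (nat_lit 5) (nat_lit 79) (nat_lit 5) (nat_lit 80) (nat_lit 5) (nat_lit 407) (nat_lit 400) (nat_lit 213)) (XT.nd (nat_lit 78) (nat_lit 228) (nat_lit 0) (XT.lf (nat_lit 0) (nat_lit 8612079942823) (nat_lit 304) (nat_lit 4647367197443) (nat_lit 76) (nat_lit 19464338150972) (nat_lit 72) (nat_lit 5) (nat_lit 76) (nat_lit 5) (nat_lit 73) (nat_lit 5) (nat_lit 408) (nat_lit 400) (nat_lit 212)) (XT.lf (nat_lit 0) (nat_lit 20614522840202) (nat_lit 304) (nat_lit 2938890552310) (nat_lit 76) (nat_lit 11987330776159)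 (nat_lit 69) (nat_lit 5) (nat_lit 73) (nat_lit 5) (nat_lit 70) (nat_lit 5) (nat_lit 409) (nat_lit 400) (nat_lit 211)))))) (XT.nd (nat_lit 390) (nat_lit 608) (nat_lit 0) (XT.nd (nat_lit 156) (nat_lit 456) (nat_lit 0) (XT.nd (nat_lit 78) (nat_lit 380) (nat_lit 0) (XT.lf (nat_lit 0) (nat_lit 35912868349312) (nat_lit 228) (nat_lit 223153121696) (nat_lit 76) (nat_lit 2524582512542) (nat_lit 67) (nat_lit 5) (nat_lit 70) (nat_lit 5) (nat_lit 68) (nat_lit 5) (nat_lit 410) (nat_lit 400) (nat_lit 210)) (XT.lf (nat_lit 0) (nat_lit 3329768038593) (nat_lit 152) (nat_lit 9327855904481) (nat_lit 228) (nat_lit 29412099498371) (nat_lit 62) (nat_lit 5) (nat_lit 64) (nat_lit 5) (nat_lit 65) (nat_lit 5) (nat_lit 411) (nat_lit 400) (nat_lit 209))) (XT.nd (nat_lit 78) (nat_lit 304) (nat_lit 0) (XT.lf (nat_lit 0) (nat_lit 8129489542989) (nat_lit 152) (nat_lit 23967515696537) (nat_lit 228) (nat_lit 13736622846390)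 (nat_lit 60) (nat_lit 5) (nat_lit 62) (nat_lit 5) (nat_lit 63) (nat_lit 5) (nat_lit 412) (nat_lit 400) (nat_lit 208)) (XT.nd (nat_lit 78) (nat_lit 152) (nat_lit 0) (XT.lf (nat_lit 0) (nat_lit 6054647887152) (nat_lit 152) (nat_lit 35578568377325) (nat_lit 76) (nat_lit 8362321094821) (nat_lit 58) (nat_lit 5) (nat_lit 60) (nat_lit 5) (nat_lit 59) (nat_lit 5) (nat_lit 413) (nat_lit 400) (nat_lit 207)) (XT.lf (nat_lit 0) (nat_lit 21973461105928) (nat_lit 152) (nat_lit 8368484401322) (nat_lit 228) (nat_lit 24223988073436) (nat_lit 56) (nat_lit 5) (nat_lit 58) (nat_lit 5) (nat_lit 59) (nat_lit 5) (nat_lit 414) (nat_lit 400) (nat_lit 206))))) (XT.nd (nat_lit 234) (nat_lit 228) (nat_lit 0) (XT.nd (nat_lit 78) (nat_lit 228) (nat_lit 0) (XT.lf (nat_lit 0) (nat_lit 1130487279780) (nat_lit 152) (nat_lit 28248741597573) (nat_lit 76) (nat_lit 30237439785553) (nat_lit 54) (nat_lit 5) (nat_lit 56) (nat_lit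 5) (nat_lit 55) (nat_lit 5) (nat_lit 415) (nat_lit 400) (nat_lit 205)) (XT.nd (nat_lit 78) (nat_lit 76) (nat_lit 0) (XT.lf (nat_lit 0) (nat_lit 31407704558844) (nat_lit 228) (nat_lit 22712559143944) (nat_lit 76) (nat_lit 11050102662045) (nat_lit 52) (nat_lit 5) (nat_lit 55) (nat_lit 5) (nat_lit 53) (nat_lit 4) (nat_lit 416) (nat_lit 400) (nat_lit 204)) (XT.lf (nat_lit 0) (nat_lit 55954841228292) (nat_lit 76) (nat_lit 13273728894134) (nat_lit 152) (nat_lit 2088383344211) (nat_lit 51) (nat_lit 5) (nat_lit 52) (nat_lit 5) (nat_lit 53) (nat_lit 4) (nat_lit 417) (nat_lit 400) (nat_lit 203)))) (XT.nd (nat_lit 51792) (nat_lit 0) (nat_lit 2888) (XT.lf (nat_lit 0) (nat_lit 35929731369960) (nat_lit 228) (nat_lit 6785218589712) (nat_lit 76) (nat_lit 35339684378281) (nat_lit 48) (nat_lit 5) (nat_lit 51) (nat_lit 5) (nat_lit 49) (nat_lit 4) (nat_lit 418) (nat_lit 400) (nat_lit 202)) (XT.nd (nat_lit 78)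 (nat_lit 532) (nat_lit 0) (XT.lf (nat_lit 0) (nat_lit 10099046386589) (nat_lit 532) (nat_lit 67366905052) (nat_lit 532) (nat_lit 67366905052) (nat_lit 93) (nat_lit 3) (nat_lit 100) (nat_lit 3) (nat_lit 100) (nat_lit 5) (nat_lit 401) (nat_lit 401) (nat_lit 218)) (XT.lf (nat_lit 0) (nat_lit 217719315839) (nat_lit 532) (nat_lit 1993528858919) (nat_lit 608) (nat_lit 19752504096073) (nat_lit 86) (nat_lit 5) (nat_lit 93) (nat_lit 3) (nat_lit 94) (nat_lit 5) (nat_lit 402) (nat_lit 401) (nat_lit 217))))))))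
noncomputable def xc124 : XT := (XT.nd (nat_lit 53430) (nat_lit 0) (nat_lit 76) (XT.nd (nat_lit 780) (nat_lit 836) (nat_lit 0) (XT.nd (nat_lit 390) (nat_lit 1292) (nat_lit 0) (XT.nd (nat_lit 156) (nat_lit 608) (nat_lit 0) (XT.nd (nat_lit 78) (nat_lit 0) (nat_lit 76) (XT.lf (nat_lit 0) (nat_lit 1718912680447) (nat_lit 532) (nat_lit 3675793425553) (nat_lit 608) (nat_lit 18212556180907) (nat_lit 87) (nat_lit 5) (nat_lit 94) (nat_lit 5) (nat_lit 95) (nat_lit 5) (nat_lit 403) (nat_lit 401) (nat_lit 216)) (XT.lf (nat_lit 0) (nat_lit 4466232449882) (nat_lit 532) (nat_lit 5100418349174) (nat_lit 608) (nat_lit 15848972214329) (nat_lit 88) (nat_lit 5) (nat_lit 95) (nat_lit 5) (nat_lit 96) (nat_lit 5) (nat_lit 404) (nat_lit 401) (nat_lit 215))) (XT.nd (nat_lit 78) (nat_lit 760) (nat_lit 0) (XT.lf (nat_lit 0) (nat_lit 8719956906063) (nat_lit 532) (nat_lit 6181933947381) (nat_lit 76) (nat_lit 12505802457684)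 (nat_lit 89) (nat_lit 5) (nat_lit 96) (nat_lit 5) (nat_lit 90) (nat_lit 5) (nat_lit 405) (nat_lit 401) (nat_lit 214)) (XT.nd (nat_lit 78) (nat_lit 228) (nat_lit 0) (XT.lf (nat_lit 0) (nat_lit 14784545007830) (nat_lit 608) (nat_lit 6818128817107) (nat_lit 76) (nat_lit 8002075930421) (nat_lit 82) (nat_lit 5) (nat_lit 90) (nat_lit 5) (nat_lit 83) (nat_lit 5) (nat_lit 406) (nat_lit 401) (nat_lit 213)) (XT.lf (nat_lit 0) (nat_lit 23015599777852) (nat_lit 304) (nat_lit 6887284220522) (nat_lit 76) (nat_lit 2127938391611) (nat_lit 79) (nat_lit 5) (nat_lit 83) (nat_lit 5) (nat_lit 80) (nat_lit 5) (nat_lit 407) (nat_lit 401) (nat_lit 212))))) (XT.nd (nat_lit 156) (nat_lit 760) (nat_lit 0) (XT.nd (nat_lit 78) (nat_lit 304) (nat_lit 0) (XT.lf (nat_lit 0) (nat_lit 28321540344269) (nat_lit 228) (nat_lit 5642041087522) (nat_lit 304) (nat_lit 738642994541) (nat_lit 76) (nat_lit 5) (nat_lit 79) (nat_lit 5)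 (nat_lit 80) (nat_lit 5) (nat_lit 408) (nat_lit 401) (nat_lit 211)) (XT.lf (nat_lit 0) (nat_lit 9903891934520) (nat_lit 304) (nat_lit 5344472276705) (nat_lit 76) (nat_lit 22383988873677) (nat_lit 72) (nat_lit 5) (nat_lit 76) (nat_lit 5) (nat_lit 73) (nat_lit 5) (nat_lit 409) (nat_lit 401) (nat_lit 210))) (XT.nd (nat_lit 78) (nat_lit 532) (nat_lit 0) (XT.lf (nat_lit 0) (nat_lit 23706701266480) (nat_lit 304) (nat_lit 3379724134814) (nat_lit 76) (nat_lit 13785430392659) (nat_lit 69) (nat_lit 5) (nat_lit 73) (nat_lit 5) (nat_lit 70) (nat_lit 5) (nat_lit 410) (nat_lit 401) (nat_lit 209)) (XT.nd (nat_lit 78) (nat_lit 380) (nat_lit 0) (XT.lf (nat_lit 0) (nat_lit 41299798601934) (nat_lit 228) (nat_lit 256626089622) (nat_lit 76) (nat_lit 2903269889509) (nat_lit 67) (nat_lit 5) (nat_lit 70) (nat_lit 5) (nat_lit 68) (nat_lit 5) (nat_lit 411) (nat_lit 401) (nat_lit 208)) (XT.lf (nat_lit 0) (nat_lit 3829233244711)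 (nat_lit 152) (nat_lit 10727034290041) (nat_lit 228) (nat_lit 33823914422894) (nat_lit 62) (nat_lit 5) (nat_lit 64) (nat_lit 5) (nat_lit 65) (nat_lit 5) (nat_lit 412) (nat_lit 401) (nat_lit 207)))))) (XT.nd (nat_lit 390) (nat_lit 76) (nat_lit 0) (XT.nd (nat_lit 156) (nat_lit 456) (nat_lit 0) (XT.nd (nat_lit 78) (nat_lit 152) (nat_lit 0) (XT.lf (nat_lit 0) (nat_lit 9348912974752) (nat_lit 152) (nat_lit 27562643050901) (nat_lit 228) (nat_lit 15797116273135) (nat_lit 60) (nat_lit 5) (nat_lit 62) (nat_lit 5) (nat_lit 63) (nat_lit 5) (nat_lit 413) (nat_lit 401) (nat_lit 206)) (XT.lf (nat_lit 0) (nat_lit 6962845070411) (nat_lit 152) (nat_lit 40915353633615) (nat_lit 76) (nat_lit 9616669259151) (nat_lit 58) (nat_lit 5) (nat_lit 60) (nat_lit 5) (nat_lit 59) (nat_lit 5) (nat_lit 414) (nat_lit 401) (nat_lit 205))) (XT.nd (nat_lit 78) (nat_lit 304) (nat_lit 0) (XT.lf (nat_lit 0) (nat_lit 25269480272101)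 (nat_lit 152) (nat_lit 9623757061406) (nat_lit 228) (nat_lit 27857586284269) (nat_lit 56) (nat_lit 5) (nat_lit 58) (nat_lit 5) (nat_lit 59) (nat_lit 5) (nat_lit 415) (nat_lit 401) (nat_lit 204)) (XT.nd (nat_lit 78) (nat_lit 152) (nat_lit 0) (XT.lf (nat_lit 0) (nat_lit 1300060371906) (nat_lit 152) (nat_lit 32486052836932) (nat_lit 76) (nat_lit 34773055753491) (nat_lit 54) (nat_lit 5) (nat_lit 56) (nat_lit 5) (nat_lit 55) (nat_lit 5) (nat_lit 416) (nat_lit 401) (nat_lit 203)) (XT.lf (nat_lit 0) (nat_lit 36118860242817) (nat_lit 228) (nat_lit 26119443015274) (nat_lit 76) (nat_lit 12707618061455) (nat_lit 52) (nat_lit 5) (nat_lit 55) (nat_lit 5) (nat_lit 53) (nat_lit 4) (nat_lit 417) (nat_lit 401) (nat_lit 202))))) (XT.nd (nat_lit 52026) (nat_lit 0) (nat_lit 2736) (XT.nd (nat_lit 51870) (nat_lit 0) (nat_lit 2660) (XT.lf (nat_lit 0) (nat_lit 64348067412776) (nat_lit 76) (nat_lit 15264788228148)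 (nat_lit 152) (nat_lit 2401640845698) (nat_lit 51) (nat_lit 5) (nat_lit 52) (nat_lit 5) (nat_lit 53) (nat_lit 4) (nat_lit 418) (nat_lit 401) (nat_lit 201)) (XT.nd (nat_lit 78) (nat_lit 532) (nat_lit 0) (XT.lf (nat_lit 0) (nat_lit 11613903344833) (nat_lit 532) (nat_lit 77471940672) (nat_lit 532) (nat_lit 77471940672) (nat_lit 93) (nat_lit 3) (nat_lit 100) (nat_lit 3) (nat_lit 100) (nat_lit 5) (nat_lit 402) (nat_lit 402) (nat_lit 216)) (XT.lf (nat_lit 0) (nat_lit 250377213676) (nat_lit 532) (nat_lit 2292558187481) (nat_lit 608) (nat_lit 22715379710262) (nat_lit 86) (nat_lit 5) (nat_lit 93) (nat_lit 3) (nat_lit 94) (nat_lit 5) (nat_lit 403) (nat_lit 402) (nat_lit 215)))) (XT.nd (nat_lit 78) (nat_lit 0) (nat_lit 76) (XT.lf (nat_lit 0) (nat_lit 1976749582917) (nat_lit 532) (nat_lit 4227162439097) (nat_lit 608) (nat_lit 20944439607897) (nat_lit 87) (nat_lit 5) (nat_lit 94) (nat_lit 5) (nat_lit 95)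 (nat_lit 5) (nat_lit 404) (nat_lit 402) (nat_lit 214)) (XT.nd (nat_lit 78) (nat_lit 0) (nat_lit 76) (XT.lf (nat_lit 0) (nat_lit 5136167317719) (nat_lit 532) (nat_lit 5865481101255) (nat_lit 608) (nat_lit 18226318046391) (nat_lit 88) (nat_lit 5) (nat_lit 95) (nat_lit 5) (nat_lit 96) (nat_lit 5) (nat_lit 405) (nat_lit 402) (nat_lit 213)) (XT.lf (nat_lit 0) (nat_lit 10027950442286) (nat_lit 532) (nat_lit 7109224039191) (nat_lit 76) (nat_lit 14381672826294) (nat_lit 89) (nat_lit 5) (nat_lit 96) (nat_lit 5) (nat_lit 90) (nat_lit 5) (nat_lit 406) (nat_lit 402) (nat_lit 212))))))) (XT.nd (nat_lit 780) (nat_lit 304) (nat_lit 0) (XT.nd (nat_lit 390) (nat_lit 988) (nat_lit 0) (XT.nd (nat_lit 156) (nat_lit 760) (nat_lit 0) (XT.nd (nat_lit 78) (nat_lit 228) (nat_lit 0) (XT.lf (nat_lit 0) (nat_lit 17002226759284) (nat_lit 608) (nat_lit 7840848139379) (nat_lit 76) (nat_lit 9202387319977) (nat_lit 82) (nat_lit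 5) (nat_lit 90) (nat_lit 5) (nat_lit 83) (nat_lit 5) (nat_lit 407) (nat_lit 402) (nat_lit 211)) (XT.lf (nat_lit 0) (nat_lit 26467939744779) (nat_lit 304) (nat_lit 7920376853311) (nat_lit 76) (nat_lit 2447129150372) (nat_lit 79) (nat_lit 5) (nat_lit 83) (nat_lit 5) (nat_lit 80) (nat_lit 5) (nat_lit 408) (nat_lit 402) (nat_lit 210))) (XT.nd (nat_lit 78) (nat_lit 532) (nat_lit 0) (XT.lf (nat_lit 0) (nat_lit 32569771396173) (nat_lit 228) (nat_lit 6488347250610) (nat_lit 304) (nat_lit 849439443481) (nat_lit 76) (nat_lit 5) (nat_lit 79) (nat_lit 5) (nat_lit 80) (nat_lit 5) (nat_lit 409) (nat_lit 402) (nat_lit 209)) (XT.nd (nat_lit 78) (nat_lit 228) (nat_lit 0) (XT.lf (nat_lit 0) (nat_lit 11389475724904) (nat_lit 304) (nat_lit 6146143117943) (nat_lit 76) (nat_lit 25741587204774) (nat_lit 72) (nat_lit 5) (nat_lit 76) (nat_lit 5) (nat_lit 73) (nat_lit 5) (nat_lit 410) (nat_lit 402) (nat_lit 208)) (XT.lf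 (nat_lit 0) (nat_lit 27262706456639) (nat_lit 304) (nat_lit 3886682754778) (nat_lit 76) (nat_lit 15853244951614) (nat_lit 69) (nat_lit 5) (nat_lit 73) (nat_lit 5) (nat_lit 70) (nat_lit 5) (nat_lit 411) (nat_lit 402) (nat_lit 207))))) (XT.nd (nat_lit 156) (nat_lit 456) (nat_lit 0) (XT.nd (nat_lit 78) (nat_lit 380) (nat_lit 0) (XT.lf (nat_lit 0) (nat_lit 47494768392394) (nat_lit 228) (nat_lit 295120002816) (nat_lit 76) (nat_lit 3338760373001) (nat_lit 67) (nat_lit 5) (nat_lit 70) (nat_lit 5) (nat_lit 68) (nat_lit 5) (nat_lit 412) (nat_lit 402) (nat_lit 206)) (XT.lf (nat_lit 0) (nat_lit 4403618231667) (nat_lit 152) (nat_lit 12336089433462) (nat_lit 228) (nat_lit 38897501586152) (nat_lit 62) (nat_lit 5) (nat_lit 64) (nat_lit 5) (nat_lit 65) (nat_lit 5) (nat_lit 413) (nat_lit 402) (nat_lit 205))) (XT.nd (nat_lit 78) (nat_lit 304) (nat_lit 0) (XT.lf (nat_lit 0) (nat_lit 10751249921201) (nat_lit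 152) (nat_lit 31697039508448) (nat_lit 228) (nat_lit 18166683713944) (nat_lit 60) (nat_lit 5) (nat_lit 62) (nat_lit 5) (nat_lit 63) (nat_lit 5) (nat_lit 414) (nat_lit 402) (nat_lit 204)) (XT.nd (nat_lit 78) (nat_lit 152) (nat_lit 0) (XT.lf (nat_lit 0) (nat_lit 8007271831114) (nat_lit 152) (nat_lit 47052656678424) (nat_lit 76) (nat_lit 11059169648106) (nat_lit 58) (nat_lit 5) (nat_lit 60) (nat_lit 5) (nat_lit 59) (nat_lit 5) (nat_lit 415) (nat_lit 402) (nat_lit 203)) (XT.lf (nat_lit 0) (nat_lit 29059902313130) (nat_lit 152) (nat_lit 11067320620530) (nat_lit 228) (nat_lit 32036224226772) (nat_lit 56) (nat_lit 5) (nat_lit 58) (nat_lit 5) (nat_lit 59) (nat_lit 5) (nat_lit 416) (nat_lit 402) (nat_lit 202)))))) (XT.nd (nat_lit 52260) (nat_lit 0) (nat_lit 1520) (XT.nd (nat_lit 52026) (nat_lit 0) (nat_lit 2584) (XT.nd (nat_lit 78) (nat_lit 152) (nat_lit 0) (XT.lf (nat_lit 0) (nat_lit 1495069427813)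 (nat_lit 152) (nat_lit 37358960762263) (nat_lit 76) (nat_lit 39989014116593) (nat_lit 54) (nat_lit 5) (nat_lit 56) (nat_lit 5) (nat_lit 55) (nat_lit 5) (nat_lit 417) (nat_lit 402) (nat_lit 201)) (XT.lf (nat_lit 0) (nat_lit 41536689279352) (nat_lit 228) (nat_lit 30037359467367) (nat_lit 76) (nat_lit 14613760770752) (nat_lit 52) (nat_lit 5) (nat_lit 55) (nat_lit 5) (nat_lit 53) (nat_lit 4) (nat_lit 418) (nat_lit 402) (nat_lit 200))) (XT.nd (nat_lit 78) (nat_lit 532) (nat_lit 0) (XT.lf (nat_lit 0) (nat_lit 13355988846750) (nat_lit 532) (nat_lit 89092731669) (nat_lit 532) (nat_lit 89092731669) (nat_lit 93) (nat_lit 3) (nat_lit 100) (nat_lit 3) (nat_lit 100) (nat_lit 5) (nat_lit 403) (nat_lit 403) (nat_lit 214)) (XT.nd (nat_lit 78) (nat_lit 0) (nat_lit 76) (XT.lf (nat_lit 0) (nat_lit 287933796076) (nat_lit 532) (nat_lit 2636441915394) (nat_lit 608) (nat_lit 26122686666635) (nat_lit 86) (nat_lit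 5) (nat_lit 93) (nat_lit 3) (nat_lit 94) (nat_lit 5) (nat_lit 404) (nat_lit 403) (nat_lit 213)) (XT.lf (nat_lit 0) (nat_lit 2273262020660) (nat_lit 532) (nat_lit 4861236804743) (nat_lit 608) (nat_lit 24086105548972) (nat_lit 87) (nat_lit 5) (nat_lit 94) (nat_lit 5) (nat_lit 95) (nat_lit 5) (nat_lit 405) (nat_lit 403) (nat_lit 212))))) (XT.nd (nat_lit 234) (nat_lit 760) (nat_lit 0) (XT.nd (nat_lit 78) (nat_lit 456) (nat_lit 0) (XT.lf (nat_lit 0) (nat_lit 5906592415645) (nat_lit 532) (nat_lit 6745303266220) (nat_lit 608) (nat_lit 20960265753283) (nat_lit 88) (nat_lit 5) (nat_lit 95) (nat_lit 5) (nat_lit 96) (nat_lit 5) (nat_lit 406) (nat_lit 403) (nat_lit 211)) (XT.nd (nat_lit 78) (nat_lit 532) (nat_lit 0) (XT.lf (nat_lit 0) (nat_lit 11532143008866) (nat_lit 532) (nat_lit 8175607644845) (nat_lit 76) (nat_lit 16538923750207) (nat_lit 89) (nat_lit 5) (nat_lit 96) (nat_lit 5) (nat_lit 90) (nat_lit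 5) (nat_lit 407) (nat_lit 403) (nat_lit 210)) (XT.lf (nat_lit 0) (nat_lit 19552560773388) (nat_lit 608) (nat_lit 9016975360063) (nat_lit 76) (nat_lit 10582745417968) (nat_lit 82) (nat_lit 5) (nat_lit 90) (nat_lit 5) (nat_lit 83) (nat_lit 5) (nat_lit 408) (nat_lit 403) (nat_lit 209)))) (XT.nd (nat_lit 78) (nat_lit 532) (nat_lit 0) (XT.lf (nat_lit 0) (nat_lit 30438130706685) (nat_lit 304) (nat_lit 9108433381090) (nat_lit 76) (nat_lit 2814198522942) (nat_lit 79) (nat_lit 5) (nat_lit 83) (nat_lit 5) (nat_lit 80) (nat_lit 5) (nat_lit 409) (nat_lit 403) (nat_lit 208)) (XT.nd (nat_lit 78) (nat_lit 304) (nat_lit 0) (XT.lf (nat_lit 0) (nat_lit 37455237105799) (nat_lit 228) (nat_lit 7461599338170) (nat_lit 304) (nat_lit 976855359821) (nat_lit 76) (nat_lit 5) (nat_lit 79) (nat_lit 5) (nat_lit 80) (nat_lit 5) (nat_lit 410) (nat_lit 403) (nat_lit 207)) (XT.lf (nat_lit 0) (nat_lit 13097897083796) (nat_lit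 304) (nat_lit 7068064585432) (nat_lit 76) (nat_lit 29602825285524) (nat_lit 72) (nat_lit 5) (nat_lit 76) (nat_lit 5) (nat_lit 73) (nat_lit 5) (nat_lit 411) (nat_lit 403) (nat_lit 206))))))))
noncomputable def xc125 : XT := (XT.nd (nat_lit 53586) (nat_lit 0) (nat_lit 152) (XT.nd (nat_lit 52728) (nat_lit 0) (nat_lit 304) (XT.nd (nat_lit 390) (nat_lit 304) (nat_lit 0) (XT.nd (nat_lit 156) (nat_lit 684) (nat_lit 0) (XT.nd (nat_lit 78) (nat_lit 152) (nat_lit 0) (XT.lf (nat_lit 0) (nat_lit 31352112425276) (nat_lit 304) (nat_lit 4469685167798) (nat_lit 76) (nat_lit 18231231694400) (nat_lit 69) (nat_lit 5) (nat_lit 73) (nat_lit 5) (nat_lit 70) (nat_lit 5) (nat_lit 412) (nat_lit 403) (nat_lit 205)) (XT.lf (nat_lit 0) (nat_lit 54618983651382) (nat_lit 228) (nat_lit 339388003050) (nat_lit 76) (nat_lit 3839574429001) (nat_lit 67) (nat_lit 5) (nat_lit 70) (nat_lit 5) (nat_lit 68) (nat_lit 5) (nat_lit 413)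 (nat_lit 403) (nat_lit 204))) (XT.nd (nat_lit 78) (nat_lit 304) (nat_lit 0) (XT.lf (nat_lit 0) (nat_lit 5064160966605) (nat_lit 152) (nat_lit 14186502848416) (nat_lit 228) (nat_lit 44732126823941) (nat_lit 62) (nat_lit 5) (nat_lit 64) (nat_lit 5) (nat_lit 65) (nat_lit 5) (nat_lit 414) (nat_lit 403) (nat_lit 203)) (XT.nd (nat_lit 78) (nat_lit 152) (nat_lit 0) (XT.lf (nat_lit 0) (nat_lit 12363937409562) (nat_lit 152) (nat_lit 36451595434648) (nat_lit 228) (nat_lit 20891686270914) (nat_lit 60) (nat_lit 5) (nat_lit 62) (nat_lit 5) (nat_lit 63) (nat_lit 5) (nat_lit 415) (nat_lit 403) (nat_lit 202)) (XT.lf (nat_lit 0) (nat_lit 9208362605887) (nat_lit 152) (nat_lit 54110555180010) (nat_lit 76) (nat_lit 12718045095385) (nat_lit 58) (nat_lit 5) (nat_lit 60) (nat_lit 5) (nat_lit 59) (nat_lit 5) (nat_lit 416) (nat_lit 403) (nat_lit 201))))) (XT.nd (nat_lit 52104) (nat_lit 0) (nat_lit 2432) (XT.nd (nat_lit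 78) (nat_lit 152) (nat_lit 0) (XT.lf (nat_lit 0) (nat_lit 33418887660262) (nat_lit 152) (nat_lit 12727418713544) (nat_lit 228) (nat_lit 36841657860684) (nat_lit 56) (nat_lit 5) (nat_lit 58) (nat_lit 5) (nat_lit 59) (nat_lit 5) (nat_lit 417) (nat_lit 403) (nat_lit 200)) (XT.lf (nat_lit 0) (nat_lit 1719329842077) (nat_lit 152) (nat_lit 42962804876443) (nat_lit 76) (nat_lit 45987366234143) (nat_lit 54) (nat_lit 5) (nat_lit 56) (nat_lit 5) (nat_lit 55) (nat_lit 5) (nat_lit 418) (nat_lit 403) (nat_lit 199))) (XT.nd (nat_lit 78) (nat_lit 532) (nat_lit 0) (XT.lf (nat_lit 0) (nat_lit 15359387173908) (nat_lit 532) (nat_lit 102456641341) (nat_lit 532) (nat_lit 102456641341) (nat_lit 93) (nat_lit 3) (nat_lit 100) (nat_lit 3) (nat_lit 100) (nat_lit 5) (nat_lit 404) (nat_lit 404) (nat_lit 212)) (XT.nd (nat_lit 78) (nat_lit 0) (nat_lit 76) (XT.lf (nat_lit 0) (nat_lit 331123865750) (nat_lit 532) (nat_lit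 3031908202545) (nat_lit 608) (nat_lit 30041089666503) (nat_lit 86) (nat_lit 5) (nat_lit 93) (nat_lit 3) (nat_lit 94) (nat_lit 5) (nat_lit 405) (nat_lit 404) (nat_lit 211)) (XT.lf (nat_lit 0) (nat_lit 2614251323989) (nat_lit 532) (nat_lit 5590422325290) (nat_lit 608) (nat_lit 27699021381233) (nat_lit 87) (nat_lit 5) (nat_lit 94) (nat_lit 5) (nat_lit 95) (nat_lit 5) (nat_lit 406) (nat_lit 404) (nat_lit 210)))))) (XT.nd (nat_lit 390) (nat_lit 1368) (nat_lit 0) (XT.nd (nat_lit 156) (nat_lit 912) (nat_lit 0) (XT.nd (nat_lit 78) (nat_lit 0) (nat_lit 76) (XT.lf (nat_lit 0) (nat_lit 6792581278195) (nat_lit 532) (nat_lit 7757098755984) (nat_lit 608) (nat_lit 24104305616225) (nat_lit 88) (nat_lit 5) (nat_lit 95) (nat_lit 5) (nat_lit 96) (nat_lit 5) (nat_lit 407) (nat_lit 404) (nat_lit 209)) (XT.lf (nat_lit 0) (nat_lit 13261964460376) (nat_lit 532) (nat_lit 9401948791403) (nat_lit 76) (nat_lit 19019762312713)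 (nat_lit 89) (nat_lit 5) (nat_lit 96) (nat_lit 5) (nat_lit 90) (nat_lit 5) (nat_lit 408) (nat_lit 404) (nat_lit 208))) (XT.nd (nat_lit 78) (nat_lit 456) (nat_lit 0) (XT.lf (nat_lit 0) (nat_lit 22485444889556) (nat_lit 608) (nat_lit 10369521663905) (nat_lit 76) (nat_lit 12170157230659) (nat_lit 82) (nat_lit 5) (nat_lit 90) (nat_lit 5) (nat_lit 83) (nat_lit 5) (nat_lit 409) (nat_lit 404) (nat_lit 207)) (XT.nd (nat_lit 78) (nat_lit 228) (nat_lit 0) (XT.lf (nat_lit 0) (nat_lit 35003850312830) (nat_lit 304) (nat_lit 10474698388089) (nat_lit 76) (nat_lit 3236328301394) (nat_lit 79) (nat_lit 5) (nat_lit 83) (nat_lit 5) (nat_lit 80) (nat_lit 5) (nat_lit 410) (nat_lit 404) (nat_lit 206)) (XT.lf (nat_lit 0) (nat_lit 43073522671820) (nat_lit 228) (nat_lit 8580839238873) (nat_lit 304) (nat_lit 1123383663657) (nat_lit 76) (nat_lit 5) (nat_lit 79) (nat_lit 5) (nat_lit 80) (nat_lit 5) (nat_lit 411) (nat_lit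 404) (nat_lit 205))))) (XT.nd (nat_lit 234) (nat_lit 684) (nat_lit 0) (XT.nd (nat_lit 78) (nat_lit 380) (nat_lit 0) (XT.lf (nat_lit 0) (nat_lit 15062581646484) (nat_lit 304) (nat_lit 8128274273093) (nat_lit 76) (nat_lit 34043249078378) (nat_lit 72) (nat_lit 5) (nat_lit 76) (nat_lit 5) (nat_lit 73) (nat_lit 5) (nat_lit 412) (nat_lit 404) (nat_lit 204)) (XT.nd (nat_lit 78) (nat_lit 152) (nat_lit 0) (XT.lf (nat_lit 0) (nat_lit 36054929289174) (nat_lit 304) (nat_lit 5140137942820) (nat_lit 76) (nat_lit 20965916448593) (nat_lit 69) (nat_lit 5) (nat_lit 73) (nat_lit 5) (nat_lit 70) (nat_lit 5) (nat_lit 413) (nat_lit 404) (nat_lit 203)) (XT.lf (nat_lit 0) (nat_lit 62811831199186) (nat_lit 228) (nat_lit 390296203366) (nat_lit 76) (nat_lit 4415510593388) (nat_lit 67) (nat_lit 5) (nat_lit 70) (nat_lit 5) (nat_lit 68) (nat_lit 5) (nat_lit 414) (nat_lit 404) (nat_lit 202)))) (XT.nd (nat_lit 78) (nat_lit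 304) (nat_lit 0) (XT.lf (nat_lit 0) (nat_lit 5823785111737) (nat_lit 152) (nat_lit 16314478275630) (nat_lit 228) (nat_lit 51441945847431) (nat_lit 62) (nat_lit 5) (nat_lit 64) (nat_lit 5) (nat_lit 65) (nat_lit 5) (nat_lit 415) (nat_lit 404) (nat_lit 201)) (XT.nd (nat_lit 78) (nat_lit 152) (nat_lit 0) (XT.lf (nat_lit 0) (nat_lit 14218528021133) (nat_lit 152) (nat_lit 41919334749795) (nat_lit 228) (nat_lit 24025439211458) (nat_lit 60) (nat_lit 5) (nat_lit 62) (nat_lit 5) (nat_lit 63) (nat_lit 5) (nat_lit 416) (nat_lit 404) (nat_lit 200)) (XT.lf (nat_lit 0) (nat_lit 10589616996851) (nat_lit 152) (nat_lit 62227138456879) (nat_lit 76) (nat_lit 14625751859738) (nat_lit 58) (nat_lit 5) (nat_lit 60) (nat_lit 5) (nat_lit 59) (nat_lit 5) (nat_lit 417) (nat_lit 404) (nat_lit 199))))))) (XT.nd (nat_lit 52806) (nat_lit 0) (nat_lit 152) (XT.nd (nat_lit 52416) (nat_lit 0) (nat_lit 1216) (XT.nd (nat_lit 52182)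 (nat_lit 0) (nat_lit 2280) (XT.nd (nat_lit 52104) (nat_lit 0) (nat_lit 2812) (XT.lf (nat_lit 0) (nat_lit 38431720809423) (nat_lit 152) (nat_lit 14636531520527) (nat_lit 228) (nat_lit 42367906539707) (nat_lit 56) (nat_lit 5) (nat_lit 58) (nat_lit 5) (nat_lit 59) (nat_lit 5) (nat_lit 418) (nat_lit 404) (nat_lit 198)) (XT.lf (nat_lit 0) (nat_lit 17663295250105) (nat_lit 532) (nat_lit 117825137483) (nat_lit 532) (nat_lit 117825137483) (nat_lit 93) (nat_lit 3) (nat_lit 100) (nat_lit 3) (nat_lit 100) (nat_lit 5) (nat_lit 405) (nat_lit 405) (nat_lit 210))) (XT.nd (nat_lit 78) (nat_lit 0) (nat_lit 76) (XT.lf (nat_lit 0) (nat_lit 380792445812) (nat_lit 532) (nat_lit 3486694432808) (nat_lit 608) (nat_lit 34547253116383) (nat_lit 86) (nat_lit 5) (nat_lit 93) (nat_lit 3) (nat_lit 94) (nat_lit 5) (nat_lit 406) (nat_lit 405) (nat_lit 209)) (XT.nd (nat_lit 78) (nat_lit 0) (nat_lit 76) (XT.lf (nat_lit 0)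 (nat_lit 3006389022762) (nat_lit 532) (nat_lit 6428985673958) (nat_lit 608) (nat_lit 31853874588355) (nat_lit 87) (nat_lit 5) (nat_lit 94) (nat_lit 5) (nat_lit 95) (nat_lit 5) (nat_lit 407) (nat_lit 405) (nat_lit 208)) (XT.lf (nat_lit 0) (nat_lit 7811468470077) (nat_lit 532) (nat_lit 8920663569254) (nat_lit 608) (nat_lit 27719951458622) (nat_lit 88) (nat_lit 5) (nat_lit 95) (nat_lit 5) (nat_lit 96) (nat_lit 5) (nat_lit 408) (nat_lit 405) (nat_lit 207))))) (XT.nd (nat_lit 156) (nat_lit 760) (nat_lit 0) (XT.nd (nat_lit 78) (nat_lit 532) (nat_lit 0) (XT.lf (nat_lit 0) (nat_lit 15251259129568) (nat_lit 532) (nat_lit 10812241109986) (nat_lit 76) (nat_lit 21872726659602) (nat_lit 89) (nat_lit 5) (nat_lit 96) (nat_lit 5) (nat_lit 90) (nat_lit 5) (nat_lit 409) (nat_lit 405) (nat_lit 206)) (XT.lf (nat_lit 0) (nat_lit 25858261623110) (nat_lit 608) (nat_lit 11924949913364) (nat_lit 76) (nat_lit 13995680815254)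 (nat_lit 82) (nat_lit 5) (nat_lit 90) (nat_lit 5) (nat_lit 83) (nat_lit 5) (nat_lit 410) (nat_lit 405) (nat_lit 205))) (XT.nd (nat_lit 78) (nat_lit 532) (nat_lit 0) (XT.lf (nat_lit 0) (nat_lit 40254427859863) (nat_lit 304) (nat_lit 12045903146178) (nat_lit 76) (nat_lit 3721777546611) (nat_lit 79) (nat_lit 5) (nat_lit 83) (nat_lit 5) (nat_lit 80) (nat_lit 5) (nat_lit 411) (nat_lit 405) (nat_lit 204)) (XT.nd (nat_lit 78) (nat_lit 304) (nat_lit 0) (XT.lf (nat_lit 0) (nat_lit 49534551072707) (nat_lit 228) (nat_lit 9867965124686) (nat_lit 304) (nat_lit 1291891213101) (nat_lit 76) (nat_lit 5) (nat_lit 79) (nat_lit 5) (nat_lit 80) (nat_lit 5) (nat_lit 412) (nat_lit 405) (nat_lit 203)) (XT.lf (nat_lit 0) (nat_lit 17321968893546) (nat_lit 304) (nat_lit 9347515413941) (nat_lit 76) (nat_lit 39149736440155) (nat_lit 72) (nat_lit 5) (nat_lit 76) (nat_lit 5) (nat_lit 73) (nat_lit 5) (nat_lit 413) (nat_lit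 405) (nat_lit 202)))))) (XT.nd (nat_lit 52494) (nat_lit 0) (nat_lit 1824) (XT.nd (nat_lit 156) (nat_lit 684) (nat_lit 0) (XT.nd (nat_lit 78) (nat_lit 152) (nat_lit 0) (XT.lf (nat_lit 0) (nat_lit 41463168682631) (nat_lit 304) (nat_lit 5911158634132) (nat_lit 76) (nat_lit 24110803915906) (nat_lit 69) (nat_lit 5) (nat_lit 73) (nat_lit 5) (nat_lit 70) (nat_lit 5) (nat_lit 414) (nat_lit 405) (nat_lit 201)) (XT.lf (nat_lit 0) (nat_lit 72233605879138) (nat_lit 228) (nat_lit 448840633763) (nat_lit 76) (nat_lit 5077837182424) (nat_lit 67) (nat_lit 5) (nat_lit 70) (nat_lit 5) (nat_lit 68) (nat_lit 5) (nat_lit 415) (nat_lit 405) (nat_lit 200))) (XT.nd (nat_lit 78) (nat_lit 304) (nat_lit 0) (XT.lf (nat_lit 0) (nat_lit 6697352878606) (nat_lit 152) (nat_lit 18761650016938) (nat_lit 228) (nat_lit 59158237724470) (nat_lit 62) (nat_lit 5) (nat_lit 64) (nat_lit 5) (nat_lit 65) (nat_lit 5) (nat_lit 416) (nat_lit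 405) (nat_lit 199)) (XT.nd (nat_lit 78) (nat_lit 152) (nat_lit 0) (XT.lf (nat_lit 0) (nat_lit 16351307224404) (nat_lit 152) (nat_lit 48207234962227) (nat_lit 228) (nat_lit 27629255093108) (nat_lit 60) (nat_lit 5) (nat_lit 62) (nat_lit 5) (nat_lit 63) (nat_lit 5) (nat_lit 417) (nat_lit 405) (nat_lit 198)) (XT.lf (nat_lit 0) (nat_lit 12178059546439) (nat_lit 152) (nat_lit 71561209225309) (nat_lit 76) (nat_lit 16819614638734) (nat_lit 58) (nat_lit 5) (nat_lit 60) (nat_lit 5) (nat_lit 59) (nat_lit 5) (nat_lit 418) (nat_lit 405) (nat_lit 197))))) (XT.nd (nat_lit 234) (nat_lit 304) (nat_lit 0) (XT.nd (nat_lit 78) (nat_lit 532) (nat_lit 0) (XT.lf (nat_lit 0) (nat_lit 20312789537704) (nat_lit 532) (nat_lit 135498908061) (nat_lit 532) (nat_lit 135498908061) (nat_lit 93) (nat_lit 3) (nat_lit 100) (nat_lit 3) (nat_lit 100) (nat_lit 5) (nat_lit 406) (nat_lit 406) (nat_lit 208)) (XT.nd (nat_lit 78) (nat_lit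 0) (nat_lit 76) (XT.lf (nat_lit 0) (nat_lit 437911312835) (nat_lit 532) (nat_lit 4009698597639) (nat_lit 608) (nat_lit 39729341083768) (nat_lit 86) (nat_lit 5) (nat_lit 93) (nat_lit 3) (nat_lit 94) (nat_lit 5) (nat_lit 407) (nat_lit 406) (nat_lit 207)) (XT.lf (nat_lit 0) (nat_lit 3457347376308) (nat_lit 532) (nat_lit 7393333524957) (nat_lit 608) (nat_lit 36631955776561) (nat_lit 87) (nat_lit 5) (nat_lit 94) (nat_lit 5) (nat_lit 95) (nat_lit 5) (nat_lit 408) (nat_lit 406) (nat_lit 206)))) (XT.nd (nat_lit 78) (nat_lit 456) (nat_lit 0) (XT.lf (nat_lit 0) (nat_lit 8983188740705) (nat_lit 532) (nat_lit 10258763104545) (nat_lit 608) (nat_lit 31877944177386) (nat_lit 88) (nat_lit 5) (nat_lit 95) (nat_lit 5) (nat_lit 96) (nat_lit 5) (nat_lit 409) (nat_lit 406) (nat_lit 205)) (XT.nd (nat_lit 78) (nat_lit 532) (nat_lit 0) (XT.lf (nat_lit 0) (nat_lit 17538947999106) (nat_lit 532) (nat_lit 12434077276386)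 (nat_lit 76) (nat_lit 25153635658529) (nat_lit 89) (nat_lit 5) (nat_lit 96) (nat_lit 5) (nat_lit 90) (nat_lit 5) (nat_lit 410) (nat_lit 406) (nat_lit 204)) (XT.lf (nat_lit 0) (nat_lit 29737000866667) (nat_lit 608) (nat_lit 13713692400272) (nat_lit 76) (nat_lit 16095032937540) (nat_lit 82) (nat_lit 5) (nat_lit 90) (nat_lit 5) (nat_lit 83) (nat_lit 5) (nat_lit 411) (nat_lit 406) (nat_lit 203))))))))
noncomputable def xc126 : XT := (XT.nd (nat_lit 106080) (nat_lit 0) (nat_lit 532) (XT.nd (nat_lit 52962) (nat_lit 0) (nat_lit 152) (XT.nd (nat_lit 390) (nat_lit 532) (nat_lit 0) (XT.nd (nat_lit 156) (nat_lit 684) (nat_lit 0) (XT.nd (nat_lit 78) (nat_lit 228) (nat_lit 0) (XT.lf (nat_lit 0) (nat_lit 46292592038924) (nat_lit 304) (nat_lit 13852788618009) (nat_lit 76) (nat_lit 4280044178610) (nat_lit 79) (nat_lit 5) (nat_lit 83) (nat_lit 5) (nat_lit 80) (nat_lit 5) (nat_lit 412) (nat_lit 406) (nat_lit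 202)) (XT.lf (nat_lit 0) (nat_lit 56964733733700) (nat_lit 228) (nat_lit 11348159893375) (nat_lit 304) (nat_lit 1485674894987) (nat_lit 76) (nat_lit 5) (nat_lit 79) (nat_lit 5) (nat_lit 80) (nat_lit 5) (nat_lit 413) (nat_lit 406) (nat_lit 201))) (XT.nd (nat_lit 78) (nat_lit 380) (nat_lit 0) (XT.lf (nat_lit 0) (nat_lit 19920264227646) (nat_lit 304) (nat_lit 10749642725944) (nat_lit 76) (nat_lit 45022196906193) (nat_lit 72) (nat_lit 5) (nat_lit 76) (nat_lit 5) (nat_lit 73) (nat_lit 5) (nat_lit 414) (nat_lit 406) (nat_lit 200)) (XT.nd (nat_lit 78) (nat_lit 152) (nat_lit 0) (XT.lf (nat_lit 0) (nat_lit 47682643985087) (nat_lit 304) (nat_lit 6797832429166) (nat_lit 76) (nat_lit 27727424503311) (nat_lit 69) (nat_lit 5) (nat_lit 73) (nat_lit 5) (nat_lit 70) (nat_lit 5) (nat_lit 415) (nat_lit 406) (nat_lit 199)) (XT.lf (nat_lit 0) (nat_lit 83068646761064) (nat_lit 228) (nat_lit 516166728746) (nat_lit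 76) (nat_lit 5839512759810) (nat_lit 67) (nat_lit 5) (nat_lit 70) (nat_lit 5) (nat_lit 68) (nat_lit 5) (nat_lit 416) (nat_lit 406) (nat_lit 198))))) (XT.nd (nat_lit 52338) (nat_lit 0) (nat_lit 1976) (XT.nd (nat_lit 78) (nat_lit 152) (nat_lit 0) (XT.lf (nat_lit 0) (nat_lit 7701955810478) (nat_lit 152) (nat_lit 21575897519451) (nat_lit 228) (nat_lit 68031973383083) (nat_lit 62) (nat_lit 5) (nat_lit 64) (nat_lit 5) (nat_lit 65) (nat_lit 5) (nat_lit 417) (nat_lit 406) (nat_lit 197)) (XT.lf (nat_lit 0) (nat_lit 18804003308144) (nat_lit 152) (nat_lit 55438320206532) (nat_lit 228) (nat_lit 31773643357021) (nat_lit 60) (nat_lit 5) (nat_lit 62) (nat_lit 5) (nat_lit 63) (nat_lit 5) (nat_lit 418) (nat_lit 406) (nat_lit 196))) (XT.nd (nat_lit 78) (nat_lit 532) (nat_lit 0) (XT.lf (nat_lit 0) (nat_lit 23359707968422) (nat_lit 532) (nat_lit 155823744236) (nat_lit 532) (nat_lit 155823744236) (nat_lit 93)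 (nat_lit 3) (nat_lit 100) (nat_lit 3) (nat_lit 100) (nat_lit 5) (nat_lit 407) (nat_lit 407) (nat_lit 206)) (XT.nd (nat_lit 78) (nat_lit 0) (nat_lit 76) (XT.lf (nat_lit 0) (nat_lit 503598009874) (nat_lit 532) (nat_lit 4611153387216) (nat_lit 608) (nat_lit 45688742246279) (nat_lit 86) (nat_lit 5) (nat_lit 93) (nat_lit 3) (nat_lit 94) (nat_lit 5) (nat_lit 408) (nat_lit 407) (nat_lit 205)) (XT.lf (nat_lit 0) (nat_lit 3975949482854) (nat_lit 532) (nat_lit 8502333553630) (nat_lit 608) (nat_lit 42126749143009) (nat_lit 87) (nat_lit 5) (nat_lit 94) (nat_lit 5) (nat_lit 95) (nat_lit 5) (nat_lit 409) (nat_lit 407) (nat_lit 204)))))) (XT.nd (nat_lit 390) (nat_lit 1064) (nat_lit 0) (XT.nd (nat_lit 156) (nat_lit 912) (nat_lit 0) (XT.nd (nat_lit 78) (nat_lit 0) (nat_lit 76) (XT.lf (nat_lit 0) (nat_lit 10330667051899) (nat_lit 532) (nat_lit 11797577570154) (nat_lit 608) (nat_lit 36659635803973) (nat_lit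 88) (nat_lit 5) (nat_lit 95) (nat_lit 5) (nat_lit 96) (nat_lit 5) (nat_lit 410) (nat_lit 407) (nat_lit 203)) (XT.lf (nat_lit 0) (nat_lit 20169790199049) (nat_lit 532) (nat_lit 14299188867771) (nat_lit 76) (nat_lit 28926681007297) (nat_lit 89) (nat_lit 5) (nat_lit 96) (nat_lit 5) (nat_lit 90) (nat_lit 5) (nat_lit 411) (nat_lit 407) (nat_lit 202))) (XT.nd (nat_lit 78) (nat_lit 456) (nat_lit 0) (XT.lf (nat_lit 0) (nat_lit 34197550996736) (nat_lit 608) (nat_lit 15770746260241) (nat_lit 76) (nat_lit 18509287878169) (nat_lit 82) (nat_lit 5) (nat_lit 90) (nat_lit 5) (nat_lit 83) (nat_lit 5) (nat_lit 412) (nat_lit 407) (nat_lit 201)) (XT.nd (nat_lit 78) (nat_lit 228) (nat_lit 0) (XT.lf (nat_lit 0) (nat_lit 53236480844824) (nat_lit 304) (nat_lit 15930706910639) (nat_lit 76) (nat_lit 4922050805406) (nat_lit 79) (nat_lit 5) (nat_lit 83) (nat_lit 5) (nat_lit 80) (nat_lit 5) (nat_lit 413) (nat_lit 407)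 (nat_lit 200)) (XT.lf (nat_lit 0) (nat_lit 65509443793819) (nat_lit 228) (nat_lit 13050383877372) (nat_lit 304) (nat_lit 1708526129175) (nat_lit 76) (nat_lit 5) (nat_lit 79) (nat_lit 5) (nat_lit 80) (nat_lit 5) (nat_lit 414) (nat_lit 407) (nat_lit 199))))) (XT.nd (nat_lit 234) (nat_lit 380) (nat_lit 0) (XT.nd (nat_lit 78) (nat_lit 380) (nat_lit 0) (XT.lf (nat_lit 0) (nat_lit 22908303861844) (nat_lit 304) (nat_lit 12362089134770) (nat_lit 76) (nat_lit 51775526442133) (nat_lit 72) (nat_lit 5) (nat_lit 76) (nat_lit 5) (nat_lit 73) (nat_lit 5) (nat_lit 415) (nat_lit 407) (nat_lit 198)) (XT.nd (nat_lit 78) (nat_lit 152) (nat_lit 0) (XT.lf (nat_lit 0) (nat_lit 54835040582897) (nat_lit 304) (nat_lit 7817507293477) (nat_lit 76) (nat_lit 31886538178822) (nat_lit 69) (nat_lit 5) (nat_lit 73) (nat_lit 5) (nat_lit 70) (nat_lit 5) (nat_lit 416) (nat_lit 407) (nat_lit 197)) (XT.lf (nat_lit 0) (nat_lit 95528943775265)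 (nat_lit 228) (nat_lit 593591737997) (nat_lit 76) (nat_lit 6715439673797) (nat_lit 67) (nat_lit 5) (nat_lit 70) (nat_lit 5) (nat_lit 68) (nat_lit 5) (nat_lit 417) (nat_lit 407) (nat_lit 196)))) (XT.nd (nat_lit 52338) (nat_lit 0) (nat_lit 1824) (XT.lf (nat_lit 0) (nat_lit 8857249182111) (nat_lit 152) (nat_lit 24812282147347) (nat_lit 228) (nat_lit 78236769390502) (nat_lit 62) (nat_lit 5) (nat_lit 64) (nat_lit 5) (nat_lit 65) (nat_lit 5) (nat_lit 418) (nat_lit 407) (nat_lit 195)) (XT.nd (nat_lit 78) (nat_lit 532) (nat_lit 0) (XT.lf (nat_lit 0) (nat_lit 26863664163733) (nat_lit 532) (nat_lit 179197305845) (nat_lit 532) (nat_lit 179197305845) (nat_lit 93) (nat_lit 3) (nat_lit 100) (nat_lit 3) (nat_lit 100) (nat_lit 5) (nat_lit 408) (nat_lit 408) (nat_lit 204)) (XT.lf (nat_lit 0) (nat_lit 579137711441) (nat_lit 532) (nat_lit 5302826395248) (nat_lit 608) (nat_lit 52542053583179) (nat_lit 86) (nat_lit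 5) (nat_lit 93) (nat_lit 3) (nat_lit 94) (nat_lit 5) (nat_lit 409) (nat_lit 408) (nat_lit 203))))))) (XT.nd (nat_lit 53118) (nat_lit 0) (nat_lit 152) (XT.nd (nat_lit 390) (nat_lit 912) (nat_lit 0) (XT.nd (nat_lit 156) (nat_lit 608) (nat_lit 0) (XT.nd (nat_lit 78) (nat_lit 0) (nat_lit 76) (XT.lf (nat_lit 0) (nat_lit 4572341905357) (nat_lit 532) (nat_lit 9777683586621) (nat_lit 608) (nat_lit 48445761514433) (nat_lit 87) (nat_lit 5) (nat_lit 94) (nat_lit 5) (nat_lit 95) (nat_lit 5) (nat_lit 410) (nat_lit 408) (nat_lit 202)) (XT.lf (nat_lit 0) (nat_lit 11880267109750) (nat_lit 532) (nat_lit 13567214205623) (nat_lit 608) (nat_lit 42158581174551) (nat_lit 88) (nat_lit 5) (nat_lit 95) (nat_lit 5) (nat_lit 96) (nat_lit 5) (nat_lit 411) (nat_lit 408) (nat_lit 201))) (XT.nd (nat_lit 78) (nat_lit 760) (nat_lit 0) (XT.lf (nat_lit 0) (nat_lit 23195258728965) (nat_lit 532) (nat_lit 16444067197882) (nat_lit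 76) (nat_lit 33265683158384) (nat_lit 89) (nat_lit 5) (nat_lit 96) (nat_lit 5) (nat_lit 90) (nat_lit 5) (nat_lit 412) (nat_lit 408) (nat_lit 200)) (XT.nd (nat_lit 78) (nat_lit 228) (nat_lit 0) (XT.lf (nat_lit 0) (nat_lit 39327183646299) (nat_lit 608) (nat_lit 18136358199222) (nat_lit 76) (nat_lit 21285681059894) (nat_lit 82) (nat_lit 5) (nat_lit 90) (nat_lit 5) (nat_lit 83) (nat_lit 5) (nat_lit 413) (nat_lit 408) (nat_lit 199)) (XT.lf (nat_lit 0) (nat_lit 61221952971595) (nat_lit 304) (nat_lit 18320312947182) (nat_lit 76) (nat_lit 5660358426220) (nat_lit 79) (nat_lit 5) (nat_lit 83) (nat_lit 5) (nat_lit 80) (nat_lit 5) (nat_lit 414) (nat_lit 408) (nat_lit 198))))) (XT.nd (nat_lit 156) (nat_lit 380) (nat_lit 0) (XT.nd (nat_lit 78) (nat_lit 304) (nat_lit 0) (XT.lf (nat_lit 0) (nat_lit 75335860362942) (nat_lit 228) (nat_lit 15007941458970) (nat_lit 304) (nat_lit 1964805048507) (nat_lit 76) (nat_lit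 5) (nat_lit 79) (nat_lit 5) (nat_lit 80) (nat_lit 5) (nat_lit 415) (nat_lit 408) (nat_lit 197)) (XT.lf (nat_lit 0) (nat_lit 26344549441159) (nat_lit 304) (nat_lit 14216402504935) (nat_lit 76) (nat_lit 59541855408462) (nat_lit 72) (nat_lit 5) (nat_lit 76) (nat_lit 5) (nat_lit 73) (nat_lit 5) (nat_lit 416) (nat_lit 408) (nat_lit 196))) (XT.nd (nat_lit 78) (nat_lit 152) (nat_lit 0) (XT.lf (nat_lit 0) (nat_lit 63060296670366) (nat_lit 304) (nat_lit 8990133387452) (nat_lit 76) (nat_lit 36669518905655) (nat_lit 69) (nat_lit 5) (nat_lit 73) (nat_lit 5) (nat_lit 70) (nat_lit 5) (nat_lit 417) (nat_lit 408) (nat_lit 195)) (XT.nd (nat_lit 52416) (nat_lit 0) (nat_lit 1976) (XT.lf (nat_lit 0) (nat_lit 109858285341587) (nat_lit 228) (nat_lit 682630498651) (nat_lit 76) (nat_lit 7722755624879) (nat_lit 67) (nat_lit 5) (nat_lit 70) (nat_lit 5) (nat_lit 68) (nat_lit 5) (nat_lit 418) (nat_lit 408) (nat_lit 194))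 (XT.lf (nat_lit 0) (nat_lit 30893213788329) (nat_lit 532) (nat_lit 206076901703) (nat_lit 532) (nat_lit 206076901703) (nat_lit 93) (nat_lit 3) (nat_lit 100) (nat_lit 3) (nat_lit 100) (nat_lit 5) (nat_lit 409) (nat_lit 409) (nat_lit 202)))))) (XT.nd (nat_lit 390) (nat_lit 988) (nat_lit 0) (XT.nd (nat_lit 156) (nat_lit 304) (nat_lit 0) (XT.nd (nat_lit 78) (nat_lit 0) (nat_lit 76) (XT.lf (nat_lit 0) (nat_lit 666008368223) (nat_lit 532) (nat_lit 6098250354495) (nat_lit 608) (nat_lit 60423361620625) (nat_lit 86) (nat_lit 5) (nat_lit 93) (nat_lit 3) (nat_lit 94) (nat_lit 5) (nat_lit 410) (nat_lit 409) (nat_lit 201)) (XT.lf (nat_lit 0) (nat_lit 5258193191218) (nat_lit 532) (nat_lit 11244336124573) (nat_lit 608) (nat_lit 55712625741577) (nat_lit 87) (nat_lit 5) (nat_lit 94) (nat_lit 5) (nat_lit 95) (nat_lit 5) (nat_lit 411) (nat_lit 409) (nat_lit 200))) (XT.nd (nat_lit 78) (nat_lit 456) (nat_lit 0)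 (XT.lf (nat_lit 0) (nat_lit 13662307176262) (nat_lit 532) (nat_lit 15602296336424) (nat_lit 608) (nat_lit 48482368350723) (nat_lit 88) (nat_lit 5) (nat_lit 95) (nat_lit 5) (nat_lit 96) (nat_lit 5) (nat_lit 412) (nat_lit 409) (nat_lit 199)) (XT.nd (nat_lit 78) (nat_lit 532) (nat_lit 0) (XT.lf (nat_lit 0) (nat_lit 26674547538354) (nat_lit 532) (nat_lit 18910677277521) (nat_lit 76) (nat_lit 38255535632137) (nat_lit 89) (nat_lit 5) (nat_lit 96) (nat_lit 5) (nat_lit 90) (nat_lit 5) (nat_lit 413) (nat_lit 409) (nat_lit 198)) (XT.lf (nat_lit 0) (nat_lit 45226261193284) (nat_lit 608) (nat_lit 20856811929063) (nat_lit 76) (nat_lit 24478533218877) (nat_lit 82) (nat_lit 5) (nat_lit 90) (nat_lit 5) (nat_lit 83) (nat_lit 5) (nat_lit 414) (nat_lit 409) (nat_lit 197))))) (XT.nd (nat_lit 234) (nat_lit 228) (nat_lit 0) (XT.nd (nat_lit 78) (nat_lit 532) (nat_lit 0) (XT.lf (nat_lit 0) (nat_lit 70405245917369)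 (nat_lit 304) (nat_lit 21068359889218) (nat_lit 76) (nat_lit 6509412190157) (nat_lit 79) (nat_lit 5) (nat_lit 83) (nat_lit 5) (nat_lit 80) (nat_lit 5) (nat_lit 415) (nat_lit 409) (nat_lit 196)) (XT.nd (nat_lit 78) (nat_lit 304) (nat_lit 0) (XT.lf (nat_lit 0) (nat_lit 86636239417422) (nat_lit 228) (nat_lit 17259132677809) (nat_lit 304) (nat_lit 2259525805748) (nat_lit 76) (nat_lit 5) (nat_lit 79) (nat_lit 5) (nat_lit 80) (nat_lit 5) (nat_lit 416) (nat_lit 409) (nat_lit 195)) (XT.lf (nat_lit 0) (nat_lit 30296231857362) (nat_lit 304) (nat_lit 16348862880638) (nat_lit 76) (nat_lit 68473133719737) (nat_lit 72) (nat_lit 5) (nat_lit 76) (nat_lit 5) (nat_lit 73) (nat_lit 5) (nat_lit 417) (nat_lit 409) (nat_lit 194)))) (XT.nd (nat_lit 52494) (nat_lit 0) (nat_lit 1292) (XT.lf (nat_lit 0) (nat_lit 72519341170948) (nat_lit 304) (nat_lit 10338653395532) (nat_lit 76) (nat_lit 42169946741512) (nat_lit 69)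 (nat_lit 5) (nat_lit 73) (nat_lit 5) (nat_lit 70) (nat_lit 5) (nat_lit 418) (nat_lit 409) (nat_lit 193)) (XT.nd (nat_lit 78) (nat_lit 532) (nat_lit 0) (XT.lf (nat_lit 0) (nat_lit 35527195856606) (nat_lit 532) (nat_lit 236988436944) (nat_lit 532) (nat_lit 236988436944) (nat_lit 93) (nat_lit 3) (nat_lit 100) (nat_lit 3) (nat_lit 100) (nat_lit 5) (nat_lit 410) (nat_lit 410) (nat_lit 200)) (XT.lf (nat_lit 0) (nat_lit 765909623505) (nat_lit 532) (nat_lit 7012987907641) (nat_lit 608) (nat_lit 69486865863695) (nat_lit 86) (nat_lit 5) (nat_lit 93) (nat_lit 3) (nat_lit 94) (nat_lit 5) (nat_lit 411) (nat_lit 410) (nat_lit 199))))))))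
noncomputable def xc127 : XT := (XT.nd (nat_lit 106704) (nat_lit 0) (nat_lit 532) (XT.nd (nat_lit 53274) (nat_lit 0) (nat_lit 304) (XT.nd (nat_lit 390) (nat_lit 532) (nat_lit 0) (XT.nd (nat_lit 156) (nat_lit 608) (nat_lit 0) (XT.nd (nat_lit 78) (nat_lit 0) (nat_lit 76) (XT.lf (nat_lit 0) (nat_lit 6046922169944) (nat_lit 532) (nat_lit 12930986543228) (nat_lit 608) (nat_lit 64069519602798) (nat_lit 87) (nat_lit 5) (nat_lit 94) (nat_lit 5) (nat_lit 95) (nat_lit 5) (nat_lit 412) (nat_lit 410) (nat_lit 198)) (XT.lf (nat_lit 0) (nat_lit 15711653252739) (nat_lit 532) (nat_lit 17942640786856) (nat_lit 608) (nat_lit 55754723603322) (nat_lit 88) (nat_lit 5) (nat_lit 95) (nat_lit 5) (nat_lit 96) (nat_lit 5) (nat_lit 413) (nat_lit 410) (nat_lit 197))) (XT.nd (nat_lit 78) (nat_lit 760) (nat_lit 0) (XT.lf (nat_lit 0) (nat_lit 30675729669140) (nat_lit 532) (nat_lit 21747278869119) (nat_lit 76) (nat_lit 43993865976952)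 (nat_lit 89) (nat_lit 5) (nat_lit 96) (nat_lit 5) (nat_lit 90) (nat_lit 5) (nat_lit 414) (nat_lit 410) (nat_lit 196)) (XT.nd (nat_lit 78) (nat_lit 228) (nat_lit 0) (XT.lf (nat_lit 0) (nat_lit 52010200372306) (nat_lit 608) (nat_lit 23985333718391) (nat_lit 76) (nat_lit 28150313201708) (nat_lit 82) (nat_lit 5) (nat_lit 90) (nat_lit 5) (nat_lit 83) (nat_lit 5) (nat_lit 415) (nat_lit 410) (nat_lit 195)) (XT.lf (nat_lit 0) (nat_lit 80966032805002) (nat_lit 304) (nat_lit 24228613872570) (nat_lit 76) (nat_lit 7485824018682) (nat_lit 79) (nat_lit 5) (nat_lit 83) (nat_lit 5) (nat_lit 80) (nat_lit 5) (nat_lit 416) (nat_lit 410) (nat_lit 194))))) (XT.nd (nat_lit 52650) (nat_lit 0) (nat_lit 1064) (XT.nd (nat_lit 78) (nat_lit 304) (nat_lit 0) (XT.lf (nat_lit 0) (nat_lit 99631675330062) (nat_lit 228) (nat_lit 19848002579477) (nat_lit 304) (nat_lit 2598454676585) (nat_lit 76) (nat_lit 5) (nat_lit 79) (nat_lit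 5) (nat_lit 80) (nat_lit 5) (nat_lit 417) (nat_lit 410) (nat_lit 193)) (XT.lf (nat_lit 0) (nat_lit 34840666635988) (nat_lit 304) (nat_lit 18801192312705) (nat_lit 76) (nat_lit 78744103777703) (nat_lit 72) (nat_lit 5) (nat_lit 76) (nat_lit 5) (nat_lit 73) (nat_lit 5) (nat_lit 418) (nat_lit 410) (nat_lit 192))) (XT.nd (nat_lit 78) (nat_lit 532) (nat_lit 0) (XT.lf (nat_lit 0) (nat_lit 40856275235118) (nat_lit 532) (nat_lit 272536702474) (nat_lit 532) (nat_lit 272536702474) (nat_lit 93) (nat_lit 3) (nat_lit 100) (nat_lit 3) (nat_lit 100) (nat_lit 5) (nat_lit 411) (nat_lit 411) (nat_lit 198)) (XT.nd (nat_lit 78) (nat_lit 0) (nat_lit 76) (XT.lf (nat_lit 0) (nat_lit 880796067068) (nat_lit 532) (nat_lit 8064936093764) (nat_lit 608) (nat_lit 79909895743232) (nat_lit 86) (nat_lit 5) (nat_lit 93) (nat_lit 3) (nat_lit 94) (nat_lit 5) (nat_lit 412) (nat_lit 411) (nat_lit 197)) (XT.lf (nat_lit 0) (nat_lit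 6953960495468) (nat_lit 532) (nat_lit 14870634524688) (nat_lit 608) (nat_lit 73679947543208) (nat_lit 87) (nat_lit 5) (nat_lit 94) (nat_lit 5) (nat_lit 95) (nat_lit 5) (nat_lit 413) (nat_lit 411) (nat_lit 196)))))) (XT.nd (nat_lit 52962) (nat_lit 0) (nat_lit 456) (XT.nd (nat_lit 156) (nat_lit 912) (nat_lit 0) (XT.nd (nat_lit 78) (nat_lit 0) (nat_lit 76) (XT.lf (nat_lit 0) (nat_lit 18068401240679) (nat_lit 532) (nat_lit 20634036904860) (nat_lit 608) (nat_lit 64117932143813) (nat_lit 88) (nat_lit 5) (nat_lit 95) (nat_lit 5) (nat_lit 96) (nat_lit 5) (nat_lit 414) (nat_lit 411) (nat_lit 195)) (XT.lf (nat_lit 0) (nat_lit 35277089119537) (nat_lit 532) (nat_lit 25009370699461) (nat_lit 76) (nat_lit 50592945873492) (nat_lit 89) (nat_lit 5) (nat_lit 96) (nat_lit 5) (nat_lit 90) (nat_lit 5) (nat_lit 415) (nat_lit 411) (nat_lit 194))) (XT.nd (nat_lit 78) (nat_lit 456) (nat_lit 0) (XT.lf (nat_lit 0) (nat_lit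 59811730428175) (nat_lit 608) (nat_lit 27583133776125) (nat_lit 76) (nat_lit 32372860181964) (nat_lit 82) (nat_lit 5) (nat_lit 90) (nat_lit 5) (nat_lit 83) (nat_lit 5) (nat_lit 416) (nat_lit 411) (nat_lit 193)) (XT.nd (nat_lit 78) (nat_lit 228) (nat_lit 0) (XT.lf (nat_lit 0) (nat_lit 93110937725772) (nat_lit 304) (nat_lit 27862905953432) (nat_lit 76) (nat_lit 8608697621487) (nat_lit 79) (nat_lit 5) (nat_lit 83) (nat_lit 5) (nat_lit 80) (nat_lit 5) (nat_lit 417) (nat_lit 411) (nat_lit 192)) (XT.lf (nat_lit 0) (nat_lit 114576426629595) (nat_lit 228) (nat_lit 22825202966394) (nat_lit 304) (nat_lit 2988222878053) (nat_lit 76) (nat_lit 5) (nat_lit 79) (nat_lit 5) (nat_lit 80) (nat_lit 5) (nat_lit 418) (nat_lit 411) (nat_lit 191))))) (XT.nd (nat_lit 234) (nat_lit 304) (nat_lit 0) (XT.nd (nat_lit 78) (nat_lit 532) (nat_lit 0) (XT.lf (nat_lit 0) (nat_lit 46984716520401) (nat_lit 532) (nat_lit 313417207837)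 (nat_lit 532) (nat_lit 313417207837) (nat_lit 93) (nat_lit 3) (nat_lit 100) (nat_lit 3) (nat_lit 100) (nat_lit 5) (nat_lit 412) (nat_lit 412) (nat_lit 196)) (XT.nd (nat_lit 78) (nat_lit 0) (nat_lit 76) (XT.lf (nat_lit 0) (nat_lit 1012915477157) (nat_lit 532) (nat_lit 9274676507812) (nat_lit 608) (nat_lit 91896380104703) (nat_lit 86) (nat_lit 5) (nat_lit 93) (nat_lit 3) (nat_lit 94) (nat_lit 5) (nat_lit 413) (nat_lit 412) (nat_lit 195)) (XT.lf (nat_lit 0) (nat_lit 7997054569812) (nat_lit 532) (nat_lit 17101229703375) (nat_lit 608) (nat_lit 84731939674678) (nat_lit 87) (nat_lit 5) (nat_lit 94) (nat_lit 5) (nat_lit 95) (nat_lit 5) (nat_lit 414) (nat_lit 412) (nat_lit 194)))) (XT.nd (nat_lit 78) (nat_lit 456) (nat_lit 0) (XT.lf (nat_lit 0) (nat_lit 20778661426803) (nat_lit 532) (nat_lit 23729142440571) (nat_lit 608) (nat_lit 73735621965380) (nat_lit 88) (nat_lit 5) (nat_lit 95) (nat_lit 5) (nat_lit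 96) (nat_lit 5) (nat_lit 415) (nat_lit 412) (nat_lit 193)) (XT.nd (nat_lit 78) (nat_lit 532) (nat_lit 0) (XT.lf (nat_lit 0) (nat_lit 40568652487487) (nat_lit 532) (nat_lit 28760776304363) (nat_lit 76) (nat_lit 58181887754513) (nat_lit 89) (nat_lit 5) (nat_lit 96) (nat_lit 5) (nat_lit 90) (nat_lit 5) (nat_lit 416) (nat_lit 412) (nat_lit 192)) (XT.lf (nat_lit 0) (nat_lit 68783489992418) (nat_lit 608) (nat_lit 31720603842528) (nat_lit 76) (nat_lit 37228789209257) (nat_lit 82) (nat_lit 5) (nat_lit 90) (nat_lit 5) (nat_lit 83) (nat_lit 5) (nat_lit 417) (nat_lit 412) (nat_lit 191))))))) (XT.nd (nat_lit 106236) (nat_lit 0) (nat_lit 532) (XT.nd (nat_lit 53040) (nat_lit 0) (nat_lit 228) (XT.nd (nat_lit 52806) (nat_lit 0) (nat_lit 532) (XT.nd (nat_lit 52728) (nat_lit 0) (nat_lit 1064) (XT.lf (nat_lit 0) (nat_lit 107077578384653) (nat_lit 304) (nat_lit 32042341846429) (nat_lit 76) (nat_lit 9900002264711)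 (nat_lit 79) (nat_lit 5) (nat_lit 83) (nat_lit 5) (nat_lit 80) (nat_lit 5) (nat_lit 418) (nat_lit 412) (nat_lit 190)) (XT.lf (nat_lit 0) (nat_lit 54032423998473) (nat_lit 532) (nat_lit 360429789006) (nat_lit 532) (nat_lit 360429789006) (nat_lit 93) (nat_lit 3) (nat_lit 100) (nat_lit 3) (nat_lit 100) (nat_lit 5) (nat_lit 413) (nat_lit 413) (nat_lit 194))) (XT.nd (nat_lit 78) (nat_lit 0) (nat_lit 76) (XT.lf (nat_lit 0) (nat_lit 1164852798752) (nat_lit 532) (nat_lit 10665877983972) (nat_lit 608) (nat_lit 105680837120397) (nat_lit 86) (nat_lit 5) (nat_lit 93) (nat_lit 3) (nat_lit 94) (nat_lit 5) (nat_lit 414) (nat_lit 413) (nat_lit 193)) (XT.nd (nat_lit 78) (nat_lit 0) (nat_lit 76) (XT.lf (nat_lit 0) (nat_lit 9196612755303) (nat_lit 532) (nat_lit 19666414158868) (nat_lit 608) (nat_lit 97441730625874) (nat_lit 87) (nat_lit 5) (nat_lit 94) (nat_lit 5) (nat_lit 95) (nat_lit 5) (nat_lit 415) (nat_lit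 413) (nat_lit 192)) (XT.lf (nat_lit 0) (nat_lit 23895460640840) (nat_lit 532) (nat_lit 27288513806644) (nat_lit 608) (nat_lit 84795965260182) (nat_lit 88) (nat_lit 5) (nat_lit 95) (nat_lit 5) (nat_lit 96) (nat_lit 5) (nat_lit 416) (nat_lit 413) (nat_lit 191))))) (XT.nd (nat_lit 52962) (nat_lit 0) (nat_lit 304) (XT.nd (nat_lit 78) (nat_lit 532) (nat_lit 0) (XT.lf (nat_lit 0) (nat_lit 46653950360625) (nat_lit 532) (nat_lit 33074892750005) (nat_lit 76) (nat_lit 66909170917687) (nat_lit 89) (nat_lit 5) (nat_lit 96) (nat_lit 5) (nat_lit 90) (nat_lit 5) (nat_lit 417) (nat_lit 413) (nat_lit 190)) (XT.nd (nat_lit 52806) (nat_lit 0) (nat_lit 836) (XT.lf (nat_lit 0) (nat_lit 79101013491294) (nat_lit 608) (nat_lit 36478694418894) (nat_lit 76) (nat_lit 42813107590645) (nat_lit 82) (nat_lit 5) (nat_lit 90) (nat_lit 5) (nat_lit 83) (nat_lit 5) (nat_lit 418) (nat_lit 413) (nat_lit 189)) (XT.lf (nat_lit 0)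 (nat_lit 62137287598253) (nat_lit 532) (nat_lit 414494257353) (nat_lit 532) (nat_lit 414494257353) (nat_lit 93) (nat_lit 3) (nat_lit 100) (nat_lit 3) (nat_lit 100) (nat_lit 5) (nat_lit 414) (nat_lit 414) (nat_lit 192)))) (XT.nd (nat_lit 78) (nat_lit 0) (nat_lit 76) (XT.lf (nat_lit 0) (nat_lit 1339580718580) (nat_lit 532) (nat_lit 12265759681557) (nat_lit 608) (nat_lit 121532962688451) (nat_lit 86) (nat_lit 5) (nat_lit 93) (nat_lit 3) (nat_lit 94) (nat_lit 5) (nat_lit 415) (nat_lit 414) (nat_lit 191)) (XT.nd (nat_lit 78) (nat_lit 0) (nat_lit 76) (XT.lf (nat_lit 0) (nat_lit 10576104668613) (nat_lit 532) (nat_lit 22616376282686) (nat_lit 608) (nat_lit 112057990219751) (nat_lit 87) (nat_lit 5) (nat_lit 94) (nat_lit 5) (nat_lit 95) (nat_lit 5) (nat_lit 416) (nat_lit 414) (nat_lit 190)) (XT.lf (nat_lit 0) (nat_lit 27479779736978) (nat_lit 532) (nat_lit 31381790877630) (nat_lit 608) (nat_lit 97515360049207)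 (nat_lit 88) (nat_lit 5) (nat_lit 95) (nat_lit 5) (nat_lit 96) (nat_lit 5) (nat_lit 417) (nat_lit 414) (nat_lit 189)))))) (XT.nd (nat_lit 106080) (nat_lit 0) (nat_lit 0) (XT.nd (nat_lit 52962) (nat_lit 228) (nat_lit 0) (XT.nd (nat_lit 52884) (nat_lit 0) (nat_lit 304) (XT.lf (nat_lit 0) (nat_lit 53652042914730) (nat_lit 532) (nat_lit 38036126662494) (nat_lit 76) (nat_lit 76945546555340) (nat_lit 89) (nat_lit 5) (nat_lit 96) (nat_lit 5) (nat_lit 90) (nat_lit 5) (nat_lit 418) (nat_lit 414) (nat_lit 188)) (XT.lf (nat_lit 0) (nat_lit 71457880737998) (nat_lit 532) (nat_lit 476668395952) (nat_lit 532) (nat_lit 476668395952) (nat_lit 93) (nat_lit 3) (nat_lit 100) (nat_lit 3) (nat_lit 100) (nat_lit 5) (nat_lit 415) (nat_lit 415) (nat_lit 190))) (XT.nd (nat_lit 78) (nat_lit 0) (nat_lit 76) (XT.lf (nat_lit 0) (nat_lit 1540517826380) (nat_lit 532) (nat_lit 14105623633784) (nat_lit 608) (nat_lit 139762907091712)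 (nat_lit 86) (nat_lit 5) (nat_lit 93) (nat_lit 3) (nat_lit 94) (nat_lit 5) (nat_lit 416) (nat_lit 415) (nat_lit 189)) (XT.nd (nat_lit 78) (nat_lit 0) (nat_lit 76) (XT.lf (nat_lit 0) (nat_lit 12162520368915) (nat_lit 532) (nat_lit 26008832725083) (nat_lit 608) (nat_lit 128866688752708) (nat_lit 87) (nat_lit 5) (nat_lit 94) (nat_lit 5) (nat_lit 95) (nat_lit 5) (nat_lit 417) (nat_lit 415) (nat_lit 188)) (XT.lf (nat_lit 0) (nat_lit 31601746697534) (nat_lit 532) (nat_lit 36089059509267) (nat_lit 608) (nat_lit 112142664056586) (nat_lit 88) (nat_lit 5) (nat_lit 95) (nat_lit 5) (nat_lit 96) (nat_lit 5) (nat_lit 418) (nat_lit 415) (nat_lit 187))))) (XT.nd (nat_lit 53196) (nat_lit 0) (nat_lit 0) (XT.nd (nat_lit 78) (nat_lit 532) (nat_lit 0) (XT.lf (nat_lit 0) (nat_lit 82176562848702) (nat_lit 532) (nat_lit 548168655342) (nat_lit 532) (nat_lit 548168655342) (nat_lit 93) (nat_lit 3) (nat_lit 100) (nat_lit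 3) (nat_lit 100) (nat_lit 5) (nat_lit 416) (nat_lit 416) (nat_lit 188)) (XT.nd (nat_lit 78) (nat_lit 0) (nat_lit 76) (XT.lf (nat_lit 0) (nat_lit 1771595500346) (nat_lit 532) (nat_lit 16221467178848) (nat_lit 608) (nat_lit 160727343155463) (nat_lit 86) (nat_lit 5) (nat_lit 93) (nat_lit 3) (nat_lit 94) (nat_lit 5) (nat_lit 417) (nat_lit 416) (nat_lit 187)) (XT.lf (nat_lit 0) (nat_lit 13986898424261) (nat_lit 532) (nat_lit 29910157633840) (nat_lit 608) (nat_lit 148196692065612) (nat_lit 87) (nat_lit 5) (nat_lit 94) (nat_lit 5) (nat_lit 95) (nat_lit 5) (nat_lit 418) (nat_lit 416) (nat_lit 186)))) (XT.nd (nat_lit 78) (nat_lit 532) (nat_lit 0) (XT.lf (nat_lit 0) (nat_lit 94503047276012) (nat_lit 532) (nat_lit 630393953641) (nat_lit 532) (nat_lit 630393953641) (nat_lit 93) (nat_lit 3) (nat_lit 100) (nat_lit 3) (nat_lit 100) (nat_lit 5) (nat_lit 417) (nat_lit 417) (nat_lit 186)) (XT.nd (nat_lit 53118)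 (nat_lit 0) (nat_lit 532) (XT.lf (nat_lit 0) (nat_lit 2037334825405) (nat_lit 532) (nat_lit 18654687255668) (nat_lit 608) (nat_lit 184836444628782) (nat_lit 86) (nat_lit 5) (nat_lit 93) (nat_lit 3) (nat_lit 94) (nat_lit 5) (nat_lit 418) (nat_lit 417) (nat_lit 185)) (XT.lf (nat_lit 0) (nat_lit 108678504367417) (nat_lit 532) (nat_lit 724953046686) (nat_lit 532) (nat_lit 724953046686) (nat_lit 93) (nat_lit 3) (nat_lit 100) (nat_lit 3) (nat_lit 100) (nat_lit 5) (nat_lit 418) (nat_lit 418) (nat_lit 184))))))))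

set_option maxRecDepth 10000000 in
noncomputable def Tp : PT := (PT.nd (nat_lit 9202362) (PT.nd (nat_lit 8777964) (PT.nd (nat_lit 8194134) pc0 pc1) (PT.nd (nat_lit 265434) pc2 pc3)) (PT.nd (nat_lit 264732) (PT.nd (nat_lit 106002) pc4 pc5) (PT.nd (nat_lit 161304) pc6 pc7)))

set_option maxRecDepth 10000000 in
noncomputable def Tx : XT := (XT.nd (nat_lit 15756312) (nat_lit 0) (nat_lit 76) XT.nil (XT.nd (nat_lit 6479694) (nat_lit 0) (nat_lit 0) (XT.nd (nat_lit 2811588) (nat_lit 0) (nat_lit 0) (XT.nd (nat_lit 1959594) (nat_lit 0) (nat_lit 0) (XT.nd (nat_lit 1377792) (nat_lit 0) (nat_lit 0) (XT.nd (nat_lit 954720) (nat_lit 0) (nat_lit 0) (XT.nd (nat_lit 688506) (nat_lit 0) (nat_lit 0) (XT.nd (nat_lit 476892) (nat_lit 0) (nat_lit 0) (XT.nd (nat_lit 318240) (nat_lit 0) (nat_lit 0) xc0 xc1) (XT.nd (nat_lit 106080) (nat_lit 0) (nat_lit 0) xc2 xc3)) (XT.nd (nat_lit 158886) (nat_lit 0) (nat_lit 0) (XT.nd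 (nat_lit 54210) (nat_lit 0) (nat_lit 0) xc4 xc5) (XT.nd (nat_lit 53742) (nat_lit 0) (nat_lit 0) xc6 xc7))) (XT.nd (nat_lit 212784) (nat_lit 0) (nat_lit 0) (XT.nd (nat_lit 106704) (nat_lit 0) (nat_lit 0) (XT.nd (nat_lit 53430) (nat_lit 0) (nat_lit 0) xc8 xc9) (XT.nd (nat_lit 53118) (nat_lit 0) (nat_lit 0) xc10 xc11)) (XT.nd (nat_lit 105456) (nat_lit 0) (nat_lit 0) (XT.nd (nat_lit 52806) (nat_lit 0) (nat_lit 0) xc12 xc13) (XT.nd (nat_lit 52494) (nat_lit 0) (nat_lit 0) xc14 xc15)))) (XT.nd (nat_lit 317304) (nat_lit 0) (nat_lit 0) (XT.nd (nat_lit 159354) (nat_lit 0) (nat_lit 0) (XT.nd (nat_lit 55458) (nat_lit 0) (nat_lit 0) (XT.nd (nat_lit 52182) (nat_lit 0) (nat_lit 0) xc16 xc17) (XT.nd (nat_lit 52026) (nat_lit 0) (nat_lit 0) xc18 xc19)) (XT.nd (nat_lit 54990) (nat_lit 0) (nat_lit 0) (XT.nd (nat_lit 51714) (nat_lit 0) (nat_lit 0) xc20 xc21) (XT.nd (nat_lit 51558) (nat_lit 0) (nat_lit 0) xc22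 xc23))) (XT.nd (nat_lit 108888) (nat_lit 0) (nat_lit 0) (XT.nd (nat_lit 54522) (nat_lit 0) (nat_lit 0) (XT.nd (nat_lit 3276) (nat_lit 0) (nat_lit 0) xc24 xc25) (XT.nd (nat_lit 51090) (nat_lit 0) (nat_lit 0) xc26 xc27)) (XT.nd (nat_lit 54210) (nat_lit 0) (nat_lit 0) (XT.nd (nat_lit 50934) (nat_lit 0) (nat_lit 0) xc28 xc29) (XT.nd (nat_lit 50778) (nat_lit 0) (nat_lit 0) xc30 xc31))))) (XT.nd (nat_lit 425802) (nat_lit 0) (nat_lit 0) (XT.nd (nat_lit 214032) (nat_lit 0) (nat_lit 0) (XT.nd (nat_lit 107328) (nat_lit 0) (nat_lit 0) (XT.nd (nat_lit 53742) (nat_lit 0) (nat_lit 0) (XT.nd (nat_lit 3276) (nat_lit 0) (nat_lit 0) xc32 xc33) (XT.nd (nat_lit 3276) (nat_lit 0) (nat_lit 0) xc34 xc35)) (XT.nd (nat_lit 53430) (nat_lit 0) (nat_lit 0) (XT.nd (nat_lit 3276) (nat_lit 0) (nat_lit 0) xc36 xc37) (XT.nd (nat_lit 3276) (nat_lit 0) (nat_lit 0) xc38 xc39))) (XT.nd (nat_lit 106080) (nat_lit 0) (nat_lit 0)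 (XT.nd (nat_lit 53118) (nat_lit 0) (nat_lit 0) (XT.nd (nat_lit 3276) (nat_lit 0) (nat_lit 0) xc40 xc41) (XT.nd (nat_lit 3276) (nat_lit 0) (nat_lit 0) xc42 xc43)) (XT.nd (nat_lit 52806) (nat_lit 0) (nat_lit 0) (XT.nd (nat_lit 3276) (nat_lit 0) (nat_lit 0) xc44 xc45) (XT.nd (nat_lit 3276) (nat_lit 0) (nat_lit 0) xc46 xc47)))) (XT.nd (nat_lit 212316) (nat_lit 0) (nat_lit 0) (XT.nd (nat_lit 106002) (nat_lit 0) (nat_lit 0) (XT.nd (nat_lit 52962) (nat_lit 0) (nat_lit 0) (XT.nd (nat_lit 3276) (nat_lit 0) (nat_lit 0) xc48 xc49) (XT.nd (nat_lit 3276) (nat_lit 0) (nat_lit 0) xc50 xc51)) (XT.nd (nat_lit 53118) (nat_lit 0) (nat_lit 0) (XT.nd (nat_lit 3276) (nat_lit 76) (nat_lit 0) xc52 xc53) (XT.nd (nat_lit 3276) (nat_lit 76) (nat_lit 0) xc54 xc55))) (XT.nd (nat_lit 106782) (nat_lit 0) (nat_lit 0) (XT.nd (nat_lit 53352) (nat_lit 0) (nat_lit 0) (XT.nd (nat_lit 3276) (nat_lit 76) (nat_lit 0) xc56 xc57)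 (XT.nd (nat_lit 3276) (nat_lit 0) (nat_lit 0) xc58 xc59)) (XT.nd (nat_lit 53508) (nat_lit 0) (nat_lit 0) (XT.nd (nat_lit 3276) (nat_lit 0) (nat_lit 0) xc60 xc61) (XT.nd (nat_lit 3276) (nat_lit 0) (nat_lit 0) xc62 xc63)))))) (XT.nd (nat_lit 1064934) (nat_lit 0) (nat_lit 76) (XT.nd (nat_lit 480168) (nat_lit 0) (nat_lit 0) (XT.nd (nat_lit 215358) (nat_lit 0) (nat_lit 0) (XT.nd (nat_lit 107484) (nat_lit 0) (nat_lit 0) (XT.nd (nat_lit 53664) (nat_lit 0) (nat_lit 0) (XT.nd (nat_lit 3276) (nat_lit 0) (nat_lit 0) xc64 xc65) (XT.nd (nat_lit 50544) (nat_lit 0) (nat_lit 532) xc66 xc67)) (XT.nd (nat_lit 53898) (nat_lit 0) (nat_lit 0) (XT.nd (nat_lit 50622) (nat_lit 0) (nat_lit 228) xc68 xc69) (XT.nd (nat_lit 50700) (nat_lit 0) (nat_lit 0) xc70 xc71))) (XT.nd (nat_lit 156000) (nat_lit 0) (nat_lit 0) (XT.nd (nat_lit 101712) (nat_lit 0) (nat_lit 0) (XT.nd (nat_lit 50778) (nat_lit 0) (nat_lit 0) xc72 xc73)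 (XT.nd (nat_lit 3276) (nat_lit 532) (nat_lit 0) xc74 xc75)) (XT.nd (nat_lit 54366) (nat_lit 0) (nat_lit 0) (XT.nd (nat_lit 3276) (nat_lit 76) (nat_lit 0) xc76 xc77) (XT.nd (nat_lit 51168) (nat_lit 0) (nat_lit 304) xc78 xc79)))) (XT.nd (nat_lit 315432) (nat_lit 0) (nat_lit 76) (XT.nd (nat_lit 157248) (nat_lit 0) (nat_lit 0) (XT.nd (nat_lit 102570) (nat_lit 0) (nat_lit 0) (XT.nd (nat_lit 51246) (nat_lit 0) (nat_lit 0) xc80 xc81) (XT.nd (nat_lit 3276) (nat_lit 760) (nat_lit 0) xc82 xc83)) (XT.nd (nat_lit 54834) (nat_lit 0) (nat_lit 0) (XT.nd (nat_lit 3276) (nat_lit 0) (nat_lit 0) xc84 xc85) (XT.nd (nat_lit 51636) (nat_lit 0) (nat_lit 76) xc86 xc87))) (XT.nd (nat_lit 110214) (nat_lit 0) (nat_lit 0) (XT.nd (nat_lit 55068) (nat_lit 0) (nat_lit 0) (XT.nd (nat_lit 3276) (nat_lit 684) (nat_lit 0) xc88 xc89) (XT.nd (nat_lit 51870) (nat_lit 0) (nat_lit 228) xc90 xc91)) (XT.nd (nat_lit 103818) (nat_lit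 0) (nat_lit 0) (XT.nd (nat_lit 51870) (nat_lit 0) (nat_lit 0) xc92 xc93) (XT.nd (nat_lit 52026) (nat_lit 0) (nat_lit 608) xc94 xc95))))) (XT.nd (nat_lit 743106) (nat_lit 0) (nat_lit 912) (XT.nd (nat_lit 369642) (nat_lit 0) (nat_lit 380) (XT.nd (nat_lit 159822) (nat_lit 0) (nat_lit 152) (XT.nd (nat_lit 104286) (nat_lit 0) (nat_lit 152) (XT.nd (nat_lit 52104) (nat_lit 0) (nat_lit 152) xc96 xc97) (XT.nd (nat_lit 52260) (nat_lit 0) (nat_lit 228) xc98 xc99)) (XT.nd (nat_lit 104754) (nat_lit 0) (nat_lit 76) (XT.nd (nat_lit 52338) (nat_lit 0) (nat_lit 76) xc100 xc101) (XT.nd (nat_lit 52494) (nat_lit 0) (nat_lit 0) xc102 xc103))) (XT.nd (nat_lit 161460) (nat_lit 0) (nat_lit 76) (XT.nd (nat_lit 55926) (nat_lit 0) (nat_lit 0) (XT.nd (nat_lit 52650) (nat_lit 0) (nat_lit 228) xc104 xc105) (XT.nd (nat_lit 52728) (nat_lit 0) (nat_lit 76) xc106 xc107)) (XT.nd (nat_lit 105846) (nat_lit 0) (nat_lit 228) (XT.nd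 (nat_lit 52884) (nat_lit 0) (nat_lit 152) xc108 xc109) (XT.nd (nat_lit 53040) (nat_lit 0) (nat_lit 0) xc110 xc111)))) (XT.nd (nat_lit 531258) (nat_lit 0) (nat_lit 1596) (XT.nd (nat_lit 264186) (nat_lit 0) (nat_lit 684) (XT.nd (nat_lit 106626) (nat_lit 0) (nat_lit 228) (XT.nd (nat_lit 53274) (nat_lit 0) (nat_lit 152) xc112 xc113) (XT.nd (nat_lit 53508) (nat_lit 0) (nat_lit 152) xc114 xc115)) (XT.nd (nat_lit 107796) (nat_lit 0) (nat_lit 380) (XT.nd (nat_lit 53820) (nat_lit 0) (nat_lit 228) xc116 xc117) (XT.nd (nat_lit 104988) (nat_lit 0) (nat_lit 304) xc118 xc119))) (XT.nd (nat_lit 424554) (nat_lit 0) (nat_lit 1216) (XT.nd (nat_lit 211614) (nat_lit 0) (nat_lit 532) (XT.nd (nat_lit 105612) (nat_lit 0) (nat_lit 304) xc120 xc121) (XT.nd (nat_lit 54756) (nat_lit 0) (nat_lit 152) xc122 xc123)) (XT.nd (nat_lit 266292) (nat_lit 0) (nat_lit 684) (XT.nd (nat_lit 106938) (nat_lit 0) (nat_lit 228) xc124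 xc125) (XT.nd (nat_lit 212472) (nat_lit 0) (nat_lit 912) xc126 xc127))))))) XT.nil))

set_option maxRecDepth 10000000 in
noncomputable def Te : XT := XT.nil

set_option maxRecDepth 10000000 in
noncomputable def Tz : ZL := (ZL.cons (nat_lit 76) (nat_lit 3) (nat_lit 300483188951299197161) (ZL.cons (nat_lit 152) (nat_lit 6) (nat_lit 561892838543372489886) (ZL.cons (nat_lit 228) (nat_lit 6) (nat_lit 527939286718836758154) (ZL.cons (nat_lit 304) (nat_lit 3) (nat_lit 261415918141145342247) (ZL.cons (nat_lit 380) (nat_lit 6) (nat_lit 488892702120620666660) (ZL.cons (nat_lit 456) (nat_lit 3) (nat_lit 227485074135623109906) (ZL.cons (nat_lit 532) (nat_lit 6) (nat_lit 425507923030182178428) (ZL.cons (nat_lit 608) (nat_lit 6) (nat_lit 399929591555755550400) (ZL.cons (nat_lit 684) (nat_lit 3) (nat_lit 198033812626064514837) (ZL.cons (nat_lit 760) (nat_lit 6) (nat_lit 370514510360164928164) (ZL.cons (nat_lit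 836) (nat_lit 6) (nat_lit 348348626106403619742) (ZL.cons (nat_lit 912) (nat_lit 3) (nat_lit 172495197269016366077) (ZL.cons (nat_lit 988) (nat_lit 6) (nat_lit 322857859214578115058) (ZL.cons (nat_lit 1064) (nat_lit 6) (nat_lit 303683876524776964796) (ZL.cons (nat_lit 1140) (nat_lit 3) (nat_lit 150381837580488096491) (ZL.cons (nat_lit 1216) (nat_lit 6) (nat_lit 281633796431505641996) (ZL.cons (nat_lit 1292) (nat_lit 6) (nat_lit 265093942790155081756) (ZL.cons (nat_lit 1368) (nat_lit 3) (nat_lit 131277318628207640089) (ZL.cons (nat_lit 1444) (nat_lit 6) (nat_lit 246073111102601937482) (ZL.cons (nat_lit 1520) (nat_lit 6) (nat_lit 231866753327925787634) (ZL.cons (nat_lit 1596) (nat_lit 3) (nat_lit 114829330779728197479) (ZL.cons (nat_lit 1672) (nat_lit 6) (nat_lit 215529441887048215310) (ZL.cons (nat_lit 1748) (nat_lit 6) (nat_lit 203409010830917238504) (ZL.cons (nat_lit 1824) (nat_lit 3) (nat_lit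 100744465516124100696) (ZL.cons (nat_lit 1900) (nat_lit 6) (nat_lit 189470515116366615174) (ZL.cons (nat_lit 1976) (nat_lit 6) (nat_lit 179239051219310121276) (ZL.cons (nat_lit 2052) (nat_lit 3) (nat_lit 88784708305885914068) (ZL.cons (nat_lit 2128) (nat_lit 6) (nat_lit 167472867737695153290) (ZL.cons (nat_lit 2204) (nat_lit 6) (nat_lit 158983327320513351348) (ZL.cons (nat_lit 2280) (nat_lit 3) (nat_lit 78765735570022635179) (ZL.cons (nat_lit 2356) (nat_lit 6) (nat_lit 151934695656411995748) (ZL.cons (nat_lit 2432) (nat_lit 6) (nat_lit 149220355840754279116) (ZL.cons (nat_lit 2508) (nat_lit 6) (nat_lit 142376913062227355818) (ZL.cons (nat_lit 2584) (nat_lit 3) (nat_lit 70557214713518860088) (ZL.cons (nat_lit 2660) (nat_lit 6) (nat_lit 136867249358797669366) (ZL.cons (nat_lit 2736) (nat_lit 6) (nat_lit 134506953866921394030) (ZL.cons (nat_lit 2812) (nat_lit 6) (nat_lit 132583566962354638928)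 (ZL.cons (nat_lit 2888) (nat_lit 6) (nat_lit 129268652464663894298) (ZL.cons (nat_lit 2964) (nat_lit 3) (nat_lit 64085420303988627302) (ZL.cons (nat_lit 3040) (nat_lit 6) (nat_lit 125297036714568878594) (ZL.cons (nat_lit 3116) (nat_lit 6) (nat_lit 123244605852067769606) (ZL.cons (nat_lit 3192) (nat_lit 3) (nat_lit 60160248104228468906) (ZL.cons (nat_lit 3268) (nat_lit 6) (nat_lit 120866302723336155254) (ZL.cons (nat_lit 3344) (nat_lit 6) (nat_lit 122514401091091009652) (ZL.cons (nat_lit 3420) (nat_lit 6) (nat_lit 119631866745272970840) (ZL.cons (nat_lit 3496) (nat_lit 3) (nat_lit 59338623869729250773) (ZL.cons (nat_lit 3572) (nat_lit 6) (nat_lit 116088455254600033884) (ZL.cons (nat_lit 3648) (nat_lit 6) (nat_lit 117261939261590351380) (ZL.cons (nat_lit 3724) (nat_lit 6) (nat_lit 115477216772458952262) (ZL.cons (nat_lit 3800) (nat_lit 3) (nat_lit 56477113078714884825) (ZL.cons (nat_lit 3876)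 (nat_lit 6) (nat_lit 113581903649540869704) (ZL.cons (nat_lit 3952) (nat_lit 3) (nat_lit 56375900083111969940) (ZL.cons (nat_lit 4028) (nat_lit 6) (nat_lit 111402293558185074764) (ZL.cons (nat_lit 4104) (nat_lit 1) (nat_lit 18446744073709551617) ZL.nil))))))))))))))))))))))))))))))))))))))))))))))))))))))

noncomputable def vl : XL := ⟨(nat_lit 0), (nat_lit 76), (nat_lit 167545835), (nat_lit 152), (nat_lit 17591549), (nat_lit 152), (nat_lit 17591549), (nat_lit 1), (nat_lit 4), (nat_lit 2), (nat_lit 5), (nat_lit 2), (nat_lit 4), (nat_lit 0), (nat_lit 0), (nat_lit 0)⟩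

noncomputable def cp0 : Nat := (nat_lit 1679137505389956384915464275366398579785006438858425500862041302618128279616319165206015937325394928000613825509188979915527233990243177925375769026652499142029240684986526776854226291899758214734795092112999444431428130690601337588536946267590159218926482746031152306860354438355434421144694468316378647811924925798289900081373594483040865131143419975187381109382086788491344755852414252470671738153849999329649798197051352698755410742082103808099230287157080643272562519721959492292641649314082685707065818238707820728507256979056414699134408321787284991147400000015516016868751062910300849083032948041296263127432927685877110817195237000522583226164653024085635109844040292136276066462906961237147008443284196272437936679663090146531695260352244982870375887573002400662136652312877406675430570870222130797726536246907005661075170454587217396802028282559837082930466422881070136302610281359236794978847756184630971649108613906618957721044366293304392115123747626182938416456443691708297364618967011842394602765201182308439829558730123209679821058591687414693809263279691604112134764086127071064716732064184042371922206570722409573603413013699177049631834232008448831452061747111928256671923420095289674180407352380820154734850253780617476592271466954752)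

noncomputable def cp1 : Nat := (nat_lit 33697773316208449225109512660038867965885093170159053522382703557017931227945644016759234219671647114935337113609328617848384596571682750548577874396523262487796847267497045819972451762419412530606874243516431798744099487305512993715448121438033004038959790957480737989076109967346578792722239526765957455382444388699214341120483649081864916252791887277253335199331216180689829043091294880992595553504185492116199218589580226296426505223242458329294306218717395019205900674016496882303392384675593250697018390871229313495777153738338359289414017727622092108374404993155828845152816991825078237411060782603702890439615549307000936806985671402522297267093640429518394602431912865027550214346796355353593991106495738466436798430235888022251977887369436946723739769067930572331426488232415960859531469319546975474579754574525906002635924286283916517185423956755128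68404091690840771420361670284028678055784295965483819491458617172863259258650653506997776696788133374050752958661595751388438669490384811257433145600396903881598261698138486351716812625886025094644719487609007837208735360663702182284600079622208936575181339621205533394137544813578212452761034197704196689832412584153363027583473484627827708227142992075984788344466768678363284308404415725190698389040836195188379679518450764252804437267805141573477877087022473855737681841864566410715797107899743327893936324626437538063369364614704984619796950751997303087610427043622593385297391362610406603272032703100680957915208706004304218682481965451151873117635110215138849860121363390013837073183041349456839594705795962181559789299144346700659049230875502556727786984849061571123778928288295641997755106077777760703623143870074895219793017511917552551845222183794912734583923304849047961308545788393525465798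0316450356835108118055403718243763868500116507263489769532697558397970107234356205670633531874833802864461554873384163496781462333688809960252046398267444043501201203706720482236641970104347117348258910037285624466307512544655742003061494668153046270467194813001147485253591388876242002584445779623243213030722476273214409814148478091068688571082046286696193442311318093924503104330409551515722954443595641462942633281166482326800562618328901337478650516892358483986602417061640544171389757567453410346084004515957715681216838440342057250130062842722340359545872097522785712657303614479355188761473752055933972285995706783669774134281025528810408449274213384584902943755007034758947109715077450916132303320835130515423858923758721750717431055084711633256617166774036397652281126050740146266488939665547763900267028795157069157161721733597789466670247438115863567527091467489366513921122275324162991899310254711465455917472257601961984)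

noncomputable def rc0 : Nat := (nat_lit 33697773316208449225109512660038867965885093170159053522382703557017931227945644016759234219671647114935337113609328617848384596571682750548577874396523262487796847267497045819972451762419412530606874243516431798744099487305512993715448121438033004038959790957480737989076109967346578792722239526765957455382444388699214341120483649081864916252791887277253335199331216180689829043091294880992595553504185492116199218589580226296426505223242458329294306218717395019205900674016496882303392384675593250697018390871229313495777153738338359289414017727622092108374404993155828845152816991825078237411060782603702890439615549307000936806985671402522297267093640429518394602431912865027550214346796355353593991106495738466436798430235888022251977887369436946723739769067930572331426488232415960859531469319546975474579754574525906002635924286283916517185423956755128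68404091690840771420361670284028678055784295965483819491458617172863259258650653506997776696788133374050752958661595751388438669490384811257433145600396903881598261698138486351716812625886025094644719487609007837208735360663702182284600079622208936575181339621205533394137544813578212452761034197704196689832412584153363027583473484627827708227142992075984788344466768678363284308404415725190698389040836195188379679518450764252804437267805141573477877087022473855737681841864566410715797107899743327893936324626437538063369364614704984619796950751997303087610427043622593385297391362610406603272032703100680957915208706004304218682481965451151873117635110215138849860121363390013837073183041349456839594705795962181559789299144346700659049230875502556727786984849061571123778928288295641997755106077777760703623143870074895219793017511917552551845222183794912734583923304849047961308545788393525465798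0316450356835108118055403718243763868500116507263489769532697558397970107234356205670633531874833802864461554873384163496781462333688809960252046398267444043501201203706720482236641970104347117348258910037285624466307512544655742003061494668153046270467194813001147485253591388876242002584445779623243213030722476273214409814148478091068688571082046286696193442311318093924503104330409551515722954443595641462942633281166482326800562618328901337478650516892358483986602417061640544171389757567453410346084004515957715681216838440342057250130062842722340359545872097522785712657303614479355188761473752055933972285995706783669774134281025528810408449274213384584902943755007034758947109715077450916132303320835130515423858923758721750717431055084711633256617166774036397652281126050740146266488939665547763900267028795157069157161721733597789466670247438115863567527091467489366513921122275324162991899310254711465455917472257601961984)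

end Vale.Agent.Lib.P154.PChain.BB.S1
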