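import Vale.Agent.Lib.P154.PChain.BB.R1_0

set_option linter.all false

namespace Vale.Agent.Lib.P154.PChain.BB.S2

open Vale.Agent.Lib.P154.Chain

noncomputable def pc0 : PT := (PT.nd (nat_lit 9638928) (PT.nd (nat_lit 9389250) (PT.nd (nat_lit 9264372) (PT.nd (nat_lit 9201972) (PT.nd (nat_lit 9201894) (PT.nd (nat_lit 9139494) PT.nil (PT.lf (nat_lit 76) (nat_lit 3) (nat_lit 1) (nat_lit 1) (nat_lit 227) (nat_lit 146) (nat_lit 227))) (PT.lf (nat_lit 152) (nat_lit 6) (nat_lit 2) (nat_lit 3) (nat_lit 226) (nat_lit 147) (nat_lit 227))) (PT.nd (nat_lit 62322) (PT.lf (nat_lit 152) (nat_lit 6) (nat_lit 2) (nat_lit 1) (nat_lit 227) (nat_lit 147) (nat_lit 226)) (PT.lf (nat_lit 228) (nat_lit 6) (nat_lit 3) (nat_lit 3) (nat_lit 225) (nat_lit 148) (nat_lit 227)))) (PT.nd (nat_lit 62400) (PT.nd (nat_lit 78) (PT.lf (nat_lit 304) (nat_lit 3) (nat_lit 4) (nat_lit 1) (nat_lit 226) (nat_lit 148) (nat_lit 226))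 (PT.lf (nat_lit 228) (nat_lit 6) (nat_lit 3) (nat_lit 1) (nat_lit 227) (nat_lit 148) (nat_lit 225))) (PT.nd (nat_lit 78) (PT.lf (nat_lit 380) (nat_lit 6) (nat_lit 5) (nat_lit 3) (nat_lit 225) (nat_lit 149) (nat_lit 226)) (PT.nd (nat_lit 62322) (PT.lf (nat_lit 380) (nat_lit 6) (nat_lit 5) (nat_lit 1) (nat_lit 226) (nat_lit 149) (nat_lit 225)) (PT.lf (nat_lit 456) (nat_lit 6) (nat_lit 6) (nat_lit 3) (nat_lit 224) (nat_lit 150) (nat_lit 226)))))) (PT.nd (nat_lit 124800) (PT.nd (nat_lit 62400) (PT.nd (nat_lit 78) (PT.lf (nat_lit 532) (nat_lit 3) (nat_lit 7) (nat_lit 1) (nat_lit 225) (nat_lit 150) (nat_lit 225)) (PT.lf (nat_lit 456) (nat_lit 6) (nat_lit 6) (nat_lit 1) (nat_lit 226) (nat_lit 150) (nat_lit 224))) (PT.nd (nat_lit 78) (PT.lf (nat_lit 608) (nat_lit 6) (nat_lit 8) (nat_lit 3) (nat_lit 224) (nat_lit 151) (nat_lit 225)) (PT.lf (nat_lit 608) (nat_lit 6) (nat_lit 8) (nat_lit 1) (nat_lit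 225) (nat_lit 151) (nat_lit 224)))) (PT.nd (nat_lit 156) (PT.nd (nat_lit 78) (PT.lf (nat_lit 684) (nat_lit 6) (nat_lit 9) (nat_lit 3) (nat_lit 223) (nat_lit 152) (nat_lit 225)) (PT.lf (nat_lit 760) (nat_lit 3) (nat_lit 10) (nat_lit 1) (nat_lit 224) (nat_lit 152) (nat_lit 224))) (PT.nd (nat_lit 62322) (PT.lf (nat_lit 684) (nat_lit 6) (nat_lit 9) (nat_lit 1) (nat_lit 225) (nat_lit 152) (nat_lit 223)) (PT.nd (nat_lit 78) (PT.lf (nat_lit 836) (nat_lit 6) (nat_lit 11) (nat_lit 3) (nat_lit 223) (nat_lit 153) (nat_lit 224)) (PT.lf (nat_lit 836) (nat_lit 6) (nat_lit 11) (nat_lit 1) (nat_lit 224) (nat_lit 153) (nat_lit 223))))))) (PT.nd (nat_lit 187434) (PT.nd (nat_lit 62556) (PT.nd (nat_lit 156) (PT.nd (nat_lit 78) (PT.lf (nat_lit 912) (nat_lit 6) (nat_lit 12) (nat_lit 3) (nat_lit 222) (nat_lit 154) (nat_lit 224)) (PT.lf (nat_lit 988) (nat_lit 3) (nat_lit 13) (nat_lit 1) (nat_lit 223) (nat_lit 154)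 (nat_lit 223))) (PT.nd (nat_lit 62322) (PT.lf (nat_lit 912) (nat_lit 6) (nat_lit 12) (nat_lit 1) (nat_lit 224) (nat_lit 154) (nat_lit 222)) (PT.lf (nat_lit 1064) (nat_lit 6) (nat_lit 14) (nat_lit 3) (nat_lit 222) (nat_lit 155) (nat_lit 223)))) (PT.nd (nat_lit 62400) (PT.nd (nat_lit 62322) (PT.lf (nat_lit 1064) (nat_lit 6) (nat_lit 14) (nat_lit 1) (nat_lit 223) (nat_lit 155) (nat_lit 222)) (PT.lf (nat_lit 1140) (nat_lit 6) (nat_lit 15) (nat_lit 3) (nat_lit 221) (nat_lit 156) (nat_lit 223))) (PT.nd (nat_lit 78) (PT.lf (nat_lit 1216) (nat_lit 3) (nat_lit 16) (nat_lit 1) (nat_lit 222) (nat_lit 156) (nat_lit 222)) (PT.nd (nat_lit 62322) (PT.lf (nat_lit 1140) (nat_lit 6) (nat_lit 15) (nat_lit 1) (nat_lit 223) (nat_lit 156) (nat_lit 221)) (PT.lf (nat_lit 1292) (nat_lit 6) (nat_lit 17) (nat_lit 3) (nat_lit 221) (nat_lit 157) (nat_lit 222)))))) (PT.nd (nat_lit 124878) (PT.nd (nat_lit 62400) (PT.nd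 (nat_lit 62322) (PT.lf (nat_lit 1292) (nat_lit 6) (nat_lit 17) (nat_lit 1) (nat_lit 222) (nat_lit 157) (nat_lit 221)) (PT.lf (nat_lit 1368) (nat_lit 6) (nat_lit 18) (nat_lit 3) (nat_lit 220) (nat_lit 158) (nat_lit 222))) (PT.nd (nat_lit 78) (PT.lf (nat_lit 1444) (nat_lit 3) (nat_lit 19) (nat_lit 1) (nat_lit 221) (nat_lit 158) (nat_lit 221)) (PT.nd (nat_lit 62322) (PT.lf (nat_lit 1368) (nat_lit 6) (nat_lit 18) (nat_lit 1) (nat_lit 222) (nat_lit 158) (nat_lit 220)) (PT.lf (nat_lit 1520) (nat_lit 6) (nat_lit 20) (nat_lit 3) (nat_lit 220) (nat_lit 159) (nat_lit 221))))) (PT.nd (nat_lit 62400) (PT.nd (nat_lit 62322) (PT.lf (nat_lit 1520) (nat_lit 6) (nat_lit 20) (nat_lit 1) (nat_lit 221) (nat_lit 159) (nat_lit 220)) (PT.lf (nat_lit 1596) (nat_lit 6) (nat_lit 21) (nat_lit 3) (nat_lit 219) (nat_lit 160) (nat_lit 221))) (PT.nd (nat_lit 78) (PT.lf (nat_lit 1672) (nat_lit 3) (nat_lit 22) (nat_lit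 1) (nat_lit 220) (nat_lit 160) (nat_lit 220)) (PT.nd (nat_lit 62322) (PT.lf (nat_lit 1596) (nat_lit 6) (nat_lit 21) (nat_lit 1) (nat_lit 221) (nat_lit 160) (nat_lit 219)) (PT.lf (nat_lit 1748) (nat_lit 6) (nat_lit 23) (nat_lit 3) (nat_lit 219) (nat_lit 161) (nat_lit 220))))))))
noncomputable def pc1 : PT := (PT.nd (nat_lit 499434) (PT.nd (nat_lit 249678) (PT.nd (nat_lit 124800) (PT.nd (nat_lit 62400) (PT.nd (nat_lit 62322) (PT.lf (nat_lit 1748) (nat_lit 6) (nat_lit 23) (nat_lit 1) (nat_lit 220) (nat_lit 161) (nat_lit 219)) (PT.lf (nat_lit 1824) (nat_lit 6) (nat_lit 24) (nat_lit 3) (nat_lit 218) (nat_lit 162) (nat_lit 220))) (PT.nd (nat_lit 78) (PT.lf (nat_lit 1900) (nat_lit 3) (nat_lit 25) (nat_lit 1) (nat_lit 219) (nat_lit 162) (nat_lit 219)) (PT.lf (nat_lit 1824) (nat_lit 6) (nat_lit 24) (nat_lit 1) (nat_lit 220) (nat_lit 162) (nat_lit 218)))) (PT.nd (nat_lit 62400) (PT.nd (nat_lit 78)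 (PT.lf (nat_lit 1976) (nat_lit 6) (nat_lit 26) (nat_lit 3) (nat_lit 218) (nat_lit 163) (nat_lit 219)) (PT.lf (nat_lit 1976) (nat_lit 6) (nat_lit 26) (nat_lit 1) (nat_lit 219) (nat_lit 163) (nat_lit 218))) (PT.nd (nat_lit 78) (PT.lf (nat_lit 2052) (nat_lit 6) (nat_lit 27) (nat_lit 3) (nat_lit 217) (nat_lit 164) (nat_lit 219)) (PT.nd (nat_lit 78) (PT.lf (nat_lit 2128) (nat_lit 3) (nat_lit 28) (nat_lit 1) (nat_lit 218) (nat_lit 164) (nat_lit 218)) (PT.lf (nat_lit 2052) (nat_lit 6) (nat_lit 27) (nat_lit 1) (nat_lit 219) (nat_lit 164) (nat_lit 217)))))) (PT.nd (nat_lit 124878) (PT.nd (nat_lit 62400) (PT.nd (nat_lit 78) (PT.lf (nat_lit 2204) (nat_lit 6) (nat_lit 29) (nat_lit 3) (nat_lit 217) (nat_lit 165) (nat_lit 218)) (PT.lf (nat_lit 2204) (nat_lit 6) (nat_lit 29) (nat_lit 1) (nat_lit 218) (nat_lit 165) (nat_lit 217))) (PT.nd (nat_lit 78) (PT.lf (nat_lit 2280) (nat_lit 6) (nat_lit 30) (nat_lit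 3) (nat_lit 216) (nat_lit 166) (nat_lit 218)) (PT.nd (nat_lit 78) (PT.lf (nat_lit 2356) (nat_lit 3) (nat_lit 31) (nat_lit 1) (nat_lit 217) (nat_lit 166) (nat_lit 217)) (PT.lf (nat_lit 2280) (nat_lit 6) (nat_lit 30) (nat_lit 1) (nat_lit 218) (nat_lit 166) (nat_lit 216))))) (PT.nd (nat_lit 62400) (PT.nd (nat_lit 78) (PT.lf (nat_lit 2432) (nat_lit 6) (nat_lit 32) (nat_lit 3) (nat_lit 216) (nat_lit 167) (nat_lit 217)) (PT.lf (nat_lit 2432) (nat_lit 6) (nat_lit 32) (nat_lit 1) (nat_lit 217) (nat_lit 167) (nat_lit 216))) (PT.nd (nat_lit 78) (PT.lf (nat_lit 2508) (nat_lit 6) (nat_lit 33) (nat_lit 3) (nat_lit 215) (nat_lit 168) (nat_lit 217)) (PT.nd (nat_lit 78) (PT.lf (nat_lit 2584) (nat_lit 3) (nat_lit 34) (nat_lit 1) (nat_lit 216) (nat_lit 168) (nat_lit 216)) (PT.lf (nat_lit 2508) (nat_lit 6) (nat_lit 33) (nat_lit 1) (nat_lit 217) (nat_lit 168) (nat_lit 215))))))) (PT.nd (nat_lit 187434) (PT.nd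 (nat_lit 62556) (PT.nd (nat_lit 62400) (PT.nd (nat_lit 78) (PT.lf (nat_lit 2660) (nat_lit 6) (nat_lit 35) (nat_lit 3) (nat_lit 215) (nat_lit 169) (nat_lit 216)) (PT.lf (nat_lit 2660) (nat_lit 6) (nat_lit 35) (nat_lit 1) (nat_lit 216) (nat_lit 169) (nat_lit 215))) (PT.nd (nat_lit 78) (PT.lf (nat_lit 2736) (nat_lit 6) (nat_lit 36) (nat_lit 3) (nat_lit 214) (nat_lit 170) (nat_lit 216)) (PT.lf (nat_lit 2812) (nat_lit 3) (nat_lit 37) (nat_lit 1) (nat_lit 215) (nat_lit 170) (nat_lit 215)))) (PT.nd (nat_lit 62400) (PT.nd (nat_lit 62322) (PT.lf (nat_lit 2736) (nat_lit 6) (nat_lit 36) (nat_lit 1) (nat_lit 216) (nat_lit 170) (nat_lit 214)) (PT.lf (nat_lit 2888) (nat_lit 6) (nat_lit 38) (nat_lit 3) (nat_lit 214) (nat_lit 171) (nat_lit 215))) (PT.nd (nat_lit 62322) (PT.lf (nat_lit 2888) (nat_lit 6) (nat_lit 38) (nat_lit 1) (nat_lit 215) (nat_lit 171) (nat_lit 214)) (PT.nd (nat_lit 78) (PT.lf (nat_lit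 2964) (nat_lit 6) (nat_lit 39) (nat_lit 3) (nat_lit 213) (nat_lit 172) (nat_lit 215)) (PT.lf (nat_lit 3040) (nat_lit 3) (nat_lit 40) (nat_lit 1) (nat_lit 214) (nat_lit 172) (nat_lit 214)))))) (PT.nd (nat_lit 124878) (PT.nd (nat_lit 62400) (PT.nd (nat_lit 62322) (PT.lf (nat_lit 2964) (nat_lit 6) (nat_lit 39) (nat_lit 1) (nat_lit 215) (nat_lit 172) (nat_lit 213)) (PT.lf (nat_lit 3116) (nat_lit 6) (nat_lit 41) (nat_lit 3) (nat_lit 213) (nat_lit 173) (nat_lit 214))) (PT.nd (nat_lit 62322) (PT.lf (nat_lit 3116) (nat_lit 6) (nat_lit 41) (nat_lit 1) (nat_lit 214) (nat_lit 173) (nat_lit 213)) (PT.nd (nat_lit 78) (PT.lf (nat_lit 3192) (nat_lit 6) (nat_lit 42) (nat_lit 3) (nat_lit 212) (nat_lit 174) (nat_lit 214)) (PT.lf (nat_lit 3268) (nat_lit 3) (nat_lit 43) (nat_lit 1) (nat_lit 213) (nat_lit 174) (nat_lit 213))))) (PT.nd (nat_lit 62400) (PT.nd (nat_lit 62322) (PT.lf (nat_lit 3192) (nat_lit 6) (nat_lit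 42) (nat_lit 1) (nat_lit 214) (nat_lit 174) (nat_lit 212)) (PT.lf (nat_lit 3344) (nat_lit 6) (nat_lit 44) (nat_lit 3) (nat_lit 212) (nat_lit 175) (nat_lit 213))) (PT.nd (nat_lit 62322) (PT.lf (nat_lit 3344) (nat_lit 6) (nat_lit 44) (nat_lit 1) (nat_lit 213) (nat_lit 175) (nat_lit 212)) (PT.nd (nat_lit 78) (PT.lf (nat_lit 3420) (nat_lit 6) (nat_lit 45) (nat_lit 3) (nat_lit 211) (nat_lit 176) (nat_lit 213)) (PT.lf (nat_lit 3496) (nat_lit 3) (nat_lit 46) (nat_lit 1) (nat_lit 212) (nat_lit 176) (nat_lit 212))))))))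
noncomputable def pc2 : PT := (PT.nd (nat_lit 374634) (PT.nd (nat_lit 187356) (PT.nd (nat_lit 124800) (PT.nd (nat_lit 62400) (PT.nd (nat_lit 62322) (PT.lf (nat_lit 3420) (nat_lit 6) (nat_lit 45) (nat_lit 1) (nat_lit 213) (nat_lit 176) (nat_lit 211)) (PT.lf (nat_lit 3572) (nat_lit 6) (nat_lit 47) (nat_lit 3) (nat_lit 211) (nat_lit 177) (nat_lit 212))) (PT.nd (nat_lit 62322) (PT.lf (nat_lit 3572) (nat_lit 6) (nat_lit 47) (nat_lit 1) (nat_lit 212) (nat_lit 177) (nat_lit 211)) (PT.lf (nat_lit 3648) (nat_lit 6) (nat_lit 48) (nat_lit 3) (nat_lit 210) (nat_lit 178) (nat_lit 212)))) (PT.nd (nat_lit 62322) (PT.nd (nat_lit 78) (PT.lf (nat_lit 3724) (nat_lit 3) (nat_lit 49) (nat_lit 1) (nat_lit 211) (nat_lit 178) (nat_lit 211)) (PT.lf (nat_lit 3648) (nat_lit 6) (nat_lit 48) (nat_lit 1) (nat_lit 212) (nat_lit 178) (nat_lit 210))) (PT.nd (nat_lit 78) (PT.lf (nat_lit 3800) (nat_lit 6) (nat_lit 50) (nat_lit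 3) (nat_lit 209) (nat_lit 179) (nat_lit 212)) (PT.nd (nat_lit 78) (PT.lf (nat_lit 3876) (nat_lit 6) (nat_lit 51) (nat_lit 3) (nat_lit 210) (nat_lit 179) (nat_lit 211)) (PT.lf (nat_lit 3876) (nat_lit 6) (nat_lit 51) (nat_lit 1) (nat_lit 211) (nat_lit 179) (nat_lit 210)))))) (PT.nd (nat_lit 124722) (PT.nd (nat_lit 62322) (PT.nd (nat_lit 62244) (PT.lf (nat_lit 3800) (nat_lit 6) (nat_lit 50) (nat_lit 1) (nat_lit 212) (nat_lit 179) (nat_lit 209)) (PT.lf (nat_lit 3952) (nat_lit 6) (nat_lit 52) (nat_lit 3) (nat_lit 209) (nat_lit 180) (nat_lit 211))) (PT.nd (nat_lit 78) (PT.lf (nat_lit 4028) (nat_lit 3) (nat_lit 53) (nat_lit 1) (nat_lit 210) (nat_lit 180) (nat_lit 210)) (PT.nd (nat_lit 62244) (PT.lf (nat_lit 3952) (nat_lit 6) (nat_lit 52) (nat_lit 1) (nat_lit 211) (nat_lit 180) (nat_lit 209)) (PT.lf (nat_lit 4104) (nat_lit 6) (nat_lit 54) (nat_lit 3) (nat_lit 208) (nat_lit 181) (nat_lit 211)))))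 (PT.nd (nat_lit 156) (PT.nd (nat_lit 78) (PT.lf (nat_lit 4180) (nat_lit 6) (nat_lit 55) (nat_lit 3) (nat_lit 209) (nat_lit 181) (nat_lit 210)) (PT.lf (nat_lit 4180) (nat_lit 6) (nat_lit 55) (nat_lit 1) (nat_lit 210) (nat_lit 181) (nat_lit 209))) (PT.nd (nat_lit 62244) (PT.lf (nat_lit 4104) (nat_lit 6) (nat_lit 54) (nat_lit 1) (nat_lit 211) (nat_lit 181) (nat_lit 208)) (PT.nd (nat_lit 78) (PT.lf (nat_lit 4256) (nat_lit 6) (nat_lit 56) (nat_lit 3) (nat_lit 208) (nat_lit 182) (nat_lit 210)) (PT.lf (nat_lit 4332) (nat_lit 3) (nat_lit 57) (nat_lit 1) (nat_lit 209) (nat_lit 182) (nat_lit 209))))))) (PT.nd (nat_lit 187200) (PT.nd (nat_lit 62478) (PT.nd (nat_lit 62322) (PT.nd (nat_lit 62244) (PT.lf (nat_lit 4256) (nat_lit 6) (nat_lit 56) (nat_lit 1) (nat_lit 210) (nat_lit 182) (nat_lit 208)) (PT.lf (nat_lit 4408) (nat_lit 6) (nat_lit 58) (nat_lit 3) (nat_lit 207) (nat_lit 183) (nat_lit 210))) (PT.nd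 (nat_lit 78) (PT.lf (nat_lit 4484) (nat_lit 6) (nat_lit 59) (nat_lit 3) (nat_lit 208) (nat_lit 183) (nat_lit 209)) (PT.lf (nat_lit 4484) (nat_lit 6) (nat_lit 59) (nat_lit 1) (nat_lit 209) (nat_lit 183) (nat_lit 208)))) (PT.nd (nat_lit 62322) (PT.nd (nat_lit 62244) (PT.lf (nat_lit 4408) (nat_lit 6) (nat_lit 58) (nat_lit 1) (nat_lit 210) (nat_lit 183) (nat_lit 207)) (PT.lf (nat_lit 4560) (nat_lit 6) (nat_lit 60) (nat_lit 3) (nat_lit 207) (nat_lit 184) (nat_lit 209))) (PT.nd (nat_lit 78) (PT.lf (nat_lit 4636) (nat_lit 3) (nat_lit 61) (nat_lit 1) (nat_lit 208) (nat_lit 184) (nat_lit 208)) (PT.nd (nat_lit 62244) (PT.lf (nat_lit 4560) (nat_lit 6) (nat_lit 60) (nat_lit 1) (nat_lit 209) (nat_lit 184) (nat_lit 207)) (PT.lf (nat_lit 4712) (nat_lit 6) (nat_lit 62) (nat_lit 3) (nat_lit 206) (nat_lit 185) (nat_lit 209)))))) (PT.nd (nat_lit 62478) (PT.nd (nat_lit 156) (PT.nd (nat_lit 78) (PT.lf (nat_lit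 4788) (nat_lit 6) (nat_lit 63) (nat_lit 3) (nat_lit 207) (nat_lit 185) (nat_lit 208)) (PT.lf (nat_lit 4788) (nat_lit 6) (nat_lit 63) (nat_lit 1) (nat_lit 208) (nat_lit 185) (nat_lit 207))) (PT.nd (nat_lit 62166) (PT.lf (nat_lit 4712) (nat_lit 6) (nat_lit 62) (nat_lit 1) (nat_lit 209) (nat_lit 185) (nat_lit 206)) (PT.nd (nat_lit 78) (PT.lf (nat_lit 4864) (nat_lit 6) (nat_lit 64) (nat_lit 3) (nat_lit 205) (nat_lit 186) (nat_lit 209)) (PT.lf (nat_lit 4940) (nat_lit 6) (nat_lit 65) (nat_lit 3) (nat_lit 206) (nat_lit 186) (nat_lit 208))))) (PT.nd (nat_lit 156) (PT.nd (nat_lit 78) (PT.lf (nat_lit 5016) (nat_lit 3) (nat_lit 66) (nat_lit 1) (nat_lit 207) (nat_lit 186) (nat_lit 207)) (PT.lf (nat_lit 4940) (nat_lit 6) (nat_lit 65) (nat_lit 1) (nat_lit 208) (nat_lit 186) (nat_lit 206))) (PT.nd (nat_lit 62166) (PT.lf (nat_lit 4864) (nat_lit 6) (nat_lit 64) (nat_lit 1) (nat_lit 209) (nat_lit 186) (nat_lit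 205)) (PT.nd (nat_lit 78) (PT.lf (nat_lit 5092) (nat_lit 6) (nat_lit 67) (nat_lit 3) (nat_lit 205) (nat_lit 187) (nat_lit 208)) (PT.lf (nat_lit 5168) (nat_lit 6) (nat_lit 68) (nat_lit 3) (nat_lit 206) (nat_lit 187) (nat_lit 207))))))))
noncomputable def pc3 : PT := (PT.nd (nat_lit 187512) (PT.nd (nat_lit 124800) (PT.nd (nat_lit 62400) (PT.nd (nat_lit 62244) (PT.nd (nat_lit 78) (PT.lf (nat_lit 5168) (nat_lit 6) (nat_lit 68) (nat_lit 1) (nat_lit 207) (nat_lit 187) (nat_lit 206)) (PT.lf (nat_lit 5092) (nat_lit 6) (nat_lit 67) (nat_lit 1) (nat_lit 208) (nat_lit 187) (nat_lit 205))) (PT.nd (nat_lit 78) (PT.lf (nat_lit 5244) (nat_lit 6) (nat_lit 69) (nat_lit 3) (nat_lit 204) (nat_lit 188) (nat_lit 208)) (PT.lf (nat_lit 5320) (nat_lit 6) (nat_lit 70) (nat_lit 3) (nat_lit 205) (nat_lit 188) (nat_lit 207)))) (PT.nd (nat_lit 156) (PT.nd (nat_lit 78) (PT.lf (nat_lit 5396) (nat_lit 3) (nat_lit 71) (nat_lit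 1) (nat_lit 206) (nat_lit 188) (nat_lit 206)) (PT.lf (nat_lit 5320) (nat_lit 6) (nat_lit 70) (nat_lit 1) (nat_lit 207) (nat_lit 188) (nat_lit 205))) (PT.nd (nat_lit 62088) (PT.lf (nat_lit 5244) (nat_lit 6) (nat_lit 69) (nat_lit 1) (nat_lit 208) (nat_lit 188) (nat_lit 204)) (PT.nd (nat_lit 78) (PT.lf (nat_lit 5472) (nat_lit 6) (nat_lit 72) (nat_lit 3) (nat_lit 203) (nat_lit 189) (nat_lit 208)) (PT.lf (nat_lit 5548) (nat_lit 6) (nat_lit 73) (nat_lit 3) (nat_lit 204) (nat_lit 189) (nat_lit 207)))))) (PT.nd (nat_lit 62322) (PT.nd (nat_lit 156) (PT.nd (nat_lit 78) (PT.lf (nat_lit 5624) (nat_lit 6) (nat_lit 74) (nat_lit 3) (nat_lit 205) (nat_lit 189) (nat_lit 206)) (PT.lf (nat_lit 5624) (nat_lit 6) (nat_lit 74) (nat_lit 1) (nat_lit 206) (nat_lit 189) (nat_lit 205))) (PT.nd (nat_lit 78) (PT.lf (nat_lit 5548) (nat_lit 6) (nat_lit 73) (nat_lit 1) (nat_lit 207) (nat_lit 189) (nat_lit 204)) (PT.nd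 (nat_lit 62010) (PT.lf (nat_lit 5472) (nat_lit 6) (nat_lit 72) (nat_lit 1) (nat_lit 208) (nat_lit 189) (nat_lit 203)) (PT.lf (nat_lit 5700) (nat_lit 6) (nat_lit 75) (nat_lit 3) (nat_lit 202) (nat_lit 190) (nat_lit 208))))) (PT.nd (nat_lit 156) (PT.nd (nat_lit 78) (PT.lf (nat_lit 5776) (nat_lit 6) (nat_lit 76) (nat_lit 3) (nat_lit 203) (nat_lit 190) (nat_lit 207)) (PT.lf (nat_lit 5852) (nat_lit 6) (nat_lit 77) (nat_lit 3) (nat_lit 204) (nat_lit 190) (nat_lit 206))) (PT.nd (nat_lit 78) (PT.lf (nat_lit 5928) (nat_lit 3) (nat_lit 78) (nat_lit 1) (nat_lit 205) (nat_lit 190) (nat_lit 205)) (PT.nd (nat_lit 78) (PT.lf (nat_lit 5852) (nat_lit 6) (nat_lit 77) (nat_lit 1) (nat_lit 206) (nat_lit 190) (nat_lit 204)) (PT.lf (nat_lit 5776) (nat_lit 6) (nat_lit 76) (nat_lit 1) (nat_lit 207) (nat_lit 190) (nat_lit 203))))))) (PT.nd (nat_lit 124566) (PT.nd (nat_lit 62244) (PT.nd (nat_lit 62088) (PT.nd (nat_lit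 62010) (PT.lf (nat_lit 5700) (nat_lit 6) (nat_lit 75) (nat_lit 1) (nat_lit 208) (nat_lit 190) (nat_lit 202)) (PT.lf (nat_lit 6004) (nat_lit 6) (nat_lit 79) (nat_lit 3) (nat_lit 202) (nat_lit 191) (nat_lit 207))) (PT.nd (nat_lit 78) (PT.lf (nat_lit 6080) (nat_lit 6) (nat_lit 80) (nat_lit 3) (nat_lit 203) (nat_lit 191) (nat_lit 206)) (PT.lf (nat_lit 6156) (nat_lit 6) (nat_lit 81) (nat_lit 3) (nat_lit 204) (nat_lit 191) (nat_lit 205)))) (PT.nd (nat_lit 156) (PT.nd (nat_lit 78) (PT.lf (nat_lit 6156) (nat_lit 6) (nat_lit 81) (nat_lit 1) (nat_lit 205) (nat_lit 191) (nat_lit 204)) (PT.lf (nat_lit 6080) (nat_lit 6) (nat_lit 80) (nat_lit 1) (nat_lit 206) (nat_lit 191) (nat_lit 203))) (PT.nd (nat_lit 62010) (PT.lf (nat_lit 6004) (nat_lit 6) (nat_lit 79) (nat_lit 1) (nat_lit 207) (nat_lit 191) (nat_lit 202)) (PT.nd (nat_lit 78) (PT.lf (nat_lit 6232) (nat_lit 6) (nat_lit 82) (nat_lit 3) (nat_lit 201)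 (nat_lit 192) (nat_lit 207)) (PT.lf (nat_lit 6308) (nat_lit 6) (nat_lit 83) (nat_lit 3) (nat_lit 202) (nat_lit 192) (nat_lit 206)))))) (PT.nd (nat_lit 62244) (PT.nd (nat_lit 156) (PT.nd (nat_lit 78) (PT.lf (nat_lit 6384) (nat_lit 6) (nat_lit 84) (nat_lit 3) (nat_lit 203) (nat_lit 192) (nat_lit 205)) (PT.lf (nat_lit 6460) (nat_lit 3) (nat_lit 85) (nat_lit 1) (nat_lit 204) (nat_lit 192) (nat_lit 204))) (PT.nd (nat_lit 78) (PT.lf (nat_lit 6384) (nat_lit 6) (nat_lit 84) (nat_lit 1) (nat_lit 205) (nat_lit 192) (nat_lit 203)) (PT.nd (nat_lit 78) (PT.lf (nat_lit 6308) (nat_lit 6) (nat_lit 83) (nat_lit 1) (nat_lit 206) (nat_lit 192) (nat_lit 202)) (PT.lf (nat_lit 6232) (nat_lit 6) (nat_lit 82) (nat_lit 1) (nat_lit 207) (nat_lit 192) (nat_lit 201))))) (PT.nd (nat_lit 156) (PT.nd (nat_lit 78) (PT.lf (nat_lit 6764) (nat_lit 6) (nat_lit 89) (nat_lit 3) (nat_lit 200) (nat_lit 193) (nat_lit 207)) (PT.lf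 (nat_lit 6840) (nat_lit 6) (nat_lit 90) (nat_lit 3) (nat_lit 201) (nat_lit 193) (nat_lit 206))) (PT.nd (nat_lit 78) (PT.lf (nat_lit 6916) (nat_lit 6) (nat_lit 91) (nat_lit 3) (nat_lit 202) (nat_lit 193) (nat_lit 205)) (PT.nd (nat_lit 78) (PT.lf (nat_lit 6992) (nat_lit 6) (nat_lit 92) (nat_lit 3) (nat_lit 203) (nat_lit 193) (nat_lit 204)) (PT.lf (nat_lit 6992) (nat_lit 6) (nat_lit 92) (nat_lit 1) (nat_lit 204) (nat_lit 193) (nat_lit 203))))))))
noncomputable def pc4 : PT := (PT.nd (nat_lit 124956) (PT.nd (nat_lit 62478) (PT.nd (nat_lit 62088) (PT.nd (nat_lit 156) (PT.nd (nat_lit 78) (PT.lf (nat_lit 6916) (nat_lit 6) (nat_lit 91) (nat_lit 1) (nat_lit 205) (nat_lit 193) (nat_lit 202)) (PT.lf (nat_lit 6840) (nat_lit 6) (nat_lit 90) (nat_lit 1) (nat_lit 206) (nat_lit 193) (nat_lit 201))) (PT.nd (nat_lit 61854) (PT.lf (nat_lit 6764) (nat_lit 6) (nat_lit 89) (nat_lit 1) (nat_lit 207) (nat_lit 193)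 (nat_lit 200)) (PT.lf (nat_lit 6688) (nat_lit 6) (nat_lit 88) (nat_lit 3) (nat_lit 199) (nat_lit 194) (nat_lit 207)))) (PT.nd (nat_lit 156) (PT.nd (nat_lit 78) (PT.lf (nat_lit 7296) (nat_lit 6) (nat_lit 96) (nat_lit 3) (nat_lit 200) (nat_lit 194) (nat_lit 206)) (PT.lf (nat_lit 7372) (nat_lit 6) (nat_lit 97) (nat_lit 3) (nat_lit 201) (nat_lit 194) (nat_lit 205))) (PT.nd (nat_lit 78) (PT.lf (nat_lit 7448) (nat_lit 6) (nat_lit 98) (nat_lit 3) (nat_lit 202) (nat_lit 194) (nat_lit 204)) (PT.nd (nat_lit 78) (PT.lf (nat_lit 7524) (nat_lit 3) (nat_lit 99) (nat_lit 1) (nat_lit 203) (nat_lit 194) (nat_lit 203)) (PT.lf (nat_lit 7448) (nat_lit 6) (nat_lit 98) (nat_lit 1) (nat_lit 204) (nat_lit 194) (nat_lit 202)))))) (PT.nd (nat_lit 62088) (PT.nd (nat_lit 156) (PT.nd (nat_lit 78) (PT.lf (nat_lit 7372) (nat_lit 6) (nat_lit 97) (nat_lit 1) (nat_lit 205) (nat_lit 194) (nat_lit 201)) (PT.lf (nat_lit 7296)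 (nat_lit 6) (nat_lit 96) (nat_lit 1) (nat_lit 206) (nat_lit 194) (nat_lit 200))) (PT.nd (nat_lit 61776) (PT.lf (nat_lit 6688) (nat_lit 6) (nat_lit 88) (nat_lit 1) (nat_lit 207) (nat_lit 194) (nat_lit 199)) (PT.nd (nat_lit 78) (PT.lf (nat_lit 6612) (nat_lit 6) (nat_lit 87) (nat_lit 3) (nat_lit 198) (nat_lit 195) (nat_lit 207)) (PT.lf (nat_lit 7220) (nat_lit 6) (nat_lit 95) (nat_lit 3) (nat_lit 199) (nat_lit 195) (nat_lit 206))))) (PT.nd (nat_lit 156) (PT.nd (nat_lit 78) (PT.lf (nat_lit 7752) (nat_lit 6) (nat_lit 102) (nat_lit 3) (nat_lit 200) (nat_lit 195) (nat_lit 205)) (PT.lf (nat_lit 7828) (nat_lit 6) (nat_lit 103) (nat_lit 3) (nat_lit 201) (nat_lit 195) (nat_lit 204))) (PT.nd (nat_lit 78) (PT.lf (nat_lit 7904) (nat_lit 6) (nat_lit 104) (nat_lit 3) (nat_lit 202) (nat_lit 195) (nat_lit 203)) (PT.nd (nat_lit 78) (PT.lf (nat_lit 7904) (nat_lit 6) (nat_lit 104) (nat_lit 1) (nat_lit 203) (nat_lit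 195) (nat_lit 202)) (PT.lf (nat_lit 7828) (nat_lit 6) (nat_lit 103) (nat_lit 1) (nat_lit 204) (nat_lit 195) (nat_lit 201))))))) (PT.nd (nat_lit 62322) (PT.nd (nat_lit 61932) (PT.nd (nat_lit 156) (PT.nd (nat_lit 78) (PT.lf (nat_lit 7752) (nat_lit 6) (nat_lit 102) (nat_lit 1) (nat_lit 205) (nat_lit 195) (nat_lit 200)) (PT.lf (nat_lit 7220) (nat_lit 6) (nat_lit 95) (nat_lit 1) (nat_lit 206) (nat_lit 195) (nat_lit 199))) (PT.nd (nat_lit 61698) (PT.lf (nat_lit 6612) (nat_lit 6) (nat_lit 87) (nat_lit 1) (nat_lit 207) (nat_lit 195) (nat_lit 198)) (PT.lf (nat_lit 6536) (nat_lit 6) (nat_lit 86) (nat_lit 3) (nat_lit 197) (nat_lit 196) (nat_lit 207)))) (PT.nd (nat_lit 156) (PT.nd (nat_lit 78) (PT.lf (nat_lit 7144) (nat_lit 6) (nat_lit 94) (nat_lit 3) (nat_lit 198) (nat_lit 196) (nat_lit 206)) (PT.lf (nat_lit 7676) (nat_lit 6) (nat_lit 101) (nat_lit 3) (nat_lit 199) (nat_lit 196) (nat_lit 205))) (PT.nd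 (nat_lit 78) (PT.lf (nat_lit 8132) (nat_lit 6) (nat_lit 107) (nat_lit 3) (nat_lit 200) (nat_lit 196) (nat_lit 204)) (PT.nd (nat_lit 78) (PT.lf (nat_lit 8208) (nat_lit 6) (nat_lit 108) (nat_lit 3) (nat_lit 201) (nat_lit 196) (nat_lit 203)) (PT.lf (nat_lit 8284) (nat_lit 3) (nat_lit 109) (nat_lit 1) (nat_lit 202) (nat_lit 196) (nat_lit 202)))))) (PT.nd (nat_lit 61932) (PT.nd (nat_lit 156) (PT.nd (nat_lit 78) (PT.lf (nat_lit 8208) (nat_lit 6) (nat_lit 108) (nat_lit 1) (nat_lit 203) (nat_lit 196) (nat_lit 201)) (PT.lf (nat_lit 8132) (nat_lit 6) (nat_lit 107) (nat_lit 1) (nat_lit 204) (nat_lit 196) (nat_lit 200))) (PT.nd (nat_lit 78) (PT.lf (nat_lit 7676) (nat_lit 6) (nat_lit 101) (nat_lit 1) (nat_lit 205) (nat_lit 196) (nat_lit 199)) (PT.nd (nat_lit 78) (PT.lf (nat_lit 7144) (nat_lit 6) (nat_lit 94) (nat_lit 1) (nat_lit 206) (nat_lit 196) (nat_lit 198)) (PT.lf (nat_lit 6536) (nat_lit 6) (nat_lit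 86) (nat_lit 1) (nat_lit 207) (nat_lit 196) (nat_lit 197))))) (PT.nd (nat_lit 156) (PT.nd (nat_lit 78) (PT.lf (nat_lit 6536) (nat_lit 6) (nat_lit 86) (nat_lit 5) (nat_lit 196) (nat_lit 197) (nat_lit 207)) (PT.lf (nat_lit 7068) (nat_lit 3) (nat_lit 93) (nat_lit 3) (nat_lit 197) (nat_lit 197) (nat_lit 206))) (PT.nd (nat_lit 78) (PT.lf (nat_lit 7600) (nat_lit 6) (nat_lit 100) (nat_lit 3) (nat_lit 198) (nat_lit 197) (nat_lit 205)) (PT.nd (nat_lit 78) (PT.lf (nat_lit 8056) (nat_lit 6) (nat_lit 106) (nat_lit 3) (nat_lit 199) (nat_lit 197) (nat_lit 204)) (PT.lf (nat_lit 8436) (nat_lit 6) (nat_lit 111) (nat_lit 3) (nat_lit 200) (nat_lit 197) (nat_lit 203))))))))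
noncomputable def pc5 : PT := (PT.nd (nat_lit 62946) (PT.nd (nat_lit 62166) (PT.nd (nat_lit 312) (PT.nd (nat_lit 156) (PT.nd (nat_lit 78) (PT.lf (nat_lit 8512) (nat_lit 6) (nat_lit 112) (nat_lit 3) (nat_lit 201) (nat_lit 197) (nat_lit 202)) (PT.lf (nat_lit 8512) (nat_lit 6) (nat_lit 112) (nat_lit 1) (nat_lit 202) (nat_lit 197) (nat_lit 201))) (PT.nd (nat_lit 78) (PT.lf (nat_lit 8436) (nat_lit 6) (nat_lit 111) (nat_lit 1) (nat_lit 203) (nat_lit 197) (nat_lit 200)) (PT.lf (nat_lit 8056) (nat_lit 6) (nat_lit 106) (nat_lit 1) (nat_lit 204) (nat_lit 197) (nat_lit 199)))) (PT.nd (nat_lit 156) (PT.nd (nat_lit 78) (PT.lf (nat_lit 7600) (nat_lit 6) (nat_lit 100) (nat_lit 1) (nat_lit 205) (nat_lit 197) (nat_lit 198)) (PT.lf (nat_lit 7068) (nat_lit 3) (nat_lit 93) (nat_lit 0) (nat_lit 206) (nat_lit 197) (nat_lit 197))) (PT.nd (nat_lit 61542) (PT.lf (nat_lit 6536) (nat_lit 6) (nat_lit 86) (nat_lit 0)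 (nat_lit 207) (nat_lit 197) (nat_lit 196)) (PT.nd (nat_lit 78) (PT.lf (nat_lit 6612) (nat_lit 6) (nat_lit 87) (nat_lit 5) (nat_lit 195) (nat_lit 198) (nat_lit 207)) (PT.lf (nat_lit 7144) (nat_lit 6) (nat_lit 94) (nat_lit 5) (nat_lit 196) (nat_lit 198) (nat_lit 206)))))) (PT.nd (nat_lit 390) (PT.nd (nat_lit 156) (PT.nd (nat_lit 78) (PT.lf (nat_lit 7600) (nat_lit 6) (nat_lit 100) (nat_lit 5) (nat_lit 197) (nat_lit 198) (nat_lit 205)) (PT.lf (nat_lit 7980) (nat_lit 3) (nat_lit 105) (nat_lit 3) (nat_lit 198) (nat_lit 198) (nat_lit 204))) (PT.nd (nat_lit 78) (PT.lf (nat_lit 8360) (nat_lit 6) (nat_lit 110) (nat_lit 3) (nat_lit 199) (nat_lit 198) (nat_lit 203)) (PT.nd (nat_lit 78) (PT.lf (nat_lit 8664) (nat_lit 6) (nat_lit 114) (nat_lit 3) (nat_lit 200) (nat_lit 198) (nat_lit 202)) (PT.lf (nat_lit 8740) (nat_lit 3) (nat_lit 115) (nat_lit 1) (nat_lit 201) (nat_lit 198) (nat_lit 201))))) (PT.nd (nat_lit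 156) (PT.nd (nat_lit 78) (PT.lf (nat_lit 8664) (nat_lit 6) (nat_lit 114) (nat_lit 1) (nat_lit 202) (nat_lit 198) (nat_lit 200)) (PT.lf (nat_lit 8360) (nat_lit 6) (nat_lit 110) (nat_lit 1) (nat_lit 203) (nat_lit 198) (nat_lit 199))) (PT.nd (nat_lit 78) (PT.lf (nat_lit 7980) (nat_lit 3) (nat_lit 105) (nat_lit 0) (nat_lit 204) (nat_lit 198) (nat_lit 198)) (PT.nd (nat_lit 78) (PT.lf (nat_lit 7600) (nat_lit 6) (nat_lit 100) (nat_lit 0) (nat_lit 205) (nat_lit 198) (nat_lit 197)) (PT.lf (nat_lit 7144) (nat_lit 6) (nat_lit 94) (nat_lit 0) (nat_lit 206) (nat_lit 198) (nat_lit 196))))))) (PT.nd (nat_lit 62088) (PT.nd (nat_lit 61698) (PT.nd (nat_lit 61542) (PT.nd (nat_lit 61464) (PT.lf (nat_lit 6612) (nat_lit 6) (nat_lit 87) (nat_lit 0) (nat_lit 207) (nat_lit 198) (nat_lit 195)) (PT.lf (nat_lit 6688) (nat_lit 6) (nat_lit 88) (nat_lit 5) (nat_lit 194) (nat_lit 199) (nat_lit 207))) (PT.nd (nat_lit 78)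 (PT.lf (nat_lit 7220) (nat_lit 6) (nat_lit 95) (nat_lit 5) (nat_lit 195) (nat_lit 199) (nat_lit 206)) (PT.lf (nat_lit 7676) (nat_lit 6) (nat_lit 101) (nat_lit 5) (nat_lit 196) (nat_lit 199) (nat_lit 205)))) (PT.nd (nat_lit 156) (PT.nd (nat_lit 78) (PT.lf (nat_lit 8056) (nat_lit 6) (nat_lit 106) (nat_lit 5) (nat_lit 197) (nat_lit 199) (nat_lit 204)) (PT.lf (nat_lit 8360) (nat_lit 6) (nat_lit 110) (nat_lit 5) (nat_lit 198) (nat_lit 199) (nat_lit 203))) (PT.nd (nat_lit 78) (PT.lf (nat_lit 8588) (nat_lit 3) (nat_lit 113) (nat_lit 3) (nat_lit 199) (nat_lit 199) (nat_lit 202)) (PT.nd (nat_lit 78) (PT.lf (nat_lit 8816) (nat_lit 6) (nat_lit 116) (nat_lit 3) (nat_lit 200) (nat_lit 199) (nat_lit 201)) (PT.lf (nat_lit 8816) (nat_lit 6) (nat_lit 116) (nat_lit 1) (nat_lit 201) (nat_lit 199) (nat_lit 200)))))) (PT.nd (nat_lit 390) (PT.nd (nat_lit 156) (PT.nd (nat_lit 78) (PT.lf (nat_lit 8588) (nat_lit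 3) (nat_lit 113) (nat_lit 0) (nat_lit 202) (nat_lit 199) (nat_lit 199)) (PT.lf (nat_lit 8360) (nat_lit 6) (nat_lit 110) (nat_lit 0) (nat_lit 203) (nat_lit 199) (nat_lit 198))) (PT.nd (nat_lit 78) (PT.lf (nat_lit 8056) (nat_lit 6) (nat_lit 106) (nat_lit 0) (nat_lit 204) (nat_lit 199) (nat_lit 197)) (PT.nd (nat_lit 78) (PT.lf (nat_lit 7676) (nat_lit 6) (nat_lit 101) (nat_lit 0) (nat_lit 205) (nat_lit 199) (nat_lit 196)) (PT.lf (nat_lit 7220) (nat_lit 6) (nat_lit 95) (nat_lit 0) (nat_lit 206) (nat_lit 199) (nat_lit 195))))) (PT.nd (nat_lit 61464) (PT.nd (nat_lit 61386) (PT.lf (nat_lit 6688) (nat_lit 6) (nat_lit 88) (nat_lit 0) (nat_lit 207) (nat_lit 199) (nat_lit 194)) (PT.lf (nat_lit 6764) (nat_lit 6) (nat_lit 89) (nat_lit 5) (nat_lit 193) (nat_lit 200) (nat_lit 207))) (PT.nd (nat_lit 78) (PT.lf (nat_lit 7296) (nat_lit 6) (nat_lit 96) (nat_lit 5) (nat_lit 194) (nat_lit 200) (nat_lit 206))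 (PT.nd (nat_lit 78) (PT.lf (nat_lit 7752) (nat_lit 6) (nat_lit 102) (nat_lit 5) (nat_lit 195) (nat_lit 200) (nat_lit 205)) (PT.lf (nat_lit 8132) (nat_lit 6) (nat_lit 107) (nat_lit 5) (nat_lit 196) (nat_lit 200) (nat_lit 204))))))))
noncomputable def pc6 : PT := (PT.nd (nat_lit 62712) (PT.nd (nat_lit 702) (PT.nd (nat_lit 312) (PT.nd (nat_lit 156) (PT.nd (nat_lit 78) (PT.lf (nat_lit 8436) (nat_lit 6) (nat_lit 111) (nat_lit 5) (nat_lit 197) (nat_lit 200) (nat_lit 203)) (PT.lf (nat_lit 8664) (nat_lit 6) (nat_lit 114) (nat_lit 5) (nat_lit 198) (nat_lit 200) (nat_lit 202))) (PT.nd (nat_lit 78) (PT.lf (nat_lit 8816) (nat_lit 6) (nat_lit 116) (nat_lit 5) (nat_lit 199) (nat_lit 200) (nat_lit 201)) (PT.lf (nat_lit 8892) (nat_lit 1) (nat_lit 117) (nat_lit 0) (nat_lit 200) (nat_lit 200) (nat_lit 200)))) (PT.nd (nat_lit 156) (PT.nd (nat_lit 78) (PT.lf (nat_lit 8816) (nat_lit 6) (nat_lit 116) (nat_lit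 0) (nat_lit 201) (nat_lit 200) (nat_lit 199)) (PT.lf (nat_lit 8664) (nat_lit 6) (nat_lit 114) (nat_lit 0) (nat_lit 202) (nat_lit 200) (nat_lit 198))) (PT.nd (nat_lit 78) (PT.lf (nat_lit 8436) (nat_lit 6) (nat_lit 111) (nat_lit 0) (nat_lit 203) (nat_lit 200) (nat_lit 197)) (PT.nd (nat_lit 78) (PT.lf (nat_lit 8132) (nat_lit 6) (nat_lit 107) (nat_lit 0) (nat_lit 204) (nat_lit 200) (nat_lit 196)) (PT.lf (nat_lit 7752) (nat_lit 6) (nat_lit 102) (nat_lit 0) (nat_lit 205) (nat_lit 200) (nat_lit 195)))))) (PT.nd (nat_lit 61620) (PT.nd (nat_lit 61386) (PT.nd (nat_lit 78) (PT.lf (nat_lit 7296) (nat_lit 6) (nat_lit 96) (nat_lit 0) (nat_lit 206) (nat_lit 200) (nat_lit 194)) (PT.lf (nat_lit 6764) (nat_lit 6) (nat_lit 89) (nat_lit 0) (nat_lit 207) (nat_lit 200) (nat_lit 193))) (PT.nd (nat_lit 78) (PT.lf (nat_lit 6232) (nat_lit 6) (nat_lit 82) (nat_lit 5) (nat_lit 192) (nat_lit 201) (nat_lit 207)) (PT.nd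 (nat_lit 78) (PT.lf (nat_lit 6840) (nat_lit 6) (nat_lit 90) (nat_lit 5) (nat_lit 193) (nat_lit 201) (nat_lit 206)) (PT.lf (nat_lit 7372) (nat_lit 6) (nat_lit 97) (nat_lit 5) (nat_lit 194) (nat_lit 201) (nat_lit 205))))) (PT.nd (nat_lit 156) (PT.nd (nat_lit 78) (PT.lf (nat_lit 7828) (nat_lit 6) (nat_lit 103) (nat_lit 5) (nat_lit 195) (nat_lit 201) (nat_lit 204)) (PT.lf (nat_lit 8208) (nat_lit 6) (nat_lit 108) (nat_lit 5) (nat_lit 196) (nat_lit 201) (nat_lit 203))) (PT.nd (nat_lit 78) (PT.lf (nat_lit 8512) (nat_lit 6) (nat_lit 112) (nat_lit 5) (nat_lit 197) (nat_lit 201) (nat_lit 202)) (PT.nd (nat_lit 78) (PT.lf (nat_lit 8740) (nat_lit 3) (nat_lit 115) (nat_lit 4) (nat_lit 198) (nat_lit 201) (nat_lit 201)) (PT.lf (nat_lit 8816) (nat_lit 6) (nat_lit 116) (nat_lit 4) (nat_lit 199) (nat_lit 201) (nat_lit 200))))))) (PT.nd (nat_lit 61776) (PT.nd (nat_lit 312) (PT.nd (nat_lit 156) (PT.nd (nat_lit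 78) (PT.lf (nat_lit 8816) (nat_lit 6) (nat_lit 116) (nat_lit 2) (nat_lit 200) (nat_lit 201) (nat_lit 199)) (PT.lf (nat_lit 8740) (nat_lit 3) (nat_lit 115) (nat_lit 0) (nat_lit 201) (nat_lit 201) (nat_lit 198))) (PT.nd (nat_lit 78) (PT.lf (nat_lit 8512) (nat_lit 6) (nat_lit 112) (nat_lit 0) (nat_lit 202) (nat_lit 201) (nat_lit 197)) (PT.lf (nat_lit 8208) (nat_lit 6) (nat_lit 108) (nat_lit 0) (nat_lit 203) (nat_lit 201) (nat_lit 196)))) (PT.nd (nat_lit 156) (PT.nd (nat_lit 78) (PT.lf (nat_lit 7828) (nat_lit 6) (nat_lit 103) (nat_lit 0) (nat_lit 204) (nat_lit 201) (nat_lit 195)) (PT.lf (nat_lit 7372) (nat_lit 6) (nat_lit 97) (nat_lit 0) (nat_lit 205) (nat_lit 201) (nat_lit 194))) (PT.nd (nat_lit 78) (PT.lf (nat_lit 6840) (nat_lit 6) (nat_lit 90) (nat_lit 0) (nat_lit 206) (nat_lit 201) (nat_lit 193)) (PT.nd (nat_lit 61152) (PT.lf (nat_lit 6232) (nat_lit 6) (nat_lit 82) (nat_lit 0) (nat_lit 207)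 (nat_lit 201) (nat_lit 192)) (PT.lf (nat_lit 5700) (nat_lit 6) (nat_lit 75) (nat_lit 5) (nat_lit 190) (nat_lit 202) (nat_lit 208)))))) (PT.nd (nat_lit 390) (PT.nd (nat_lit 156) (PT.nd (nat_lit 78) (PT.lf (nat_lit 6004) (nat_lit 6) (nat_lit 79) (nat_lit 5) (nat_lit 191) (nat_lit 202) (nat_lit 207)) (PT.lf (nat_lit 6308) (nat_lit 6) (nat_lit 83) (nat_lit 5) (nat_lit 192) (nat_lit 202) (nat_lit 206))) (PT.nd (nat_lit 78) (PT.lf (nat_lit 6916) (nat_lit 6) (nat_lit 91) (nat_lit 5) (nat_lit 193) (nat_lit 202) (nat_lit 205)) (PT.nd (nat_lit 78) (PT.lf (nat_lit 7448) (nat_lit 6) (nat_lit 98) (nat_lit 5) (nat_lit 194) (nat_lit 202) (nat_lit 204)) (PT.lf (nat_lit 7904) (nat_lit 6) (nat_lit 104) (nat_lit 5) (nat_lit 195) (nat_lit 202) (nat_lit 203))))) (PT.nd (nat_lit 156) (PT.nd (nat_lit 78) (PT.lf (nat_lit 8284) (nat_lit 3) (nat_lit 109) (nat_lit 4) (nat_lit 196) (nat_lit 202) (nat_lit 202)) (PT.lf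 (nat_lit 8512) (nat_lit 6) (nat_lit 112) (nat_lit 4) (nat_lit 197) (nat_lit 202) (nat_lit 201))) (PT.nd (nat_lit 78) (PT.lf (nat_lit 8664) (nat_lit 6) (nat_lit 114) (nat_lit 4) (nat_lit 198) (nat_lit 202) (nat_lit 200)) (PT.nd (nat_lit 78) (PT.lf (nat_lit 8588) (nat_lit 3) (nat_lit 113) (nat_lit 2) (nat_lit 199) (nat_lit 202) (nat_lit 199)) (PT.lf (nat_lit 8664) (nat_lit 6) (nat_lit 114) (nat_lit 2) (nat_lit 200) (nat_lit 202) (nat_lit 198))))))))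
noncomputable def pc7 : PT := (PT.nd (nat_lit 62400) (PT.nd (nat_lit 61620) (PT.nd (nat_lit 312) (PT.nd (nat_lit 156) (PT.nd (nat_lit 78) (PT.lf (nat_lit 8512) (nat_lit 6) (nat_lit 112) (nat_lit 2) (nat_lit 201) (nat_lit 202) (nat_lit 197)) (PT.lf (nat_lit 8284) (nat_lit 3) (nat_lit 109) (nat_lit 0) (nat_lit 202) (nat_lit 202) (nat_lit 196))) (PT.nd (nat_lit 78) (PT.lf (nat_lit 7904) (nat_lit 6) (nat_lit 104) (nat_lit 0) (nat_lit 203) (nat_lit 202) (nat_lit 195)) (PT.lf (nat_lit 7448) (nat_lit 6) (nat_lit 98) (nat_lit 0) (nat_lit 204) (nat_lit 202) (nat_lit 194)))) (PT.nd (nat_lit 156) (PT.nd (nat_lit 78) (PT.lf (nat_lit 6916) (nat_lit 6) (nat_lit 91) (nat_lit 0) (nat_lit 205) (nat_lit 202) (nat_lit 193)) (PT.lf (nat_lit 6308) (nat_lit 6) (nat_lit 83) (nat_lit 0) (nat_lit 206) (nat_lit 202) (nat_lit 192))) (PT.nd (nat_lit 78) (PT.lf (nat_lit 6004) (nat_lit 6) (nat_lit 79) (nat_lit 0) (nat_lit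 207) (nat_lit 202) (nat_lit 191)) (PT.nd (nat_lit 60996) (PT.lf (nat_lit 5700) (nat_lit 6) (nat_lit 75) (nat_lit 0) (nat_lit 208) (nat_lit 202) (nat_lit 190)) (PT.lf (nat_lit 5472) (nat_lit 6) (nat_lit 72) (nat_lit 5) (nat_lit 189) (nat_lit 203) (nat_lit 208)))))) (PT.nd (nat_lit 390) (PT.nd (nat_lit 156) (PT.nd (nat_lit 78) (PT.lf (nat_lit 5776) (nat_lit 6) (nat_lit 76) (nat_lit 5) (nat_lit 190) (nat_lit 203) (nat_lit 207)) (PT.lf (nat_lit 6080) (nat_lit 6) (nat_lit 80) (nat_lit 5) (nat_lit 191) (nat_lit 203) (nat_lit 206))) (PT.nd (nat_lit 78) (PT.lf (nat_lit 6384) (nat_lit 6) (nat_lit 84) (nat_lit 5) (nat_lit 192) (nat_lit 203) (nat_lit 205)) (PT.nd (nat_lit 78) (PT.lf (nat_lit 6992) (nat_lit 6) (nat_lit 92) (nat_lit 5) (nat_lit 193) (nat_lit 203) (nat_lit 204)) (PT.lf (nat_lit 7524) (nat_lit 3) (nat_lit 99) (nat_lit 4) (nat_lit 194) (nat_lit 203) (nat_lit 203))))) (PT.nd (nat_lit 156)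 (PT.nd (nat_lit 78) (PT.lf (nat_lit 7904) (nat_lit 6) (nat_lit 104) (nat_lit 4) (nat_lit 195) (nat_lit 203) (nat_lit 202)) (PT.lf (nat_lit 8208) (nat_lit 6) (nat_lit 108) (nat_lit 4) (nat_lit 196) (nat_lit 203) (nat_lit 201))) (PT.nd (nat_lit 78) (PT.lf (nat_lit 8436) (nat_lit 6) (nat_lit 111) (nat_lit 4) (nat_lit 197) (nat_lit 203) (nat_lit 200)) (PT.nd (nat_lit 78) (PT.lf (nat_lit 8360) (nat_lit 6) (nat_lit 110) (nat_lit 4) (nat_lit 198) (nat_lit 203) (nat_lit 199)) (PT.lf (nat_lit 8360) (nat_lit 6) (nat_lit 110) (nat_lit 2) (nat_lit 199) (nat_lit 203) (nat_lit 198))))))) (PT.nd (nat_lit 61542) (PT.nd (nat_lit 312) (PT.nd (nat_lit 156) (PT.nd (nat_lit 78) (PT.lf (nat_lit 8436) (nat_lit 6) (nat_lit 111) (nat_lit 2) (nat_lit 200) (nat_lit 203) (nat_lit 197)) (PT.lf (nat_lit 8208) (nat_lit 6) (nat_lit 108) (nat_lit 2) (nat_lit 201) (nat_lit 203) (nat_lit 196))) (PT.nd (nat_lit 78) (PT.lf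 (nat_lit 7904) (nat_lit 6) (nat_lit 104) (nat_lit 2) (nat_lit 202) (nat_lit 203) (nat_lit 195)) (PT.lf (nat_lit 7524) (nat_lit 3) (nat_lit 99) (nat_lit 0) (nat_lit 203) (nat_lit 203) (nat_lit 194)))) (PT.nd (nat_lit 156) (PT.nd (nat_lit 78) (PT.lf (nat_lit 6992) (nat_lit 6) (nat_lit 92) (nat_lit 0) (nat_lit 204) (nat_lit 203) (nat_lit 193)) (PT.lf (nat_lit 6384) (nat_lit 6) (nat_lit 84) (nat_lit 0) (nat_lit 205) (nat_lit 203) (nat_lit 192))) (PT.nd (nat_lit 78) (PT.lf (nat_lit 6080) (nat_lit 6) (nat_lit 80) (nat_lit 0) (nat_lit 206) (nat_lit 203) (nat_lit 191)) (PT.nd (nat_lit 78) (PT.lf (nat_lit 5776) (nat_lit 6) (nat_lit 76) (nat_lit 0) (nat_lit 207) (nat_lit 203) (nat_lit 190)) (PT.lf (nat_lit 5472) (nat_lit 6) (nat_lit 72) (nat_lit 0) (nat_lit 208) (nat_lit 203) (nat_lit 189)))))) (PT.nd (nat_lit 390) (PT.nd (nat_lit 156) (PT.nd (nat_lit 78) (PT.lf (nat_lit 5244) (nat_lit 6) (nat_lit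 69) (nat_lit 5) (nat_lit 188) (nat_lit 204) (nat_lit 208)) (PT.lf (nat_lit 5548) (nat_lit 6) (nat_lit 73) (nat_lit 5) (nat_lit 189) (nat_lit 204) (nat_lit 207))) (PT.nd (nat_lit 78) (PT.lf (nat_lit 5852) (nat_lit 6) (nat_lit 77) (nat_lit 5) (nat_lit 190) (nat_lit 204) (nat_lit 206)) (PT.nd (nat_lit 78) (PT.lf (nat_lit 6156) (nat_lit 6) (nat_lit 81) (nat_lit 5) (nat_lit 191) (nat_lit 204) (nat_lit 205)) (PT.lf (nat_lit 6460) (nat_lit 3) (nat_lit 85) (nat_lit 4) (nat_lit 192) (nat_lit 204) (nat_lit 204))))) (PT.nd (nat_lit 156) (PT.nd (nat_lit 78) (PT.lf (nat_lit 6992) (nat_lit 6) (nat_lit 92) (nat_lit 4) (nat_lit 193) (nat_lit 204) (nat_lit 203)) (PT.lf (nat_lit 7448) (nat_lit 6) (nat_lit 98) (nat_lit 4) (nat_lit 194) (nat_lit 204) (nat_lit 202))) (PT.nd (nat_lit 78) (PT.lf (nat_lit 7828) (nat_lit 6) (nat_lit 103) (nat_lit 4) (nat_lit 195) (nat_lit 204) (nat_lit 201)) (PT.nd (nat_lit 78)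 (PT.lf (nat_lit 8132) (nat_lit 6) (nat_lit 107) (nat_lit 4) (nat_lit 196) (nat_lit 204) (nat_lit 200)) (PT.lf (nat_lit 8056) (nat_lit 6) (nat_lit 106) (nat_lit 4) (nat_lit 197) (nat_lit 204) (nat_lit 199))))))))
noncomputable def pc8 : PT := (PT.nd (nat_lit 62166) (PT.nd (nat_lit 702) (PT.nd (nat_lit 312) (PT.nd (nat_lit 156) (PT.nd (nat_lit 78) (PT.lf (nat_lit 7980) (nat_lit 3) (nat_lit 105) (nat_lit 2) (nat_lit 198) (nat_lit 204) (nat_lit 198)) (PT.lf (nat_lit 8056) (nat_lit 6) (nat_lit 106) (nat_lit 2) (nat_lit 199) (nat_lit 204) (nat_lit 197))) (PT.nd (nat_lit 78) (PT.lf (nat_lit 8132) (nat_lit 6) (nat_lit 107) (nat_lit 2) (nat_lit 200) (nat_lit 204) (nat_lit 196)) (PT.lf (nat_lit 7828) (nat_lit 6) (nat_lit 103) (nat_lit 2) (nat_lit 201) (nat_lit 204) (nat_lit 195)))) (PT.nd (nat_lit 156) (PT.nd (nat_lit 78) (PT.lf (nat_lit 7448) (nat_lit 6) (nat_lit 98) (nat_lit 2) (nat_lit 202) (nat_lit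 204) (nat_lit 194)) (PT.lf (nat_lit 6992) (nat_lit 6) (nat_lit 92) (nat_lit 2) (nat_lit 203) (nat_lit 204) (nat_lit 193))) (PT.nd (nat_lit 78) (PT.lf (nat_lit 6460) (nat_lit 3) (nat_lit 85) (nat_lit 0) (nat_lit 204) (nat_lit 204) (nat_lit 192)) (PT.nd (nat_lit 78) (PT.lf (nat_lit 6156) (nat_lit 6) (nat_lit 81) (nat_lit 0) (nat_lit 205) (nat_lit 204) (nat_lit 191)) (PT.lf (nat_lit 5852) (nat_lit 6) (nat_lit 77) (nat_lit 0) (nat_lit 206) (nat_lit 204) (nat_lit 190)))))) (PT.nd (nat_lit 61074) (PT.nd (nat_lit 60840) (PT.nd (nat_lit 78) (PT.lf (nat_lit 5548) (nat_lit 6) (nat_lit 73) (nat_lit 0) (nat_lit 207) (nat_lit 204) (nat_lit 189)) (PT.lf (nat_lit 5244) (nat_lit 6) (nat_lit 69) (nat_lit 0) (nat_lit 208) (nat_lit 204) (nat_lit 188))) (PT.nd (nat_lit 78) (PT.lf (nat_lit 4864) (nat_lit 6) (nat_lit 64) (nat_lit 5) (nat_lit 186) (nat_lit 205) (nat_lit 209)) (PT.nd (nat_lit 78) (PT.lf (nat_lit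 5092) (nat_lit 6) (nat_lit 67) (nat_lit 5) (nat_lit 187) (nat_lit 205) (nat_lit 208)) (PT.lf (nat_lit 5320) (nat_lit 6) (nat_lit 70) (nat_lit 5) (nat_lit 188) (nat_lit 205) (nat_lit 207))))) (PT.nd (nat_lit 156) (PT.nd (nat_lit 78) (PT.lf (nat_lit 5624) (nat_lit 6) (nat_lit 74) (nat_lit 5) (nat_lit 189) (nat_lit 205) (nat_lit 206)) (PT.lf (nat_lit 5928) (nat_lit 3) (nat_lit 78) (nat_lit 4) (nat_lit 190) (nat_lit 205) (nat_lit 205))) (PT.nd (nat_lit 78) (PT.lf (nat_lit 6156) (nat_lit 6) (nat_lit 81) (nat_lit 4) (nat_lit 191) (nat_lit 205) (nat_lit 204)) (PT.nd (nat_lit 78) (PT.lf (nat_lit 6384) (nat_lit 6) (nat_lit 84) (nat_lit 4) (nat_lit 192) (nat_lit 205) (nat_lit 203)) (PT.lf (nat_lit 6916) (nat_lit 6) (nat_lit 91) (nat_lit 4) (nat_lit 193) (nat_lit 205) (nat_lit 202))))))) (PT.nd (nat_lit 702) (PT.nd (nat_lit 312) (PT.nd (nat_lit 156) (PT.nd (nat_lit 78) (PT.lf (nat_lit 7372) (nat_lit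 6) (nat_lit 97) (nat_lit 4) (nat_lit 194) (nat_lit 205) (nat_lit 201)) (PT.lf (nat_lit 7752) (nat_lit 6) (nat_lit 102) (nat_lit 4) (nat_lit 195) (nat_lit 205) (nat_lit 200))) (PT.nd (nat_lit 78) (PT.lf (nat_lit 7676) (nat_lit 6) (nat_lit 101) (nat_lit 4) (nat_lit 196) (nat_lit 205) (nat_lit 199)) (PT.lf (nat_lit 7600) (nat_lit 6) (nat_lit 100) (nat_lit 4) (nat_lit 197) (nat_lit 205) (nat_lit 198)))) (PT.nd (nat_lit 156) (PT.nd (nat_lit 78) (PT.lf (nat_lit 7600) (nat_lit 6) (nat_lit 100) (nat_lit 2) (nat_lit 198) (nat_lit 205) (nat_lit 197)) (PT.lf (nat_lit 7676) (nat_lit 6) (nat_lit 101) (nat_lit 2) (nat_lit 199) (nat_lit 205) (nat_lit 196))) (PT.nd (nat_lit 78) (PT.lf (nat_lit 7752) (nat_lit 6) (nat_lit 102) (nat_lit 2) (nat_lit 200) (nat_lit 205) (nat_lit 195)) (PT.nd (nat_lit 78) (PT.lf (nat_lit 7372) (nat_lit 6) (nat_lit 97) (nat_lit 2) (nat_lit 201) (nat_lit 205) (nat_lit 194)) (PT.lf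 (nat_lit 6916) (nat_lit 6) (nat_lit 91) (nat_lit 2) (nat_lit 202) (nat_lit 205) (nat_lit 193)))))) (PT.nd (nat_lit 390) (PT.nd (nat_lit 156) (PT.nd (nat_lit 78) (PT.lf (nat_lit 6384) (nat_lit 6) (nat_lit 84) (nat_lit 2) (nat_lit 203) (nat_lit 205) (nat_lit 192)) (PT.lf (nat_lit 6156) (nat_lit 6) (nat_lit 81) (nat_lit 2) (nat_lit 204) (nat_lit 205) (nat_lit 191))) (PT.nd (nat_lit 78) (PT.lf (nat_lit 5928) (nat_lit 3) (nat_lit 78) (nat_lit 0) (nat_lit 205) (nat_lit 205) (nat_lit 190)) (PT.nd (nat_lit 78) (PT.lf (nat_lit 5624) (nat_lit 6) (nat_lit 74) (nat_lit 0) (nat_lit 206) (nat_lit 205) (nat_lit 189)) (PT.lf (nat_lit 5320) (nat_lit 6) (nat_lit 70) (nat_lit 0) (nat_lit 207) (nat_lit 205) (nat_lit 188))))) (PT.nd (nat_lit 60684) (PT.nd (nat_lit 78) (PT.lf (nat_lit 5092) (nat_lit 6) (nat_lit 67) (nat_lit 0) (nat_lit 208) (nat_lit 205) (nat_lit 187)) (PT.lf (nat_lit 4864) (nat_lit 6) (nat_lit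 64) (nat_lit 0) (nat_lit 209) (nat_lit 205) (nat_lit 186))) (PT.nd (nat_lit 78) (PT.lf (nat_lit 4712) (nat_lit 6) (nat_lit 62) (nat_lit 5) (nat_lit 185) (nat_lit 206) (nat_lit 209)) (PT.nd (nat_lit 78) (PT.lf (nat_lit 4940) (nat_lit 6) (nat_lit 65) (nat_lit 5) (nat_lit 186) (nat_lit 206) (nat_lit 208)) (PT.lf (nat_lit 5168) (nat_lit 6) (nat_lit 68) (nat_lit 5) (nat_lit 187) (nat_lit 206) (nat_lit 207))))))))
noncomputable def pc9 : PT := (PT.nd (nat_lit 1482) (PT.nd (nat_lit 702) (PT.nd (nat_lit 312) (PT.nd (nat_lit 156) (PT.nd (nat_lit 78) (PT.lf (nat_lit 5396) (nat_lit 3) (nat_lit 71) (nat_lit 4) (nat_lit 188) (nat_lit 206) (nat_lit 206)) (PT.lf (nat_lit 5624) (nat_lit 6) (nat_lit 74) (nat_lit 4) (nat_lit 189) (nat_lit 206) (nat_lit 205))) (PT.nd (nat_lit 78) (PT.lf (nat_lit 5852) (nat_lit 6) (nat_lit 77) (nat_lit 4) (nat_lit 190) (nat_lit 206) (nat_lit 204)) (PT.lf (nat_lit 6080) (nat_lit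 6) (nat_lit 80) (nat_lit 4) (nat_lit 191) (nat_lit 206) (nat_lit 203)))) (PT.nd (nat_lit 156) (PT.nd (nat_lit 78) (PT.lf (nat_lit 6308) (nat_lit 6) (nat_lit 83) (nat_lit 4) (nat_lit 192) (nat_lit 206) (nat_lit 202)) (PT.lf (nat_lit 6840) (nat_lit 6) (nat_lit 90) (nat_lit 4) (nat_lit 193) (nat_lit 206) (nat_lit 201))) (PT.nd (nat_lit 78) (PT.lf (nat_lit 7296) (nat_lit 6) (nat_lit 96) (nat_lit 4) (nat_lit 194) (nat_lit 206) (nat_lit 200)) (PT.nd (nat_lit 78) (PT.lf (nat_lit 7220) (nat_lit 6) (nat_lit 95) (nat_lit 4) (nat_lit 195) (nat_lit 206) (nat_lit 199)) (PT.lf (nat_lit 7144) (nat_lit 6) (nat_lit 94) (nat_lit 4) (nat_lit 196) (nat_lit 206) (nat_lit 198)))))) (PT.nd (nat_lit 390) (PT.nd (nat_lit 156) (PT.nd (nat_lit 78) (PT.lf (nat_lit 7068) (nat_lit 3) (nat_lit 93) (nat_lit 2) (nat_lit 197) (nat_lit 206) (nat_lit 197)) (PT.lf (nat_lit 7144) (nat_lit 6) (nat_lit 94) (nat_lit 2) (nat_lit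 198) (nat_lit 206) (nat_lit 196))) (PT.nd (nat_lit 78) (PT.lf (nat_lit 7220) (nat_lit 6) (nat_lit 95) (nat_lit 2) (nat_lit 199) (nat_lit 206) (nat_lit 195)) (PT.nd (nat_lit 78) (PT.lf (nat_lit 7296) (nat_lit 6) (nat_lit 96) (nat_lit 2) (nat_lit 200) (nat_lit 206) (nat_lit 194)) (PT.lf (nat_lit 6840) (nat_lit 6) (nat_lit 90) (nat_lit 2) (nat_lit 201) (nat_lit 206) (nat_lit 193))))) (PT.nd (nat_lit 156) (PT.nd (nat_lit 78) (PT.lf (nat_lit 6308) (nat_lit 6) (nat_lit 83) (nat_lit 2) (nat_lit 202) (nat_lit 206) (nat_lit 192)) (PT.lf (nat_lit 6080) (nat_lit 6) (nat_lit 80) (nat_lit 2) (nat_lit 203) (nat_lit 206) (nat_lit 191))) (PT.nd (nat_lit 78) (PT.lf (nat_lit 5852) (nat_lit 6) (nat_lit 77) (nat_lit 2) (nat_lit 204) (nat_lit 206) (nat_lit 190)) (PT.nd (nat_lit 78) (PT.lf (nat_lit 5624) (nat_lit 6) (nat_lit 74) (nat_lit 2) (nat_lit 205) (nat_lit 206) (nat_lit 189)) (PT.lf (nat_lit 5396) (nat_lit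 3) (nat_lit 71) (nat_lit 0) (nat_lit 206) (nat_lit 206) (nat_lit 188))))))) (PT.nd (nat_lit 61074) (PT.nd (nat_lit 60684) (PT.nd (nat_lit 156) (PT.nd (nat_lit 78) (PT.lf (nat_lit 5168) (nat_lit 6) (nat_lit 68) (nat_lit 0) (nat_lit 207) (nat_lit 206) (nat_lit 187)) (PT.lf (nat_lit 4940) (nat_lit 6) (nat_lit 65) (nat_lit 0) (nat_lit 208) (nat_lit 206) (nat_lit 186))) (PT.nd (nat_lit 60450) (PT.lf (nat_lit 4712) (nat_lit 6) (nat_lit 62) (nat_lit 0) (nat_lit 209) (nat_lit 206) (nat_lit 185)) (PT.lf (nat_lit 4408) (nat_lit 6) (nat_lit 58) (nat_lit 5) (nat_lit 183) (nat_lit 207) (nat_lit 210)))) (PT.nd (nat_lit 156) (PT.nd (nat_lit 78) (PT.lf (nat_lit 4560) (nat_lit 6) (nat_lit 60) (nat_lit 5) (nat_lit 184) (nat_lit 207) (nat_lit 209)) (PT.lf (nat_lit 4788) (nat_lit 6) (nat_lit 63) (nat_lit 5) (nat_lit 185) (nat_lit 207) (nat_lit 208))) (PT.nd (nat_lit 78) (PT.lf (nat_lit 5016) (nat_lit 3) (nat_lit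 66) (nat_lit 4) (nat_lit 186) (nat_lit 207) (nat_lit 207)) (PT.nd (nat_lit 78) (PT.lf (nat_lit 5168) (nat_lit 6) (nat_lit 68) (nat_lit 4) (nat_lit 187) (nat_lit 207) (nat_lit 206)) (PT.lf (nat_lit 5320) (nat_lit 6) (nat_lit 70) (nat_lit 4) (nat_lit 188) (nat_lit 207) (nat_lit 205)))))) (PT.nd (nat_lit 390) (PT.nd (nat_lit 156) (PT.nd (nat_lit 78) (PT.lf (nat_lit 5548) (nat_lit 6) (nat_lit 73) (nat_lit 4) (nat_lit 189) (nat_lit 207) (nat_lit 204)) (PT.lf (nat_lit 5776) (nat_lit 6) (nat_lit 76) (nat_lit 4) (nat_lit 190) (nat_lit 207) (nat_lit 203))) (PT.nd (nat_lit 78) (PT.lf (nat_lit 6004) (nat_lit 6) (nat_lit 79) (nat_lit 4) (nat_lit 191) (nat_lit 207) (nat_lit 202)) (PT.nd (nat_lit 78) (PT.lf (nat_lit 6232) (nat_lit 6) (nat_lit 82) (nat_lit 4) (nat_lit 192) (nat_lit 207) (nat_lit 201)) (PT.lf (nat_lit 6764) (nat_lit 6) (nat_lit 89) (nat_lit 4) (nat_lit 193) (nat_lit 207) (nat_lit 200)))))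 (PT.nd (nat_lit 156) (PT.nd (nat_lit 78) (PT.lf (nat_lit 6688) (nat_lit 6) (nat_lit 88) (nat_lit 4) (nat_lit 194) (nat_lit 207) (nat_lit 199)) (PT.lf (nat_lit 6612) (nat_lit 6) (nat_lit 87) (nat_lit 4) (nat_lit 195) (nat_lit 207) (nat_lit 198))) (PT.nd (nat_lit 78) (PT.lf (nat_lit 6536) (nat_lit 6) (nat_lit 86) (nat_lit 4) (nat_lit 196) (nat_lit 207) (nat_lit 197)) (PT.nd (nat_lit 78) (PT.lf (nat_lit 6536) (nat_lit 6) (nat_lit 86) (nat_lit 2) (nat_lit 197) (nat_lit 207) (nat_lit 196)) (PT.lf (nat_lit 6612) (nat_lit 6) (nat_lit 87) (nat_lit 2) (nat_lit 198) (nat_lit 207) (nat_lit 195))))))))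
noncomputable def pc10 : PT := (PT.nd (nat_lit 61620) (PT.nd (nat_lit 702) (PT.nd (nat_lit 312) (PT.nd (nat_lit 156) (PT.nd (nat_lit 78) (PT.lf (nat_lit 6688) (nat_lit 6) (nat_lit 88) (nat_lit 2) (nat_lit 199) (nat_lit 207) (nat_lit 194)) (PT.lf (nat_lit 6764) (nat_lit 6) (nat_lit 89) (nat_lit 2) (nat_lit 200) (nat_lit 207) (nat_lit 193))) (PT.nd (nat_lit 78) (PT.lf (nat_lit 6232) (nat_lit 6) (nat_lit 82) (nat_lit 2) (nat_lit 201) (nat_lit 207) (nat_lit 192)) (PT.lf (nat_lit 6004) (nat_lit 6) (nat_lit 79) (nat_lit 2) (nat_lit 202) (nat_lit 207) (nat_lit 191)))) (PT.nd (nat_lit 156) (PT.nd (nat_lit 78) (PT.lf (nat_lit 5776) (nat_lit 6) (nat_lit 76) (nat_lit 2) (nat_lit 203) (nat_lit 207) (nat_lit 190)) (PT.lf (nat_lit 5548) (nat_lit 6) (nat_lit 73) (nat_lit 2) (nat_lit 204) (nat_lit 207) (nat_lit 189))) (PT.nd (nat_lit 78) (PT.lf (nat_lit 5320) (nat_lit 6) (nat_lit 70) (nat_lit 2) (nat_lit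 205) (nat_lit 207) (nat_lit 188)) (PT.nd (nat_lit 78) (PT.lf (nat_lit 5168) (nat_lit 6) (nat_lit 68) (nat_lit 2) (nat_lit 206) (nat_lit 207) (nat_lit 187)) (PT.lf (nat_lit 5016) (nat_lit 3) (nat_lit 66) (nat_lit 0) (nat_lit 207) (nat_lit 207) (nat_lit 186)))))) (PT.nd (nat_lit 60528) (PT.nd (nat_lit 156) (PT.nd (nat_lit 78) (PT.lf (nat_lit 4788) (nat_lit 6) (nat_lit 63) (nat_lit 0) (nat_lit 208) (nat_lit 207) (nat_lit 185)) (PT.lf (nat_lit 4560) (nat_lit 6) (nat_lit 60) (nat_lit 0) (nat_lit 209) (nat_lit 207) (nat_lit 184))) (PT.nd (nat_lit 60216) (PT.lf (nat_lit 4408) (nat_lit 6) (nat_lit 58) (nat_lit 0) (nat_lit 210) (nat_lit 207) (nat_lit 183)) (PT.nd (nat_lit 78) (PT.lf (nat_lit 4104) (nat_lit 6) (nat_lit 54) (nat_lit 5) (nat_lit 181) (nat_lit 208) (nat_lit 211)) (PT.lf (nat_lit 4256) (nat_lit 6) (nat_lit 56) (nat_lit 5) (nat_lit 182) (nat_lit 208) (nat_lit 210))))) (PT.nd (nat_lit 156)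 (PT.nd (nat_lit 78) (PT.lf (nat_lit 4484) (nat_lit 6) (nat_lit 59) (nat_lit 5) (nat_lit 183) (nat_lit 208) (nat_lit 209)) (PT.lf (nat_lit 4636) (nat_lit 3) (nat_lit 61) (nat_lit 4) (nat_lit 184) (nat_lit 208) (nat_lit 208))) (PT.nd (nat_lit 78) (PT.lf (nat_lit 4788) (nat_lit 6) (nat_lit 63) (nat_lit 4) (nat_lit 185) (nat_lit 208) (nat_lit 207)) (PT.nd (nat_lit 78) (PT.lf (nat_lit 4940) (nat_lit 6) (nat_lit 65) (nat_lit 4) (nat_lit 186) (nat_lit 208) (nat_lit 206)) (PT.lf (nat_lit 5092) (nat_lit 6) (nat_lit 67) (nat_lit 4) (nat_lit 187) (nat_lit 208) (nat_lit 205))))))) (PT.nd (nat_lit 1560) (PT.nd (nat_lit 1170) (PT.nd (nat_lit 156) (PT.nd (nat_lit 78) (PT.lf (nat_lit 5244) (nat_lit 6) (nat_lit 69) (nat_lit 4) (nat_lit 188) (nat_lit 208) (nat_lit 204)) (PT.lf (nat_lit 5472) (nat_lit 6) (nat_lit 72) (nat_lit 4) (nat_lit 189) (nat_lit 208) (nat_lit 203))) (PT.nd (nat_lit 936) (PT.lf (nat_lit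 5700) (nat_lit 6) (nat_lit 75) (nat_lit 4) (nat_lit 190) (nat_lit 208) (nat_lit 202)) (PT.lf (nat_lit 5700) (nat_lit 6) (nat_lit 75) (nat_lit 2) (nat_lit 202) (nat_lit 208) (nat_lit 190)))) (PT.nd (nat_lit 156) (PT.nd (nat_lit 78) (PT.lf (nat_lit 5472) (nat_lit 6) (nat_lit 72) (nat_lit 2) (nat_lit 203) (nat_lit 208) (nat_lit 189)) (PT.lf (nat_lit 5244) (nat_lit 6) (nat_lit 69) (nat_lit 2) (nat_lit 204) (nat_lit 208) (nat_lit 188))) (PT.nd (nat_lit 78) (PT.lf (nat_lit 5092) (nat_lit 6) (nat_lit 67) (nat_lit 2) (nat_lit 205) (nat_lit 208) (nat_lit 187)) (PT.nd (nat_lit 78) (PT.lf (nat_lit 4940) (nat_lit 6) (nat_lit 65) (nat_lit 2) (nat_lit 206) (nat_lit 208) (nat_lit 186)) (PT.lf (nat_lit 4788) (nat_lit 6) (nat_lit 63) (nat_lit 2) (nat_lit 207) (nat_lit 208) (nat_lit 185)))))) (PT.nd (nat_lit 60294) (PT.nd (nat_lit 156) (PT.nd (nat_lit 78) (PT.lf (nat_lit 4636) (nat_lit 3) (nat_lit 61) (nat_lit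 0) (nat_lit 208) (nat_lit 208) (nat_lit 184)) (PT.lf (nat_lit 4484) (nat_lit 6) (nat_lit 59) (nat_lit 0) (nat_lit 209) (nat_lit 208) (nat_lit 183))) (PT.nd (nat_lit 78) (PT.lf (nat_lit 4256) (nat_lit 6) (nat_lit 56) (nat_lit 0) (nat_lit 210) (nat_lit 208) (nat_lit 182)) (PT.nd (nat_lit 59982) (PT.lf (nat_lit 4104) (nat_lit 6) (nat_lit 54) (nat_lit 0) (nat_lit 211) (nat_lit 208) (nat_lit 181)) (PT.lf (nat_lit 3800) (nat_lit 6) (nat_lit 50) (nat_lit 5) (nat_lit 179) (nat_lit 209) (nat_lit 212))))) (PT.nd (nat_lit 156) (PT.nd (nat_lit 78) (PT.lf (nat_lit 3952) (nat_lit 6) (nat_lit 52) (nat_lit 5) (nat_lit 180) (nat_lit 209) (nat_lit 211)) (PT.lf (nat_lit 4180) (nat_lit 6) (nat_lit 55) (nat_lit 5) (nat_lit 181) (nat_lit 209) (nat_lit 210))) (PT.nd (nat_lit 78) (PT.lf (nat_lit 4332) (nat_lit 3) (nat_lit 57) (nat_lit 4) (nat_lit 182) (nat_lit 209) (nat_lit 209)) (PT.nd (nat_lit 78) (PT.lf (nat_lit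 4484) (nat_lit 6) (nat_lit 59) (nat_lit 4) (nat_lit 183) (nat_lit 209) (nat_lit 208)) (PT.lf (nat_lit 4560) (nat_lit 6) (nat_lit 60) (nat_lit 4) (nat_lit 184) (nat_lit 209) (nat_lit 207))))))))
noncomputable def pc11 : PT := (PT.nd (nat_lit 64428) (PT.nd (nat_lit 2106) (PT.nd (nat_lit 1716) (PT.nd (nat_lit 1560) (PT.nd (nat_lit 78) (PT.lf (nat_lit 4712) (nat_lit 6) (nat_lit 62) (nat_lit 4) (nat_lit 185) (nat_lit 209) (nat_lit 206)) (PT.lf (nat_lit 4864) (nat_lit 6) (nat_lit 64) (nat_lit 4) (nat_lit 186) (nat_lit 209) (nat_lit 205))) (PT.nd (nat_lit 78) (PT.lf (nat_lit 4864) (nat_lit 6) (nat_lit 64) (nat_lit 2) (nat_lit 205) (nat_lit 209) (nat_lit 186)) (PT.lf (nat_lit 4712) (nat_lit 6) (nat_lit 62) (nat_lit 2) (nat_lit 206) (nat_lit 209) (nat_lit 185)))) (PT.nd (nat_lit 156) (PT.nd (nat_lit 78) (PT.lf (nat_lit 4560) (nat_lit 6) (nat_lit 60) (nat_lit 2) (nat_lit 207) (nat_lit 209) (nat_lit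 184)) (PT.lf (nat_lit 4484) (nat_lit 6) (nat_lit 59) (nat_lit 2) (nat_lit 208) (nat_lit 209) (nat_lit 183))) (PT.nd (nat_lit 78) (PT.lf (nat_lit 4332) (nat_lit 3) (nat_lit 57) (nat_lit 0) (nat_lit 209) (nat_lit 209) (nat_lit 182)) (PT.nd (nat_lit 78) (PT.lf (nat_lit 4180) (nat_lit 6) (nat_lit 55) (nat_lit 0) (nat_lit 210) (nat_lit 209) (nat_lit 181)) (PT.lf (nat_lit 3952) (nat_lit 6) (nat_lit 52) (nat_lit 0) (nat_lit 211) (nat_lit 209) (nat_lit 180)))))) (PT.nd (nat_lit 60138) (PT.nd (nat_lit 59904) (PT.nd (nat_lit 59826) (PT.lf (nat_lit 3800) (nat_lit 6) (nat_lit 50) (nat_lit 0) (nat_lit 212) (nat_lit 209) (nat_lit 179)) (PT.lf (nat_lit 3648) (nat_lit 6) (nat_lit 48) (nat_lit 5) (nat_lit 178) (nat_lit 210) (nat_lit 212))) (PT.nd (nat_lit 78) (PT.lf (nat_lit 3876) (nat_lit 6) (nat_lit 51) (nat_lit 5) (nat_lit 179) (nat_lit 210) (nat_lit 211)) (PT.nd (nat_lit 78) (PT.lf (nat_lit 4028) (nat_lit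 3) (nat_lit 53) (nat_lit 4) (nat_lit 180) (nat_lit 210) (nat_lit 210)) (PT.lf (nat_lit 4180) (nat_lit 6) (nat_lit 55) (nat_lit 4) (nat_lit 181) (nat_lit 210) (nat_lit 209))))) (PT.nd (nat_lit 1950) (PT.nd (nat_lit 78) (PT.lf (nat_lit 4256) (nat_lit 6) (nat_lit 56) (nat_lit 4) (nat_lit 182) (nat_lit 210) (nat_lit 208)) (PT.lf (nat_lit 4408) (nat_lit 6) (nat_lit 58) (nat_lit 4) (nat_lit 183) (nat_lit 210) (nat_lit 207))) (PT.nd (nat_lit 78) (PT.lf (nat_lit 4408) (nat_lit 6) (nat_lit 58) (nat_lit 2) (nat_lit 207) (nat_lit 210) (nat_lit 183)) (PT.nd (nat_lit 78) (PT.lf (nat_lit 4256) (nat_lit 6) (nat_lit 56) (nat_lit 2) (nat_lit 208) (nat_lit 210) (nat_lit 182)) (PT.lf (nat_lit 4180) (nat_lit 6) (nat_lit 55) (nat_lit 2) (nat_lit 209) (nat_lit 210) (nat_lit 181))))))) (PT.nd (nat_lit 62322) (PT.nd (nat_lit 59904) (PT.nd (nat_lit 156) (PT.nd (nat_lit 78) (PT.lf (nat_lit 4028) (nat_lit 3) (nat_lit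 53) (nat_lit 0) (nat_lit 210) (nat_lit 210) (nat_lit 180)) (PT.lf (nat_lit 3876) (nat_lit 6) (nat_lit 51) (nat_lit 0) (nat_lit 211) (nat_lit 210) (nat_lit 179))) (PT.nd (nat_lit 59670) (PT.lf (nat_lit 3648) (nat_lit 6) (nat_lit 48) (nat_lit 0) (nat_lit 212) (nat_lit 210) (nat_lit 178)) (PT.lf (nat_lit 3420) (nat_lit 6) (nat_lit 45) (nat_lit 5) (nat_lit 176) (nat_lit 211) (nat_lit 213)))) (PT.nd (nat_lit 156) (PT.nd (nat_lit 78) (PT.lf (nat_lit 3572) (nat_lit 6) (nat_lit 47) (nat_lit 5) (nat_lit 177) (nat_lit 211) (nat_lit 212)) (PT.lf (nat_lit 3724) (nat_lit 3) (nat_lit 49) (nat_lit 4) (nat_lit 178) (nat_lit 211) (nat_lit 211))) (PT.nd (nat_lit 78) (PT.lf (nat_lit 3876) (nat_lit 6) (nat_lit 51) (nat_lit 4) (nat_lit 179) (nat_lit 211) (nat_lit 210)) (PT.nd (nat_lit 78) (PT.lf (nat_lit 3952) (nat_lit 6) (nat_lit 52) (nat_lit 4) (nat_lit 180) (nat_lit 211) (nat_lit 209)) (PT.lf (nat_lit 4104)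 (nat_lit 6) (nat_lit 54) (nat_lit 4) (nat_lit 181) (nat_lit 211) (nat_lit 208)))))) (PT.nd (nat_lit 390) (PT.nd (nat_lit 156) (PT.nd (nat_lit 78) (PT.lf (nat_lit 4104) (nat_lit 6) (nat_lit 54) (nat_lit 2) (nat_lit 208) (nat_lit 211) (nat_lit 181)) (PT.lf (nat_lit 3952) (nat_lit 6) (nat_lit 52) (nat_lit 2) (nat_lit 209) (nat_lit 211) (nat_lit 180))) (PT.nd (nat_lit 78) (PT.lf (nat_lit 3876) (nat_lit 6) (nat_lit 51) (nat_lit 2) (nat_lit 210) (nat_lit 211) (nat_lit 179)) (PT.nd (nat_lit 78) (PT.lf (nat_lit 3724) (nat_lit 3) (nat_lit 49) (nat_lit 0) (nat_lit 211) (nat_lit 211) (nat_lit 178)) (PT.lf (nat_lit 3572) (nat_lit 6) (nat_lit 47) (nat_lit 0) (nat_lit 212) (nat_lit 211) (nat_lit 177))))) (PT.nd (nat_lit 59514) (PT.nd (nat_lit 59436) (PT.lf (nat_lit 3420) (nat_lit 6) (nat_lit 45) (nat_lit 0) (nat_lit 213) (nat_lit 211) (nat_lit 176)) (PT.lf (nat_lit 3192) (nat_lit 6) (nat_lit 42) (nat_lit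 5) (nat_lit 174) (nat_lit 212) (nat_lit 214))) (PT.nd (nat_lit 78) (PT.lf (nat_lit 3344) (nat_lit 6) (nat_lit 44) (nat_lit 5) (nat_lit 175) (nat_lit 212) (nat_lit 213)) (PT.nd (nat_lit 78) (PT.lf (nat_lit 3496) (nat_lit 3) (nat_lit 46) (nat_lit 4) (nat_lit 176) (nat_lit 212) (nat_lit 212)) (PT.lf (nat_lit 3572) (nat_lit 6) (nat_lit 47) (nat_lit 4) (nat_lit 177) (nat_lit 212) (nat_lit 211))))))))
noncomputable def pc12 : PT := (PT.nd (nat_lit 124410) (PT.nd (nat_lit 62088) (PT.nd (nat_lit 2574) (PT.nd (nat_lit 2418) (PT.nd (nat_lit 78) (PT.lf (nat_lit 3648) (nat_lit 6) (nat_lit 48) (nat_lit 4) (nat_lit 178) (nat_lit 212) (nat_lit 210)) (PT.lf (nat_lit 3800) (nat_lit 6) (nat_lit 50) (nat_lit 4) (nat_lit 179) (nat_lit 212) (nat_lit 209))) (PT.nd (nat_lit 78) (PT.lf (nat_lit 3800) (nat_lit 6) (nat_lit 50) (nat_lit 2) (nat_lit 209) (nat_lit 212) (nat_lit 179)) (PT.lf (nat_lit 3648) (nat_lit 6)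 (nat_lit 48) (nat_lit 2) (nat_lit 210) (nat_lit 212) (nat_lit 178)))) (PT.nd (nat_lit 156) (PT.nd (nat_lit 78) (PT.lf (nat_lit 3572) (nat_lit 6) (nat_lit 47) (nat_lit 2) (nat_lit 211) (nat_lit 212) (nat_lit 177)) (PT.lf (nat_lit 3496) (nat_lit 3) (nat_lit 46) (nat_lit 0) (nat_lit 212) (nat_lit 212) (nat_lit 176))) (PT.nd (nat_lit 78) (PT.lf (nat_lit 3344) (nat_lit 6) (nat_lit 44) (nat_lit 0) (nat_lit 213) (nat_lit 212) (nat_lit 175)) (PT.nd (nat_lit 59202) (PT.lf (nat_lit 3192) (nat_lit 6) (nat_lit 42) (nat_lit 0) (nat_lit 214) (nat_lit 212) (nat_lit 174)) (PT.lf (nat_lit 2964) (nat_lit 6) (nat_lit 39) (nat_lit 5) (nat_lit 172) (nat_lit 213) (nat_lit 215)))))) (PT.nd (nat_lit 3042) (PT.nd (nat_lit 156) (PT.nd (nat_lit 78) (PT.lf (nat_lit 3116) (nat_lit 6) (nat_lit 41) (nat_lit 5) (nat_lit 173) (nat_lit 213) (nat_lit 214)) (PT.lf (nat_lit 3268) (nat_lit 3) (nat_lit 43) (nat_lit 4) (nat_lit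 174) (nat_lit 213) (nat_lit 213))) (PT.nd (nat_lit 78) (PT.lf (nat_lit 3344) (nat_lit 6) (nat_lit 44) (nat_lit 4) (nat_lit 175) (nat_lit 213) (nat_lit 212)) (PT.nd (nat_lit 2730) (PT.lf (nat_lit 3420) (nat_lit 6) (nat_lit 45) (nat_lit 4) (nat_lit 176) (nat_lit 213) (nat_lit 211)) (PT.lf (nat_lit 3420) (nat_lit 6) (nat_lit 45) (nat_lit 2) (nat_lit 211) (nat_lit 213) (nat_lit 176))))) (PT.nd (nat_lit 156) (PT.nd (nat_lit 78) (PT.lf (nat_lit 3344) (nat_lit 6) (nat_lit 44) (nat_lit 2) (nat_lit 212) (nat_lit 213) (nat_lit 175)) (PT.lf (nat_lit 3268) (nat_lit 3) (nat_lit 43) (nat_lit 0) (nat_lit 213) (nat_lit 213) (nat_lit 174))) (PT.nd (nat_lit 78) (PT.lf (nat_lit 3116) (nat_lit 6) (nat_lit 41) (nat_lit 0) (nat_lit 214) (nat_lit 213) (nat_lit 173)) (PT.nd (nat_lit 58968) (PT.lf (nat_lit 2964) (nat_lit 6) (nat_lit 39) (nat_lit 0) (nat_lit 215) (nat_lit 213) (nat_lit 172)) (PT.lf (nat_lit 2736)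 (nat_lit 6) (nat_lit 36) (nat_lit 5) (nat_lit 170) (nat_lit 214) (nat_lit 216))))))) (PT.nd (nat_lit 62244) (PT.nd (nat_lit 3198) (PT.nd (nat_lit 156) (PT.nd (nat_lit 78) (PT.lf (nat_lit 2888) (nat_lit 6) (nat_lit 38) (nat_lit 5) (nat_lit 171) (nat_lit 214) (nat_lit 215)) (PT.lf (nat_lit 3040) (nat_lit 3) (nat_lit 40) (nat_lit 4) (nat_lit 172) (nat_lit 214) (nat_lit 214))) (PT.nd (nat_lit 78) (PT.lf (nat_lit 3116) (nat_lit 6) (nat_lit 41) (nat_lit 4) (nat_lit 173) (nat_lit 214) (nat_lit 213)) (PT.lf (nat_lit 3192) (nat_lit 6) (nat_lit 42) (nat_lit 4) (nat_lit 174) (nat_lit 214) (nat_lit 212)))) (PT.nd (nat_lit 156) (PT.nd (nat_lit 78) (PT.lf (nat_lit 3192) (nat_lit 6) (nat_lit 42) (nat_lit 2) (nat_lit 212) (nat_lit 214) (nat_lit 174)) (PT.lf (nat_lit 3116) (nat_lit 6) (nat_lit 41) (nat_lit 2) (nat_lit 213) (nat_lit 214) (nat_lit 173))) (PT.nd (nat_lit 78) (PT.lf (nat_lit 3040) (nat_lit 3)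 (nat_lit 40) (nat_lit 0) (nat_lit 214) (nat_lit 214) (nat_lit 172)) (PT.nd (nat_lit 78) (PT.lf (nat_lit 2888) (nat_lit 6) (nat_lit 38) (nat_lit 0) (nat_lit 215) (nat_lit 214) (nat_lit 171)) (PT.lf (nat_lit 2736) (nat_lit 6) (nat_lit 36) (nat_lit 0) (nat_lit 216) (nat_lit 214) (nat_lit 170)))))) (PT.nd (nat_lit 3510) (PT.nd (nat_lit 156) (PT.nd (nat_lit 78) (PT.lf (nat_lit 2508) (nat_lit 6) (nat_lit 33) (nat_lit 5) (nat_lit 168) (nat_lit 215) (nat_lit 217)) (PT.lf (nat_lit 2660) (nat_lit 6) (nat_lit 35) (nat_lit 5) (nat_lit 169) (nat_lit 215) (nat_lit 216))) (PT.nd (nat_lit 78) (PT.lf (nat_lit 2812) (nat_lit 3) (nat_lit 37) (nat_lit 4) (nat_lit 170) (nat_lit 215) (nat_lit 215)) (PT.nd (nat_lit 78) (PT.lf (nat_lit 2888) (nat_lit 6) (nat_lit 38) (nat_lit 4) (nat_lit 171) (nat_lit 215) (nat_lit 214)) (PT.lf (nat_lit 2964) (nat_lit 6) (nat_lit 39) (nat_lit 4) (nat_lit 172) (nat_lit 215) (nat_lit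 213))))) (PT.nd (nat_lit 156) (PT.nd (nat_lit 78) (PT.lf (nat_lit 2964) (nat_lit 6) (nat_lit 39) (nat_lit 2) (nat_lit 213) (nat_lit 215) (nat_lit 172)) (PT.lf (nat_lit 2888) (nat_lit 6) (nat_lit 38) (nat_lit 2) (nat_lit 214) (nat_lit 215) (nat_lit 171))) (PT.nd (nat_lit 78) (PT.lf (nat_lit 2812) (nat_lit 3) (nat_lit 37) (nat_lit 0) (nat_lit 215) (nat_lit 215) (nat_lit 170)) (PT.nd (nat_lit 78) (PT.lf (nat_lit 2660) (nat_lit 6) (nat_lit 35) (nat_lit 0) (nat_lit 216) (nat_lit 215) (nat_lit 169)) (PT.lf (nat_lit 2508) (nat_lit 6) (nat_lit 33) (nat_lit 0) (nat_lit 217) (nat_lit 215) (nat_lit 168))))))))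
noncomputable def pc13 : PT := (PT.nd (nat_lit 66612) (PT.nd (nat_lit 4056) (PT.nd (nat_lit 312) (PT.nd (nat_lit 156) (PT.nd (nat_lit 78) (PT.lf (nat_lit 2280) (nat_lit 6) (nat_lit 30) (nat_lit 5) (nat_lit 166) (nat_lit 216) (nat_lit 218)) (PT.lf (nat_lit 2432) (nat_lit 6) (nat_lit 32) (nat_lit 5) (nat_lit 167) (nat_lit 216) (nat_lit 217))) (PT.nd (nat_lit 78) (PT.lf (nat_lit 2584) (nat_lit 3) (nat_lit 34) (nat_lit 4) (nat_lit 168) (nat_lit 216) (nat_lit 216)) (PT.lf (nat_lit 2660) (nat_lit 6) (nat_lit 35) (nat_lit 4) (nat_lit 169) (nat_lit 216) (nat_lit 215)))) (PT.nd (nat_lit 3510) (PT.nd (nat_lit 3432) (PT.lf (nat_lit 2736) (nat_lit 6) (nat_lit 36) (nat_lit 4) (nat_lit 170) (nat_lit 216) (nat_lit 214)) (PT.lf (nat_lit 2736) (nat_lit 6) (nat_lit 36) (nat_lit 2) (nat_lit 214) (nat_lit 216) (nat_lit 170))) (PT.nd (nat_lit 78) (PT.lf (nat_lit 2660) (nat_lit 6) (nat_lit 35) (nat_lit 2) (nat_lit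 215) (nat_lit 216) (nat_lit 169)) (PT.nd (nat_lit 78) (PT.lf (nat_lit 2584) (nat_lit 3) (nat_lit 34) (nat_lit 0) (nat_lit 216) (nat_lit 216) (nat_lit 168)) (PT.lf (nat_lit 2432) (nat_lit 6) (nat_lit 32) (nat_lit 0) (nat_lit 217) (nat_lit 216) (nat_lit 167)))))) (PT.nd (nat_lit 58578) (PT.nd (nat_lit 58344) (PT.nd (nat_lit 58266) (PT.lf (nat_lit 2280) (nat_lit 6) (nat_lit 30) (nat_lit 0) (nat_lit 218) (nat_lit 216) (nat_lit 166)) (PT.lf (nat_lit 2052) (nat_lit 6) (nat_lit 27) (nat_lit 5) (nat_lit 164) (nat_lit 217) (nat_lit 219))) (PT.nd (nat_lit 78) (PT.lf (nat_lit 2204) (nat_lit 6) (nat_lit 29) (nat_lit 5) (nat_lit 165) (nat_lit 217) (nat_lit 218)) (PT.nd (nat_lit 78) (PT.lf (nat_lit 2356) (nat_lit 3) (nat_lit 31) (nat_lit 4) (nat_lit 166) (nat_lit 217) (nat_lit 217)) (PT.lf (nat_lit 2432) (nat_lit 6) (nat_lit 32) (nat_lit 4) (nat_lit 167) (nat_lit 217) (nat_lit 216))))) (PT.nd (nat_lit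 3744) (PT.nd (nat_lit 3666) (PT.lf (nat_lit 2508) (nat_lit 6) (nat_lit 33) (nat_lit 4) (nat_lit 168) (nat_lit 217) (nat_lit 215)) (PT.lf (nat_lit 2508) (nat_lit 6) (nat_lit 33) (nat_lit 2) (nat_lit 215) (nat_lit 217) (nat_lit 168))) (PT.nd (nat_lit 78) (PT.lf (nat_lit 2432) (nat_lit 6) (nat_lit 32) (nat_lit 2) (nat_lit 216) (nat_lit 217) (nat_lit 167)) (PT.nd (nat_lit 78) (PT.lf (nat_lit 2356) (nat_lit 3) (nat_lit 31) (nat_lit 0) (nat_lit 217) (nat_lit 217) (nat_lit 166)) (PT.lf (nat_lit 2204) (nat_lit 6) (nat_lit 29) (nat_lit 0) (nat_lit 218) (nat_lit 217) (nat_lit 165))))))) (PT.nd (nat_lit 62478) (PT.nd (nat_lit 58266) (PT.nd (nat_lit 58110) (PT.nd (nat_lit 58032) (PT.lf (nat_lit 2052) (nat_lit 6) (nat_lit 27) (nat_lit 0) (nat_lit 219) (nat_lit 217) (nat_lit 164)) (PT.lf (nat_lit 1824) (nat_lit 6) (nat_lit 24) (nat_lit 5) (nat_lit 162) (nat_lit 218) (nat_lit 220))) (PT.nd (nat_lit 78)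 (PT.lf (nat_lit 1976) (nat_lit 6) (nat_lit 26) (nat_lit 5) (nat_lit 163) (nat_lit 218) (nat_lit 219)) (PT.lf (nat_lit 2128) (nat_lit 3) (nat_lit 28) (nat_lit 4) (nat_lit 164) (nat_lit 218) (nat_lit 218)))) (PT.nd (nat_lit 3978) (PT.nd (nat_lit 78) (PT.lf (nat_lit 2204) (nat_lit 6) (nat_lit 29) (nat_lit 4) (nat_lit 165) (nat_lit 218) (nat_lit 217)) (PT.lf (nat_lit 2280) (nat_lit 6) (nat_lit 30) (nat_lit 4) (nat_lit 166) (nat_lit 218) (nat_lit 216))) (PT.nd (nat_lit 78) (PT.lf (nat_lit 2280) (nat_lit 6) (nat_lit 30) (nat_lit 2) (nat_lit 216) (nat_lit 218) (nat_lit 166)) (PT.nd (nat_lit 78) (PT.lf (nat_lit 2204) (nat_lit 6) (nat_lit 29) (nat_lit 2) (nat_lit 217) (nat_lit 218) (nat_lit 165)) (PT.lf (nat_lit 2128) (nat_lit 3) (nat_lit 28) (nat_lit 0) (nat_lit 218) (nat_lit 218) (nat_lit 164)))))) (PT.nd (nat_lit 58110) (PT.nd (nat_lit 57876) (PT.nd (nat_lit 78) (PT.lf (nat_lit 1976) (nat_lit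 6) (nat_lit 26) (nat_lit 0) (nat_lit 219) (nat_lit 218) (nat_lit 163)) (PT.lf (nat_lit 1824) (nat_lit 6) (nat_lit 24) (nat_lit 0) (nat_lit 220) (nat_lit 218) (nat_lit 162))) (PT.nd (nat_lit 78) (PT.lf (nat_lit 1596) (nat_lit 6) (nat_lit 21) (nat_lit 5) (nat_lit 160) (nat_lit 219) (nat_lit 221)) (PT.nd (nat_lit 78) (PT.lf (nat_lit 1748) (nat_lit 6) (nat_lit 23) (nat_lit 5) (nat_lit 161) (nat_lit 219) (nat_lit 220)) (PT.lf (nat_lit 1900) (nat_lit 3) (nat_lit 25) (nat_lit 4) (nat_lit 162) (nat_lit 219) (nat_lit 219))))) (PT.nd (nat_lit 4212) (PT.nd (nat_lit 78) (PT.lf (nat_lit 1976) (nat_lit 6) (nat_lit 26) (nat_lit 4) (nat_lit 163) (nat_lit 219) (nat_lit 218)) (PT.lf (nat_lit 2052) (nat_lit 6) (nat_lit 27) (nat_lit 4) (nat_lit 164) (nat_lit 219) (nat_lit 217))) (PT.nd (nat_lit 78) (PT.lf (nat_lit 2052) (nat_lit 6) (nat_lit 27) (nat_lit 2) (nat_lit 217) (nat_lit 219) (nat_lit 164)) (PT.nd (nat_lit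 78) (PT.lf (nat_lit 1976) (nat_lit 6) (nat_lit 26) (nat_lit 2) (nat_lit 218) (nat_lit 219) (nat_lit 163)) (PT.lf (nat_lit 1900) (nat_lit 3) (nat_lit 25) (nat_lit 0) (nat_lit 219) (nat_lit 219) (nat_lit 162))))))))
noncomputable def pc14 : PT := (PT.nd (nat_lit 125034) (PT.nd (nat_lit 62478) (PT.nd (nat_lit 57798) (PT.nd (nat_lit 57642) (PT.nd (nat_lit 78) (PT.lf (nat_lit 1748) (nat_lit 6) (nat_lit 23) (nat_lit 0) (nat_lit 220) (nat_lit 219) (nat_lit 161)) (PT.lf (nat_lit 1596) (nat_lit 6) (nat_lit 21) (nat_lit 0) (nat_lit 221) (nat_lit 219) (nat_lit 160))) (PT.nd (nat_lit 78) (PT.lf (nat_lit 1368) (nat_lit 6) (nat_lit 18) (nat_lit 5) (nat_lit 158) (nat_lit 220) (nat_lit 222)) (PT.lf (nat_lit 1520) (nat_lit 6) (nat_lit 20) (nat_lit 5) (nat_lit 159) (nat_lit 220) (nat_lit 221)))) (PT.nd (nat_lit 156) (PT.nd (nat_lit 78) (PT.lf (nat_lit 1672) (nat_lit 3) (nat_lit 22) (nat_lit 4) (nat_lit 160)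 (nat_lit 220) (nat_lit 220)) (PT.lf (nat_lit 1748) (nat_lit 6) (nat_lit 23) (nat_lit 4) (nat_lit 161) (nat_lit 220) (nat_lit 219))) (PT.nd (nat_lit 4368) (PT.lf (nat_lit 1824) (nat_lit 6) (nat_lit 24) (nat_lit 4) (nat_lit 162) (nat_lit 220) (nat_lit 218)) (PT.nd (nat_lit 78) (PT.lf (nat_lit 1824) (nat_lit 6) (nat_lit 24) (nat_lit 2) (nat_lit 218) (nat_lit 220) (nat_lit 162)) (PT.lf (nat_lit 1748) (nat_lit 6) (nat_lit 23) (nat_lit 2) (nat_lit 219) (nat_lit 220) (nat_lit 161)))))) (PT.nd (nat_lit 57642) (PT.nd (nat_lit 156) (PT.nd (nat_lit 78) (PT.lf (nat_lit 1672) (nat_lit 3) (nat_lit 22) (nat_lit 0) (nat_lit 220) (nat_lit 220) (nat_lit 160)) (PT.lf (nat_lit 1520) (nat_lit 6) (nat_lit 20) (nat_lit 0) (nat_lit 221) (nat_lit 220) (nat_lit 159))) (PT.nd (nat_lit 57330) (PT.lf (nat_lit 1368) (nat_lit 6) (nat_lit 18) (nat_lit 0) (nat_lit 222) (nat_lit 220) (nat_lit 158)) (PT.nd (nat_lit 78) (PT.lf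 (nat_lit 1140) (nat_lit 6) (nat_lit 15) (nat_lit 5) (nat_lit 156) (nat_lit 221) (nat_lit 223)) (PT.lf (nat_lit 1292) (nat_lit 6) (nat_lit 17) (nat_lit 5) (nat_lit 157) (nat_lit 221) (nat_lit 222))))) (PT.nd (nat_lit 156) (PT.nd (nat_lit 78) (PT.lf (nat_lit 1444) (nat_lit 3) (nat_lit 19) (nat_lit 4) (nat_lit 158) (nat_lit 221) (nat_lit 221)) (PT.lf (nat_lit 1520) (nat_lit 6) (nat_lit 20) (nat_lit 4) (nat_lit 159) (nat_lit 221) (nat_lit 220))) (PT.nd (nat_lit 4602) (PT.lf (nat_lit 1596) (nat_lit 6) (nat_lit 21) (nat_lit 4) (nat_lit 160) (nat_lit 221) (nat_lit 219)) (PT.nd (nat_lit 78) (PT.lf (nat_lit 1596) (nat_lit 6) (nat_lit 21) (nat_lit 2) (nat_lit 219) (nat_lit 221) (nat_lit 160)) (PT.lf (nat_lit 1520) (nat_lit 6) (nat_lit 20) (nat_lit 2) (nat_lit 220) (nat_lit 221) (nat_lit 159))))))) (PT.nd (nat_lit 62478) (PT.nd (nat_lit 57330) (PT.nd (nat_lit 156) (PT.nd (nat_lit 78) (PT.lf (nat_lit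 1444) (nat_lit 3) (nat_lit 19) (nat_lit 0) (nat_lit 221) (nat_lit 221) (nat_lit 158)) (PT.lf (nat_lit 1292) (nat_lit 6) (nat_lit 17) (nat_lit 0) (nat_lit 222) (nat_lit 221) (nat_lit 157))) (PT.nd (nat_lit 57096) (PT.lf (nat_lit 1140) (nat_lit 6) (nat_lit 15) (nat_lit 0) (nat_lit 223) (nat_lit 221) (nat_lit 156)) (PT.lf (nat_lit 912) (nat_lit 6) (nat_lit 12) (nat_lit 5) (nat_lit 154) (nat_lit 222) (nat_lit 224)))) (PT.nd (nat_lit 156) (PT.nd (nat_lit 78) (PT.lf (nat_lit 1064) (nat_lit 6) (nat_lit 14) (nat_lit 5) (nat_lit 155) (nat_lit 222) (nat_lit 223)) (PT.lf (nat_lit 1216) (nat_lit 3) (nat_lit 16) (nat_lit 4) (nat_lit 156) (nat_lit 222) (nat_lit 222))) (PT.nd (nat_lit 78) (PT.lf (nat_lit 1292) (nat_lit 6) (nat_lit 17) (nat_lit 4) (nat_lit 157) (nat_lit 222) (nat_lit 221)) (PT.nd (nat_lit 4836) (PT.lf (nat_lit 1368) (nat_lit 6) (nat_lit 18) (nat_lit 4) (nat_lit 158) (nat_lit 222) (nat_lit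 220)) (PT.lf (nat_lit 1368) (nat_lit 6) (nat_lit 18) (nat_lit 2) (nat_lit 220) (nat_lit 222) (nat_lit 158)))))) (PT.nd (nat_lit 57174) (PT.nd (nat_lit 156) (PT.nd (nat_lit 78) (PT.lf (nat_lit 1292) (nat_lit 6) (nat_lit 17) (nat_lit 2) (nat_lit 221) (nat_lit 222) (nat_lit 157)) (PT.lf (nat_lit 1216) (nat_lit 3) (nat_lit 16) (nat_lit 0) (nat_lit 222) (nat_lit 222) (nat_lit 156))) (PT.nd (nat_lit 78) (PT.lf (nat_lit 1064) (nat_lit 6) (nat_lit 14) (nat_lit 0) (nat_lit 223) (nat_lit 222) (nat_lit 155)) (PT.nd (nat_lit 56862) (PT.lf (nat_lit 912) (nat_lit 6) (nat_lit 12) (nat_lit 0) (nat_lit 224) (nat_lit 222) (nat_lit 154)) (PT.lf (nat_lit 684) (nat_lit 6) (nat_lit 9) (nat_lit 5) (nat_lit 152) (nat_lit 223) (nat_lit 225))))) (PT.nd (nat_lit 156) (PT.nd (nat_lit 78) (PT.lf (nat_lit 836) (nat_lit 6) (nat_lit 11) (nat_lit 5) (nat_lit 153) (nat_lit 223) (nat_lit 224)) (PT.lf (nat_lit 988) (nat_lit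 3) (nat_lit 13) (nat_lit 4) (nat_lit 154) (nat_lit 223) (nat_lit 223))) (PT.nd (nat_lit 78) (PT.lf (nat_lit 1064) (nat_lit 6) (nat_lit 14) (nat_lit 4) (nat_lit 155) (nat_lit 223) (nat_lit 222)) (PT.nd (nat_lit 5070) (PT.lf (nat_lit 1140) (nat_lit 6) (nat_lit 15) (nat_lit 4) (nat_lit 156) (nat_lit 223) (nat_lit 221)) (PT.lf (nat_lit 1140) (nat_lit 6) (nat_lit 15) (nat_lit 2) (nat_lit 221) (nat_lit 223) (nat_lit 156))))))))
noncomputable def pc15 : PT := (PT.nd (nat_lit 125034) (PT.nd (nat_lit 62478) (PT.nd (nat_lit 56862) (PT.nd (nat_lit 156) (PT.nd (nat_lit 78) (PT.lf (nat_lit 1064) (nat_lit 6) (nat_lit 14) (nat_lit 2) (nat_lit 222) (nat_lit 223) (nat_lit 155)) (PT.lf (nat_lit 988) (nat_lit 3) (nat_lit 13) (nat_lit 0) (nat_lit 223) (nat_lit 223) (nat_lit 154))) (PT.nd (nat_lit 78) (PT.lf (nat_lit 836) (nat_lit 6) (nat_lit 11) (nat_lit 0) (nat_lit 224) (nat_lit 223) (nat_lit 153)) (PT.lf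 (nat_lit 684) (nat_lit 6) (nat_lit 9) (nat_lit 0) (nat_lit 225) (nat_lit 223) (nat_lit 152)))) (PT.nd (nat_lit 156) (PT.nd (nat_lit 78) (PT.lf (nat_lit 456) (nat_lit 6) (nat_lit 6) (nat_lit 5) (nat_lit 150) (nat_lit 224) (nat_lit 226)) (PT.lf (nat_lit 608) (nat_lit 6) (nat_lit 8) (nat_lit 5) (nat_lit 151) (nat_lit 224) (nat_lit 225))) (PT.nd (nat_lit 78) (PT.lf (nat_lit 760) (nat_lit 3) (nat_lit 10) (nat_lit 4) (nat_lit 152) (nat_lit 224) (nat_lit 224)) (PT.nd (nat_lit 78) (PT.lf (nat_lit 836) (nat_lit 6) (nat_lit 11) (nat_lit 4) (nat_lit 153) (nat_lit 224) (nat_lit 223)) (PT.lf (nat_lit 912) (nat_lit 6) (nat_lit 12) (nat_lit 4) (nat_lit 154) (nat_lit 224) (nat_lit 222)))))) (PT.nd (nat_lit 56706) (PT.nd (nat_lit 156) (PT.nd (nat_lit 78) (PT.lf (nat_lit 912) (nat_lit 6) (nat_lit 12) (nat_lit 2) (nat_lit 222) (nat_lit 224) (nat_lit 154)) (PT.lf (nat_lit 836) (nat_lit 6) (nat_lit 11) (nat_lit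 2) (nat_lit 223) (nat_lit 224) (nat_lit 153))) (PT.nd (nat_lit 78) (PT.lf (nat_lit 760) (nat_lit 3) (nat_lit 10) (nat_lit 0) (nat_lit 224) (nat_lit 224) (nat_lit 152)) (PT.nd (nat_lit 78) (PT.lf (nat_lit 608) (nat_lit 6) (nat_lit 8) (nat_lit 0) (nat_lit 225) (nat_lit 224) (nat_lit 151)) (PT.lf (nat_lit 456) (nat_lit 6) (nat_lit 6) (nat_lit 0) (nat_lit 226) (nat_lit 224) (nat_lit 150))))) (PT.nd (nat_lit 156) (PT.nd (nat_lit 78) (PT.lf (nat_lit 228) (nat_lit 6) (nat_lit 3) (nat_lit 5) (nat_lit 148) (nat_lit 225) (nat_lit 227)) (PT.lf (nat_lit 380) (nat_lit 6) (nat_lit 5) (nat_lit 5) (nat_lit 149) (nat_lit 225) (nat_lit 226))) (PT.nd (nat_lit 78) (PT.lf (nat_lit 532) (nat_lit 3) (nat_lit 7) (nat_lit 4) (nat_lit 150) (nat_lit 225) (nat_lit 225)) (PT.nd (nat_lit 78) (PT.lf (nat_lit 608) (nat_lit 6) (nat_lit 8) (nat_lit 4) (nat_lit 151) (nat_lit 225) (nat_lit 224)) (PT.lf (nat_lit 684) (nat_lit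 6) (nat_lit 9) (nat_lit 4) (nat_lit 152) (nat_lit 225) (nat_lit 223))))))) (PT.nd (nat_lit 62556) (PT.nd (nat_lit 312) (PT.nd (nat_lit 156) (PT.nd (nat_lit 78) (PT.lf (nat_lit 684) (nat_lit 6) (nat_lit 9) (nat_lit 2) (nat_lit 223) (nat_lit 225) (nat_lit 152)) (PT.lf (nat_lit 608) (nat_lit 6) (nat_lit 8) (nat_lit 2) (nat_lit 224) (nat_lit 225) (nat_lit 151))) (PT.nd (nat_lit 78) (PT.lf (nat_lit 532) (nat_lit 3) (nat_lit 7) (nat_lit 0) (nat_lit 225) (nat_lit 225) (nat_lit 150)) (PT.lf (nat_lit 380) (nat_lit 6) (nat_lit 5) (nat_lit 0) (nat_lit 226) (nat_lit 225) (nat_lit 149)))) (PT.nd (nat_lit 56316) (PT.nd (nat_lit 56238) (PT.lf (nat_lit 228) (nat_lit 6) (nat_lit 3) (nat_lit 0) (nat_lit 227) (nat_lit 225) (nat_lit 148)) (PT.lf (nat_lit 152) (nat_lit 6) (nat_lit 2) (nat_lit 5) (nat_lit 147) (nat_lit 226) (nat_lit 227))) (PT.nd (nat_lit 78) (PT.lf (nat_lit 304) (nat_lit 3) (nat_lit 4) (nat_lit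 4) (nat_lit 148) (nat_lit 226) (nat_lit 226)) (PT.nd (nat_lit 78) (PT.lf (nat_lit 380) (nat_lit 6) (nat_lit 5) (nat_lit 4) (nat_lit 149) (nat_lit 226) (nat_lit 225)) (PT.lf (nat_lit 456) (nat_lit 6) (nat_lit 6) (nat_lit 4) (nat_lit 150) (nat_lit 226) (nat_lit 224)))))) (PT.nd (nat_lit 56472) (PT.nd (nat_lit 156) (PT.nd (nat_lit 78) (PT.lf (nat_lit 456) (nat_lit 6) (nat_lit 6) (nat_lit 2) (nat_lit 224) (nat_lit 226) (nat_lit 150)) (PT.lf (nat_lit 380) (nat_lit 6) (nat_lit 5) (nat_lit 2) (nat_lit 225) (nat_lit 226) (nat_lit 149))) (PT.nd (nat_lit 78) (PT.lf (nat_lit 304) (nat_lit 3) (nat_lit 4) (nat_lit 0) (nat_lit 226) (nat_lit 226) (nat_lit 148)) (PT.nd (nat_lit 56160) (PT.lf (nat_lit 152) (nat_lit 6) (nat_lit 2) (nat_lit 0) (nat_lit 227) (nat_lit 226) (nat_lit 147)) (PT.lf (nat_lit 76) (nat_lit 3) (nat_lit 1) (nat_lit 4) (nat_lit 146) (nat_lit 227) (nat_lit 227))))) (PT.nd (nat_lit 6084)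 (PT.nd (nat_lit 78) (PT.lf (nat_lit 152) (nat_lit 6) (nat_lit 2) (nat_lit 4) (nat_lit 147) (nat_lit 227) (nat_lit 226)) (PT.lf (nat_lit 228) (nat_lit 6) (nat_lit 3) (nat_lit 4) (nat_lit 148) (nat_lit 227) (nat_lit 225))) (PT.nd (nat_lit 78) (PT.lf (nat_lit 228) (nat_lit 6) (nat_lit 3) (nat_lit 2) (nat_lit 225) (nat_lit 227) (nat_lit 148)) (PT.nd (nat_lit 78) (PT.lf (nat_lit 152) (nat_lit 6) (nat_lit 2) (nat_lit 2) (nat_lit 226) (nat_lit 227) (nat_lit 147)) (PT.lf (nat_lit 76) (nat_lit 3) (nat_lit 1) (nat_lit 0) (nat_lit 227) (nat_lit 227) (nat_lit 146))))))))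
noncomputable def xc0 : XT := (XT.nd (nat_lit 311844) (nat_lit 0) (nat_lit 0) (XT.nd (nat_lit 187356) (nat_lit 0) (nat_lit 0) (XT.nd (nat_lit 124878) (nat_lit 0) (nat_lit 0) (XT.nd (nat_lit 62478) (nat_lit 0) (nat_lit 0) (XT.nd (nat_lit 62322) (nat_lit 0) (nat_lit 0) (XT.lf (nat_lit 0) (nat_lit 12699669452896) (nat_lit 76) (nat_lit 1337233267573) (nat_lit 76) (nat_lit 1337233267573) (nat_lit 1) (nat_lit 4) (nat_lit 2) (nat_lit 5) (nat_lit 2) (nat_lit 4) (nat_lit 546) (nat_lit 327) (nat_lit 327)) (XT.nd (nat_lit 78) (nat_lit 0) (nat_lit 0) (XT.lf (nat_lit 0) (nat_lit 10886555084643) (nat_lit 76) (nat_lit 1147170589183) (nat_lit 76) (nat_lit 1147170589183) (nat_lit 1) (nat_lit 4) (nat_lit 2) (nat_lit 5) (nat_lit 2) (nat_lit 4) (nat_lit 544) (nat_lit 328) (nat_lit 328)) (XT.lf (nat_lit 0) (nat_lit 23516508225946) (nat_lit 76) (nat_lit 2477084750117) (nat_lit 76) (nat_lit 2477083173361) (nat_lit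 1) (nat_lit 4) (nat_lit 2) (nat_lit 5) (nat_lit 2) (nat_lit 4) (nat_lit 545) (nat_lit 328) (nat_lit 327)))) (XT.nd (nat_lit 62244) (nat_lit 0) (nat_lit 0) (XT.nd (nat_lit 62166) (nat_lit 0) (nat_lit 0) (XT.lf (nat_lit 0) (nat_lit 25399302589733) (nat_lit 76) (nat_lit 2674486912174) (nat_lit 76) (nat_lit 2674483875459) (nat_lit 1) (nat_lit 4) (nat_lit 2) (nat_lit 5) (nat_lit 2) (nat_lit 4) (nat_lit 546) (nat_lit 328) (nat_lit 326)) (XT.lf (nat_lit 0) (nat_lit 9331992587707) (nat_lit 76) (nat_lit 984279164477) (nat_lit 76) (nat_lit 984279164477) (nat_lit 1) (nat_lit 4) (nat_lit 2) (nat_lit 5) (nat_lit 2) (nat_lit 4) (nat_lit 542) (nat_lit 329) (nat_lit 329))) (XT.nd (nat_lit 78) (nat_lit 0) (nat_lit 0) (XT.lf (nat_lit 0) (nat_lit 20158777172013) (nat_lit 76) (nat_lit 2125174974951) (nat_lit 76) (nat_lit 2125173272054) (nat_lit 1) (nat_lit 4) (nat_lit 2) (nat_lit 5) (nat_lit 2) (nat_lit 4)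 (nat_lit 543) (nat_lit 329) (nat_lit 328)) (XT.lf (nat_lit 0) (nat_lit 21773070947943) (nat_lit 76) (nat_lit 2294363185558) (nat_lit 76) (nat_lit 2294359905906) (nat_lit 1) (nat_lit 4) (nat_lit 2) (nat_lit 5) (nat_lit 2) (nat_lit 4) (nat_lit 544) (nat_lit 329) (nat_lit 327))))) (XT.nd (nat_lit 62166) (nat_lit 0) (nat_lit 0) (XT.nd (nat_lit 78) (nat_lit 0) (nat_lit 0) (XT.lf (nat_lit 0) (nat_lit 23516432688541) (nat_lit 76) (nat_lit 2477125557581) (nat_lit 76) (nat_lit 2477120817969) (nat_lit 1) (nat_lit 4) (nat_lit 2) (nat_lit 5) (nat_lit 2) (nat_lit 4) (nat_lit 545) (nat_lit 329) (nat_lit 326)) (XT.nd (nat_lit 62010) (nat_lit 0) (nat_lit 0) (XT.lf (nat_lit 0) (nat_lit 25399193426347) (nat_lit 76) (nat_lit 2674545127297) (nat_lit 76) (nat_lit 2674539035871) (nat_lit 1) (nat_lit 4) (nat_lit 2) (nat_lit 5) (nat_lit 2) (nat_lit 4) (nat_lit 546) (nat_lit 329) (nat_lit 325)) (XT.lf (nat_lit 0)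 (nat_lit 7999087914042) (nat_lit 76) (nat_lit 844687245372) (nat_lit 76) (nat_lit 844687245372) (nat_lit 1) (nat_lit 4) (nat_lit 2) (nat_lit 5) (nat_lit 2) (nat_lit 4) (nat_lit 540) (nat_lit 330) (nat_lit 330)))) (XT.nd (nat_lit 156) (nat_lit 0) (nat_lit 0) (XT.nd (nat_lit 78) (nat_lit 0) (nat_lit 0) (XT.lf (nat_lit 0) (nat_lit 17279836931501) (nat_lit 76) (nat_lit 1823586988057) (nat_lit 76) (nat_lit 1823585148929) (nat_lit 1) (nat_lit 4) (nat_lit 2) (nat_lit 5) (nat_lit 2) (nat_lit 4) (nat_lit 541) (nat_lit 330) (nat_lit 329)) (XT.lf (nat_lit 0) (nat_lit 18663942816363) (nat_lit 76) (nat_lit 1968582096721) (nat_lit 76) (nat_lit 1968578554697) (nat_lit 1) (nat_lit 4) (nat_lit 2) (nat_lit 5) (nat_lit 2) (nat_lit 4) (nat_lit 542) (nat_lit 330) (nat_lit 328))) (XT.nd (nat_lit 78) (nat_lit 0) (nat_lit 0) (XT.lf (nat_lit 0) (nat_lit 20158695591616) (nat_lit 76) (nat_lit 2125219047011) (nat_lit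 76) (nat_lit 2125213928230) (nat_lit 1) (nat_lit 4) (nat_lit 2) (nat_lit 5) (nat_lit 2) (nat_lit 4) (nat_lit 543) (nat_lit 330) (nat_lit 327)) (XT.lf (nat_lit 0) (nat_lit 21772953051486) (nat_lit 76) (nat_lit 2294426057891) (nat_lit 76) (nat_lit 2294419479151) (nat_lit 1) (nat_lit 4) (nat_lit 2) (nat_lit 5) (nat_lit 2) (nat_lit 4) (nat_lit 544) (nat_lit 330) (nat_lit 326)))))) (XT.nd (nat_lit 62322) (nat_lit 0) (nat_lit 0) (XT.nd (nat_lit 62010) (nat_lit 0) (nat_lit 0) (XT.nd (nat_lit 78) (nat_lit 0) (nat_lit 0) (XT.lf (nat_lit 0) (nat_lit 23516281166103) (nat_lit 76) (nat_lit 2477205837573) (nat_lit 76) (nat_lit 2477197907019) (nat_lit 1) (nat_lit 4) (nat_lit 2) (nat_lit 5) (nat_lit 2) (nat_lit 4) (nat_lit 545) (nat_lit 330) (nat_lit 325)) (XT.nd (nat_lit 61854) (nat_lit 0) (nat_lit 0) (XT.lf (nat_lit 0) (nat_lit 25399010768741) (nat_lit 76) (nat_lit 2674641525493) (nat_lit 76) (nat_lit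 2674632343259) (nat_lit 1) (nat_lit 4) (nat_lit 2) (nat_lit 5) (nat_lit 2) (nat_lit 4) (nat_lit 546) (nat_lit 330) (nat_lit 324)) (XT.lf (nat_lit 0) (nat_lit 6856209665373) (nat_lit 76) (nat_lit 725075794734) (nat_lit 76) (nat_lit 725075794734) (nat_lit 1) (nat_lit 4) (nat_lit 2) (nat_lit 5) (nat_lit 2) (nat_lit 4) (nat_lit 538) (nat_lit 331) (nat_lit 331)))) (XT.nd (nat_lit 156) (nat_lit 0) (nat_lit 0) (XT.nd (nat_lit 78) (nat_lit 0) (nat_lit 0) (XT.lf (nat_lit 0) (nat_lit 14811364477351) (nat_lit 76) (nat_lit 1565151257724) (nat_lit 76) (nat_lit 1565149271465) (nat_lit 1) (nat_lit 4) (nat_lit 2) (nat_lit 5) (nat_lit 2) (nat_lit 4) (nat_lit 539) (nat_lit 331) (nat_lit 330)) (XT.lf (nat_lit 0) (nat_lit 15998130080308) (nat_lit 76) (nat_lit 1689400159931) (nat_lit 76) (nat_lit 1689396334544) (nat_lit 1) (nat_lit 4) (nat_lit 2) (nat_lit 5) (nat_lit 2) (nat_lit 4) (nat_lit 540) (nat_lit 331)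 (nat_lit 329))) (XT.nd (nat_lit 78) (nat_lit 0) (nat_lit 0) (XT.lf (nat_lit 0) (nat_lit 17279748824673) (nat_lit 76) (nat_lit 1823634585882) (nat_lit 76) (nat_lit 1823629057599) (nat_lit 1) (nat_lit 4) (nat_lit 2) (nat_lit 5) (nat_lit 2) (nat_lit 4) (nat_lit 541) (nat_lit 331) (nat_lit 328)) (XT.lf (nat_lit 0) (nat_lit 18663815488189) (nat_lit 76) (nat_lit 1968649998841) (nat_lit 76) (nat_lit 1968642893802) (nat_lit 1) (nat_lit 4) (nat_lit 2) (nat_lit 5) (nat_lit 2) (nat_lit 4) (nat_lit 542) (nat_lit 331) (nat_lit 327))))) (XT.nd (nat_lit 234) (nat_lit 0) (nat_lit 0) (XT.nd (nat_lit 78) (nat_lit 0) (nat_lit 0) (XT.lf (nat_lit 0) (nat_lit 20158531947383) (nat_lit 76) (nat_lit 2125305749403) (nat_lit 76) (nat_lit 2125297184405) (nat_lit 1) (nat_lit 4) (nat_lit 2) (nat_lit 5) (nat_lit 2) (nat_lit 4) (nat_lit 543) (nat_lit 331) (nat_lit 326)) (XT.nd (nat_lit 78) (nat_lit 0) (nat_lit 0) (XT.lf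 (nat_lit 0) (nat_lit 21772755781271) (nat_lit 76) (nat_lit 2294530167942) (nat_lit 76) (nat_lit 2294520251130) (nat_lit 1) (nat_lit 4) (nat_lit 2) (nat_lit 5) (nat_lit 2) (nat_lit 4) (nat_lit 544) (nat_lit 331) (nat_lit 325)) (XT.lf (nat_lit 0) (nat_lit 23516052760720) (nat_lit 76) (nat_lit 2477326065828) (nat_lit 76) (nat_lit 2477314897336) (nat_lit 1) (nat_lit 4) (nat_lit 2) (nat_lit 5) (nat_lit 2) (nat_lit 4) (nat_lit 545) (nat_lit 331) (nat_lit 324)))) (XT.nd (nat_lit 61776) (nat_lit 0) (nat_lit 0) (XT.nd (nat_lit 61698) (nat_lit 0) (nat_lit 0) (XT.lf (nat_lit 0) (nat_lit 25398753534499) (nat_lit 76) (nat_lit 2674776678010) (nat_lit 76) (nat_lit 2674764350555) (nat_lit 1) (nat_lit 4) (nat_lit 2) (nat_lit 5) (nat_lit 2) (nat_lit 4) (nat_lit 546) (nat_lit 331) (nat_lit 323)) (XT.lf (nat_lit 0) (nat_lit 5876238261484) (nat_lit 76) (nat_lit 622599665011) (nat_lit 76) (nat_lit 622599665011)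 (nat_lit 1) (nat_lit 4) (nat_lit 2) (nat_lit 5) (nat_lit 2) (nat_lit 4) (nat_lit 536) (nat_lit 332) (nat_lit 332))) (XT.nd (nat_lit 78) (nat_lit 0) (nat_lit 0) (XT.lf (nat_lit 0) (nat_lit 12694782372962) (nat_lit 76) (nat_lit 1343721820809) (nat_lit 76) (nat_lit 1343719675650) (nat_lit 1) (nat_lit 4) (nat_lit 2) (nat_lit 5) (nat_lit 2) (nat_lit 4) (nat_lit 537) (nat_lit 332) (nat_lit 331)) (XT.lf (nat_lit 0) (nat_lit 13712369923149) (nat_lit 76) (nat_lit 1450179312191) (nat_lit 76) (nat_lit 1450175180773) (nat_lit 1) (nat_lit 4) (nat_lit 2) (nat_lit 5) (nat_lit 2) (nat_lit 4) (nat_lit 538) (nat_lit 332) (nat_lit 330))))))) (XT.nd (nat_lit 62556) (nat_lit 0) (nat_lit 0) (XT.nd (nat_lit 546) (nat_lit 0) (nat_lit 0) (XT.nd (nat_lit 234) (nat_lit 0) (nat_lit 0) (XT.nd (nat_lit 78) (nat_lit 0) (nat_lit 0) (XT.lf (nat_lit 0) (nat_lit 14811269321976) (nat_lit 76) (nat_lit 1565202663375) (nat_lit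 76) (nat_lit 1565196692829) (nat_lit 1) (nat_lit 4) (nat_lit 2) (nat_lit 5) (nat_lit 2) (nat_lit 4) (nat_lit 539) (nat_lit 332) (nat_lit 329)) (XT.nd (nat_lit 78) (nat_lit 0) (nat_lit 0) (XT.lf (nat_lit 0) (nat_lit 15997992565881) (nat_lit 76) (nat_lit 1689473494220) (nat_lit 76) (nat_lit 1689465820778) (nat_lit 1) (nat_lit 4) (nat_lit 2) (nat_lit 5) (nat_lit 2) (nat_lit 4) (nat_lit 540) (nat_lit 332) (nat_lit 328)) (XT.lf (nat_lit 0) (nat_lit 17279572088901) (nat_lit 76) (nat_lit 1823728224465) (nat_lit 76) (nat_lit 1823718974267) (nat_lit 1) (nat_lit 4) (nat_lit 2) (nat_lit 5) (nat_lit 2) (nat_lit 4) (nat_lit 541) (nat_lit 332) (nat_lit 327)))) (XT.nd (nat_lit 156) (nat_lit 0) (nat_lit 0) (XT.nd (nat_lit 78) (nat_lit 0) (nat_lit 0) (XT.lf (nat_lit 0) (nat_lit 18663602436358) (nat_lit 76) (nat_lit 1968762437696) (nat_lit 76) (nat_lit 1968751727539) (nat_lit 1) (nat_lit 4) (nat_lit 2) (nat_lit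 5) (nat_lit 2) (nat_lit 4) (nat_lit 542) (nat_lit 332) (nat_lit 326)) (XT.lf (nat_lit 0) (nat_lit 20158285269570) (nat_lit 76) (nat_lit 2125435595918) (nat_lit 76) (nat_lit 2125423533947) (nat_lit 1) (nat_lit 4) (nat_lit 2) (nat_lit 5) (nat_lit 2) (nat_lit 4) (nat_lit 543) (nat_lit 332) (nat_lit 325))) (XT.nd (nat_lit 78) (nat_lit 0) (nat_lit 0) (XT.lf (nat_lit 0) (nat_lit 21772477968290) (nat_lit 76) (nat_lit 2294676132661) (nat_lit 76) (nat_lit 2294662819010) (nat_lit 1) (nat_lit 4) (nat_lit 2) (nat_lit 5) (nat_lit 2) (nat_lit 4) (nat_lit 544) (nat_lit 332) (nat_lit 324)) (XT.lf (nat_lit 0) (nat_lit 23515746118880) (nat_lit 76) (nat_lit 2477486954809) (nat_lit 76) (nat_lit 2477472482195) (nat_lit 1) (nat_lit 4) (nat_lit 2) (nat_lit 5) (nat_lit 2) (nat_lit 4) (nat_lit 545) (nat_lit 332) (nat_lit 323))))) (XT.nd (nat_lit 61698) (nat_lit 0) (nat_lit 0) (XT.nd (nat_lit 61542) (nat_lit 0) (nat_lit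 0) (XT.lf (nat_lit 0) (nat_lit 25398420199270) (nat_lit 76) (nat_lit 2674951385753) (nat_lit 76) (nat_lit 2674935840025) (nat_lit 1) (nat_lit 4) (nat_lit 2) (nat_lit 5) (nat_lit 2) (nat_lit 4) (nat_lit 546) (nat_lit 332) (nat_lit 322)) (XT.nd (nat_lit 78) (nat_lit 0) (nat_lit 0) (XT.lf (nat_lit 0) (nat_lit 5035922218563) (nat_lit 76) (nat_lit 534820023927) (nat_lit 76) (nat_lit 534820023927) (nat_lit 1) (nat_lit 4) (nat_lit 2) (nat_lit 5) (nat_lit 2) (nat_lit 4) (nat_lit 534) (nat_lit 333) (nat_lit 333)) (XT.lf (nat_lit 0) (nat_lit 10879868338504) (nat_lit 76) (nat_lit 1154030319618) (nat_lit 76) (nat_lit 1154028002846) (nat_lit 1) (nat_lit 4) (nat_lit 2) (nat_lit 5) (nat_lit 2) (nat_lit 4) (nat_lit 535) (nat_lit 333) (nat_lit 332)))) (XT.nd (nat_lit 156) (nat_lit 0) (nat_lit 0) (XT.nd (nat_lit 78) (nat_lit 0) (nat_lit 0) (XT.lf (nat_lit 0) (nat_lit 11752423162762) (nat_lit 76) (nat_lit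 1245229270562) (nat_lit 76) (nat_lit 1245224808631) (nat_lit 1) (nat_lit 4) (nat_lit 2) (nat_lit 5) (nat_lit 2) (nat_lit 4) (nat_lit 536) (nat_lit 333) (nat_lit 331)) (XT.lf (nat_lit 0) (nat_lit 12694679605156) (nat_lit 76) (nat_lit 1343777338912) (nat_lit 76) (nat_lit 1343770890723) (nat_lit 1) (nat_lit 4) (nat_lit 2) (nat_lit 5) (nat_lit 2) (nat_lit 4) (nat_lit 537) (nat_lit 333) (nat_lit 330))) (XT.nd (nat_lit 78) (nat_lit 0) (nat_lit 0) (XT.lf (nat_lit 0) (nat_lit 13712221407567) (nat_lit 76) (nat_lit 1450258513223) (nat_lit 76) (nat_lit 1450250225905) (nat_lit 1) (nat_lit 4) (nat_lit 2) (nat_lit 5) (nat_lit 2) (nat_lit 4) (nat_lit 538) (nat_lit 333) (nat_lit 329)) (XT.lf (nat_lit 0) (nat_lit 14811078447342) (nat_lit 76) (nat_lit 1565303793044) (nat_lit 76) (nat_lit 1565293802830) (nat_lit 1) (nat_lit 4) (nat_lit 2) (nat_lit 5) (nat_lit 2) (nat_lit 4) (nat_lit 539) (nat_lit 333) (nat_lit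 328)))))) (XT.nd (nat_lit 61854) (nat_lit 0) (nat_lit 0) (XT.nd (nat_lit 234) (nat_lit 0) (nat_lit 0) (XT.nd (nat_lit 78) (nat_lit 0) (nat_lit 0) (XT.lf (nat_lit 0) (nat_lit 15997762469902) (nat_lit 76) (nat_lit 1689594928184) (nat_lit 76) (nat_lit 1689583361214) (nat_lit 1) (nat_lit 4) (nat_lit 2) (nat_lit 5) (nat_lit 2) (nat_lit 4) (nat_lit 540) (nat_lit 333) (nat_lit 327)) (XT.nd (nat_lit 78) (nat_lit 0) (nat_lit 0) (XT.lf (nat_lit 0) (nat_lit 17279305676862) (nat_lit 76) (nat_lit 1823868458701) (nat_lit 76) (nat_lit 1823855431772) (nat_lit 1) (nat_lit 4) (nat_lit 2) (nat_lit 5) (nat_lit 2) (nat_lit 4) (nat_lit 541) (nat_lit 333) (nat_lit 326)) (XT.lf (nat_lit 0) (nat_lit 18663302398338) (nat_lit 76) (nat_lit 1968920079592) (nat_lit 76) (nat_lit 1968905700849) (nat_lit 1) (nat_lit 4) (nat_lit 2) (nat_lit 5) (nat_lit 2) (nat_lit 4) (nat_lit 542) (nat_lit 333) (nat_lit 325)))) (XT.nd (nat_lit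 156) (nat_lit 0) (nat_lit 0) (XT.nd (nat_lit 78) (nat_lit 0) (nat_lit 0) (XT.lf (nat_lit 0) (nat_lit 20157954096382) (nat_lit 76) (nat_lit 2125609356018) (nat_lit 76) (nat_lit 2125593725595) (nat_lit 1) (nat_lit 4) (nat_lit 2) (nat_lit 5) (nat_lit 2) (nat_lit 4) (nat_lit 543) (nat_lit 333) (nat_lit 324)) (XT.lf (nat_lit 0) (nat_lit 21772117966243) (nat_lit 76) (nat_lit 2294864817023) (nat_lit 76) (nat_lit 2294848027637) (nat_lit 1) (nat_lit 4) (nat_lit 2) (nat_lit 5) (nat_lit 2) (nat_lit 4) (nat_lit 544) (nat_lit 333) (nat_lit 323))) (XT.nd (nat_lit 78) (nat_lit 0) (nat_lit 0) (XT.lf (nat_lit 0) (nat_lit 23515359423445) (nat_lit 76) (nat_lit 2477689457932) (nat_lit 76) (nat_lit 2477671595433) (nat_lit 1) (nat_lit 4) (nat_lit 2) (nat_lit 5) (nat_lit 2) (nat_lit 4) (nat_lit 545) (nat_lit 333) (nat_lit 322)) (XT.lf (nat_lit 0) (nat_lit 25398008787735) (nat_lit 76) (nat_lit 2675166684026) (nat_lit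 76) (nat_lit 2675147827902) (nat_lit 1) (nat_lit 4) (nat_lit 2) (nat_lit 5) (nat_lit 2) (nat_lit 4) (nat_lit 546) (nat_lit 333) (nat_lit 321))))) (XT.nd (nat_lit 234) (nat_lit 0) (nat_lit 0) (XT.nd (nat_lit 78) (nat_lit 0) (nat_lit 0) (XT.lf (nat_lit 0) (nat_lit 4315326256816) (nat_lit 76) (nat_lit 459646422921) (nat_lit 76) (nat_lit 459646422921) (nat_lit 1) (nat_lit 4) (nat_lit 2) (nat_lit 5) (nat_lit 2) (nat_lit 4) (nat_lit 532) (nat_lit 334) (nat_lit 334)) (XT.nd (nat_lit 78) (nat_lit 0) (nat_lit 0) (XT.lf (nat_lit 0) (nat_lit 9323563168843) (nat_lit 76) (nat_lit 991560866882) (nat_lit 76) (nat_lit 991558364769) (nat_lit 1) (nat_lit 4) (nat_lit 2) (nat_lit 5) (nat_lit 2) (nat_lit 4) (nat_lit 533) (nat_lit 334) (nat_lit 333)) (XT.lf (nat_lit 0) (nat_lit 10071786808103) (nat_lit 76) (nat_lit 1069672383637) (nat_lit 76) (nat_lit 1069667564751) (nat_lit 1) (nat_lit 4) (nat_lit 2) (nat_lit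 5) (nat_lit 2) (nat_lit 4) (nat_lit 534) (nat_lit 334) (nat_lit 332)))) (XT.nd (nat_lit 156) (nat_lit 0) (nat_lit 0) (XT.nd (nat_lit 78) (nat_lit 0) (nat_lit 0) (XT.lf (nat_lit 0) (nat_lit 10879757349274) (nat_lit 76) (nat_lit 1154090279170) (nat_lit 76) (nat_lit 1154083315125) (nat_lit 1) (nat_lit 4) (nat_lit 2) (nat_lit 5) (nat_lit 2) (nat_lit 4) (nat_lit 535) (nat_lit 334) (nat_lit 331)) (XT.lf (nat_lit 0) (nat_lit 11752262765934) (nat_lit 76) (nat_lit 1245314807676) (nat_lit 76) (nat_lit 1245305857373) (nat_lit 1) (nat_lit 4) (nat_lit 2) (nat_lit 5) (nat_lit 2) (nat_lit 4) (nat_lit 536) (nat_lit 334) (nat_lit 330))) (XT.nd (nat_lit 78) (nat_lit 0) (nat_lit 0) (XT.lf (nat_lit 0) (nat_lit 12694473460552) (nat_lit 76) (nat_lit 1343886558956) (nat_lit 76) (nat_lit 1343875769524) (nat_lit 1) (nat_lit 4) (nat_lit 2) (nat_lit 5) (nat_lit 2) (nat_lit 4) (nat_lit 537) (nat_lit 334) (nat_lit 329))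 (XT.lf (nat_lit 0) (nat_lit 13711972903911) (nat_lit 76) (nat_lit 1450389661904) (nat_lit 76) (nat_lit 1450377169576) (nat_lit 1) (nat_lit 4) (nat_lit 2) (nat_lit 5) (nat_lit 2) (nat_lit 4) (nat_lit 538) (nat_lit 334) (nat_lit 328))))))))
noncomputable def xc1 : XT := (XT.nd (nat_lit 124332) (nat_lit 0) (nat_lit 0) (XT.nd (nat_lit 62244) (nat_lit 0) (nat_lit 0) (XT.nd (nat_lit 546) (nat_lit 0) (nat_lit 0) (XT.nd (nat_lit 234) (nat_lit 0) (nat_lit 0) (XT.nd (nat_lit 78) (nat_lit 0) (nat_lit 0) (XT.lf (nat_lit 0) (nat_lit 14810790722341) (nat_lit 76) (nat_lit 1565455246020) (nat_lit 76) (nat_lit 1565441176936) (nat_lit 1) (nat_lit 4) (nat_lit 2) (nat_lit 5) (nat_lit 2) (nat_lit 4) (nat_lit 539) (nat_lit 334) (nat_lit 327)) (XT.nd (nat_lit 78) (nat_lit 0) (nat_lit 0) (XT.lf (nat_lit 0) (nat_lit 15997438428841) (nat_lit 76) (nat_lit 1689765181432) (nat_lit 76) (nat_lit 1689749652389) (nat_lit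 1) (nat_lit 4) (nat_lit 2) (nat_lit 5) (nat_lit 2) (nat_lit 4) (nat_lit 540) (nat_lit 334) (nat_lit 326)) (XT.lf (nat_lit 0) (nat_lit 17278948009819) (nat_lit 76) (nat_lit 1824056119609) (nat_lit 76) (nat_lit 1824039238752) (nat_lit 1) (nat_lit 4) (nat_lit 2) (nat_lit 5) (nat_lit 2) (nat_lit 4) (nat_lit 541) (nat_lit 334) (nat_lit 325)))) (XT.nd (nat_lit 156) (nat_lit 0) (nat_lit 0) (XT.nd (nat_lit 78) (nat_lit 0) (nat_lit 0) (XT.lf (nat_lit 0) (nat_lit 18662913596127) (nat_lit 76) (nat_lit 1969123858703) (nat_lit 76) (nat_lit 1969105726166) (nat_lit 1) (nat_lit 4) (nat_lit 2) (nat_lit 5) (nat_lit 2) (nat_lit 4) (nat_lit 542) (nat_lit 334) (nat_lit 324)) (XT.lf (nat_lit 0) (nat_lit 20157536465312) (nat_lit 76) (nat_lit 2125828059391) (nat_lit 76) (nat_lit 2125808767891) (nat_lit 1) (nat_lit 4) (nat_lit 2) (nat_lit 5) (nat_lit 2) (nat_lit 4) (nat_lit 543) (nat_lit 334) (nat_lit 323))) (XT.nd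 (nat_lit 78) (nat_lit 0) (nat_lit 0) (XT.lf (nat_lit 0) (nat_lit 21771673641784) (nat_lit 76) (nat_lit 2295097339158) (nat_lit 76) (nat_lit 2295076974545) (nat_lit 1) (nat_lit 4) (nat_lit 2) (nat_lit 5) (nat_lit 2) (nat_lit 4) (nat_lit 544) (nat_lit 334) (nat_lit 322)) (XT.lf (nat_lit 0) (nat_lit 23514890382886) (nat_lit 76) (nat_lit 2477934775217) (nat_lit 76) (nat_lit 2477913416980) (nat_lit 1) (nat_lit 4) (nat_lit 2) (nat_lit 5) (nat_lit 2) (nat_lit 4) (nat_lit 545) (nat_lit 334) (nat_lit 321))))) (XT.nd (nat_lit 61386) (nat_lit 0) (nat_lit 0) (XT.nd (nat_lit 61230) (nat_lit 0) (nat_lit 0) (XT.lf (nat_lit 0) (nat_lit 25397516861898) (nat_lit 76) (nat_lit 2675423848671) (nat_lit 76) (nat_lit 2675401570412) (nat_lit 1) (nat_lit 4) (nat_lit 2) (nat_lit 5) (nat_lit 2) (nat_lit 4) (nat_lit 546) (nat_lit 334) (nat_lit 320)) (XT.nd (nat_lit 78) (nat_lit 0) (nat_lit 0) (XT.lf (nat_lit 0) (nat_lit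 3697358136483) (nat_lit 76) (nat_lit 395287132881) (nat_lit 76) (nat_lit 395287132881) (nat_lit 1) (nat_lit 4) (nat_lit 2) (nat_lit 5) (nat_lit 2) (nat_lit 4) (nat_lit 530) (nat_lit 335) (nat_lit 335)) (XT.lf (nat_lit 0) (nat_lit 7988948705254) (nat_lit 76) (nat_lit 852442767864) (nat_lit 76) (nat_lit 852440065581) (nat_lit 1) (nat_lit 4) (nat_lit 2) (nat_lit 5) (nat_lit 2) (nat_lit 4) (nat_lit 531) (nat_lit 335) (nat_lit 334)))) (XT.nd (nat_lit 156) (nat_lit 0) (nat_lit 0) (XT.nd (nat_lit 78) (nat_lit 0) (nat_lit 0) (XT.lf (nat_lit 0) (nat_lit 8630590274287) (nat_lit 76) (nat_lit 919327768489) (nat_lit 76) (nat_lit 919322564093) (nat_lit 1) (nat_lit 4) (nat_lit 2) (nat_lit 5) (nat_lit 2) (nat_lit 4) (nat_lit 532) (nat_lit 335) (nat_lit 333)) (XT.lf (nat_lit 0) (nat_lit 9323443300475) (nat_lit 76) (nat_lit 991625623198) (nat_lit 76) (nat_lit 991618102030) (nat_lit 1) (nat_lit 4) (nat_lit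 2) (nat_lit 5) (nat_lit 2) (nat_lit 4) (nat_lit 533) (nat_lit 335) (nat_lit 332))) (XT.nd (nat_lit 78) (nat_lit 0) (nat_lit 0) (XT.lf (nat_lit 0) (nat_lit 10071613579529) (nat_lit 76) (nat_lit 1069764763721) (nat_lit 76) (nat_lit 1069755097393) (nat_lit 1) (nat_lit 4) (nat_lit 2) (nat_lit 5) (nat_lit 2) (nat_lit 4) (nat_lit 534) (nat_lit 335) (nat_lit 331)) (XT.lf (nat_lit 0) (nat_lit 10879534713101) (nat_lit 76) (nat_lit 1154208236816) (nat_lit 76) (nat_lit 1154196584231) (nat_lit 1) (nat_lit 4) (nat_lit 2) (nat_lit 5) (nat_lit 2) (nat_lit 4) (nat_lit 535) (nat_lit 335) (nat_lit 330)))))) (XT.nd (nat_lit 546) (nat_lit 0) (nat_lit 0) (XT.nd (nat_lit 234) (nat_lit 0) (nat_lit 0) (XT.nd (nat_lit 78) (nat_lit 0) (nat_lit 0) (XT.lf (nat_lit 0) (nat_lit 11751994381985) (nat_lit 76) (nat_lit 1245456448252) (nat_lit 76) (nat_lit 1245442956538) (nat_lit 1) (nat_lit 4) (nat_lit 2) (nat_lit 5) (nat_lit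 2) (nat_lit 4) (nat_lit 536) (nat_lit 335) (nat_lit 329)) (XT.nd (nat_lit 78) (nat_lit 0) (nat_lit 0) (XT.lf (nat_lit 0) (nat_lit 12694162717550) (nat_lit 76) (nat_lit 1344050128169) (nat_lit 76) (nat_lit 1344034933559) (nat_lit 1) (nat_lit 4) (nat_lit 2) (nat_lit 5) (nat_lit 2) (nat_lit 4) (nat_lit 537) (nat_lit 335) (nat_lit 328)) (XT.lf (nat_lit 0) (nat_lit 13711622939564) (nat_lit 76) (nat_lit 1450573535411) (nat_lit 76) (nat_lit 1450556764045) (nat_lit 1) (nat_lit 4) (nat_lit 2) (nat_lit 5) (nat_lit 2) (nat_lit 4) (nat_lit 538) (nat_lit 335) (nat_lit 327)))) (XT.nd (nat_lit 156) (nat_lit 0) (nat_lit 0) (XT.nd (nat_lit 78) (nat_lit 0) (nat_lit 0) (XT.lf (nat_lit 0) (nat_lit 14810404441935) (nat_lit 76) (nat_lit 1565657919800) (nat_lit 76) (nat_lit 1565639688474) (nat_lit 1) (nat_lit 4) (nat_lit 2) (nat_lit 5) (nat_lit 2) (nat_lit 4) (nat_lit 539) (nat_lit 335) (nat_lit 326)) (XT.lf (nat_lit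 0) (nat_lit 15997018522453) (nat_lit 76) (nat_lit 1689985262872) (nat_lit 76) (nat_lit 1689965679732) (nat_lit 1) (nat_lit 4) (nat_lit 2) (nat_lit 5) (nat_lit 2) (nat_lit 4) (nat_lit 540) (nat_lit 335) (nat_lit 325))) (XT.nd (nat_lit 78) (nat_lit 0) (nat_lit 0) (XT.lf (nat_lit 0) (nat_lit 17278496968264) (nat_lit 76) (nat_lit 1824292319252) (nat_lit 76) (nat_lit 1824271484433) (nat_lit 1) (nat_lit 4) (nat_lit 2) (nat_lit 5) (nat_lit 2) (nat_lit 4) (nat_lit 541) (nat_lit 335) (nat_lit 324)) (XT.lf (nat_lit 0) (nat_lit 18662433725712) (nat_lit 76) (nat_lit 1969374982609) (nat_lit 76) (nat_lit 1969352988827) (nat_lit 1) (nat_lit 4) (nat_lit 2) (nat_lit 5) (nat_lit 2) (nat_lit 4) (nat_lit 542) (nat_lit 335) (nat_lit 323))))) (XT.nd (nat_lit 234) (nat_lit 0) (nat_lit 0) (XT.nd (nat_lit 78) (nat_lit 0) (nat_lit 0) (XT.lf (nat_lit 0) (nat_lit 20157029901509) (nat_lit 76) (nat_lit 2126093002058)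 (nat_lit 76) (nat_lit 2126069935162) (nat_lit 1) (nat_lit 4) (nat_lit 2) (nat_lit 5) (nat_lit 2) (nat_lit 4) (nat_lit 543) (nat_lit 335) (nat_lit 322)) (XT.nd (nat_lit 78) (nat_lit 0) (nat_lit 0) (XT.lf (nat_lit 0) (nat_lit 21771142361881) (nat_lit 76) (nat_lit 2295375076974) (nat_lit 76) (nat_lit 2295351016455) (nat_lit 1) (nat_lit 4) (nat_lit 2) (nat_lit 5) (nat_lit 2) (nat_lit 4) (nat_lit 544) (nat_lit 335) (nat_lit 321)) (XT.lf (nat_lit 0) (nat_lit 23514336217705) (nat_lit 76) (nat_lit 2478224360394) (nat_lit 76) (nat_lit 2478199379852) (nat_lit 1) (nat_lit 4) (nat_lit 2) (nat_lit 5) (nat_lit 2) (nat_lit 4) (nat_lit 545) (nat_lit 335) (nat_lit 320)))) (XT.nd (nat_lit 61152) (nat_lit 0) (nat_lit 0) (XT.nd (nat_lit 61074) (nat_lit 0) (nat_lit 0) (XT.lf (nat_lit 0) (nat_lit 25396941506645) (nat_lit 76) (nat_lit 2675724403626) (nat_lit 76) (nat_lit 2675698571213) (nat_lit 1) (nat_lit 4)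 (nat_lit 2) (nat_lit 5) (nat_lit 2) (nat_lit 4) (nat_lit 546) (nat_lit 335) (nat_lit 319)) (XT.lf (nat_lit 0) (nat_lit 3167362990353) (nat_lit 76) (nat_lit 340206567953) (nat_lit 76) (nat_lit 340206567953) (nat_lit 1) (nat_lit 4) (nat_lit 2) (nat_lit 5) (nat_lit 2) (nat_lit 4) (nat_lit 528) (nat_lit 336) (nat_lit 336))) (XT.nd (nat_lit 78) (nat_lit 0) (nat_lit 0) (XT.lf (nat_lit 0) (nat_lit 6844371600048) (nat_lit 76) (nat_lit 733358552488) (nat_lit 76) (nat_lit 733355634023) (nat_lit 1) (nat_lit 4) (nat_lit 2) (nat_lit 5) (nat_lit 2) (nat_lit 4) (nat_lit 529) (nat_lit 336) (nat_lit 335)) (XT.lf (nat_lit 0) (nat_lit 7394649054474) (nat_lit 76) (nat_lit 790611982219) (nat_lit 76) (nat_lit 790606361471) (nat_lit 1) (nat_lit 4) (nat_lit 2) (nat_lit 5) (nat_lit 2) (nat_lit 4) (nat_lit 530) (nat_lit 336) (nat_lit 334))))))) (XT.nd (nat_lit 1092) (nat_lit 0) (nat_lit 0) (XT.nd (nat_lit 546) (nat_lit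 0) (nat_lit 0) (XT.nd (nat_lit 234) (nat_lit 0) (nat_lit 0) (XT.nd (nat_lit 78) (nat_lit 0) (nat_lit 0) (XT.lf (nat_lit 0) (nat_lit 7988819247417) (nat_lit 76) (nat_lit 852512704685) (nat_lit 76) (nat_lit 852504581823) (nat_lit 1) (nat_lit 4) (nat_lit 2) (nat_lit 5) (nat_lit 2) (nat_lit 4) (nat_lit 531) (nat_lit 336) (nat_lit 333)) (XT.nd (nat_lit 78) (nat_lit 0) (nat_lit 0) (XT.lf (nat_lit 0) (nat_lit 8630403187427) (nat_lit 76) (nat_lit 919427538980) (nat_lit 76) (nat_lit 919417099346) (nat_lit 1) (nat_lit 4) (nat_lit 2) (nat_lit 5) (nat_lit 2) (nat_lit 4) (nat_lit 532) (nat_lit 336) (nat_lit 332)) (XT.lf (nat_lit 0) (nat_lit 9323202853408) (nat_lit 76) (nat_lit 991753017456) (nat_lit 76) (nat_lit 991740432664) (nat_lit 1) (nat_lit 4) (nat_lit 2) (nat_lit 5) (nat_lit 2) (nat_lit 4) (nat_lit 533) (nat_lit 336) (nat_lit 331)))) (XT.nd (nat_lit 156) (nat_lit 0) (nat_lit 0) (XT.nd (nat_lit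 78) (nat_lit 0) (nat_lit 0) (XT.lf (nat_lit 0) (nat_lit 10071323724863) (nat_lit 76) (nat_lit 1069917735542) (nat_lit 76) (nat_lit 1069903164491) (nat_lit 1) (nat_lit 4) (nat_lit 2) (nat_lit 5) (nat_lit 2) (nat_lit 4) (nat_lit 534) (nat_lit 336) (nat_lit 330)) (XT.lf (nat_lit 0) (nat_lit 10879199110660) (nat_lit 76) (nat_lit 1154384891567) (nat_lit 76) (nat_lit 1154368481388) (nat_lit 1) (nat_lit 4) (nat_lit 2) (nat_lit 5) (nat_lit 2) (nat_lit 4) (nat_lit 535) (nat_lit 336) (nat_lit 329))) (XT.nd (nat_lit 78) (nat_lit 0) (nat_lit 0) (XT.lf (nat_lit 0) (nat_lit 11751616420491) (nat_lit 76) (nat_lit 1245655031640) (nat_lit 76) (nat_lit 1245636918565) (nat_lit 1) (nat_lit 4) (nat_lit 2) (nat_lit 5) (nat_lit 2) (nat_lit 4) (nat_lit 536) (nat_lit 336) (nat_lit 328)) (XT.lf (nat_lit 0) (nat_lit 12693745534712) (nat_lit 76) (nat_lit 1344269015851) (nat_lit 76) (nat_lit 1344249326020) (nat_lit 1)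 (nat_lit 4) (nat_lit 2) (nat_lit 5) (nat_lit 2) (nat_lit 4) (nat_lit 537) (nat_lit 336) (nat_lit 327))))) (XT.nd (nat_lit 234) (nat_lit 0) (nat_lit 0) (XT.nd (nat_lit 78) (nat_lit 0) (nat_lit 0) (XT.lf (nat_lit 0) (nat_lit 13711169440666) (nat_lit 76) (nat_lit 1450811223366) (nat_lit 76) (nat_lit 1450790073575) (nat_lit 1) (nat_lit 4) (nat_lit 2) (nat_lit 5) (nat_lit 2) (nat_lit 4) (nat_lit 538) (nat_lit 336) (nat_lit 326)) (XT.nd (nat_lit 78) (nat_lit 0) (nat_lit 0) (XT.lf (nat_lit 0) (nat_lit 14809917317054) (nat_lit 76) (nat_lit 1565913015414) (nat_lit 76) (nat_lit 1565890513809) (nat_lit 1) (nat_lit 4) (nat_lit 2) (nat_lit 5) (nat_lit 2) (nat_lit 4) (nat_lit 539) (nat_lit 336) (nat_lit 325)) (XT.lf (nat_lit 0) (nat_lit 15996500262405) (nat_lit 76) (nat_lit 1690256476690) (nat_lit 76) (nat_lit 1690232723405) (nat_lit 1) (nat_lit 4) (nat_lit 2) (nat_lit 5) (nat_lit 2) (nat_lit 4) (nat_lit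 540) (nat_lit 336) (nat_lit 324)))) (XT.nd (nat_lit 156) (nat_lit 0) (nat_lit 0) (XT.nd (nat_lit 78) (nat_lit 0) (nat_lit 0) (XT.lf (nat_lit 0) (nat_lit 17277949879357) (nat_lit 76) (nat_lit 1824578457333) (nat_lit 76) (nat_lit 1824553545085) (nat_lit 1) (nat_lit 4) (nat_lit 2) (nat_lit 5) (nat_lit 2) (nat_lit 4) (nat_lit 541) (nat_lit 336) (nat_lit 323)) (XT.lf (nat_lit 0) (nat_lit 18661859943417) (nat_lit 76) (nat_lit 1969674939451) (nat_lit 76) (nat_lit 1969648954090) (nat_lit 1) (nat_lit 4) (nat_lit 2) (nat_lit 5) (nat_lit 2) (nat_lit 4) (nat_lit 542) (nat_lit 336) (nat_lit 322))) (XT.nd (nat_lit 78) (nat_lit 0) (nat_lit 0) (XT.lf (nat_lit 0) (nat_lit 20156431403114) (nat_lit 76) (nat_lit 2126405754050) (nat_lit 76) (nat_lit 2126378775065) (nat_lit 1) (nat_lit 4) (nat_lit 2) (nat_lit 5) (nat_lit 2) (nat_lit 4) (nat_lit 543) (nat_lit 336) (nat_lit 321)) (XT.lf (nat_lit 0) (nat_lit 21770520978208)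 (nat_lit 76) (nat_lit 2295699676326) (nat_lit 76) (nat_lit 2295671777320) (nat_lit 1) (nat_lit 4) (nat_lit 2) (nat_lit 5) (nat_lit 2) (nat_lit 4) (nat_lit 544) (nat_lit 336) (nat_lit 320)))))) (XT.nd (nat_lit 61386) (nat_lit 0) (nat_lit 0) (XT.nd (nat_lit 61074) (nat_lit 0) (nat_lit 0) (XT.nd (nat_lit 78) (nat_lit 0) (nat_lit 0) (XT.lf (nat_lit 0) (nat_lit 23513693643960) (nat_lit 76) (nat_lit 2478559929525) (nat_lit 76) (nat_lit 2478531178645) (nat_lit 1) (nat_lit 4) (nat_lit 2) (nat_lit 5) (nat_lit 2) (nat_lit 4) (nat_lit 545) (nat_lit 336) (nat_lit 319)) (XT.nd (nat_lit 60918) (nat_lit 0) (nat_lit 0) (XT.lf (nat_lit 0) (nat_lit 25396279312463) (nat_lit 76) (nat_lit 2676070129959) (nat_lit 76) (nat_lit 2676040590310) (nat_lit 1) (nat_lit 4) (nat_lit 2) (nat_lit 5) (nat_lit 2) (nat_lit 4) (nat_lit 546) (nat_lit 336) (nat_lit 318)) (XT.lf (nat_lit 0) (nat_lit 2712775523195) (nat_lit 76)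 (nat_lit 293088786499) (nat_lit 76) (nat_lit 293088786499) (nat_lit 1) (nat_lit 4) (nat_lit 2) (nat_lit 5) (nat_lit 2) (nat_lit 4) (nat_lit 526) (nat_lit 337) (nat_lit 337)))) (XT.nd (nat_lit 156) (nat_lit 0) (nat_lit 0) (XT.nd (nat_lit 78) (nat_lit 0) (nat_lit 0) (XT.lf (nat_lit 0) (nat_lit 5862692074258) (nat_lit 76) (nat_lit 631465133803) (nat_lit 76) (nat_lit 631461981860) (nat_lit 1) (nat_lit 4) (nat_lit 2) (nat_lit 5) (nat_lit 2) (nat_lit 4) (nat_lit 527) (nat_lit 337) (nat_lit 336)) (XT.lf (nat_lit 0) (nat_lit 6334653384734) (nat_lit 76) (nat_lit 680453869682) (nat_lit 76) (nat_lit 680447799274) (nat_lit 1) (nat_lit 4) (nat_lit 2) (nat_lit 5) (nat_lit 2) (nat_lit 4) (nat_lit 528) (nat_lit 337) (nat_lit 335))) (XT.nd (nat_lit 78) (nat_lit 0) (nat_lit 0) (XT.lf (nat_lit 0) (nat_lit 6844231785584) (nat_lit 76) (nat_lit 733434084255) (nat_lit 76) (nat_lit 733425311564) (nat_lit 1) (nat_lit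 4) (nat_lit 2) (nat_lit 5) (nat_lit 2) (nat_lit 4) (nat_lit 529) (nat_lit 337) (nat_lit 334)) (XT.lf (nat_lit 0) (nat_lit 7394447000665) (nat_lit 76) (nat_lit 790719734349) (nat_lit 76) (nat_lit 790708459545) (nat_lit 1) (nat_lit 4) (nat_lit 2) (nat_lit 5) (nat_lit 2) (nat_lit 4) (nat_lit 530) (nat_lit 337) (nat_lit 333))))) (XT.nd (nat_lit 312) (nat_lit 0) (nat_lit 0) (XT.nd (nat_lit 156) (nat_lit 0) (nat_lit 0) (XT.nd (nat_lit 78) (nat_lit 0) (nat_lit 0) (XT.lf (nat_lit 0) (nat_lit 7988559564585) (nat_lit 76) (nat_lit 852650290484) (nat_lit 76) (nat_lit 852636698908) (nat_lit 1) (nat_lit 4) (nat_lit 2) (nat_lit 5) (nat_lit 2) (nat_lit 4) (nat_lit 531) (nat_lit 337) (nat_lit 332)) (XT.lf (nat_lit 0) (nat_lit 8630090144388) (nat_lit 76) (nat_lit 919592748547) (nat_lit 76) (nat_lit 919577011812) (nat_lit 1) (nat_lit 4) (nat_lit 2) (nat_lit 5) (nat_lit 2) (nat_lit 4) (nat_lit 532) (nat_lit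 337) (nat_lit 331))) (XT.nd (nat_lit 78) (nat_lit 0) (nat_lit 0) (XT.lf (nat_lit 0) (nat_lit 9322840402771) (nat_lit 76) (nat_lit 991943804587) (nat_lit 76) (nat_lit 991926081593) (nat_lit 1) (nat_lit 4) (nat_lit 2) (nat_lit 5) (nat_lit 2) (nat_lit 4) (nat_lit 533) (nat_lit 337) (nat_lit 330)) (XT.lf (nat_lit 0) (nat_lit 10070915526450) (nat_lit 76) (nat_lit 1070132205601) (nat_lit 76) (nat_lit 1070112643480) (nat_lit 1) (nat_lit 4) (nat_lit 2) (nat_lit 5) (nat_lit 2) (nat_lit 4) (nat_lit 534) (nat_lit 337) (nat_lit 329)))) (XT.nd (nat_lit 156) (nat_lit 0) (nat_lit 0) (XT.nd (nat_lit 78) (nat_lit 0) (nat_lit 0) (XT.lf (nat_lit 0) (nat_lit 10878748553194) (nat_lit 76) (nat_lit 1154621290264) (nat_lit 76) (nat_lit 1154600025246) (nat_lit 1) (nat_lit 4) (nat_lit 2) (nat_lit 5) (nat_lit 2) (nat_lit 4) (nat_lit 535) (nat_lit 337) (nat_lit 328)) (XT.lf (nat_lit 0) (nat_lit 11751126641680) (nat_lit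 76) (nat_lit 1245911734632) (nat_lit 76) (nat_lit 1245888892857) (nat_lit 1) (nat_lit 4) (nat_lit 2) (nat_lit 5) (nat_lit 2) (nat_lit 4) (nat_lit 536) (nat_lit 337) (nat_lit 327))) (XT.nd (nat_lit 78) (nat_lit 0) (nat_lit 0) (XT.lf (nat_lit 0) (nat_lit 12693219439841) (nat_lit 76) (nat_lit 1344544519115) (nat_lit 76) (nat_lit 1344520217382) (nat_lit 1) (nat_lit 4) (nat_lit 2) (nat_lit 5) (nat_lit 2) (nat_lit 4) (nat_lit 537) (nat_lit 337) (nat_lit 326)) (XT.lf (nat_lit 0) (nat_lit 13710609719814) (nat_lit 76) (nat_lit 1451104134290) (nat_lit 76) (nat_lit 1451078480742) (nat_lit 1) (nat_lit 4) (nat_lit 2) (nat_lit 5) (nat_lit 2) (nat_lit 4) (nat_lit 538) (nat_lit 337) (nat_lit 325))))))))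
noncomputable def xc2 : XT := (XT.nd (nat_lit 62868) (nat_lit 0) (nat_lit 0) (XT.nd (nat_lit 61776) (nat_lit 0) (nat_lit 0) (XT.nd (nat_lit 546) (nat_lit 0) (nat_lit 0) (XT.nd (nat_lit 234) (nat_lit 0) (nat_lit 0) (XT.nd (nat_lit 78) (nat_lit 0) (nat_lit 0) (XT.lf (nat_lit 0) (nat_lit 14809326461035) (nat_lit 76) (nat_lit 1566222044541) (nat_lit 76) (nat_lit 1566195139314) (nat_lit 1) (nat_lit 4) (nat_lit 2) (nat_lit 5) (nat_lit 2) (nat_lit 4) (nat_lit 539) (nat_lit 337) (nat_lit 324)) (XT.nd (nat_lit 78) (nat_lit 0) (nat_lit 0) (XT.lf (nat_lit 0) (nat_lit 15995880577526) (nat_lit 76) (nat_lit 1690580430079) (nat_lit 76) (nat_lit 1690552365889) (nat_lit 1) (nat_lit 4) (nat_lit 2) (nat_lit 5) (nat_lit 2) (nat_lit 4) (nat_lit 540) (nat_lit 337) (nat_lit 323)) (XT.lf (nat_lit 0) (nat_lit 17277303501089) (nat_lit 76) (nat_lit 1824916229483) (nat_lit 76) (nat_lit 1824887092180) (nat_lit 1) (nat_lit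 4) (nat_lit 2) (nat_lit 5) (nat_lit 2) (nat_lit 4) (nat_lit 541) (nat_lit 337) (nat_lit 322)))) (XT.nd (nat_lit 156) (nat_lit 0) (nat_lit 0) (XT.nd (nat_lit 78) (nat_lit 0) (nat_lit 0) (XT.lf (nat_lit 0) (nat_lit 18661188849050) (nat_lit 76) (nat_lit 1970025506751) (nat_lit 76) (nat_lit 1969995375824) (nat_lit 1) (nat_lit 4) (nat_lit 2) (nat_lit 5) (nat_lit 2) (nat_lit 4) (nat_lit 542) (nat_lit 337) (nat_lit 321)) (XT.lf (nat_lit 0) (nat_lit 20155737423468) (nat_lit 76) (nat_lit 2126768168711) (nat_lit 76) (nat_lit 2126737117761) (nat_lit 1) (nat_lit 4) (nat_lit 2) (nat_lit 5) (nat_lit 2) (nat_lit 4) (nat_lit 543) (nat_lit 337) (nat_lit 320))) (XT.nd (nat_lit 78) (nat_lit 0) (nat_lit 0) (XT.lf (nat_lit 0) (nat_lit 21769805808491) (nat_lit 76) (nat_lit 2296073060766) (nat_lit 76) (nat_lit 2296041157944) (nat_lit 1) (nat_lit 4) (nat_lit 2) (nat_lit 5) (nat_lit 2) (nat_lit 4) (nat_lit 544)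 (nat_lit 337) (nat_lit 319)) (XT.lf (nat_lit 0) (nat_lit 23512958853805) (nat_lit 76) (nat_lit 2478943471166) (nat_lit 76) (nat_lit 2478910779574) (nat_lit 1) (nat_lit 4) (nat_lit 2) (nat_lit 5) (nat_lit 2) (nat_lit 4) (nat_lit 545) (nat_lit 337) (nat_lit 318))))) (XT.nd (nat_lit 60918) (nat_lit 0) (nat_lit 0) (XT.nd (nat_lit 60762) (nat_lit 0) (nat_lit 0) (XT.lf (nat_lit 0) (nat_lit 25395526355236) (nat_lit 76) (nat_lit 2676463076418) (nat_lit 76) (nat_lit 2676429654483) (nat_lit 1) (nat_lit 4) (nat_lit 2) (nat_lit 5) (nat_lit 2) (nat_lit 4) (nat_lit 546) (nat_lit 337) (nat_lit 317)) (XT.nd (nat_lit 78) (nat_lit 0) (nat_lit 0) (XT.lf (nat_lit 0) (nat_lit 2322821822264) (nat_lit 76) (nat_lit 252806202441) (nat_lit 76) (nat_lit 252806202441) (nat_lit 1) (nat_lit 4) (nat_lit 2) (nat_lit 5) (nat_lit 2) (nat_lit 4) (nat_lit 524) (nat_lit 338) (nat_lit 338)) (XT.lf (nat_lit 0) (nat_lit 5020639835780)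 (nat_lit 76) (nat_lit 544326220635) (nat_lit 76) (nat_lit 544322816537) (nat_lit 1) (nat_lit 4) (nat_lit 2) (nat_lit 5) (nat_lit 2) (nat_lit 4) (nat_lit 525) (nat_lit 338) (nat_lit 337)))) (XT.nd (nat_lit 156) (nat_lit 0) (nat_lit 0) (XT.nd (nat_lit 78) (nat_lit 0) (nat_lit 0) (XT.lf (nat_lit 0) (nat_lit 5425472642740) (nat_lit 76) (nat_lit 586221565474) (nat_lit 76) (nat_lit 586215009434) (nat_lit 1) (nat_lit 4) (nat_lit 2) (nat_lit 5) (nat_lit 2) (nat_lit 4) (nat_lit 526) (nat_lit 338) (nat_lit 336)) (XT.lf (nat_lit 0) (nat_lit 5862541074637) (nat_lit 76) (nat_lit 631546708110) (nat_lit 76) (nat_lit 631537233605) (nat_lit 1) (nat_lit 4) (nat_lit 2) (nat_lit 5) (nat_lit 2) (nat_lit 4) (nat_lit 527) (nat_lit 338) (nat_lit 335))) (XT.nd (nat_lit 78) (nat_lit 0) (nat_lit 0) (XT.lf (nat_lit 0) (nat_lit 6334435166620) (nat_lit 76) (nat_lit 680570241982) (nat_lit 76) (nat_lit 680558065193) (nat_lit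 1) (nat_lit 4) (nat_lit 2) (nat_lit 5) (nat_lit 2) (nat_lit 4) (nat_lit 528) (nat_lit 338) (nat_lit 334)) (XT.lf (nat_lit 0) (nat_lit 6843951328126) (nat_lit 76) (nat_lit 733582676918) (nat_lit 76) (nat_lit 733567998016) (nat_lit 1) (nat_lit 4) (nat_lit 2) (nat_lit 5) (nat_lit 2) (nat_lit 4) (nat_lit 529) (nat_lit 338) (nat_lit 333)))))) (XT.nd (nat_lit 546) (nat_lit 0) (nat_lit 0) (XT.nd (nat_lit 234) (nat_lit 0) (nat_lit 0) (XT.nd (nat_lit 78) (nat_lit 0) (nat_lit 0) (XT.lf (nat_lit 0) (nat_lit 7394108914184) (nat_lit 76) (nat_lit 790898160682) (nat_lit 76) (nat_lit 790881165008) (nat_lit 1) (nat_lit 4) (nat_lit 2) (nat_lit 5) (nat_lit 2) (nat_lit 4) (nat_lit 530) (nat_lit 338) (nat_lit 332)) (XT.nd (nat_lit 78) (nat_lit 0) (nat_lit 0) (XT.lf (nat_lit 0) (nat_lit 7988168117897) (nat_lit 76) (nat_lit 852856340585) (nat_lit 76) (nat_lit 852837199752) (nat_lit 1) (nat_lit 4) (nat_lit 2) (nat_lit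 5) (nat_lit 2) (nat_lit 4) (nat_lit 531) (nat_lit 338) (nat_lit 331)) (XT.lf (nat_lit 0) (nat_lit 8629649290102) (nat_lit 76) (nat_lit 919824376211) (nat_lit 76) (nat_lit 919803249120) (nat_lit 1) (nat_lit 4) (nat_lit 2) (nat_lit 5) (nat_lit 2) (nat_lit 4) (nat_lit 532) (nat_lit 338) (nat_lit 330)))) (XT.nd (nat_lit 156) (nat_lit 0) (nat_lit 0) (XT.nd (nat_lit 78) (nat_lit 0) (nat_lit 0) (XT.lf (nat_lit 0) (nat_lit 9322353800708) (nat_lit 76) (nat_lit 992199115180) (nat_lit 76) (nat_lit 992176148960) (nat_lit 1) (nat_lit 4) (nat_lit 2) (nat_lit 5) (nat_lit 2) (nat_lit 4) (nat_lit 533) (nat_lit 338) (nat_lit 329)) (XT.lf (nat_lit 0) (nat_lit 10070386565334) (nat_lit 76) (nat_lit 1070409444832) (nat_lit 76) (nat_lit 1070384775716) (nat_lit 1) (nat_lit 4) (nat_lit 2) (nat_lit 5) (nat_lit 2) (nat_lit 4) (nat_lit 534) (nat_lit 338) (nat_lit 328))) (XT.nd (nat_lit 78) (nat_lit 0) (nat_lit 0) (XT.lf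 (nat_lit 0) (nat_lit 10878180370734) (nat_lit 76) (nat_lit 1154918833789) (nat_lit 76) (nat_lit 1154892587917) (nat_lit 1) (nat_lit 4) (nat_lit 2) (nat_lit 5) (nat_lit 2) (nat_lit 4) (nat_lit 535) (nat_lit 338) (nat_lit 327)) (XT.lf (nat_lit 0) (nat_lit 11750522143160) (nat_lit 76) (nat_lit 1246228078429) (nat_lit 76) (nat_lit 1246200372598) (nat_lit 1) (nat_lit 4) (nat_lit 2) (nat_lit 5) (nat_lit 2) (nat_lit 4) (nat_lit 536) (nat_lit 338) (nat_lit 326))))) (XT.nd (nat_lit 234) (nat_lit 0) (nat_lit 0) (XT.nd (nat_lit 78) (nat_lit 0) (nat_lit 0) (XT.lf (nat_lit 0) (nat_lit 12692581315340) (nat_lit 76) (nat_lit 1344878270572) (nat_lit 76) (nat_lit 1344849212927) (nat_lit 1) (nat_lit 4) (nat_lit 2) (nat_lit 5) (nat_lit 2) (nat_lit 4) (nat_lit 537) (nat_lit 338) (nat_lit 325)) (XT.nd (nat_lit 78) (nat_lit 0) (nat_lit 0) (XT.lf (nat_lit 0) (nat_lit 13709940460145) (nat_lit 76) (nat_lit 1451454003950)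 (nat_lit 76) (nat_lit 1451423694625) (nat_lit 1) (nat_lit 4) (nat_lit 2) (nat_lit 5) (nat_lit 2) (nat_lit 4) (nat_lit 538) (nat_lit 338) (nat_lit 324)) (XT.lf (nat_lit 0) (nat_lit 14808628372506) (nat_lit 76) (nat_lit 1566586838464) (nat_lit 76) (nat_lit 1566555370176) (nat_lit 1) (nat_lit 4) (nat_lit 2) (nat_lit 5) (nat_lit 2) (nat_lit 4) (nat_lit 539) (nat_lit 338) (nat_lit 323)))) (XT.nd (nat_lit 156) (nat_lit 0) (nat_lit 0) (XT.nd (nat_lit 78) (nat_lit 0) (nat_lit 0) (XT.lf (nat_lit 0) (nat_lit 15995155795609) (nat_lit 76) (nat_lit 1690959042763) (nat_lit 76) (nat_lit 1690926501362) (nat_lit 1) (nat_lit 4) (nat_lit 2) (nat_lit 5) (nat_lit 2) (nat_lit 4) (nat_lit 540) (nat_lit 338) (nat_lit 322)) (XT.lf (nat_lit 0) (nat_lit 17276554003073) (nat_lit 76) (nat_lit 1825307637317) (nat_lit 76) (nat_lit 1825274102292) (nat_lit 1) (nat_lit 4) (nat_lit 2) (nat_lit 5) (nat_lit 2) (nat_lit 4) (nat_lit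 541) (nat_lit 338) (nat_lit 321))) (XT.nd (nat_lit 78) (nat_lit 0) (nat_lit 0) (XT.lf (nat_lit 0) (nat_lit 18660416465755) (nat_lit 76) (nat_lit 1970428761946) (nat_lit 76) (nat_lit 1970394306898) (nat_lit 1) (nat_lit 4) (nat_lit 2) (nat_lit 5) (nat_lit 2) (nat_lit 4) (nat_lit 542) (nat_lit 338) (nat_lit 320)) (XT.lf (nat_lit 0) (nat_lit 20154943850101) (nat_lit 76) (nat_lit 2127182393684) (nat_lit 76) (nat_lit 2127147086764) (nat_lit 1) (nat_lit 4) (nat_lit 2) (nat_lit 5) (nat_lit 2) (nat_lit 4) (nat_lit 543) (nat_lit 338) (nat_lit 319))))))) (XT.nd (nat_lit 61620) (nat_lit 0) (nat_lit 0) (XT.nd (nat_lit 61074) (nat_lit 0) (nat_lit 0) (XT.nd (nat_lit 60762) (nat_lit 0) (nat_lit 0) (XT.nd (nat_lit 78) (nat_lit 0) (nat_lit 0) (XT.lf (nat_lit 0) (nat_lit 21768992614686) (nat_lit 76) (nat_lit 2296497442941) (nat_lit 76) (nat_lit 2296461347251) (nat_lit 1) (nat_lit 4) (nat_lit 2) (nat_lit 5)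 (nat_lit 2) (nat_lit 4) (nat_lit 544) (nat_lit 338) (nat_lit 318)) (XT.nd (nat_lit 78) (nat_lit 0) (nat_lit 0) (XT.lf (nat_lit 0) (nat_lit 23512127492930) (nat_lit 76) (nat_lit 2479377258158) (nat_lit 76) (nat_lit 2479340432125) (nat_lit 1) (nat_lit 4) (nat_lit 2) (nat_lit 5) (nat_lit 2) (nat_lit 4) (nat_lit 545) (nat_lit 338) (nat_lit 317)) (XT.lf (nat_lit 0) (nat_lit 25394678172998) (nat_lit 76) (nat_lit 2676905571574) (nat_lit 76) (nat_lit 2676868069297) (nat_lit 1) (nat_lit 4) (nat_lit 2) (nat_lit 5) (nat_lit 2) (nat_lit 4) (nat_lit 546) (nat_lit 338) (nat_lit 316)))) (XT.nd (nat_lit 156) (nat_lit 0) (nat_lit 0) (XT.nd (nat_lit 78) (nat_lit 0) (nat_lit 0) (XT.lf (nat_lit 0) (nat_lit 1988263700772) (nat_lit 76) (nat_lit 218392763984) (nat_lit 76) (nat_lit 218392763984) (nat_lit 1) (nat_lit 4) (nat_lit 2) (nat_lit 5) (nat_lit 2) (nat_lit 4) (nat_lit 522) (nat_lit 339) (nat_lit 339)) (XT.lf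 (nat_lit 0) (nat_lit 4298261869333) (nat_lit 76) (nat_lit 469854379438) (nat_lit 76) (nat_lit 469850703012) (nat_lit 1) (nat_lit 4) (nat_lit 2) (nat_lit 5) (nat_lit 2) (nat_lit 4) (nat_lit 523) (nat_lit 339) (nat_lit 338))) (XT.nd (nat_lit 78) (nat_lit 0) (nat_lit 0) (XT.lf (nat_lit 0) (nat_lit 4645558968586) (nat_lit 76) (nat_lit 505659916756) (nat_lit 76) (nat_lit 505652836233) (nat_lit 1) (nat_lit 4) (nat_lit 2) (nat_lit 5) (nat_lit 2) (nat_lit 4) (nat_lit 524) (nat_lit 339) (nat_lit 337)) (XT.lf (nat_lit 0) (nat_lit 5020476756189) (nat_lit 76) (nat_lit 544414320887) (nat_lit 76) (nat_lit 544404088421) (nat_lit 1) (nat_lit 4) (nat_lit 2) (nat_lit 5) (nat_lit 2) (nat_lit 4) (nat_lit 525) (nat_lit 339) (nat_lit 336))))) (XT.nd (nat_lit 234) (nat_lit 0) (nat_lit 0) (XT.nd (nat_lit 78) (nat_lit 0) (nat_lit 0) (XT.lf (nat_lit 0) (nat_lit 5425236967178) (nat_lit 76) (nat_lit 586347247558) (nat_lit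 76) (nat_lit 586334096627) (nat_lit 1) (nat_lit 4) (nat_lit 2) (nat_lit 5) (nat_lit 2) (nat_lit 4) (nat_lit 526) (nat_lit 339) (nat_lit 335)) (XT.nd (nat_lit 78) (nat_lit 0) (nat_lit 0) (XT.lf (nat_lit 0) (nat_lit 5862238180581) (nat_lit 76) (nat_lit 631707188187) (nat_lit 76) (nat_lit 631691334972) (nat_lit 1) (nat_lit 4) (nat_lit 2) (nat_lit 5) (nat_lit 2) (nat_lit 4) (nat_lit 527) (nat_lit 339) (nat_lit 334)) (XT.lf (nat_lit 0) (nat_lit 6334070033220) (nat_lit 76) (nat_lit 680762942421) (nat_lit 76) (nat_lit 680744587093) (nat_lit 1) (nat_lit 4) (nat_lit 2) (nat_lit 5) (nat_lit 2) (nat_lit 4) (nat_lit 528) (nat_lit 339) (nat_lit 333)))) (XT.nd (nat_lit 156) (nat_lit 0) (nat_lit 0) (XT.nd (nat_lit 78) (nat_lit 0) (nat_lit 0) (XT.lf (nat_lit 0) (nat_lit 6843528565703) (nat_lit 76) (nat_lit 733805211027) (nat_lit 76) (nat_lit 733784538927) (nat_lit 1) (nat_lit 4) (nat_lit 2) (nat_lit 5)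 (nat_lit 2) (nat_lit 4) (nat_lit 529) (nat_lit 339) (nat_lit 332)) (XT.lf (nat_lit 0) (nat_lit 7393632791554) (nat_lit 76) (nat_lit 791148318559) (nat_lit 76) (nat_lit 791125501300) (nat_lit 1) (nat_lit 4) (nat_lit 2) (nat_lit 5) (nat_lit 2) (nat_lit 4) (nat_lit 530) (nat_lit 339) (nat_lit 331))) (XT.nd (nat_lit 78) (nat_lit 0) (nat_lit 0) (XT.lf (nat_lit 0) (nat_lit 7987642587669) (nat_lit 76) (nat_lit 853132076025) (nat_lit 76) (nat_lit 853107272508) (nat_lit 1) (nat_lit 4) (nat_lit 2) (nat_lit 5) (nat_lit 2) (nat_lit 4) (nat_lit 531) (nat_lit 339) (nat_lit 330)) (XT.lf (nat_lit 0) (nat_lit 8629078012097) (nat_lit 76) (nat_lit 920123794580) (nat_lit 76) (nat_lit 920097151935) (nat_lit 1) (nat_lit 4) (nat_lit 2) (nat_lit 5) (nat_lit 2) (nat_lit 4) (nat_lit 532) (nat_lit 339) (nat_lit 329)))))) (XT.nd (nat_lit 546) (nat_lit 0) (nat_lit 0) (XT.nd (nat_lit 234) (nat_lit 0) (nat_lit 0) (XT.nd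 (nat_lit 78) (nat_lit 0) (nat_lit 0) (XT.lf (nat_lit 0) (nat_lit 9321740163651) (nat_lit 76) (nat_lit 992520462187) (nat_lit 76) (nat_lit 992492116645) (nat_lit 1) (nat_lit 4) (nat_lit 2) (nat_lit 5) (nat_lit 2) (nat_lit 4) (nat_lit 533) (nat_lit 339) (nat_lit 328)) (XT.nd (nat_lit 78) (nat_lit 0) (nat_lit 0) (XT.lf (nat_lit 0) (nat_lit 10069733706933) (nat_lit 76) (nat_lit 1070751096133) (nat_lit 76) (nat_lit 1070721173835) (nat_lit 1) (nat_lit 4) (nat_lit 2) (nat_lit 5) (nat_lit 2) (nat_lit 4) (nat_lit 534) (nat_lit 339) (nat_lit 327)) (XT.lf (nat_lit 0) (nat_lit 10877491196272) (nat_lit 76) (nat_lit 1155279285363) (nat_lit 76) (nat_lit 1155247903105) (nat_lit 1) (nat_lit 4) (nat_lit 2) (nat_lit 5) (nat_lit 2) (nat_lit 4) (nat_lit 535) (nat_lit 339) (nat_lit 326)))) (XT.nd (nat_lit 156) (nat_lit 0) (nat_lit 0) (XT.nd (nat_lit 78) (nat_lit 0) (nat_lit 0) (XT.lf (nat_lit 0) (nat_lit 11749799342718)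 (nat_lit 76) (nat_lit 1246605937662) (nat_lit 76) (nat_lit 1246573203591) (nat_lit 1) (nat_lit 4) (nat_lit 2) (nat_lit 5) (nat_lit 2) (nat_lit 4) (nat_lit 536) (nat_lit 339) (nat_lit 325)) (XT.lf (nat_lit 0) (nat_lit 12691827379729) (nat_lit 76) (nat_lit 1345272248009) (nat_lit 76) (nat_lit 1345238262258) (nat_lit 1) (nat_lit 4) (nat_lit 2) (nat_lit 5) (nat_lit 2) (nat_lit 4) (nat_lit 537) (nat_lit 339) (nat_lit 324))) (XT.nd (nat_lit 78) (nat_lit 0) (nat_lit 0) (XT.lf (nat_lit 0) (nat_lit 13709157695675) (nat_lit 76) (nat_lit 1451862905649) (nat_lit 76) (nat_lit 1451827760936) (nat_lit 1) (nat_lit 4) (nat_lit 2) (nat_lit 5) (nat_lit 2) (nat_lit 4) (nat_lit 538) (nat_lit 339) (nat_lit 323)) (XT.lf (nat_lit 0) (nat_lit 14807818914648) (nat_lit 76) (nat_lit 1567009558925) (nat_lit 76) (nat_lit 1566973341098) (nat_lit 1) (nat_lit 4) (nat_lit 2) (nat_lit 5) (nat_lit 2) (nat_lit 4) (nat_lit 539)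 (nat_lit 339) (nat_lit 322))))) (XT.nd (nat_lit 312) (nat_lit 0) (nat_lit 0) (XT.nd (nat_lit 156) (nat_lit 0) (nat_lit 0) (XT.nd (nat_lit 78) (nat_lit 0) (nat_lit 0) (XT.lf (nat_lit 0) (nat_lit 15994321621651) (nat_lit 76) (nat_lit 1691394558373) (nat_lit 76) (nat_lit 1691357346922) (nat_lit 1) (nat_lit 4) (nat_lit 2) (nat_lit 5) (nat_lit 2) (nat_lit 4) (nat_lit 540) (nat_lit 339) (nat_lit 321)) (XT.lf (nat_lit 0) (nat_lit 17275696943836) (nat_lit 76) (nat_lit 1825755000288) (nat_lit 76) (nat_lit 1825716868815) (nat_lit 1) (nat_lit 4) (nat_lit 2) (nat_lit 5) (nat_lit 2) (nat_lit 4) (nat_lit 541) (nat_lit 339) (nat_lit 320))) (XT.nd (nat_lit 78) (nat_lit 0) (nat_lit 0) (XT.lf (nat_lit 0) (nat_lit 18659538216446) (nat_lit 76) (nat_lit 1970887094695) (nat_lit 76) (nat_lit 1970848111350) (nat_lit 1) (nat_lit 4) (nat_lit 2) (nat_lit 5) (nat_lit 2) (nat_lit 4) (nat_lit 542) (nat_lit 339) (nat_lit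 319)) (XT.lf (nat_lit 0) (nat_lit 20154045980356) (nat_lit 76) (nat_lit 2127650883635) (nat_lit 76) (nat_lit 2127611111519) (nat_lit 1) (nat_lit 4) (nat_lit 2) (nat_lit 5) (nat_lit 2) (nat_lit 4) (nat_lit 543) (nat_lit 339) (nat_lit 318)))) (XT.nd (nat_lit 156) (nat_lit 0) (nat_lit 0) (XT.nd (nat_lit 78) (nat_lit 0) (nat_lit 0) (XT.lf (nat_lit 0) (nat_lit 21768076577869) (nat_lit 76) (nat_lit 2296975337709) (nat_lit 76) (nat_lit 2296934835251) (nat_lit 1) (nat_lit 4) (nat_lit 2) (nat_lit 5) (nat_lit 2) (nat_lit 4) (nat_lit 544) (nat_lit 339) (nat_lit 317)) (XT.lf (nat_lit 0) (nat_lit 23511194634750) (nat_lit 76) (nat_lit 2479863861090) (nat_lit 76) (nat_lit 2479822682388) (nat_lit 1) (nat_lit 4) (nat_lit 2) (nat_lit 5) (nat_lit 2) (nat_lit 4) (nat_lit 545) (nat_lit 339) (nat_lit 316))) (XT.nd (nat_lit 60450) (nat_lit 0) (nat_lit 0) (XT.lf (nat_lit 0) (nat_lit 25393729739483) (nat_lit 76)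 (nat_lit 2677400237620) (nat_lit 76) (nat_lit 2677358432766) (nat_lit 1) (nat_lit 4) (nat_lit 2) (nat_lit 5) (nat_lit 2) (nat_lit 4) (nat_lit 546) (nat_lit 339) (nat_lit 315)) (XT.lf (nat_lit 0) (nat_lit 1701179505963) (nat_lit 76) (nat_lit 189020962665) (nat_lit 76) (nat_lit 189020962665) (nat_lit 1) (nat_lit 4) (nat_lit 2) (nat_lit 5) (nat_lit 2) (nat_lit 4) (nat_lit 520) (nat_lit 340) (nat_lit 340))))))))
noncomputable def xc3 : XT := (XT.nd (nat_lit 62400) (nat_lit 0) (nat_lit 0) (XT.nd (nat_lit 1092) (nat_lit 0) (nat_lit 0) (XT.nd (nat_lit 546) (nat_lit 0) (nat_lit 0) (XT.nd (nat_lit 234) (nat_lit 0) (nat_lit 0) (XT.nd (nat_lit 78) (nat_lit 0) (nat_lit 0) (XT.lf (nat_lit 0) (nat_lit 3678448990598) (nat_lit 76) (nat_lit 406261369326) (nat_lit 76) (nat_lit 406257398786) (nat_lit 1) (nat_lit 4) (nat_lit 2) (nat_lit 5) (nat_lit 2) (nat_lit 4) (nat_lit 521) (nat_lit 340) (nat_lit 339)) (XT.nd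 (nat_lit 78) (nat_lit 0) (nat_lit 0) (XT.lf (nat_lit 0) (nat_lit 3976435951528) (nat_lit 76) (nat_lit 436836840793) (nat_lit 76) (nat_lit 436829193827) (nat_lit 1) (nat_lit 4) (nat_lit 2) (nat_lit 5) (nat_lit 2) (nat_lit 4) (nat_lit 522) (nat_lit 340) (nat_lit 338)) (XT.lf (nat_lit 0) (nat_lit 4298085743375) (nat_lit 76) (nat_lit 469949527710) (nat_lit 76) (nat_lit 469938476647) (nat_lit 1) (nat_lit 4) (nat_lit 2) (nat_lit 5) (nat_lit 2) (nat_lit 4) (nat_lit 523) (nat_lit 340) (nat_lit 337)))) (XT.nd (nat_lit 156) (nat_lit 0) (nat_lit 0) (XT.nd (nat_lit 78) (nat_lit 0) (nat_lit 0) (XT.lf (nat_lit 0) (nat_lit 4645304438979) (nat_lit 76) (nat_lit 505795653407) (nat_lit 76) (nat_lit 505781450401) (nat_lit 1) (nat_lit 4) (nat_lit 2) (nat_lit 5) (nat_lit 2) (nat_lit 4) (nat_lit 524) (nat_lit 340) (nat_lit 336)) (XT.lf (nat_lit 0) (nat_lit 5020149630609) (nat_lit 76) (nat_lit 544587639369) (nat_lit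 76) (nat_lit 544570517898) (nat_lit 1) (nat_lit 4) (nat_lit 2) (nat_lit 5) (nat_lit 2) (nat_lit 4) (nat_lit 525) (nat_lit 340) (nat_lit 335))) (XT.nd (nat_lit 78) (nat_lit 0) (nat_lit 0) (XT.lf (nat_lit 0) (nat_lit 5424842623105) (nat_lit 76) (nat_lit 586555364033) (nat_lit 76) (nat_lit 586535540279) (nat_lit 1) (nat_lit 4) (nat_lit 2) (nat_lit 5) (nat_lit 2) (nat_lit 4) (nat_lit 526) (nat_lit 340) (nat_lit 334)) (XT.lf (nat_lit 0) (nat_lit 5861781597165) (nat_lit 76) (nat_lit 631947525024) (nat_lit 76) (nat_lit 631925199157) (nat_lit 1) (nat_lit 4) (nat_lit 2) (nat_lit 5) (nat_lit 2) (nat_lit 4) (nat_lit 527) (nat_lit 340) (nat_lit 333))))) (XT.nd (nat_lit 234) (nat_lit 0) (nat_lit 0) (XT.nd (nat_lit 78) (nat_lit 0) (nat_lit 0) (XT.lf (nat_lit 0) (nat_lit 6333555820780) (nat_lit 76) (nat_lit 681033112928) (nat_lit 76) (nat_lit 681008470289) (nat_lit 1) (nat_lit 4) (nat_lit 2) (nat_lit 5)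 (nat_lit 2) (nat_lit 4) (nat_lit 528) (nat_lit 340) (nat_lit 332)) (XT.nd (nat_lit 78) (nat_lit 0) (nat_lit 0) (XT.lf (nat_lit 0) (nat_lit 6842960993056) (nat_lit 76) (nat_lit 734103005302) (nat_lit 76) (nat_lit 734076217504) (nat_lit 1) (nat_lit 4) (nat_lit 2) (nat_lit 5) (nat_lit 2) (nat_lit 4) (nat_lit 529) (nat_lit 340) (nat_lit 331)) (XT.lf (nat_lit 0) (nat_lit 7393015811309) (nat_lit 76) (nat_lit 791471690398) (nat_lit 76) (nat_lit 791442916341) (nat_lit 1) (nat_lit 4) (nat_lit 2) (nat_lit 5) (nat_lit 2) (nat_lit 4) (nat_lit 530) (nat_lit 340) (nat_lit 330)))) (XT.nd (nat_lit 156) (nat_lit 0) (nat_lit 0) (XT.nd (nat_lit 78) (nat_lit 0) (nat_lit 0) (XT.lf (nat_lit 0) (nat_lit 7986979859647) (nat_lit 76) (nat_lit 853479130793) (nat_lit 76) (nat_lit 853448517607) (nat_lit 1) (nat_lit 4) (nat_lit 2) (nat_lit 5) (nat_lit 2) (nat_lit 4) (nat_lit 531) (nat_lit 340) (nat_lit 329)) (XT.lf (nat_lit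 0) (nat_lit 8628372925024) (nat_lit 76) (nat_lit 920492777986) (nat_lit 76) (nat_lit 920460461904) (nat_lit 1) (nat_lit 4) (nat_lit 2) (nat_lit 5) (nat_lit 2) (nat_lit 4) (nat_lit 532) (nat_lit 340) (nat_lit 328))) (XT.nd (nat_lit 78) (nat_lit 0) (nat_lit 0) (XT.lf (nat_lit 0) (nat_lit 9320995855233) (nat_lit 76) (nat_lit 992909749886) (nat_lit 76) (nat_lit 992875857048) (nat_lit 1) (nat_lit 4) (nat_lit 2) (nat_lit 5) (nat_lit 2) (nat_lit 4) (nat_lit 533) (nat_lit 340) (nat_lit 327)) (XT.lf (nat_lit 0) (nat_lit 10068953082455) (nat_lit 76) (nat_lit 1071159184105) (nat_lit 76) (nat_lit 1071123831308) (nat_lit 1) (nat_lit 4) (nat_lit 2) (nat_lit 5) (nat_lit 2) (nat_lit 4) (nat_lit 534) (nat_lit 340) (nat_lit 326)))))) (XT.nd (nat_lit 546) (nat_lit 0) (nat_lit 0) (XT.nd (nat_lit 234) (nat_lit 0) (nat_lit 0) (XT.nd (nat_lit 78) (nat_lit 0) (nat_lit 0) (XT.lf (nat_lit 0) (nat_lit 10876676945813)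 (nat_lit 76) (nat_lit 1155704780994) (nat_lit 76) (nat_lit 1155668076383) (nat_lit 1) (nat_lit 4) (nat_lit 2) (nat_lit 5) (nat_lit 2) (nat_lit 4) (nat_lit 535) (nat_lit 340) (nat_lit 325)) (XT.nd (nat_lit 78) (nat_lit 0) (nat_lit 0) (XT.lf (nat_lit 0) (nat_lit 11748953957090) (nat_lit 76) (nat_lit 1247047551497) (nat_lit 76) (nat_lit 1247009595207) (nat_lit 1) (nat_lit 4) (nat_lit 2) (nat_lit 5) (nat_lit 2) (nat_lit 4) (nat_lit 536) (nat_lit 340) (nat_lit 324)) (XT.lf (nat_lit 0) (nat_lit 12690953165242) (nat_lit 76) (nat_lit 1345728786106) (nat_lit 76) (nat_lit 1345689670853) (nat_lit 1) (nat_lit 4) (nat_lit 2) (nat_lit 5) (nat_lit 2) (nat_lit 4) (nat_lit 537) (nat_lit 340) (nat_lit 323)))) (XT.nd (nat_lit 156) (nat_lit 0) (nat_lit 0) (XT.nd (nat_lit 78) (nat_lit 0) (nat_lit 0) (XT.lf (nat_lit 0) (nat_lit 13708256787800) (nat_lit 76) (nat_lit 1452333262508) (nat_lit 76) (nat_lit 1452293074141)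 (nat_lit 1) (nat_lit 4) (nat_lit 2) (nat_lit 5) (nat_lit 2) (nat_lit 4) (nat_lit 538) (nat_lit 340) (nat_lit 322)) (XT.lf (nat_lit 0) (nat_lit 14806893290673) (nat_lit 76) (nat_lit 1567492710933) (nat_lit 76) (nat_lit 1567451528943) (nat_lit 1) (nat_lit 4) (nat_lit 2) (nat_lit 5) (nat_lit 2) (nat_lit 4) (nat_lit 539) (nat_lit 340) (nat_lit 321))) (XT.nd (nat_lit 78) (nat_lit 0) (nat_lit 0) (XT.lf (nat_lit 0) (nat_lit 15993373112398) (nat_lit 76) (nat_lit 1691889557743) (nat_lit 76) (nat_lit 1691847455730) (nat_lit 1) (nat_lit 4) (nat_lit 2) (nat_lit 5) (nat_lit 2) (nat_lit 4) (nat_lit 540) (nat_lit 340) (nat_lit 320)) (XT.lf (nat_lit 0) (nat_lit 17274727244511) (nat_lit 76) (nat_lit 1826260969436) (nat_lit 76) (nat_lit 1826218015551) (nat_lit 1) (nat_lit 4) (nat_lit 2) (nat_lit 5) (nat_lit 2) (nat_lit 4) (nat_lit 541) (nat_lit 340) (nat_lit 319))))) (XT.nd (nat_lit 234) (nat_lit 0) (nat_lit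 0) (XT.nd (nat_lit 78) (nat_lit 0) (nat_lit 0) (XT.lf (nat_lit 0) (nat_lit 18658548896684) (nat_lit 76) (nat_lit 1971403221045) (nat_lit 76) (nat_lit 1971359478389) (nat_lit 1) (nat_lit 4) (nat_lit 2) (nat_lit 5) (nat_lit 2) (nat_lit 4) (nat_lit 542) (nat_lit 340) (nat_lit 318)) (XT.nd (nat_lit 78) (nat_lit 0) (nat_lit 0) (XT.lf (nat_lit 0) (nat_lit 20153038493522) (nat_lit 76) (nat_lit 2128176414802) (nat_lit 76) (nat_lit 2128131941803) (nat_lit 1) (nat_lit 4) (nat_lit 2) (nat_lit 5) (nat_lit 2) (nat_lit 4) (nat_lit 543) (nat_lit 340) (nat_lit 317)) (XT.lf (nat_lit 0) (nat_lit 21767052269673) (nat_lit 76) (nat_lit 2297509577040) (nat_lit 76) (nat_lit 2297464427798) (nat_lit 1) (nat_lit 4) (nat_lit 2) (nat_lit 5) (nat_lit 2) (nat_lit 4) (nat_lit 544) (nat_lit 340) (nat_lit 316)))) (XT.nd (nat_lit 60372) (nat_lit 0) (nat_lit 0) (XT.nd (nat_lit 78) (nat_lit 0) (nat_lit 0) (XT.lf (nat_lit 0)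 (nat_lit 23510154751218) (nat_lit 76) (nat_lit 2480406163535) (nat_lit 76) (nat_lit 2480360388142) (nat_lit 1) (nat_lit 4) (nat_lit 2) (nat_lit 5) (nat_lit 2) (nat_lit 4) (nat_lit 545) (nat_lit 340) (nat_lit 315)) (XT.lf (nat_lit 0) (nat_lit 25392675434344) (nat_lit 76) (nat_lit 2677950005912) (nat_lit 76) (nat_lit 2677903650748) (nat_lit 1) (nat_lit 4) (nat_lit 2) (nat_lit 5) (nat_lit 2) (nat_lit 4) (nat_lit 546) (nat_lit 340) (nat_lit 314))) (XT.nd (nat_lit 78) (nat_lit 0) (nat_lit 0) (XT.lf (nat_lit 0) (nat_lit 1454776189081) (nat_lit 76) (nat_lit 163982126614) (nat_lit 76) (nat_lit 163982126614) (nat_lit 1) (nat_lit 4) (nat_lit 2) (nat_lit 5) (nat_lit 2) (nat_lit 4) (nat_lit 518) (nat_lit 341) (nat_lit 341)) (XT.lf (nat_lit 0) (nat_lit 3146529926750) (nat_lit 76) (nat_lit 352015570653) (nat_lit 76) (nat_lit 352011282470) (nat_lit 1) (nat_lit 4) (nat_lit 2) (nat_lit 5) (nat_lit 2) (nat_lit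 4) (nat_lit 519) (nat_lit 341) (nat_lit 340))))))) (XT.nd (nat_lit 1092) (nat_lit 0) (nat_lit 0) (XT.nd (nat_lit 546) (nat_lit 0) (nat_lit 0) (XT.nd (nat_lit 234) (nat_lit 0) (nat_lit 0) (XT.nd (nat_lit 78) (nat_lit 0) (nat_lit 0) (XT.lf (nat_lit 0) (nat_lit 3402260245908) (nat_lit 76) (nat_lit 378097343180) (nat_lit 76) (nat_lit 378089084457) (nat_lit 1) (nat_lit 4) (nat_lit 2) (nat_lit 5) (nat_lit 2) (nat_lit 4) (nat_lit 520) (nat_lit 341) (nat_lit 339)) (XT.nd (nat_lit 78) (nat_lit 0) (nat_lit 0) (XT.lf (nat_lit 0) (nat_lit 3678258774563) (nat_lit 76) (nat_lit 406364129460) (nat_lit 76) (nat_lit 406352194312) (nat_lit 1) (nat_lit 4) (nat_lit 2) (nat_lit 5) (nat_lit 2) (nat_lit 4) (nat_lit 521) (nat_lit 341) (nat_lit 338)) (XT.lf (nat_lit 0) (nat_lit 3976161059552) (nat_lit 76) (nat_lit 436983436376) (nat_lit 76) (nat_lit 436968097129) (nat_lit 1) (nat_lit 4) (nat_lit 2) (nat_lit 5) (nat_lit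 2) (nat_lit 4) (nat_lit 522) (nat_lit 341) (nat_lit 337)))) (XT.nd (nat_lit 156) (nat_lit 0) (nat_lit 0) (XT.nd (nat_lit 78) (nat_lit 0) (nat_lit 0) (XT.lf (nat_lit 0) (nat_lit 4297732447749) (nat_lit 76) (nat_lit 470136711671) (nat_lit 76) (nat_lit 470118220482) (nat_lit 1) (nat_lit 4) (nat_lit 2) (nat_lit 5) (nat_lit 2) (nat_lit 4) (nat_lit 523) (nat_lit 341) (nat_lit 336)) (XT.lf (nat_lit 0) (nat_lit 4644878547381) (nat_lit 76) (nat_lit 506020419199) (nat_lit 76) (nat_lit 505999009545) (nat_lit 1) (nat_lit 4) (nat_lit 2) (nat_lit 5) (nat_lit 2) (nat_lit 4) (nat_lit 524) (nat_lit 341) (nat_lit 335))) (XT.nd (nat_lit 78) (nat_lit 0) (nat_lit 0) (XT.lf (nat_lit 0) (nat_lit 5019656520519) (nat_lit 76) (nat_lit 544847203154) (nat_lit 76) (nat_lit 544823091217) (nat_lit 1) (nat_lit 4) (nat_lit 2) (nat_lit 5) (nat_lit 2) (nat_lit 4) (nat_lit 525) (nat_lit 341) (nat_lit 334)) (XT.lf (nat_lit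 0) (nat_lit 5424287273670) (nat_lit 76) (nat_lit 586847148181) (nat_lit 76) (nat_lit 586820534130) (nat_lit 1) (nat_lit 4) (nat_lit 2) (nat_lit 5) (nat_lit 2) (nat_lit 4) (nat_lit 526) (nat_lit 341) (nat_lit 333))))) (XT.nd (nat_lit 234) (nat_lit 0) (nat_lit 0) (XT.nd (nat_lit 78) (nat_lit 0) (nat_lit 0) (XT.lf (nat_lit 0) (nat_lit 5861168618706) (nat_lit 76) (nat_lit 632269142842) (nat_lit 76) (nat_lit 632240212020) (nat_lit 1) (nat_lit 4) (nat_lit 2) (nat_lit 5) (nat_lit 2) (nat_lit 4) (nat_lit 527) (nat_lit 341) (nat_lit 332)) (XT.nd (nat_lit 78) (nat_lit 0) (nat_lit 0) (XT.lf (nat_lit 0) (nat_lit 6332889482116) (nat_lit 76) (nat_lit 681382354514) (nat_lit 76) (nat_lit 681351278533) (nat_lit 1) (nat_lit 4) (nat_lit 2) (nat_lit 5) (nat_lit 2) (nat_lit 4) (nat_lit 528) (nat_lit 341) (nat_lit 331)) (XT.lf (nat_lit 0) (nat_lit 6842245246793) (nat_lit 76) (nat_lit 734477824451) (nat_lit 76)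 (nat_lit 734444762211) (nat_lit 1) (nat_lit 4) (nat_lit 2) (nat_lit 5) (nat_lit 2) (nat_lit 4) (nat_lit 529) (nat_lit 341) (nat_lit 330)))) (XT.nd (nat_lit 156) (nat_lit 0) (nat_lit 0) (XT.nd (nat_lit 78) (nat_lit 0) (nat_lit 0) (XT.lf (nat_lit 0) (nat_lit 7392254317270) (nat_lit 76) (nat_lit 791870192475) (nat_lit 76) (nat_lit 791835291107) (nat_lit 1) (nat_lit 4) (nat_lit 2) (nat_lit 5) (nat_lit 2) (nat_lit 4) (nat_lit 530) (nat_lit 341) (nat_lit 329)) (XT.lf (nat_lit 0) (nat_lit 7986176006555) (nat_lit 76) (nat_lit 853899561508) (nat_lit 76) (nat_lit 853862957243) (nat_lit 1) (nat_lit 4) (nat_lit 2) (nat_lit 5) (nat_lit 2) (nat_lit 4) (nat_lit 531) (nat_lit 341) (nat_lit 328))) (XT.nd (nat_lit 78) (nat_lit 0) (nat_lit 0) (XT.lf (nat_lit 0) (nat_lit 8627529850587) (nat_lit 76) (nat_lit 920933512995) (nat_lit 76) (nat_lit 920895331975) (nat_lit 1) (nat_lit 4) (nat_lit 2) (nat_lit 5) (nat_lit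 2) (nat_lit 4) (nat_lit 532) (nat_lit 341) (nat_lit 327)) (XT.lf (nat_lit 0) (nat_lit 9320116464737) (nat_lit 76) (nat_lit 993369285168) (nat_lit 76) (nat_lit 993329644188) (nat_lit 1) (nat_lit 4) (nat_lit 2) (nat_lit 5) (nat_lit 2) (nat_lit 4) (nat_lit 533) (nat_lit 341) (nat_lit 326)))))) (XT.nd (nat_lit 546) (nat_lit 0) (nat_lit 0) (XT.nd (nat_lit 234) (nat_lit 0) (nat_lit 0) (XT.nd (nat_lit 78) (nat_lit 0) (nat_lit 0) (XT.lf (nat_lit 0) (nat_lit 10068040065977) (nat_lit 76) (nat_lit 1071636127047) (nat_lit 76) (nat_lit 1071595134253) (nat_lit 1) (nat_lit 4) (nat_lit 2) (nat_lit 5) (nat_lit 2) (nat_lit 4) (nat_lit 534) (nat_lit 341) (nat_lit 325)) (XT.nd (nat_lit 78) (nat_lit 0) (nat_lit 0) (XT.lf (nat_lit 0) (nat_lit 10875732794167) (nat_lit 76) (nat_lit 1156197842139) (nat_lit 76) (nat_lit 1156155597666) (nat_lit 1) (nat_lit 4) (nat_lit 2) (nat_lit 5) (nat_lit 2) (nat_lit 4) (nat_lit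 535) (nat_lit 341) (nat_lit 324)) (XT.lf (nat_lit 0) (nat_lit 11747980976585) (nat_lit 76) (nat_lit 1247555536905) (nat_lit 76) (nat_lit 1247512133468) (nat_lit 1) (nat_lit 4) (nat_lit 2) (nat_lit 5) (nat_lit 2) (nat_lit 4) (nat_lit 536) (nat_lit 341) (nat_lit 323)))) (XT.nd (nat_lit 156) (nat_lit 0) (nat_lit 0) (XT.nd (nat_lit 78) (nat_lit 0) (nat_lit 0) (XT.lf (nat_lit 0) (nat_lit 12689953491349) (nat_lit 76) (nat_lit 1346250590276) (nat_lit 76) (nat_lit 1346206113726) (nat_lit 1) (nat_lit 4) (nat_lit 2) (nat_lit 5) (nat_lit 2) (nat_lit 4) (nat_lit 537) (nat_lit 341) (nat_lit 322)) (XT.lf (nat_lit 0) (nat_lit 13707232397806) (nat_lit 76) (nat_lit 1452867861827) (nat_lit 76) (nat_lit 1452822391653) (nat_lit 1) (nat_lit 4) (nat_lit 2) (nat_lit 5) (nat_lit 2) (nat_lit 4) (nat_lit 538) (nat_lit 341) (nat_lit 321))) (XT.nd (nat_lit 78) (nat_lit 0) (nat_lit 0) (XT.lf (nat_lit 0) (nat_lit 14805846015402)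 (nat_lit 76) (nat_lit 1568039157613) (nat_lit 76) (nat_lit 1567992767417) (nat_lit 1) (nat_lit 4) (nat_lit 2) (nat_lit 5) (nat_lit 2) (nat_lit 4) (nat_lit 539) (nat_lit 341) (nat_lit 320)) (XT.lf (nat_lit 0) (nat_lit 15992304647055) (nat_lit 76) (nat_lit 1692446974200) (nat_lit 76) (nat_lit 1692399732132) (nat_lit 1) (nat_lit 4) (nat_lit 2) (nat_lit 5) (nat_lit 2) (nat_lit 4) (nat_lit 540) (nat_lit 341) (nat_lit 319))))) (XT.nd (nat_lit 312) (nat_lit 0) (nat_lit 0) (XT.nd (nat_lit 156) (nat_lit 0) (nat_lit 0) (XT.nd (nat_lit 78) (nat_lit 0) (nat_lit 0) (XT.lf (nat_lit 0) (nat_lit 17273639158731) (nat_lit 76) (nat_lit 1826828543096) (nat_lit 76) (nat_lit 1826780512257) (nat_lit 1) (nat_lit 4) (nat_lit 2) (nat_lit 5) (nat_lit 2) (nat_lit 4) (nat_lit 541) (nat_lit 341) (nat_lit 318)) (XT.lf (nat_lit 0) (nat_lit 18657442643832) (nat_lit 76) (nat_lit 1971980199522) (nat_lit 76) (nat_lit 1971931438340)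 (nat_lit 1) (nat_lit 4) (nat_lit 2) (nat_lit 5) (nat_lit 2) (nat_lit 4) (nat_lit 542) (nat_lit 341) (nat_lit 317))) (XT.nd (nat_lit 78) (nat_lit 0) (nat_lit 0) (XT.lf (nat_lit 0) (nat_lit 20151915419307) (nat_lit 76) (nat_lit 2128762101442) (nat_lit 76) (nat_lit 2128712664017) (nat_lit 1) (nat_lit 4) (nat_lit 2) (nat_lit 5) (nat_lit 2) (nat_lit 4) (nat_lit 543) (nat_lit 341) (nat_lit 316)) (XT.lf (nat_lit 0) (nat_lit 21765913620123) (nat_lit 76) (nat_lit 2298103326795) (nat_lit 76) (nat_lit 2298053263218) (nat_lit 1) (nat_lit 4) (nat_lit 2) (nat_lit 5) (nat_lit 2) (nat_lit 4) (nat_lit 544) (nat_lit 341) (nat_lit 315)))) (XT.nd (nat_lit 60216) (nat_lit 0) (nat_lit 0) (XT.nd (nat_lit 78) (nat_lit 0) (nat_lit 0) (XT.lf (nat_lit 0) (nat_lit 23509001680061) (nat_lit 76) (nat_lit 2481007379138) (nat_lit 76) (nat_lit 2480956735791) (nat_lit 1) (nat_lit 4) (nat_lit 2) (nat_lit 5) (nat_lit 2) (nat_lit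 4) (nat_lit 545) (nat_lit 341) (nat_lit 314)) (XT.lf (nat_lit 0) (nat_lit 25391509009847) (nat_lit 76) (nat_lit 2678558134335) (nat_lit 76) (nat_lit 2678506954165) (nat_lit 1) (nat_lit 4) (nat_lit 2) (nat_lit 5) (nat_lit 2) (nat_lit 4) (nat_lit 546) (nat_lit 341) (nat_lit 313))) (XT.nd (nat_lit 78) (nat_lit 0) (nat_lit 0) (XT.lf (nat_lit 0) (nat_lit 1243228176732) (nat_lit 76) (nat_lit 142669529850) (nat_lit 76) (nat_lit 142669529850) (nat_lit 1) (nat_lit 4) (nat_lit 2) (nat_lit 5) (nat_lit 2) (nat_lit 4) (nat_lit 516) (nat_lit 342) (nat_lit 342)) (XT.lf (nat_lit 0) (nat_lit 2689923288744) (nat_lit 76) (nat_lit 305805495816) (nat_lit 76) (nat_lit 305800864579) (nat_lit 1) (nat_lit 4) (nat_lit 2) (nat_lit 5) (nat_lit 2) (nat_lit 4) (nat_lit 517) (nat_lit 342) (nat_lit 341))))))))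
noncomputable def xc4 : XT := (XT.nd (nat_lit 2184) (nat_lit 0) (nat_lit 0) (XT.nd (nat_lit 1092) (nat_lit 0) (nat_lit 0) (XT.nd (nat_lit 546) (nat_lit 0) (nat_lit 0) (XT.nd (nat_lit 234) (nat_lit 0) (nat_lit 0) (XT.nd (nat_lit 78) (nat_lit 0) (nat_lit 0) (XT.lf (nat_lit 0) (nat_lit 2909445710863) (nat_lit 76) (nat_lit 328024104506) (nat_lit 76) (nat_lit 328015185086) (nat_lit 1) (nat_lit 4) (nat_lit 2) (nat_lit 5) (nat_lit 2) (nat_lit 4) (nat_lit 518) (nat_lit 342) (nat_lit 340)) (XT.nd (nat_lit 78) (nat_lit 0) (nat_lit 0) (XT.lf (nat_lit 0) (nat_lit 3146324493433) (nat_lit 76) (nat_lit 352126551599) (nat_lit 76) (nat_lit 352113661638) (nat_lit 1) (nat_lit 4) (nat_lit 2) (nat_lit 5) (nat_lit 2) (nat_lit 4) (nat_lit 519) (nat_lit 342) (nat_lit 339)) (XT.lf (nat_lit 0) (nat_lit 3401963362573) (nat_lit 76) (nat_lit 378255666410) (nat_lit 76) (nat_lit 378239100023) (nat_lit 1) (nat_lit 4) (nat_lit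 2) (nat_lit 5) (nat_lit 2) (nat_lit 4) (nat_lit 520) (nat_lit 342) (nat_lit 338)))) (XT.nd (nat_lit 156) (nat_lit 0) (nat_lit 0) (XT.nd (nat_lit 78) (nat_lit 0) (nat_lit 0) (XT.lf (nat_lit 0) (nat_lit 3677877215287) (nat_lit 76) (nat_lit 406566288138) (nat_lit 76) (nat_lit 406546317654) (nat_lit 1) (nat_lit 4) (nat_lit 2) (nat_lit 5) (nat_lit 2) (nat_lit 4) (nat_lit 521) (nat_lit 342) (nat_lit 337)) (XT.lf (nat_lit 0) (nat_lit 3975701096626) (nat_lit 76) (nat_lit 437226183432) (nat_lit 76) (nat_lit 437203061005) (nat_lit 1) (nat_lit 4) (nat_lit 2) (nat_lit 5) (nat_lit 2) (nat_lit 4) (nat_lit 522) (nat_lit 342) (nat_lit 336))) (XT.nd (nat_lit 78) (nat_lit 0) (nat_lit 0) (XT.lf (nat_lit 0) (nat_lit 4297199888852) (nat_lit 76) (nat_lit 470417040558) (nat_lit 76) (nat_lit 470390999666) (nat_lit 1) (nat_lit 4) (nat_lit 2) (nat_lit 5) (nat_lit 2) (nat_lit 4) (nat_lit 523) (nat_lit 342) (nat_lit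 335)) (XT.lf (nat_lit 0) (nat_lit 4644278769991) (nat_lit 76) (nat_lit 506335546079) (nat_lit 76) (nat_lit 506306802905) (nat_lit 1) (nat_lit 4) (nat_lit 2) (nat_lit 5) (nat_lit 2) (nat_lit 4) (nat_lit 524) (nat_lit 342) (nat_lit 334))))) (XT.nd (nat_lit 234) (nat_lit 0) (nat_lit 0) (XT.nd (nat_lit 78) (nat_lit 0) (nat_lit 0) (XT.lf (nat_lit 0) (nat_lit 5018994503784) (nat_lit 76) (nat_lit 545194550397) (nat_lit 76) (nat_lit 545163305109) (nat_lit 1) (nat_lit 4) (nat_lit 2) (nat_lit 5) (nat_lit 2) (nat_lit 4) (nat_lit 525) (nat_lit 342) (nat_lit 333)) (XT.nd (nat_lit 78) (nat_lit 0) (nat_lit 0) (XT.lf (nat_lit 0) (nat_lit 5423567627913) (nat_lit 76) (nat_lit 587224329093) (nat_lit 76) (nat_lit 587190767033) (nat_lit 1) (nat_lit 4) (nat_lit 2) (nat_lit 5) (nat_lit 2) (nat_lit 4) (nat_lit 526) (nat_lit 342) (nat_lit 332)) (XT.lf (nat_lit 0) (nat_lit 5860395612742) (nat_lit 76) (nat_lit 632673947523)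 (nat_lit 76) (nat_lit 632638240304) (nat_lit 1) (nat_lit 4) (nat_lit 2) (nat_lit 5) (nat_lit 2) (nat_lit 4) (nat_lit 527) (nat_lit 342) (nat_lit 331)))) (XT.nd (nat_lit 156) (nat_lit 0) (nat_lit 0) (XT.nd (nat_lit 78) (nat_lit 0) (nat_lit 0) (XT.lf (nat_lit 0) (nat_lit 6332067068553) (nat_lit 76) (nat_lit 681812736758) (nat_lit 76) (nat_lit 681775043280) (nat_lit 1) (nat_lit 4) (nat_lit 2) (nat_lit 5) (nat_lit 2) (nat_lit 4) (nat_lit 528) (nat_lit 342) (nat_lit 330)) (XT.lf (nat_lit 0) (nat_lit 6841377085454) (nat_lit 76) (nat_lit 734931889624) (nat_lit 76) (nat_lit 734892357018) (nat_lit 1) (nat_lit 4) (nat_lit 2) (nat_lit 5) (nat_lit 2) (nat_lit 4) (nat_lit 529) (nat_lit 342) (nat_lit 329))) (XT.nd (nat_lit 78) (nat_lit 0) (nat_lit 0) (XT.lf (nat_lit 0) (nat_lit 7391343796878) (nat_lit 76) (nat_lit 792346186286) (nat_lit 76) (nat_lit 792304950784) (nat_lit 1) (nat_lit 4) (nat_lit 2) (nat_lit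 5) (nat_lit 2) (nat_lit 4) (nat_lit 530) (nat_lit 342) (nat_lit 328)) (XT.lf (nat_lit 0) (nat_lit 7985226264819) (nat_lit 76) (nat_lit 854395859613) (nat_lit 76) (nat_lit 854353047354) (nat_lit 1) (nat_lit 4) (nat_lit 2) (nat_lit 5) (nat_lit 2) (nat_lit 4) (nat_lit 531) (nat_lit 342) (nat_lit 327)))))) (XT.nd (nat_lit 546) (nat_lit 0) (nat_lit 0) (XT.nd (nat_lit 234) (nat_lit 0) (nat_lit 0) (XT.nd (nat_lit 78) (nat_lit 0) (nat_lit 0) (XT.lf (nat_lit 0) (nat_lit 8626543792791) (nat_lit 76) (nat_lit 921448611372) (nat_lit 76) (nat_lit 921404339155) (nat_lit 1) (nat_lit 4) (nat_lit 2) (nat_lit 5) (nat_lit 2) (nat_lit 4) (nat_lit 532) (nat_lit 342) (nat_lit 326)) (XT.nd (nat_lit 78) (nat_lit 0) (nat_lit 0) (XT.lf (nat_lit 0) (nat_lit 9319096780959) (nat_lit 76) (nat_lit 993901791205) (nat_lit 76) (nat_lit 993856167173) (nat_lit 1) (nat_lit 4) (nat_lit 2) (nat_lit 5) (nat_lit 2) (nat_lit 4) (nat_lit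 533) (nat_lit 342) (nat_lit 325)) (XT.lf (nat_lit 0) (nat_lit 10066989247031) (nat_lit 76) (nat_lit 1072184751287) (nat_lit 76) (nat_lit 1072137875576) (nat_lit 1) (nat_lit 4) (nat_lit 2) (nat_lit 5) (nat_lit 2) (nat_lit 4) (nat_lit 534) (nat_lit 342) (nat_lit 324)))) (XT.nd (nat_lit 156) (nat_lit 0) (nat_lit 0) (XT.nd (nat_lit 78) (nat_lit 0) (nat_lit 0) (XT.lf (nat_lit 0) (nat_lit 10874653146362) (nat_lit 76) (nat_lit 1156761390642) (nat_lit 76) (nat_lit 1156713355968) (nat_lit 1) (nat_lit 4) (nat_lit 2) (nat_lit 5) (nat_lit 2) (nat_lit 4) (nat_lit 535) (nat_lit 342) (nat_lit 323)) (XT.lf (nat_lit 0) (nat_lit 11746874635392) (nat_lit 76) (nat_lit 1248132904169) (nat_lit 76) (nat_lit 1248083796381) (nat_lit 1) (nat_lit 4) (nat_lit 2) (nat_lit 5) (nat_lit 2) (nat_lit 4) (nat_lit 536) (nat_lit 342) (nat_lit 322))) (XT.nd (nat_lit 78) (nat_lit 0) (nat_lit 0) (XT.lf (nat_lit 0) (nat_lit 12688822434056)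 (nat_lit 76) (nat_lit 1346840752689) (nat_lit 76) (nat_lit 1346790651278) (nat_lit 1) (nat_lit 4) (nat_lit 2) (nat_lit 5) (nat_lit 2) (nat_lit 4) (nat_lit 537) (nat_lit 342) (nat_lit 321)) (XT.lf (nat_lit 0) (nat_lit 13706078455235) (nat_lit 76) (nat_lit 1453469871601) (nat_lit 76) (nat_lit 1453418850168) (nat_lit 1) (nat_lit 4) (nat_lit 2) (nat_lit 5) (nat_lit 2) (nat_lit 4) (nat_lit 538) (nat_lit 342) (nat_lit 320))))) (XT.nd (nat_lit 234) (nat_lit 0) (nat_lit 0) (XT.nd (nat_lit 78) (nat_lit 0) (nat_lit 0) (XT.lf (nat_lit 0) (nat_lit 14804670882759) (nat_lit 76) (nat_lit 1568652137166) (nat_lit 76) (nat_lit 1568600263860) (nat_lit 1) (nat_lit 4) (nat_lit 2) (nat_lit 5) (nat_lit 2) (nat_lit 4) (nat_lit 539) (nat_lit 342) (nat_lit 319)) (XT.nd (nat_lit 78) (nat_lit 0) (nat_lit 0) (XT.lf (nat_lit 0) (nat_lit 15991109893974) (nat_lit 76) (nat_lit 1693070110955) (nat_lit 76) (nat_lit 1693017448879)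 (nat_lit 1) (nat_lit 4) (nat_lit 2) (nat_lit 5) (nat_lit 2) (nat_lit 4) (nat_lit 540) (nat_lit 342) (nat_lit 318)) (XT.lf (nat_lit 0) (nat_lit 17272426238579) (nat_lit 76) (nat_lit 1827461084668) (nat_lit 76) (nat_lit 1827407692248) (nat_lit 1) (nat_lit 4) (nat_lit 2) (nat_lit 5) (nat_lit 2) (nat_lit 4) (nat_lit 541) (nat_lit 342) (nat_lit 317)))) (XT.nd (nat_lit 156) (nat_lit 0) (nat_lit 0) (XT.nd (nat_lit 78) (nat_lit 0) (nat_lit 0) (XT.lf (nat_lit 0) (nat_lit 18656212902318) (nat_lit 76) (nat_lit 1972621449257) (nat_lit 76) (nat_lit 1972567380594) (nat_lit 1) (nat_lit 4) (nat_lit 2) (nat_lit 5) (nat_lit 2) (nat_lit 4) (nat_lit 542) (nat_lit 342) (nat_lit 316)) (XT.lf (nat_lit 0) (nat_lit 20150670102458) (nat_lit 76) (nat_lit 2129411414293) (nat_lit 76) (nat_lit 2129356719478) (nat_lit 1) (nat_lit 4) (nat_lit 2) (nat_lit 5) (nat_lit 2) (nat_lit 4) (nat_lit 543) (nat_lit 342) (nat_lit 315)))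 (XT.nd (nat_lit 78) (nat_lit 0) (nat_lit 0) (XT.lf (nat_lit 0) (nat_lit 21764653881666) (nat_lit 76) (nat_lit 2298760105492) (nat_lit 76) (nat_lit 2298704830908) (nat_lit 1) (nat_lit 4) (nat_lit 2) (nat_lit 5) (nat_lit 2) (nat_lit 4) (nat_lit 544) (nat_lit 342) (nat_lit 314)) (XT.lf (nat_lit 0) (nat_lit 23507728588264) (nat_lit 76) (nat_lit 2481671070656) (nat_lit 76) (nat_lit 2481615259248) (nat_lit 1) (nat_lit 4) (nat_lit 2) (nat_lit 5) (nat_lit 2) (nat_lit 4) (nat_lit 545) (nat_lit 342) (nat_lit 313))))))) (XT.nd (nat_lit 60996) (nat_lit 0) (nat_lit 0) (XT.nd (nat_lit 60450) (nat_lit 0) (nat_lit 0) (XT.nd (nat_lit 60138) (nat_lit 0) (nat_lit 0) (XT.nd (nat_lit 59982) (nat_lit 0) (nat_lit 0) (XT.lf (nat_lit 0) (nat_lit 25390223553847) (nat_lit 76) (nat_lit 2679228226614) (nat_lit 76) (nat_lit 2679171918147) (nat_lit 1) (nat_lit 4) (nat_lit 2) (nat_lit 5) (nat_lit 2) (nat_lit 4) (nat_lit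 546) (nat_lit 342) (nat_lit 312)) (XT.nd (nat_lit 78) (nat_lit 0) (nat_lit 0) (XT.lf (nat_lit 0) (nat_lit 1061539219387) (nat_lit 76) (nat_lit 124563916232) (nat_lit 76) (nat_lit 124563916232) (nat_lit 1) (nat_lit 4) (nat_lit 2) (nat_lit 5) (nat_lit 2) (nat_lit 4) (nat_lit 514) (nat_lit 343) (nat_lit 343)) (XT.lf (nat_lit 0) (nat_lit 2297839175038) (nat_lit 76) (nat_lit 266508515309) (nat_lit 76) (nat_lit 266503513573) (nat_lit 1) (nat_lit 4) (nat_lit 2) (nat_lit 5) (nat_lit 2) (nat_lit 4) (nat_lit 515) (nat_lit 343) (nat_lit 342)))) (XT.nd (nat_lit 156) (nat_lit 0) (nat_lit 0) (XT.nd (nat_lit 78) (nat_lit 0) (nat_lit 0) (XT.lf (nat_lit 0) (nat_lit 2486341152782) (nat_lit 76) (nat_lit 285403699080) (nat_lit 76) (nat_lit 285394066106) (nat_lit 1) (nat_lit 4) (nat_lit 2) (nat_lit 5) (nat_lit 2) (nat_lit 4) (nat_lit 516) (nat_lit 343) (nat_lit 341)) (XT.lf (nat_lit 0) (nat_lit 2689701420761)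 (nat_lit 76) (nat_lit 305925355237) (nat_lit 76) (nat_lit 305911434080) (nat_lit 1) (nat_lit 4) (nat_lit 2) (nat_lit 5) (nat_lit 2) (nat_lit 4) (nat_lit 517) (nat_lit 343) (nat_lit 340))) (XT.nd (nat_lit 78) (nat_lit 0) (nat_lit 0) (XT.lf (nat_lit 0) (nat_lit 2909125076861) (nat_lit 76) (nat_lit 328195093594) (nat_lit 76) (nat_lit 328177201897) (nat_lit 1) (nat_lit 4) (nat_lit 2) (nat_lit 5) (nat_lit 2) (nat_lit 4) (nat_lit 518) (nat_lit 343) (nat_lit 339)) (XT.lf (nat_lit 0) (nat_lit 3145912409414) (nat_lit 76) (nat_lit 352344882971) (nat_lit 76) (nat_lit 352323314848) (nat_lit 1) (nat_lit 4) (nat_lit 2) (nat_lit 5) (nat_lit 2) (nat_lit 4) (nat_lit 519) (nat_lit 343) (nat_lit 338))))) (XT.nd (nat_lit 234) (nat_lit 0) (nat_lit 0) (XT.nd (nat_lit 78) (nat_lit 0) (nat_lit 0) (XT.lf (nat_lit 0) (nat_lit 3401466602614) (nat_lit 76) (nat_lit 378517833230) (nat_lit 76) (nat_lit 378492861009) (nat_lit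 1) (nat_lit 4) (nat_lit 2) (nat_lit 5) (nat_lit 2) (nat_lit 4) (nat_lit 520) (nat_lit 343) (nat_lit 337)) (XT.nd (nat_lit 78) (nat_lit 0) (nat_lit 0) (XT.lf (nat_lit 0) (nat_lit 3677302051677) (nat_lit 76) (nat_lit 406869043337) (nat_lit 76) (nat_lit 406840919173) (nat_lit 1) (nat_lit 4) (nat_lit 2) (nat_lit 5) (nat_lit 2) (nat_lit 4) (nat_lit 521) (nat_lit 343) (nat_lit 336)) (XT.lf (nat_lit 0) (nat_lit 3975053337045) (nat_lit 76) (nat_lit 437566520462) (nat_lit 76) (nat_lit 437535477833) (nat_lit 1) (nat_lit 4) (nat_lit 2) (nat_lit 5) (nat_lit 2) (nat_lit 4) (nat_lit 522) (nat_lit 343) (nat_lit 335)))) (XT.nd (nat_lit 156) (nat_lit 0) (nat_lit 0) (XT.nd (nat_lit 78) (nat_lit 0) (nat_lit 0) (XT.lf (nat_lit 0) (nat_lit 4296484910778) (nat_lit 76) (nat_lit 470792175581) (nat_lit 76) (nat_lit 470758430670) (nat_lit 1) (nat_lit 4) (nat_lit 2) (nat_lit 5) (nat_lit 2) (nat_lit 4) (nat_lit 523)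 (nat_lit 343) (nat_lit 334)) (XT.lf (nat_lit 0) (nat_lit 4643501552573) (nat_lit 76) (nat_lit 506742901465) (nat_lit 76) (nat_lit 506706654440) (nat_lit 1) (nat_lit 4) (nat_lit 2) (nat_lit 5) (nat_lit 2) (nat_lit 4) (nat_lit 524) (nat_lit 343) (nat_lit 333))) (XT.nd (nat_lit 78) (nat_lit 0) (nat_lit 0) (XT.lf (nat_lit 0) (nat_lit 5018159657343) (nat_lit 76) (nat_lit 545631739452) (nat_lit 76) (nat_lit 545593175656) (nat_lit 1) (nat_lit 4) (nat_lit 2) (nat_lit 5) (nat_lit 2) (nat_lit 4) (nat_lit 525) (nat_lit 343) (nat_lit 332)) (XT.lf (nat_lit 0) (nat_lit 5422679421265) (nat_lit 76) (nat_lit 587689141917) (nat_lit 76) (nat_lit 587648432961) (nat_lit 1) (nat_lit 4) (nat_lit 2) (nat_lit 5) (nat_lit 2) (nat_lit 4) (nat_lit 526) (nat_lit 343) (nat_lit 331)))))) (XT.nd (nat_lit 546) (nat_lit 0) (nat_lit 0) (XT.nd (nat_lit 234) (nat_lit 0) (nat_lit 0) (XT.nd (nat_lit 78) (nat_lit 0) (nat_lit 0)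 (XT.lf (nat_lit 0) (nat_lit 5859457998496) (nat_lit 76) (nat_lit 633164337909) (nat_lit 76) (nat_lit 633121642695) (nat_lit 1) (nat_lit 4) (nat_lit 2) (nat_lit 5) (nat_lit 2) (nat_lit 4) (nat_lit 527) (nat_lit 343) (nat_lit 330)) (XT.nd (nat_lit 78) (nat_lit 0) (nat_lit 0) (XT.lf (nat_lit 0) (nat_lit 6331083706531) (nat_lit 76) (nat_lit 682326810073) (nat_lit 76) (nat_lit 682282275731) (nat_lit 1) (nat_lit 4) (nat_lit 2) (nat_lit 5) (nat_lit 2) (nat_lit 4) (nat_lit 528) (nat_lit 343) (nat_lit 329)) (XT.lf (nat_lit 0) (nat_lit 6840351364379) (nat_lit 76) (nat_lit 735467891577) (nat_lit 76) (nat_lit 735421654338) (nat_lit 1) (nat_lit 4) (nat_lit 2) (nat_lit 5) (nat_lit 2) (nat_lit 4) (nat_lit 529) (nat_lit 343) (nat_lit 328)))) (XT.nd (nat_lit 156) (nat_lit 0) (nat_lit 0) (XT.nd (nat_lit 78) (nat_lit 0) (nat_lit 0) (XT.lf (nat_lit 0) (nat_lit 7390278854458) (nat_lit 76) (nat_lit 792902492533)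 (nat_lit 76) (nat_lit 792854678538) (nat_lit 1) (nat_lit 4) (nat_lit 2) (nat_lit 5) (nat_lit 2) (nat_lit 4) (nat_lit 530) (nat_lit 343) (nat_lit 327)) (XT.lf (nat_lit 0) (nat_lit 7984125006340) (nat_lit 76) (nat_lit 854970966133) (nat_lit 76) (nat_lit 854921692178) (nat_lit 1) (nat_lit 4) (nat_lit 2) (nat_lit 5) (nat_lit 2) (nat_lit 4) (nat_lit 531) (nat_lit 343) (nat_lit 326))) (XT.nd (nat_lit 78) (nat_lit 0) (nat_lit 0) (XT.lf (nat_lit 0) (nat_lit 8625408908330) (nat_lit 76) (nat_lit 922041125552) (nat_lit 76) (nat_lit 921990499784) (nat_lit 1) (nat_lit 4) (nat_lit 2) (nat_lit 5) (nat_lit 2) (nat_lit 4) (nat_lit 532) (nat_lit 343) (nat_lit 325)) (XT.lf (nat_lit 0) (nat_lit 9317930761330) (nat_lit 76) (nat_lit 994510423588) (nat_lit 76) (nat_lit 994458546140) (nat_lit 1) (nat_lit 4) (nat_lit 2) (nat_lit 5) (nat_lit 2) (nat_lit 4) (nat_lit 533) (nat_lit 343) (nat_lit 324))))) (XT.nd (nat_lit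 312) (nat_lit 0) (nat_lit 0) (XT.nd (nat_lit 156) (nat_lit 0) (nat_lit 0) (XT.nd (nat_lit 78) (nat_lit 0) (nat_lit 0) (XT.lf (nat_lit 0) (nat_lit 10065794398543) (nat_lit 76) (nat_lit 1072808307933) (nat_lit 76) (nat_lit 1072755271522) (nat_lit 1) (nat_lit 4) (nat_lit 2) (nat_lit 5) (nat_lit 2) (nat_lit 4) (nat_lit 534) (nat_lit 343) (nat_lit 323)) (XT.lf (nat_lit 0) (nat_lit 10873431604486) (nat_lit 76) (nat_lit 1157398766049) (nat_lit 76) (nat_lit 1157344656525) (nat_lit 1) (nat_lit 4) (nat_lit 2) (nat_lit 5) (nat_lit 2) (nat_lit 4) (nat_lit 535) (nat_lit 343) (nat_lit 322))) (XT.nd (nat_lit 78) (nat_lit 0) (nat_lit 0) (XT.lf (nat_lit 0) (nat_lit 11745628377416) (nat_lit 76) (nat_lit 1248783074726) (nat_lit 76) (nat_lit 1248727971577) (nat_lit 1) (nat_lit 4) (nat_lit 2) (nat_lit 5) (nat_lit 2) (nat_lit 4) (nat_lit 536) (nat_lit 343) (nat_lit 321)) (XT.lf (nat_lit 0) (nat_lit 12687553290802)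 (nat_lit 76) (nat_lit 1347502770606) (nat_lit 76) (nat_lit 1347446747436) (nat_lit 1) (nat_lit 4) (nat_lit 2) (nat_lit 5) (nat_lit 2) (nat_lit 4) (nat_lit 537) (nat_lit 343) (nat_lit 320)))) (XT.nd (nat_lit 156) (nat_lit 0) (nat_lit 0) (XT.nd (nat_lit 78) (nat_lit 0) (nat_lit 0) (XT.lf (nat_lit 0) (nat_lit 13704788121909) (nat_lit 76) (nat_lit 1454142859297) (nat_lit 76) (nat_lit 1454085984255) (nat_lit 1) (nat_lit 4) (nat_lit 2) (nat_lit 5) (nat_lit 2) (nat_lit 4) (nat_lit 538) (nat_lit 343) (nat_lit 319)) (XT.lf (nat_lit 0) (nat_lit 14803360928995) (nat_lit 76) (nat_lit 1569335282063) (nat_lit 76) (nat_lit 1569277618250) (nat_lit 1) (nat_lit 4) (nat_lit 2) (nat_lit 5) (nat_lit 2) (nat_lit 4) (nat_lit 539) (nat_lit 343) (nat_lit 318))) (XT.nd (nat_lit 78) (nat_lit 0) (nat_lit 0) (XT.lf (nat_lit 0) (nat_lit 15989781773139) (nat_lit 76) (nat_lit 1693762660670) (nat_lit 76) (nat_lit 1693704266514)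 (nat_lit 1) (nat_lit 4) (nat_lit 2) (nat_lit 5) (nat_lit 2) (nat_lit 4) (nat_lit 540) (nat_lit 343) (nat_lit 317)) (XT.lf (nat_lit 0) (nat_lit 17271081296381) (nat_lit 76) (nat_lit 1828162342546) (nat_lit 76) (nat_lit 1828103272146) (nat_lit 1) (nat_lit 4) (nat_lit 2) (nat_lit 5) (nat_lit 2) (nat_lit 4) (nat_lit 541) (nat_lit 343) (nat_lit 316))))))))
noncomputable def xc5 : XT := (XT.nd (nat_lit 61932) (nat_lit 0) (nat_lit 0) (XT.nd (nat_lit 60840) (nat_lit 0) (nat_lit 0) (XT.nd (nat_lit 60294) (nat_lit 0) (nat_lit 0) (XT.nd (nat_lit 234) (nat_lit 0) (nat_lit 0) (XT.nd (nat_lit 78) (nat_lit 0) (nat_lit 0) (XT.lf (nat_lit 0) (nat_lit 18654852384784) (nat_lit 76) (nat_lit 1973330770250) (nat_lit 76) (nat_lit 1973271073699) (nat_lit 1) (nat_lit 4) (nat_lit 2) (nat_lit 5) (nat_lit 2) (nat_lit 4) (nat_lit 542) (nat_lit 343) (nat_lit 315)) (XT.nd (nat_lit 78) (nat_lit 0) (nat_lit 0) (XT.lf (nat_lit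 0) (nat_lit 20149295163317) (nat_lit 76) (nat_lit 2130128201132) (nat_lit 76) (nat_lit 2130067924811) (nat_lit 1) (nat_lit 4) (nat_lit 2) (nat_lit 5) (nat_lit 2) (nat_lit 4) (nat_lit 543) (nat_lit 343) (nat_lit 314)) (XT.lf (nat_lit 0) (nat_lit 21763265589186) (nat_lit 76) (nat_lit 2299483805153) (nat_lit 76) (nat_lit 2299422992008) (nat_lit 1) (nat_lit 4) (nat_lit 2) (nat_lit 5) (nat_lit 2) (nat_lit 4) (nat_lit 544) (nat_lit 343) (nat_lit 313)))) (XT.nd (nat_lit 59904) (nat_lit 0) (nat_lit 0) (XT.nd (nat_lit 78) (nat_lit 0) (nat_lit 0) (XT.lf (nat_lit 0) (nat_lit 23506327931581) (nat_lit 76) (nat_lit 2482401171077) (nat_lit 76) (nat_lit 2482339860873) (nat_lit 1) (nat_lit 4) (nat_lit 2) (nat_lit 5) (nat_lit 2) (nat_lit 4) (nat_lit 545) (nat_lit 343) (nat_lit 312)) (XT.lf (nat_lit 0) (nat_lit 25388811448827) (nat_lit 76) (nat_lit 2679964253665) (nat_lit 76) (nat_lit 2679902483221) (nat_lit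 1) (nat_lit 4) (nat_lit 2) (nat_lit 5) (nat_lit 2) (nat_lit 4) (nat_lit 546) (nat_lit 343) (nat_lit 311))) (XT.nd (nat_lit 78) (nat_lit 0) (nat_lit 0) (XT.lf (nat_lit 0) (nat_lit 905423938313) (nat_lit 76) (nat_lit 109221093997) (nat_lit 76) (nat_lit 109221093997) (nat_lit 1) (nat_lit 4) (nat_lit 2) (nat_lit 5) (nat_lit 2) (nat_lit 4) (nat_lit 512) (nat_lit 344) (nat_lit 344)) (XT.lf (nat_lit 0) (nat_lit 1961023324811) (nat_lit 76) (nat_lit 233164055782) (nat_lit 76) (nat_lit 233158653907) (nat_lit 1) (nat_lit 4) (nat_lit 2) (nat_lit 5) (nat_lit 2) (nat_lit 4) (nat_lit 513) (nat_lit 344) (nat_lit 343))))) (XT.nd (nat_lit 234) (nat_lit 0) (nat_lit 0) (XT.nd (nat_lit 78) (nat_lit 0) (nat_lit 0) (XT.lf (nat_lit 0) (nat_lit 2122954022036) (nat_lit 76) (nat_lit 249197642995) (nat_lit 76) (nat_lit 249187239383) (nat_lit 1) (nat_lit 4) (nat_lit 2) (nat_lit 5) (nat_lit 2) (nat_lit 4) (nat_lit 514)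 (nat_lit 344) (nat_lit 342)) (XT.nd (nat_lit 78) (nat_lit 0) (nat_lit 0) (XT.lf (nat_lit 0) (nat_lit 2297599557616) (nat_lit 76) (nat_lit 266637963483) (nat_lit 76) (nat_lit 266622928634) (nat_lit 1) (nat_lit 4) (nat_lit 2) (nat_lit 5) (nat_lit 2) (nat_lit 4) (nat_lit 515) (nat_lit 344) (nat_lit 341)) (XT.lf (nat_lit 0) (nat_lit 2485994868060) (nat_lit 76) (nat_lit 285588367295) (nat_lit 76) (nat_lit 285569044262) (nat_lit 1) (nat_lit 4) (nat_lit 2) (nat_lit 5) (nat_lit 2) (nat_lit 4) (nat_lit 516) (nat_lit 344) (nat_lit 340)))) (XT.nd (nat_lit 156) (nat_lit 0) (nat_lit 0) (XT.nd (nat_lit 78) (nat_lit 0) (nat_lit 0) (XT.lf (nat_lit 0) (nat_lit 2689256370021) (nat_lit 76) (nat_lit 306161153119) (nat_lit 76) (nat_lit 306137859546) (nat_lit 1) (nat_lit 4) (nat_lit 2) (nat_lit 5) (nat_lit 2) (nat_lit 4) (nat_lit 517) (nat_lit 344) (nat_lit 339)) (XT.lf (nat_lit 0) (nat_lit 2908588576105) (nat_lit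 76) (nat_lit 328478233760) (nat_lit 76) (nat_lit 328451263761) (nat_lit 1) (nat_lit 4) (nat_lit 2) (nat_lit 5) (nat_lit 2) (nat_lit 4) (nat_lit 518) (nat_lit 344) (nat_lit 338))) (XT.nd (nat_lit 78) (nat_lit 0) (nat_lit 0) (XT.lf (nat_lit 0) (nat_lit 3145291232716) (nat_lit 76) (nat_lit 352671858585) (nat_lit 76) (nat_lit 352641484489) (nat_lit 1) (nat_lit 4) (nat_lit 2) (nat_lit 5) (nat_lit 2) (nat_lit 4) (nat_lit 519) (nat_lit 344) (nat_lit 337)) (XT.lf (nat_lit 0) (nat_lit 3400767022266) (nat_lit 76) (nat_lit 378885397223) (nat_lit 76) (nat_lit 378851871184) (nat_lit 1) (nat_lit 4) (nat_lit 2) (nat_lit 5) (nat_lit 2) (nat_lit 4) (nat_lit 520) (nat_lit 344) (nat_lit 336)))))) (XT.nd (nat_lit 546) (nat_lit 0) (nat_lit 0) (XT.nd (nat_lit 234) (nat_lit 0) (nat_lit 0) (XT.nd (nat_lit 78) (nat_lit 0) (nat_lit 0) (XT.lf (nat_lit 0) (nat_lit 3676529875358) (nat_lit 76) (nat_lit 407274189161)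 (nat_lit 76) (nat_lit 407237744657) (nat_lit 1) (nat_lit 4) (nat_lit 2) (nat_lit 5) (nat_lit 2) (nat_lit 4) (nat_lit 521) (nat_lit 344) (nat_lit 335)) (XT.nd (nat_lit 78) (nat_lit 0) (nat_lit 0) (XT.lf (nat_lit 0) (nat_lit 3974213942233) (nat_lit 76) (nat_lit 438006464278) (nat_lit 76) (nat_lit 437967317491) (nat_lit 1) (nat_lit 4) (nat_lit 2) (nat_lit 5) (nat_lit 2) (nat_lit 4) (nat_lit 522) (nat_lit 344) (nat_lit 334)) (XT.lf (nat_lit 0) (nat_lit 4295583276622) (nat_lit 76) (nat_lit 471264339760) (nat_lit 76) (nat_lit 471222690860) (nat_lit 1) (nat_lit 4) (nat_lit 2) (nat_lit 5) (nat_lit 2) (nat_lit 4) (nat_lit 523) (nat_lit 344) (nat_lit 333)))) (XT.nd (nat_lit 156) (nat_lit 0) (nat_lit 0) (XT.nd (nat_lit 78) (nat_lit 0) (nat_lit 0) (XT.lf (nat_lit 0) (nat_lit 4642542289393) (nat_lit 76) (nat_lit 507244899314) (nat_lit 76) (nat_lit 507200933642) (nat_lit 1) (nat_lit 4) (nat_lit 2) (nat_lit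 5) (nat_lit 2) (nat_lit 4) (nat_lit 524) (nat_lit 344) (nat_lit 332)) (XT.lf (nat_lit 0) (nat_lit 5017147033957) (nat_lit 76) (nat_lit 546161361070) (nat_lit 76) (nat_lit 546115250238) (nat_lit 1) (nat_lit 4) (nat_lit 2) (nat_lit 5) (nat_lit 2) (nat_lit 4) (nat_lit 525) (nat_lit 344) (nat_lit 331))) (XT.nd (nat_lit 78) (nat_lit 0) (nat_lit 0) (XT.lf (nat_lit 0) (nat_lit 5421617390280) (nat_lit 76) (nat_lit 588244341097) (nat_lit 76) (nat_lit 588196244007) (nat_lit 1) (nat_lit 4) (nat_lit 2) (nat_lit 5) (nat_lit 2) (nat_lit 4) (nat_lit 526) (nat_lit 344) (nat_lit 330)) (XT.lf (nat_lit 0) (nat_lit 5858350219735) (nat_lit 76) (nat_lit 633743220019) (nat_lit 76) (nat_lit 633693283801) (nat_lit 1) (nat_lit 4) (nat_lit 2) (nat_lit 5) (nat_lit 2) (nat_lit 4) (nat_lit 527) (nat_lit 344) (nat_lit 329))))) (XT.nd (nat_lit 234) (nat_lit 0) (nat_lit 0) (XT.nd (nat_lit 78) (nat_lit 0) (nat_lit 0) (XT.lf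 (nat_lit 0) (nat_lit 6329933568717) (nat_lit 76) (nat_lit 682927620820) (nat_lit 76) (nat_lit 682875981706) (nat_lit 1) (nat_lit 4) (nat_lit 2) (nat_lit 5) (nat_lit 2) (nat_lit 4) (nat_lit 528) (nat_lit 344) (nat_lit 328)) (XT.nd (nat_lit 78) (nat_lit 0) (nat_lit 0) (XT.lf (nat_lit 0) (nat_lit 6839162005221) (nat_lit 76) (nat_lit 736089006618) (nat_lit 76) (nat_lit 736035790748) (nat_lit 1) (nat_lit 4) (nat_lit 2) (nat_lit 5) (nat_lit 2) (nat_lit 4) (nat_lit 529) (nat_lit 344) (nat_lit 327)) (XT.lf (nat_lit 0) (nat_lit 7389053179241) (nat_lit 76) (nat_lit 793542407847) (nat_lit 76) (nat_lit 793487732017) (nat_lit 1) (nat_lit 4) (nat_lit 2) (nat_lit 5) (nat_lit 2) (nat_lit 4) (nat_lit 530) (nat_lit 344) (nat_lit 326)))) (XT.nd (nat_lit 156) (nat_lit 0) (nat_lit 0) (XT.nd (nat_lit 78) (nat_lit 0) (nat_lit 0) (XT.lf (nat_lit 0) (nat_lit 7982865705140) (nat_lit 76) (nat_lit 855628289106) (nat_lit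 76) (nat_lit 855572261462) (nat_lit 1) (nat_lit 4) (nat_lit 2) (nat_lit 5) (nat_lit 2) (nat_lit 4) (nat_lit 531) (nat_lit 344) (nat_lit 325)) (XT.lf (nat_lit 0) (nat_lit 8624118471963) (nat_lit 76) (nat_lit 922714566729) (nat_lit 76) (nat_lit 922657287405) (nat_lit 1) (nat_lit 4) (nat_lit 2) (nat_lit 5) (nat_lit 2) (nat_lit 4) (nat_lit 532) (nat_lit 344) (nat_lit 324))) (XT.nd (nat_lit 78) (nat_lit 0) (nat_lit 0) (XT.lf (nat_lit 0) (nat_lit 9316611496104) (nat_lit 76) (nat_lit 995198789027) (nat_lit 76) (nat_lit 995140350741) (nat_lit 1) (nat_lit 4) (nat_lit 2) (nat_lit 5) (nat_lit 2) (nat_lit 4) (nat_lit 533) (nat_lit 344) (nat_lit 323)) (XT.lf (nat_lit 0) (nat_lit 10064448439929) (nat_lit 76) (nat_lit 1073510492134) (nat_lit 76) (nat_lit 1073450980734) (nat_lit 1) (nat_lit 4) (nat_lit 2) (nat_lit 5) (nat_lit 2) (nat_lit 4) (nat_lit 534) (nat_lit 344) (nat_lit 322))))))) (XT.nd (nat_lit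 60762) (nat_lit 0) (nat_lit 0) (XT.nd (nat_lit 546) (nat_lit 0) (nat_lit 0) (XT.nd (nat_lit 234) (nat_lit 0) (nat_lit 0) (XT.nd (nat_lit 78) (nat_lit 0) (nat_lit 0) (XT.lf (nat_lit 0) (nat_lit 10872060929771) (nat_lit 76) (nat_lit 1158113745399) (nat_lit 76) (nat_lit 1158053240376) (nat_lit 1) (nat_lit 4) (nat_lit 2) (nat_lit 5) (nat_lit 2) (nat_lit 4) (nat_lit 535) (nat_lit 344) (nat_lit 321)) (XT.nd (nat_lit 78) (nat_lit 0) (nat_lit 0) (XT.lf (nat_lit 0) (nat_lit 11744234817423) (nat_lit 76) (nat_lit 1249509901437) (nat_lit 76) (nat_lit 1249448476391) (nat_lit 1) (nat_lit 4) (nat_lit 2) (nat_lit 5) (nat_lit 2) (nat_lit 4) (nat_lit 536) (nat_lit 344) (nat_lit 320)) (XT.lf (nat_lit 0) (nat_lit 12686138540737) (nat_lit 76) (nat_lit 1348240567096) (nat_lit 76) (nat_lit 1348178290178) (nat_lit 1) (nat_lit 4) (nat_lit 2) (nat_lit 5) (nat_lit 2) (nat_lit 4) (nat_lit 537) (nat_lit 344) (nat_lit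 319)))) (XT.nd (nat_lit 156) (nat_lit 0) (nat_lit 0) (XT.nd (nat_lit 78) (nat_lit 0) (nat_lit 0) (XT.lf (nat_lit 0) (nat_lit 13703353751407) (nat_lit 76) (nat_lit 1454890812989) (nat_lit 76) (nat_lit 1454827747300) (nat_lit 1) (nat_lit 4) (nat_lit 2) (nat_lit 5) (nat_lit 2) (nat_lit 4) (nat_lit 538) (nat_lit 344) (nat_lit 318)) (XT.lf (nat_lit 0) (nat_lit 14801908391421) (nat_lit 76) (nat_lit 1570092640572) (nat_lit 76) (nat_lit 1570028844540) (nat_lit 1) (nat_lit 4) (nat_lit 2) (nat_lit 5) (nat_lit 2) (nat_lit 4) (nat_lit 539) (nat_lit 344) (nat_lit 317))) (XT.nd (nat_lit 78) (nat_lit 0) (nat_lit 0) (XT.lf (nat_lit 0) (nat_lit 15988312414203) (nat_lit 76) (nat_lit 1694528727342) (nat_lit 76) (nat_lit 1694464255067) (nat_lit 1) (nat_lit 4) (nat_lit 2) (nat_lit 5) (nat_lit 2) (nat_lit 4) (nat_lit 540) (nat_lit 344) (nat_lit 316)) (XT.lf (nat_lit 0) (nat_lit 17269596362110) (nat_lit 76) (nat_lit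 1828936472333) (nat_lit 76) (nat_lit 1828871373906) (nat_lit 1) (nat_lit 4) (nat_lit 2) (nat_lit 5) (nat_lit 2) (nat_lit 4) (nat_lit 541) (nat_lit 344) (nat_lit 315))))) (XT.nd (nat_lit 234) (nat_lit 0) (nat_lit 0) (XT.nd (nat_lit 78) (nat_lit 0) (nat_lit 0) (XT.lf (nat_lit 0) (nat_lit 18653353028906) (nat_lit 76) (nat_lit 1974112365884) (nat_lit 76) (nat_lit 1974046687687) (nat_lit 1) (nat_lit 4) (nat_lit 2) (nat_lit 5) (nat_lit 2) (nat_lit 4) (nat_lit 542) (nat_lit 344) (nat_lit 314)) (XT.nd (nat_lit 78) (nat_lit 0) (nat_lit 0) (XT.lf (nat_lit 0) (nat_lit 20147782454099) (nat_lit 76) (nat_lit 2130916709587) (nat_lit 76) (nat_lit 2130850494567) (nat_lit 1) (nat_lit 4) (nat_lit 2) (nat_lit 5) (nat_lit 2) (nat_lit 4) (nat_lit 543) (nat_lit 344) (nat_lit 313)) (XT.lf (nat_lit 0) (nat_lit 21761740515764) (nat_lit 76) (nat_lit 2300278714369) (nat_lit 76) (nat_lit 2300212002289) (nat_lit 1) (nat_lit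 4) (nat_lit 2) (nat_lit 5) (nat_lit 2) (nat_lit 4) (nat_lit 544) (nat_lit 344) (nat_lit 312)))) (XT.nd (nat_lit 59826) (nat_lit 0) (nat_lit 0) (XT.nd (nat_lit 59748) (nat_lit 0) (nat_lit 0) (XT.lf (nat_lit 0) (nat_lit 23504791409822) (nat_lit 76) (nat_lit 2483202006922) (nat_lit 76) (nat_lit 2483134834603) (nat_lit 1) (nat_lit 4) (nat_lit 2) (nat_lit 5) (nat_lit 2) (nat_lit 4) (nat_lit 545) (nat_lit 344) (nat_lit 311)) (XT.lf (nat_lit 0) (nat_lit 771206259907) (nat_lit 76) (nat_lit 96261305923) (nat_lit 76) (nat_lit 96261305923) (nat_lit 1) (nat_lit 4) (nat_lit 2) (nat_lit 5) (nat_lit 2) (nat_lit 4) (nat_lit 510) (nat_lit 345) (nat_lit 345))) (XT.nd (nat_lit 78) (nat_lit 0) (nat_lit 0) (XT.lf (nat_lit 0) (nat_lit 1671537748898) (nat_lit 76) (nat_lit 204950632961) (nat_lit 76) (nat_lit 204944798936) (nat_lit 1) (nat_lit 4) (nat_lit 2) (nat_lit 5) (nat_lit 2) (nat_lit 4) (nat_lit 511) (nat_lit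 345) (nat_lit 344)) (XT.lf (nat_lit 0) (nat_lit 1810713506549) (nat_lit 76) (nat_lit 218517583368) (nat_lit 76) (nat_lit 218506347467) (nat_lit 1) (nat_lit 4) (nat_lit 2) (nat_lit 5) (nat_lit 2) (nat_lit 4) (nat_lit 512) (nat_lit 345) (nat_lit 343)))))) (XT.nd (nat_lit 546) (nat_lit 0) (nat_lit 0) (XT.nd (nat_lit 234) (nat_lit 0) (nat_lit 0) (XT.nd (nat_lit 78) (nat_lit 0) (nat_lit 0) (XT.lf (nat_lit 0) (nat_lit 1960764537996) (nat_lit 76) (nat_lit 233303859811) (nat_lit 76) (nat_lit 233287622173) (nat_lit 1) (nat_lit 4) (nat_lit 2) (nat_lit 5) (nat_lit 2) (nat_lit 4) (nat_lit 513) (nat_lit 345) (nat_lit 342)) (XT.nd (nat_lit 78) (nat_lit 0) (nat_lit 0) (XT.lf (nat_lit 0) (nat_lit 2122580034537) (nat_lit 76) (nat_lit 249397084667) (nat_lit 76) (nat_lit 249376215791) (nat_lit 1) (nat_lit 4) (nat_lit 2) (nat_lit 5) (nat_lit 2) (nat_lit 4) (nat_lit 514) (nat_lit 345) (nat_lit 341)) (XT.lf (nat_lit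 0) (nat_lit 2297118902817) (nat_lit 76) (nat_lit 266892625196) (nat_lit 76) (nat_lit 266867468137) (nat_lit 1) (nat_lit 4) (nat_lit 2) (nat_lit 5) (nat_lit 2) (nat_lit 4) (nat_lit 515) (nat_lit 345) (nat_lit 340)))) (XT.nd (nat_lit 156) (nat_lit 0) (nat_lit 0) (XT.nd (nat_lit 78) (nat_lit 0) (nat_lit 0) (XT.lf (nat_lit 0) (nat_lit 2485415447243) (nat_lit 76) (nat_lit 285894158674) (nat_lit 76) (nat_lit 285865031076) (nat_lit 1) (nat_lit 4) (nat_lit 2) (nat_lit 5) (nat_lit 2) (nat_lit 4) (nat_lit 516) (nat_lit 345) (nat_lit 339)) (XT.lf (nat_lit 0) (nat_lit 2688585499188) (nat_lit 76) (nat_lit 306514286782) (nat_lit 76) (nat_lit 306481482758) (nat_lit 1) (nat_lit 4) (nat_lit 2) (nat_lit 5) (nat_lit 2) (nat_lit 4) (nat_lit 517) (nat_lit 345) (nat_lit 338))) (XT.nd (nat_lit 78) (nat_lit 0) (nat_lit 0) (XT.lf (nat_lit 0) (nat_lit 2907833029329) (nat_lit 76) (nat_lit 328875202872) (nat_lit 76)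 (nat_lit 328838994750) (nat_lit 1) (nat_lit 4) (nat_lit 2) (nat_lit 5) (nat_lit 2) (nat_lit 4) (nat_lit 518) (nat_lit 345) (nat_lit 337)) (XT.lf (nat_lit 0) (nat_lit 3144457282292) (nat_lit 76) (nat_lit 353109416075) (nat_lit 76) (nat_lit 353070056011) (nat_lit 1) (nat_lit 4) (nat_lit 2) (nat_lit 5) (nat_lit 2) (nat_lit 4) (nat_lit 519) (nat_lit 345) (nat_lit 336))))) (XT.nd (nat_lit 312) (nat_lit 0) (nat_lit 0) (XT.nd (nat_lit 156) (nat_lit 0) (nat_lit 0) (XT.nd (nat_lit 78) (nat_lit 0) (nat_lit 0) (XT.lf (nat_lit 0) (nat_lit 3399860475869) (nat_lit 76) (nat_lit 379360536544) (nat_lit 76) (nat_lit 379318258014) (nat_lit 1) (nat_lit 4) (nat_lit 2) (nat_lit 5) (nat_lit 2) (nat_lit 4) (nat_lit 520) (nat_lit 345) (nat_lit 335)) (XT.lf (nat_lit 0) (nat_lit 3675556110469) (nat_lit 76) (nat_lit 407784126475) (nat_lit 76) (nat_lit 407739145662) (nat_lit 1) (nat_lit 4) (nat_lit 2) (nat_lit 5) (nat_lit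 2) (nat_lit 4) (nat_lit 521) (nat_lit 345) (nat_lit 334))) (XT.nd (nat_lit 78) (nat_lit 0) (nat_lit 0) (XT.lf (nat_lit 0) (nat_lit 3973177938000) (nat_lit 76) (nat_lit 438548621956) (nat_lit 76) (nat_lit 438501139029) (nat_lit 1) (nat_lit 4) (nat_lit 2) (nat_lit 5) (nat_lit 2) (nat_lit 4) (nat_lit 522) (nat_lit 345) (nat_lit 333)) (XT.lf (nat_lit 0) (nat_lit 4294489643365) (nat_lit 76) (nat_lit 471836331107) (nat_lit 76) (nat_lit 471786531409) (nat_lit 1) (nat_lit 4) (nat_lit 2) (nat_lit 5) (nat_lit 2) (nat_lit 4) (nat_lit 523) (nat_lit 345) (nat_lit 332)))) (XT.nd (nat_lit 156) (nat_lit 0) (nat_lit 0) (XT.nd (nat_lit 78) (nat_lit 0) (nat_lit 0) (XT.lf (nat_lit 0) (nat_lit 4641395295930) (nat_lit 76) (nat_lit 507844514429) (nat_lit 76) (nat_lit 507792569572) (nat_lit 1) (nat_lit 4) (nat_lit 2) (nat_lit 5) (nat_lit 2) (nat_lit 4) (nat_lit 524) (nat_lit 345) (nat_lit 331)) (XT.lf (nat_lit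 0) (nat_lit 5015950632895) (nat_lit 76) (nat_lit 546786553748) (nat_lit 76) (nat_lit 546732622632) (nat_lit 1) (nat_lit 4) (nat_lit 2) (nat_lit 5) (nat_lit 2) (nat_lit 4) (nat_lit 525) (nat_lit 345) (nat_lit 330))) (XT.nd (nat_lit 78) (nat_lit 0) (nat_lit 0) (XT.lf (nat_lit 0) (nat_lit 5420375241442) (nat_lit 76) (nat_lit 588893216704) (nat_lit 76) (nat_lit 588837446460) (nat_lit 1) (nat_lit 4) (nat_lit 2) (nat_lit 5) (nat_lit 2) (nat_lit 4) (nat_lit 526) (nat_lit 345) (nat_lit 329)) (XT.lf (nat_lit 0) (nat_lit 5857065711844) (nat_lit 76) (nat_lit 634414024263) (nat_lit 76) (nat_lit 634356551123) (nat_lit 1) (nat_lit 4) (nat_lit 2) (nat_lit 5) (nat_lit 2) (nat_lit 4) (nat_lit 527) (nat_lit 345) (nat_lit 328))))))))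
noncomputable def xc6 : XT := (XT.nd (nat_lit 61698) (nat_lit 0) (nat_lit 0) (XT.nd (nat_lit 1092) (nat_lit 0) (nat_lit 0) (XT.nd (nat_lit 546) (nat_lit 0) (nat_lit 0) (XT.nd (nat_lit 234) (nat_lit 0) (nat_lit 0) (XT.nd (nat_lit 78) (nat_lit 0) (nat_lit 0) (XT.lf (nat_lit 0) (nat_lit 6328609839482) (nat_lit 76) (nat_lit 683618729359) (nat_lit 76) (nat_lit 683559679463) (nat_lit 1) (nat_lit 4) (nat_lit 2) (nat_lit 5) (nat_lit 2) (nat_lit 4) (nat_lit 528) (nat_lit 345) (nat_lit 327)) (XT.nd (nat_lit 78) (nat_lit 0) (nat_lit 0) (XT.lf (nat_lit 0) (nat_lit 6837801959926) (nat_lit 76) (nat_lit 736798915430) (nat_lit 76) (nat_lit 736738405575) (nat_lit 1) (nat_lit 4) (nat_lit 2) (nat_lit 5) (nat_lit 2) (nat_lit 4) (nat_lit 529) (nat_lit 345) (nat_lit 326)) (XT.lf (nat_lit 0) (nat_lit 7387659507964) (nat_lit 76) (nat_lit 794269724318) (nat_lit 76) (nat_lit 794207862649) (nat_lit 1) (nat_lit 4)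 (nat_lit 2) (nat_lit 5) (nat_lit 2) (nat_lit 4) (nat_lit 530) (nat_lit 345) (nat_lit 325)))) (XT.nd (nat_lit 156) (nat_lit 0) (nat_lit 0) (XT.nd (nat_lit 78) (nat_lit 0) (nat_lit 0) (XT.lf (nat_lit 0) (nat_lit 7981440898696) (nat_lit 76) (nat_lit 856371723781) (nat_lit 76) (nat_lit 856308610431) (nat_lit 1) (nat_lit 4) (nat_lit 2) (nat_lit 5) (nat_lit 2) (nat_lit 4) (nat_lit 531) (nat_lit 345) (nat_lit 324)) (XT.lf (nat_lit 0) (nat_lit 8622664836659) (nat_lit 76) (nat_lit 923472925666) (nat_lit 76) (nat_lit 923408653354) (nat_lit 1) (nat_lit 4) (nat_lit 2) (nat_lit 5) (nat_lit 2) (nat_lit 4) (nat_lit 532) (nat_lit 345) (nat_lit 323))) (XT.nd (nat_lit 78) (nat_lit 0) (nat_lit 0) (XT.lf (nat_lit 0) (nat_lit 9315131167412) (nat_lit 76) (nat_lit 995970966726) (nat_lit 76) (nat_lit 995905621300) (nat_lit 1) (nat_lit 4) (nat_lit 2) (nat_lit 5) (nat_lit 2) (nat_lit 4) (nat_lit 533) (nat_lit 345)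 (nat_lit 322)) (XT.lf (nat_lit 0) (nat_lit 10062943395136) (nat_lit 76) (nat_lit 1074295464982) (nat_lit 76) (nat_lit 1074229125932) (nat_lit 1) (nat_lit 4) (nat_lit 2) (nat_lit 5) (nat_lit 2) (nat_lit 4) (nat_lit 534) (nat_lit 345) (nat_lit 321))))) (XT.nd (nat_lit 234) (nat_lit 0) (nat_lit 0) (XT.nd (nat_lit 78) (nat_lit 0) (nat_lit 0) (XT.lf (nat_lit 0) (nat_lit 10870532999701) (nat_lit 76) (nat_lit 1158910565608) (nat_lit 76) (nat_lit 1158843306537) (nat_lit 1) (nat_lit 4) (nat_lit 2) (nat_lit 5) (nat_lit 2) (nat_lit 4) (nat_lit 535) (nat_lit 345) (nat_lit 320)) (XT.nd (nat_lit 78) (nat_lit 0) (nat_lit 0) (XT.lf (nat_lit 0) (nat_lit 11742685697281) (nat_lit 76) (nat_lit 1250317691424) (nat_lit 76) (nat_lit 1250249580480) (nat_lit 1) (nat_lit 4) (nat_lit 2) (nat_lit 5) (nat_lit 2) (nat_lit 4) (nat_lit 536) (nat_lit 345) (nat_lit 319)) (XT.lf (nat_lit 0) (nat_lit 12684569800157) (nat_lit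 76) (nat_lit 1349058514285) (nat_lit 76) (nat_lit 1348989614571) (nat_lit 1) (nat_lit 4) (nat_lit 2) (nat_lit 5) (nat_lit 2) (nat_lit 4) (nat_lit 537) (nat_lit 345) (nat_lit 318)))) (XT.nd (nat_lit 156) (nat_lit 0) (nat_lit 0) (XT.nd (nat_lit 78) (nat_lit 0) (nat_lit 0) (XT.lf (nat_lit 0) (nat_lit 13701766843756) (nat_lit 76) (nat_lit 1455718164995) (nat_lit 76) (nat_lit 1455648534938) (nat_lit 1) (nat_lit 4) (nat_lit 2) (nat_lit 5) (nat_lit 2) (nat_lit 4) (nat_lit 538) (nat_lit 345) (nat_lit 317)) (XT.lf (nat_lit 0) (nat_lit 14800304662408) (nat_lit 76) (nat_lit 1570928700742) (nat_lit 76) (nat_lit 1570858394441) (nat_lit 1) (nat_lit 4) (nat_lit 2) (nat_lit 5) (nat_lit 2) (nat_lit 4) (nat_lit 539) (nat_lit 345) (nat_lit 316))) (XT.nd (nat_lit 78) (nat_lit 0) (nat_lit 0) (XT.lf (nat_lit 0) (nat_lit 15986693109854) (nat_lit 76) (nat_lit 1695372850627) (nat_lit 76) (nat_lit 1695301918175)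 (nat_lit 1) (nat_lit 4) (nat_lit 2) (nat_lit 5) (nat_lit 2) (nat_lit 4) (nat_lit 540) (nat_lit 345) (nat_lit 315)) (XT.lf (nat_lit 0) (nat_lit 17267962636154) (nat_lit 76) (nat_lit 1829788061464) (nat_lit 76) (nat_lit 1829716549242) (nat_lit 1) (nat_lit 4) (nat_lit 2) (nat_lit 5) (nat_lit 2) (nat_lit 4) (nat_lit 541) (nat_lit 345) (nat_lit 314)))))) (XT.nd (nat_lit 60060) (nat_lit 0) (nat_lit 0) (XT.nd (nat_lit 234) (nat_lit 0) (nat_lit 0) (XT.nd (nat_lit 78) (nat_lit 0) (nat_lit 0) (XT.lf (nat_lit 0) (nat_lit 18651705949610) (nat_lit 76) (nat_lit 1974970867837) (nat_lit 76) (nat_lit 1974898818790) (nat_lit 1) (nat_lit 4) (nat_lit 2) (nat_lit 5) (nat_lit 2) (nat_lit 4) (nat_lit 542) (nat_lit 345) (nat_lit 313)) (XT.nd (nat_lit 78) (nat_lit 0) (nat_lit 0) (XT.lf (nat_lit 0) (nat_lit 20146123010599) (nat_lit 76) (nat_lit 2131781612300) (nat_lit 76) (nat_lit 2131709066195) (nat_lit 1) (nat_lit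 4) (nat_lit 2) (nat_lit 5) (nat_lit 2) (nat_lit 4) (nat_lit 543) (nat_lit 345) (nat_lit 312)) (XT.lf (nat_lit 0) (nat_lit 21760069623928) (nat_lit 76) (nat_lit 2301149543711) (nat_lit 76) (nat_lit 2301076537366) (nat_lit 1) (nat_lit 4) (nat_lit 2) (nat_lit 5) (nat_lit 2) (nat_lit 4) (nat_lit 544) (nat_lit 345) (nat_lit 311)))) (XT.nd (nat_lit 59670) (nat_lit 0) (nat_lit 0) (XT.nd (nat_lit 59592) (nat_lit 0) (nat_lit 0) (XT.lf (nat_lit 0) (nat_lit 23503109917674) (nat_lit 76) (nat_lit 2484078323886) (nat_lit 76) (nat_lit 2484004891392) (nat_lit 1) (nat_lit 4) (nat_lit 2) (nat_lit 5) (nat_lit 2) (nat_lit 4) (nat_lit 545) (nat_lit 345) (nat_lit 310)) (XT.lf (nat_lit 0) (nat_lit 655732327339) (nat_lit 76) (nat_lit 85360122267) (nat_lit 76) (nat_lit 85360122267) (nat_lit 1) (nat_lit 4) (nat_lit 2) (nat_lit 5) (nat_lit 2) (nat_lit 4) (nat_lit 508) (nat_lit 346) (nat_lit 346))) (XT.nd (nat_lit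 78) (nat_lit 0) (nat_lit 0) (XT.lf (nat_lit 0) (nat_lit 1422572632752) (nat_lit 76) (nat_lit 181166173239) (nat_lit 76) (nat_lit 181159872491) (nat_lit 1) (nat_lit 4) (nat_lit 2) (nat_lit 5) (nat_lit 2) (nat_lit 4) (nat_lit 509) (nat_lit 346) (nat_lit 345)) (XT.lf (nat_lit 0) (nat_lit 1542267400130) (nat_lit 76) (nat_lit 192604038849) (nat_lit 76) (nat_lit 192591904076) (nat_lit 1) (nat_lit 4) (nat_lit 2) (nat_lit 5) (nat_lit 2) (nat_lit 4) (nat_lit 510) (nat_lit 346) (nat_lit 344))))) (XT.nd (nat_lit 234) (nat_lit 0) (nat_lit 0) (XT.nd (nat_lit 78) (nat_lit 0) (nat_lit 0) (XT.lf (nat_lit 0) (nat_lit 1671258259138) (nat_lit 76) (nat_lit 205101621312) (nat_lit 76) (nat_lit 205084084663) (nat_lit 1) (nat_lit 4) (nat_lit 2) (nat_lit 5) (nat_lit 2) (nat_lit 4) (nat_lit 511) (nat_lit 346) (nat_lit 343)) (XT.nd (nat_lit 78) (nat_lit 0) (nat_lit 0) (XT.lf (nat_lit 0) (nat_lit 1810309600050) (nat_lit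 76) (nat_lit 218732980374) (nat_lit 76) (nat_lit 218710441988) (nat_lit 1) (nat_lit 4) (nat_lit 2) (nat_lit 5) (nat_lit 2) (nat_lit 4) (nat_lit 512) (nat_lit 346) (nat_lit 342)) (XT.lf (nat_lit 0) (nat_lit 1960245430813) (nat_lit 76) (nat_lit 233578894460) (nat_lit 76) (nat_lit 233551724837) (nat_lit 1) (nat_lit 4) (nat_lit 2) (nat_lit 5) (nat_lit 2) (nat_lit 4) (nat_lit 513) (nat_lit 346) (nat_lit 341)))) (XT.nd (nat_lit 156) (nat_lit 0) (nat_lit 0) (XT.nd (nat_lit 78) (nat_lit 0) (nat_lit 0) (XT.lf (nat_lit 0) (nat_lit 2121954260054) (nat_lit 76) (nat_lit 249727339357) (nat_lit 76) (nat_lit 249695881550) (nat_lit 1) (nat_lit 4) (nat_lit 2) (nat_lit 5) (nat_lit 2) (nat_lit 4) (nat_lit 514) (nat_lit 346) (nat_lit 340)) (XT.lf (nat_lit 0) (nat_lit 2296394362317) (nat_lit 76) (nat_lit 267274009552) (nat_lit 76) (nat_lit 267238581206) (nat_lit 1) (nat_lit 4) (nat_lit 2) (nat_lit 5) (nat_lit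 2) (nat_lit 4) (nat_lit 515) (nat_lit 346) (nat_lit 339))) (XT.nd (nat_lit 78) (nat_lit 0) (nat_lit 0) (XT.lf (nat_lit 0) (nat_lit 2484599456726) (nat_lit 76) (nat_lit 286322885315) (nat_lit 76) (nat_lit 286283780543) (nat_lit 1) (nat_lit 4) (nat_lit 2) (nat_lit 5) (nat_lit 2) (nat_lit 4) (nat_lit 516) (nat_lit 346) (nat_lit 338)) (XT.lf (nat_lit 0) (nat_lit 2687684832729) (nat_lit 76) (nat_lit 306986848872) (nat_lit 76) (nat_lit 306944340002) (nat_lit 1) (nat_lit 4) (nat_lit 2) (nat_lit 5) (nat_lit 2) (nat_lit 4) (nat_lit 517) (nat_lit 346) (nat_lit 337))))))) (XT.nd (nat_lit 1092) (nat_lit 0) (nat_lit 0) (XT.nd (nat_lit 546) (nat_lit 0) (nat_lit 0) (XT.nd (nat_lit 234) (nat_lit 0) (nat_lit 0) (XT.nd (nat_lit 78) (nat_lit 0) (nat_lit 0) (XT.lf (nat_lit 0) (nat_lit 2906853959221) (nat_lit 76) (nat_lit 329388353339) (nat_lit 76) (nat_lit 329342692527) (nat_lit 1) (nat_lit 4) (nat_lit 2) (nat_lit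 5) (nat_lit 2) (nat_lit 4) (nat_lit 518) (nat_lit 346) (nat_lit 336)) (XT.nd (nat_lit 78) (nat_lit 0) (nat_lit 0) (XT.lf (nat_lit 0) (nat_lit 3143405616211) (nat_lit 76) (nat_lit 353660148374) (nat_lit 76) (nat_lit 353611569097) (nat_lit 1) (nat_lit 4) (nat_lit 2) (nat_lit 5) (nat_lit 2) (nat_lit 4) (nat_lit 519) (nat_lit 346) (nat_lit 335)) (XT.lf (nat_lit 0) (nat_lit 3398741591297) (nat_lit 76) (nat_lit 379946066836) (nat_lit 76) (nat_lit 379894785276) (nat_lit 1) (nat_lit 4) (nat_lit 2) (nat_lit 5) (nat_lit 2) (nat_lit 4) (nat_lit 520) (nat_lit 346) (nat_lit 334)))) (XT.nd (nat_lit 156) (nat_lit 0) (nat_lit 0) (XT.nd (nat_lit 78) (nat_lit 0) (nat_lit 0) (XT.lf (nat_lit 0) (nat_lit 3674374986552) (nat_lit 76) (nat_lit 408401877130) (nat_lit 76) (nat_lit 408348093456) (nat_lit 1) (nat_lit 4) (nat_lit 2) (nat_lit 5) (nat_lit 2) (nat_lit 4) (nat_lit 521) (nat_lit 346) (nat_lit 333)) (XT.lf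 (nat_lit 0) (nat_lit 3971939185059) (nat_lit 76) (nat_lit 439196206280) (nat_lit 76) (nat_lit 439140105834) (nat_lit 1) (nat_lit 4) (nat_lit 2) (nat_lit 5) (nat_lit 2) (nat_lit 4) (nat_lit 522) (nat_lit 346) (nat_lit 332))) (XT.nd (nat_lit 78) (nat_lit 0) (nat_lit 0) (XT.lf (nat_lit 0) (nat_lit 4293197530218) (nat_lit 76) (nat_lit 472511539200) (nat_lit 76) (nat_lit 472453293595) (nat_lit 1) (nat_lit 4) (nat_lit 2) (nat_lit 5) (nat_lit 2) (nat_lit 4) (nat_lit 523) (nat_lit 346) (nat_lit 331)) (XT.lf (nat_lit 0) (nat_lit 4640053775184) (nat_lit 76) (nat_lit 508545300085) (nat_lit 76) (nat_lit 508485068221) (nat_lit 1) (nat_lit 4) (nat_lit 2) (nat_lit 5) (nat_lit 2) (nat_lit 4) (nat_lit 524) (nat_lit 346) (nat_lit 330))))) (XT.nd (nat_lit 234) (nat_lit 0) (nat_lit 0) (XT.nd (nat_lit 78) (nat_lit 0) (nat_lit 0) (XT.lf (nat_lit 0) (nat_lit 5014563364373) (nat_lit 76) (nat_lit 547511022332) (nat_lit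 76) (nat_lit 547448951341) (nat_lit 1) (nat_lit 4) (nat_lit 2) (nat_lit 5) (nat_lit 2) (nat_lit 4) (nat_lit 525) (nat_lit 346) (nat_lit 329)) (XT.nd (nat_lit 78) (nat_lit 0) (nat_lit 0) (XT.lf (nat_lit 0) (nat_lit 5418945613868) (nat_lit 76) (nat_lit 589639613926) (nat_lit 76) (nat_lit 589575840038) (nat_lit 1) (nat_lit 4) (nat_lit 2) (nat_lit 5) (nat_lit 2) (nat_lit 4) (nat_lit 526) (nat_lit 346) (nat_lit 328)) (XT.lf (nat_lit 0) (nat_lit 5855596862925) (nat_lit 76) (nat_lit 635180725780) (nat_lit 76) (nat_lit 635115375136) (nat_lit 1) (nat_lit 4) (nat_lit 2) (nat_lit 5) (nat_lit 2) (nat_lit 4) (nat_lit 527) (nat_lit 346) (nat_lit 327)))) (XT.nd (nat_lit 156) (nat_lit 0) (nat_lit 0) (XT.nd (nat_lit 78) (nat_lit 0) (nat_lit 0) (XT.lf (nat_lit 0) (nat_lit 6327104674503) (nat_lit 76) (nat_lit 684404231148) (nat_lit 76) (nat_lit 684337420545) (nat_lit 1) (nat_lit 4) (nat_lit 2) (nat_lit 5)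 (nat_lit 2) (nat_lit 4) (nat_lit 528) (nat_lit 346) (nat_lit 326)) (XT.lf (nat_lit 0) (nat_lit 6836263168966) (nat_lit 76) (nat_lit 737601824878) (nat_lit 76) (nat_lit 737533662461) (nat_lit 1) (nat_lit 4) (nat_lit 2) (nat_lit 5) (nat_lit 2) (nat_lit 4) (nat_lit 529) (nat_lit 346) (nat_lit 325))) (XT.nd (nat_lit 78) (nat_lit 0) (nat_lit 0) (XT.lf (nat_lit 0) (nat_lit 7386089581836) (nat_lit 76) (nat_lit 795088751970) (nat_lit 76) (nat_lit 795019337873) (nat_lit 1) (nat_lit 4) (nat_lit 2) (nat_lit 5) (nat_lit 2) (nat_lit 4) (nat_lit 530) (nat_lit 346) (nat_lit 324)) (XT.lf (nat_lit 0) (nat_lit 7979842143708) (nat_lit 76) (nat_lit 857205675695) (nat_lit 76) (nat_lit 857135102635) (nat_lit 1) (nat_lit 4) (nat_lit 2) (nat_lit 5) (nat_lit 2) (nat_lit 4) (nat_lit 531) (nat_lit 346) (nat_lit 323)))))) (XT.nd (nat_lit 546) (nat_lit 0) (nat_lit 0) (XT.nd (nat_lit 234) (nat_lit 0) (nat_lit 0) (XT.nd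 (nat_lit 78) (nat_lit 0) (nat_lit 0) (XT.lf (nat_lit 0) (nat_lit 8621039388283) (nat_lit 76) (nat_lit 924320696342) (nat_lit 76) (nat_lit 924249050168) (nat_lit 1) (nat_lit 4) (nat_lit 2) (nat_lit 5) (nat_lit 2) (nat_lit 4) (nat_lit 532) (nat_lit 346) (nat_lit 322)) (XT.nd (nat_lit 78) (nat_lit 0) (nat_lit 0) (XT.lf (nat_lit 0) (nat_lit 9313481002936) (nat_lit 76) (nat_lit 996831532551) (nat_lit 76) (nat_lit 996758892754) (nat_lit 1) (nat_lit 4) (nat_lit 2) (nat_lit 5) (nat_lit 2) (nat_lit 4) (nat_lit 533) (nat_lit 346) (nat_lit 321)) (XT.lf (nat_lit 0) (nat_lit 10061270345383) (nat_lit 76) (nat_lit 1075167878168) (nat_lit 76) (nat_lit 1075094318349) (nat_lit 1) (nat_lit 4) (nat_lit 2) (nat_lit 5) (nat_lit 2) (nat_lit 4) (nat_lit 534) (nat_lit 346) (nat_lit 320)))) (XT.nd (nat_lit 156) (nat_lit 0) (nat_lit 0) (XT.nd (nat_lit 78) (nat_lit 0) (nat_lit 0) (XT.lf (nat_lit 0) (nat_lit 10868838759875)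 (nat_lit 76) (nat_lit 1159793948572) (nat_lit 76) (nat_lit 1159719536881) (nat_lit 1) (nat_lit 4) (nat_lit 2) (nat_lit 5) (nat_lit 2) (nat_lit 4) (nat_lit 535) (nat_lit 346) (nat_lit 319)) (XT.lf (nat_lit 0) (nat_lit 11740971837018) (nat_lit 76) (nat_lit 1251211231590) (nat_lit 76) (nat_lit 1251136031129) (nat_lit 1) (nat_lit 4) (nat_lit 2) (nat_lit 5) (nat_lit 2) (nat_lit 4) (nat_lit 536) (nat_lit 346) (nat_lit 318))) (XT.nd (nat_lit 78) (nat_lit 0) (nat_lit 0) (XT.lf (nat_lit 0) (nat_lit 12682837772823) (nat_lit 76) (nat_lit 1349961459269) (nat_lit 76) (nat_lit 1349885528464) (nat_lit 1) (nat_lit 4) (nat_lit 2) (nat_lit 5) (nat_lit 2) (nat_lit 4) (nat_lit 537) (nat_lit 346) (nat_lit 317)) (XT.lf (nat_lit 0) (nat_lit 13700017995059) (nat_lit 76) (nat_lit 1456629818142) (nat_lit 76) (nat_lit 1456553211094) (nat_lit 1) (nat_lit 4) (nat_lit 2) (nat_lit 5) (nat_lit 2) (nat_lit 4) (nat_lit 538)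 (nat_lit 346) (nat_lit 316))))) (XT.nd (nat_lit 312) (nat_lit 0) (nat_lit 0) (XT.nd (nat_lit 156) (nat_lit 0) (nat_lit 0) (XT.nd (nat_lit 78) (nat_lit 0) (nat_lit 0) (XT.lf (nat_lit 0) (nat_lit 14798540238375) (nat_lit 76) (nat_lit 1571848417004) (nat_lit 76) (nat_lit 1571771183804) (nat_lit 1) (nat_lit 4) (nat_lit 2) (nat_lit 5) (nat_lit 2) (nat_lit 4) (nat_lit 539) (nat_lit 346) (nat_lit 315)) (XT.lf (nat_lit 0) (nat_lit 15984914264215) (nat_lit 76) (nat_lit 1696300032736) (nat_lit 76) (nat_lit 1696222219766) (nat_lit 1) (nat_lit 4) (nat_lit 2) (nat_lit 5) (nat_lit 2) (nat_lit 4) (nat_lit 540) (nat_lit 346) (nat_lit 314))) (XT.nd (nat_lit 78) (nat_lit 0) (nat_lit 0) (XT.lf (nat_lit 0) (nat_lit 17266170437174) (nat_lit 76) (nat_lit 1830722156394) (nat_lit 76) (nat_lit 1830643806600) (nat_lit 1) (nat_lit 4) (nat_lit 2) (nat_lit 5) (nat_lit 2) (nat_lit 4) (nat_lit 541) (nat_lit 346) (nat_lit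 313)) (XT.lf (nat_lit 0) (nat_lit 18649901386427) (nat_lit 76) (nat_lit 1975911363527) (nat_lit 76) (nat_lit 1975832516674) (nat_lit 1) (nat_lit 4) (nat_lit 2) (nat_lit 5) (nat_lit 2) (nat_lit 4) (nat_lit 542) (nat_lit 346) (nat_lit 312)))) (XT.nd (nat_lit 156) (nat_lit 0) (nat_lit 0) (XT.nd (nat_lit 78) (nat_lit 0) (nat_lit 0) (XT.lf (nat_lit 0) (nat_lit 20144306999080) (nat_lit 76) (nat_lit 2132728034621) (nat_lit 76) (nat_lit 2132648727527) (nat_lit 1) (nat_lit 4) (nat_lit 2) (nat_lit 5) (nat_lit 2) (nat_lit 4) (nat_lit 543) (nat_lit 346) (nat_lit 311)) (XT.lf (nat_lit 0) (nat_lit 21758243012096) (nat_lit 76) (nat_lit 2302101453652) (nat_lit 76) (nat_lit 2302021720411) (nat_lit 1) (nat_lit 4) (nat_lit 2) (nat_lit 5) (nat_lit 2) (nat_lit 4) (nat_lit 544) (nat_lit 346) (nat_lit 310))) (XT.nd (nat_lit 59436) (nat_lit 0) (nat_lit 0) (XT.lf (nat_lit 0) (nat_lit 23501273490739) (nat_lit 76)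 (nat_lit 2485035314956) (nat_lit 76) (nat_lit 2484955187133) (nat_lit 1) (nat_lit 4) (nat_lit 2) (nat_lit 5) (nat_lit 2) (nat_lit 4) (nat_lit 545) (nat_lit 346) (nat_lit 309)) (XT.lf (nat_lit 0) (nat_lit 556295823197) (nat_lit 76) (nat_lit 76240639757) (nat_lit 76) (nat_lit 76240639757) (nat_lit 1) (nat_lit 4) (nat_lit 2) (nat_lit 5) (nat_lit 2) (nat_lit 4) (nat_lit 506) (nat_lit 347) (nat_lit 347))))))))
noncomputable def xc7 : XT := (XT.nd (nat_lit 2184) (nat_lit 0) (nat_lit 0) (XT.nd (nat_lit 1092) (nat_lit 0) (nat_lit 0) (XT.nd (nat_lit 546) (nat_lit 0) (nat_lit 0) (XT.nd (nat_lit 234) (nat_lit 0) (nat_lit 0) (XT.nd (nat_lit 78) (nat_lit 0) (nat_lit 0) (XT.lf (nat_lit 0) (nat_lit 1208285048261) (nat_lit 76) (nat_lit 161211155747) (nat_lit 76) (nat_lit 161204350939) (nat_lit 1) (nat_lit 4) (nat_lit 2) (nat_lit 5) (nat_lit 2) (nat_lit 4) (nat_lit 507) (nat_lit 347) (nat_lit 346)) (XT.nd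 (nat_lit 78) (nat_lit 0) (nat_lit 0) (XT.lf (nat_lit 0) (nat_lit 1311307925420) (nat_lit 76) (nat_lit 170808185698) (nat_lit 76) (nat_lit 170795080143) (nat_lit 1) (nat_lit 4) (nat_lit 2) (nat_lit 5) (nat_lit 2) (nat_lit 4) (nat_lit 508) (nat_lit 347) (nat_lit 345)) (XT.lf (nat_lit 0) (nat_lit 1422270783811) (nat_lit 76) (nat_lit 181329240657) (nat_lit 76) (nat_lit 181310301076) (nat_lit 1) (nat_lit 4) (nat_lit 2) (nat_lit 5) (nat_lit 2) (nat_lit 4) (nat_lit 509) (nat_lit 347) (nat_lit 344)))) (XT.nd (nat_lit 156) (nat_lit 0) (nat_lit 0) (XT.nd (nat_lit 78) (nat_lit 0) (nat_lit 0) (XT.lf (nat_lit 0) (nat_lit 1541831181111) (nat_lit 76) (nat_lit 192836667616) (nat_lit 76) (nat_lit 192812326159) (nat_lit 1) (nat_lit 4) (nat_lit 2) (nat_lit 5) (nat_lit 2) (nat_lit 4) (nat_lit 510) (nat_lit 347) (nat_lit 343)) (XT.lf (nat_lit 0) (nat_lit 1670697623380) (nat_lit 76) (nat_lit 205398658733) (nat_lit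 76) (nat_lit 205369315540) (nat_lit 1) (nat_lit 4) (nat_lit 2) (nat_lit 5) (nat_lit 2) (nat_lit 4) (nat_lit 511) (nat_lit 347) (nat_lit 342))) (XT.nd (nat_lit 78) (nat_lit 0) (nat_lit 0) (XT.lf (nat_lit 0) (nat_lit 1809633763609) (nat_lit 76) (nat_lit 219089655439) (nat_lit 76) (nat_lit 219055681008) (nat_lit 1) (nat_lit 4) (nat_lit 2) (nat_lit 5) (nat_lit 2) (nat_lit 4) (nat_lit 512) (nat_lit 347) (nat_lit 341)) (XT.lf (nat_lit 0) (nat_lit 1959462927072) (nat_lit 76) (nat_lit 233990789565) (nat_lit 76) (nat_lit 233952526951) (nat_lit 1) (nat_lit 4) (nat_lit 2) (nat_lit 5) (nat_lit 2) (nat_lit 4) (nat_lit 513) (nat_lit 347) (nat_lit 340))))) (XT.nd (nat_lit 234) (nat_lit 0) (nat_lit 0) (XT.nd (nat_lit 78) (nat_lit 0) (nat_lit 0) (XT.lf (nat_lit 0) (nat_lit 2121072990296) (nat_lit 76) (nat_lit 250190364129) (nat_lit 76) (nat_lit 250148130975) (nat_lit 1) (nat_lit 4) (nat_lit 2) (nat_lit 5)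 (nat_lit 2) (nat_lit 4) (nat_lit 514) (nat_lit 347) (nat_lit 339)) (XT.nd (nat_lit 78) (nat_lit 0) (nat_lit 0) (XT.lf (nat_lit 0) (nat_lit 2295421642541) (nat_lit 76) (nat_lit 267784376609) (nat_lit 76) (nat_lit 267738467030) (nat_lit 1) (nat_lit 4) (nat_lit 2) (nat_lit 5) (nat_lit 2) (nat_lit 4) (nat_lit 515) (nat_lit 347) (nat_lit 338)) (XT.lf (nat_lit 0) (nat_lit 2483542061009) (nat_lit 76) (nat_lit 286877087820) (nat_lit 76) (nat_lit 286827774143) (nat_lit 1) (nat_lit 4) (nat_lit 2) (nat_lit 5) (nat_lit 2) (nat_lit 4) (nat_lit 516) (nat_lit 347) (nat_lit 337)))) (XT.nd (nat_lit 156) (nat_lit 0) (nat_lit 0) (XT.nd (nat_lit 78) (nat_lit 0) (nat_lit 0) (XT.lf (nat_lit 0) (nat_lit 2686549033362) (nat_lit 76) (nat_lit 307581639755) (nat_lit 76) (nat_lit 307529174135) (nat_lit 1) (nat_lit 4) (nat_lit 2) (nat_lit 5) (nat_lit 2) (nat_lit 4) (nat_lit 517) (nat_lit 347) (nat_lit 336)) (XT.lf (nat_lit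 0) (nat_lit 2905645563883) (nat_lit 76) (nat_lit 330020726054) (nat_lit 76) (nat_lit 329965341969) (nat_lit 1) (nat_lit 4) (nat_lit 2) (nat_lit 5) (nat_lit 2) (nat_lit 4) (nat_lit 518) (nat_lit 347) (nat_lit 335))) (XT.nd (nat_lit 78) (nat_lit 0) (nat_lit 0) (XT.lf (nat_lit 0) (nat_lit 3142130002381) (nat_lit 76) (nat_lit 354327319081) (nat_lit 76) (nat_lit 354269232713) (nat_lit 1) (nat_lit 4) (nat_lit 2) (nat_lit 5) (nat_lit 2) (nat_lit 4) (nat_lit 519) (nat_lit 347) (nat_lit 334)) (XT.lf (nat_lit 0) (nat_lit 3397403738121) (nat_lit 76) (nat_lit 380645457906) (nat_lit 76) (nat_lit 380584869425) (nat_lit 1) (nat_lit 4) (nat_lit 2) (nat_lit 5) (nat_lit 2) (nat_lit 4) (nat_lit 520) (nat_lit 347) (nat_lit 333)))))) (XT.nd (nat_lit 546) (nat_lit 0) (nat_lit 0) (XT.nd (nat_lit 234) (nat_lit 0) (nat_lit 0) (XT.nd (nat_lit 78) (nat_lit 0) (nat_lit 0) (XT.lf (nat_lit 0) (nat_lit 3672979504353)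 (nat_lit 76) (nat_lit 409131101869) (nat_lit 76) (nat_lit 409068196616) (nat_lit 1) (nat_lit 4) (nat_lit 2) (nat_lit 5) (nat_lit 2) (nat_lit 4) (nat_lit 521) (nat_lit 347) (nat_lit 332)) (XT.nd (nat_lit 78) (nat_lit 0) (nat_lit 0) (XT.lf (nat_lit 0) (nat_lit 3970490342654) (nat_lit 76) (nat_lit 439953054788) (nat_lit 76) (nat_lit 439888004375) (nat_lit 1) (nat_lit 4) (nat_lit 2) (nat_lit 5) (nat_lit 2) (nat_lit 4) (nat_lit 522) (nat_lit 347) (nat_lit 331)) (XT.lf (nat_lit 0) (nat_lit 4291699280214) (nat_lit 76) (nat_lit 473293965271) (nat_lit 76) (nat_lit 473226928600) (nat_lit 1) (nat_lit 4) (nat_lit 2) (nat_lit 5) (nat_lit 2) (nat_lit 4) (nat_lit 523) (nat_lit 347) (nat_lit 330)))) (XT.nd (nat_lit 156) (nat_lit 0) (nat_lit 0) (XT.nd (nat_lit 78) (nat_lit 0) (nat_lit 0) (XT.lf (nat_lit 0) (nat_lit 4638509777404) (nat_lit 76) (nat_lit 509351409084) (nat_lit 76) (nat_lit 509282533286) (nat_lit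 1) (nat_lit 4) (nat_lit 2) (nat_lit 5) (nat_lit 2) (nat_lit 4) (nat_lit 524) (nat_lit 347) (nat_lit 329)) (XT.lf (nat_lit 0) (nat_lit 5012977007540) (nat_lit 76) (nat_lit 548339059970) (nat_lit 76) (nat_lit 548268481274) (nat_lit 1) (nat_lit 4) (nat_lit 2) (nat_lit 5) (nat_lit 2) (nat_lit 4) (nat_lit 525) (nat_lit 347) (nat_lit 328))) (XT.nd (nat_lit 78) (nat_lit 0) (nat_lit 0) (XT.lf (nat_lit 0) (nat_lit 5417320035691) (nat_lit 76) (nat_lit 590487955858) (nat_lit 76) (nat_lit 590415800407) (nat_lit 1) (nat_lit 4) (nat_lit 2) (nat_lit 5) (nat_lit 2) (nat_lit 4) (nat_lit 526) (nat_lit 347) (nat_lit 327)) (XT.lf (nat_lit 0) (nat_lit 5853934968688) (nat_lit 76) (nat_lit 636047867984) (nat_lit 76) (nat_lit 635974252573) (nat_lit 1) (nat_lit 4) (nat_lit 2) (nat_lit 5) (nat_lit 2) (nat_lit 4) (nat_lit 527) (nat_lit 347) (nat_lit 326))))) (XT.nd (nat_lit 234) (nat_lit 0) (nat_lit 0) (XT.nd (nat_lit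 78) (nat_lit 0) (nat_lit 0) (XT.lf (nat_lit 0) (nat_lit 6325409154285) (nat_lit 76) (nat_lit 685288781012) (nat_lit 76) (nat_lit 685213813788) (nat_lit 1) (nat_lit 4) (nat_lit 2) (nat_lit 5) (nat_lit 2) (nat_lit 4) (nat_lit 528) (nat_lit 347) (nat_lit 325)) (XT.nd (nat_lit 78) (nat_lit 0) (nat_lit 0) (XT.lf (nat_lit 0) (nat_lit 6834536513579) (nat_lit 76) (nat_lit 738502492946) (nat_lit 76) (nat_lit 738426274041) (nat_lit 1) (nat_lit 4) (nat_lit 2) (nat_lit 5) (nat_lit 2) (nat_lit 4) (nat_lit 529) (nat_lit 347) (nat_lit 324)) (XT.lf (nat_lit 0) (nat_lit 7384334097590) (nat_lit 76) (nat_lit 796004344300) (nat_lit 76) (nat_lit 795926966433) (nat_lit 1) (nat_lit 4) (nat_lit 2) (nat_lit 5) (nat_lit 2) (nat_lit 4) (nat_lit 530) (nat_lit 347) (nat_lit 323)))) (XT.nd (nat_lit 156) (nat_lit 0) (nat_lit 0) (XT.nd (nat_lit 78) (nat_lit 0) (nat_lit 0) (XT.lf (nat_lit 0) (nat_lit 7978059966075) (nat_lit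 76) (nat_lit 858135086786) (nat_lit 76) (nat_lit 858056635805) (nat_lit 1) (nat_lit 4) (nat_lit 2) (nat_lit 5) (nat_lit 2) (nat_lit 4) (nat_lit 531) (nat_lit 347) (nat_lit 322)) (XT.lf (nat_lit 0) (nat_lit 8619232494549) (nat_lit 76) (nat_lit 925262902583) (nat_lit 76) (nat_lit 925183457978) (nat_lit 1) (nat_lit 4) (nat_lit 2) (nat_lit 5) (nat_lit 2) (nat_lit 4) (nat_lit 532) (nat_lit 347) (nat_lit 321))) (XT.nd (nat_lit 78) (nat_lit 0) (nat_lit 0) (XT.lf (nat_lit 0) (nat_lit 9311651223924) (nat_lit 76) (nat_lit 997785586153) (nat_lit 76) (nat_lit 997705221526) (nat_lit 1) (nat_lit 4) (nat_lit 2) (nat_lit 5) (nat_lit 2) (nat_lit 4) (nat_lit 533) (nat_lit 347) (nat_lit 320)) (XT.lf (nat_lit 0) (nat_lit 10059419376299) (nat_lit 76) (nat_lit 1076132901548) (nat_lit 76) (nat_lit 1076051685049) (nat_lit 1) (nat_lit 4) (nat_lit 2) (nat_lit 5) (nat_lit 2) (nat_lit 4) (nat_lit 534) (nat_lit 347)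 (nat_lit 319))))))) (XT.nd (nat_lit 60294) (nat_lit 0) (nat_lit 0) (XT.nd (nat_lit 546) (nat_lit 0) (nat_lit 0) (XT.nd (nat_lit 234) (nat_lit 0) (nat_lit 0) (XT.nd (nat_lit 78) (nat_lit 0) (nat_lit 0) (XT.lf (nat_lit 0) (nat_lit 10866968170354) (nat_lit 76) (nat_lit 1160769129155) (nat_lit 76) (nat_lit 1160687123885) (nat_lit 1) (nat_lit 4) (nat_lit 2) (nat_lit 5) (nat_lit 2) (nat_lit 4) (nat_lit 535) (nat_lit 347) (nat_lit 318)) (XT.nd (nat_lit 78) (nat_lit 0) (nat_lit 0) (XT.lf (nat_lit 0) (nat_lit 11739083080425) (nat_lit 76) (nat_lit 1252195816989) (nat_lit 76) (nat_lit 1252113081377) (nat_lit 1) (nat_lit 4) (nat_lit 2) (nat_lit 5) (nat_lit 2) (nat_lit 4) (nat_lit 536) (nat_lit 347) (nat_lit 317)) (XT.lf (nat_lit 0) (nat_lit 12680932194868) (nat_lit 76) (nat_lit 1350954752832) (nat_lit 76) (nat_lit 1350871340976) (nat_lit 1) (nat_lit 4) (nat_lit 2) (nat_lit 5) (nat_lit 2) (nat_lit 4)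 (nat_lit 537) (nat_lit 347) (nat_lit 316)))) (XT.nd (nat_lit 156) (nat_lit 0) (nat_lit 0) (XT.nd (nat_lit 78) (nat_lit 0) (nat_lit 0) (XT.lf (nat_lit 0) (nat_lit 13698096841768) (nat_lit 76) (nat_lit 1457631174820) (nat_lit 76) (nat_lit 1457547136812) (nat_lit 1) (nat_lit 4) (nat_lit 2) (nat_lit 5) (nat_lit 2) (nat_lit 4) (nat_lit 538) (nat_lit 347) (nat_lit 315)) (XT.lf (nat_lit 0) (nat_lit 14796604663478) (nat_lit 76) (nat_lit 1572857239528) (nat_lit 76) (nat_lit 1572772621751) (nat_lit 1) (nat_lit 4) (nat_lit 2) (nat_lit 5) (nat_lit 2) (nat_lit 4) (nat_lit 539) (nat_lit 347) (nat_lit 314))) (XT.nd (nat_lit 78) (nat_lit 0) (nat_lit 0) (XT.lf (nat_lit 0) (nat_lit 15982965335977) (nat_lit 76) (nat_lit 1697315768081) (nat_lit 76) (nat_lit 1697230613480) (nat_lit 1) (nat_lit 4) (nat_lit 2) (nat_lit 5) (nat_lit 2) (nat_lit 4) (nat_lit 540) (nat_lit 347) (nat_lit 313)) (XT.lf (nat_lit 0) (nat_lit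 17264209144733) (nat_lit 76) (nat_lit 1831744292500) (nat_lit 76) (nat_lit 1831658640839) (nat_lit 1) (nat_lit 4) (nat_lit 2) (nat_lit 5) (nat_lit 2) (nat_lit 4) (nat_lit 541) (nat_lit 347) (nat_lit 312))))) (XT.nd (nat_lit 234) (nat_lit 0) (nat_lit 0) (XT.nd (nat_lit 78) (nat_lit 0) (nat_lit 0) (XT.lf (nat_lit 0) (nat_lit 18647928645649) (nat_lit 76) (nat_lit 1976939426263) (nat_lit 76) (nat_lit 1976853314362) (nat_lit 1) (nat_lit 4) (nat_lit 2) (nat_lit 5) (nat_lit 2) (nat_lit 4) (nat_lit 542) (nat_lit 347) (nat_lit 311)) (XT.nd (nat_lit 78) (nat_lit 0) (nat_lit 0) (XT.lf (nat_lit 0) (nat_lit 20142323657990) (nat_lit 76) (nat_lit 2133761584977) (nat_lit 76) (nat_lit 2133675046928) (nat_lit 1) (nat_lit 4) (nat_lit 2) (nat_lit 5) (nat_lit 2) (nat_lit 4) (nat_lit 543) (nat_lit 347) (nat_lit 310)) (XT.lf (nat_lit 0) (nat_lit 21756249855903) (nat_lit 76) (nat_lit 2303140085138) (nat_lit 76)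 (nat_lit 2303053152507) (nat_lit 1) (nat_lit 4) (nat_lit 2) (nat_lit 5) (nat_lit 2) (nat_lit 4) (nat_lit 544) (nat_lit 347) (nat_lit 309)))) (XT.nd (nat_lit 59358) (nat_lit 0) (nat_lit 0) (XT.nd (nat_lit 59280) (nat_lit 0) (nat_lit 0) (XT.lf (nat_lit 0) (nat_lit 23499271246488) (nat_lit 76) (nat_lit 2486078651192) (nat_lit 76) (nat_lit 2485991353208) (nat_lit 1) (nat_lit 4) (nat_lit 2) (nat_lit 5) (nat_lit 2) (nat_lit 4) (nat_lit 545) (nat_lit 347) (nat_lit 308)) (XT.lf (nat_lit 0) (nat_lit 470573931500) (nat_lit 76) (nat_lit 68666800838) (nat_lit 76) (nat_lit 68666800838) (nat_lit 1) (nat_lit 4) (nat_lit 2) (nat_lit 5) (nat_lit 2) (nat_lit 4) (nat_lit 504) (nat_lit 348) (nat_lit 348))) (XT.nd (nat_lit 78) (nat_lit 0) (nat_lit 0) (XT.lf (nat_lit 0) (nat_lit 1023660647808) (nat_lit 76) (nat_lit 144574173592) (nat_lit 76) (nat_lit 144566824400) (nat_lit 1) (nat_lit 4) (nat_lit 2) (nat_lit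 5) (nat_lit 2) (nat_lit 4) (nat_lit 505) (nat_lit 348) (nat_lit 347)) (XT.lf (nat_lit 0) (nat_lit 1112422378795) (nat_lit 76) (nat_lit 152576255970) (nat_lit 76) (nat_lit 152562101971) (nat_lit 1) (nat_lit 4) (nat_lit 2) (nat_lit 5) (nat_lit 2) (nat_lit 4) (nat_lit 506) (nat_lit 348) (nat_lit 346)))))) (XT.nd (nat_lit 546) (nat_lit 0) (nat_lit 0) (XT.nd (nat_lit 234) (nat_lit 0) (nat_lit 0) (XT.nd (nat_lit 78) (nat_lit 0) (nat_lit 0) (XT.lf (nat_lit 0) (nat_lit 1207959051404) (nat_lit 76) (nat_lit 161387268559) (nat_lit 76) (nat_lit 161366813812) (nat_lit 1) (nat_lit 4) (nat_lit 2) (nat_lit 5) (nat_lit 2) (nat_lit 4) (nat_lit 507) (nat_lit 348) (nat_lit 345)) (XT.nd (nat_lit 78) (nat_lit 0) (nat_lit 0) (XT.lf (nat_lit 0) (nat_lit 1310836808880) (nat_lit 76) (nat_lit 171059424766) (nat_lit 76) (nat_lit 171033135993) (nat_lit 1) (nat_lit 4) (nat_lit 2) (nat_lit 5) (nat_lit 2) (nat_lit 4) (nat_lit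 508) (nat_lit 348) (nat_lit 344)) (XT.lf (nat_lit 0) (nat_lit 1421665297193) (nat_lit 76) (nat_lit 181650041072) (nat_lit 76) (nat_lit 181618350424) (nat_lit 1) (nat_lit 4) (nat_lit 2) (nat_lit 5) (nat_lit 2) (nat_lit 4) (nat_lit 509) (nat_lit 348) (nat_lit 343)))) (XT.nd (nat_lit 156) (nat_lit 0) (nat_lit 0) (XT.nd (nat_lit 78) (nat_lit 0) (nat_lit 0) (XT.lf (nat_lit 0) (nat_lit 1541101277755) (nat_lit 76) (nat_lit 193221876686) (nat_lit 76) (nat_lit 193185184300) (nat_lit 1) (nat_lit 4) (nat_lit 2) (nat_lit 5) (nat_lit 2) (nat_lit 4) (nat_lit 510) (nat_lit 348) (nat_lit 342)) (XT.lf (nat_lit 0) (nat_lit 1669852519340) (nat_lit 76) (nat_lit 205843505447) (nat_lit 76) (nat_lit 205802181824) (nat_lit 1) (nat_lit 4) (nat_lit 2) (nat_lit 5) (nat_lit 2) (nat_lit 4) (nat_lit 511) (nat_lit 348) (nat_lit 341))) (XT.nd (nat_lit 78) (nat_lit 0) (nat_lit 0) (XT.lf (nat_lit 0) (nat_lit 1808681992269)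 (nat_lit 76) (nat_lit 219589722193) (nat_lit 76) (nat_lit 219544110387) (nat_lit 1) (nat_lit 4) (nat_lit 2) (nat_lit 5) (nat_lit 2) (nat_lit 4) (nat_lit 512) (nat_lit 348) (nat_lit 340)) (XT.lf (nat_lit 0) (nat_lit 1958412389715) (nat_lit 76) (nat_lit 234541985986) (nat_lit 76) (nat_lit 234492403640) (nat_lit 1) (nat_lit 4) (nat_lit 2) (nat_lit 5) (nat_lit 2) (nat_lit 4) (nat_lit 513) (nat_lit 348) (nat_lit 339))))) (XT.nd (nat_lit 312) (nat_lit 0) (nat_lit 0) (XT.nd (nat_lit 156) (nat_lit 0) (nat_lit 0) (XT.nd (nat_lit 78) (nat_lit 0) (nat_lit 0) (XT.lf (nat_lit 0) (nat_lit 2119931002921) (nat_lit 76) (nat_lit 250788902834) (nat_lit 76) (nat_lit 250735644063) (nat_lit 1) (nat_lit 4) (nat_lit 2) (nat_lit 5) (nat_lit 2) (nat_lit 4) (nat_lit 514) (nat_lit 348) (nat_lit 338)) (XT.lf (nat_lit 0) (nat_lit 2294194979225) (nat_lit 76) (nat_lit 268426750763) (nat_lit 76) (nat_lit 268370087893) (nat_lit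 1) (nat_lit 4) (nat_lit 2) (nat_lit 5) (nat_lit 2) (nat_lit 4) (nat_lit 515) (nat_lit 348) (nat_lit 337))) (XT.nd (nat_lit 78) (nat_lit 0) (nat_lit 0) (XT.lf (nat_lit 0) (nat_lit 2482236994043) (nat_lit 76) (nat_lit 287560050352) (nat_lit 76) (nat_lit 287500235540) (nat_lit 1) (nat_lit 4) (nat_lit 2) (nat_lit 5) (nat_lit 2) (nat_lit 4) (nat_lit 516) (nat_lit 348) (nat_lit 336)) (XT.lf (nat_lit 0) (nat_lit 2685171370425) (nat_lit 76) (nat_lit 308302184118) (nat_lit 76) (nat_lit 308239450841) (nat_lit 1) (nat_lit 4) (nat_lit 2) (nat_lit 5) (nat_lit 2) (nat_lit 4) (nat_lit 517) (nat_lit 348) (nat_lit 335)))) (XT.nd (nat_lit 156) (nat_lit 0) (nat_lit 0) (XT.nd (nat_lit 78) (nat_lit 0) (nat_lit 0) (XT.lf (nat_lit 0) (nat_lit 2904200682453) (nat_lit 76) (nat_lit 330776068410) (nat_lit 76) (nat_lit 330710632850) (nat_lit 1) (nat_lit 4) (nat_lit 2) (nat_lit 5) (nat_lit 2) (nat_lit 4) (nat_lit 518)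 (nat_lit 348) (nat_lit 334)) (XT.lf (nat_lit 0) (nat_lit 3140622881606) (nat_lit 76) (nat_lit 355114881800) (nat_lit 76) (nat_lit 355046944127) (nat_lit 1) (nat_lit 4) (nat_lit 2) (nat_lit 5) (nat_lit 2) (nat_lit 4) (nat_lit 519) (nat_lit 348) (nat_lit 333))) (XT.nd (nat_lit 78) (nat_lit 0) (nat_lit 0) (XT.lf (nat_lit 0) (nat_lit 3395838988324) (nat_lit 76) (nat_lit 381462854294) (nat_lit 76) (nat_lit 381392599849) (nat_lit 1) (nat_lit 4) (nat_lit 2) (nat_lit 5) (nat_lit 2) (nat_lit 4) (nat_lit 520) (nat_lit 348) (nat_lit 332)) (XT.lf (nat_lit 0) (nat_lit 3671361394349) (nat_lit 76) (nat_lit 409976122026) (nat_lit 76) (nat_lit 409903722422) (nat_lit 1) (nat_lit 4) (nat_lit 2) (nat_lit 5) (nat_lit 2) (nat_lit 4) (nat_lit 521) (nat_lit 348) (nat_lit 331))))))))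
noncomputable def xc8 : XT := (XT.nd (nat_lit 61230) (nat_lit 0) (nat_lit 0) (XT.nd (nat_lit 1092) (nat_lit 0) (nat_lit 0) (XT.nd (nat_lit 546) (nat_lit 0) (nat_lit 0) (XT.nd (nat_lit 234) (nat_lit 0) (nat_lit 0) (XT.nd (nat_lit 78) (nat_lit 0) (nat_lit 0) (XT.lf (nat_lit 0) (nat_lit 3968822825052) (nat_lit 76) (nat_lit 440823652508) (nat_lit 76) (nat_lit 440749266645) (nat_lit 1) (nat_lit 4) (nat_lit 2) (nat_lit 5) (nat_lit 2) (nat_lit 4) (nat_lit 522) (nat_lit 348) (nat_lit 330)) (XT.nd (nat_lit 78) (nat_lit 0) (nat_lit 0) (XT.lf (nat_lit 0) (nat_lit 4289986014835) (nat_lit 76) (nat_lit 474188245919) (nat_lit 76) (nat_lit 474112020928) (nat_lit 1) (nat_lit 4) (nat_lit 2) (nat_lit 5) (nat_lit 2) (nat_lit 4) (nat_lit 523) (nat_lit 348) (nat_lit 329)) (XT.lf (nat_lit 0) (nat_lit 4636754152973) (nat_lit 76) (nat_lit 510267618371) (nat_lit 76) (nat_lit 510189690483) (nat_lit 1) (nat_lit 4)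 (nat_lit 2) (nat_lit 5) (nat_lit 2) (nat_lit 4) (nat_lit 524) (nat_lit 348) (nat_lit 328)))) (XT.nd (nat_lit 156) (nat_lit 0) (nat_lit 0) (XT.nd (nat_lit 78) (nat_lit 0) (nat_lit 0) (XT.lf (nat_lit 0) (nat_lit 5011182161764) (nat_lit 76) (nat_lit 549275573551) (nat_lit 76) (nat_lit 549196068907) (nat_lit 1) (nat_lit 4) (nat_lit 2) (nat_lit 5) (nat_lit 2) (nat_lit 4) (nat_lit 525) (nat_lit 348) (nat_lit 327)) (XT.lf (nat_lit 0) (nat_lit 5415488873855) (nat_lit 76) (nat_lit 591443269711) (nat_lit 76) (nat_lit 591362305109) (nat_lit 1) (nat_lit 4) (nat_lit 2) (nat_lit 5) (nat_lit 2) (nat_lit 4) (nat_lit 526) (nat_lit 348) (nat_lit 326))) (XT.nd (nat_lit 78) (nat_lit 0) (nat_lit 0) (XT.lf (nat_lit 0) (nat_lit 5852070180871) (nat_lit 76) (nat_lit 637020589497) (nat_lit 76) (nat_lit 636938273080) (nat_lit 1) (nat_lit 4) (nat_lit 2) (nat_lit 5) (nat_lit 2) (nat_lit 4) (nat_lit 527) (nat_lit 348)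 (nat_lit 325)) (XT.lf (nat_lit 0) (nat_lit 6323513231299) (nat_lit 76) (nat_lit 686277620729) (nat_lit 76) (nat_lit 686194052632) (nat_lit 1) (nat_lit 4) (nat_lit 2) (nat_lit 5) (nat_lit 2) (nat_lit 4) (nat_lit 528) (nat_lit 348) (nat_lit 324))))) (XT.nd (nat_lit 234) (nat_lit 0) (nat_lit 0) (XT.nd (nat_lit 78) (nat_lit 0) (nat_lit 0) (XT.lf (nat_lit 0) (nat_lit 6832611761735) (nat_lit 76) (nat_lit 739506256925) (nat_lit 76) (nat_lit 739421529865) (nat_lit 1) (nat_lit 4) (nat_lit 2) (nat_lit 5) (nat_lit 2) (nat_lit 4) (nat_lit 529) (nat_lit 348) (nat_lit 323)) (XT.nd (nat_lit 78) (nat_lit 0) (nat_lit 0) (XT.lf (nat_lit 0) (nat_lit 7382382652357) (nat_lit 76) (nat_lit 797021927040) (nat_lit 76) (nat_lit 796936126867) (nat_lit 1) (nat_lit 4) (nat_lit 2) (nat_lit 5) (nat_lit 2) (nat_lit 4) (nat_lit 530) (nat_lit 348) (nat_lit 322)) (XT.lf (nat_lit 0) (nat_lit 7976083804742) (nat_lit 76) (nat_lit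 859165464676) (nat_lit 76) (nat_lit 859078670879) (nat_lit 1) (nat_lit 4) (nat_lit 2) (nat_lit 5) (nat_lit 2) (nat_lit 4) (nat_lit 531) (nat_lit 348) (nat_lit 321)))) (XT.nd (nat_lit 156) (nat_lit 0) (nat_lit 0) (XT.nd (nat_lit 78) (nat_lit 0) (nat_lit 0) (XT.lf (nat_lit 0) (nat_lit 8617233447939) (nat_lit 76) (nat_lit 926305127833) (nat_lit 76) (nat_lit 926217414014) (nat_lit 1) (nat_lit 4) (nat_lit 2) (nat_lit 5) (nat_lit 2) (nat_lit 4) (nat_lit 532) (nat_lit 348) (nat_lit 320)) (XT.lf (nat_lit 0) (nat_lit 9309630987241) (nat_lit 76) (nat_lit 998838781181) (nat_lit 76) (nat_lit 998750215491) (nat_lit 1) (nat_lit 4) (nat_lit 2) (nat_lit 5) (nat_lit 2) (nat_lit 4) (nat_lit 533) (nat_lit 348) (nat_lit 319))) (XT.nd (nat_lit 78) (nat_lit 0) (nat_lit 0) (XT.lf (nat_lit 0) (nat_lit 10057379519179) (nat_lit 76) (nat_lit 1077196253779) (nat_lit 76) (nat_lit 1077106899317) (nat_lit 1) (nat_lit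 4) (nat_lit 2) (nat_lit 5) (nat_lit 2) (nat_lit 4) (nat_lit 534) (nat_lit 348) (nat_lit 318)) (XT.lf (nat_lit 0) (nat_lit 10864910146163) (nat_lit 76) (nat_lit 1161841886203) (nat_lit 76) (nat_lit 1161751801398) (nat_lit 1) (nat_lit 4) (nat_lit 2) (nat_lit 5) (nat_lit 2) (nat_lit 4) (nat_lit 535) (nat_lit 348) (nat_lit 317)))))) (XT.nd (nat_lit 546) (nat_lit 0) (nat_lit 0) (XT.nd (nat_lit 234) (nat_lit 0) (nat_lit 0) (XT.nd (nat_lit 78) (nat_lit 0) (nat_lit 0) (XT.lf (nat_lit 0) (nat_lit 11737008234871) (nat_lit 76) (nat_lit 1253277282201) (nat_lit 76) (nat_lit 1253186521153) (nat_lit 1) (nat_lit 4) (nat_lit 2) (nat_lit 5) (nat_lit 2) (nat_lit 4) (nat_lit 536) (nat_lit 348) (nat_lit 316)) (XT.nd (nat_lit 78) (nat_lit 0) (nat_lit 0) (XT.lf (nat_lit 0) (nat_lit 12678841773978) (nat_lit 76) (nat_lit 1352044281158) (nat_lit 76) (nat_lit 1351952893958) (nat_lit 1) (nat_lit 4) (nat_lit 2) (nat_lit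 5) (nat_lit 2) (nat_lit 4) (nat_lit 537) (nat_lit 348) (nat_lit 315)) (XT.lf (nat_lit 0) (nat_lit 13695991999271) (nat_lit 76) (nat_lit 1458728168993) (nat_lit 76) (nat_lit 1458636202023) (nat_lit 1) (nat_lit 4) (nat_lit 2) (nat_lit 5) (nat_lit 2) (nat_lit 4) (nat_lit 538) (nat_lit 348) (nat_lit 314)))) (XT.nd (nat_lit 156) (nat_lit 0) (nat_lit 0) (XT.nd (nat_lit 78) (nat_lit 0) (nat_lit 0) (XT.lf (nat_lit 0) (nat_lit 14794486467641) (nat_lit 76) (nat_lit 1573961146522) (nat_lit 76) (nat_lit 1573868642729) (nat_lit 1) (nat_lit 4) (nat_lit 2) (nat_lit 5) (nat_lit 2) (nat_lit 4) (nat_lit 539) (nat_lit 348) (nat_lit 313)) (XT.lf (nat_lit 0) (nat_lit 15980834775937) (nat_lit 76) (nat_lit 1698426075836) (nat_lit 76) (nat_lit 1698333074983) (nat_lit 1) (nat_lit 4) (nat_lit 2) (nat_lit 5) (nat_lit 2) (nat_lit 4) (nat_lit 540) (nat_lit 348) (nat_lit 312))) (XT.nd (nat_lit 78) (nat_lit 0) (nat_lit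 0) (XT.lf (nat_lit 0) (nat_lit 17262067136356) (nat_lit 76) (nat_lit 1832860526885) (nat_lit 76) (nat_lit 1832767065792) (nat_lit 1) (nat_lit 4) (nat_lit 2) (nat_lit 5) (nat_lit 2) (nat_lit 4) (nat_lit 541) (nat_lit 348) (nat_lit 311)) (XT.lf (nat_lit 0) (nat_lit 18645776036961) (nat_lit 76) (nat_lit 1978061148268) (nat_lit 76) (nat_lit 1977967261027) (nat_lit 1) (nat_lit 4) (nat_lit 2) (nat_lit 5) (nat_lit 2) (nat_lit 4) (nat_lit 542) (nat_lit 348) (nat_lit 310))))) (XT.nd (nat_lit 59280) (nat_lit 0) (nat_lit 0) (XT.nd (nat_lit 78) (nat_lit 0) (nat_lit 0) (XT.lf (nat_lit 0) (nat_lit 20140161234198) (nat_lit 76) (nat_lit 2134888388111) (nat_lit 76) (nat_lit 2134794106289) (nat_lit 1) (nat_lit 4) (nat_lit 2) (nat_lit 5) (nat_lit 2) (nat_lit 4) (nat_lit 543) (nat_lit 348) (nat_lit 309)) (XT.nd (nat_lit 78) (nat_lit 0) (nat_lit 0) (XT.lf (nat_lit 0) (nat_lit 21754078344053) (nat_lit 76) (nat_lit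 2304271593023) (nat_lit 76) (nat_lit 2304176945847) (nat_lit 1) (nat_lit 4) (nat_lit 2) (nat_lit 5) (nat_lit 2) (nat_lit 4) (nat_lit 544) (nat_lit 348) (nat_lit 308)) (XT.lf (nat_lit 0) (nat_lit 23497091319768) (nat_lit 76) (nat_lit 2487214515327) (nat_lit 76) (nat_lit 2487119529860) (nat_lit 1) (nat_lit 4) (nat_lit 2) (nat_lit 5) (nat_lit 2) (nat_lit 4) (nat_lit 545) (nat_lit 348) (nat_lit 307)))) (XT.nd (nat_lit 156) (nat_lit 0) (nat_lit 0) (XT.nd (nat_lit 78) (nat_lit 0) (nat_lit 0) (XT.lf (nat_lit 0) (nat_lit 396572420135) (nat_lit 76) (nat_lit 62437673969) (nat_lit 76) (nat_lit 62437673969) (nat_lit 1) (nat_lit 4) (nat_lit 2) (nat_lit 5) (nat_lit 2) (nat_lit 4) (nat_lit 502) (nat_lit 349) (nat_lit 349)) (XT.lf (nat_lit 0) (nat_lit 864395059721) (nat_lit 76) (nat_lit 130819570258) (nat_lit 76) (nat_lit 130811633130) (nat_lit 1) (nat_lit 4) (nat_lit 2) (nat_lit 5) (nat_lit 2) (nat_lit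 4) (nat_lit 503) (nat_lit 349) (nat_lit 348))) (XT.nd (nat_lit 78) (nat_lit 0) (nat_lit 0) (XT.lf (nat_lit 0) (nat_lit 940965053994) (nat_lit 76) (nat_lit 137436176249) (nat_lit 76) (nat_lit 137420889929) (nat_lit 1) (nat_lit 4) (nat_lit 2) (nat_lit 5) (nat_lit 2) (nat_lit 4) (nat_lit 504) (nat_lit 349) (nat_lit 347)) (XT.lf (nat_lit 0) (nat_lit 1023308571203) (nat_lit 76) (nat_lit 144764375429) (nat_lit 76) (nat_lit 144742284302) (nat_lit 1) (nat_lit 4) (nat_lit 2) (nat_lit 5) (nat_lit 2) (nat_lit 4) (nat_lit 505) (nat_lit 349) (nat_lit 346))))))) (XT.nd (nat_lit 1092) (nat_lit 0) (nat_lit 0) (XT.nd (nat_lit 546) (nat_lit 0) (nat_lit 0) (XT.nd (nat_lit 234) (nat_lit 0) (nat_lit 0) (XT.nd (nat_lit 78) (nat_lit 0) (nat_lit 0) (XT.lf (nat_lit 0) (nat_lit 1111913572931) (nat_lit 76) (nat_lit 152847594163) (nat_lit 76) (nat_lit 152819202288) (nat_lit 1) (nat_lit 4) (nat_lit 2) (nat_lit 5) (nat_lit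 2) (nat_lit 4) (nat_lit 506) (nat_lit 349) (nat_lit 345)) (XT.nd (nat_lit 78) (nat_lit 0) (nat_lit 0) (XT.lf (nat_lit 0) (nat_lit 1207305125857) (nat_lit 76) (nat_lit 161733733007) (nat_lit 76) (nat_lit 161699507107) (nat_lit 1) (nat_lit 4) (nat_lit 2) (nat_lit 5) (nat_lit 2) (nat_lit 4) (nat_lit 507) (nat_lit 349) (nat_lit 344)) (XT.lf (nat_lit 0) (nat_lit 1310048513255) (nat_lit 76) (nat_lit 171475450561) (nat_lit 76) (nat_lit 171435822785) (nat_lit 1) (nat_lit 4) (nat_lit 2) (nat_lit 5) (nat_lit 2) (nat_lit 4) (nat_lit 508) (nat_lit 349) (nat_lit 343)))) (XT.nd (nat_lit 156) (nat_lit 0) (nat_lit 0) (XT.nd (nat_lit 78) (nat_lit 0) (nat_lit 0) (XT.lf (nat_lit 0) (nat_lit 1420752584830) (nat_lit 76) (nat_lit 182130475523) (nat_lit 76) (nat_lit 182085846010) (nat_lit 1) (nat_lit 4) (nat_lit 2) (nat_lit 5) (nat_lit 2) (nat_lit 4) (nat_lit 509) (nat_lit 349) (nat_lit 342)) (XT.lf (nat_lit 0)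 (nat_lit 1540073364708) (nat_lit 76) (nat_lit 193761948780) (nat_lit 76) (nat_lit 193712688030) (nat_lit 1) (nat_lit 4) (nat_lit 2) (nat_lit 5) (nat_lit 2) (nat_lit 4) (nat_lit 510) (nat_lit 349) (nat_lit 341))) (XT.nd (nat_lit 78) (nat_lit 0) (nat_lit 0) (XT.lf (nat_lit 0) (nat_lit 1668717938994) (nat_lit 76) (nat_lit 206438797581) (nat_lit 76) (nat_lit 206385248648) (nat_lit 1) (nat_lit 4) (nat_lit 2) (nat_lit 5) (nat_lit 2) (nat_lit 4) (nat_lit 511) (nat_lit 349) (nat_lit 340)) (XT.lf (nat_lit 0) (nat_lit 1807448645905) (nat_lit 76) (nat_lit 220236143995) (nat_lit 76) (nat_lit 220178624522) (nat_lit 1) (nat_lit 4) (nat_lit 2) (nat_lit 5) (nat_lit 2) (nat_lit 4) (nat_lit 512) (nat_lit 349) (nat_lit 339))))) (XT.nd (nat_lit 234) (nat_lit 0) (nat_lit 0) (XT.nd (nat_lit 78) (nat_lit 0) (nat_lit 0) (XT.lf (nat_lit 0) (nat_lit 1957087593334) (nat_lit 76) (nat_lit 235235750072) (nat_lit 76)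 (nat_lit 235174554173) (nat_lit 1) (nat_lit 4) (nat_lit 2) (nat_lit 5) (nat_lit 2) (nat_lit 4) (nat_lit 513) (nat_lit 349) (nat_lit 338)) (XT.nd (nat_lit 78) (nat_lit 0) (nat_lit 0) (XT.lf (nat_lit 0) (nat_lit 2118521530598) (nat_lit 76) (nat_lit 251526502369) (nat_lit 76) (nat_lit 251461902372) (nat_lit 1) (nat_lit 4) (nat_lit 2) (nat_lit 5) (nat_lit 2) (nat_lit 4) (nat_lit 514) (nat_lit 349) (nat_lit 337)) (XT.lf (nat_lit 0) (nat_lit 2292707103253) (nat_lit 76) (nat_lit 269204938675) (nat_lit 76) (nat_lit 269137186736) (nat_lit 1) (nat_lit 4) (nat_lit 2) (nat_lit 5) (nat_lit 2) (nat_lit 4) (nat_lit 515) (nat_lit 349) (nat_lit 336)))) (XT.nd (nat_lit 156) (nat_lit 0) (nat_lit 0) (XT.nd (nat_lit 78) (nat_lit 0) (nat_lit 0) (XT.lf (nat_lit 0) (nat_lit 2480676522099) (nat_lit 76) (nat_lit 288375820096) (nat_lit 76) (nat_lit 288305149692) (nat_lit 1) (nat_lit 4) (nat_lit 2) (nat_lit 5) (nat_lit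 2) (nat_lit 4) (nat_lit 516) (nat_lit 349) (nat_lit 335)) (XT.lf (nat_lit 0) (nat_lit 2683543679988) (nat_lit 76) (nat_lit 309152751855) (nat_lit 76) (nat_lit 309079379168) (nat_lit 1) (nat_lit 4) (nat_lit 2) (nat_lit 5) (nat_lit 2) (nat_lit 4) (nat_lit 517) (nat_lit 349) (nat_lit 334))) (XT.nd (nat_lit 78) (nat_lit 0) (nat_lit 0) (XT.lf (nat_lit 0) (nat_lit 2902510752672) (nat_lit 76) (nat_lit 331658856510) (nat_lit 76) (nat_lit 331582981709) (nat_lit 1) (nat_lit 4) (nat_lit 2) (nat_lit 5) (nat_lit 2) (nat_lit 4) (nat_lit 518) (nat_lit 349) (nat_lit 333)) (XT.lf (nat_lit 0) (nat_lit 3138875322802) (nat_lit 76) (nat_lit 356027503569) (nat_lit 76) (nat_lit 355949311997) (nat_lit 1) (nat_lit 4) (nat_lit 2) (nat_lit 5) (nat_lit 2) (nat_lit 4) (nat_lit 519) (nat_lit 349) (nat_lit 332)))))) (XT.nd (nat_lit 546) (nat_lit 0) (nat_lit 0) (XT.nd (nat_lit 234) (nat_lit 0) (nat_lit 0) (XT.nd (nat_lit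 78) (nat_lit 0) (nat_lit 0) (XT.lf (nat_lit 0) (nat_lit 3394038069313) (nat_lit 76) (nat_lit 382403099832) (nat_lit 76) (nat_lit 382322763100) (nat_lit 1) (nat_lit 4) (nat_lit 2) (nat_lit 5) (nat_lit 2) (nat_lit 4) (nat_lit 520) (nat_lit 349) (nat_lit 331)) (XT.nd (nat_lit 78) (nat_lit 0) (nat_lit 0) (XT.lf (nat_lit 0) (nat_lit 3669511067740) (nat_lit 76) (nat_lit 410941945127) (nat_lit 76) (nat_lit 410859622136) (nat_lit 1) (nat_lit 4) (nat_lit 2) (nat_lit 5) (nat_lit 2) (nat_lit 4) (nat_lit 521) (nat_lit 349) (nat_lit 330)) (XT.lf (nat_lit 0) (nat_lit 3966926750666) (nat_lit 76) (nat_lit 441813158537) (nat_lit 76) (nat_lit 441728996418) (nat_lit 1) (nat_lit 4) (nat_lit 2) (nat_lit 5) (nat_lit 2) (nat_lit 4) (nat_lit 522) (nat_lit 349) (nat_lit 329)))) (XT.nd (nat_lit 156) (nat_lit 0) (nat_lit 0) (XT.nd (nat_lit 78) (nat_lit 0) (nat_lit 0) (XT.lf (nat_lit 0) (nat_lit 4288047581397) (nat_lit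 76) (nat_lit 475199680587) (nat_lit 76) (nat_lit 475113815572) (nat_lit 1) (nat_lit 4) (nat_lit 2) (nat_lit 5) (nat_lit 2) (nat_lit 4) (nat_lit 523) (nat_lit 349) (nat_lit 328)) (XT.lf (nat_lit 0) (nat_lit 4634776498190) (nat_lit 76) (nat_lit 511299357332) (nat_lit 76) (nat_lit 511211915561) (nat_lit 1) (nat_lit 4) (nat_lit 2) (nat_lit 5) (nat_lit 2) (nat_lit 4) (nat_lit 524) (nat_lit 349) (nat_lit 327))) (XT.nd (nat_lit 78) (nat_lit 0) (nat_lit 0) (XT.lf (nat_lit 0) (nat_lit 5009168190922) (nat_lit 76) (nat_lit 550326112784) (nat_lit 76) (nat_lit 550237211054) (nat_lit 1) (nat_lit 4) (nat_lit 2) (nat_lit 5) (nat_lit 2) (nat_lit 4) (nat_lit 525) (nat_lit 349) (nat_lit 326)) (XT.lf (nat_lit 0) (nat_lit 5413441277031) (nat_lit 76) (nat_lit 592511216605) (nat_lit 76) (nat_lit 592420963060) (nat_lit 1) (nat_lit 4) (nat_lit 2) (nat_lit 5) (nat_lit 2) (nat_lit 4) (nat_lit 526) (nat_lit 349) (nat_lit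 325))))) (XT.nd (nat_lit 234) (nat_lit 0) (nat_lit 0) (XT.nd (nat_lit 78) (nat_lit 0) (nat_lit 0) (XT.lf (nat_lit 0) (nat_lit 5849991448879) (nat_lit 76) (nat_lit 638104654594) (nat_lit 76) (nat_lit 638013149370) (nat_lit 1) (nat_lit 4) (nat_lit 2) (nat_lit 5) (nat_lit 2) (nat_lit 4) (nat_lit 527) (nat_lit 349) (nat_lit 324)) (XT.nd (nat_lit 78) (nat_lit 0) (nat_lit 0) (XT.lf (nat_lit 0) (nat_lit 6321405670448) (nat_lit 76) (nat_lit 687376610088) (nat_lit 76) (nat_lit 687283945901) (nat_lit 1) (nat_lit 4) (nat_lit 2) (nat_lit 5) (nat_lit 2) (nat_lit 4) (nat_lit 528) (nat_lit 349) (nat_lit 323)) (XT.lf (nat_lit 0) (nat_lit 6830477507495) (nat_lit 76) (nat_lit 740619065045) (nat_lit 76) (nat_lit 740525327745) (nat_lit 1) (nat_lit 4) (nat_lit 2) (nat_lit 5) (nat_lit 2) (nat_lit 4) (nat_lit 529) (nat_lit 349) (nat_lit 322)))) (XT.nd (nat_lit 156) (nat_lit 0) (nat_lit 0) (XT.nd (nat_lit 78) (nat_lit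 0) (nat_lit 0) (XT.lf (nat_lit 0) (nat_lit 7380223682018) (nat_lit 76) (nat_lit 798147530311) (nat_lit 76) (nat_lit 798052799386) (nat_lit 1) (nat_lit 4) (nat_lit 2) (nat_lit 5) (nat_lit 2) (nat_lit 4) (nat_lit 530) (nat_lit 349) (nat_lit 321)) (XT.lf (nat_lit 0) (nat_lit 7973901949124) (nat_lit 76) (nat_lit 860302915307) (nat_lit 76) (nat_lit 860207264361) (nat_lit 1) (nat_lit 4) (nat_lit 2) (nat_lit 5) (nat_lit 2) (nat_lit 4) (nat_lit 531) (nat_lit 349) (nat_lit 320))) (XT.nd (nat_lit 78) (nat_lit 0) (nat_lit 0) (XT.lf (nat_lit 0) (nat_lit 8615030402249) (nat_lit 76) (nat_lit 927453548242) (nat_lit 76) (nat_lit 927357045424) (nat_lit 1) (nat_lit 4) (nat_lit 2) (nat_lit 5) (nat_lit 2) (nat_lit 4) (nat_lit 532) (nat_lit 349) (nat_lit 319)) (XT.lf (nat_lit 0) (nat_lit 9307408321114) (nat_lit 76) (nat_lit 999997358793) (nat_lit 76) (nat_lit 999900067204) (nat_lit 1) (nat_lit 4) (nat_lit 2)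 (nat_lit 5) (nat_lit 2) (nat_lit 4) (nat_lit 533) (nat_lit 349) (nat_lit 318))))))))
noncomputable def xc9 : XT := (XT.nd (nat_lit 61074) (nat_lit 0) (nat_lit 0) (XT.nd (nat_lit 59982) (nat_lit 0) (nat_lit 0) (XT.nd (nat_lit 546) (nat_lit 0) (nat_lit 0) (XT.nd (nat_lit 234) (nat_lit 0) (nat_lit 0) (XT.nd (nat_lit 78) (nat_lit 0) (nat_lit 0) (XT.lf (nat_lit 0) (nat_lit 10055138685980) (nat_lit 76) (nat_lit 1078364236207) (nat_lit 76) (nat_lit 1078266214275) (nat_lit 1) (nat_lit 4) (nat_lit 2) (nat_lit 5) (nat_lit 2) (nat_lit 4) (nat_lit 534) (nat_lit 349) (nat_lit 317)) (XT.nd (nat_lit 78) (nat_lit 0) (nat_lit 0) (XT.lf (nat_lit 0) (nat_lit 10862652491602) (nat_lit 76) (nat_lit 1163018576795) (nat_lit 76) (nat_lit 1162919878619) (nat_lit 1) (nat_lit 4) (nat_lit 2) (nat_lit 5) (nat_lit 2) (nat_lit 4) (nat_lit 535) (nat_lit 349) (nat_lit 316)) (XT.lf (nat_lit 0) (nat_lit 11734735004975) (nat_lit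 76) (nat_lit 1254462035908) (nat_lit 76) (nat_lit 1254362711581) (nat_lit 1) (nat_lit 4) (nat_lit 2) (nat_lit 5) (nat_lit 2) (nat_lit 4) (nat_lit 536) (nat_lit 349) (nat_lit 315)))) (XT.nd (nat_lit 156) (nat_lit 0) (nat_lit 0) (XT.nd (nat_lit 78) (nat_lit 0) (nat_lit 0) (XT.lf (nat_lit 0) (nat_lit 12676554122475) (nat_lit 76) (nat_lit 1353236500712) (nat_lit 76) (nat_lit 1353136596615) (nat_lit 1) (nat_lit 4) (nat_lit 2) (nat_lit 5) (nat_lit 2) (nat_lit 4) (nat_lit 537) (nat_lit 349) (nat_lit 314)) (XT.lf (nat_lit 0) (nat_lit 13693690994428) (nat_lit 76) (nat_lit 1459927301368) (nat_lit 76) (nat_lit 1459826860447) (nat_lit 1) (nat_lit 4) (nat_lit 2) (nat_lit 5) (nat_lit 2) (nat_lit 4) (nat_lit 538) (nat_lit 349) (nat_lit 313))) (XT.nd (nat_lit 78) (nat_lit 0) (nat_lit 0) (XT.lf (nat_lit 0) (nat_lit 14792173098594) (nat_lit 76) (nat_lit 1575166679658) (nat_lit 76) (nat_lit 1575065741677)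 (nat_lit 1) (nat_lit 4) (nat_lit 2) (nat_lit 5) (nat_lit 2) (nat_lit 4) (nat_lit 539) (nat_lit 349) (nat_lit 312)) (XT.lf (nat_lit 0) (nat_lit 15978509958553) (nat_lit 76) (nat_lit 1699637535601) (nat_lit 76) (nat_lit 1699536137381) (nat_lit 1) (nat_lit 4) (nat_lit 2) (nat_lit 5) (nat_lit 2) (nat_lit 4) (nat_lit 540) (nat_lit 349) (nat_lit 311))))) (XT.nd (nat_lit 234) (nat_lit 0) (nat_lit 0) (XT.nd (nat_lit 78) (nat_lit 0) (nat_lit 0) (XT.lf (nat_lit 0) (nat_lit 17259731718661) (nat_lit 76) (nat_lit 1834077474270) (nat_lit 76) (nat_lit 1833975649902) (nat_lit 1) (nat_lit 4) (nat_lit 2) (nat_lit 5) (nat_lit 2) (nat_lit 4) (nat_lit 541) (nat_lit 349) (nat_lit 310)) (XT.nd (nat_lit 78) (nat_lit 0) (nat_lit 0) (XT.lf (nat_lit 0) (nat_lit 18643430804162) (nat_lit 76) (nat_lit 1979283176783) (nat_lit 76) (nat_lit 1979180957833) (nat_lit 1) (nat_lit 4) (nat_lit 2) (nat_lit 5) (nat_lit 2) (nat_lit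 4) (nat_lit 542) (nat_lit 349) (nat_lit 309)) (XT.lf (nat_lit 0) (nat_lit 20137806913341) (nat_lit 76) (nat_lit 2136115121377) (nat_lit 76) (nat_lit 2136012537073) (nat_lit 1) (nat_lit 4) (nat_lit 2) (nat_lit 5) (nat_lit 2) (nat_lit 4) (nat_lit 543) (nat_lit 349) (nat_lit 308)))) (XT.nd (nat_lit 59046) (nat_lit 0) (nat_lit 0) (XT.nd (nat_lit 78) (nat_lit 0) (nat_lit 0) (XT.lf (nat_lit 0) (nat_lit 21751715608326) (nat_lit 76) (nat_lit 2305502682538) (nat_lit 76) (nat_lit 2305399759944) (nat_lit 1) (nat_lit 4) (nat_lit 2) (nat_lit 5) (nat_lit 2) (nat_lit 4) (nat_lit 544) (nat_lit 349) (nat_lit 307)) (XT.lf (nat_lit 0) (nat_lit 23494720792496) (nat_lit 76) (nat_lit 2488449638407) (nat_lit 76) (nat_lit 2488346402582) (nat_lit 1) (nat_lit 4) (nat_lit 2) (nat_lit 5) (nat_lit 2) (nat_lit 4) (nat_lit 545) (nat_lit 349) (nat_lit 306))) (XT.nd (nat_lit 78) (nat_lit 0) (nat_lit 0) (XT.lf (nat_lit 0)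 (nat_lit 332578541347) (nat_lit 76) (nat_lit 57382558483) (nat_lit 76) (nat_lit 57382558483) (nat_lit 1) (nat_lit 4) (nat_lit 2) (nat_lit 5) (nat_lit 2) (nat_lit 4) (nat_lit 500) (nat_lit 350) (nat_lit 350)) (XT.lf (nat_lit 0) (nat_lit 726792172118) (nat_lit 76) (nat_lit 119576856368) (nat_lit 76) (nat_lit 119568284270) (nat_lit 1) (nat_lit 4) (nat_lit 2) (nat_lit 5) (nat_lit 2) (nat_lit 4) (nat_lit 501) (nat_lit 350) (nat_lit 349)))))) (XT.nd (nat_lit 546) (nat_lit 0) (nat_lit 0) (XT.nd (nat_lit 234) (nat_lit 0) (nat_lit 0) (XT.nd (nat_lit 78) (nat_lit 0) (nat_lit 0) (XT.lf (nat_lit 0) (nat_lit 792947406543) (nat_lit 76) (nat_lit 124986128477) (nat_lit 76) (nat_lit 124969619252) (nat_lit 1) (nat_lit 4) (nat_lit 2) (nat_lit 5) (nat_lit 2) (nat_lit 4) (nat_lit 502) (nat_lit 350) (nat_lit 348)) (XT.nd (nat_lit 78) (nat_lit 0) (nat_lit 0) (XT.lf (nat_lit 0) (nat_lit 864014816987) (nat_lit 76)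 (nat_lit 131024988242) (nat_lit 76) (nat_lit 131001129824) (nat_lit 1) (nat_lit 4) (nat_lit 2) (nat_lit 5) (nat_lit 2) (nat_lit 4) (nat_lit 503) (nat_lit 350) (nat_lit 347)) (XT.lf (nat_lit 0) (nat_lit 940415543661) (nat_lit 76) (nat_lit 137729221497) (nat_lit 76) (nat_lit 137698558272) (nat_lit 1) (nat_lit 4) (nat_lit 2) (nat_lit 5) (nat_lit 2) (nat_lit 4) (nat_lit 504) (nat_lit 350) (nat_lit 346)))) (XT.nd (nat_lit 156) (nat_lit 0) (nat_lit 0) (XT.nd (nat_lit 78) (nat_lit 0) (nat_lit 0) (XT.lf (nat_lit 0) (nat_lit 1022602331612) (nat_lit 76) (nat_lit 145138557033) (nat_lit 76) (nat_lit 145101593060) (nat_lit 1) (nat_lit 4) (nat_lit 2) (nat_lit 5) (nat_lit 2) (nat_lit 4) (nat_lit 505) (nat_lit 350) (nat_lit 345)) (XT.lf (nat_lit 0) (nat_lit 1111062213657) (nat_lit 76) (nat_lit 153296902022) (nat_lit 76) (nat_lit 153254104024) (nat_lit 1) (nat_lit 4) (nat_lit 2) (nat_lit 5) (nat_lit 2) (nat_lit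 4) (nat_lit 506) (nat_lit 350) (nat_lit 344))) (XT.nd (nat_lit 78) (nat_lit 0) (nat_lit 0) (XT.lf (nat_lit 0) (nat_lit 1206319396505) (nat_lit 76) (nat_lit 162252602214) (nat_lit 76) (nat_lit 162204402340) (nat_lit 1) (nat_lit 4) (nat_lit 2) (nat_lit 5) (nat_lit 2) (nat_lit 4) (nat_lit 507) (nat_lit 350) (nat_lit 343)) (XT.lf (nat_lit 0) (nat_lit 1308938367165) (nat_lit 76) (nat_lit 172058728423) (nat_lit 76) (nat_lit 172005526813) (nat_lit 1) (nat_lit 4) (nat_lit 2) (nat_lit 5) (nat_lit 2) (nat_lit 4) (nat_lit 508) (nat_lit 350) (nat_lit 342))))) (XT.nd (nat_lit 234) (nat_lit 0) (nat_lit 0) (XT.nd (nat_lit 78) (nat_lit 0) (nat_lit 0) (XT.lf (nat_lit 0) (nat_lit 1419527238056) (nat_lit 76) (nat_lit 182773391028) (nat_lit 76) (nat_lit 182715558180) (nat_lit 1) (nat_lit 4) (nat_lit 2) (nat_lit 5) (nat_lit 2) (nat_lit 4) (nat_lit 509) (nat_lit 350) (nat_lit 341)) (XT.nd (nat_lit 78) (nat_lit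 0) (nat_lit 0) (XT.lf (nat_lit 0) (nat_lit 1538741350635) (nat_lit 76) (nat_lit 194460084326) (nat_lit 76) (nat_lit 194397963295) (nat_lit 1) (nat_lit 4) (nat_lit 2) (nat_lit 5) (nat_lit 2) (nat_lit 4) (nat_lit 510) (nat_lit 350) (nat_lit 340)) (XT.lf (nat_lit 0) (nat_lit 1667287158902) (nat_lit 76) (nat_lit 207188062794) (nat_lit 76) (nat_lit 207121971224) (nat_lit 1) (nat_lit 4) (nat_lit 2) (nat_lit 5) (nat_lit 2) (nat_lit 4) (nat_lit 511) (nat_lit 350) (nat_lit 339)))) (XT.nd (nat_lit 156) (nat_lit 0) (nat_lit 0) (XT.nd (nat_lit 78) (nat_lit 0) (nat_lit 0) (XT.lf (nat_lit 0) (nat_lit 1805926415796) (nat_lit 76) (nat_lit 221032751492) (nat_lit 76) (nat_lit 220962983495) (nat_lit 1) (nat_lit 4) (nat_lit 2) (nat_lit 5) (nat_lit 2) (nat_lit 4) (nat_lit 512) (nat_lit 350) (nat_lit 338)) (XT.lf (nat_lit 0) (nat_lit 1955480687284) (nat_lit 76) (nat_lit 236076193018) (nat_lit 76) (nat_lit 236003020923)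 (nat_lit 1) (nat_lit 4) (nat_lit 2) (nat_lit 5) (nat_lit 2) (nat_lit 4) (nat_lit 513) (nat_lit 350) (nat_lit 337))) (XT.nd (nat_lit 78) (nat_lit 0) (nat_lit 0) (XT.lf (nat_lit 0) (nat_lit 2116836220899) (nat_lit 76) (nat_lit 252407533692) (nat_lit 76) (nat_lit 252331209655) (nat_lit 1) (nat_lit 4) (nat_lit 2) (nat_lit 5) (nat_lit 2) (nat_lit 4) (nat_lit 514) (nat_lit 350) (nat_lit 336)) (XT.lf (nat_lit 0) (nat_lit 2290949197582) (nat_lit 76) (nat_lit 270123551831) (nat_lit 76) (nat_lit 270044309328) (nat_lit 1) (nat_lit 4) (nat_lit 2) (nat_lit 5) (nat_lit 2) (nat_lit 4) (nat_lit 515) (nat_lit 350) (nat_lit 335))))))) (XT.nd (nat_lit 1092) (nat_lit 0) (nat_lit 0) (XT.nd (nat_lit 546) (nat_lit 0) (nat_lit 0) (XT.nd (nat_lit 234) (nat_lit 0) (nat_lit 0) (XT.nd (nat_lit 78) (nat_lit 0) (nat_lit 0) (XT.lf (nat_lit 0) (nat_lit 2478851397935) (nat_lit 76) (nat_lit 289329231244) (nat_lit 76) (nat_lit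 289247286459) (nat_lit 1) (nat_lit 4) (nat_lit 2) (nat_lit 5) (nat_lit 2) (nat_lit 4) (nat_lit 516) (nat_lit 350) (nat_lit 334)) (XT.nd (nat_lit 78) (nat_lit 0) (nat_lit 0) (XT.lf (nat_lit 0) (nat_lit 2681656316480) (nat_lit 76) (nat_lit 310138383366) (nat_lit 76) (nat_lit 310053936467) (nat_lit 1) (nat_lit 4) (nat_lit 2) (nat_lit 5) (nat_lit 2) (nat_lit 4) (nat_lit 517) (nat_lit 350) (nat_lit 333)) (XT.lf (nat_lit 0) (nat_lit 2900565760140) (nat_lit 76) (nat_lit 332674321690) (nat_lit 76) (nat_lit 332587558020) (nat_lit 1) (nat_lit 4) (nat_lit 2) (nat_lit 5) (nat_lit 2) (nat_lit 4) (nat_lit 518) (nat_lit 350) (nat_lit 332)))) (XT.nd (nat_lit 156) (nat_lit 0) (nat_lit 0) (XT.nd (nat_lit 78) (nat_lit 0) (nat_lit 0) (XT.lf (nat_lit 0) (nat_lit 3136876970064) (nat_lit 76) (nat_lit 357070592518) (nat_lit 76) (nat_lit 356981683689) (nat_lit 1) (nat_lit 4) (nat_lit 2) (nat_lit 5) (nat_lit 2) (nat_lit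 4) (nat_lit 519) (nat_lit 350) (nat_lit 331)) (XT.lf (nat_lit 0) (nat_lit 3391990308976) (nat_lit 76) (nat_lit 383471766344) (nat_lit 76) (nat_lit 383380871256) (nat_lit 1) (nat_lit 4) (nat_lit 2) (nat_lit 5) (nat_lit 2) (nat_lit 4) (nat_lit 520) (nat_lit 350) (nat_lit 330))) (XT.nd (nat_lit 78) (nat_lit 0) (nat_lit 0) (XT.lf (nat_lit 0) (nat_lit 3667417559627) (nat_lit 76) (nat_lit 412034294567) (nat_lit 76) (nat_lit 411941560351) (nat_lit 1) (nat_lit 4) (nat_lit 2) (nat_lit 5) (nat_lit 2) (nat_lit 4) (nat_lit 521) (nat_lit 350) (nat_lit 329)) (XT.lf (nat_lit 0) (nat_lit 3964790883500) (nat_lit 76) (nat_lit 442927436615) (nat_lit 76) (nat_lit 442832999503) (nat_lit 1) (nat_lit 4) (nat_lit 2) (nat_lit 5) (nat_lit 2) (nat_lit 4) (nat_lit 522) (nat_lit 350) (nat_lit 328))))) (XT.nd (nat_lit 234) (nat_lit 0) (nat_lit 0) (XT.nd (nat_lit 78) (nat_lit 0) (nat_lit 0) (XT.lf (nat_lit 0) (nat_lit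 4285872492887) (nat_lit 76) (nat_lit 476334262959) (nat_lit 76) (nat_lit 476238249091) (nat_lit 1) (nat_lit 4) (nat_lit 2) (nat_lit 5) (nat_lit 2) (nat_lit 4) (nat_lit 523) (nat_lit 350) (nat_lit 327)) (XT.nd (nat_lit 78) (nat_lit 0) (nat_lit 0) (XT.lf (nat_lit 0) (nat_lit 4632565093620) (nat_lit 76) (nat_lit 512452739977) (nat_lit 76) (nat_lit 512355266150) (nat_lit 1) (nat_lit 4) (nat_lit 2) (nat_lit 5) (nat_lit 2) (nat_lit 4) (nat_lit 524) (nat_lit 350) (nat_lit 326)) (XT.lf (nat_lit 0) (nat_lit 5006923160370) (nat_lit 76) (nat_lit 551496903089) (nat_lit 76) (nat_lit 551398077447) (nat_lit 1) (nat_lit 4) (nat_lit 2) (nat_lit 5) (nat_lit 2) (nat_lit 4) (nat_lit 525) (nat_lit 350) (nat_lit 325)))) (XT.nd (nat_lit 156) (nat_lit 0) (nat_lit 0) (XT.nd (nat_lit 78) (nat_lit 0) (nat_lit 0) (XT.lf (nat_lit 0) (nat_lit 5411165111311) (nat_lit 76) (nat_lit 593698125113) (nat_lit 76) (nat_lit 593598047791)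 (nat_lit 1) (nat_lit 4) (nat_lit 2) (nat_lit 5) (nat_lit 2) (nat_lit 4) (nat_lit 526) (nat_lit 350) (nat_lit 324)) (XT.lf (nat_lit 0) (nat_lit 5847686454301) (nat_lit 76) (nat_lit 639306487364) (nat_lit 76) (nat_lit 639205251080) (nat_lit 1) (nat_lit 4) (nat_lit 2) (nat_lit 5) (nat_lit 2) (nat_lit 4) (nat_lit 527) (nat_lit 350) (nat_lit 323))) (XT.nd (nat_lit 78) (nat_lit 0) (nat_lit 0) (XT.lf (nat_lit 0) (nat_lit 6319073982481) (nat_lit 76) (nat_lit 688592261620) (nat_lit 76) (nat_lit 688489952222) (nat_lit 1) (nat_lit 4) (nat_lit 2) (nat_lit 5) (nat_lit 2) (nat_lit 4) (nat_lit 528) (nat_lit 350) (nat_lit 322)) (XT.lf (nat_lit 0) (nat_lit 6828121103428) (nat_lit 76) (nat_lit 741847511727) (nat_lit 76) (nat_lit 741744208705) (nat_lit 1) (nat_lit 4) (nat_lit 2) (nat_lit 5) (nat_lit 2) (nat_lit 4) (nat_lit 529) (nat_lit 350) (nat_lit 321)))))) (XT.nd (nat_lit 546) (nat_lit 0) (nat_lit 0) (XT.nd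 (nat_lit 234) (nat_lit 0) (nat_lit 0) (XT.nd (nat_lit 78) (nat_lit 0) (nat_lit 0) (XT.lf (nat_lit 0) (nat_lit 7377844392673) (nat_lit 76) (nat_lit 799387824353) (nat_lit 76) (nat_lit 799283601309) (nat_lit 1) (nat_lit 4) (nat_lit 2) (nat_lit 5) (nat_lit 2) (nat_lit 4) (nat_lit 530) (nat_lit 350) (nat_lit 320)) (XT.nd (nat_lit 78) (nat_lit 0) (nat_lit 0) (XT.lf (nat_lit 0) (nat_lit 7971501469707) (nat_lit 76) (nat_lit 861554179128) (nat_lit 76) (nat_lit 861449104212) (nat_lit 1) (nat_lit 4) (nat_lit 2) (nat_lit 5) (nat_lit 2) (nat_lit 4) (nat_lit 531) (nat_lit 350) (nat_lit 319)) (XT.lf (nat_lit 0) (nat_lit 8612610302395) (nat_lit 76) (nat_lit 928714969265) (nat_lit 76) (nat_lit 928609105579) (nat_lit 1) (nat_lit 4) (nat_lit 2) (nat_lit 5) (nat_lit 2) (nat_lit 4) (nat_lit 532) (nat_lit 350) (nat_lit 318)))) (XT.nd (nat_lit 156) (nat_lit 0) (nat_lit 0) (XT.nd (nat_lit 78) (nat_lit 0) (nat_lit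 0) (XT.lf (nat_lit 0) (nat_lit 9304970054189) (nat_lit 76) (nat_lit 1001268184633) (nat_lit 76) (nat_lit 1001161590603) (nat_lit 1) (nat_lit 4) (nat_lit 2) (nat_lit 5) (nat_lit 2) (nat_lit 4) (nat_lit 533) (nat_lit 350) (nat_lit 317)) (XT.lf (nat_lit 0) (nat_lit 10052683597692) (nat_lit 76) (nat_lit 1079643770211) (nat_lit 76) (nat_lit 1079536499937) (nat_lit 1) (nat_lit 4) (nat_lit 2) (nat_lit 5) (nat_lit 2) (nat_lit 4) (nat_lit 534) (nat_lit 350) (nat_lit 316))) (XT.nd (nat_lit 78) (nat_lit 0) (nat_lit 0) (XT.lf (nat_lit 0) (nat_lit 10860181827978) (nat_lit 76) (nat_lit 1164306173913) (nat_lit 76) (nat_lit 1164198277488) (nat_lit 1) (nat_lit 4) (nat_lit 2) (nat_lit 5) (nat_lit 2) (nat_lit 4) (nat_lit 535) (nat_lit 350) (nat_lit 315)) (XT.lf (nat_lit 0) (nat_lit 11732249919744) (nat_lit 76) (nat_lit 1255757098873) (nat_lit 76) (nat_lit 1255648622678) (nat_lit 1) (nat_lit 4) (nat_lit 2)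 (nat_lit 5) (nat_lit 2) (nat_lit 4) (nat_lit 536) (nat_lit 350) (nat_lit 314))))) (XT.nd (nat_lit 312) (nat_lit 0) (nat_lit 0) (XT.nd (nat_lit 156) (nat_lit 0) (nat_lit 0) (XT.nd (nat_lit 78) (nat_lit 0) (nat_lit 0) (XT.lf (nat_lit 0) (nat_lit 12674055683904) (nat_lit 76) (nat_lit 1354538476498) (nat_lit 76) (nat_lit 1354429463479) (nat_lit 1) (nat_lit 4) (nat_lit 2) (nat_lit 5) (nat_lit 2) (nat_lit 4) (nat_lit 537) (nat_lit 350) (nat_lit 313)) (XT.lf (nat_lit 0) (nat_lit 13691180191654) (nat_lit 76) (nat_lit 1461235677914) (nat_lit 76) (nat_lit 1461126167836) (nat_lit 1) (nat_lit 4) (nat_lit 2) (nat_lit 5) (nat_lit 2) (nat_lit 4) (nat_lit 538) (nat_lit 350) (nat_lit 312))) (XT.nd (nat_lit 78) (nat_lit 0) (nat_lit 0) (XT.lf (nat_lit 0) (nat_lit 14789650847483) (nat_lit 76) (nat_lit 1576480982834) (nat_lit 76) (nat_lit 1576371012516) (nat_lit 1) (nat_lit 4) (nat_lit 2) (nat_lit 5) (nat_lit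 2) (nat_lit 4) (nat_lit 539) (nat_lit 350) (nat_lit 311)) (XT.lf (nat_lit 0) (nat_lit 15975977107131) (nat_lit 76) (nat_lit 1700957326398) (nat_lit 76) (nat_lit 1700846929932) (nat_lit 1) (nat_lit 4) (nat_lit 2) (nat_lit 5) (nat_lit 2) (nat_lit 4) (nat_lit 540) (nat_lit 350) (nat_lit 310)))) (XT.nd (nat_lit 156) (nat_lit 0) (nat_lit 0) (XT.nd (nat_lit 78) (nat_lit 0) (nat_lit 0) (XT.lf (nat_lit 0) (nat_lit 17257189052135) (nat_lit 76) (nat_lit 1835402346197) (nat_lit 76) (nat_lit 1835291555149) (nat_lit 1) (nat_lit 4) (nat_lit 2) (nat_lit 5) (nat_lit 2) (nat_lit 4) (nat_lit 541) (nat_lit 350) (nat_lit 309)) (XT.lf (nat_lit 0) (nat_lit 18640879049577) (nat_lit 76) (nat_lit 1980612753460) (nat_lit 76) (nat_lit 1980501597059) (nat_lit 1) (nat_lit 4) (nat_lit 2) (nat_lit 5) (nat_lit 2) (nat_lit 4) (nat_lit 542) (nat_lit 350) (nat_lit 308))) (XT.nd (nat_lit 78) (nat_lit 0) (nat_lit 0) (XT.lf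 (nat_lit 0) (nat_lit 20135246743887) (nat_lit 76) (nat_lit 2137449054303) (nat_lit 76) (nat_lit 2137337559612) (nat_lit 1) (nat_lit 4) (nat_lit 2) (nat_lit 5) (nat_lit 2) (nat_lit 4) (nat_lit 543) (nat_lit 350) (nat_lit 307)) (XT.lf (nat_lit 0) (nat_lit 21749147647327) (nat_lit 76) (nat_lit 2306840649029) (nat_lit 76) (nat_lit 2306728841106) (nat_lit 1) (nat_lit 4) (nat_lit 2) (nat_lit 5) (nat_lit 2) (nat_lit 4) (nat_lit 544) (nat_lit 350) (nat_lit 306))))))))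
noncomputable def xc10 : XT := (XT.nd (nat_lit 60918) (nat_lit 0) (nat_lit 0) (XT.nd (nat_lit 59826) (nat_lit 0) (nat_lit 0) (XT.nd (nat_lit 59280) (nat_lit 0) (nat_lit 0) (XT.nd (nat_lit 58968) (nat_lit 0) (nat_lit 0) (XT.nd (nat_lit 58812) (nat_lit 0) (nat_lit 0) (XT.lf (nat_lit 0) (nat_lit 23492145617102) (nat_lit 76) (nat_lit 2489791339680) (nat_lit 76) (nat_lit 2489679241728) (nat_lit 1) (nat_lit 4) (nat_lit 2) (nat_lit 5) (nat_lit 2) (nat_lit 4) (nat_lit 545) (nat_lit 350) (nat_lit 305)) (XT.nd (nat_lit 78) (nat_lit 0) (nat_lit 0) (XT.lf (nat_lit 0) (nat_lit 277120633642) (nat_lit 76) (nat_lit 53356797076) (nat_lit 76) (nat_lit 53356797076) (nat_lit 1) (nat_lit 4) (nat_lit 2) (nat_lit 5) (nat_lit 2) (nat_lit 4) (nat_lit 498) (nat_lit 351) (nat_lit 351)) (XT.lf (nat_lit 0) (nat_lit 607676893299) (nat_lit 76) (nat_lit 110531654130) (nat_lit 76) (nat_lit 110522396265) (nat_lit 1) (nat_lit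 4) (nat_lit 2) (nat_lit 5) (nat_lit 2) (nat_lit 4) (nat_lit 499) (nat_lit 351) (nat_lit 350)))) (XT.nd (nat_lit 156) (nat_lit 0) (nat_lit 0) (XT.nd (nat_lit 78) (nat_lit 0) (nat_lit 0) (XT.lf (nat_lit 0) (nat_lit 664943854270) (nat_lit 76) (nat_lit 114884759949) (nat_lit 76) (nat_lit 114866929986) (nat_lit 1) (nat_lit 4) (nat_lit 2) (nat_lit 5) (nat_lit 2) (nat_lit 4) (nat_lit 500) (nat_lit 351) (nat_lit 349)) (XT.lf (nat_lit 0) (nat_lit 726381509966) (nat_lit 76) (nat_lit 119798707790) (nat_lit 76) (nat_lit 119772940700) (nat_lit 1) (nat_lit 4) (nat_lit 2) (nat_lit 5) (nat_lit 2) (nat_lit 4) (nat_lit 501) (nat_lit 351) (nat_lit 348))) (XT.nd (nat_lit 78) (nat_lit 0) (nat_lit 0) (XT.lf (nat_lit 0) (nat_lit 792353935383) (nat_lit 76) (nat_lit 125302617345) (nat_lit 76) (nat_lit 125269501062) (nat_lit 1) (nat_lit 4) (nat_lit 2) (nat_lit 5) (nat_lit 2) (nat_lit 4) (nat_lit 502) (nat_lit 351)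 (nat_lit 347)) (XT.lf (nat_lit 0) (nat_lit 863252078228) (nat_lit 76) (nat_lit 131429104374) (nat_lit 76) (nat_lit 131389183284) (nat_lit 1) (nat_lit 4) (nat_lit 2) (nat_lit 5) (nat_lit 2) (nat_lit 4) (nat_lit 503) (nat_lit 351) (nat_lit 346))))) (XT.nd (nat_lit 234) (nat_lit 0) (nat_lit 0) (XT.nd (nat_lit 78) (nat_lit 0) (nat_lit 0) (XT.lf (nat_lit 0) (nat_lit 939496075644) (nat_lit 76) (nat_lit 138214473985) (nat_lit 76) (nat_lit 138168252147) (nat_lit 1) (nat_lit 4) (nat_lit 2) (nat_lit 5) (nat_lit 2) (nat_lit 4) (nat_lit 504) (nat_lit 351) (nat_lit 345)) (XT.nd (nat_lit 78) (nat_lit 0) (nat_lit 0) (XT.lf (nat_lit 0) (nat_lit 1021537743911) (nat_lit 76) (nat_lit 145698935776) (nat_lit 76) (nat_lit 145646879912) (nat_lit 1) (nat_lit 4) (nat_lit 2) (nat_lit 5) (nat_lit 2) (nat_lit 4) (nat_lit 505) (nat_lit 351) (nat_lit 344)) (XT.lf (nat_lit 0) (nat_lit 1109863255879) (nat_lit 76) (nat_lit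 153926842113) (nat_lit 76) (nat_lit 153869384374) (nat_lit 1) (nat_lit 4) (nat_lit 2) (nat_lit 5) (nat_lit 2) (nat_lit 4) (nat_lit 506) (nat_lit 351) (nat_lit 343)))) (XT.nd (nat_lit 156) (nat_lit 0) (nat_lit 0) (XT.nd (nat_lit 78) (nat_lit 0) (nat_lit 0) (XT.lf (nat_lit 0) (nat_lit 1204996021989) (nat_lit 76) (nat_lit 162946950960) (nat_lit 76) (nat_lit 162884491484) (nat_lit 1) (nat_lit 4) (nat_lit 2) (nat_lit 5) (nat_lit 2) (nat_lit 4) (nat_lit 507) (nat_lit 351) (nat_lit 342)) (XT.lf (nat_lit 0) (nat_lit 1307499791965) (nat_lit 76) (nat_lit 172812714813) (nat_lit 76) (nat_lit 172745624099) (nat_lit 1) (nat_lit 4) (nat_lit 2) (nat_lit 5) (nat_lit 2) (nat_lit 4) (nat_lit 508) (nat_lit 351) (nat_lit 341))) (XT.nd (nat_lit 78) (nat_lit 0) (nat_lit 0) (XT.lf (nat_lit 0) (nat_lit 1417981995557) (nat_lit 76) (nat_lit 183582597458) (nat_lit 76) (nat_lit 183511218562) (nat_lit 1) (nat_lit 4)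 (nat_lit 2) (nat_lit 5) (nat_lit 2) (nat_lit 4) (nat_lit 509) (nat_lit 351) (nat_lit 340)) (XT.lf (nat_lit 0) (nat_lit 1537097342118) (nat_lit 76) (nat_lit 195320420423) (nat_lit 76) (nat_lit 195245070986) (nat_lit 1) (nat_lit 4) (nat_lit 2) (nat_lit 5) (nat_lit 2) (nat_lit 4) (nat_lit 510) (nat_lit 351) (nat_lit 339)))))) (XT.nd (nat_lit 546) (nat_lit 0) (nat_lit 0) (XT.nd (nat_lit 234) (nat_lit 0) (nat_lit 0) (XT.nd (nat_lit 78) (nat_lit 0) (nat_lit 0) (XT.lf (nat_lit 0) (nat_lit 1665551700368) (nat_lit 76) (nat_lit 208095741176) (nat_lit 76) (nat_lit 208016715314) (nat_lit 1) (nat_lit 4) (nat_lit 2) (nat_lit 5) (nat_lit 2) (nat_lit 4) (nat_lit 511) (nat_lit 351) (nat_lit 338)) (XT.nd (nat_lit 78) (nat_lit 0) (nat_lit 0) (XT.lf (nat_lit 0) (nat_lit 1804106281321) (nat_lit 76) (nat_lit 221984265321) (nat_lit 76) (nat_lit 221901835362) (nat_lit 1) (nat_lit 4) (nat_lit 2) (nat_lit 5) (nat_lit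 2) (nat_lit 4) (nat_lit 512) (nat_lit 351) (nat_lit 337)) (XT.lf (nat_lit 0) (nat_lit 1953582149158) (nat_lit 76) (nat_lit 237068295226) (nat_lit 76) (nat_lit 236982713323) (nat_lit 1) (nat_lit 4) (nat_lit 2) (nat_lit 5) (nat_lit 2) (nat_lit 4) (nat_lit 513) (nat_lit 351) (nat_lit 336)))) (XT.nd (nat_lit 156) (nat_lit 0) (nat_lit 0) (XT.nd (nat_lit 78) (nat_lit 0) (nat_lit 0) (XT.lf (nat_lit 0) (nat_lit 2114865086802) (nat_lit 76) (nat_lit 253437217732) (nat_lit 76) (nat_lit 253348717364) (nat_lit 1) (nat_lit 4) (nat_lit 2) (nat_lit 5) (nat_lit 2) (nat_lit 4) (nat_lit 514) (nat_lit 351) (nat_lit 335)) (XT.lf (nat_lit 0) (nat_lit 2288910844992) (nat_lit 76) (nat_lit 271188033862) (nat_lit 76) (nat_lit 271096831212) (nat_lit 1) (nat_lit 4) (nat_lit 2) (nat_lit 5) (nat_lit 2) (nat_lit 4) (nat_lit 515) (nat_lit 351) (nat_lit 334))) (XT.nd (nat_lit 78) (nat_lit 0) (nat_lit 0) (XT.lf (nat_lit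 0) (nat_lit 2476750806001) (nat_lit 76) (nat_lit 290425933639) (nat_lit 76) (nat_lit 290332228875) (nat_lit 1) (nat_lit 4) (nat_lit 2) (nat_lit 5) (nat_lit 2) (nat_lit 4) (nat_lit 516) (nat_lit 351) (nat_lit 333)) (XT.lf (nat_lit 0) (nat_lit 2679498095523) (nat_lit 76) (nat_lit 311264919430) (nat_lit 76) (nat_lit 311168897894) (nat_lit 1) (nat_lit 4) (nat_lit 2) (nat_lit 5) (nat_lit 2) (nat_lit 4) (nat_lit 517) (nat_lit 351) (nat_lit 332))))) (XT.nd (nat_lit 234) (nat_lit 0) (nat_lit 0) (XT.nd (nat_lit 78) (nat_lit 0) (nat_lit 0) (XT.lf (nat_lit 0) (nat_lit 2898354178976) (nat_lit 76) (nat_lit 333828481523) (nat_lit 76) (nat_lit 333730314828) (nat_lit 1) (nat_lit 4) (nat_lit 2) (nat_lit 5) (nat_lit 2) (nat_lit 4) (nat_lit 518) (nat_lit 351) (nat_lit 331)) (XT.nd (nat_lit 78) (nat_lit 0) (nat_lit 0) (XT.lf (nat_lit 0) (nat_lit 3134615981302) (nat_lit 76) (nat_lit 358250329914) (nat_lit 76)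 (nat_lit 358150176960) (nat_lit 1) (nat_lit 4) (nat_lit 2) (nat_lit 5) (nat_lit 2) (nat_lit 4) (nat_lit 519) (nat_lit 351) (nat_lit 330)) (XT.lf (nat_lit 0) (nat_lit 3389683572438) (nat_lit 76) (nat_lit 384675186668) (nat_lit 76) (nat_lit 384573194587) (nat_lit 1) (nat_lit 4) (nat_lit 2) (nat_lit 5) (nat_lit 2) (nat_lit 4) (nat_lit 520) (nat_lit 351) (nat_lit 329)))) (XT.nd (nat_lit 156) (nat_lit 0) (nat_lit 0) (XT.nd (nat_lit 78) (nat_lit 0) (nat_lit 0) (XT.lf (nat_lit 0) (nat_lit 3665068464036) (nat_lit 76) (nat_lit 413259643530) (nat_lit 76) (nat_lit 413155948551) (nat_lit 1) (nat_lit 4) (nat_lit 2) (nat_lit 5) (nat_lit 2) (nat_lit 4) (nat_lit 521) (nat_lit 351) (nat_lit 328)) (XT.lf (nat_lit 0) (nat_lit 3962402566565) (nat_lit 76) (nat_lit 444173089872) (nat_lit 76) (nat_lit 444067818138) (nat_lit 1) (nat_lit 4) (nat_lit 2) (nat_lit 5) (nat_lit 2) (nat_lit 4) (nat_lit 522) (nat_lit 351)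 (nat_lit 327))) (XT.nd (nat_lit 78) (nat_lit 0) (nat_lit 0) (XT.lf (nat_lit 0) (nat_lit 4283447859892) (nat_lit 76) (nat_lit 477598716488) (nat_lit 76) (nat_lit 477491984795) (nat_lit 1) (nat_lit 4) (nat_lit 2) (nat_lit 5) (nat_lit 2) (nat_lit 4) (nat_lit 523) (nat_lit 351) (nat_lit 326)) (XT.lf (nat_lit 0) (nat_lit 4630106834643) (nat_lit 76) (nat_lit 513734601166) (nat_lit 76) (nat_lit 513626517659) (nat_lit 1) (nat_lit 4) (nat_lit 2) (nat_lit 5) (nat_lit 2) (nat_lit 4) (nat_lit 524) (nat_lit 351) (nat_lit 325))))))) (XT.nd (nat_lit 1092) (nat_lit 0) (nat_lit 0) (XT.nd (nat_lit 546) (nat_lit 0) (nat_lit 0) (XT.nd (nat_lit 234) (nat_lit 0) (nat_lit 0) (XT.nd (nat_lit 78) (nat_lit 0) (nat_lit 0) (XT.lf (nat_lit 0) (nat_lit 5004433766226) (nat_lit 76) (nat_lit 552794882481) (nat_lit 76) (nat_lit 552685547294) (nat_lit 1) (nat_lit 4) (nat_lit 2) (nat_lit 5) (nat_lit 2) (nat_lit 4) (nat_lit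 525) (nat_lit 351) (nat_lit 324)) (XT.nd (nat_lit 78) (nat_lit 0) (nat_lit 0) (XT.lf (nat_lit 0) (nat_lit 5408646888307) (nat_lit 76) (nat_lit 595011028768) (nat_lit 76) (nat_lit 594900534618) (nat_lit 1) (nat_lit 4) (nat_lit 2) (nat_lit 5) (nat_lit 2) (nat_lit 4) (nat_lit 526) (nat_lit 351) (nat_lit 323)) (XT.lf (nat_lit 0) (nat_lit 5845141537908) (nat_lit 76) (nat_lit 640633209781) (nat_lit 76) (nat_lit 640521642517) (nat_lit 1) (nat_lit 4) (nat_lit 2) (nat_lit 5) (nat_lit 2) (nat_lit 4) (nat_lit 527) (nat_lit 351) (nat_lit 322)))) (XT.nd (nat_lit 156) (nat_lit 0) (nat_lit 0) (XT.nd (nat_lit 78) (nat_lit 0) (nat_lit 0) (XT.lf (nat_lit 0) (nat_lit 6316504349989) (nat_lit 76) (nat_lit 689931779186) (nat_lit 76) (nat_lit 689819218298) (nat_lit 1) (nat_lit 4) (nat_lit 2) (nat_lit 5) (nat_lit 2) (nat_lit 4) (nat_lit 528) (nat_lit 351) (nat_lit 321)) (XT.lf (nat_lit 0) (nat_lit 6825528585658)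 (nat_lit 76) (nat_lit 743198876653) (nat_lit 76) (nat_lit 743085395744) (nat_lit 1) (nat_lit 4) (nat_lit 2) (nat_lit 5) (nat_lit 2) (nat_lit 4) (nat_lit 529) (nat_lit 351) (nat_lit 320))) (XT.nd (nat_lit 78) (nat_lit 0) (nat_lit 0) (XT.lf (nat_lit 0) (nat_lit 7375230684831) (nat_lit 76) (nat_lit 800750159057) (nat_lit 76) (nat_lit 800635826276) (nat_lit 1) (nat_lit 4) (nat_lit 2) (nat_lit 5) (nat_lit 2) (nat_lit 4) (nat_lit 530) (nat_lit 351) (nat_lit 319)) (XT.lf (nat_lit 0) (nat_lit 7968868141428) (nat_lit 76) (nat_lit 862926671035) (nat_lit 76) (nat_lit 862811549483) (nat_lit 1) (nat_lit 4) (nat_lit 2) (nat_lit 5) (nat_lit 2) (nat_lit 4) (nat_lit 531) (nat_lit 351) (nat_lit 318))))) (XT.nd (nat_lit 234) (nat_lit 0) (nat_lit 0) (XT.nd (nat_lit 78) (nat_lit 0) (nat_lit 0) (XT.lf (nat_lit 0) (nat_lit 8609958807044) (nat_lit 76) (nat_lit 930096865989) (nat_lit 76) (nat_lit 929981014094) (nat_lit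 1) (nat_lit 4) (nat_lit 2) (nat_lit 5) (nat_lit 2) (nat_lit 4) (nat_lit 532) (nat_lit 351) (nat_lit 317)) (XT.nd (nat_lit 78) (nat_lit 0) (nat_lit 0) (XT.lf (nat_lit 0) (nat_lit 9302301737475) (nat_lit 76) (nat_lit 1002658789521) (nat_lit 76) (nat_lit 1002542261382) (nat_lit 1) (nat_lit 4) (nat_lit 2) (nat_lit 5) (nat_lit 2) (nat_lit 4) (nat_lit 533) (nat_lit 351) (nat_lit 316)) (XT.lf (nat_lit 0) (nat_lit 10049999705643) (nat_lit 76) (nat_lit 1081042438213) (nat_lit 76) (nat_lit 1080925283923) (nat_lit 1) (nat_lit 4) (nat_lit 2) (nat_lit 5) (nat_lit 2) (nat_lit 4) (nat_lit 534) (nat_lit 351) (nat_lit 315)))) (XT.nd (nat_lit 156) (nat_lit 0) (nat_lit 0) (XT.nd (nat_lit 78) (nat_lit 0) (nat_lit 0) (XT.lf (nat_lit 0) (nat_lit 10857483514322) (nat_lit 76) (nat_lit 1165712307762) (nat_lit 76) (nat_lit 1165594573702) (nat_lit 1) (nat_lit 4) (nat_lit 2) (nat_lit 5) (nat_lit 2) (nat_lit 4) (nat_lit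 535) (nat_lit 351) (nat_lit 314)) (XT.lf (nat_lit 0) (nat_lit 11729538252748) (nat_lit 76) (nat_lit 1257170145543) (nat_lit 76) (nat_lit 1257051874659) (nat_lit 1) (nat_lit 4) (nat_lit 2) (nat_lit 5) (nat_lit 2) (nat_lit 4) (nat_lit 536) (nat_lit 351) (nat_lit 313))) (XT.nd (nat_lit 78) (nat_lit 0) (nat_lit 0) (XT.lf (nat_lit 0) (nat_lit 12671331652705) (nat_lit 76) (nat_lit 1355957923928) (nat_lit 76) (nat_lit 1355839155985) (nat_lit 1) (nat_lit 4) (nat_lit 2) (nat_lit 5) (nat_lit 2) (nat_lit 4) (nat_lit 537) (nat_lit 351) (nat_lit 312)) (XT.lf (nat_lit 0) (nat_lit 13688444712118) (nat_lit 76) (nat_lit 1462661051975) (nat_lit 76) (nat_lit 1462541823791) (nat_lit 1) (nat_lit 4) (nat_lit 2) (nat_lit 5) (nat_lit 2) (nat_lit 4) (nat_lit 538) (nat_lit 351) (nat_lit 311)))))) (XT.nd (nat_lit 59124) (nat_lit 0) (nat_lit 0) (XT.nd (nat_lit 234) (nat_lit 0) (nat_lit 0) (XT.nd (nat_lit 78) (nat_lit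 0) (nat_lit 0) (XT.lf (nat_lit 0) (nat_lit 14786904767635) (nat_lit 76) (nat_lit 1577911844515) (nat_lit 76) (nat_lit 1577792190183) (nat_lit 1) (nat_lit 4) (nat_lit 2) (nat_lit 5) (nat_lit 2) (nat_lit 4) (nat_lit 539) (nat_lit 351) (nat_lit 310)) (XT.nd (nat_lit 78) (nat_lit 0) (nat_lit 0) (XT.lf (nat_lit 0) (nat_lit 15973221212179) (nat_lit 76) (nat_lit 1702393269209) (nat_lit 76) (nat_lit 1702273220295) (nat_lit 1) (nat_lit 4) (nat_lit 2) (nat_lit 5) (nat_lit 2) (nat_lit 4) (nat_lit 540) (nat_lit 351) (nat_lit 309)) (XT.lf (nat_lit 0) (nat_lit 17254424069125) (nat_lit 76) (nat_lit 1836842993758) (nat_lit 76) (nat_lit 1836722579491) (nat_lit 1) (nat_lit 4) (nat_lit 2) (nat_lit 5) (nat_lit 2) (nat_lit 4) (nat_lit 541) (nat_lit 351) (nat_lit 308)))) (XT.nd (nat_lit 156) (nat_lit 0) (nat_lit 0) (XT.nd (nat_lit 78) (nat_lit 0) (nat_lit 0) (XT.lf (nat_lit 0) (nat_lit 18638105651698) (nat_lit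 76) (nat_lit 1982057757270) (nat_lit 76) (nat_lit 1981937004713) (nat_lit 1) (nat_lit 4) (nat_lit 2) (nat_lit 5) (nat_lit 2) (nat_lit 4) (nat_lit 542) (nat_lit 351) (nat_lit 307)) (XT.lf (nat_lit 0) (nat_lit 20132465554462) (nat_lit 76) (nat_lit 2138898091679) (nat_lit 76) (nat_lit 2138777025890) (nat_lit 1) (nat_lit 4) (nat_lit 2) (nat_lit 5) (nat_lit 2) (nat_lit 4) (nat_lit 543) (nat_lit 351) (nat_lit 306))) (XT.nd (nat_lit 78) (nat_lit 0) (nat_lit 0) (XT.lf (nat_lit 0) (nat_lit 21746359243508) (nat_lit 76) (nat_lit 2308293421187) (nat_lit 76) (nat_lit 2308172065369) (nat_lit 1) (nat_lit 4) (nat_lit 2) (nat_lit 5) (nat_lit 2) (nat_lit 4) (nat_lit 544) (nat_lit 351) (nat_lit 305)) (XT.lf (nat_lit 0) (nat_lit 23489350533289) (nat_lit 76) (nat_lit 2491247569969) (nat_lit 76) (nat_lit 2491125945606) (nat_lit 1) (nat_lit 4) (nat_lit 2) (nat_lit 5) (nat_lit 2) (nat_lit 4) (nat_lit 545) (nat_lit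 351) (nat_lit 304))))) (XT.nd (nat_lit 312) (nat_lit 0) (nat_lit 0) (XT.nd (nat_lit 156) (nat_lit 0) (nat_lit 0) (XT.nd (nat_lit 78) (nat_lit 0) (nat_lit 0) (XT.lf (nat_lit 0) (nat_lit 228933467620) (nat_lit 76) (nat_lit 50238195706) (nat_lit 76) (nat_lit 50238195706) (nat_lit 1) (nat_lit 4) (nat_lit 2) (nat_lit 5) (nat_lit 2) (nat_lit 4) (nat_lit 496) (nat_lit 352) (nat_lit 352)) (XT.lf (nat_lit 0) (nat_lit 504320320663) (nat_lit 76) (nat_lit 103417952968) (nat_lit 76) (nat_lit 103407954473) (nat_lit 1) (nat_lit 4) (nat_lit 2) (nat_lit 5) (nat_lit 2) (nat_lit 4) (nat_lit 497) (nat_lit 352) (nat_lit 351))) (XT.nd (nat_lit 78) (nat_lit 0) (nat_lit 0) (XT.lf (nat_lit 0) (nat_lit 554010980584) (nat_lit 76) (nat_lit 106842808572) (nat_lit 76) (nat_lit 106823552212) (nat_lit 1) (nat_lit 4) (nat_lit 2) (nat_lit 5) (nat_lit 2) (nat_lit 4) (nat_lit 498) (nat_lit 352) (nat_lit 350)) (XT.lf (nat_lit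 0) (nat_lit 607233378174) (nat_lit 76) (nat_lit 110771253667) (nat_lit 76) (nat_lit 110743425209) (nat_lit 1) (nat_lit 4) (nat_lit 2) (nat_lit 5) (nat_lit 2) (nat_lit 4) (nat_lit 499) (nat_lit 352) (nat_lit 349)))) (XT.nd (nat_lit 156) (nat_lit 0) (nat_lit 0) (XT.nd (nat_lit 78) (nat_lit 0) (nat_lit 0) (XT.lf (nat_lit 0) (nat_lit 664302905417) (nat_lit 76) (nat_lit 115226567926) (nat_lit 76) (nat_lit 115190802341) (nat_lit 1) (nat_lit 4) (nat_lit 2) (nat_lit 5) (nat_lit 2) (nat_lit 4) (nat_lit 500) (nat_lit 352) (nat_lit 348)) (XT.lf (nat_lit 0) (nat_lit 725557752106) (nat_lit 76) (nat_lit 120235153213) (nat_lit 76) (nat_lit 120192038436) (nat_lit 1) (nat_lit 4) (nat_lit 2) (nat_lit 5) (nat_lit 2) (nat_lit 4) (nat_lit 501) (nat_lit 352) (nat_lit 347))) (XT.nd (nat_lit 78) (nat_lit 0) (nat_lit 0) (XT.lf (nat_lit 0) (nat_lit 791360909925) (nat_lit 76) (nat_lit 125826690032) (nat_lit 76) (nat_lit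 125776770447) (nat_lit 1) (nat_lit 4) (nat_lit 2) (nat_lit 5) (nat_lit 2) (nat_lit 4) (nat_lit 502) (nat_lit 352) (nat_lit 346)) (XT.lf (nat_lit 0) (nat_lit 862102323512) (nat_lit 76) (nat_lit 132034313417) (nat_lit 76) (nat_lit 131978093084) (nat_lit 1) (nat_lit 4) (nat_lit 2) (nat_lit 5) (nat_lit 2) (nat_lit 4) (nat_lit 503) (nat_lit 352) (nat_lit 345))))))))
noncomputable def xc11 : XT := (XT.nd (nat_lit 2184) (nat_lit 0) (nat_lit 0) (XT.nd (nat_lit 1092) (nat_lit 0) (nat_lit 0) (XT.nd (nat_lit 546) (nat_lit 0) (nat_lit 0) (XT.nd (nat_lit 234) (nat_lit 0) (nat_lit 0) (XT.nd (nat_lit 78) (nat_lit 0) (nat_lit 0) (XT.lf (nat_lit 0) (nat_lit 938201201244) (nat_lit 76) (nat_lit 138894809283) (nat_lit 76) (nat_lit 138832754925) (nat_lit 1) (nat_lit 4) (nat_lit 2) (nat_lit 5) (nat_lit 2) (nat_lit 4) (nat_lit 504) (nat_lit 352) (nat_lit 344)) (XT.nd (nat_lit 78) (nat_lit 0) (nat_lit 0) (XT.lf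 (nat_lit 0) (nat_lit 1020108499434) (nat_lit 76) (nat_lit 146448832421) (nat_lit 76) (nat_lit 146381376188) (nat_lit 1) (nat_lit 4) (nat_lit 2) (nat_lit 5) (nat_lit 2) (nat_lit 4) (nat_lit 505) (nat_lit 352) (nat_lit 343)) (XT.lf (nat_lit 0) (nat_lit 1108309594664) (nat_lit 76) (nat_lit 154741147414) (nat_lit 76) (nat_lit 154668689443) (nat_lit 1) (nat_lit 4) (nat_lit 2) (nat_lit 5) (nat_lit 2) (nat_lit 4) (nat_lit 506) (nat_lit 352) (nat_lit 342)))) (XT.nd (nat_lit 156) (nat_lit 0) (nat_lit 0) (XT.nd (nat_lit 78) (nat_lit 0) (nat_lit 0) (XT.lf (nat_lit 0) (nat_lit 1203327160090) (nat_lit 76) (nat_lit 163820893904) (nat_lit 76) (nat_lit 163743804696) (nat_lit 1) (nat_lit 4) (nat_lit 2) (nat_lit 5) (nat_lit 2) (nat_lit 4) (nat_lit 507) (nat_lit 352) (nat_lit 341)) (XT.lf (nat_lit 0) (nat_lit 1305724262767) (nat_lit 76) (nat_lit 173741877798) (nat_lit 76) (nat_lit 173660500406) (nat_lit 1)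 (nat_lit 4) (nat_lit 2) (nat_lit 5) (nat_lit 2) (nat_lit 4) (nat_lit 508) (nat_lit 352) (nat_lit 340))) (XT.nd (nat_lit 78) (nat_lit 0) (nat_lit 0) (XT.lf (nat_lit 0) (nat_lit 1416107700340) (nat_lit 76) (nat_lit 184562890110) (nat_lit 76) (nat_lit 184477542179) (nat_lit 1) (nat_lit 4) (nat_lit 2) (nat_lit 5) (nat_lit 2) (nat_lit 4) (nat_lit 509) (nat_lit 352) (nat_lit 339)) (XT.lf (nat_lit 0) (nat_lit 1535131596884) (nat_lit 76) (nat_lit 196348055359) (nat_lit 76) (nat_lit 196259031002) (nat_lit 1) (nat_lit 4) (nat_lit 2) (nat_lit 5) (nat_lit 2) (nat_lit 4) (nat_lit 510) (nat_lit 352) (nat_lit 338))))) (XT.nd (nat_lit 234) (nat_lit 0) (nat_lit 0) (XT.nd (nat_lit 78) (nat_lit 0) (nat_lit 0) (XT.lf (nat_lit 0) (nat_lit 1663501279193) (nat_lit 76) (nat_lit 209167211560) (nat_lit 76) (nat_lit 209074783105) (nat_lit 1) (nat_lit 4) (nat_lit 2) (nat_lit 5) (nat_lit 2) (nat_lit 4) (nat_lit 511)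 (nat_lit 352) (nat_lit 337)) (XT.nd (nat_lit 78) (nat_lit 0) (nat_lit 0) (XT.lf (nat_lit 0) (nat_lit 1801977456496) (nat_lit 76) (nat_lit 223096324084) (nat_lit 76) (nat_lit 223000743687) (nat_lit 1) (nat_lit 4) (nat_lit 2) (nat_lit 5) (nat_lit 2) (nat_lit 4) (nat_lit 512) (nat_lit 352) (nat_lit 336)) (XT.lf (nat_lit 0) (nat_lit 1951380728362) (nat_lit 76) (nat_lit 238217935820) (nat_lit 76) (nat_lit 238119436957) (nat_lit 1) (nat_lit 4) (nat_lit 2) (nat_lit 5) (nat_lit 2) (nat_lit 4) (nat_lit 513) (nat_lit 352) (nat_lit 335)))) (XT.nd (nat_lit 156) (nat_lit 0) (nat_lit 0) (XT.nd (nat_lit 78) (nat_lit 0) (nat_lit 0) (XT.lf (nat_lit 0) (nat_lit 2112596447513) (nat_lit 76) (nat_lit 254621656318) (nat_lit 76) (nat_lit 254520455173) (nat_lit 1) (nat_lit 4) (nat_lit 2) (nat_lit 5) (nat_lit 2) (nat_lit 4) (nat_lit 514) (nat_lit 352) (nat_lit 334)) (XT.lf (nat_lit 0) (nat_lit 2286579966359) (nat_lit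 76) (nat_lit 272404692812) (nat_lit 76) (nat_lit 272300989553) (nat_lit 1) (nat_lit 4) (nat_lit 2) (nat_lit 5) (nat_lit 2) (nat_lit 4) (nat_lit 515) (nat_lit 352) (nat_lit 333))) (XT.nd (nat_lit 78) (nat_lit 0) (nat_lit 0) (XT.lf (nat_lit 0) (nat_lit 2474362298344) (nat_lit 76) (nat_lit 291672426258) (nat_lit 76) (nat_lit 291566406227) (nat_lit 1) (nat_lit 4) (nat_lit 2) (nat_lit 5) (nat_lit 2) (nat_lit 4) (nat_lit 516) (nat_lit 352) (nat_lit 332)) (XT.lf (nat_lit 0) (nat_lit 2677056227659) (nat_lit 76) (nat_lit 312539035818) (nat_lit 76) (nat_lit 312430870628) (nat_lit 1) (nat_lit 4) (nat_lit 2) (nat_lit 5) (nat_lit 2) (nat_lit 4) (nat_lit 517) (nat_lit 352) (nat_lit 331)))))) (XT.nd (nat_lit 546) (nat_lit 0) (nat_lit 0) (XT.nd (nat_lit 234) (nat_lit 0) (nat_lit 0) (XT.nd (nat_lit 78) (nat_lit 0) (nat_lit 0) (XT.lf (nat_lit 0) (nat_lit 2895862903515) (nat_lit 76) (nat_lit 335128175473)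 (nat_lit 76) (nat_lit 335018024025) (nat_lit 1) (nat_lit 4) (nat_lit 2) (nat_lit 5) (nat_lit 2) (nat_lit 4) (nat_lit 518) (nat_lit 352) (nat_lit 330)) (XT.nd (nat_lit 78) (nat_lit 0) (nat_lit 0) (XT.lf (nat_lit 0) (nat_lit 3132078958063) (nat_lit 76) (nat_lit 359573706793) (nat_lit 76) (nat_lit 359461716217) (nat_lit 1) (nat_lit 4) (nat_lit 2) (nat_lit 5) (nat_lit 2) (nat_lit 4) (nat_lit 519) (nat_lit 352) (nat_lit 329)) (XT.lf (nat_lit 0) (nat_lit 3387104190147) (nat_lit 76) (nat_lit 386020492185) (nat_lit 76) (nat_lit 385906798713) (nat_lit 1) (nat_lit 4) (nat_lit 2) (nat_lit 5) (nat_lit 2) (nat_lit 4) (nat_lit 520) (nat_lit 352) (nat_lit 328)))) (XT.nd (nat_lit 156) (nat_lit 0) (nat_lit 0) (XT.nd (nat_lit 78) (nat_lit 0) (nat_lit 0) (XT.lf (nat_lit 0) (nat_lit 3662449860401) (nat_lit 76) (nat_lit 414625253341) (nat_lit 76) (nat_lit 414509983112) (nat_lit 1) (nat_lit 4) (nat_lit 2) (nat_lit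 5) (nat_lit 2) (nat_lit 4) (nat_lit 521) (nat_lit 352) (nat_lit 327)) (XT.lf (nat_lit 0) (nat_lit 3959747646870) (nat_lit 76) (nat_lit 445557499956) (nat_lit 76) (nat_lit 445440769768) (nat_lit 1) (nat_lit 4) (nat_lit 2) (nat_lit 5) (nat_lit 2) (nat_lit 4) (nat_lit 522) (nat_lit 352) (nat_lit 326))) (XT.nd (nat_lit 78) (nat_lit 0) (nat_lit 0) (XT.lf (nat_lit 0) (nat_lit 4280759314215) (nat_lit 76) (nat_lit 479000534232) (nat_lit 76) (nat_lit 478882452230) (nat_lit 1) (nat_lit 4) (nat_lit 2) (nat_lit 5) (nat_lit 2) (nat_lit 4) (nat_lit 523) (nat_lit 352) (nat_lit 325)) (XT.lf (nat_lit 0) (nat_lit 4627387153799) (nat_lit 76) (nat_lit 515152537113) (nat_lit 76) (nat_lit 515033203431) (nat_lit 1) (nat_lit 4) (nat_lit 2) (nat_lit 5) (nat_lit 2) (nat_lit 4) (nat_lit 524) (nat_lit 352) (nat_lit 324))))) (XT.nd (nat_lit 234) (nat_lit 0) (nat_lit 0) (XT.nd (nat_lit 78) (nat_lit 0) (nat_lit 0) (XT.lf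 (nat_lit 0) (nat_lit 5001685256522) (nat_lit 76) (nat_lit 554227742691) (nat_lit 76) (nat_lit 554107250046) (nat_lit 1) (nat_lit 4) (nat_lit 2) (nat_lit 5) (nat_lit 2) (nat_lit 4) (nat_lit 525) (nat_lit 352) (nat_lit 323)) (XT.nd (nat_lit 78) (nat_lit 0) (nat_lit 0) (XT.lf (nat_lit 0) (nat_lit 5405871685216) (nat_lit 76) (nat_lit 596457707738) (nat_lit 76) (nat_lit 596336141980) (nat_lit 1) (nat_lit 4) (nat_lit 2) (nat_lit 5) (nat_lit 2) (nat_lit 4) (nat_lit 526) (nat_lit 352) (nat_lit 322)) (XT.lf (nat_lit 0) (nat_lit 5842341618716) (nat_lit 76) (nat_lit 642092683901) (nat_lit 76) (nat_lit 641970124519) (nat_lit 1) (nat_lit 4) (nat_lit 2) (nat_lit 5) (nat_lit 2) (nat_lit 4) (nat_lit 527) (nat_lit 352) (nat_lit 321)))) (XT.nd (nat_lit 156) (nat_lit 0) (nat_lit 0) (XT.nd (nat_lit 78) (nat_lit 0) (nat_lit 0) (XT.lf (nat_lit 0) (nat_lit 6313681545519) (nat_lit 76) (nat_lit 691403100667) (nat_lit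 76) (nat_lit 691279621263) (nat_lit 1) (nat_lit 4) (nat_lit 2) (nat_lit 5) (nat_lit 2) (nat_lit 4) (nat_lit 528) (nat_lit 352) (nat_lit 320)) (XT.lf (nat_lit 0) (nat_lit 6822684591116) (nat_lit 76) (nat_lit 744681167913) (nat_lit 76) (nat_lit 744556836637) (nat_lit 1) (nat_lit 4) (nat_lit 2) (nat_lit 5) (nat_lit 2) (nat_lit 4) (nat_lit 529) (nat_lit 352) (nat_lit 319))) (XT.nd (nat_lit 78) (nat_lit 0) (nat_lit 0) (XT.lf (nat_lit 0) (nat_lit 7372367069851) (nat_lit 76) (nat_lit 802242607519) (nat_lit 76) (nat_lit 802117487472) (nat_lit 1) (nat_lit 4) (nat_lit 2) (nat_lit 5) (nat_lit 2) (nat_lit 4) (nat_lit 530) (nat_lit 352) (nat_lit 318)) (XT.lf (nat_lit 0) (nat_lit 7965986359377) (nat_lit 76) (nat_lit 864428524313) (nat_lit 76) (nat_lit 864302673923) (nat_lit 1) (nat_lit 4) (nat_lit 2) (nat_lit 5) (nat_lit 2) (nat_lit 4) (nat_lit 531) (nat_lit 352) (nat_lit 317))))))) (XT.nd (nat_lit 59514)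 (nat_lit 0) (nat_lit 0) (XT.nd (nat_lit 546) (nat_lit 0) (nat_lit 0) (XT.nd (nat_lit 234) (nat_lit 0) (nat_lit 0) (XT.nd (nat_lit 78) (nat_lit 0) (nat_lit 0) (XT.lf (nat_lit 0) (nat_lit 8607060203631) (nat_lit 76) (nat_lit 931607427431) (nat_lit 76) (nat_lit 931480900798) (nat_lit 1) (nat_lit 4) (nat_lit 2) (nat_lit 5) (nat_lit 2) (nat_lit 4) (nat_lit 532) (nat_lit 352) (nat_lit 316)) (XT.nd (nat_lit 78) (nat_lit 0) (nat_lit 0) (XT.lf (nat_lit 0) (nat_lit 9299387558726) (nat_lit 76) (nat_lit 1004177414078) (nat_lit 76) (nat_lit 1004050261293) (nat_lit 1) (nat_lit 4) (nat_lit 2) (nat_lit 5) (nat_lit 2) (nat_lit 4) (nat_lit 533) (nat_lit 352) (nat_lit 315)) (XT.lf (nat_lit 0) (nat_lit 10047071105287) (nat_lit 76) (nat_lit 1082568528617) (nat_lit 76) (nat_lit 1082440796062) (nat_lit 1) (nat_lit 4) (nat_lit 2) (nat_lit 5) (nat_lit 2) (nat_lit 4) (nat_lit 534) (nat_lit 352) (nat_lit 314)))) (XT.nd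 (nat_lit 156) (nat_lit 0) (nat_lit 0) (XT.nd (nat_lit 78) (nat_lit 0) (nat_lit 0) (XT.lf (nat_lit 0) (nat_lit 10854541560626) (nat_lit 76) (nat_lit 1167245310987) (nat_lit 76) (nat_lit 1167117041608) (nat_lit 1) (nat_lit 4) (nat_lit 2) (nat_lit 5) (nat_lit 2) (nat_lit 4) (nat_lit 535) (nat_lit 352) (nat_lit 313)) (XT.lf (nat_lit 0) (nat_lit 11726583934849) (nat_lit 76) (nat_lit 1258709549529) (nat_lit 76) (nat_lit 1258580783090) (nat_lit 1) (nat_lit 4) (nat_lit 2) (nat_lit 5) (nat_lit 2) (nat_lit 4) (nat_lit 536) (nat_lit 352) (nat_lit 312))) (XT.nd (nat_lit 78) (nat_lit 0) (nat_lit 0) (XT.lf (nat_lit 0) (nat_lit 12668365886469) (nat_lit 76) (nat_lit 1357503254544) (nat_lit 76) (nat_lit 1357374027866) (nat_lit 1) (nat_lit 4) (nat_lit 2) (nat_lit 5) (nat_lit 2) (nat_lit 4) (nat_lit 537) (nat_lit 352) (nat_lit 311)) (XT.lf (nat_lit 0) (nat_lit 13685468345570) (nat_lit 76) (nat_lit 1464211870210)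 (nat_lit 76) (nat_lit 1464082217384) (nat_lit 1) (nat_lit 4) (nat_lit 2) (nat_lit 5) (nat_lit 2) (nat_lit 4) (nat_lit 538) (nat_lit 352) (nat_lit 310))))) (XT.nd (nat_lit 234) (nat_lit 0) (nat_lit 0) (XT.nd (nat_lit 78) (nat_lit 0) (nat_lit 0) (XT.lf (nat_lit 0) (nat_lit 14783918585984) (nat_lit 76) (nat_lit 1579467743880) (nat_lit 76) (nat_lit 1579337696472) (nat_lit 1) (nat_lit 4) (nat_lit 2) (nat_lit 5) (nat_lit 2) (nat_lit 4) (nat_lit 539) (nat_lit 352) (nat_lit 309)) (XT.nd (nat_lit 78) (nat_lit 0) (nat_lit 0) (XT.lf (nat_lit 0) (nat_lit 15970225942470) (nat_lit 76) (nat_lit 1703953873324) (nat_lit 76) (nat_lit 1703823460563) (nat_lit 1) (nat_lit 4) (nat_lit 2) (nat_lit 5) (nat_lit 2) (nat_lit 4) (nat_lit 540) (nat_lit 352) (nat_lit 308)) (XT.lf (nat_lit 0) (nat_lit 17251420384546) (nat_lit 76) (nat_lit 1838407954123) (nat_lit 76) (nat_lit 1838277203071) (nat_lit 1) (nat_lit 4) (nat_lit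 2) (nat_lit 5) (nat_lit 2) (nat_lit 4) (nat_lit 541) (nat_lit 352) (nat_lit 307)))) (XT.nd (nat_lit 156) (nat_lit 0) (nat_lit 0) (XT.nd (nat_lit 78) (nat_lit 0) (nat_lit 0) (XT.lf (nat_lit 0) (nat_lit 18635094175573) (nat_lit 76) (nat_lit 1983626751200) (nat_lit 76) (nat_lit 1983495686917) (nat_lit 1) (nat_lit 4) (nat_lit 2) (nat_lit 5) (nat_lit 2) (nat_lit 4) (nat_lit 542) (nat_lit 352) (nat_lit 306)) (XT.lf (nat_lit 0) (nat_lit 20129446863944) (nat_lit 76) (nat_lit 2140470820391) (nat_lit 76) (nat_lit 2140339466079) (nat_lit 1) (nat_lit 4) (nat_lit 2) (nat_lit 5) (nat_lit 2) (nat_lit 4) (nat_lit 543) (nat_lit 352) (nat_lit 305))) (XT.nd (nat_lit 78) (nat_lit 0) (nat_lit 0) (XT.lf (nat_lit 0) (nat_lit 21743333872995) (nat_lit 76) (nat_lit 2309869608031) (nat_lit 76) (nat_lit 2309737985173) (nat_lit 1) (nat_lit 4) (nat_lit 2) (nat_lit 5) (nat_lit 2) (nat_lit 4) (nat_lit 544) (nat_lit 352)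 (nat_lit 304)) (XT.lf (nat_lit 0) (nat_lit 23486318977596) (nat_lit 76) (nat_lit 2492826958787) (nat_lit 76) (nat_lit 2492695087276) (nat_lit 1) (nat_lit 4) (nat_lit 2) (nat_lit 5) (nat_lit 2) (nat_lit 4) (nat_lit 545) (nat_lit 352) (nat_lit 303)))))) (XT.nd (nat_lit 546) (nat_lit 0) (nat_lit 0) (XT.nd (nat_lit 234) (nat_lit 0) (nat_lit 0) (XT.nd (nat_lit 78) (nat_lit 0) (nat_lit 0) (XT.lf (nat_lit 0) (nat_lit 186928514789) (nat_lit 76) (nat_lit 47923965066) (nat_lit 76) (nat_lit 47923965066) (nat_lit 1) (nat_lit 4) (nat_lit 2) (nat_lit 5) (nat_lit 2) (nat_lit 4) (nat_lit 494) (nat_lit 353) (nat_lit 353)) (XT.nd (nat_lit 78) (nat_lit 0) (nat_lit 0) (XT.lf (nat_lit 0) (nat_lit 414375544997) (nat_lit 76) (nat_lit 98011490806) (nat_lit 76) (nat_lit 98000692431) (nat_lit 1) (nat_lit 4) (nat_lit 2) (nat_lit 5) (nat_lit 2) (nat_lit 4) (nat_lit 495) (nat_lit 353) (nat_lit 352)) (XT.lf (nat_lit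 0) (nat_lit 457618225606) (nat_lit 76) (nat_lit 100615942986) (nat_lit 76) (nat_lit 100595146117) (nat_lit 1) (nat_lit 4) (nat_lit 2) (nat_lit 5) (nat_lit 2) (nat_lit 4) (nat_lit 496) (nat_lit 353) (nat_lit 351)))) (XT.nd (nat_lit 156) (nat_lit 0) (nat_lit 0) (XT.nd (nat_lit 78) (nat_lit 0) (nat_lit 0) (XT.lf (nat_lit 0) (nat_lit 503841324328) (nat_lit 76) (nat_lit 103676720467) (nat_lit 76) (nat_lit 103646665733) (nat_lit 1) (nat_lit 4) (nat_lit 2) (nat_lit 5) (nat_lit 2) (nat_lit 4) (nat_lit 497) (nat_lit 353) (nat_lit 350)) (XT.lf (nat_lit 0) (nat_lit 553318755824) (nat_lit 76) (nat_lit 107211961188) (nat_lit 76) (nat_lit 107173334356) (nat_lit 1) (nat_lit 4) (nat_lit 2) (nat_lit 5) (nat_lit 2) (nat_lit 4) (nat_lit 498) (nat_lit 353) (nat_lit 349))) (XT.nd (nat_lit 78) (nat_lit 0) (nat_lit 0) (XT.lf (nat_lit 0) (nat_lit 606343719686) (nat_lit 76) (nat_lit 111242614724) (nat_lit 76) (nat_lit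 111196050764) (nat_lit 1) (nat_lit 4) (nat_lit 2) (nat_lit 5) (nat_lit 2) (nat_lit 4) (nat_lit 499) (nat_lit 353) (nat_lit 348)) (XT.lf (nat_lit 0) (nat_lit 663230437923) (nat_lit 76) (nat_lit 115792566428) (nat_lit 76) (nat_lit 115738653277) (nat_lit 1) (nat_lit 4) (nat_lit 2) (nat_lit 5) (nat_lit 2) (nat_lit 4) (nat_lit 500) (nat_lit 353) (nat_lit 347))))) (XT.nd (nat_lit 312) (nat_lit 0) (nat_lit 0) (XT.nd (nat_lit 156) (nat_lit 0) (nat_lit 0) (XT.nd (nat_lit 78) (nat_lit 0) (nat_lit 0) (XT.lf (nat_lit 0) (nat_lit 724316017013) (nat_lit 76) (nat_lit 120888778979) (nat_lit 76) (nat_lit 120828061020) (nat_lit 1) (nat_lit 4) (nat_lit 2) (nat_lit 5) (nat_lit 2) (nat_lit 4) (nat_lit 501) (nat_lit 353) (nat_lit 346)) (XT.lf (nat_lit 0) (nat_lit 789962445573) (nat_lit 76) (nat_lit 126561452154) (nat_lit 76) (nat_lit 126494433447) (nat_lit 1) (nat_lit 4) (nat_lit 2) (nat_lit 5) (nat_lit 2) (nat_lit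 4) (nat_lit 502) (nat_lit 353) (nat_lit 345))) (XT.nd (nat_lit 78) (nat_lit 0) (nat_lit 0) (XT.lf (nat_lit 0) (nat_lit 860558739477) (nat_lit 76) (nat_lit 132844201794) (nat_lit 76) (nat_lit 132771349061) (nat_lit 1) (nat_lit 4) (nat_lit 2) (nat_lit 5) (nat_lit 2) (nat_lit 4) (nat_lit 503) (nat_lit 353) (nat_lit 344)) (XT.lf (nat_lit 0) (nat_lit 936523247132) (nat_lit 76) (nat_lit 139774259008) (nat_lit 76) (nat_lit 139696004400) (nat_lit 1) (nat_lit 4) (nat_lit 2) (nat_lit 5) (nat_lit 2) (nat_lit 4) (nat_lit 504) (nat_lit 353) (nat_lit 343)))) (XT.nd (nat_lit 156) (nat_lit 0) (nat_lit 0) (XT.nd (nat_lit 78) (nat_lit 0) (nat_lit 0) (XT.lf (nat_lit 0) (nat_lit 1018306128583) (nat_lit 76) (nat_lit 147392690801) (nat_lit 76) (nat_lit 147309434457) (nat_lit 1) (nat_lit 4) (nat_lit 2) (nat_lit 5) (nat_lit 2) (nat_lit 4) (nat_lit 505) (nat_lit 353) (nat_lit 342)) (XT.lf (nat_lit 0) (nat_lit 1106392023129)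 (nat_lit 76) (nat_lit 155744643437) (nat_lit 76) (nat_lit 155656755855) (nat_lit 1) (nat_lit 4) (nat_lit 2) (nat_lit 5) (nat_lit 2) (nat_lit 4) (nat_lit 506) (nat_lit 353) (nat_lit 341))) (XT.nd (nat_lit 78) (nat_lit 0) (nat_lit 0) (XT.lf (nat_lit 0) (nat_lit 1201302921256) (nat_lit 76) (nat_lit 164879609968) (nat_lit 76) (nat_lit 164787434202) (nat_lit 1) (nat_lit 4) (nat_lit 2) (nat_lit 5) (nat_lit 2) (nat_lit 4) (nat_lit 507) (nat_lit 353) (nat_lit 340)) (XT.lf (nat_lit 0) (nat_lit 1303601257914) (nat_lit 76) (nat_lit 174851723528) (nat_lit 76) (nat_lit 174755577223) (nat_lit 1) (nat_lit 4) (nat_lit 2) (nat_lit 5) (nat_lit 2) (nat_lit 4) (nat_lit 508) (nat_lit 353) (nat_lit 339))))))))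
noncomputable def xc12 : XT := (XT.nd (nat_lit 2184) (nat_lit 0) (nat_lit 0) (XT.nd (nat_lit 1092) (nat_lit 0) (nat_lit 0) (XT.nd (nat_lit 546) (nat_lit 0) (nat_lit 0) (XT.nd (nat_lit 234) (nat_lit 0) (nat_lit 0) (XT.nd (nat_lit 78) (nat_lit 0) (nat_lit 0) (XT.lf (nat_lit 0) (nat_lit 1413893245471) (nat_lit 76) (nat_lit 185720078125) (nat_lit 76) (nat_lit 185620255394) (nat_lit 1) (nat_lit 4) (nat_lit 2) (nat_lit 5) (nat_lit 2) (nat_lit 4) (nat_lit 509) (nat_lit 353) (nat_lit 338)) (XT.nd (nat_lit 78) (nat_lit 0) (nat_lit 0) (XT.lf (nat_lit 0) (nat_lit 1532832466073) (nat_lit 76) (nat_lit 197549078822) (nat_lit 76) (nat_lit 197445851993) (nat_lit 1) (nat_lit 4) (nat_lit 2) (nat_lit 5) (nat_lit 2) (nat_lit 4) (nat_lit 510) (nat_lit 353) (nat_lit 337)) (XT.lf (nat_lit 0) (nat_lit 1661123744733) (nat_lit 76) (nat_lit 210408823402) (nat_lit 76) (nat_lit 210302444630) (nat_lit 1) (nat_lit 4)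 (nat_lit 2) (nat_lit 5) (nat_lit 2) (nat_lit 4) (nat_lit 511) (nat_lit 353) (nat_lit 336)))) (XT.nd (nat_lit 156) (nat_lit 0) (nat_lit 0) (XT.nd (nat_lit 78) (nat_lit 0) (nat_lit 0) (XT.lf (nat_lit 0) (nat_lit 1799527326064) (nat_lit 76) (nat_lit 224375517757) (nat_lit 76) (nat_lit 224266220521) (nat_lit 1) (nat_lit 4) (nat_lit 2) (nat_lit 5) (nat_lit 2) (nat_lit 4) (nat_lit 512) (nat_lit 353) (nat_lit 335)) (XT.lf (nat_lit 0) (nat_lit 1948863379438) (nat_lit 76) (nat_lit 239531927485) (nat_lit 76) (nat_lit 239419927966) (nat_lit 1) (nat_lit 4) (nat_lit 2) (nat_lit 5) (nat_lit 2) (nat_lit 4) (nat_lit 513) (nat_lit 353) (nat_lit 334))) (XT.nd (nat_lit 78) (nat_lit 0) (nat_lit 0) (XT.lf (nat_lit 0) (nat_lit 2110016859244) (nat_lit 76) (nat_lit 255967868347) (nat_lit 76) (nat_lit 255853366714) (nat_lit 1) (nat_lit 4) (nat_lit 2) (nat_lit 5) (nat_lit 2) (nat_lit 4) (nat_lit 514) (nat_lit 353)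 (nat_lit 333)) (XT.lf (nat_lit 0) (nat_lit 2283942749067) (nat_lit 76) (nat_lit 273780738510) (nat_lit 76) (nat_lit 273663920106) (nat_lit 1) (nat_lit 4) (nat_lit 2) (nat_lit 5) (nat_lit 2) (nat_lit 4) (nat_lit 515) (nat_lit 353) (nat_lit 332))))) (XT.nd (nat_lit 234) (nat_lit 0) (nat_lit 0) (XT.nd (nat_lit 78) (nat_lit 0) (nat_lit 0) (XT.lf (nat_lit 0) (nat_lit 2471671720846) (nat_lit 76) (nat_lit 293076095725) (nat_lit 76) (nat_lit 292957132161) (nat_lit 1) (nat_lit 4) (nat_lit 2) (nat_lit 5) (nat_lit 2) (nat_lit 4) (nat_lit 516) (nat_lit 353) (nat_lit 331)) (XT.nd (nat_lit 78) (nat_lit 0) (nat_lit 0) (XT.lf (nat_lit 0) (nat_lit 2674316242562) (nat_lit 76) (nat_lit 313968282847) (nat_lit 76) (nat_lit 313847333025) (nat_lit 1) (nat_lit 4) (nat_lit 2) (nat_lit 5) (nat_lit 2) (nat_lit 4) (nat_lit 517) (nat_lit 353) (nat_lit 330)) (XT.lf (nat_lit 0) (nat_lit 2893077170641) (nat_lit 76) (nat_lit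 336581105432) (nat_lit 76) (nat_lit 336458316481) (nat_lit 1) (nat_lit 4) (nat_lit 2) (nat_lit 5) (nat_lit 2) (nat_lit 4) (nat_lit 518) (nat_lit 353) (nat_lit 329)))) (XT.nd (nat_lit 156) (nat_lit 0) (nat_lit 0) (XT.nd (nat_lit 78) (nat_lit 0) (nat_lit 0) (XT.lf (nat_lit 0) (nat_lit 3129250866137) (nat_lit 76) (nat_lit 361048565390) (nat_lit 76) (nat_lit 360924073542) (nat_lit 1) (nat_lit 4) (nat_lit 2) (nat_lit 5) (nat_lit 2) (nat_lit 4) (nat_lit 519) (nat_lit 353) (nat_lit 328)) (XT.lf (nat_lit 0) (nat_lit 3384236876876) (nat_lit 76) (nat_lit 387515655076) (nat_lit 76) (nat_lit 387389586473) (nat_lit 1) (nat_lit 4) (nat_lit 2) (nat_lit 5) (nat_lit 2) (nat_lit 4) (nat_lit 520) (nat_lit 353) (nat_lit 327))) (XT.nd (nat_lit 78) (nat_lit 0) (nat_lit 0) (XT.lf (nat_lit 0) (nat_lit 3659546231070) (nat_lit 76) (nat_lit 416139216504) (nat_lit 76) (nat_lit 416011687942) (nat_lit 1) (nat_lit 4)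 (nat_lit 2) (nat_lit 5) (nat_lit 2) (nat_lit 4) (nat_lit 521) (nat_lit 353) (nat_lit 326)) (XT.lf (nat_lit 0) (nat_lit 3956810391558) (nat_lit 76) (nat_lit 447088870778) (nat_lit 76) (nat_lit 446959990402) (nat_lit 1) (nat_lit 4) (nat_lit 2) (nat_lit 5) (nat_lit 2) (nat_lit 4) (nat_lit 522) (nat_lit 353) (nat_lit 325)))))) (XT.nd (nat_lit 546) (nat_lit 0) (nat_lit 0) (XT.nd (nat_lit 234) (nat_lit 0) (nat_lit 0) (XT.nd (nat_lit 78) (nat_lit 0) (nat_lit 0) (XT.lf (nat_lit 0) (nat_lit 4277790923735) (nat_lit 76) (nat_lit 480548023258) (nat_lit 76) (nat_lit 480417891202) (nat_lit 1) (nat_lit 4) (nat_lit 2) (nat_lit 5) (nat_lit 2) (nat_lit 4) (nat_lit 523) (nat_lit 353) (nat_lit 324)) (XT.nd (nat_lit 78) (nat_lit 0) (nat_lit 0) (XT.lf (nat_lit 0) (nat_lit 4624389934460) (nat_lit 76) (nat_lit 516714950402) (nat_lit 76) (nat_lit 516583659383) (nat_lit 1) (nat_lit 4) (nat_lit 2) (nat_lit 5) (nat_lit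 2) (nat_lit 4) (nat_lit 524) (nat_lit 353) (nat_lit 323)) (XT.lf (nat_lit 0) (nat_lit 4998661343795) (nat_lit 76) (nat_lit 555803974741) (nat_lit 76) (nat_lit 555671610608) (nat_lit 1) (nat_lit 4) (nat_lit 2) (nat_lit 5) (nat_lit 2) (nat_lit 4) (nat_lit 525) (nat_lit 353) (nat_lit 322)))) (XT.nd (nat_lit 156) (nat_lit 0) (nat_lit 0) (XT.nd (nat_lit 78) (nat_lit 0) (nat_lit 0) (XT.lf (nat_lit 0) (nat_lit 5402823056388) (nat_lit 76) (nat_lit 598046734938) (nat_lit 76) (nat_lit 597913377182) (nat_lit 1) (nat_lit 4) (nat_lit 2) (nat_lit 5) (nat_lit 2) (nat_lit 4) (nat_lit 526) (nat_lit 353) (nat_lit 321)) (XT.lf (nat_lit 0) (nat_lit 5839270104611) (nat_lit 76) (nat_lit 643693558461) (nat_lit 76) (nat_lit 643559280683) (nat_lit 1) (nat_lit 4) (nat_lit 2) (nat_lit 5) (nat_lit 2) (nat_lit 4) (nat_lit 527) (nat_lit 353) (nat_lit 320))) (XT.nd (nat_lit 78) (nat_lit 0) (nat_lit 0) (XT.lf (nat_lit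 0) (nat_lit 6310588841342) (nat_lit 76) (nat_lit 693014945005) (nat_lit 76) (nat_lit 692879815355) (nat_lit 1) (nat_lit 4) (nat_lit 2) (nat_lit 5) (nat_lit 2) (nat_lit 4) (nat_lit 528) (nat_lit 353) (nat_lit 319)) (XT.lf (nat_lit 0) (nat_lit 6819572266501) (nat_lit 76) (nat_lit 746303169454) (nat_lit 76) (nat_lit 746167251033) (nat_lit 1) (nat_lit 4) (nat_lit 2) (nat_lit 5) (nat_lit 2) (nat_lit 4) (nat_lit 529) (nat_lit 353) (nat_lit 318))))) (XT.nd (nat_lit 234) (nat_lit 0) (nat_lit 0) (XT.nd (nat_lit 78) (nat_lit 0) (nat_lit 0) (XT.lf (nat_lit 0) (nat_lit 7369236578165) (nat_lit 76) (nat_lit 803874013877) (nat_lit 76) (nat_lit 803737365113) (nat_lit 1) (nat_lit 4) (nat_lit 2) (nat_lit 5) (nat_lit 2) (nat_lit 4) (nat_lit 530) (nat_lit 353) (nat_lit 317)) (XT.nd (nat_lit 78) (nat_lit 0) (nat_lit 0) (XT.lf (nat_lit 0) (nat_lit 7962839046328) (nat_lit 76) (nat_lit 866068638835) (nat_lit 76)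 (nat_lit 865931313827) (nat_lit 1) (nat_lit 4) (nat_lit 2) (nat_lit 5) (nat_lit 2) (nat_lit 4) (nat_lit 531) (nat_lit 353) (nat_lit 316)) (XT.lf (nat_lit 0) (nat_lit 8603897315246) (nat_lit 76) (nat_lit 933255605068) (nat_lit 76) (nat_lit 933117653908) (nat_lit 1) (nat_lit 4) (nat_lit 2) (nat_lit 5) (nat_lit 2) (nat_lit 4) (nat_lit 532) (nat_lit 353) (nat_lit 315)))) (XT.nd (nat_lit 156) (nat_lit 0) (nat_lit 0) (XT.nd (nat_lit 78) (nat_lit 0) (nat_lit 0) (XT.lf (nat_lit 0) (nat_lit 9296210248735) (nat_lit 76) (nat_lit 1005833057561) (nat_lit 76) (nat_lit 1005694526631) (nat_lit 1) (nat_lit 4) (nat_lit 2) (nat_lit 5) (nat_lit 2) (nat_lit 4) (nat_lit 533) (nat_lit 353) (nat_lit 314)) (XT.lf (nat_lit 0) (nat_lit 10043880441956) (nat_lit 76) (nat_lit 1084231084921) (nat_lit 76) (nat_lit 1084092017168) (nat_lit 1) (nat_lit 4) (nat_lit 2) (nat_lit 5) (nat_lit 2) (nat_lit 4) (nat_lit 534) (nat_lit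 353) (nat_lit 313))) (XT.nd (nat_lit 78) (nat_lit 0) (nat_lit 0) (XT.lf (nat_lit 0) (nat_lit 10851338533091) (nat_lit 76) (nat_lit 1168914268052) (nat_lit 76) (nat_lit 1168774703239) (nat_lit 1) (nat_lit 4) (nat_lit 2) (nat_lit 5) (nat_lit 2) (nat_lit 4) (nat_lit 535) (nat_lit 353) (nat_lit 312)) (XT.lf (nat_lit 0) (nat_lit 11723369458977) (nat_lit 76) (nat_lit 1260384433223) (nat_lit 76) (nat_lit 1260244408171) (nat_lit 1) (nat_lit 4) (nat_lit 2) (nat_lit 5) (nat_lit 2) (nat_lit 4) (nat_lit 536) (nat_lit 353) (nat_lit 311))))))) (XT.nd (nat_lit 59358) (nat_lit 0) (nat_lit 0) (XT.nd (nat_lit 546) (nat_lit 0) (nat_lit 0) (XT.nd (nat_lit 234) (nat_lit 0) (nat_lit 0) (XT.nd (nat_lit 78) (nat_lit 0) (nat_lit 0) (XT.lf (nat_lit 0) (nat_lit 12665140810286) (nat_lit 76) (nat_lit 1359183625858) (nat_lit 76) (nat_lit 1359043174658) (nat_lit 1) (nat_lit 4) (nat_lit 2) (nat_lit 5) (nat_lit 2) (nat_lit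 4) (nat_lit 537) (nat_lit 353) (nat_lit 310)) (XT.nd (nat_lit 78) (nat_lit 0) (nat_lit 0) (XT.lf (nat_lit 0) (nat_lit 13682233454284) (nat_lit 76) (nat_lit 1465897322655) (nat_lit 76) (nat_lit 1465756476873) (nat_lit 1) (nat_lit 4) (nat_lit 2) (nat_lit 5) (nat_lit 2) (nat_lit 4) (nat_lit 538) (nat_lit 353) (nat_lit 309)) (XT.lf (nat_lit 0) (nat_lit 14780674606639) (nat_lit 76) (nat_lit 1581157901075) (nat_lit 76) (nat_lit 1581016689939) (nat_lit 1) (nat_lit 4) (nat_lit 2) (nat_lit 5) (nat_lit 2) (nat_lit 4) (nat_lit 539) (nat_lit 353) (nat_lit 308)))) (XT.nd (nat_lit 156) (nat_lit 0) (nat_lit 0) (XT.nd (nat_lit 78) (nat_lit 0) (nat_lit 0) (XT.lf (nat_lit 0) (nat_lit 15966973548255) (nat_lit 76) (nat_lit 1705648386769) (nat_lit 76) (nat_lit 1705506837343) (nat_lit 1) (nat_lit 4) (nat_lit 2) (nat_lit 5) (nat_lit 2) (nat_lit 4) (nat_lit 540) (nat_lit 353) (nat_lit 307)) (XT.lf (nat_lit 0) (nat_lit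 17248160198786) (nat_lit 76) (nat_lit 1840106501132) (nat_lit 76) (nat_lit 1839964638475) (nat_lit 1) (nat_lit 4) (nat_lit 2) (nat_lit 5) (nat_lit 2) (nat_lit 4) (nat_lit 541) (nat_lit 353) (nat_lit 306))) (XT.nd (nat_lit 78) (nat_lit 0) (nat_lit 0) (XT.lf (nat_lit 0) (nat_lit 18631826775419) (nat_lit 76) (nat_lit 1985329032992) (nat_lit 76) (nat_lit 1985186880305) (nat_lit 1) (nat_lit 4) (nat_lit 2) (nat_lit 5) (nat_lit 2) (nat_lit 4) (nat_lit 542) (nat_lit 353) (nat_lit 305)) (XT.lf (nat_lit 0) (nat_lit 20126172783795) (nat_lit 76) (nat_lit 2142176560314) (nat_lit 76) (nat_lit 2142034139082) (nat_lit 1) (nat_lit 4) (nat_lit 2) (nat_lit 5) (nat_lit 2) (nat_lit 4) (nat_lit 543) (nat_lit 353) (nat_lit 304))))) (XT.nd (nat_lit 58500) (nat_lit 0) (nat_lit 0) (XT.nd (nat_lit 78) (nat_lit 0) (nat_lit 0) (XT.lf (nat_lit 0) (nat_lit 21740053607666) (nat_lit 76) (nat_lit 2311578549928) (nat_lit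 76) (nat_lit 2311435880042) (nat_lit 1) (nat_lit 4) (nat_lit 2) (nat_lit 5) (nat_lit 2) (nat_lit 4) (nat_lit 544) (nat_lit 353) (nat_lit 303)) (XT.nd (nat_lit 58344) (nat_lit 0) (nat_lit 0) (XT.lf (nat_lit 0) (nat_lit 23483032985249) (nat_lit 76) (nat_lit 2494538865475) (nat_lit 76) (nat_lit 2494395965354) (nat_lit 1) (nat_lit 4) (nat_lit 2) (nat_lit 5) (nat_lit 2) (nat_lit 4) (nat_lit 545) (nat_lit 353) (nat_lit 302)) (XT.lf (nat_lit 0) (nat_lit 150168435341) (nat_lit 76) (nat_lit 46328110070) (nat_lit 76) (nat_lit 46328110070) (nat_lit 1) (nat_lit 4) (nat_lit 2) (nat_lit 5) (nat_lit 2) (nat_lit 4) (nat_lit 492) (nat_lit 354) (nat_lit 354)))) (XT.nd (nat_lit 156) (nat_lit 0) (nat_lit 0) (XT.nd (nat_lit 78) (nat_lit 0) (nat_lit 0) (XT.lf (nat_lit 0) (nat_lit 335822569633) (nat_lit 76) (nat_lit 94124102114) (nat_lit 76) (nat_lit 94112439870) (nat_lit 1) (nat_lit 4) (nat_lit 2) (nat_lit 5)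 (nat_lit 2) (nat_lit 4) (nat_lit 493) (nat_lit 354) (nat_lit 353)) (XT.lf (nat_lit 0) (nat_lit 373588423173) (nat_lit 76) (nat_lit 95998645833) (nat_lit 76) (nat_lit 95976185215) (nat_lit 1) (nat_lit 4) (nat_lit 2) (nat_lit 5) (nat_lit 2) (nat_lit 4) (nat_lit 494) (nat_lit 354) (nat_lit 352))) (XT.nd (nat_lit 78) (nat_lit 0) (nat_lit 0) (XT.lf (nat_lit 0) (nat_lit 413858228955) (nat_lit 76) (nat_lit 98290959705) (nat_lit 76) (nat_lit 98258500592) (nat_lit 1) (nat_lit 4) (nat_lit 2) (nat_lit 5) (nat_lit 2) (nat_lit 4) (nat_lit 495) (nat_lit 354) (nat_lit 351)) (XT.lf (nat_lit 0) (nat_lit 456870622864) (nat_lit 76) (nat_lit 101014627811) (nat_lit 76) (nat_lit 100972910833) (nat_lit 1) (nat_lit 4) (nat_lit 2) (nat_lit 5) (nat_lit 2) (nat_lit 4) (nat_lit 496) (nat_lit 354) (nat_lit 350)))))) (XT.nd (nat_lit 546) (nat_lit 0) (nat_lit 0) (XT.nd (nat_lit 234) (nat_lit 0) (nat_lit 0) (XT.nd (nat_lit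 78) (nat_lit 0) (nat_lit 0) (XT.lf (nat_lit 0) (nat_lit 502880493161) (nat_lit 76) (nat_lit 104185790408) (nat_lit 76) (nat_lit 104135501332) (nat_lit 1) (nat_lit 4) (nat_lit 2) (nat_lit 5) (nat_lit 2) (nat_lit 4) (nat_lit 497) (nat_lit 354) (nat_lit 349)) (XT.nd (nat_lit 78) (nat_lit 0) (nat_lit 0) (XT.lf (nat_lit 0) (nat_lit 552160490929) (nat_lit 76) (nat_lit 107823239570) (nat_lit 76) (nat_lit 107765013366) (nat_lit 1) (nat_lit 4) (nat_lit 2) (nat_lit 5) (nat_lit 2) (nat_lit 4) (nat_lit 498) (nat_lit 354) (nat_lit 348)) (XT.lf (nat_lit 0) (nat_lit 605002645785) (nat_lit 76) (nat_lit 111948530551) (nat_lit 76) (nat_lit 111882955155) (nat_lit 1) (nat_lit 4) (nat_lit 2) (nat_lit 5) (nat_lit 2) (nat_lit 4) (nat_lit 499) (nat_lit 354) (nat_lit 347)))) (XT.nd (nat_lit 156) (nat_lit 0) (nat_lit 0) (XT.nd (nat_lit 78) (nat_lit 0) (nat_lit 0) (XT.lf (nat_lit 0) (nat_lit 661720096423) (nat_lit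 76) (nat_lit 116586109520) (nat_lit 76) (nat_lit 116513729317) (nat_lit 1) (nat_lit 4) (nat_lit 2) (nat_lit 5) (nat_lit 2) (nat_lit 4) (nat_lit 500) (nat_lit 354) (nat_lit 346)) (XT.lf (nat_lit 0) (nat_lit 722648946255) (nat_lit 76) (nat_lit 121763458427) (nat_lit 76) (nat_lit 121684777475) (nat_lit 1) (nat_lit 4) (nat_lit 2) (nat_lit 5) (nat_lit 2) (nat_lit 4) (nat_lit 501) (nat_lit 354) (nat_lit 345))) (XT.nd (nat_lit 78) (nat_lit 0) (nat_lit 0) (XT.lf (nat_lit 0) (nat_lit 788150255132) (nat_lit 76) (nat_lit 127511257857) (nat_lit 76) (nat_lit 127426742880) (nat_lit 1) (nat_lit 4) (nat_lit 2) (nat_lit 5) (nat_lit 2) (nat_lit 4) (nat_lit 502) (nat_lit 354) (nat_lit 344)) (XT.lf (nat_lit 0) (nat_lit 858612178958) (nat_lit 76) (nat_lit 133863568844) (nat_lit 76) (nat_lit 133773651992) (nat_lit 1) (nat_lit 4) (nat_lit 2) (nat_lit 5) (nat_lit 2) (nat_lit 4) (nat_lit 503) (nat_lit 354) (nat_lit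 343))))) (XT.nd (nat_lit 312) (nat_lit 0) (nat_lit 0) (XT.nd (nat_lit 156) (nat_lit 0) (nat_lit 0) (XT.nd (nat_lit 78) (nat_lit 0) (nat_lit 0) (XT.lf (nat_lit 0) (nat_lit 934452269874) (nat_lit 76) (nat_lit 140858034713) (nat_lit 76) (nat_lit 140763116124) (nat_lit 1) (nat_lit 4) (nat_lit 2) (nat_lit 5) (nat_lit 2) (nat_lit 4) (nat_lit 504) (nat_lit 354) (nat_lit 342)) (XT.lf (nat_lit 0) (nat_lit 1016119950642) (nat_lit 76) (nat_lit 148536104150) (nat_lit 76) (nat_lit 148436554324) (nat_lit 1) (nat_lit 4) (nat_lit 2) (nat_lit 5) (nat_lit 2) (nat_lit 4) (nat_lit 505) (nat_lit 354) (nat_lit 341))) (XT.nd (nat_lit 78) (nat_lit 0) (nat_lit 0) (XT.lf (nat_lit 0) (nat_lit 1104099177889) (nat_lit 76) (nat_lit 156943276827) (nat_lit 76) (nat_lit 156839438817) (nat_lit 1) (nat_lit 4) (nat_lit 2) (nat_lit 5) (nat_lit 2) (nat_lit 4) (nat_lit 506) (nat_lit 354) (nat_lit 340)) (XT.lf (nat_lit 0) (nat_lit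 1198911309997) (nat_lit 76) (nat_lit 166129373024) (nat_lit 76) (nat_lit 166021564475) (nat_lit 1) (nat_lit 4) (nat_lit 2) (nat_lit 5) (nat_lit 2) (nat_lit 4) (nat_lit 507) (nat_lit 354) (nat_lit 339)))) (XT.nd (nat_lit 156) (nat_lit 0) (nat_lit 0) (XT.nd (nat_lit 78) (nat_lit 0) (nat_lit 0) (XT.lf (nat_lit 0) (nat_lit 1301118196639) (nat_lit 76) (nat_lit 176148828869) (nat_lit 76) (nat_lit 176037343894) (nat_lit 1) (nat_lit 4) (nat_lit 2) (nat_lit 5) (nat_lit 2) (nat_lit 4) (nat_lit 508) (nat_lit 354) (nat_lit 338)) (XT.lf (nat_lit 0) (nat_lit 1411325508254) (nat_lit 76) (nat_lit 187061018914) (nat_lit 76) (nat_lit 186946129841) (nat_lit 1) (nat_lit 4) (nat_lit 2) (nat_lit 5) (nat_lit 2) (nat_lit 4) (nat_lit 509) (nat_lit 354) (nat_lit 337))) (XT.nd (nat_lit 78) (nat_lit 0) (nat_lit 0) (XT.lf (nat_lit 0) (nat_lit 1530186325207) (nat_lit 76) (nat_lit 198930607990) (nat_lit 76) (nat_lit 198812566974)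 (nat_lit 1) (nat_lit 4) (nat_lit 2) (nat_lit 5) (nat_lit 2) (nat_lit 4) (nat_lit 510) (nat_lit 354) (nat_lit 336)) (XT.lf (nat_lit 0) (nat_lit 1658405007895) (nat_lit 76) (nat_lit 211827934401) (nat_lit 76) (nat_lit 211706974920) (nat_lit 1) (nat_lit 4) (nat_lit 2) (nat_lit 5) (nat_lit 2) (nat_lit 4) (nat_lit 511) (nat_lit 354) (nat_lit 335))))))))
noncomputable def xc13 : XT := (XT.nd (nat_lit 2184) (nat_lit 0) (nat_lit 0) (XT.nd (nat_lit 1092) (nat_lit 0) (nat_lit 0) (XT.nd (nat_lit 546) (nat_lit 0) (nat_lit 0) (XT.nd (nat_lit 234) (nat_lit 0) (nat_lit 0) (XT.nd (nat_lit 78) (nat_lit 0) (nat_lit 0) (XT.lf (nat_lit 0) (nat_lit 1796741370733) (nat_lit 76) (nat_lit 225829426749) (nat_lit 76) (nat_lit 225705764985) (nat_lit 1) (nat_lit 4) (nat_lit 2) (nat_lit 5) (nat_lit 2) (nat_lit 4) (nat_lit 512) (nat_lit 354) (nat_lit 334)) (XT.nd (nat_lit 78) (nat_lit 0) (nat_lit 0) (XT.lf (nat_lit 0)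 (nat_lit 1946015184762) (nat_lit 76) (nat_lit 241018056840) (nat_lit 76) (nat_lit 240891892962) (nat_lit 1) (nat_lit 4) (nat_lit 2) (nat_lit 5) (nat_lit 2) (nat_lit 4) (nat_lit 513) (nat_lit 354) (nat_lit 333)) (XT.lf (nat_lit 0) (nat_lit 2107111035545) (nat_lit 76) (nat_lit 257483831371) (nat_lit 76) (nat_lit 257355350722) (nat_lit 1) (nat_lit 4) (nat_lit 2) (nat_lit 5) (nat_lit 2) (nat_lit 4) (nat_lit 514) (nat_lit 354) (nat_lit 332)))) (XT.nd (nat_lit 156) (nat_lit 0) (nat_lit 0) (XT.nd (nat_lit 78) (nat_lit 0) (nat_lit 0) (XT.lf (nat_lit 0) (nat_lit 2280983565162) (nat_lit 76) (nat_lit 275324325302) (nat_lit 76) (nat_lit 275193699494) (nat_lit 1) (nat_lit 4) (nat_lit 2) (nat_lit 5) (nat_lit 2) (nat_lit 4) (nat_lit 515) (nat_lit 354) (nat_lit 331)) (XT.lf (nat_lit 0) (nat_lit 2468663129342) (nat_lit 76) (nat_lit 294645260080) (nat_lit 76) (nat_lit 294512648013) (nat_lit 1) (nat_lit 4)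 (nat_lit 2) (nat_lit 5) (nat_lit 2) (nat_lit 4) (nat_lit 516) (nat_lit 354) (nat_lit 330))) (XT.nd (nat_lit 78) (nat_lit 0) (nat_lit 0) (XT.lf (nat_lit 0) (nat_lit 2671261903282) (nat_lit 76) (nat_lit 315561130131) (nat_lit 76) (nat_lit 315426678937) (nat_lit 1) (nat_lit 4) (nat_lit 2) (nat_lit 5) (nat_lit 2) (nat_lit 4) (nat_lit 517) (nat_lit 354) (nat_lit 329)) (XT.lf (nat_lit 0) (nat_lit 2889980472309) (nat_lit 76) (nat_lit 338195881354) (nat_lit 76) (nat_lit 338059727262) (nat_lit 1) (nat_lit 4) (nat_lit 2) (nat_lit 5) (nat_lit 2) (nat_lit 4) (nat_lit 518) (nat_lit 354) (nat_lit 328))))) (XT.nd (nat_lit 234) (nat_lit 0) (nat_lit 0) (XT.nd (nat_lit 78) (nat_lit 0) (nat_lit 0) (XT.lf (nat_lit 0) (nat_lit 3126114946460) (nat_lit 76) (nat_lit 362683645606) (nat_lit 76) (nat_lit 362545914758) (nat_lit 1) (nat_lit 4) (nat_lit 2) (nat_lit 5) (nat_lit 2) (nat_lit 4) (nat_lit 519) (nat_lit 354)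 (nat_lit 327)) (XT.nd (nat_lit 78) (nat_lit 0) (nat_lit 0) (XT.lf (nat_lit 0) (nat_lit 3381064641140) (nat_lit 76) (nat_lit 389169535565) (nat_lit 76) (nat_lit 389030344758) (nat_lit 1) (nat_lit 4) (nat_lit 2) (nat_lit 5) (nat_lit 2) (nat_lit 4) (nat_lit 520) (nat_lit 354) (nat_lit 326)) (XT.lf (nat_lit 0) (nat_lit 3656340369352) (nat_lit 76) (nat_lit 417810504652) (nat_lit 76) (nat_lit 417669962032) (nat_lit 1) (nat_lit 4) (nat_lit 2) (nat_lit 5) (nat_lit 2) (nat_lit 4) (nat_lit 521) (nat_lit 354) (nat_lit 325)))) (XT.nd (nat_lit 156) (nat_lit 0) (nat_lit 0) (XT.nd (nat_lit 78) (nat_lit 0) (nat_lit 0) (XT.lf (nat_lit 0) (nat_lit 3953573394672) (nat_lit 76) (nat_lit 448776277130) (nat_lit 76) (nat_lit 448634482830) (nat_lit 1) (nat_lit 4) (nat_lit 2) (nat_lit 5) (nat_lit 2) (nat_lit 4) (nat_lit 522) (nat_lit 354) (nat_lit 324)) (XT.lf (nat_lit 0) (nat_lit 4274525097990) (nat_lit 76) (nat_lit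 482250353872) (nat_lit 76) (nat_lit 482107400609) (nat_lit 1) (nat_lit 4) (nat_lit 2) (nat_lit 5) (nat_lit 2) (nat_lit 4) (nat_lit 523) (nat_lit 354) (nat_lit 323))) (XT.nd (nat_lit 78) (nat_lit 0) (nat_lit 0) (XT.lf (nat_lit 0) (nat_lit 4621097415326) (nat_lit 76) (nat_lit 518431099777) (nat_lit 76) (nat_lit 518287073400) (nat_lit 1) (nat_lit 4) (nat_lit 2) (nat_lit 5) (nat_lit 2) (nat_lit 4) (nat_lit 524) (nat_lit 354) (nat_lit 322)) (XT.lf (nat_lit 0) (nat_lit 4995344108561) (nat_lit 76) (nat_lit 557532919266) (nat_lit 76) (nat_lit 557387899265) (nat_lit 1) (nat_lit 4) (nat_lit 2) (nat_lit 5) (nat_lit 2) (nat_lit 4) (nat_lit 525) (nat_lit 354) (nat_lit 321)))))) (XT.nd (nat_lit 546) (nat_lit 0) (nat_lit 0) (XT.nd (nat_lit 234) (nat_lit 0) (nat_lit 0) (XT.nd (nat_lit 78) (nat_lit 0) (nat_lit 0) (XT.lf (nat_lit 0) (nat_lit 5399482935876) (nat_lit 76) (nat_lit 599787526824) (nat_lit 76)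 (nat_lit 599641586801) (nat_lit 1) (nat_lit 4) (nat_lit 2) (nat_lit 5) (nat_lit 2) (nat_lit 4) (nat_lit 526) (nat_lit 354) (nat_lit 320)) (XT.nd (nat_lit 78) (nat_lit 0) (nat_lit 0) (XT.lf (nat_lit 0) (nat_lit 5835908794027) (nat_lit 76) (nat_lit 645445320125) (nat_lit 76) (nat_lit 645298528231) (nat_lit 1) (nat_lit 4) (nat_lit 2) (nat_lit 5) (nat_lit 2) (nat_lit 4) (nat_lit 527) (nat_lit 354) (nat_lit 319)) (XT.lf (nat_lit 0) (nat_lit 6307207910321) (nat_lit 76) (nat_lit 694776863872) (nat_lit 76) (nat_lit 694629283206) (nat_lit 1) (nat_lit 4) (nat_lit 2) (nat_lit 5) (nat_lit 2) (nat_lit 4) (nat_lit 528) (nat_lit 354) (nat_lit 318)))) (XT.nd (nat_lit 156) (nat_lit 0) (nat_lit 0) (XT.nd (nat_lit 78) (nat_lit 0) (nat_lit 0) (XT.lf (nat_lit 0) (nat_lit 6816173168409) (nat_lit 76) (nat_lit 748074493137) (nat_lit 76) (nat_lit 747926182129) (nat_lit 1) (nat_lit 4) (nat_lit 2) (nat_lit 5) (nat_lit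 2) (nat_lit 4) (nat_lit 529) (nat_lit 354) (nat_lit 317)) (XT.lf (nat_lit 0) (nat_lit 7365820658710) (nat_lit 76) (nat_lit 805654045724) (nat_lit 76) (nat_lit 805505058472) (nat_lit 1) (nat_lit 4) (nat_lit 2) (nat_lit 5) (nat_lit 2) (nat_lit 4) (nat_lit 530) (nat_lit 354) (nat_lit 316))) (XT.nd (nat_lit 78) (nat_lit 0) (nat_lit 0) (XT.lf (nat_lit 0) (nat_lit 7959407551538) (nat_lit 76) (nat_lit 867856733796) (nat_lit 76) (nat_lit 867707120393) (nat_lit 1) (nat_lit 4) (nat_lit 2) (nat_lit 5) (nat_lit 2) (nat_lit 4) (nat_lit 531) (nat_lit 354) (nat_lit 315)) (XT.lf (nat_lit 0) (nat_lit 8600451398849) (nat_lit 76) (nat_lit 935051165876) (nat_lit 76) (nat_lit 934900972703) (nat_lit 1) (nat_lit 4) (nat_lit 2) (nat_lit 5) (nat_lit 2) (nat_lit 4) (nat_lit 532) (nat_lit 354) (nat_lit 314))))) (XT.nd (nat_lit 234) (nat_lit 0) (nat_lit 0) (XT.nd (nat_lit 78) (nat_lit 0) (nat_lit 0) (XT.lf (nat_lit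 0) (nat_lit 9292750978998) (nat_lit 76) (nat_lit 1007635531190) (nat_lit 76) (nat_lit 1007484801193) (nat_lit 1) (nat_lit 4) (nat_lit 2) (nat_lit 5) (nat_lit 2) (nat_lit 4) (nat_lit 533) (nat_lit 354) (nat_lit 313)) (XT.nd (nat_lit 78) (nat_lit 0) (nat_lit 0) (XT.lf (nat_lit 0) (nat_lit 10040408808015) (nat_lit 76) (nat_lit 1086039959311) (nat_lit 76) (nat_lit 1085888732254) (nat_lit 1) (nat_lit 4) (nat_lit 2) (nat_lit 5) (nat_lit 2) (nat_lit 4) (nat_lit 534) (nat_lit 354) (nat_lit 312)) (XT.lf (nat_lit 0) (nat_lit 10847855450814) (nat_lit 76) (nat_lit 1170729069072) (nat_lit 76) (nat_lit 1170577381775) (nat_lit 1) (nat_lit 4) (nat_lit 2) (nat_lit 5) (nat_lit 2) (nat_lit 4) (nat_lit 535) (nat_lit 354) (nat_lit 311)))) (XT.nd (nat_lit 156) (nat_lit 0) (nat_lit 0) (XT.nd (nat_lit 78) (nat_lit 0) (nat_lit 0) (XT.lf (nat_lit 0) (nat_lit 11719875776388) (nat_lit 76) (nat_lit 1262204721863) (nat_lit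 76) (nat_lit 1262052608418) (nat_lit 1) (nat_lit 4) (nat_lit 2) (nat_lit 5) (nat_lit 2) (nat_lit 4) (nat_lit 536) (nat_lit 354) (nat_lit 310)) (XT.lf (nat_lit 0) (nat_lit 12661637312593) (nat_lit 76) (nat_lit 1361008995629) (nat_lit 76) (nat_lit 1360856487602) (nat_lit 1) (nat_lit 4) (nat_lit 2) (nat_lit 5) (nat_lit 2) (nat_lit 4) (nat_lit 537) (nat_lit 354) (nat_lit 309))) (XT.nd (nat_lit 78) (nat_lit 0) (nat_lit 0) (XT.lf (nat_lit 0) (nat_lit 13678720868532) (nat_lit 76) (nat_lit 1467727397175) (nat_lit 76) (nat_lit 1467574523795) (nat_lit 1) (nat_lit 4) (nat_lit 2) (nat_lit 5) (nat_lit 2) (nat_lit 4) (nat_lit 538) (nat_lit 354) (nat_lit 308)) (XT.lf (nat_lit 0) (nat_lit 14777153606018) (nat_lit 76) (nat_lit 1582992331845) (nat_lit 76) (nat_lit 1582839120175) (nat_lit 1) (nat_lit 4) (nat_lit 2) (nat_lit 5) (nat_lit 2) (nat_lit 4) (nat_lit 539) (nat_lit 354) (nat_lit 307))))))) (XT.nd (nat_lit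 59202) (nat_lit 0) (nat_lit 0) (XT.nd (nat_lit 58656) (nat_lit 0) (nat_lit 0) (XT.nd (nat_lit 234) (nat_lit 0) (nat_lit 0) (XT.nd (nat_lit 78) (nat_lit 0) (nat_lit 0) (XT.lf (nat_lit 0) (nat_lit 15963444756089) (nat_lit 76) (nat_lit 1707486851103) (nat_lit 76) (nat_lit 1707333326202) (nat_lit 1) (nat_lit 4) (nat_lit 2) (nat_lit 5) (nat_lit 2) (nat_lit 4) (nat_lit 540) (nat_lit 354) (nat_lit 306)) (XT.nd (nat_lit 78) (nat_lit 0) (nat_lit 0) (XT.lf (nat_lit 0) (nat_lit 17244624192226) (nat_lit 76) (nat_lit 1841948700249) (nat_lit 76) (nat_lit 1841794885318) (nat_lit 1) (nat_lit 4) (nat_lit 2) (nat_lit 5) (nat_lit 2) (nat_lit 4) (nat_lit 541) (nat_lit 354) (nat_lit 305)) (XT.lf (nat_lit 0) (nat_lit 18628284088865) (nat_lit 76) (nat_lit 1987174690241) (nat_lit 76) (nat_lit 1987020606764) (nat_lit 1) (nat_lit 4) (nat_lit 2) (nat_lit 5) (nat_lit 2) (nat_lit 4) (nat_lit 542) (nat_lit 354) (nat_lit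 304)))) (XT.nd (nat_lit 156) (nat_lit 0) (nat_lit 0) (XT.nd (nat_lit 78) (nat_lit 0) (nat_lit 0) (XT.lf (nat_lit 0) (nat_lit 20122623912060) (nat_lit 76) (nat_lit 2144025419537) (nat_lit 76) (nat_lit 2143871087407) (nat_lit 1) (nat_lit 4) (nat_lit 2) (nat_lit 5) (nat_lit 2) (nat_lit 4) (nat_lit 543) (nat_lit 354) (nat_lit 303)) (XT.lf (nat_lit 0) (nat_lit 21736499008913) (nat_lit 76) (nat_lit 2313430373941) (nat_lit 76) (nat_lit 2313275811576) (nat_lit 1) (nat_lit 4) (nat_lit 2) (nat_lit 5) (nat_lit 2) (nat_lit 4) (nat_lit 544) (nat_lit 354) (nat_lit 302))) (XT.nd (nat_lit 58188) (nat_lit 0) (nat_lit 0) (XT.lf (nat_lit 0) (nat_lit 23479473083700) (nat_lit 76) (nat_lit 2496393434664) (nat_lit 76) (nat_lit 2496238659119) (nat_lit 1) (nat_lit 4) (nat_lit 2) (nat_lit 5) (nat_lit 2) (nat_lit 4) (nat_lit 545) (nat_lit 354) (nat_lit 301)) (XT.lf (nat_lit 0) (nat_lit 117845181232) (nat_lit 76) (nat_lit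 45379204382) (nat_lit 76) (nat_lit 45379204382) (nat_lit 1) (nat_lit 4) (nat_lit 2) (nat_lit 5) (nat_lit 2) (nat_lit 4) (nat_lit 490) (nat_lit 355) (nat_lit 355))))) (XT.nd (nat_lit 234) (nat_lit 0) (nat_lit 0) (XT.nd (nat_lit 78) (nat_lit 0) (nat_lit 0) (XT.lf (nat_lit 0) (nat_lit 266921040700) (nat_lit 76) (nat_lit 91598896577) (nat_lit 76) (nat_lit 91586301353) (nat_lit 1) (nat_lit 4) (nat_lit 2) (nat_lit 5) (nat_lit 2) (nat_lit 4) (nat_lit 491) (nat_lit 355) (nat_lit 354)) (XT.nd (nat_lit 78) (nat_lit 0) (nat_lit 0) (XT.lf (nat_lit 0) (nat_lit 300046775764) (nat_lit 76) (nat_lit 92818993096) (nat_lit 76) (nat_lit 92794735628) (nat_lit 1) (nat_lit 4) (nat_lit 2) (nat_lit 5) (nat_lit 2) (nat_lit 4) (nat_lit 492) (nat_lit 355) (nat_lit 353)) (XT.lf (nat_lit 0) (nat_lit 335263868307) (nat_lit 76) (nat_lit 94425928526) (nat_lit 76) (nat_lit 94390872683) (nat_lit 1) (nat_lit 4) (nat_lit 2)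 (nat_lit 5) (nat_lit 2) (nat_lit 4) (nat_lit 493) (nat_lit 355) (nat_lit 352)))) (XT.nd (nat_lit 156) (nat_lit 0) (nat_lit 0) (XT.nd (nat_lit 78) (nat_lit 0) (nat_lit 0) (XT.lf (nat_lit 0) (nat_lit 372781012212) (nat_lit 76) (nat_lit 96429225444) (nat_lit 76) (nat_lit 96384171107) (nat_lit 1) (nat_lit 4) (nat_lit 2) (nat_lit 5) (nat_lit 2) (nat_lit 4) (nat_lit 494) (nat_lit 355) (nat_lit 351)) (XT.lf (nat_lit 0) (nat_lit 412820531295) (nat_lit 76) (nat_lit 98840755241) (nat_lit 76) (nat_lit 98786443039) (nat_lit 1) (nat_lit 4) (nat_lit 2) (nat_lit 5) (nat_lit 2) (nat_lit 4) (nat_lit 495) (nat_lit 355) (nat_lit 350))) (XT.nd (nat_lit 78) (nat_lit 0) (nat_lit 0) (XT.lf (nat_lit 0) (nat_lit 455619696778) (nat_lit 76) (nat_lit 101674808464) (nat_lit 76) (nat_lit 101611924164) (nat_lit 1) (nat_lit 4) (nat_lit 2) (nat_lit 5) (nat_lit 2) (nat_lit 4) (nat_lit 496) (nat_lit 355) (nat_lit 349)) (XT.lf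 (nat_lit 0) (nat_lit 501432133348) (nat_lit 76) (nat_lit 104948179502) (nat_lit 76) (nat_lit 104877358074) (nat_lit 1) (nat_lit 4) (nat_lit 2) (nat_lit 5) (nat_lit 2) (nat_lit 4) (nat_lit 497) (nat_lit 355) (nat_lit 348)))))) (XT.nd (nat_lit 546) (nat_lit 0) (nat_lit 0) (XT.nd (nat_lit 234) (nat_lit 0) (nat_lit 0) (XT.nd (nat_lit 78) (nat_lit 0) (nat_lit 0) (XT.lf (nat_lit 0) (nat_lit 550529322109) (nat_lit 76) (nat_lit 108680266109) (nat_lit 76) (nat_lit 108602095489) (nat_lit 1) (nat_lit 4) (nat_lit 2) (nat_lit 5) (nat_lit 2) (nat_lit 4) (nat_lit 498) (nat_lit 355) (nat_lit 347)) (XT.nd (nat_lit 78) (nat_lit 0) (nat_lit 0) (XT.lf (nat_lit 0) (nat_lit 603202209366) (nat_lit 76) (nat_lit 112893184354) (nat_lit 76) (nat_lit 112808208927) (nat_lit 1) (nat_lit 4) (nat_lit 2) (nat_lit 5) (nat_lit 2) (nat_lit 4) (nat_lit 499) (nat_lit 355) (nat_lit 346)) (XT.lf (nat_lit 0) (nat_lit 659762930746)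 (nat_lit 76) (nat_lit 117611899679) (nat_lit 76) (nat_lit 117520623504) (nat_lit 1) (nat_lit 4) (nat_lit 2) (nat_lit 5) (nat_lit 2) (nat_lit 4) (nat_lit 500) (nat_lit 355) (nat_lit 345)))) (XT.nd (nat_lit 156) (nat_lit 0) (nat_lit 0) (XT.nd (nat_lit 78) (nat_lit 0) (nat_lit 0) (XT.lf (nat_lit 0) (nat_lit 720546660894) (nat_lit 76) (nat_lit 122864374841) (nat_lit 76) (nat_lit 122767264640) (nat_lit 1) (nat_lit 4) (nat_lit 2) (nat_lit 5) (nat_lit 2) (nat_lit 4) (nat_lit 501) (nat_lit 355) (nat_lit 344)) (XT.lf (nat_lit 0) (nat_lit 785913599694) (nat_lit 76) (nat_lit 128681735619) (nat_lit 76) (nat_lit 128579223542) (nat_lit 1) (nat_lit 4) (nat_lit 2) (nat_lit 5) (nat_lit 2) (nat_lit 4) (nat_lit 502) (nat_lit 355) (nat_lit 343))) (XT.nd (nat_lit 78) (nat_lit 0) (nat_lit 0) (XT.lf (nat_lit 0) (nat_lit 856251106782) (nat_lit 76) (nat_lit 135098455261) (nat_lit 76) (nat_lit 134990941448) (nat_lit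 1) (nat_lit 4) (nat_lit 2) (nat_lit 5) (nat_lit 2) (nat_lit 4) (nat_lit 503) (nat_lit 355) (nat_lit 342)) (XT.lf (nat_lit 0) (nat_lit 931975997015) (nat_lit 76) (nat_lit 142152558774) (nat_lit 76) (nat_lit 142040413723) (nat_lit 1) (nat_lit 4) (nat_lit 2) (nat_lit 5) (nat_lit 2) (nat_lit 4) (nat_lit 504) (nat_lit 355) (nat_lit 341))))) (XT.nd (nat_lit 312) (nat_lit 0) (nat_lit 0) (XT.nd (nat_lit 156) (nat_lit 0) (nat_lit 0) (XT.nd (nat_lit 78) (nat_lit 0) (nat_lit 0) (XT.lf (nat_lit 0) (nat_lit 1013537010483) (nat_lit 76) (nat_lit 149885848251) (nat_lit 76) (nat_lit 149769415018) (nat_lit 1) (nat_lit 4) (nat_lit 2) (nat_lit 5) (nat_lit 2) (nat_lit 4) (nat_lit 505) (nat_lit 355) (nat_lit 340)) (XT.lf (nat_lit 0) (nat_lit 1101417471711) (nat_lit 76) (nat_lit 158344150594) (nat_lit 76) (nat_lit 158223746821) (nat_lit 1) (nat_lit 4) (nat_lit 2) (nat_lit 5) (nat_lit 2) (nat_lit 4) (nat_lit 506)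 (nat_lit 355) (nat_lit 339))) (XT.nd (nat_lit 78) (nat_lit 0) (nat_lit 0) (XT.lf (nat_lit 0) (nat_lit 1196138153803) (nat_lit 76) (nat_lit 167577589076) (nat_lit 76) (nat_lit 167453508877) (nat_lit 1) (nat_lit 4) (nat_lit 2) (nat_lit 5) (nat_lit 2) (nat_lit 4) (nat_lit 507) (nat_lit 355) (nat_lit 338)) (XT.lf (nat_lit 0) (nat_lit 1298260364503) (nat_lit 76) (nat_lit 177640880370) (nat_lit 76) (nat_lit 177513396073) (nat_lit 1) (nat_lit 4) (nat_lit 2) (nat_lit 5) (nat_lit 2) (nat_lit 4) (nat_lit 508) (nat_lit 355) (nat_lit 337)))) (XT.nd (nat_lit 156) (nat_lit 0) (nat_lit 0) (XT.nd (nat_lit 78) (nat_lit 0) (nat_lit 0) (XT.lf (nat_lit 0) (nat_lit 1408389272468) (nat_lit 76) (nat_lit 188593658793) (nat_lit 76) (nat_lit 188463022554) (nat_lit 1) (nat_lit 4) (nat_lit 2) (nat_lit 5) (nat_lit 2) (nat_lit 4) (nat_lit 509) (nat_lit 355) (nat_lit 336)) (XT.lf (nat_lit 0) (nat_lit 1527177493450) (nat_lit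 76) (nat_lit 200500829700) (nat_lit 76) (nat_lit 200367274995) (nat_lit 1) (nat_lit 4) (nat_lit 2) (nat_lit 5) (nat_lit 2) (nat_lit 4) (nat_lit 510) (nat_lit 355) (nat_lit 335))) (XT.nd (nat_lit 78) (nat_lit 0) (nat_lit 0) (XT.lf (nat_lit 0) (nat_lit 1655328957645) (nat_lit 76) (nat_lit 213432954103) (nat_lit 76) (nat_lit 213296697116) (nat_lit 1) (nat_lit 4) (nat_lit 2) (nat_lit 5) (nat_lit 2) (nat_lit 4) (nat_lit 511) (nat_lit 355) (nat_lit 334)) (XT.lf (nat_lit 0) (nat_lit 1793603081139) (nat_lit 76) (nat_lit 227466666814) (nat_lit 76) (nat_lit 227327907713) (nat_lit 1) (nat_lit 4) (nat_lit 2) (nat_lit 5) (nat_lit 2) (nat_lit 4) (nat_lit 512) (nat_lit 355) (nat_lit 333))))))))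
noncomputable def xc14 : XT := (XT.nd (nat_lit 2184) (nat_lit 0) (nat_lit 0) (XT.nd (nat_lit 1092) (nat_lit 0) (nat_lit 0) (XT.nd (nat_lit 546) (nat_lit 0) (nat_lit 0) (XT.nd (nat_lit 234) (nat_lit 0) (nat_lit 0) (XT.nd (nat_lit 78) (nat_lit 0) (nat_lit 0) (XT.lf (nat_lit 0) (nat_lit 1942819266145) (nat_lit 76) (nat_lit 242685130575) (nat_lit 76) (nat_lit 242544054702) (nat_lit 1) (nat_lit 4) (nat_lit 2) (nat_lit 5) (nat_lit 2) (nat_lit 4) (nat_lit 513) (nat_lit 355) (nat_lit 332)) (XT.nd (nat_lit 78) (nat_lit 0) (nat_lit 0) (XT.lf (nat_lit 0) (nat_lit 2103861756721) (nat_lit 76) (nat_lit 259178528875) (nat_lit 76) (nat_lit 259035307843) (nat_lit 1) (nat_lit 4) (nat_lit 2) (nat_lit 5) (nat_lit 2) (nat_lit 4) (nat_lit 514) (nat_lit 355) (nat_lit 331)) (XT.lf (nat_lit 0) (nat_lit 2277684878739) (nat_lit 76) (nat_lit 277044600369) (nat_lit 76) (nat_lit 276899393079) (nat_lit 1) (nat_lit 4)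 (nat_lit 2) (nat_lit 5) (nat_lit 2) (nat_lit 4) (nat_lit 515) (nat_lit 355) (nat_lit 330)))) (XT.nd (nat_lit 156) (nat_lit 0) (nat_lit 0) (XT.nd (nat_lit 78) (nat_lit 0) (nat_lit 0) (XT.lf (nat_lit 0) (nat_lit 2465318695143) (nat_lit 76) (nat_lit 296389218075) (nat_lit 76) (nat_lit 296242171657) (nat_lit 1) (nat_lit 4) (nat_lit 2) (nat_lit 5) (nat_lit 2) (nat_lit 4) (nat_lit 516) (nat_lit 355) (nat_lit 329)) (XT.lf (nat_lit 0) (nat_lit 2667875110031) (nat_lit 76) (nat_lit 317327016765) (nat_lit 76) (nat_lit 317178267450) (nat_lit 1) (nat_lit 4) (nat_lit 2) (nat_lit 5) (nat_lit 2) (nat_lit 4) (nat_lit 517) (nat_lit 355) (nat_lit 328))) (XT.nd (nat_lit 78) (nat_lit 0) (nat_lit 0) (XT.lf (nat_lit 0) (nat_lit 2886554457713) (nat_lit 76) (nat_lit 339982072281) (nat_lit 76) (nat_lit 339831746210) (nat_lit 1) (nat_lit 4) (nat_lit 2) (nat_lit 5) (nat_lit 2) (nat_lit 4) (nat_lit 518) (nat_lit 355)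 (nat_lit 327)) (XT.lf (nat_lit 0) (nat_lit 3122652615805) (nat_lit 76) (nat_lit 364488636806) (nat_lit 76) (nat_lit 364336850775) (nat_lit 1) (nat_lit 4) (nat_lit 2) (nat_lit 5) (nat_lit 2) (nat_lit 4) (nat_lit 519) (nat_lit 355) (nat_lit 326))))) (XT.nd (nat_lit 234) (nat_lit 0) (nat_lit 0) (XT.nd (nat_lit 78) (nat_lit 0) (nat_lit 0) (XT.lf (nat_lit 0) (nat_lit 3377568684502) (nat_lit 76) (nat_lit 390991934424) (nat_lit 76) (nat_lit 390838796580) (nat_lit 1) (nat_lit 4) (nat_lit 2) (nat_lit 5) (nat_lit 2) (nat_lit 4) (nat_lit 520) (nat_lit 355) (nat_lit 325)) (XT.nd (nat_lit 78) (nat_lit 0) (nat_lit 0) (XT.lf (nat_lit 0) (nat_lit 3652813277547) (nat_lit 76) (nat_lit 419649021715) (nat_lit 76) (nat_lit 419494632191) (nat_lit 1) (nat_lit 4) (nat_lit 2) (nat_lit 5) (nat_lit 2) (nat_lit 4) (nat_lit 521) (nat_lit 355) (nat_lit 324)) (XT.lf (nat_lit 0) (nat_lit 3950017474007) (nat_lit 76) (nat_lit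 450629718456) (nat_lit 76) (nat_lit 450474169969) (nat_lit 1) (nat_lit 4) (nat_lit 2) (nat_lit 5) (nat_lit 2) (nat_lit 4) (nat_lit 522) (nat_lit 355) (nat_lit 323)))) (XT.nd (nat_lit 156) (nat_lit 0) (nat_lit 0) (XT.nd (nat_lit 78) (nat_lit 0) (nat_lit 0) (XT.lf (nat_lit 0) (nat_lit 4270942483937) (nat_lit 76) (nat_lit 484117613959) (nat_lit 76) (nat_lit 483960992359) (nat_lit 1) (nat_lit 4) (nat_lit 2) (nat_lit 5) (nat_lit 2) (nat_lit 4) (nat_lit 523) (nat_lit 355) (nat_lit 322)) (XT.lf (nat_lit 0) (nat_lit 4617490085173) (nat_lit 76) (nat_lit 520311155014) (nat_lit 76) (nat_lit 520153539790) (nat_lit 1) (nat_lit 4) (nat_lit 2) (nat_lit 5) (nat_lit 2) (nat_lit 4) (nat_lit 524) (nat_lit 355) (nat_lit 321))) (XT.nd (nat_lit 78) (nat_lit 0) (nat_lit 0) (XT.lf (nat_lit 0) (nat_lit 4991713893130) (nat_lit 76) (nat_lit 559424821863) (nat_lit 76) (nat_lit 559266286617) (nat_lit 1) (nat_lit 4)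 (nat_lit 2) (nat_lit 5) (nat_lit 2) (nat_lit 4) (nat_lit 525) (nat_lit 355) (nat_lit 320)) (XT.lf (nat_lit 0) (nat_lit 5395831530374) (nat_lit 76) (nat_lit 601690399199) (nat_lit 76) (nat_lit 601531012081) (nat_lit 1) (nat_lit 4) (nat_lit 2) (nat_lit 5) (nat_lit 2) (nat_lit 4) (nat_lit 526) (nat_lit 355) (nat_lit 319)))))) (XT.nd (nat_lit 546) (nat_lit 0) (nat_lit 0) (XT.nd (nat_lit 234) (nat_lit 0) (nat_lit 0) (XT.nd (nat_lit 78) (nat_lit 0) (nat_lit 0) (XT.lf (nat_lit 0) (nat_lit 5832237768087) (nat_lit 76) (nat_lit 647358349703) (nat_lit 76) (nat_lit 647198173814) (nat_lit 1) (nat_lit 4) (nat_lit 2) (nat_lit 5) (nat_lit 2) (nat_lit 4) (nat_lit 527) (nat_lit 355) (nat_lit 318)) (XT.nd (nat_lit 78) (nat_lit 0) (nat_lit 0) (XT.lf (nat_lit 0) (nat_lit 6303518717309) (nat_lit 76) (nat_lit 696699298267) (nat_lit 76) (nat_lit 696538392034) (nat_lit 1) (nat_lit 4) (nat_lit 2) (nat_lit 5) (nat_lit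 2) (nat_lit 4) (nat_lit 528) (nat_lit 355) (nat_lit 317)) (XT.lf (nat_lit 0) (nat_lit 6812467154035) (nat_lit 76) (nat_lit 750005635695) (nat_lit 76) (nat_lit 749844053220) (nat_lit 1) (nat_lit 4) (nat_lit 2) (nat_lit 5) (nat_lit 2) (nat_lit 4) (nat_lit 529) (nat_lit 355) (nat_lit 316)))) (XT.nd (nat_lit 156) (nat_lit 0) (nat_lit 0) (XT.nd (nat_lit 78) (nat_lit 0) (nat_lit 0) (XT.lf (nat_lit 0) (nat_lit 7362099069001) (nat_lit 76) (nat_lit 807593251397) (nat_lit 76) (nat_lit 807431042770) (nat_lit 1) (nat_lit 4) (nat_lit 2) (nat_lit 5) (nat_lit 2) (nat_lit 4) (nat_lit 530) (nat_lit 355) (nat_lit 315)) (XT.lf (nat_lit 0) (nat_lit 7955671540221) (nat_lit 76) (nat_lit 869803405316) (nat_lit 76) (nat_lit 869640616919) (nat_lit 1) (nat_lit 4) (nat_lit 2) (nat_lit 5) (nat_lit 2) (nat_lit 4) (nat_lit 531) (nat_lit 355) (nat_lit 314))) (XT.nd (nat_lit 78) (nat_lit 0) (nat_lit 0) (XT.lf (nat_lit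 0) (nat_lit 8596702034192) (nat_lit 76) (nat_lit 937004750217) (nat_lit 76) (nat_lit 936841424996) (nat_lit 1) (nat_lit 4) (nat_lit 2) (nat_lit 5) (nat_lit 2) (nat_lit 4) (nat_lit 532) (nat_lit 355) (nat_lit 313)) (XT.lf (nat_lit 0) (nat_lit 9288989250138) (nat_lit 76) (nat_lit 1009595516292) (nat_lit 76) (nat_lit 1009431694011) (nat_lit 1) (nat_lit 4) (nat_lit 2) (nat_lit 5) (nat_lit 2) (nat_lit 4) (nat_lit 533) (nat_lit 355) (nat_lit 312))))) (XT.nd (nat_lit 234) (nat_lit 0) (nat_lit 0) (XT.nd (nat_lit 78) (nat_lit 0) (nat_lit 0) (XT.lf (nat_lit 0) (nat_lit 10036635630818) (nat_lit 76) (nat_lit 1088005871042) (nat_lit 76) (nat_lit 1087841588522) (nat_lit 1) (nat_lit 4) (nat_lit 2) (nat_lit 5) (nat_lit 2) (nat_lit 4) (nat_lit 534) (nat_lit 355) (nat_lit 311)) (XT.nd (nat_lit 78) (nat_lit 0) (nat_lit 0) (XT.lf (nat_lit 0) (nat_lit 10844071673305) (nat_lit 76) (nat_lit 1172700468423) (nat_lit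 76) (nat_lit 1172535759755) (nat_lit 1) (nat_lit 4) (nat_lit 2) (nat_lit 5) (nat_lit 2) (nat_lit 4) (nat_lit 535) (nat_lit 355) (nat_lit 310)) (XT.lf (nat_lit 0) (nat_lit 11716082183776) (nat_lit 76) (nat_lit 1264181202345) (nat_lit 76) (nat_lit 1264016099095) (nat_lit 1) (nat_lit 4) (nat_lit 2) (nat_lit 5) (nat_lit 2) (nat_lit 4) (nat_lit 536) (nat_lit 355) (nat_lit 309)))) (XT.nd (nat_lit 156) (nat_lit 0) (nat_lit 0) (XT.nd (nat_lit 78) (nat_lit 0) (nat_lit 0) (XT.lf (nat_lit 0) (nat_lit 12657834631922) (nat_lit 76) (nat_lit 1362990180860) (nat_lit 76) (nat_lit 1362824712257) (nat_lit 1) (nat_lit 4) (nat_lit 2) (nat_lit 5) (nat_lit 2) (nat_lit 4) (nat_lit 537) (nat_lit 355) (nat_lit 308)) (XT.lf (nat_lit 0) (nat_lit 13674909772992) (nat_lit 76) (nat_lit 1469712938657) (nat_lit 76) (nat_lit 1469547131763) (nat_lit 1) (nat_lit 4) (nat_lit 2) (nat_lit 5) (nat_lit 2) (nat_lit 4) (nat_lit 538)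 (nat_lit 355) (nat_lit 307))) (XT.nd (nat_lit 78) (nat_lit 0) (nat_lit 0) (XT.lf (nat_lit 0) (nat_lit 14773334718933) (nat_lit 76) (nat_lit 1584981906891) (nat_lit 76) (nat_lit 1584815786766) (nat_lit 1) (nat_lit 4) (nat_lit 2) (nat_lit 5) (nat_lit 2) (nat_lit 4) (nat_lit 539) (nat_lit 355) (nat_lit 306)) (XT.lf (nat_lit 0) (nat_lit 15959618654610) (nat_lit 76) (nat_lit 1709480160932) (nat_lit 76) (nat_lit 1709313750777) (nat_lit 1) (nat_lit 4) (nat_lit 2) (nat_lit 5) (nat_lit 2) (nat_lit 4) (nat_lit 540) (nat_lit 355) (nat_lit 305))))))) (XT.nd (nat_lit 59046) (nat_lit 0) (nat_lit 0) (XT.nd (nat_lit 58500) (nat_lit 0) (nat_lit 0) (XT.nd (nat_lit 234) (nat_lit 0) (nat_lit 0) (XT.nd (nat_lit 78) (nat_lit 0) (nat_lit 0) (XT.lf (nat_lit 0) (nat_lit 17240791410752) (nat_lit 76) (nat_lit 1843945468209) (nat_lit 76) (nat_lit 1843778789509) (nat_lit 1) (nat_lit 4) (nat_lit 2) (nat_lit 5) (nat_lit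 2) (nat_lit 4) (nat_lit 541) (nat_lit 355) (nat_lit 304)) (XT.nd (nat_lit 78) (nat_lit 0) (nat_lit 0) (XT.lf (nat_lit 0) (nat_lit 18624445122211) (nat_lit 76) (nat_lit 1989174660174) (nat_lit 76) (nat_lit 1989007732821) (nat_lit 1) (nat_lit 4) (nat_lit 2) (nat_lit 5) (nat_lit 2) (nat_lit 4) (nat_lit 542) (nat_lit 355) (nat_lit 303)) (XT.lf (nat_lit 0) (nat_lit 20118779218388) (nat_lit 76) (nat_lit 2146028354261) (nat_lit 76) (nat_lit 2145861196673) (nat_lit 1) (nat_lit 4) (nat_lit 2) (nat_lit 5) (nat_lit 2) (nat_lit 4) (nat_lit 543) (nat_lit 355) (nat_lit 302)))) (XT.nd (nat_lit 58110) (nat_lit 0) (nat_lit 0) (XT.nd (nat_lit 78) (nat_lit 0) (nat_lit 0) (XT.lf (nat_lit 0) (nat_lit 21732649012445) (nat_lit 76) (nat_lit 2315436053841) (nat_lit 76) (nat_lit 2315268683073) (nat_lit 1) (nat_lit 4) (nat_lit 2) (nat_lit 5) (nat_lit 2) (nat_lit 4) (nat_lit 544) (nat_lit 355) (nat_lit 301)) (XT.lf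 (nat_lit 0) (nat_lit 23475618177237) (nat_lit 76) (nat_lit 2498401656395) (nat_lit 76) (nat_lit 2498234088237) (nat_lit 1) (nat_lit 4) (nat_lit 2) (nat_lit 5) (nat_lit 2) (nat_lit 4) (nat_lit 545) (nat_lit 355) (nat_lit 300))) (XT.nd (nat_lit 78) (nat_lit 0) (nat_lit 0) (XT.lf (nat_lit 0) (nat_lit 89261196848) (nat_lit 76) (nat_lit 45018496070) (nat_lit 76) (nat_lit 45018496070) (nat_lit 1) (nat_lit 4) (nat_lit 2) (nat_lit 5) (nat_lit 2) (nat_lit 4) (nat_lit 488) (nat_lit 356) (nat_lit 356)) (XT.lf (nat_lit 0) (nat_lit 206169670370) (nat_lit 76) (nat_lit 90306151832) (nat_lit 76) (nat_lit 90292548991) (nat_lit 1) (nat_lit 4) (nat_lit 2) (nat_lit 5) (nat_lit 2) (nat_lit 4) (nat_lit 489) (nat_lit 356) (nat_lit 355))))) (XT.nd (nat_lit 234) (nat_lit 0) (nat_lit 0) (XT.nd (nat_lit 78) (nat_lit 0) (nat_lit 0) (XT.lf (nat_lit 0) (nat_lit 235377059952) (nat_lit 76) (nat_lit 90934203556) (nat_lit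 76) (nat_lit 90908005491) (nat_lit 1) (nat_lit 4) (nat_lit 2) (nat_lit 5) (nat_lit 2) (nat_lit 4) (nat_lit 490) (nat_lit 356) (nat_lit 354)) (XT.nd (nat_lit 78) (nat_lit 0) (nat_lit 0) (XT.lf (nat_lit 0) (nat_lit 266317643269) (nat_lit 76) (nat_lit 91924869101) (nat_lit 76) (nat_lit 91887008791) (nat_lit 1) (nat_lit 4) (nat_lit 2) (nat_lit 5) (nat_lit 2) (nat_lit 4) (nat_lit 491) (nat_lit 356) (nat_lit 353)) (XT.lf (nat_lit 0) (nat_lit 299174771926) (nat_lit 76) (nat_lit 93284019076) (nat_lit 76) (nat_lit 93235360392) (nat_lit 1) (nat_lit 4) (nat_lit 2) (nat_lit 5) (nat_lit 2) (nat_lit 4) (nat_lit 492) (nat_lit 356) (nat_lit 352)))) (XT.nd (nat_lit 156) (nat_lit 0) (nat_lit 0) (XT.nd (nat_lit 78) (nat_lit 0) (nat_lit 0) (XT.lf (nat_lit 0) (nat_lit 334143154834) (nat_lit 76) (nat_lit 95019707705) (nat_lit 76) (nat_lit 94961050526) (nat_lit 1) (nat_lit 4) (nat_lit 2) (nat_lit 5) (nat_lit 2)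 (nat_lit 4) (nat_lit 493) (nat_lit 356) (nat_lit 351)) (XT.lf (nat_lit 0) (nat_lit 371430012040) (nat_lit 76) (nat_lit 97142220549) (nat_lit 76) (nat_lit 97074305505) (nat_lit 1) (nat_lit 4) (nat_lit 2) (nat_lit 5) (nat_lit 2) (nat_lit 4) (nat_lit 494) (nat_lit 356) (nat_lit 350))) (XT.nd (nat_lit 78) (nat_lit 0) (nat_lit 0) (XT.lf (nat_lit 0) (nat_lit 411256302696) (nat_lit 76) (nat_lit 99664135463) (nat_lit 76) (nat_lit 99587648321) (nat_lit 1) (nat_lit 4) (nat_lit 2) (nat_lit 5) (nat_lit 2) (nat_lit 4) (nat_lit 495) (nat_lit 356) (nat_lit 349)) (XT.lf (nat_lit 0) (nat_lit 453858034453) (nat_lit 76) (nat_lit 102600397126) (nat_lit 76) (nat_lit 102515972857) (nat_lit 1) (nat_lit 4) (nat_lit 2) (nat_lit 5) (nat_lit 2) (nat_lit 4) (nat_lit 496) (nat_lit 356) (nat_lit 348)))))) (XT.nd (nat_lit 546) (nat_lit 0) (nat_lit 0) (XT.nd (nat_lit 234) (nat_lit 0) (nat_lit 0) (XT.nd (nat_lit 78) (nat_lit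 0) (nat_lit 0) (XT.lf (nat_lit 0) (nat_lit 499487662016) (nat_lit 76) (nat_lit 105968405609) (nat_lit 76) (nat_lit 105876632148) (nat_lit 1) (nat_lit 4) (nat_lit 2) (nat_lit 5) (nat_lit 2) (nat_lit 4) (nat_lit 497) (nat_lit 356) (nat_lit 347)) (XT.nd (nat_lit 78) (nat_lit 0) (nat_lit 0) (XT.lf (nat_lit 0) (nat_lit 548415583178) (nat_lit 76) (nat_lit 109788119481) (nat_lit 76) (nat_lit 109689541212) (nat_lit 1) (nat_lit 4) (nat_lit 2) (nat_lit 5) (nat_lit 2) (nat_lit 4) (nat_lit 498) (nat_lit 356) (nat_lit 346)) (XT.lf (nat_lit 0) (nat_lit 600931741177) (nat_lit 76) (nat_lit 114082174082) (nat_lit 76) (nat_lit 113977295065) (nat_lit 1) (nat_lit 4) (nat_lit 2) (nat_lit 5) (nat_lit 2) (nat_lit 4) (nat_lit 499) (nat_lit 356) (nat_lit 345)))) (XT.nd (nat_lit 156) (nat_lit 0) (nat_lit 0) (XT.nd (nat_lit 78) (nat_lit 0) (nat_lit 0) (XT.lf (nat_lit 0) (nat_lit 657347342873) (nat_lit 76) (nat_lit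 118876015662) (nat_lit 76) (nat_lit 118765302620) (nat_lit 1) (nat_lit 4) (nat_lit 2) (nat_lit 5) (nat_lit 2) (nat_lit 4) (nat_lit 500) (nat_lit 356) (nat_lit 344)) (XT.lf (nat_lit 0) (nat_lit 717996702944) (nat_lit 76) (nat_lit 124198052171) (nat_lit 76) (nat_lit 124081937253) (nat_lit 1) (nat_lit 4) (nat_lit 2) (nat_lit 5) (nat_lit 2) (nat_lit 4) (nat_lit 501) (nat_lit 356) (nat_lit 343))) (XT.nd (nat_lit 78) (nat_lit 0) (nat_lit 0) (XT.lf (nat_lit 0) (nat_lit 783239225005) (nat_lit 76) (nat_lit 130079821604) (nat_lit 76) (nat_lit 129958704949) (nat_lit 1) (nat_lit 4) (nat_lit 2) (nat_lit 5) (nat_lit 2) (nat_lit 4) (nat_lit 502) (nat_lit 356) (nat_lit 342)) (XT.lf (nat_lit 0) (nat_lit 853461531410) (nat_lit 76) (nat_lit 136556178890) (nat_lit 76) (nat_lit 136430430998) (nat_lit 1) (nat_lit 4) (nat_lit 2) (nat_lit 5) (nat_lit 2) (nat_lit 4) (nat_lit 503) (nat_lit 356) (nat_lit 341)))))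 (XT.nd (nat_lit 312) (nat_lit 0) (nat_lit 0) (XT.nd (nat_lit 156) (nat_lit 0) (nat_lit 0) (XT.nd (nat_lit 78) (nat_lit 0) (nat_lit 0) (XT.lf (nat_lit 0) (nat_lit 929079754343) (nat_lit 76) (nat_lit 143665502443) (nat_lit 76) (nat_lit 143535466368) (nat_lit 1) (nat_lit 4) (nat_lit 2) (nat_lit 5) (nat_lit 2) (nat_lit 4) (nat_lit 504) (nat_lit 356) (nat_lit 340)) (XT.lf (nat_lit 0) (nat_lit 1010542001793) (nat_lit 76) (nat_lit 151449921588) (nat_lit 76) (nat_lit 151315914973) (nat_lit 1) (nat_lit 4) (nat_lit 2) (nat_lit 5) (nat_lit 2) (nat_lit 4) (nat_lit 505) (nat_lit 356) (nat_lit 339))) (XT.nd (nat_lit 78) (nat_lit 0) (nat_lit 0) (XT.lf (nat_lit 0) (nat_lit 1098331013005) (nat_lit 76) (nat_lit 159955566215) (nat_lit 76) (nat_lit 159817883174) (nat_lit 1) (nat_lit 4) (nat_lit 2) (nat_lit 5) (nat_lit 2) (nat_lit 4) (nat_lit 506) (nat_lit 356) (nat_lit 338)) (XT.lf (nat_lit 0) (nat_lit 1192967019154)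 (nat_lit 76) (nat_lit 169232840146) (nat_lit 76) (nat_lit 169091753007) (nat_lit 1) (nat_lit 4) (nat_lit 2) (nat_lit 5) (nat_lit 2) (nat_lit 4) (nat_lit 507) (nat_lit 356) (nat_lit 337)))) (XT.nd (nat_lit 156) (nat_lit 0) (nat_lit 0) (XT.nd (nat_lit 78) (nat_lit 0) (nat_lit 0) (XT.lf (nat_lit 0) (nat_lit 1295010826205) (nat_lit 76) (nat_lit 179336719817) (nat_lit 76) (nat_lit 179192480736) (nat_lit 1) (nat_lit 4) (nat_lit 2) (nat_lit 5) (nat_lit 2) (nat_lit 4) (nat_lit 508) (nat_lit 356) (nat_lit 336)) (XT.lf (nat_lit 0) (nat_lit 1405067138199) (nat_lit 76) (nat_lit 190327080072) (nat_lit 76) (nat_lit 190179922525) (nat_lit 1) (nat_lit 4) (nat_lit 2) (nat_lit 5) (nat_lit 2) (nat_lit 4) (nat_lit 509) (nat_lit 356) (nat_lit 335))) (XT.nd (nat_lit 78) (nat_lit 0) (nat_lit 0) (XT.lf (nat_lit 0) (nat_lit 1523788140688) (nat_lit 76) (nat_lit 202269048971) (nat_lit 76) (nat_lit 202119189142) (nat_lit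 1) (nat_lit 4) (nat_lit 2) (nat_lit 5) (nat_lit 2) (nat_lit 4) (nat_lit 510) (nat_lit 356) (nat_lit 334)) (XT.lf (nat_lit 0) (nat_lit 1651877365538) (nat_lit 76) (nat_lit 215233393738) (nat_lit 76) (nat_lit 215081031795) (nat_lit 1) (nat_lit 4) (nat_lit 2) (nat_lit 5) (nat_lit 2) (nat_lit 4) (nat_lit 511) (nat_lit 356) (nat_lit 333))))))))
noncomputable def xc15 : XT := (XT.nd (nat_lit 2184) (nat_lit 0) (nat_lit 0) (XT.nd (nat_lit 1092) (nat_lit 0) (nat_lit 0) (XT.nd (nat_lit 546) (nat_lit 0) (nat_lit 0) (XT.nd (nat_lit 234) (nat_lit 0) (nat_lit 0) (XT.nd (nat_lit 78) (nat_lit 0) (nat_lit 0) (XT.lf (nat_lit 0) (nat_lit 1790093860009) (nat_lit 76) (nat_lit 229296940118) (nat_lit 76) (nat_lit 229142261404) (nat_lit 1) (nat_lit 4) (nat_lit 2) (nat_lit 5) (nat_lit 2) (nat_lit 4) (nat_lit 512) (nat_lit 356) (nat_lit 332)) (XT.nd (nat_lit 78) (nat_lit 0) (nat_lit 0) (XT.lf (nat_lit 0) (nat_lit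 1939256684808) (nat_lit 76) (nat_lit 244543027647) (nat_lit 76) (nat_lit 244386203774) (nat_lit 1) (nat_lit 4) (nat_lit 2) (nat_lit 5) (nat_lit 2) (nat_lit 4) (nat_lit 513) (nat_lit 356) (nat_lit 331)) (XT.lf (nat_lit 0) (nat_lit 2100249767787) (nat_lit 76) (nat_lit 261062003510) (nat_lit 76) (nat_lit 260903193378) (nat_lit 1) (nat_lit 4) (nat_lit 2) (nat_lit 5) (nat_lit 2) (nat_lit 4) (nat_lit 514) (nat_lit 356) (nat_lit 330)))) (XT.nd (nat_lit 156) (nat_lit 0) (nat_lit 0) (XT.nd (nat_lit 78) (nat_lit 0) (nat_lit 0) (XT.lf (nat_lit 0) (nat_lit 2274027142028) (nat_lit 76) (nat_lit 278951757933) (nat_lit 76) (nat_lit 278791108673) (nat_lit 1) (nat_lit 4) (nat_lit 2) (nat_lit 5) (nat_lit 2) (nat_lit 4) (nat_lit 515) (nat_lit 356) (nat_lit 329)) (XT.lf (nat_lit 0) (nat_lit 2461618599380) (nat_lit 76) (nat_lit 298318304277) (nat_lit 76) (nat_lit 298155952121) (nat_lit 1) (nat_lit 4) (nat_lit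 2) (nat_lit 5) (nat_lit 2) (nat_lit 4) (nat_lit 516) (nat_lit 356) (nat_lit 328))) (XT.nd (nat_lit 78) (nat_lit 0) (nat_lit 0) (XT.lf (nat_lit 0) (nat_lit 2664135792923) (nat_lit 76) (nat_lit 319276407261) (nat_lit 76) (nat_lit 319112478348) (nat_lit 1) (nat_lit 4) (nat_lit 2) (nat_lit 5) (nat_lit 2) (nat_lit 4) (nat_lit 517) (nat_lit 356) (nat_lit 327)) (XT.lf (nat_lit 0) (nat_lit 2882778824545) (nat_lit 76) (nat_lit 341950263050) (nat_lit 76) (nat_lit 341784874178) (nat_lit 1) (nat_lit 4) (nat_lit 2) (nat_lit 5) (nat_lit 2) (nat_lit 4) (nat_lit 518) (nat_lit 356) (nat_lit 326))))) (XT.nd (nat_lit 234) (nat_lit 0) (nat_lit 0) (XT.nd (nat_lit 78) (nat_lit 0) (nat_lit 0) (XT.lf (nat_lit 0) (nat_lit 3118843356655) (nat_lit 76) (nat_lit 366474235234) (nat_lit 76) (nat_lit 366307494548) (nat_lit 1) (nat_lit 4) (nat_lit 2) (nat_lit 5) (nat_lit 2) (nat_lit 4) (nat_lit 519) (nat_lit 356) (nat_lit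 325)) (XT.nd (nat_lit 78) (nat_lit 0) (nat_lit 0) (XT.lf (nat_lit 0) (nat_lit 3373728290185) (nat_lit 76) (nat_lit 392993651056) (nat_lit 76) (nat_lit 392825658690) (nat_lit 1) (nat_lit 4) (nat_lit 2) (nat_lit 5) (nat_lit 2) (nat_lit 4) (nat_lit 520) (nat_lit 356) (nat_lit 324)) (XT.lf (nat_lit 0) (nat_lit 3648944054370) (nat_lit 76) (nat_lit 421665662609) (nat_lit 76) (nat_lit 421496511281) (nat_lit 1) (nat_lit 4) (nat_lit 2) (nat_lit 5) (nat_lit 2) (nat_lit 4) (nat_lit 521) (nat_lit 356) (nat_lit 323)))) (XT.nd (nat_lit 156) (nat_lit 0) (nat_lit 0) (XT.nd (nat_lit 78) (nat_lit 0) (nat_lit 0) (XT.lf (nat_lit 0) (nat_lit 3946121557442) (nat_lit 76) (nat_lit 452660178111) (nat_lit 76) (nat_lit 452489953669) (nat_lit 1) (nat_lit 4) (nat_lit 2) (nat_lit 5) (nat_lit 2) (nat_lit 4) (nat_lit 522) (nat_lit 356) (nat_lit 322)) (XT.lf (nat_lit 0) (nat_lit 4267021851272) (nat_lit 76) (nat_lit 486160868764)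 (nat_lit 76) (nat_lit 485989650698) (nat_lit 1) (nat_lit 4) (nat_lit 2) (nat_lit 5) (nat_lit 2) (nat_lit 4) (nat_lit 523) (nat_lit 356) (nat_lit 321))) (XT.nd (nat_lit 78) (nat_lit 0) (nat_lit 0) (XT.lf (nat_lit 0) (nat_lit 4613546567230) (nat_lit 76) (nat_lit 522366257180) (nat_lit 76) (nat_lit 522194119092) (nat_lit 1) (nat_lit 4) (nat_lit 2) (nat_lit 5) (nat_lit 2) (nat_lit 4) (nat_lit 524) (nat_lit 356) (nat_lit 320)) (XT.lf (nat_lit 0) (nat_lit 4987749185115) (nat_lit 76) (nat_lit 561490893807) (nat_lit 76) (nat_lit 561317903847) (nat_lit 1) (nat_lit 4) (nat_lit 2) (nat_lit 5) (nat_lit 2) (nat_lit 4) (nat_lit 525) (nat_lit 356) (nat_lit 319)))))) (XT.nd (nat_lit 546) (nat_lit 0) (nat_lit 0) (XT.nd (nat_lit 234) (nat_lit 0) (nat_lit 0) (XT.nd (nat_lit 78) (nat_lit 0) (nat_lit 0) (XT.lf (nat_lit 0) (nat_lit 5391847201921) (nat_lit 76) (nat_lit 603766628346) (nat_lit 76) (nat_lit 603592849615)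 (nat_lit 1) (nat_lit 4) (nat_lit 2) (nat_lit 5) (nat_lit 2) (nat_lit 4) (nat_lit 526) (nat_lit 356) (nat_lit 318)) (XT.nd (nat_lit 78) (nat_lit 0) (nat_lit 0) (XT.lf (nat_lit 0) (nat_lit 5828235272563) (nat_lit 76) (nat_lit 649443983667) (nat_lit 76) (nat_lit 649269474593) (nat_lit 1) (nat_lit 4) (nat_lit 2) (nat_lit 5) (nat_lit 2) (nat_lit 4) (nat_lit 527) (nat_lit 356) (nat_lit 317)) (XT.lf (nat_lit 0) (nat_lit 6299499400423) (nat_lit 76) (nat_lit 698793640394) (nat_lit 76) (nat_lit 698618455076) (nat_lit 1) (nat_lit 4) (nat_lit 2) (nat_lit 5) (nat_lit 2) (nat_lit 4) (nat_lit 528) (nat_lit 356) (nat_lit 316)))) (XT.nd (nat_lit 156) (nat_lit 0) (nat_lit 0) (XT.nd (nat_lit 78) (nat_lit 0) (nat_lit 0) (XT.lf (nat_lit 0) (nat_lit 6808432261813) (nat_lit 76) (nat_lit 752108040937) (nat_lit 76) (nat_lit 751932229468) (nat_lit 1) (nat_lit 4) (nat_lit 2) (nat_lit 5) (nat_lit 2) (nat_lit 4) (nat_lit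 529) (nat_lit 356) (nat_lit 315)) (XT.lf (nat_lit 0) (nat_lit 7358049755172) (nat_lit 76) (nat_lit 809703122486) (nat_lit 76) (nat_lit 809526731247) (nat_lit 1) (nat_lit 4) (nat_lit 2) (nat_lit 5) (nat_lit 2) (nat_lit 4) (nat_lit 530) (nat_lit 356) (nat_lit 314))) (XT.nd (nat_lit 78) (nat_lit 0) (nat_lit 0) (XT.lf (nat_lit 0) (nat_lit 7951608873052) (nat_lit 76) (nat_lit 871920189226) (nat_lit 76) (nat_lit 871743261163) (nat_lit 1) (nat_lit 4) (nat_lit 2) (nat_lit 5) (nat_lit 2) (nat_lit 4) (nat_lit 531) (nat_lit 356) (nat_lit 313)) (XT.lf (nat_lit 0) (nat_lit 8592627002820) (nat_lit 76) (nat_lit 939127934887) (nat_lit 76) (nat_lit 938950509765) (nat_lit 1) (nat_lit 4) (nat_lit 2) (nat_lit 5) (nat_lit 2) (nat_lit 4) (nat_lit 532) (nat_lit 356) (nat_lit 312))))) (XT.nd (nat_lit 234) (nat_lit 0) (nat_lit 0) (XT.nd (nat_lit 78) (nat_lit 0) (nat_lit 0) (XT.lf (nat_lit 0) (nat_lit 9284902770429)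 (nat_lit 76) (nat_lit 1011724627592) (nat_lit 76) (nat_lit 1011546742230) (nat_lit 1) (nat_lit 4) (nat_lit 2) (nat_lit 5) (nat_lit 2) (nat_lit 4) (nat_lit 533) (nat_lit 356) (nat_lit 311)) (XT.nd (nat_lit 78) (nat_lit 0) (nat_lit 0) (XT.lf (nat_lit 0) (nat_lit 10032538550798) (nat_lit 76) (nat_lit 1090140469963) (nat_lit 76) (nat_lit 1089962158452) (nat_lit 1) (nat_lit 4) (nat_lit 2) (nat_lit 5) (nat_lit 2) (nat_lit 4) (nat_lit 534) (nat_lit 356) (nat_lit 310)) (XT.lf (nat_lit 0) (nat_lit 10839964778181) (nat_lit 76) (nat_lit 1174840148474) (nat_lit 76) (nat_lit 1174661442382) (nat_lit 1) (nat_lit 4) (nat_lit 2) (nat_lit 5) (nat_lit 2) (nat_lit 4) (nat_lit 535) (nat_lit 356) (nat_lit 309)))) (XT.nd (nat_lit 156) (nat_lit 0) (nat_lit 0) (XT.nd (nat_lit 78) (nat_lit 0) (nat_lit 0) (XT.lf (nat_lit 0) (nat_lit 11711966200593) (nat_lit 76) (nat_lit 1266325587145) (nat_lit 76) (nat_lit 1266146515700)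 (nat_lit 1) (nat_lit 4) (nat_lit 2) (nat_lit 5) (nat_lit 2) (nat_lit 4) (nat_lit 536) (nat_lit 356) (nat_lit 308)) (XT.lf (nat_lit 0) (nat_lit 12653710233870) (nat_lit 76) (nat_lit 1365138921910) (nat_lit 76) (nat_lit 1364959512175) (nat_lit 1) (nat_lit 4) (nat_lit 2) (nat_lit 5) (nat_lit 2) (nat_lit 4) (nat_lit 537) (nat_lit 356) (nat_lit 307))) (XT.nd (nat_lit 78) (nat_lit 0) (nat_lit 0) (XT.lf (nat_lit 0) (nat_lit 13670777583395) (nat_lit 76) (nat_lit 1471865713271) (nat_lit 76) (nat_lit 1471685990304) (nat_lit 1) (nat_lit 4) (nat_lit 2) (nat_lit 5) (nat_lit 2) (nat_lit 4) (nat_lit 538) (nat_lit 356) (nat_lit 306)) (XT.lf (nat_lit 0) (nat_lit 14769195314942) (nat_lit 76) (nat_lit 1587138416288) (nat_lit 76) (nat_lit 1586958403292) (nat_lit 1) (nat_lit 4) (nat_lit 2) (nat_lit 5) (nat_lit 2) (nat_lit 4) (nat_lit 539) (nat_lit 356) (nat_lit 305))))))) (XT.nd (nat_lit 58890) (nat_lit 0) (nat_lit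 0) (XT.nd (nat_lit 58344) (nat_lit 0) (nat_lit 0) (XT.nd (nat_lit 234) (nat_lit 0) (nat_lit 0) (XT.nd (nat_lit 78) (nat_lit 0) (nat_lit 0) (XT.lf (nat_lit 0) (nat_lit 15955472570624) (nat_lit 76) (nat_lit 1711640128460) (nat_lit 76) (nat_lit 1711459846918) (nat_lit 1) (nat_lit 4) (nat_lit 2) (nat_lit 5) (nat_lit 2) (nat_lit 4) (nat_lit 540) (nat_lit 356) (nat_lit 304)) (XT.nd (nat_lit 78) (nat_lit 0) (nat_lit 0) (XT.lf (nat_lit 0) (nat_lit 17236639141586) (nat_lit 76) (nat_lit 1846108637712) (nat_lit 76) (nat_lit 1845928107516) (nat_lit 1) (nat_lit 4) (nat_lit 2) (nat_lit 5) (nat_lit 2) (nat_lit 4) (nat_lit 541) (nat_lit 356) (nat_lit 303)) (XT.lf (nat_lit 0) (nat_lit 18620287126026) (nat_lit 76) (nat_lit 1991340794467) (nat_lit 76) (nat_lit 1991160034037) (nat_lit 1) (nat_lit 4) (nat_lit 2) (nat_lit 5) (nat_lit 2) (nat_lit 4) (nat_lit 542) (nat_lit 356) (nat_lit 302)))) (XT.nd (nat_lit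 156) (nat_lit 0) (nat_lit 0) (XT.nd (nat_lit 78) (nat_lit 0) (nat_lit 0) (XT.lf (nat_lit 0) (nat_lit 20114615919408) (nat_lit 76) (nat_lit 2148197233730) (nat_lit 76) (nat_lit 2148016260120) (nat_lit 1) (nat_lit 4) (nat_lit 2) (nat_lit 5) (nat_lit 2) (nat_lit 4) (nat_lit 543) (nat_lit 356) (nat_lit 301)) (XT.lf (nat_lit 0) (nat_lit 21728480803470) (nat_lit 76) (nat_lit 2317607475141) (nat_lit 76) (nat_lit 2317426304141) (nat_lit 1) (nat_lit 4) (nat_lit 2) (nat_lit 5) (nat_lit 2) (nat_lit 4) (nat_lit 544) (nat_lit 356) (nat_lit 300))) (XT.nd (nat_lit 57876) (nat_lit 0) (nat_lit 0) (XT.lf (nat_lit 0) (nat_lit 23471445421970) (nat_lit 76) (nat_lit 2500575431240) (nat_lit 76) (nat_lit 2500394077473) (nat_lit 1) (nat_lit 4) (nat_lit 2) (nat_lit 5) (nat_lit 2) (nat_lit 4) (nat_lit 545) (nat_lit 356) (nat_lit 299)) (XT.lf (nat_lit 0) (nat_lit 63813273252) (nat_lit 76) (nat_lit 45198298233) (nat_lit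 76) (nat_lit 45198298233) (nat_lit 1) (nat_lit 4) (nat_lit 2) (nat_lit 5) (nat_lit 2) (nat_lit 4) (nat_lit 486) (nat_lit 357) (nat_lit 357))))) (XT.nd (nat_lit 234) (nat_lit 0) (nat_lit 0) (XT.nd (nat_lit 78) (nat_lit 0) (nat_lit 0) (XT.lf (nat_lit 0) (nat_lit 152271394218) (nat_lit 76) (nat_lit 90139820531) (nat_lit 76) (nat_lit 90125129462) (nat_lit 1) (nat_lit 4) (nat_lit 2) (nat_lit 5) (nat_lit 2) (nat_lit 4) (nat_lit 487) (nat_lit 357) (nat_lit 356)) (XT.nd (nat_lit 78) (nat_lit 0) (nat_lit 0) (XT.lf (nat_lit 0) (nat_lit 178184026984) (nat_lit 76) (nat_lit 90226850517) (nat_lit 76) (nat_lit 90198556606) (nat_lit 1) (nat_lit 4) (nat_lit 2) (nat_lit 5) (nat_lit 2) (nat_lit 4) (nat_lit 488) (nat_lit 357) (nat_lit 355)) (XT.lf (nat_lit 0) (nat_lit 205518001145) (nat_lit 76) (nat_lit 90658202159) (nat_lit 76) (nat_lit 90617313024) (nat_lit 1) (nat_lit 4) (nat_lit 2) (nat_lit 5) (nat_lit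 2) (nat_lit 4) (nat_lit 489) (nat_lit 357) (nat_lit 354)))) (XT.nd (nat_lit 156) (nat_lit 0) (nat_lit 0) (XT.nd (nat_lit 78) (nat_lit 0) (nat_lit 0) (XT.lf (nat_lit 0) (nat_lit 234435295808) (nat_lit 76) (nat_lit 91436431615) (nat_lit 76) (nat_lit 91383880236) (nat_lit 1) (nat_lit 4) (nat_lit 2) (nat_lit 5) (nat_lit 2) (nat_lit 4) (nat_lit 490) (nat_lit 357) (nat_lit 353)) (XT.lf (nat_lit 0) (nat_lit 265107272718) (nat_lit 76) (nat_lit 92566150614) (nat_lit 76) (nat_lit 92502800861) (nat_lit 1) (nat_lit 4) (nat_lit 2) (nat_lit 5) (nat_lit 2) (nat_lit 4) (nat_lit 491) (nat_lit 357) (nat_lit 352))) (XT.nd (nat_lit 78) (nat_lit 0) (nat_lit 0) (XT.lf (nat_lit 0) (nat_lit 297715691740) (nat_lit 76) (nat_lit 94054053790) (nat_lit 76) (nat_lit 93980705542) (nat_lit 1) (nat_lit 4) (nat_lit 2) (nat_lit 5) (nat_lit 2) (nat_lit 4) (nat_lit 492) (nat_lit 357) (nat_lit 351)) (XT.lf (nat_lit 0) (nat_lit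 332453787948) (nat_lit 76) (nat_lit 95908958344) (nat_lit 76) (nat_lit 95826352231) (nat_lit 1) (nat_lit 4) (nat_lit 2) (nat_lit 5) (nat_lit 2) (nat_lit 4) (nat_lit 493) (nat_lit 357) (nat_lit 350)))))) (XT.nd (nat_lit 546) (nat_lit 0) (nat_lit 0) (XT.nd (nat_lit 234) (nat_lit 0) (nat_lit 0) (XT.nd (nat_lit 78) (nat_lit 0) (nat_lit 0) (XT.lf (nat_lit 0) (nat_lit 369527416728) (nat_lit 76) (nat_lit 98141856304) (nat_lit 76) (nat_lit 98050678093) (nat_lit 1) (nat_lit 4) (nat_lit 2) (nat_lit 5) (nat_lit 2) (nat_lit 4) (nat_lit 494) (nat_lit 357) (nat_lit 349)) (XT.nd (nat_lit 78) (nat_lit 0) (nat_lit 0) (XT.lf (nat_lit 0) (nat_lit 409156273658) (nat_lit 76) (nat_lit 100765979659) (nat_lit 76) (nat_lit 100666864320) (nat_lit 1) (nat_lit 4) (nat_lit 2) (nat_lit 5) (nat_lit 2) (nat_lit 4) (nat_lit 495) (nat_lit 357) (nat_lit 348)) (XT.lf (nat_lit 0) (nat_lit 451575196407) (nat_lit 76) (nat_lit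 103796878768) (nat_lit 76) (nat_lit 103690414237) (nat_lit 1) (nat_lit 4) (nat_lit 2) (nat_lit 5) (nat_lit 2) (nat_lit 4) (nat_lit 496) (nat_lit 357) (nat_lit 347)))) (XT.nd (nat_lit 156) (nat_lit 0) (nat_lit 0) (XT.nd (nat_lit 78) (nat_lit 0) (nat_lit 0) (XT.lf (nat_lit 0) (nat_lit 497035556371) (nat_lit 76) (nat_lit 107252514515) (nat_lit 76) (nat_lit 107139245177) (nat_lit 1) (nat_lit 4) (nat_lit 2) (nat_lit 5) (nat_lit 2) (nat_lit 4) (nat_lit 497) (nat_lit 357) (nat_lit 346)) (XT.lf (nat_lit 0) (nat_lit 545806748276) (nat_lit 76) (nat_lit 111153364742) (nat_lit 76) (nat_lit 111033794656) (nat_lit 1) (nat_lit 4) (nat_lit 2) (nat_lit 5) (nat_lit 2) (nat_lit 4) (nat_lit 498) (nat_lit 357) (nat_lit 345))) (XT.nd (nat_lit 78) (nat_lit 0) (nat_lit 0) (XT.lf (nat_lit 0) (nat_lit 598177786590) (nat_lit 76) (nat_lit 115522545598) (nat_lit 76) (nat_lit 115397141487) (nat_lit 1) (nat_lit 4) (nat_lit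 2) (nat_lit 5) (nat_lit 2) (nat_lit 4) (nat_lit 499) (nat_lit 357) (nat_lit 344)) (XT.lf (nat_lit 0) (nat_lit 654459018209) (nat_lit 76) (nat_lit 120385948526) (nat_lit 76) (nat_lit 120255142539) (nat_lit 1) (nat_lit 4) (nat_lit 2) (nat_lit 5) (nat_lit 2) (nat_lit 4) (nat_lit 500) (nat_lit 357) (nat_lit 343))))) (XT.nd (nat_lit 312) (nat_lit 0) (nat_lit 0) (XT.nd (nat_lit 156) (nat_lit 0) (nat_lit 0) (XT.nd (nat_lit 78) (nat_lit 0) (nat_lit 0) (XT.lf (nat_lit 0) (nat_lit 714983961542) (nat_lit 76) (nat_lit 125772393690) (nat_lit 76) (nat_lit 125636585967) (nat_lit 1) (nat_lit 4) (nat_lit 2) (nat_lit 5) (nat_lit 2) (nat_lit 4) (nat_lit 501) (nat_lit 357) (nat_lit 342)) (XT.lf (nat_lit 0) (nat_lit 780111282920) (nat_lit 76) (nat_lit 131713800767) (nat_lit 76) (nat_lit 131573361806) (nat_lit 1) (nat_lit 4) (nat_lit 2) (nat_lit 5) (nat_lit 2) (nat_lit 4) (nat_lit 502) (nat_lit 357) (nat_lit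 341))) (XT.nd (nat_lit 78) (nat_lit 0) (nat_lit 0) (XT.lf (nat_lit 0) (nat_lit 850226922024) (nat_lit 76) (nat_lit 138245378093) (nat_lit 76) (nat_lit 138100650949) (nat_lit 1) (nat_lit 4) (nat_lit 2) (nat_lit 5) (nat_lit 2) (nat_lit 4) (nat_lit 503) (nat_lit 357) (nat_lit 340)) (XT.lf (nat_lit 0) (nat_lit 925746378940) (nat_lit 76) (nat_lit 145405831313) (nat_lit 76) (nat_lit 145257133629) (nat_lit 1) (nat_lit 4) (nat_lit 2) (nat_lit 5) (nat_lit 2) (nat_lit 4) (nat_lit 504) (nat_lit 357) (nat_lit 339)))) (XT.nd (nat_lit 156) (nat_lit 0) (nat_lit 0) (XT.nd (nat_lit 78) (nat_lit 0) (nat_lit 0) (XT.lf (nat_lit 0) (nat_lit 1007117176373) (nat_lit 76) (nat_lit 153237592742) (nat_lit 76) (nat_lit 153085218633) (nat_lit 1) (nat_lit 4) (nat_lit 2) (nat_lit 5) (nat_lit 2) (nat_lit 4) (nat_lit 505) (nat_lit 357) (nat_lit 338)) (XT.lf (nat_lit 0) (nat_lit 1094821511643) (nat_lit 76) (nat_lit 161787072818)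 (nat_lit 76) (nat_lit 161631294611) (nat_lit 1) (nat_lit 4) (nat_lit 2) (nat_lit 5) (nat_lit 2) (nat_lit 4) (nat_lit 506) (nat_lit 357) (nat_lit 337))) (XT.nd (nat_lit 78) (nat_lit 0) (nat_lit 0) (XT.lf (nat_lit 0) (nat_lit 1189379114143) (nat_lit 76) (nat_lit 171104935127) (nat_lit 76) (nat_lit 170946004977) (nat_lit 1) (nat_lit 4) (nat_lit 2) (nat_lit 5) (nat_lit 2) (nat_lit 4) (nat_lit 507) (nat_lit 357) (nat_lit 336)) (XT.lf (nat_lit 0) (nat_lit 1291350325222) (nat_lit 76) (nat_lit 181246396630) (nat_lit 76) (nat_lit 181084548014) (nat_lit 1) (nat_lit 4) (nat_lit 2) (nat_lit 5) (nat_lit 2) (nat_lit 4) (nat_lit 508) (nat_lit 357) (nat_lit 335))))))))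
noncomputable def xc16 : XT := (XT.nd (nat_lit 2184) (nat_lit 0) (nat_lit 0) (XT.nd (nat_lit 1092) (nat_lit 0) (nat_lit 0) (XT.nd (nat_lit 546) (nat_lit 0) (nat_lit 0) (XT.nd (nat_lit 234) (nat_lit 0) (nat_lit 0) (XT.nd (nat_lit 78) (nat_lit 0) (nat_lit 0) (XT.lf (nat_lit 0) (nat_lit 1401339418723) (nat_lit 76) (nat_lit 192271554877) (nat_lit 76) (nat_lit 192107003979) (nat_lit 1) (nat_lit 4) (nat_lit 2) (nat_lit 5) (nat_lit 2) (nat_lit 4) (nat_lit 509) (nat_lit 357) (nat_lit 334)) (XT.nd (nat_lit 78) (nat_lit 0) (nat_lit 0) (XT.lf (nat_lit 0) (nat_lit 1519998181867) (nat_lit 76) (nat_lit 204245744139) (nat_lit 76) (nat_lit 204078691128) (nat_lit 1) (nat_lit 4) (nat_lit 2) (nat_lit 5) (nat_lit 2) (nat_lit 4) (nat_lit 510) (nat_lit 357) (nat_lit 333)) (XT.lf (nat_lit 0) (nat_lit 1648029777695) (nat_lit 76) (nat_lit 217239922576) (nat_lit 76) (nat_lit 217070552792) (nat_lit 1) (nat_lit 4)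 (nat_lit 2) (nat_lit 5) (nat_lit 2) (nat_lit 4) (nat_lit 511) (nat_lit 357) (nat_lit 332)))) (XT.nd (nat_lit 156) (nat_lit 0) (nat_lit 0) (XT.nd (nat_lit 78) (nat_lit 0) (nat_lit 0) (XT.lf (nat_lit 0) (nat_lit 1786192911960) (nat_lit 76) (nat_lit 231331092724) (nat_lit 76) (nat_lit 231159577782) (nat_lit 1) (nat_lit 4) (nat_lit 2) (nat_lit 5) (nat_lit 2) (nat_lit 4) (nat_lit 512) (nat_lit 357) (nat_lit 331)) (XT.lf (nat_lit 0) (nat_lit 1935306329160) (nat_lit 76) (nat_lit 246602757816) (nat_lit 76) (nat_lit 246429256615) (nat_lit 1) (nat_lit 4) (nat_lit 2) (nat_lit 5) (nat_lit 2) (nat_lit 4) (nat_lit 513) (nat_lit 357) (nat_lit 330))) (XT.nd (nat_lit 78) (nat_lit 0) (nat_lit 0) (XT.lf (nat_lit 0) (nat_lit 2096253664362) (nat_lit 76) (nat_lit 263145416608) (nat_lit 76) (nat_lit 262970076279) (nat_lit 1) (nat_lit 4) (nat_lit 2) (nat_lit 5) (nat_lit 2) (nat_lit 4) (nat_lit 514) (nat_lit 357)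 (nat_lit 329)) (XT.lf (nat_lit 0) (nat_lit 2269988679551) (nat_lit 76) (nat_lit 281057099669) (nat_lit 76) (nat_lit 280880056443) (nat_lit 1) (nat_lit 4) (nat_lit 2) (nat_lit 5) (nat_lit 2) (nat_lit 4) (nat_lit 515) (nat_lit 357) (nat_lit 328))))) (XT.nd (nat_lit 234) (nat_lit 0) (nat_lit 0) (XT.nd (nat_lit 78) (nat_lit 0) (nat_lit 0) (XT.lf (nat_lit 0) (nat_lit 2457540915558) (nat_lit 76) (nat_lit 300443950307) (nat_lit 76) (nat_lit 300265330326) (nat_lit 1) (nat_lit 4) (nat_lit 2) (nat_lit 5) (nat_lit 2) (nat_lit 4) (nat_lit 516) (nat_lit 357) (nat_lit 327)) (XT.nd (nat_lit 78) (nat_lit 0) (nat_lit 0) (XT.lf (nat_lit 0) (nat_lit 2660021793041) (nat_lit 76) (nat_lit 321420853563) (nat_lit 76) (nat_lit 321240773622) (nat_lit 1) (nat_lit 4) (nat_lit 2) (nat_lit 5) (nat_lit 2) (nat_lit 4) (nat_lit 517) (nat_lit 357) (nat_lit 326)) (XT.lf (nat_lit 0) (nat_lit 2878631198682) (nat_lit 76) (nat_lit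 344112117012) (nat_lit 76) (nat_lit 343930685257) (nat_lit 1) (nat_lit 4) (nat_lit 2) (nat_lit 5) (nat_lit 2) (nat_lit 4) (nat_lit 518) (nat_lit 357) (nat_lit 325)))) (XT.nd (nat_lit 156) (nat_lit 0) (nat_lit 0) (XT.nd (nat_lit 78) (nat_lit 0) (nat_lit 0) (XT.lf (nat_lit 0) (nat_lit 3114664595624) (nat_lit 76) (nat_lit 368652207399) (nat_lit 76) (nat_lit 368469523965) (nat_lit 1) (nat_lit 4) (nat_lit 2) (nat_lit 5) (nat_lit 2) (nat_lit 4) (nat_lit 519) (nat_lit 357) (nat_lit 324)) (XT.lf (nat_lit 0) (nat_lit 3369520700295) (nat_lit 76) (nat_lit 395186547484) (nat_lit 76) (nat_lit 395002705086) (nat_lit 1) (nat_lit 4) (nat_lit 2) (nat_lit 5) (nat_lit 2) (nat_lit 4) (nat_lit 520) (nat_lit 357) (nat_lit 323))) (XT.nd (nat_lit 78) (nat_lit 0) (nat_lit 0) (XT.lf (nat_lit 0) (nat_lit 3644709771092) (nat_lit 76) (nat_lit 423872377799) (nat_lit 76) (nat_lit 423687462288) (nat_lit 1) (nat_lit 4)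 (nat_lit 2) (nat_lit 5) (nat_lit 2) (nat_lit 4) (nat_lit 521) (nat_lit 357) (nat_lit 322)) (XT.lf (nat_lit 0) (nat_lit 3941862558064) (nat_lit 76) (nat_lit 454879688450) (nat_lit 76) (nat_lit 454693779315) (nat_lit 1) (nat_lit 4) (nat_lit 2) (nat_lit 5) (nat_lit 2) (nat_lit 4) (nat_lit 522) (nat_lit 357) (nat_lit 321)))))) (XT.nd (nat_lit 546) (nat_lit 0) (nat_lit 0) (XT.nd (nat_lit 234) (nat_lit 0) (nat_lit 0) (XT.nd (nat_lit 78) (nat_lit 0) (nat_lit 0) (XT.lf (nat_lit 0) (nat_lit 4262739966616) (nat_lit 76) (nat_lit 488392226464) (nat_lit 76) (nat_lit 488205397307) (nat_lit 1) (nat_lit 4) (nat_lit 2) (nat_lit 5) (nat_lit 2) (nat_lit 4) (nat_lit 523) (nat_lit 357) (nat_lit 320)) (XT.nd (nat_lit 78) (nat_lit 0) (nat_lit 0) (XT.lf (nat_lit 0) (nat_lit 4609243492502) (nat_lit 76) (nat_lit 524608584658) (nat_lit 76) (nat_lit 524420903628) (nat_lit 1) (nat_lit 4) (nat_lit 2) (nat_lit 5) (nat_lit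 2) (nat_lit 4) (nat_lit 524) (nat_lit 357) (nat_lit 319)) (XT.lf (nat_lit 0) (nat_lit 4983426489949) (nat_lit 76) (nat_lit 563743378488) (nat_lit 76) (nat_lit 563554908688) (nat_lit 1) (nat_lit 4) (nat_lit 2) (nat_lit 5) (nat_lit 2) (nat_lit 4) (nat_lit 525) (nat_lit 357) (nat_lit 318)))) (XT.nd (nat_lit 156) (nat_lit 0) (nat_lit 0) (XT.nd (nat_lit 78) (nat_lit 0) (nat_lit 0) (XT.lf (nat_lit 0) (nat_lit 5387506339684) (nat_lit 76) (nat_lit 606028517843) (nat_lit 76) (nat_lit 605839317700) (nat_lit 1) (nat_lit 4) (nat_lit 2) (nat_lit 5) (nat_lit 2) (nat_lit 4) (nat_lit 526) (nat_lit 357) (nat_lit 317)) (XT.lf (nat_lit 0) (nat_lit 5823877588964) (nat_lit 76) (nat_lit 651714581327) (nat_lit 76) (nat_lit 651524704941) (nat_lit 1) (nat_lit 4) (nat_lit 2) (nat_lit 5) (nat_lit 2) (nat_lit 4) (nat_lit 527) (nat_lit 357) (nat_lit 316))) (XT.nd (nat_lit 78) (nat_lit 0) (nat_lit 0) (XT.lf (nat_lit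 0) (nat_lit 6295126141488) (nat_lit 76) (nat_lit 701072301169) (nat_lit 76) (nat_lit 700881798631) (nat_lit 1) (nat_lit 4) (nat_lit 2) (nat_lit 5) (nat_lit 2) (nat_lit 4) (nat_lit 528) (nat_lit 357) (nat_lit 315)) (XT.lf (nat_lit 0) (nat_lit 6804044581271) (nat_lit 76) (nat_lit 754394167560) (nat_lit 76) (nat_lit 754203085252) (nat_lit 1) (nat_lit 4) (nat_lit 2) (nat_lit 5) (nat_lit 2) (nat_lit 4) (nat_lit 529) (nat_lit 357) (nat_lit 314))))) (XT.nd (nat_lit 234) (nat_lit 0) (nat_lit 0) (XT.nd (nat_lit 78) (nat_lit 0) (nat_lit 0) (XT.lf (nat_lit 0) (nat_lit 7353648721290) (nat_lit 76) (nat_lit 811996161929) (nat_lit 76) (nat_lit 811804542797) (nat_lit 1) (nat_lit 4) (nat_lit 2) (nat_lit 5) (nat_lit 2) (nat_lit 4) (nat_lit 530) (nat_lit 357) (nat_lit 313)) (XT.nd (nat_lit 78) (nat_lit 0) (nat_lit 0) (XT.lf (nat_lit 0) (nat_lit 7947195474967) (nat_lit 76) (nat_lit 874219629430) (nat_lit 76)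 (nat_lit 874027513239) (nat_lit 1) (nat_lit 4) (nat_lit 2) (nat_lit 5) (nat_lit 2) (nat_lit 4) (nat_lit 531) (nat_lit 357) (nat_lit 312)) (XT.lf (nat_lit 0) (nat_lit 8588202156398) (nat_lit 76) (nat_lit 941433301721) (nat_lit 76) (nat_lit 941240725290) (nat_lit 1) (nat_lit 4) (nat_lit 2) (nat_lit 5) (nat_lit 2) (nat_lit 4) (nat_lit 532) (nat_lit 357) (nat_lit 311)))) (XT.nd (nat_lit 156) (nat_lit 0) (nat_lit 0) (XT.nd (nat_lit 78) (nat_lit 0) (nat_lit 0) (XT.lf (nat_lit 0) (nat_lit 9280467323695) (nat_lit 76) (nat_lit 1014035482046) (nat_lit 76) (nat_lit 1013842479467) (nat_lit 1) (nat_lit 4) (nat_lit 2) (nat_lit 5) (nat_lit 2) (nat_lit 4) (nat_lit 533) (nat_lit 357) (nat_lit 310)) (XT.lf (nat_lit 0) (nat_lit 10028093288960) (nat_lit 76) (nat_lit 1092456405547) (nat_lit 76) (nat_lit 1092263008386) (nat_lit 1) (nat_lit 4) (nat_lit 2) (nat_lit 5) (nat_lit 2) (nat_lit 4) (nat_lit 534) (nat_lit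 357) (nat_lit 309))) (XT.nd (nat_lit 78) (nat_lit 0) (nat_lit 0) (XT.lf (nat_lit 0) (nat_lit 10835510428285) (nat_lit 76) (nat_lit 1177160788808) (nat_lit 76) (nat_lit 1176967026293) (nat_lit 1) (nat_lit 4) (nat_lit 2) (nat_lit 5) (nat_lit 2) (nat_lit 4) (nat_lit 535) (nat_lit 357) (nat_lit 308)) (XT.lf (nat_lit 0) (nat_lit 11707503435828) (nat_lit 76) (nat_lit 1268650583729) (nat_lit 76) (nat_lit 1268456482925) (nat_lit 1) (nat_lit 4) (nat_lit 2) (nat_lit 5) (nat_lit 2) (nat_lit 4) (nat_lit 536) (nat_lit 357) (nat_lit 307))))))) (XT.nd (nat_lit 58734) (nat_lit 0) (nat_lit 0) (XT.nd (nat_lit 546) (nat_lit 0) (nat_lit 0) (XT.nd (nat_lit 234) (nat_lit 0) (nat_lit 0) (XT.nd (nat_lit 78) (nat_lit 0) (nat_lit 0) (XT.lf (nat_lit 0) (nat_lit 12649239677559) (nat_lit 76) (nat_lit 1367467952059) (nat_lit 76) (nat_lit 1367273538023) (nat_lit 1) (nat_lit 4) (nat_lit 2) (nat_lit 5) (nat_lit 2) (nat_lit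 4) (nat_lit 537) (nat_lit 357) (nat_lit 306)) (XT.nd (nat_lit 78) (nat_lit 0) (nat_lit 0) (XT.lf (nat_lit 0) (nat_lit 13666299812690) (nat_lit 76) (nat_lit 1474198478202) (nat_lit 76) (nat_lit 1474003774137) (nat_lit 1) (nat_lit 4) (nat_lit 2) (nat_lit 5) (nat_lit 2) (nat_lit 4) (nat_lit 538) (nat_lit 357) (nat_lit 305)) (XT.lf (nat_lit 0) (nat_lit 14764710864242) (nat_lit 76) (nat_lit 1589474639351) (nat_lit 76) (nat_lit 1589279666740) (nat_lit 1) (nat_lit 4) (nat_lit 2) (nat_lit 5) (nat_lit 2) (nat_lit 4) (nat_lit 539) (nat_lit 357) (nat_lit 304)))) (XT.nd (nat_lit 156) (nat_lit 0) (nat_lit 0) (XT.nd (nat_lit 78) (nat_lit 0) (nat_lit 0) (XT.lf (nat_lit 0) (nat_lit 15950981934744) (nat_lit 76) (nat_lit 1713979553497) (nat_lit 76) (nat_lit 1713784332232) (nat_lit 1) (nat_lit 4) (nat_lit 2) (nat_lit 5) (nat_lit 2) (nat_lit 4) (nat_lit 540) (nat_lit 357) (nat_lit 303)) (XT.lf (nat_lit 0) (nat_lit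 17232142778688) (nat_lit 76) (nat_lit 1848451027539) (nat_lit 76) (nat_lit 1848255576039) (nat_lit 1) (nat_lit 4) (nat_lit 2) (nat_lit 5) (nat_lit 2) (nat_lit 4) (nat_lit 541) (nat_lit 357) (nat_lit 302))) (XT.nd (nat_lit 78) (nat_lit 0) (nat_lit 0) (XT.lf (nat_lit 0) (nat_lit 18615785460333) (nat_lit 76) (nat_lit 1993685929471) (nat_lit 76) (nat_lit 1993490264791) (nat_lit 1) (nat_lit 4) (nat_lit 2) (nat_lit 5) (nat_lit 2) (nat_lit 4) (nat_lit 542) (nat_lit 357) (nat_lit 301)) (XT.lf (nat_lit 0) (nat_lit 20110109343720) (nat_lit 76) (nat_lit 2150544910564) (nat_lit 76) (nat_lit 2150349048495) (nat_lit 1) (nat_lit 4) (nat_lit 2) (nat_lit 5) (nat_lit 2) (nat_lit 4) (nat_lit 543) (nat_lit 357) (nat_lit 300))))) (XT.nd (nat_lit 57876) (nat_lit 0) (nat_lit 0) (XT.nd (nat_lit 78) (nat_lit 0) (nat_lit 0) (XT.lf (nat_lit 0) (nat_lit 21723969681490) (nat_lit 76) (nat_lit 2319957505520) (nat_lit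 76) (nat_lit 2319761460684) (nat_lit 1) (nat_lit 4) (nat_lit 2) (nat_lit 5) (nat_lit 2) (nat_lit 4) (nat_lit 544) (nat_lit 357) (nat_lit 299)) (XT.nd (nat_lit 57720) (nat_lit 0) (nat_lit 0) (XT.lf (nat_lit 0) (nat_lit 23466930090460) (nat_lit 76) (nat_lit 2502927640829) (nat_lit 76) (nat_lit 2502731426764) (nat_lit 1) (nat_lit 4) (nat_lit 2) (nat_lit 5) (nat_lit 2) (nat_lit 4) (nat_lit 545) (nat_lit 357) (nat_lit 298)) (XT.lf (nat_lit 0) (nat_lit 40978675182) (nat_lit 76) (nat_lit 45880625122) (nat_lit 76) (nat_lit 45880625122) (nat_lit 1) (nat_lit 4) (nat_lit 2) (nat_lit 5) (nat_lit 2) (nat_lit 4) (nat_lit 484) (nat_lit 358) (nat_lit 358)))) (XT.nd (nat_lit 156) (nat_lit 0) (nat_lit 0) (XT.nd (nat_lit 78) (nat_lit 0) (nat_lit 0) (XT.lf (nat_lit 0) (nat_lit 104103440304) (nat_lit 76) (nat_lit 91014566317) (nat_lit 76) (nat_lit 90998699962) (nat_lit 1) (nat_lit 4) (nat_lit 2) (nat_lit 5)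 (nat_lit 2) (nat_lit 4) (nat_lit 485) (nat_lit 358) (nat_lit 357)) (XT.lf (nat_lit 0) (nat_lit 127261110455) (nat_lit 76) (nat_lit 90601643513) (nat_lit 76) (nat_lit 90571086090) (nat_lit 1) (nat_lit 4) (nat_lit 2) (nat_lit 5) (nat_lit 2) (nat_lit 4) (nat_lit 486) (nat_lit 358) (nat_lit 356))) (XT.nd (nat_lit 78) (nat_lit 0) (nat_lit 0) (XT.lf (nat_lit 0) (nat_lit 151567591454) (nat_lit 76) (nat_lit 90520034883) (nat_lit 76) (nat_lit 90475874618) (nat_lit 1) (nat_lit 4) (nat_lit 2) (nat_lit 5) (nat_lit 2) (nat_lit 4) (nat_lit 487) (nat_lit 358) (nat_lit 355)) (XT.lf (nat_lit 0) (nat_lit 177166921707) (nat_lit 76) (nat_lit 90769256819) (nat_lit 76) (nat_lit 90712501330) (nat_lit 1) (nat_lit 4) (nat_lit 2) (nat_lit 5) (nat_lit 2) (nat_lit 4) (nat_lit 488) (nat_lit 358) (nat_lit 354)))))) (XT.nd (nat_lit 546) (nat_lit 0) (nat_lit 0) (XT.nd (nat_lit 234) (nat_lit 0) (nat_lit 0) (XT.nd (nat_lit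 78) (nat_lit 0) (nat_lit 0) (XT.lf (nat_lit 0) (nat_lit 204210800950) (nat_lit 76) (nat_lit 91350786193) (nat_lit 76) (nat_lit 91282368460) (nat_lit 1) (nat_lit 4) (nat_lit 2) (nat_lit 5) (nat_lit 2) (nat_lit 4) (nat_lit 489) (nat_lit 358) (nat_lit 353)) (XT.nd (nat_lit 78) (nat_lit 0) (nat_lit 0) (XT.lf (nat_lit 0) (nat_lit 232859489206) (nat_lit 76) (nat_lit 92268069105) (nat_lit 76) (nat_lit 92188852997) (nat_lit 1) (nat_lit 4) (nat_lit 2) (nat_lit 5) (nat_lit 2) (nat_lit 4) (nat_lit 490) (nat_lit 358) (nat_lit 352)) (XT.lf (nat_lit 0) (nat_lit 263282756481) (nat_lit 76) (nat_lit 93526541304) (nat_lit 76) (nat_lit 93437326702) (nat_lit 1) (nat_lit 4) (nat_lit 2) (nat_lit 5) (nat_lit 2) (nat_lit 4) (nat_lit 491) (nat_lit 358) (nat_lit 351)))) (XT.nd (nat_lit 156) (nat_lit 0) (nat_lit 0) (XT.nd (nat_lit 78) (nat_lit 0) (nat_lit 0) (XT.lf (nat_lit 0) (nat_lit 295660888803) (nat_lit 76) (nat_lit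 95133660405) (nat_lit 76) (nat_lit 95035187937) (nat_lit 1) (nat_lit 4) (nat_lit 2) (nat_lit 5) (nat_lit 2) (nat_lit 4) (nat_lit 492) (nat_lit 358) (nat_lit 350)) (XT.lf (nat_lit 0) (nat_lit 330185756586) (nat_lit 76) (nat_lit 97098950076) (nat_lit 76) (nat_lit 96991905510) (nat_lit 1) (nat_lit 4) (nat_lit 2) (nat_lit 5) (nat_lit 2) (nat_lit 4) (nat_lit 493) (nat_lit 358) (nat_lit 349))) (XT.nd (nat_lit 78) (nat_lit 0) (nat_lit 0) (XT.lf (nat_lit 0) (nat_lit 367061951639) (nat_lit 76) (nat_lit 99434056477) (nat_lit 76) (nat_lit 99319074784) (nat_lit 1) (nat_lit 4) (nat_lit 2) (nat_lit 5) (nat_lit 2) (nat_lit 4) (nat_lit 494) (nat_lit 358) (nat_lit 348)) (XT.lf (nat_lit 0) (nat_lit 406507999562) (nat_lit 76) (nat_lit 102152817277) (nat_lit 76) (nat_lit 102030486392) (nat_lit 1) (nat_lit 4) (nat_lit 2) (nat_lit 5) (nat_lit 2) (nat_lit 4) (nat_lit 495) (nat_lit 358) (nat_lit 347))))) (XT.nd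 (nat_lit 234) (nat_lit 0) (nat_lit 0) (XT.nd (nat_lit 78) (nat_lit 0) (nat_lit 0) (XT.lf (nat_lit 0) (nat_lit 448757654712) (nat_lit 76) (nat_lit 105271343650) (nat_lit 76) (nat_lit 105142207957) (nat_lit 1) (nat_lit 4) (nat_lit 2) (nat_lit 5) (nat_lit 2) (nat_lit 4) (nat_lit 496) (nat_lit 358) (nat_lit 346)) (XT.nd (nat_lit 78) (nat_lit 0) (nat_lit 0) (XT.lf (nat_lit 0) (nat_lit 494061285418) (nat_lit 76) (nat_lit 108808115753) (nat_lit 76) (nat_lit 108672679313) (nat_lit 1) (nat_lit 4) (nat_lit 2) (nat_lit 5) (nat_lit 2) (nat_lit 4) (nat_lit 497) (nat_lit 358) (nat_lit 345)) (XT.lf (nat_lit 0) (nat_lit 542687357639) (nat_lit 76) (nat_lit 112784092235) (nat_lit 76) (nat_lit 112642821770) (nat_lit 1) (nat_lit 4) (nat_lit 2) (nat_lit 5) (nat_lit 2) (nat_lit 4) (nat_lit 498) (nat_lit 358) (nat_lit 344)))) (XT.nd (nat_lit 156) (nat_lit 0) (nat_lit 0) (XT.nd (nat_lit 78) (nat_lit 0) (nat_lit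 0) (XT.lf (nat_lit 0) (nat_lit 594924025876) (nat_lit 76) (nat_lit 117222834439) (nat_lit 76) (nat_lit 117076162098) (nat_lit 1) (nat_lit 4) (nat_lit 2) (nat_lit 5) (nat_lit 2) (nat_lit 4) (nat_lit 499) (nat_lit 358) (nat_lit 343)) (XT.lf (nat_lit 0) (nat_lit 651080840757) (nat_lit 76) (nat_lit 122150646022) (nat_lit 76) (nat_lit 121998971944) (nat_lit 1) (nat_lit 4) (nat_lit 2) (nat_lit 5) (nat_lit 2) (nat_lit 4) (nat_lit 500) (nat_lit 358) (nat_lit 342))) (XT.nd (nat_lit 78) (nat_lit 0) (nat_lit 0) (XT.lf (nat_lit 0) (nat_lit 711490583406) (nat_lit 76) (nat_lit 127596728830) (nat_lit 76) (nat_lit 127440423514) (nat_lit 1) (nat_lit 4) (nat_lit 2) (nat_lit 5) (nat_lit 2) (nat_lit 4) (nat_lit 501) (nat_lit 358) (nat_lit 341)) (XT.lf (nat_lit 0) (nat_lit 776511237484) (nat_lit 76) (nat_lit 133593355947) (nat_lit 76) (nat_lit 133432762448) (nat_lit 1) (nat_lit 4) (nat_lit 2) (nat_lit 5) (nat_lit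 2) (nat_lit 4) (nat_lit 502) (nat_lit 358) (nat_lit 340))))))))
noncomputable def xc17 : XT := (XT.nd (nat_lit 2184) (nat_lit 0) (nat_lit 0) (XT.nd (nat_lit 1092) (nat_lit 0) (nat_lit 0) (XT.nd (nat_lit 546) (nat_lit 0) (nat_lit 0) (XT.nd (nat_lit 234) (nat_lit 0) (nat_lit 0) (XT.nd (nat_lit 78) (nat_lit 0) (nat_lit 0) (XT.lf (nat_lit 0) (nat_lit 846528110571) (nat_lit 76) (nat_lit 140176062940) (nat_lit 76) (nat_lit 140011498902) (nat_lit 1) (nat_lit 4) (nat_lit 2) (nat_lit 5) (nat_lit 2) (nat_lit 4) (nat_lit 503) (nat_lit 358) (nat_lit 339)) (XT.nd (nat_lit 78) (nat_lit 0) (nat_lit 0) (XT.lf (nat_lit 0) (nat_lit 921956117469) (nat_lit 76) (nat_lit 147383858445) (nat_lit 76) (nat_lit 147215617980) (nat_lit 1) (nat_lit 4) (nat_lit 2) (nat_lit 5) (nat_lit 2) (nat_lit 4) (nat_lit 504) (nat_lit 358) (nat_lit 338)) (XT.lf (nat_lit 0) (nat_lit 1003242238961) (nat_lit 76) (nat_lit 155259455322)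 (nat_lit 76) (nat_lit 155087810760) (nat_lit 1) (nat_lit 4) (nat_lit 2) (nat_lit 5) (nat_lit 2) (nat_lit 4) (nat_lit 505) (nat_lit 358) (nat_lit 337)))) (XT.nd (nat_lit 156) (nat_lit 0) (nat_lit 0) (XT.nd (nat_lit 78) (nat_lit 0) (nat_lit 0) (XT.lf (nat_lit 0) (nat_lit 1090868170581) (nat_lit 76) (nat_lit 163849523776) (nat_lit 76) (nat_lit 163674727271) (nat_lit 1) (nat_lit 4) (nat_lit 2) (nat_lit 5) (nat_lit 2) (nat_lit 4) (nat_lit 506) (nat_lit 358) (nat_lit 336)) (XT.lf (nat_lit 0) (nat_lit 1185353177110) (nat_lit 76) (nat_lit 173204967916) (nat_lit 76) (nat_lit 173027252946) (nat_lit 1) (nat_lit 4) (nat_lit 2) (nat_lit 5) (nat_lit 2) (nat_lit 4) (nat_lit 507) (nat_lit 358) (nat_lit 335))) (XT.nd (nat_lit 78) (nat_lit 0) (nat_lit 0) (XT.lf (nat_lit 0) (nat_lit 1287257169697) (nat_lit 76) (nat_lit 183381227412) (nat_lit 76) (nat_lit 183200810159) (nat_lit 1) (nat_lit 4) (nat_lit 2) (nat_lit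 5) (nat_lit 2) (nat_lit 4) (nat_lit 508) (nat_lit 358) (nat_lit 334)) (XT.lf (nat_lit 0) (nat_lit 1397184023853) (nat_lit 76) (nat_lit 194438606022) (nat_lit 76) (nat_lit 194255686656) (nat_lit 1) (nat_lit 4) (nat_lit 2) (nat_lit 5) (nat_lit 2) (nat_lit 4) (nat_lit 509) (nat_lit 358) (nat_lit 333))))) (XT.nd (nat_lit 234) (nat_lit 0) (nat_lit 0) (XT.nd (nat_lit 78) (nat_lit 0) (nat_lit 0) (XT.lf (nat_lit 0) (nat_lit 1515785157974) (nat_lit 76) (nat_lit 206442628954) (nat_lit 76) (nat_lit 206257392816) (nat_lit 1) (nat_lit 4) (nat_lit 2) (nat_lit 5) (nat_lit 2) (nat_lit 4) (nat_lit 510) (nat_lit 358) (nat_lit 332)) (XT.nd (nat_lit 78) (nat_lit 0) (nat_lit 0) (XT.lf (nat_lit 0) (nat_lit 1643763393595) (nat_lit 76) (nat_lit 219464431158) (nat_lit 76) (nat_lit 219277049861) (nat_lit 1) (nat_lit 4) (nat_lit 2) (nat_lit 5) (nat_lit 2) (nat_lit 4) (nat_lit 511) (nat_lit 358) (nat_lit 331)) (XT.lf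 (nat_lit 0) (nat_lit 1781877120261) (nat_lit 76) (nat_lit 233581178870) (nat_lit 76) (nat_lit 233391811315) (nat_lit 1) (nat_lit 4) (nat_lit 2) (nat_lit 5) (nat_lit 2) (nat_lit 4) (nat_lit 512) (nat_lit 358) (nat_lit 330)))) (XT.nd (nat_lit 156) (nat_lit 0) (nat_lit 0) (XT.nd (nat_lit 78) (nat_lit 0) (nat_lit 0) (XT.lf (nat_lit 0) (nat_lit 1930944789685) (nat_lit 76) (nat_lit 248876526891) (nat_lit 76) (nat_lit 248685320207) (nat_lit 1) (nat_lit 4) (nat_lit 2) (nat_lit 5) (nat_lit 2) (nat_lit 4) (nat_lit 513) (nat_lit 358) (nat_lit 329)) (XT.lf (nat_lit 0) (nat_lit 2091849765835) (nat_lit 76) (nat_lit 265441114320) (nat_lit 76) (nat_lit 265248204740) (nat_lit 1) (nat_lit 4) (nat_lit 2) (nat_lit 5) (nat_lit 2) (nat_lit 4) (nat_lit 514) (nat_lit 358) (nat_lit 328))) (XT.nd (nat_lit 78) (nat_lit 0) (nat_lit 0) (XT.lf (nat_lit 0) (nat_lit 2265545559679) (nat_lit 76) (nat_lit 283373101676) (nat_lit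 76) (nat_lit 283178615339) (nat_lit 1) (nat_lit 4) (nat_lit 2) (nat_lit 5) (nat_lit 2) (nat_lit 4) (nat_lit 515) (nat_lit 358) (nat_lit 327)) (XT.lf (nat_lit 0) (nat_lit 2453061479626) (nat_lit 76) (nat_lit 302778752586) (nat_lit 76) (nat_lit 302582806291) (nat_lit 1) (nat_lit 4) (nat_lit 2) (nat_lit 5) (nat_lit 2) (nat_lit 4) (nat_lit 516) (nat_lit 358) (nat_lit 326)))))) (XT.nd (nat_lit 546) (nat_lit 0) (nat_lit 0) (XT.nd (nat_lit 234) (nat_lit 0) (nat_lit 0) (XT.nd (nat_lit 78) (nat_lit 0) (nat_lit 0) (XT.lf (nat_lit 0) (nat_lit 2655508731128) (nat_lit 76) (nat_lit 323773063502) (nat_lit 76) (nat_lit 323575765392) (nat_lit 1) (nat_lit 4) (nat_lit 2) (nat_lit 5) (nat_lit 2) (nat_lit 4) (nat_lit 517) (nat_lit 358) (nat_lit 325)) (XT.nd (nat_lit 78) (nat_lit 0) (nat_lit 0) (XT.lf (nat_lit 0) (nat_lit 2874087001601) (nat_lit 76) (nat_lit 346480445154) (nat_lit 76) (nat_lit 346281895365) (nat_lit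 1) (nat_lit 4) (nat_lit 2) (nat_lit 5) (nat_lit 2) (nat_lit 4) (nat_lit 518) (nat_lit 358) (nat_lit 324)) (XT.lf (nat_lit 0) (nat_lit 3110091569684) (nat_lit 76) (nat_lit 371035459804) (nat_lit 76) (nat_lit 370835751052) (nat_lit 1) (nat_lit 4) (nat_lit 2) (nat_lit 5) (nat_lit 2) (nat_lit 4) (nat_lit 519) (nat_lit 358) (nat_lit 323)))) (XT.nd (nat_lit 156) (nat_lit 0) (nat_lit 0) (XT.nd (nat_lit 78) (nat_lit 0) (nat_lit 0) (XT.lf (nat_lit 0) (nat_lit 3364920980966) (nat_lit 76) (nat_lit 397583618650) (nat_lit 76) (nat_lit 397382836784) (nat_lit 1) (nat_lit 4) (nat_lit 2) (nat_lit 5) (nat_lit 2) (nat_lit 4) (nat_lit 520) (nat_lit 358) (nat_lit 322)) (XT.lf (nat_lit 0) (nat_lit 3640085335663) (nat_lit 76) (nat_lit 426282244115) (nat_lit 76) (nat_lit 426080468625) (nat_lit 1) (nat_lit 4) (nat_lit 2) (nat_lit 5) (nat_lit 2) (nat_lit 4) (nat_lit 521) (nat_lit 358) (nat_lit 321))) (XT.nd (nat_lit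 78) (nat_lit 0) (nat_lit 0) (XT.lf (nat_lit 0) (nat_lit 3937215237357) (nat_lit 76) (nat_lit 457301402127) (nat_lit 76) (nat_lit 457098706615) (nat_lit 1) (nat_lit 4) (nat_lit 2) (nat_lit 5) (nat_lit 2) (nat_lit 4) (nat_lit 522) (nat_lit 358) (nat_lit 320)) (XT.lf (nat_lit 0) (nat_lit 4258071455837) (nat_lit 76) (nat_lit 490824909919) (nat_lit 76) (nat_lit 490621362535) (nat_lit 1) (nat_lit 4) (nat_lit 2) (nat_lit 5) (nat_lit 2) (nat_lit 4) (nat_lit 523) (nat_lit 358) (nat_lit 319))))) (XT.nd (nat_lit 234) (nat_lit 0) (nat_lit 0) (XT.nd (nat_lit 78) (nat_lit 0) (nat_lit 0) (XT.lf (nat_lit 0) (nat_lit 4604555361286) (nat_lit 76) (nat_lit 527051425315) (nat_lit 76) (nat_lit 526847089160) (nat_lit 1) (nat_lit 4) (nat_lit 2) (nat_lit 5) (nat_lit 2) (nat_lit 4) (nat_lit 524) (nat_lit 358) (nat_lit 318)) (XT.nd (nat_lit 78) (nat_lit 0) (nat_lit 0) (XT.lf (nat_lit 0) (nat_lit 4978720191662) (nat_lit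 76) (nat_lit 566195623961) (nat_lit 76) (nat_lit 565990557464) (nat_lit 1) (nat_lit 4) (nat_lit 2) (nat_lit 5) (nat_lit 2) (nat_lit 4) (nat_lit 525) (nat_lit 358) (nat_lit 317)) (XT.lf (nat_lit 0) (nat_lit 5382783220034) (nat_lit 76) (nat_lit 608489471481) (nat_lit 76) (nat_lit 608283728740) (nat_lit 1) (nat_lit 4) (nat_lit 2) (nat_lit 5) (nat_lit 2) (nat_lit 4) (nat_lit 526) (nat_lit 358) (nat_lit 316)))) (XT.nd (nat_lit 156) (nat_lit 0) (nat_lit 0) (XT.nd (nat_lit 78) (nat_lit 0) (nat_lit 0) (XT.lf (nat_lit 0) (nat_lit 5819138893978) (nat_lit 76) (nat_lit 654183598080) (nat_lit 76) (nat_lit 653977229187) (nat_lit 1) (nat_lit 4) (nat_lit 2) (nat_lit 5) (nat_lit 2) (nat_lit 4) (nat_lit 527) (nat_lit 358) (nat_lit 315)) (XT.lf (nat_lit 0) (nat_lit 6290373024895) (nat_lit 76) (nat_lit 703548783768) (nat_lit 76) (nat_lit 703341835106) (nat_lit 1) (nat_lit 4) (nat_lit 2) (nat_lit 5) (nat_lit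 2) (nat_lit 4) (nat_lit 528) (nat_lit 358) (nat_lit 314))) (XT.nd (nat_lit 78) (nat_lit 0) (nat_lit 0) (XT.lf (nat_lit 0) (nat_lit 6799278111338) (nat_lit 76) (nat_lit 756877562980) (nat_lit 76) (nat_lit 756670077493) (nat_lit 1) (nat_lit 4) (nat_lit 2) (nat_lit 5) (nat_lit 2) (nat_lit 4) (nat_lit 529) (nat_lit 358) (nat_lit 313)) (XT.lf (nat_lit 0) (nat_lit 7348869887154) (nat_lit 76) (nat_lit 814485958110) (nat_lit 76) (nat_lit 814277975564) (nat_lit 1) (nat_lit 4) (nat_lit 2) (nat_lit 5) (nat_lit 2) (nat_lit 4) (nat_lit 530) (nat_lit 358) (nat_lit 312))))))) (XT.nd (nat_lit 1092) (nat_lit 0) (nat_lit 0) (XT.nd (nat_lit 546) (nat_lit 0) (nat_lit 0) (XT.nd (nat_lit 234) (nat_lit 0) (nat_lit 0) (XT.nd (nat_lit 78) (nat_lit 0) (nat_lit 0) (XT.lf (nat_lit 0) (nat_lit 7942405192494) (nat_lit 76) (nat_lit 876715352241) (nat_lit 76) (nat_lit 876506909455) (nat_lit 1) (nat_lit 4) (nat_lit 2) (nat_lit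 5) (nat_lit 2) (nat_lit 4) (nat_lit 531) (nat_lit 358) (nat_lit 311)) (XT.nd (nat_lit 78) (nat_lit 0) (nat_lit 0) (XT.lf (nat_lit 0) (nat_lit 8583401273613) (nat_lit 76) (nat_lit 943934512152) (nat_lit 76) (nat_lit 943725643218) (nat_lit 1) (nat_lit 4) (nat_lit 2) (nat_lit 5) (nat_lit 2) (nat_lit 4) (nat_lit 532) (nat_lit 358) (nat_lit 310)) (XT.lf (nat_lit 0) (nat_lit 9275656625807) (nat_lit 76) (nat_lit 1016541773607) (nat_lit 76) (nat_lit 1016332510091) (nat_lit 1) (nat_lit 4) (nat_lit 2) (nat_lit 5) (nat_lit 2) (nat_lit 4) (nat_lit 533) (nat_lit 358) (nat_lit 309)))) (XT.nd (nat_lit 156) (nat_lit 0) (nat_lit 0) (XT.nd (nat_lit 78) (nat_lit 0) (nat_lit 0) (XT.lf (nat_lit 0) (nat_lit 10023273503014) (nat_lit 76) (nat_lit 1094967401857) (nat_lit 76) (nat_lit 1094757772989) (nat_lit 1) (nat_lit 4) (nat_lit 2) (nat_lit 5) (nat_lit 2) (nat_lit 4) (nat_lit 534) (nat_lit 358) (nat_lit 308))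 (XT.lf (nat_lit 0) (nat_lit 10830682227469) (nat_lit 76) (nat_lit 1179676141368) (nat_lit 76) (nat_lit 1179466174209) (nat_lit 1) (nat_lit 4) (nat_lit 2) (nat_lit 5) (nat_lit 2) (nat_lit 4) (nat_lit 535) (nat_lit 358) (nat_lit 307))) (XT.nd (nat_lit 78) (nat_lit 0) (nat_lit 0) (XT.lf (nat_lit 0) (nat_lit 11702667443466) (nat_lit 76) (nat_lit 1271169969855) (nat_lit 76) (nat_lit 1270959689464) (nat_lit 1) (nat_lit 4) (nat_lit 2) (nat_lit 5) (nat_lit 2) (nat_lit 4) (nat_lit 536) (nat_lit 358) (nat_lit 306)) (XT.lf (nat_lit 0) (nat_lit 12644396470804) (nat_lit 76) (nat_lit 1369991072967) (nat_lit 76) (nat_lit 1369780502547) (nat_lit 1) (nat_lit 4) (nat_lit 2) (nat_lit 5) (nat_lit 2) (nat_lit 4) (nat_lit 537) (nat_lit 358) (nat_lit 305))))) (XT.nd (nat_lit 234) (nat_lit 0) (nat_lit 0) (XT.nd (nat_lit 78) (nat_lit 0) (nat_lit 0) (XT.lf (nat_lit 0) (nat_lit 13661449925940) (nat_lit 76) (nat_lit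 1476725057242) (nat_lit 76) (nat_lit 1476514218276) (nat_lit 1) (nat_lit 4) (nat_lit 2) (nat_lit 5) (nat_lit 2) (nat_lit 4) (nat_lit 538) (nat_lit 358) (nat_lit 304)) (XT.nd (nat_lit 78) (nat_lit 0) (nat_lit 0) (XT.lf (nat_lit 0) (nat_lit 14759854792312) (nat_lit 76) (nat_lit 1592004420364) (nat_lit 76) (nat_lit 1591793332745) (nat_lit 1) (nat_lit 4) (nat_lit 2) (nat_lit 5) (nat_lit 2) (nat_lit 4) (nat_lit 539) (nat_lit 358) (nat_lit 303)) (XT.lf (nat_lit 0) (nat_lit 15946120135796) (nat_lit 76) (nat_lit 1716512299300) (nat_lit 76) (nat_lit 1716300981447) (nat_lit 1) (nat_lit 4) (nat_lit 2) (nat_lit 5) (nat_lit 2) (nat_lit 4) (nat_lit 540) (nat_lit 358) (nat_lit 302)))) (XT.nd (nat_lit 156) (nat_lit 0) (nat_lit 0) (XT.nd (nat_lit 78) (nat_lit 0) (nat_lit 0) (XT.lf (nat_lit 0) (nat_lit 17227275676944) (nat_lit 76) (nat_lit 1850986518518) (nat_lit 76) (nat_lit 1850774987485) (nat_lit 1) (nat_lit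 4) (nat_lit 2) (nat_lit 5) (nat_lit 2) (nat_lit 4) (nat_lit 541) (nat_lit 358) (nat_lit 301)) (XT.lf (nat_lit 0) (nat_lit 18610913448594) (nat_lit 76) (nat_lit 1996223962280) (nat_lit 76) (nat_lit 1996012233858) (nat_lit 1) (nat_lit 4) (nat_lit 2) (nat_lit 5) (nat_lit 2) (nat_lit 4) (nat_lit 542) (nat_lit 358) (nat_lit 300))) (XT.nd (nat_lit 78) (nat_lit 0) (nat_lit 0) (XT.lf (nat_lit 0) (nat_lit 20105232785689) (nat_lit 76) (nat_lit 2153085296920) (nat_lit 76) (nat_lit 2152873385729) (nat_lit 1) (nat_lit 4) (nat_lit 2) (nat_lit 5) (nat_lit 2) (nat_lit 4) (nat_lit 543) (nat_lit 358) (nat_lit 299)) (XT.lf (nat_lit 0) (nat_lit 21719088913929) (nat_lit 76) (nat_lit 2322500071086) (nat_lit 76) (nat_lit 2322287990666) (nat_lit 1) (nat_lit 4) (nat_lit 2) (nat_lit 5) (nat_lit 2) (nat_lit 4) (nat_lit 544) (nat_lit 358) (nat_lit 298)))))) (XT.nd (nat_lit 58032) (nat_lit 0) (nat_lit 0) (XT.nd (nat_lit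 57720) (nat_lit 0) (nat_lit 0) (XT.nd (nat_lit 57564) (nat_lit 0) (nat_lit 0) (XT.lf (nat_lit 0) (nat_lit 23462045425187) (nat_lit 76) (nat_lit 2505472224182) (nat_lit 76) (nat_lit 2505259987068) (nat_lit 1) (nat_lit 4) (nat_lit 2) (nat_lit 5) (nat_lit 2) (nat_lit 4) (nat_lit 545) (nat_lit 358) (nat_lit 297)) (XT.nd (nat_lit 78) (nat_lit 0) (nat_lit 0) (XT.lf (nat_lit 0) (nat_lit 20303214111) (nat_lit 76) (nat_lit 47036040006) (nat_lit 76) (nat_lit 47036040006) (nat_lit 1) (nat_lit 4) (nat_lit 2) (nat_lit 5) (nat_lit 2) (nat_lit 4) (nat_lit 482) (nat_lit 359) (nat_lit 359)) (XT.lf (nat_lit 0) (nat_lit 60691604545) (nat_lit 76) (nat_lit 92863255751) (nat_lit 76) (nat_lit 92846120088) (nat_lit 1) (nat_lit 4) (nat_lit 2) (nat_lit 5) (nat_lit 2) (nat_lit 4) (nat_lit 483) (nat_lit 359) (nat_lit 358)))) (XT.nd (nat_lit 156) (nat_lit 0) (nat_lit 0) (XT.nd (nat_lit 78) (nat_lit 0) (nat_lit 0) (XT.lf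 (nat_lit 0) (nat_lit 81562679429) (nat_lit 76) (nat_lit 91982701053) (nat_lit 76) (nat_lit 91949699036) (nat_lit 1) (nat_lit 4) (nat_lit 2) (nat_lit 5) (nat_lit 2) (nat_lit 4) (nat_lit 484) (nat_lit 359) (nat_lit 357)) (XT.lf (nat_lit 0) (nat_lit 103343333319) (nat_lit 76) (nat_lit 91425197817) (nat_lit 76) (nat_lit 91377504731) (nat_lit 1) (nat_lit 4) (nat_lit 2) (nat_lit 5) (nat_lit 2) (nat_lit 4) (nat_lit 485) (nat_lit 359) (nat_lit 356))) (XT.nd (nat_lit 78) (nat_lit 0) (nat_lit 0) (XT.lf (nat_lit 0) (nat_lit 126162636757) (nat_lit 76) (nat_lit 91187442320) (nat_lit 76) (nat_lit 91126146392) (nat_lit 1) (nat_lit 4) (nat_lit 2) (nat_lit 5) (nat_lit 2) (nat_lit 4) (nat_lit 486) (nat_lit 359) (nat_lit 355)) (XT.lf (nat_lit 0) (nat_lit 150155815243) (nat_lit 76) (nat_lit 91268025640) (nat_lit 76) (nat_lit 91194134489) (nat_lit 1) (nat_lit 4) (nat_lit 2) (nat_lit 5) (nat_lit 2) (nat_lit 4)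 (nat_lit 487) (nat_lit 359) (nat_lit 354))))) (XT.nd (nat_lit 312) (nat_lit 0) (nat_lit 0) (XT.nd (nat_lit 156) (nat_lit 0) (nat_lit 0) (XT.nd (nat_lit 78) (nat_lit 0) (nat_lit 0) (XT.lf (nat_lit 0) (nat_lit 175465050578) (nat_lit 76) (nat_lit 91667425309) (nat_lit 76) (nat_lit 91581871913) (nat_lit 1) (nat_lit 4) (nat_lit 2) (nat_lit 5) (nat_lit 2) (nat_lit 4) (nat_lit 488) (nat_lit 359) (nat_lit 353)) (XT.lf (nat_lit 0) (nat_lit 202240323414) (nat_lit 76) (nat_lit 92388008139) (nat_lit 76) (nat_lit 92291656368) (nat_lit 1) (nat_lit 4) (nat_lit 2) (nat_lit 5) (nat_lit 2) (nat_lit 4) (nat_lit 489) (nat_lit 359) (nat_lit 352))) (XT.nd (nat_lit 78) (nat_lit 0) (nat_lit 0) (XT.lf (nat_lit 0) (nat_lit 230640302035) (nat_lit 76) (nat_lit 93434044250) (nat_lit 76) (nat_lit 93327693985) (nat_lit 1) (nat_lit 4) (nat_lit 2) (nat_lit 5) (nat_lit 2) (nat_lit 4) (nat_lit 490) (nat_lit 359) (nat_lit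 351)) (XT.lf (nat_lit 0) (nat_lit 260833282610) (nat_lit 76) (nat_lit 94811732375) (nat_lit 76) (nat_lit 94696124244) (nat_lit 1) (nat_lit 4) (nat_lit 2) (nat_lit 5) (nat_lit 2) (nat_lit 4) (nat_lit 491) (nat_lit 359) (nat_lit 350)))) (XT.nd (nat_lit 156) (nat_lit 0) (nat_lit 0) (XT.nd (nat_lit 78) (nat_lit 0) (nat_lit 0) (XT.lf (nat_lit 0) (nat_lit 292998186507) (nat_lit 76) (nat_lit 96529236592) (nat_lit 76) (nat_lit 96405056363) (nat_lit 1) (nat_lit 4) (nat_lit 2) (nat_lit 5) (nat_lit 2) (nat_lit 4) (nat_lit 492) (nat_lit 359) (nat_lit 349)) (XT.lf (nat_lit 0) (nat_lit 327325620563) (nat_lit 76) (nat_lit 98596734703) (nat_lit 76) (nat_lit 98464617347) (nat_lit 1) (nat_lit 4) (nat_lit 2) (nat_lit 5) (nat_lit 2) (nat_lit 4) (nat_lit 493) (nat_lit 359) (nat_lit 348))) (XT.nd (nat_lit 78) (nat_lit 0) (nat_lit 0) (XT.lf (nat_lit 0) (nat_lit 364019006608) (nat_lit 76) (nat_lit 101026478550)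 (nat_lit 76) (nat_lit 100887012002) (nat_lit 1) (nat_lit 4) (nat_lit 2) (nat_lit 5) (nat_lit 2) (nat_lit 4) (nat_lit 494) (nat_lit 359) (nat_lit 347)) (XT.lf (nat_lit 0) (nat_lit 403295786932) (nat_lit 76) (nat_lit 103832866614) (nat_lit 76) (nat_lit 103686595258) (nat_lit 1) (nat_lit 4) (nat_lit 2) (nat_lit 5) (nat_lit 2) (nat_lit 4) (nat_lit 495) (nat_lit 359) (nat_lit 346))))))))
noncomputable def xc18 : XT := (XT.nd (nat_lit 2184) (nat_lit 0) (nat_lit 0) (XT.nd (nat_lit 1092) (nat_lit 0) (nat_lit 0) (XT.nd (nat_lit 546) (nat_lit 0) (nat_lit 0) (XT.nd (nat_lit 234) (nat_lit 0) (nat_lit 0) (XT.nd (nat_lit 78) (nat_lit 0) (nat_lit 0) (XT.lf (nat_lit 0) (nat_lit 445388712825) (nat_lit 76) (nat_lit 107032529343) (nat_lit 76) (nat_lit 106879957240) (nat_lit 1) (nat_lit 4) (nat_lit 2) (nat_lit 5) (nat_lit 2) (nat_lit 4) (nat_lit 496) (nat_lit 359) (nat_lit 345)) (XT.nd (nat_lit 78) (nat_lit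 0) (nat_lit 0) (XT.lf (nat_lit 0) (nat_lit 490547223847) (nat_lit 76) (nat_lit 110644427701) (nat_lit 76) (nat_lit 110486021572) (nat_lit 1) (nat_lit 4) (nat_lit 2) (nat_lit 5) (nat_lit 2) (nat_lit 4) (nat_lit 497) (nat_lit 359) (nat_lit 344)) (XT.lf (nat_lit 0) (nat_lit 539038925990) (nat_lit 76) (nat_lit 114689965531) (nat_lit 76) (nat_lit 114526157527) (nat_lit 1) (nat_lit 4) (nat_lit 2) (nat_lit 5) (nat_lit 2) (nat_lit 4) (nat_lit 498) (nat_lit 359) (nat_lit 343)))) (XT.nd (nat_lit 156) (nat_lit 0) (nat_lit 0) (XT.nd (nat_lit 78) (nat_lit 0) (nat_lit 0) (XT.lf (nat_lit 0) (nat_lit 591151177490) (nat_lit 76) (nat_lit 119193116390) (nat_lit 76) (nat_lit 119024306649) (nat_lit 1) (nat_lit 4) (nat_lit 2) (nat_lit 5) (nat_lit 2) (nat_lit 4) (nat_lit 499) (nat_lit 359) (nat_lit 342)) (XT.lf (nat_lit 0) (nat_lit 647192791687) (nat_lit 76) (nat_lit 124180565616) (nat_lit 76) (nat_lit 124007124638)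 (nat_lit 1) (nat_lit 4) (nat_lit 2) (nat_lit 5) (nat_lit 2) (nat_lit 4) (nat_lit 500) (nat_lit 359) (nat_lit 341))) (XT.nd (nat_lit 78) (nat_lit 0) (nat_lit 0) (XT.lf (nat_lit 0) (nat_lit 707495867036) (nat_lit 76) (nat_lit 129681868465) (nat_lit 76) (nat_lit 129504139303) (nat_lit 1) (nat_lit 4) (nat_lit 2) (nat_lit 5) (nat_lit 2) (nat_lit 4) (nat_lit 501) (nat_lit 359) (nat_lit 340)) (XT.lf (nat_lit 0) (nat_lit 772417755096) (nat_lit 76) (nat_lit 135729625249) (nat_lit 76) (nat_lit 135547925547) (nat_lit 1) (nat_lit 4) (nat_lit 2) (nat_lit 5) (nat_lit 2) (nat_lit 4) (nat_lit 502) (nat_lit 359) (nat_lit 339))))) (XT.nd (nat_lit 234) (nat_lit 0) (nat_lit 0) (XT.nd (nat_lit 78) (nat_lit 0) (nat_lit 0) (XT.lf (nat_lit 0) (nat_lit 842343178166) (nat_lit 76) (nat_lit 142359674526) (nat_lit 76) (nat_lit 142174298399) (nat_lit 1) (nat_lit 4) (nat_lit 2) (nat_lit 5) (nat_lit 2) (nat_lit 4) (nat_lit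 503) (nat_lit 359) (nat_lit 338)) (XT.nd (nat_lit 78) (nat_lit 0) (nat_lit 0) (XT.lf (nat_lit 0) (nat_lit 917686509123) (nat_lit 76) (nat_lit 149611305479) (nat_lit 76) (nat_lit 149422525254) (nat_lit 1) (nat_lit 4) (nat_lit 2) (nat_lit 5) (nat_lit 2) (nat_lit 4) (nat_lit 504) (nat_lit 359) (nat_lit 337)) (XT.lf (nat_lit 0) (nat_lit 998894226965) (nat_lit 76) (nat_lit 157527490735) (nat_lit 76) (nat_lit 157335558567) (nat_lit 1) (nat_lit 4) (nat_lit 2) (nat_lit 5) (nat_lit 2) (nat_lit 4) (nat_lit 505) (nat_lit 359) (nat_lit 336)))) (XT.nd (nat_lit 156) (nat_lit 0) (nat_lit 0) (XT.nd (nat_lit 78) (nat_lit 0) (nat_lit 0) (XT.lf (nat_lit 0) (nat_lit 1086447562614) (nat_lit 76) (nat_lit 166155141020) (nat_lit 76) (nat_lit 165960290387) (nat_lit 1) (nat_lit 4) (nat_lit 2) (nat_lit 5) (nat_lit 2) (nat_lit 4) (nat_lit 506) (nat_lit 359) (nat_lit 335)) (XT.lf (nat_lit 0) (nat_lit 1180865350650)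 (nat_lit 76) (nat_lit 175545383153) (nat_lit 76) (nat_lit 175347830237) (nat_lit 1) (nat_lit 4) (nat_lit 2) (nat_lit 5) (nat_lit 2) (nat_lit 4) (nat_lit 507) (nat_lit 359) (nat_lit 334))) (XT.nd (nat_lit 78) (nat_lit 0) (nat_lit 0) (XT.lf (nat_lit 0) (nat_lit 1282707103892) (nat_lit 76) (nat_lit 185753863011) (nat_lit 76) (nat_lit 185553807982) (nat_lit 1) (nat_lit 4) (nat_lit 2) (nat_lit 5) (nat_lit 2) (nat_lit 4) (nat_lit 508) (nat_lit 359) (nat_lit 333)) (XT.lf (nat_lit 0) (nat_lit 1392576329025) (nat_lit 76) (nat_lit 196841075291) (nat_lit 76) (nat_lit 196638703490) (nat_lit 1) (nat_lit 4) (nat_lit 2) (nat_lit 5) (nat_lit 2) (nat_lit 4) (nat_lit 509) (nat_lit 359) (nat_lit 332)))))) (XT.nd (nat_lit 546) (nat_lit 0) (nat_lit 0) (XT.nd (nat_lit 234) (nat_lit 0) (nat_lit 0) (XT.nd (nat_lit 78) (nat_lit 0) (nat_lit 0) (XT.lf (nat_lit 0) (nat_lit 1511124102939) (nat_lit 76) (nat_lit 208872721991)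 (nat_lit 76) (nat_lit 208668205031) (nat_lit 1) (nat_lit 4) (nat_lit 2) (nat_lit 5) (nat_lit 2) (nat_lit 4) (nat_lit 510) (nat_lit 359) (nat_lit 331)) (XT.nd (nat_lit 78) (nat_lit 0) (nat_lit 0) (XT.lf (nat_lit 0) (nat_lit 1639052930962) (nat_lit 76) (nat_lit 221920101759) (nat_lit 76) (nat_lit 221713598540) (nat_lit 1) (nat_lit 4) (nat_lit 2) (nat_lit 5) (nat_lit 2) (nat_lit 4) (nat_lit 511) (nat_lit 359) (nat_lit 330)) (XT.lf (nat_lit 0) (nat_lit 1777120909852) (nat_lit 76) (nat_lit 236060532400) (nat_lit 76) (nat_lit 235852190053) (nat_lit 1) (nat_lit 4) (nat_lit 2) (nat_lit 5) (nat_lit 2) (nat_lit 4) (nat_lit 512) (nat_lit 359) (nat_lit 329)))) (XT.nd (nat_lit 156) (nat_lit 0) (nat_lit 0) (XT.nd (nat_lit 78) (nat_lit 0) (nat_lit 0) (XT.lf (nat_lit 0) (nat_lit 1926146220223) (nat_lit 76) (nat_lit 251377809058) (nat_lit 76) (nat_lit 251167763815) (nat_lit 1) (nat_lit 4) (nat_lit 2) (nat_lit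 5) (nat_lit 2) (nat_lit 4) (nat_lit 513) (nat_lit 359) (nat_lit 328)) (XT.lf (nat_lit 0) (nat_lit 2087011975028) (nat_lit 76) (nat_lit 267962700782) (nat_lit 76) (nat_lit 267751078783) (nat_lit 1) (nat_lit 4) (nat_lit 2) (nat_lit 5) (nat_lit 2) (nat_lit 4) (nat_lit 514) (nat_lit 359) (nat_lit 327))) (XT.nd (nat_lit 78) (nat_lit 0) (nat_lit 0) (XT.lf (nat_lit 0) (nat_lit 2260671452813) (nat_lit 76) (nat_lit 285913488410) (nat_lit 76) (nat_lit 285700406451) (nat_lit 1) (nat_lit 4) (nat_lit 2) (nat_lit 5) (nat_lit 2) (nat_lit 4) (nat_lit 515) (nat_lit 359) (nat_lit 326)) (XT.lf (nat_lit 0) (nat_lit 2448153746778) (nat_lit 76) (nat_lit 305336546980) (nat_lit 76) (nat_lit 305122113207) (nat_lit 1) (nat_lit 4) (nat_lit 2) (nat_lit 5) (nat_lit 2) (nat_lit 4) (nat_lit 516) (nat_lit 359) (nat_lit 325))))) (XT.nd (nat_lit 234) (nat_lit 0) (nat_lit 0) (XT.nd (nat_lit 78) (nat_lit 0) (nat_lit 0) (XT.lf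 (nat_lit 0) (nat_lit 2650569863112) (nat_lit 76) (nat_lit 326346976099) (nat_lit 76) (nat_lit 326131290647) (nat_lit 1) (nat_lit 4) (nat_lit 2) (nat_lit 5) (nat_lit 2) (nat_lit 4) (nat_lit 517) (nat_lit 359) (nat_lit 324)) (XT.nd (nat_lit 78) (nat_lit 0) (nat_lit 0) (XT.lf (nat_lit 0) (nat_lit 2869119304726) (nat_lit 76) (nat_lit 349069282014) (nat_lit 76) (nat_lit 348852437599) (nat_lit 1) (nat_lit 4) (nat_lit 2) (nat_lit 5) (nat_lit 2) (nat_lit 4) (nat_lit 518) (nat_lit 359) (nat_lit 323)) (XT.lf (nat_lit 0) (nat_lit 3105097179421) (nat_lit 76) (nat_lit 373638115425) (nat_lit 76) (nat_lit 373420197896) (nat_lit 1) (nat_lit 4) (nat_lit 2) (nat_lit 5) (nat_lit 2) (nat_lit 4) (nat_lit 519) (nat_lit 359) (nat_lit 322)))) (XT.nd (nat_lit 156) (nat_lit 0) (nat_lit 0) (XT.nd (nat_lit 78) (nat_lit 0) (nat_lit 0) (XT.lf (nat_lit 0) (nat_lit 3359901874603) (nat_lit 76) (nat_lit 400199069420) (nat_lit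 76) (nat_lit 399980158268) (nat_lit 1) (nat_lit 4) (nat_lit 2) (nat_lit 5) (nat_lit 2) (nat_lit 4) (nat_lit 520) (nat_lit 359) (nat_lit 321)) (XT.lf (nat_lit 0) (nat_lit 3635043344022) (nat_lit 76) (nat_lit 428909542246) (nat_lit 76) (nat_lit 428689711071) (nat_lit 1) (nat_lit 4) (nat_lit 2) (nat_lit 5) (nat_lit 2) (nat_lit 4) (nat_lit 521) (nat_lit 359) (nat_lit 320))) (XT.nd (nat_lit 78) (nat_lit 0) (nat_lit 0) (XT.lf (nat_lit 0) (nat_lit 3932152055644) (nat_lit 76) (nat_lit 459939670036) (nat_lit 76) (nat_lit 459718986990) (nat_lit 1) (nat_lit 4) (nat_lit 2) (nat_lit 5) (nat_lit 2) (nat_lit 4) (nat_lit 522) (nat_lit 359) (nat_lit 319)) (XT.lf (nat_lit 0) (nat_lit 4252988653686) (nat_lit 76) (nat_lit 493473335030) (nat_lit 76) (nat_lit 493251863213) (nat_lit 1) (nat_lit 4) (nat_lit 2) (nat_lit 5) (nat_lit 2) (nat_lit 4) (nat_lit 523) (nat_lit 359) (nat_lit 318))))))) (XT.nd (nat_lit 1092)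 (nat_lit 0) (nat_lit 0) (XT.nd (nat_lit 546) (nat_lit 0) (nat_lit 0) (XT.nd (nat_lit 234) (nat_lit 0) (nat_lit 0) (XT.nd (nat_lit 78) (nat_lit 0) (nat_lit 0) (XT.lf (nat_lit 0) (nat_lit 4599454392064) (nat_lit 76) (nat_lit 529709255243) (nat_lit 76) (nat_lit 529487053083) (nat_lit 1) (nat_lit 4) (nat_lit 2) (nat_lit 5) (nat_lit 2) (nat_lit 4) (nat_lit 524) (nat_lit 359) (nat_lit 317)) (XT.nd (nat_lit 78) (nat_lit 0) (nat_lit 0) (XT.lf (nat_lit 0) (nat_lit 4973602401077) (nat_lit 76) (nat_lit 568862162054) (nat_lit 76) (nat_lit 568639283650) (nat_lit 1) (nat_lit 4) (nat_lit 2) (nat_lit 5) (nat_lit 2) (nat_lit 4) (nat_lit 525) (nat_lit 359) (nat_lit 316)) (XT.lf (nat_lit 0) (nat_lit 5377649854114) (nat_lit 76) (nat_lit 611164072688) (nat_lit 76) (nat_lit 610940568132) (nat_lit 1) (nat_lit 4) (nat_lit 2) (nat_lit 5) (nat_lit 2) (nat_lit 4) (nat_lit 526) (nat_lit 359) (nat_lit 315)))) (XT.nd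 (nat_lit 156) (nat_lit 0) (nat_lit 0) (XT.nd (nat_lit 78) (nat_lit 0) (nat_lit 0) (XT.lf (nat_lit 0) (nat_lit 5813991106451) (nat_lit 76) (nat_lit 656865665134) (nat_lit 76) (nat_lit 656641580808) (nat_lit 1) (nat_lit 4) (nat_lit 2) (nat_lit 5) (nat_lit 2) (nat_lit 4) (nat_lit 527) (nat_lit 359) (nat_lit 314)) (XT.lf (nat_lit 0) (nat_lit 6285211884028) (nat_lit 76) (nat_lit 706237763643) (nat_lit 76) (nat_lit 706013142494) (nat_lit 1) (nat_lit 4) (nat_lit 2) (nat_lit 5) (nat_lit 2) (nat_lit 4) (nat_lit 528) (nat_lit 359) (nat_lit 313))) (XT.nd (nat_lit 78) (nat_lit 0) (nat_lit 0) (XT.lf (nat_lit 0) (nat_lit 6794104606268) (nat_lit 76) (nat_lit 759572943615) (nat_lit 76) (nat_lit 759347825407) (nat_lit 1) (nat_lit 4) (nat_lit 2) (nat_lit 5) (nat_lit 2) (nat_lit 4) (nat_lit 529) (nat_lit 359) (nat_lit 312)) (XT.lf (nat_lit 0) (nat_lit 7343684933746) (nat_lit 76) (nat_lit 817187265375) (nat_lit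 76) (nat_lit 816961686927) (nat_lit 1) (nat_lit 4) (nat_lit 2) (nat_lit 5) (nat_lit 2) (nat_lit 4) (nat_lit 530) (nat_lit 359) (nat_lit 311))))) (XT.nd (nat_lit 234) (nat_lit 0) (nat_lit 0) (XT.nd (nat_lit 78) (nat_lit 0) (nat_lit 0) (XT.lf (nat_lit 0) (nat_lit 7937209638775) (nat_lit 76) (nat_lit 879422147126) (nat_lit 76) (nat_lit 879196142530) (nat_lit 1) (nat_lit 4) (nat_lit 2) (nat_lit 5) (nat_lit 2) (nat_lit 4) (nat_lit 531) (nat_lit 359) (nat_lit 310)) (XT.nd (nat_lit 78) (nat_lit 0) (nat_lit 0) (XT.lf (nat_lit 0) (nat_lit 8578195904791) (nat_lit 76) (nat_lit 946646388168) (nat_lit 76) (nat_lit 946419988989) (nat_lit 1) (nat_lit 4) (nat_lit 2) (nat_lit 5) (nat_lit 2) (nat_lit 4) (nat_lit 532) (nat_lit 359) (nat_lit 309)) (XT.lf (nat_lit 0) (nat_lit 9270442168926) (nat_lit 76) (nat_lit 1019258354372) (nat_lit 76) (nat_lit 1019031589840) (nat_lit 1) (nat_lit 4) (nat_lit 2) (nat_lit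 5) (nat_lit 2) (nat_lit 4) (nat_lit 533) (nat_lit 359) (nat_lit 308)))) (XT.nd (nat_lit 156) (nat_lit 0) (nat_lit 0) (XT.nd (nat_lit 78) (nat_lit 0) (nat_lit 0) (XT.lf (nat_lit 0) (nat_lit 10018050631263) (nat_lit 76) (nat_lit 1097688338873) (nat_lit 76) (nat_lit 1097461236051) (nat_lit 1) (nat_lit 4) (nat_lit 2) (nat_lit 5) (nat_lit 2) (nat_lit 4) (nat_lit 534) (nat_lit 359) (nat_lit 307)) (XT.lf (nat_lit 0) (nat_lit 10825451564173) (nat_lit 76) (nat_lit 1182401111948) (nat_lit 76) (nat_lit 1182173695895) (nat_lit 1) (nat_lit 4) (nat_lit 2) (nat_lit 5) (nat_lit 2) (nat_lit 4) (nat_lit 535) (nat_lit 359) (nat_lit 306))) (XT.nd (nat_lit 78) (nat_lit 0) (nat_lit 0) (XT.lf (nat_lit 0) (nat_lit 11697429565777) (nat_lit 76) (nat_lit 1273898675217) (nat_lit 76) (nat_lit 1273670969134) (nat_lit 1) (nat_lit 4) (nat_lit 2) (nat_lit 5) (nat_lit 2) (nat_lit 4) (nat_lit 536) (nat_lit 359) (nat_lit 305))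 (XT.lf (nat_lit 0) (nat_lit 12639151913120) (nat_lit 76) (nat_lit 1372723236461) (nat_lit 76) (nat_lit 1372495261832) (nat_lit 1) (nat_lit 4) (nat_lit 2) (nat_lit 5) (nat_lit 2) (nat_lit 4) (nat_lit 537) (nat_lit 359) (nat_lit 304)))))) (XT.nd (nat_lit 546) (nat_lit 0) (nat_lit 0) (XT.nd (nat_lit 234) (nat_lit 0) (nat_lit 0) (XT.nd (nat_lit 78) (nat_lit 0) (nat_lit 0) (XT.lf (nat_lit 0) (nat_lit 13656199183075) (nat_lit 76) (nat_lit 1479460422709) (nat_lit 76) (nat_lit 1479232199427) (nat_lit 1) (nat_lit 4) (nat_lit 2) (nat_lit 5) (nat_lit 2) (nat_lit 4) (nat_lit 538) (nat_lit 359) (nat_lit 303)) (XT.nd (nat_lit 78) (nat_lit 0) (nat_lit 0) (XT.lf (nat_lit 0) (nat_lit 14754598322429) (nat_lit 76) (nat_lit 1594742750622) (nat_lit 76) (nat_lit 1594514297106) (nat_lit 1) (nat_lit 4) (nat_lit 2) (nat_lit 5) (nat_lit 2) (nat_lit 4) (nat_lit 539) (nat_lit 359) (nat_lit 302)) (XT.lf (nat_lit 0)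 (nat_lit 15940858363118) (nat_lit 76) (nat_lit 1719253374735) (nat_lit 76) (nat_lit 1719024708038) (nat_lit 1) (nat_lit 4) (nat_lit 2) (nat_lit 5) (nat_lit 2) (nat_lit 4) (nat_lit 540) (nat_lit 359) (nat_lit 301)))) (XT.nd (nat_lit 156) (nat_lit 0) (nat_lit 0) (XT.nd (nat_lit 78) (nat_lit 0) (nat_lit 0) (XT.lf (nat_lit 0) (nat_lit 17222008994271) (nat_lit 76) (nat_lit 1853730135783) (nat_lit 76) (nat_lit 1853501271697) (nat_lit 1) (nat_lit 4) (nat_lit 2) (nat_lit 5) (nat_lit 2) (nat_lit 4) (nat_lit 541) (nat_lit 359) (nat_lit 300)) (XT.lf (nat_lit 0) (nat_lit 18605642219629) (nat_lit 76) (nat_lit 1998969933091) (nat_lit 76) (nat_lit 1998740886238) (nat_lit 1) (nat_lit 4) (nat_lit 2) (nat_lit 5) (nat_lit 2) (nat_lit 4) (nat_lit 542) (nat_lit 359) (nat_lit 299))) (XT.nd (nat_lit 78) (nat_lit 0) (nat_lit 0) (XT.lf (nat_lit 0) (nat_lit 20099957347194) (nat_lit 76) (nat_lit 2155833446940) (nat_lit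 76) (nat_lit 2155604230857) (nat_lit 1) (nat_lit 4) (nat_lit 2) (nat_lit 5) (nat_lit 2) (nat_lit 4) (nat_lit 543) (nat_lit 359) (nat_lit 298)) (XT.lf (nat_lit 0) (nat_lit 21713809577722) (nat_lit 76) (nat_lit 2325250238893) (nat_lit 76) (nat_lit 2325020866117) (nat_lit 1) (nat_lit 4) (nat_lit 2) (nat_lit 5) (nat_lit 2) (nat_lit 4) (nat_lit 544) (nat_lit 359) (nat_lit 297))))) (XT.nd (nat_lit 57642) (nat_lit 0) (nat_lit 0) (XT.nd (nat_lit 57486) (nat_lit 0) (nat_lit 0) (XT.nd (nat_lit 57408) (nat_lit 0) (nat_lit 0) (XT.lf (nat_lit 0) (nat_lit 23456762479986) (nat_lit 76) (nat_lit 2508224260310) (nat_lit 76) (nat_lit 2507994742446) (nat_lit 1) (nat_lit 4) (nat_lit 2) (nat_lit 5) (nat_lit 2) (nat_lit 4) (nat_lit 545) (nat_lit 359) (nat_lit 296)) (XT.lf (nat_lit 0) (nat_lit 1390987114) (nat_lit 76) (nat_lit 48642685959) (nat_lit 76) (nat_lit 48642685959) (nat_lit 1) (nat_lit 4) (nat_lit 2) (nat_lit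 5) (nat_lit 2) (nat_lit 4) (nat_lit 480) (nat_lit 360) (nat_lit 360))) (XT.nd (nat_lit 78) (nat_lit 0) (nat_lit 0) (XT.lf (nat_lit 0) (nat_lit 21188127196) (nat_lit 76) (nat_lit 95634843756) (nat_lit 76) (nat_lit 95616337240) (nat_lit 1) (nat_lit 4) (nat_lit 2) (nat_lit 5) (nat_lit 2) (nat_lit 4) (nat_lit 481) (nat_lit 360) (nat_lit 359)) (XT.lf (nat_lit 0) (nat_lit 40180183614) (nat_lit 76) (nat_lit 94311246886) (nat_lit 76) (nat_lit 94275604707) (nat_lit 1) (nat_lit 4) (nat_lit 2) (nat_lit 5) (nat_lit 2) (nat_lit 4) (nat_lit 482) (nat_lit 360) (nat_lit 358)))) (XT.nd (nat_lit 156) (nat_lit 0) (nat_lit 0) (XT.nd (nat_lit 78) (nat_lit 0) (nat_lit 0) (XT.lf (nat_lit 0) (nat_lit 59870689001) (nat_lit 76) (nat_lit 93306737771) (nat_lit 76) (nat_lit 93255229238) (nat_lit 1) (nat_lit 4) (nat_lit 2) (nat_lit 5) (nat_lit 2) (nat_lit 4) (nat_lit 483) (nat_lit 360) (nat_lit 357)) (XT.lf (nat_lit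 0) (nat_lit 80376327835) (nat_lit 76) (nat_lit 92615363765) (nat_lit 76) (nat_lit 92549164162) (nat_lit 1) (nat_lit 4) (nat_lit 2) (nat_lit 5) (nat_lit 2) (nat_lit 4) (nat_lit 484) (nat_lit 360) (nat_lit 356))) (XT.nd (nat_lit 78) (nat_lit 0) (nat_lit 0) (XT.lf (nat_lit 0) (nat_lit 101818615012) (nat_lit 76) (nat_lit 92233027835) (nat_lit 76) (nat_lit 92153225391) (nat_lit 1) (nat_lit 4) (nat_lit 2) (nat_lit 5) (nat_lit 2) (nat_lit 4) (nat_lit 485) (nat_lit 360) (nat_lit 355)) (XT.lf (nat_lit 0) (nat_lit 124324615937) (nat_lit 76) (nat_lit 92157464289) (nat_lit 76) (nat_lit 92065066621) (nat_lit 1) (nat_lit 4) (nat_lit 2) (nat_lit 5) (nat_lit 2) (nat_lit 4) (nat_lit 486) (nat_lit 360) (nat_lit 354))))))))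
noncomputable def xc19 : XT := (XT.nd (nat_lit 2184) (nat_lit 0) (nat_lit 0) (XT.nd (nat_lit 1092) (nat_lit 0) (nat_lit 0) (XT.nd (nat_lit 546) (nat_lit 0) (nat_lit 0) (XT.nd (nat_lit 234) (nat_lit 0) (nat_lit 0) (XT.nd (nat_lit 78) (nat_lit 0) (nat_lit 0) (XT.lf (nat_lit 0) (nat_lit 148027699505) (nat_lit 76) (nat_lit 92388225341) (nat_lit 76) (nat_lit 92284165429) (nat_lit 1) (nat_lit 4) (nat_lit 2) (nat_lit 5) (nat_lit 2) (nat_lit 4) (nat_lit 487) (nat_lit 360) (nat_lit 353)) (XT.nd (nat_lit 78) (nat_lit 0) (nat_lit 0) (XT.lf (nat_lit 0) (nat_lit 173068328433) (nat_lit 76) (nat_lit 92926678465) (nat_lit 76) (nat_lit 92811820179) (nat_lit 1) (nat_lit 4) (nat_lit 2) (nat_lit 5) (nat_lit 2) (nat_lit 4) (nat_lit 488) (nat_lit 360) (nat_lit 352)) (XT.lf (nat_lit 0) (nat_lit 199594891633) (nat_lit 76) (nat_lit 93776014495) (nat_lit 76) (nat_lit 93651157713) (nat_lit 1) (nat_lit 4) (nat_lit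 2) (nat_lit 5) (nat_lit 2) (nat_lit 4) (nat_lit 489) (nat_lit 360) (nat_lit 351)))) (XT.nd (nat_lit 156) (nat_lit 0) (nat_lit 0) (XT.nd (nat_lit 78) (nat_lit 0) (nat_lit 0) (XT.lf (nat_lit 0) (nat_lit 227764583555) (nat_lit 76) (nat_lit 94941266531) (nat_lit 76) (nat_lit 94807151885) (nat_lit 1) (nat_lit 4) (nat_lit 2) (nat_lit 5) (nat_lit 2) (nat_lit 4) (nat_lit 490) (nat_lit 360) (nat_lit 350)) (XT.lf (nat_lit 0) (nat_lit 257744335705) (nat_lit 76) (nat_lit 96429339772) (nat_lit 76) (nat_lit 96286653028) (nat_lit 1) (nat_lit 4) (nat_lit 2) (nat_lit 5) (nat_lit 2) (nat_lit 4) (nat_lit 491) (nat_lit 360) (nat_lit 349))) (XT.nd (nat_lit 78) (nat_lit 0) (nat_lit 0) (XT.lf (nat_lit 0) (nat_lit 289711805874) (nat_lit 76) (nat_lit 98249052430) (nat_lit 76) (nat_lit 98098428559) (nat_lit 1) (nat_lit 4) (nat_lit 2) (nat_lit 5) (nat_lit 2) (nat_lit 4) (nat_lit 492) (nat_lit 360) (nat_lit 348)) (XT.lf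 (nat_lit 0) (nat_lit 323856430923) (nat_lit 76) (nat_lit 100411187987) (nat_lit 76) (nat_lit 100253214923) (nat_lit 1) (nat_lit 4) (nat_lit 2) (nat_lit 5) (nat_lit 2) (nat_lit 4) (nat_lit 493) (nat_lit 360) (nat_lit 347))))) (XT.nd (nat_lit 234) (nat_lit 0) (nat_lit 0) (XT.nd (nat_lit 78) (nat_lit 0) (nat_lit 0) (XT.lf (nat_lit 0) (nat_lit 360380549370) (nat_lit 76) (nat_lit 102928559098) (nat_lit 76) (nat_lit 102763781227) (nat_lit 1) (nat_lit 4) (nat_lit 2) (nat_lit 5) (nat_lit 2) (nat_lit 4) (nat_lit 494) (nat_lit 360) (nat_lit 346)) (XT.nd (nat_lit 78) (nat_lit 0) (nat_lit 0) (XT.lf (nat_lit 0) (nat_lit 399500600435) (nat_lit 76) (nat_lit 105816083518) (nat_lit 76) (nat_lit 105645004899) (nat_lit 1) (nat_lit 4) (nat_lit 2) (nat_lit 5) (nat_lit 2) (nat_lit 4) (nat_lit 495) (nat_lit 360) (nat_lit 345)) (XT.lf (nat_lit 0) (nat_lit 441448406645) (nat_lit 76) (nat_lit 109090872502) (nat_lit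 76) (nat_lit 108913959857) (nat_lit 1) (nat_lit 4) (nat_lit 2) (nat_lit 5) (nat_lit 2) (nat_lit 4) (nat_lit 496) (nat_lit 360) (nat_lit 344)))) (XT.nd (nat_lit 156) (nat_lit 0) (nat_lit 0) (XT.nd (nat_lit 78) (nat_lit 0) (nat_lit 0) (XT.lf (nat_lit 0) (nat_lit 486472547589) (nat_lit 76) (nat_lit 112772332208) (nat_lit 76) (nat_lit 112590017688) (nat_lit 1) (nat_lit 4) (nat_lit 2) (nat_lit 5) (nat_lit 2) (nat_lit 4) (nat_lit 497) (nat_lit 360) (nat_lit 343)) (XT.lf (nat_lit 0) (nat_lit 534839832994) (nat_lit 76) (nat_lit 116882278693) (nat_lit 76) (nat_lit 116694962436) (nat_lit 1) (nat_lit 4) (nat_lit 2) (nat_lit 5) (nat_lit 2) (nat_lit 4) (nat_lit 498) (nat_lit 360) (nat_lit 342))) (XT.nd (nat_lit 78) (nat_lit 0) (nat_lit 0) (XT.lf (nat_lit 0) (nat_lit 586836883810) (nat_lit 76) (nat_lit 121445067195) (nat_lit 76) (nat_lit 121253119701) (nat_lit 1) (nat_lit 4) (nat_lit 2) (nat_lit 5) (nat_lit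 2) (nat_lit 4) (nat_lit 499) (nat_lit 360) (nat_lit 341)) (XT.lf (nat_lit 0) (nat_lit 642771830707) (nat_lit 76) (nat_lit 126487736462) (nat_lit 76) (nat_lit 126291500785) (nat_lit 1) (nat_lit 4) (nat_lit 2) (nat_lit 5) (nat_lit 2) (nat_lit 4) (nat_lit 500) (nat_lit 360) (nat_lit 340)))))) (XT.nd (nat_lit 546) (nat_lit 0) (nat_lit 0) (XT.nd (nat_lit 234) (nat_lit 0) (nat_lit 0) (XT.nd (nat_lit 78) (nat_lit 0) (nat_lit 0) (XT.lf (nat_lit 0) (nat_lit 702976140039) (nat_lit 76) (nat_lit 132040168978) (nat_lit 76) (nat_lit 131839962760) (nat_lit 1) (nat_lit 4) (nat_lit 2) (nat_lit 5) (nat_lit 2) (nat_lit 4) (nat_lit 501) (nat_lit 360) (nat_lit 339)) (XT.nd (nat_lit 78) (nat_lit 0) (nat_lit 0) (XT.lf (nat_lit 0) (nat_lit 767806578082) (nat_lit 76) (nat_lit 138135268046) (nat_lit 76) (nat_lit 137931385403) (nat_lit 1) (nat_lit 4) (nat_lit 2) (nat_lit 5) (nat_lit 2) (nat_lit 4) (nat_lit 502) (nat_lit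 360) (nat_lit 338)) (XT.lf (nat_lit 0) (nat_lit 837647325210) (nat_lit 76) (nat_lit 144809152772) (nat_lit 76) (nat_lit 144601866031) (nat_lit 1) (nat_lit 4) (nat_lit 2) (nat_lit 5) (nat_lit 2) (nat_lit 4) (nat_lit 503) (nat_lit 360) (nat_lit 337)))) (XT.nd (nat_lit 156) (nat_lit 0) (nat_lit 0) (XT.nd (nat_lit 78) (nat_lit 0) (nat_lit 0) (XT.lf (nat_lit 0) (nat_lit 912912252517) (nat_lit 76) (nat_lit 152101372103) (nat_lit 76) (nat_lit 151890933419) (nat_lit 1) (nat_lit 4) (nat_lit 2) (nat_lit 5) (nat_lit 2) (nat_lit 4) (nat_lit 504) (nat_lit 360) (nat_lit 336)) (XT.lf (nat_lit 0) (nat_lit 994047374388) (nat_lit 76) (nat_lit 160055139190) (nat_lit 76) (nat_lit 159841782041) (nat_lit 1) (nat_lit 4) (nat_lit 2) (nat_lit 5) (nat_lit 2) (nat_lit 4) (nat_lit 505) (nat_lit 360) (nat_lit 335))) (XT.nd (nat_lit 78) (nat_lit 0) (nat_lit 0) (XT.lf (nat_lit 0) (nat_lit 1081533491544) (nat_lit 76) (nat_lit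 168717587468) (nat_lit 76) (nat_lit 168501528036) (nat_lit 1) (nat_lit 4) (nat_lit 2) (nat_lit 5) (nat_lit 2) (nat_lit 4) (nat_lit 506) (nat_lit 360) (nat_lit 334)) (XT.lf (nat_lit 0) (nat_lit 1175889040235) (nat_lit 76) (nat_lit 178140049964) (nat_lit 76) (nat_lit 177921488419) (nat_lit 1) (nat_lit 4) (nat_lit 2) (nat_lit 5) (nat_lit 2) (nat_lit 4) (nat_lit 507) (nat_lit 360) (nat_lit 333))))) (XT.nd (nat_lit 234) (nat_lit 0) (nat_lit 0) (XT.nd (nat_lit 78) (nat_lit 0) (nat_lit 0) (XT.lf (nat_lit 0) (nat_lit 1277673164454) (nat_lit 76) (nat_lit 188378363492) (nat_lit 76) (nat_lit 188157485175) (nat_lit 1) (nat_lit 4) (nat_lit 2) (nat_lit 5) (nat_lit 2) (nat_lit 4) (nat_lit 508) (nat_lit 360) (nat_lit 332)) (XT.nd (nat_lit 78) (nat_lit 0) (nat_lit 0) (XT.lf (nat_lit 0) (nat_lit 1387489029381) (nat_lit 76) (nat_lit 199493199540) (nat_lit 76) (nat_lit 199270176064) (nat_lit 1) (nat_lit 4)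 (nat_lit 2) (nat_lit 5) (nat_lit 2) (nat_lit 4) (nat_lit 509) (nat_lit 360) (nat_lit 331)) (XT.lf (nat_lit 0) (nat_lit 1505987395697) (nat_lit 76) (nat_lit 211550423803) (nat_lit 76) (nat_lit 211325414069) (nat_lit 1) (nat_lit 4) (nat_lit 2) (nat_lit 5) (nat_lit 2) (nat_lit 4) (nat_lit 510) (nat_lit 360) (nat_lit 330)))) (XT.nd (nat_lit 156) (nat_lit 0) (nat_lit 0) (XT.nd (nat_lit 78) (nat_lit 0) (nat_lit 0) (XT.lf (nat_lit 0) (nat_lit 1633870475943) (nat_lit 76) (nat_lit 224621486499) (nat_lit 76) (nat_lit 224394637637) (nat_lit 1) (nat_lit 4) (nat_lit 2) (nat_lit 5) (nat_lit 2) (nat_lit 4) (nat_lit 511) (nat_lit 360) (nat_lit 329)) (XT.lf (nat_lit 0) (nat_lit 1771896095781) (nat_lit 76) (nat_lit 238783845778) (nat_lit 76) (nat_lit 238555294019) (nat_lit 1) (nat_lit 4) (nat_lit 2) (nat_lit 5) (nat_lit 2) (nat_lit 4) (nat_lit 512) (nat_lit 360) (nat_lit 328))) (XT.nd (nat_lit 78) (nat_lit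 0) (nat_lit 0) (XT.lf (nat_lit 0) (nat_lit 1920882184808) (nat_lit 76) (nat_lit 254121426731) (nat_lit 76) (nat_lit 253891298216) (nat_lit 1) (nat_lit 4) (nat_lit 2) (nat_lit 5) (nat_lit 2) (nat_lit 4) (nat_lit 513) (nat_lit 360) (nat_lit 327)) (XT.lf (nat_lit 0) (nat_lit 2081711623553) (nat_lit 76) (nat_lit 270725118727) (nat_lit 76) (nat_lit 270493530252) (nat_lit 1) (nat_lit 4) (nat_lit 2) (nat_lit 5) (nat_lit 2) (nat_lit 4) (nat_lit 514) (nat_lit 360) (nat_lit 326))))))) (XT.nd (nat_lit 1092) (nat_lit 0) (nat_lit 0) (XT.nd (nat_lit 546) (nat_lit 0) (nat_lit 0) (XT.nd (nat_lit 234) (nat_lit 0) (nat_lit 0) (XT.nd (nat_lit 78) (nat_lit 0) (nat_lit 0) (XT.lf (nat_lit 0) (nat_lit 2255337475356) (nat_lit 76) (nat_lit 288693314014) (nat_lit 76) (nat_lit 288460373726) (nat_lit 1) (nat_lit 4) (nat_lit 2) (nat_lit 5) (nat_lit 2) (nat_lit 4) (nat_lit 515) (nat_lit 360) (nat_lit 325)) (XT.nd (nat_lit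 78) (nat_lit 0) (nat_lit 0) (XT.lf (nat_lit 0) (nat_lit 2442788634153) (nat_lit 76) (nat_lit 308132490788) (nat_lit 76) (nat_lit 307898298820) (nat_lit 1) (nat_lit 4) (nat_lit 2) (nat_lit 5) (nat_lit 2) (nat_lit 4) (nat_lit 516) (nat_lit 360) (nat_lit 324)) (XT.lf (nat_lit 0) (nat_lit 2645175921628) (nat_lit 76) (nat_lit 329157844170) (nat_lit 76) (nat_lit 328922493239) (nat_lit 1) (nat_lit 4) (nat_lit 2) (nat_lit 5) (nat_lit 2) (nat_lit 4) (nat_lit 517) (nat_lit 360) (nat_lit 323)))) (XT.nd (nat_lit 156) (nat_lit 0) (nat_lit 0) (XT.nd (nat_lit 78) (nat_lit 0) (nat_lit 0) (XT.lf (nat_lit 0) (nat_lit 2863698669853) (nat_lit 76) (nat_lit 351893968846) (nat_lit 76) (nat_lit 351657544801) (nat_lit 1) (nat_lit 4) (nat_lit 2) (nat_lit 5) (nat_lit 2) (nat_lit 4) (nat_lit 518) (nat_lit 360) (nat_lit 322)) (XT.lf (nat_lit 0) (nat_lit 3099651828448) (nat_lit 76) (nat_lit 376475597407) (nat_lit 76)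 (nat_lit 376238179738) (nat_lit 1) (nat_lit 4) (nat_lit 2) (nat_lit 5) (nat_lit 2) (nat_lit 4) (nat_lit 519) (nat_lit 360) (nat_lit 321))) (XT.nd (nat_lit 78) (nat_lit 0) (nat_lit 0) (XT.lf (nat_lit 0) (nat_lit 3354433638352) (nat_lit 76) (nat_lit 403048398763) (nat_lit 76) (nat_lit 402810061072) (nat_lit 1) (nat_lit 4) (nat_lit 2) (nat_lit 5) (nat_lit 2) (nat_lit 4) (nat_lit 520) (nat_lit 360) (nat_lit 320)) (XT.lf (nat_lit 0) (nat_lit 3629553917699) (nat_lit 76) (nat_lit 431769841366) (nat_lit 76) (nat_lit 431530651804) (nat_lit 1) (nat_lit 4) (nat_lit 2) (nat_lit 5) (nat_lit 2) (nat_lit 4) (nat_lit 521) (nat_lit 360) (nat_lit 319))))) (XT.nd (nat_lit 234) (nat_lit 0) (nat_lit 0) (XT.nd (nat_lit 78) (nat_lit 0) (nat_lit 0) (XT.lf (nat_lit 0) (nat_lit 3926643008884) (nat_lit 76) (nat_lit 462810126359) (nat_lit 76) (nat_lit 462570148026) (nat_lit 1) (nat_lit 4) (nat_lit 2) (nat_lit 5) (nat_lit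 2) (nat_lit 4) (nat_lit 522) (nat_lit 360) (nat_lit 318)) (XT.nd (nat_lit 78) (nat_lit 0) (nat_lit 0) (XT.lf (nat_lit 0) (nat_lit 4247461439855) (nat_lit 76) (nat_lit 496353196170) (nat_lit 76) (nat_lit 496112487494) (nat_lit 1) (nat_lit 4) (nat_lit 2) (nat_lit 5) (nat_lit 2) (nat_lit 4) (nat_lit 523) (nat_lit 360) (nat_lit 317)) (XT.lf (nat_lit 0) (nat_lit 4593910356870) (nat_lit 76) (nat_lit 532597824547) (nat_lit 76) (nat_lit 532356439627) (nat_lit 1) (nat_lit 4) (nat_lit 2) (nat_lit 5) (nat_lit 2) (nat_lit 4) (nat_lit 524) (nat_lit 360) (nat_lit 316)))) (XT.nd (nat_lit 156) (nat_lit 0) (nat_lit 0) (XT.nd (nat_lit 78) (nat_lit 0) (nat_lit 0) (XT.lf (nat_lit 0) (nat_lit 4968042790548) (nat_lit 76) (nat_lit 571758794472) (nat_lit 76) (nat_lit 571516783401) (nat_lit 1) (nat_lit 4) (nat_lit 2) (nat_lit 5) (nat_lit 2) (nat_lit 4) (nat_lit 525) (nat_lit 360) (nat_lit 315)) (XT.lf (nat_lit 0)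 (nat_lit 5372075821978) (nat_lit 76) (nat_lit 614068170953) (nat_lit 76) (nat_lit 613825580111) (nat_lit 1) (nat_lit 4) (nat_lit 2) (nat_lit 5) (nat_lit 2) (nat_lit 4) (nat_lit 526) (nat_lit 360) (nat_lit 314))) (XT.nd (nat_lit 78) (nat_lit 0) (nat_lit 0) (XT.lf (nat_lit 0) (nat_lit 5808403720975) (nat_lit 76) (nat_lit 659776676220) (nat_lit 76) (nat_lit 659533548555) (nat_lit 1) (nat_lit 4) (nat_lit 2) (nat_lit 5) (nat_lit 2) (nat_lit 4) (nat_lit 527) (nat_lit 360) (nat_lit 313)) (XT.lf (nat_lit 0) (nat_lit 6279612134348) (nat_lit 76) (nat_lit 709155175490) (nat_lit 76) (nat_lit 708911550765) (nat_lit 1) (nat_lit 4) (nat_lit 2) (nat_lit 5) (nat_lit 2) (nat_lit 4) (nat_lit 528) (nat_lit 360) (nat_lit 312)))))) (XT.nd (nat_lit 546) (nat_lit 0) (nat_lit 0) (XT.nd (nat_lit 234) (nat_lit 0) (nat_lit 0) (XT.nd (nat_lit 78) (nat_lit 0) (nat_lit 0) (XT.lf (nat_lit 0) (nat_lit 6788493408251) (nat_lit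 76) (nat_lit 762496282092) (nat_lit 76) (nat_lit 762252197127) (nat_lit 1) (nat_lit 4) (nat_lit 2) (nat_lit 5) (nat_lit 2) (nat_lit 4) (nat_lit 529) (nat_lit 360) (nat_lit 311)) (XT.nd (nat_lit 78) (nat_lit 0) (nat_lit 0) (XT.lf (nat_lit 0) (nat_lit 7338063135418) (nat_lit 76) (nat_lit 820116091472) (nat_lit 76) (nat_lit 819871580359) (nat_lit 1) (nat_lit 4) (nat_lit 2) (nat_lit 5) (nat_lit 2) (nat_lit 4) (nat_lit 530) (nat_lit 360) (nat_lit 310)) (XT.lf (nat_lit 0) (nat_lit 7931578025343) (nat_lit 76) (nat_lit 882356054353) (nat_lit 76) (nat_lit 882111148659) (nat_lit 1) (nat_lit 4) (nat_lit 2) (nat_lit 5) (nat_lit 2) (nat_lit 4) (nat_lit 531) (nat_lit 360) (nat_lit 309)))) (XT.nd (nat_lit 156) (nat_lit 0) (nat_lit 0) (XT.nd (nat_lit 78) (nat_lit 0) (nat_lit 0) (XT.lf (nat_lit 0) (nat_lit 8572555203300) (nat_lit 76) (nat_lit 949585000144) (nat_lit 76) (nat_lit 949339729097) (nat_lit 1)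 (nat_lit 4) (nat_lit 2) (nat_lit 5) (nat_lit 2) (nat_lit 4) (nat_lit 532) (nat_lit 360) (nat_lit 308)) (XT.lf (nat_lit 0) (nat_lit 9264793052566) (nat_lit 76) (nat_lit 1022201322599) (nat_lit 76) (nat_lit 1021955713261) (nat_lit 1) (nat_lit 4) (nat_lit 2) (nat_lit 5) (nat_lit 2) (nat_lit 4) (nat_lit 533) (nat_lit 360) (nat_lit 307))) (XT.nd (nat_lit 78) (nat_lit 0) (nat_lit 0) (XT.lf (nat_lit 0) (nat_lit 10012393723358) (nat_lit 76) (nat_lit 1100635340664) (nat_lit 76) (nat_lit 1100389418095) (nat_lit 1) (nat_lit 4) (nat_lit 2) (nat_lit 5) (nat_lit 2) (nat_lit 4) (nat_lit 534) (nat_lit 360) (nat_lit 306)) (XT.lf (nat_lit 0) (nat_lit 10819787441874) (nat_lit 76) (nat_lit 1185351848522) (nat_lit 76) (nat_lit 1185105635923) (nat_lit 1) (nat_lit 4) (nat_lit 2) (nat_lit 5) (nat_lit 2) (nat_lit 4) (nat_lit 535) (nat_lit 360) (nat_lit 305))))) (XT.nd (nat_lit 312) (nat_lit 0) (nat_lit 0) (XT.nd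 (nat_lit 156) (nat_lit 0) (nat_lit 0) (XT.nd (nat_lit 78) (nat_lit 0) (nat_lit 0) (XT.lf (nat_lit 0) (nat_lit 11691758763483) (nat_lit 76) (nat_lit 1276852869922) (nat_lit 76) (nat_lit 1276606388778) (nat_lit 1) (nat_lit 4) (nat_lit 2) (nat_lit 5) (nat_lit 2) (nat_lit 4) (nat_lit 536) (nat_lit 360) (nat_lit 304)) (XT.lf (nat_lit 0) (nat_lit 12633474925646) (nat_lit 76) (nat_lit 1375680633140) (nat_lit 76) (nat_lit 1375433903342) (nat_lit 1) (nat_lit 4) (nat_lit 2) (nat_lit 5) (nat_lit 2) (nat_lit 4) (nat_lit 537) (nat_lit 360) (nat_lit 303))) (XT.nd (nat_lit 78) (nat_lit 0) (nat_lit 0) (XT.lf (nat_lit 0) (nat_lit 13650516468583) (nat_lit 76) (nat_lit 1482420784179) (nat_lit 76) (nat_lit 1482173824146) (nat_lit 1) (nat_lit 4) (nat_lit 2) (nat_lit 5) (nat_lit 2) (nat_lit 4) (nat_lit 538) (nat_lit 360) (nat_lit 302)) (XT.lf (nat_lit 0) (nat_lit 14748910305142) (nat_lit 76) (nat_lit 1597705857268)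 (nat_lit 76) (nat_lit 1597458684055) (nat_lit 1) (nat_lit 4) (nat_lit 2) (nat_lit 5) (nat_lit 2) (nat_lit 4) (nat_lit 539) (nat_lit 360) (nat_lit 301)))) (XT.nd (nat_lit 156) (nat_lit 0) (nat_lit 0) (XT.nd (nat_lit 78) (nat_lit 0) (nat_lit 0) (XT.lf (nat_lit 0) (nat_lit 15935165435835) (nat_lit 76) (nat_lit 1722219023211) (nat_lit 76) (nat_lit 1721971652609) (nat_lit 1) (nat_lit 4) (nat_lit 2) (nat_lit 5) (nat_lit 2) (nat_lit 4) (nat_lit 540) (nat_lit 360) (nat_lit 300)) (XT.lf (nat_lit 0) (nat_lit 17216311520696) (nat_lit 76) (nat_lit 1856698137805) (nat_lit 76) (nat_lit 1856450584436) (nat_lit 1) (nat_lit 4) (nat_lit 2) (nat_lit 5) (nat_lit 2) (nat_lit 4) (nat_lit 541) (nat_lit 360) (nat_lit 299))) (XT.nd (nat_lit 78) (nat_lit 0) (nat_lit 0) (XT.lf (nat_lit 0) (nat_lit 18599940536525) (nat_lit 76) (nat_lit 2001940114323) (nat_lit 76) (nat_lit 2001692391724) (nat_lit 1) (nat_lit 4) (nat_lit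 2) (nat_lit 5) (nat_lit 2) (nat_lit 4) (nat_lit 542) (nat_lit 360) (nat_lit 298)) (XT.lf (nat_lit 0) (nat_lit 20094251766377) (nat_lit 76) (nat_lit 2158805645958) (nat_lit 76) (nat_lit 2158557766666) (nat_lit 1) (nat_lit 4) (nat_lit 2) (nat_lit 5) (nat_lit 2) (nat_lit 4) (nat_lit 543) (nat_lit 360) (nat_lit 297))))))))
noncomputable def xc20 : XT := (XT.nd (nat_lit 59358) (nat_lit 0) (nat_lit 0) (XT.nd (nat_lit 58266) (nat_lit 0) (nat_lit 0) (XT.nd (nat_lit 57720) (nat_lit 0) (nat_lit 0) (XT.nd (nat_lit 57408) (nat_lit 0) (nat_lit 0) (XT.nd (nat_lit 78) (nat_lit 0) (nat_lit 0) (XT.lf (nat_lit 0) (nat_lit 21708100387912) (nat_lit 76) (nat_lit 2328224306232) (nat_lit 76) (nat_lit 2327976281853) (nat_lit 1) (nat_lit 4) (nat_lit 2) (nat_lit 5) (nat_lit 2) (nat_lit 4) (nat_lit 544) (nat_lit 360) (nat_lit 296)) (XT.nd (nat_lit 57252) (nat_lit 0) (nat_lit 76) (XT.lf (nat_lit 0) (nat_lit 23451049948516)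 (nat_lit 76) (nat_lit 2511200057576) (nat_lit 76) (nat_lit 2510951898857) (nat_lit 1) (nat_lit 4) (nat_lit 2) (nat_lit 5) (nat_lit 2) (nat_lit 4) (nat_lit 545) (nat_lit 360) (nat_lit 295)) (XT.lf (nat_lit 0) (nat_lit 34968328573) (nat_lit 152) (nat_lit 15298848728) (nat_lit 0) (nat_lit 34968328573) (nat_lit 2) (nat_lit 5) (nat_lit 4) (nat_lit 4) (nat_lit 2) (nat_lit 4) (nat_lit 478) (nat_lit 361) (nat_lit 361)))) (XT.nd (nat_lit 156) (nat_lit 0) (nat_lit 0) (XT.nd (nat_lit 78) (nat_lit 76) (nat_lit 0) (XT.lf (nat_lit 0) (nat_lit 84509544631) (nat_lit 152) (nat_lit 14389617054) (nat_lit 0) (nat_lit 84489557594) (nat_lit 2) (nat_lit 5) (nat_lit 4) (nat_lit 4) (nat_lit 2) (nat_lit 4) (nat_lit 479) (nat_lit 361) (nat_lit 360)) (XT.lf (nat_lit 0) (nat_lit 2321630050) (nat_lit 76) (nat_lit 97543672142) (nat_lit 76) (nat_lit 97505178589) (nat_lit 1) (nat_lit 4) (nat_lit 2) (nat_lit 5) (nat_lit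 2) (nat_lit 4) (nat_lit 480) (nat_lit 361) (nat_lit 359))) (XT.nd (nat_lit 78) (nat_lit 0) (nat_lit 0) (XT.lf (nat_lit 0) (nat_lit 20301538409) (nat_lit 76) (nat_lit 96113804338) (nat_lit 76) (nat_lit 96058175122) (nat_lit 1) (nat_lit 4) (nat_lit 2) (nat_lit 5) (nat_lit 2) (nat_lit 4) (nat_lit 481) (nat_lit 361) (nat_lit 358)) (XT.lf (nat_lit 0) (nat_lit 38898923892) (nat_lit 76) (nat_lit 94994522615) (nat_lit 76) (nat_lit 94923027044) (nat_lit 1) (nat_lit 4) (nat_lit 2) (nat_lit 5) (nat_lit 2) (nat_lit 4) (nat_lit 482) (nat_lit 361) (nat_lit 357))))) (XT.nd (nat_lit 234) (nat_lit 0) (nat_lit 0) (XT.nd (nat_lit 78) (nat_lit 0) (nat_lit 0) (XT.lf (nat_lit 0) (nat_lit 58223993229) (nat_lit 76) (nat_lit 94179194191) (nat_lit 76) (nat_lit 94093007551) (nat_lit 1) (nat_lit 4) (nat_lit 2) (nat_lit 5) (nat_lit 2) (nat_lit 4) (nat_lit 483) (nat_lit 361) (nat_lit 356)) (XT.nd (nat_lit 78) (nat_lit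 0) (nat_lit 0) (XT.lf (nat_lit 0) (nat_lit 78391265350) (nat_lit 76) (nat_lit 93662987491) (nat_lit 76) (nat_lit 93563198010) (nat_lit 1) (nat_lit 4) (nat_lit 2) (nat_lit 5) (nat_lit 2) (nat_lit 4) (nat_lit 484) (nat_lit 361) (nat_lit 355)) (XT.lf (nat_lit 0) (nat_lit 99520250014) (nat_lit 76) (nat_lit 93442843512) (nat_lit 76) (nat_lit 93330458807) (nat_lit 1) (nat_lit 4) (nat_lit 2) (nat_lit 5) (nat_lit 2) (nat_lit 4) (nat_lit 485) (nat_lit 361) (nat_lit 354)))) (XT.nd (nat_lit 156) (nat_lit 0) (nat_lit 0) (XT.nd (nat_lit 78) (nat_lit 0) (nat_lit 0) (XT.lf (nat_lit 0) (nat_lit 121736156020) (nat_lit 76) (nat_lit 93517457698) (nat_lit 76) (nat_lit 93393410749) (nat_lit 1) (nat_lit 4) (nat_lit 2) (nat_lit 5) (nat_lit 2) (nat_lit 4) (nat_lit 486) (nat_lit 361) (nat_lit 353)) (XT.lf (nat_lit 0) (nat_lit 145170633182) (nat_lit 76) (nat_lit 93887272206) (nat_lit 76) (nat_lit 93752426882) (nat_lit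 1) (nat_lit 4) (nat_lit 2) (nat_lit 5) (nat_lit 2) (nat_lit 4) (nat_lit 487) (nat_lit 361) (nat_lit 352))) (XT.nd (nat_lit 78) (nat_lit 0) (nat_lit 0) (XT.lf (nat_lit 0) (nat_lit 169962552474) (nat_lit 76) (nat_lit 94554478529) (nat_lit 76) (nat_lit 94409634711) (nat_lit 1) (nat_lit 4) (nat_lit 2) (nat_lit 5) (nat_lit 2) (nat_lit 4) (nat_lit 488) (nat_lit 361) (nat_lit 351)) (XT.lf (nat_lit 0) (nat_lit 196258828975) (nat_lit 76) (nat_lit 95523030484) (nat_lit 76) (nat_lit 95368928800) (nat_lit 1) (nat_lit 4) (nat_lit 2) (nat_lit 5) (nat_lit 2) (nat_lit 4) (nat_lit 489) (nat_lit 361) (nat_lit 350)))))) (XT.nd (nat_lit 546) (nat_lit 0) (nat_lit 0) (XT.nd (nat_lit 234) (nat_lit 0) (nat_lit 0) (XT.nd (nat_lit 78) (nat_lit 0) (nat_lit 0) (XT.lf (nat_lit 0) (nat_lit 224215292471) (nat_lit 76) (nat_lit 96798667637) (nat_lit 76) (nat_lit 96635993855) (nat_lit 1) (nat_lit 4) (nat_lit 2) (nat_lit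 5) (nat_lit 2) (nat_lit 4) (nat_lit 490) (nat_lit 361) (nat_lit 349)) (XT.nd (nat_lit 78) (nat_lit 0) (nat_lit 0) (XT.lf (nat_lit 0) (nat_lit 253997610894) (nat_lit 76) (nat_lit 98388949319) (nat_lit 76) (nat_lit 98218338410) (nat_lit 1) (nat_lit 4) (nat_lit 2) (nat_lit 5) (nat_lit 2) (nat_lit 4) (nat_lit 491) (nat_lit 361) (nat_lit 348)) (XT.lf (nat_lit 0) (nat_lit 285782272056) (nat_lit 76) (nat_lit 100303299422) (nat_lit 76) (nat_lit 100125339321) (nat_lit 1) (nat_lit 4) (nat_lit 2) (nat_lit 5) (nat_lit 2) (nat_lit 4) (nat_lit 492) (nat_lit 361) (nat_lit 347)))) (XT.nd (nat_lit 156) (nat_lit 0) (nat_lit 0) (XT.nd (nat_lit 78) (nat_lit 0) (nat_lit 0) (XT.lf (nat_lit 0) (nat_lit 319757629506) (nat_lit 76) (nat_lit 102553062243) (nat_lit 76) (nat_lit 102368297335) (nat_lit 1) (nat_lit 4) (nat_lit 2) (nat_lit 5) (nat_lit 2) (nat_lit 4) (nat_lit 493) (nat_lit 361) (nat_lit 346)) (XT.lf (nat_lit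 0) (nat_lit 356125018695) (nat_lit 76) (nat_lit 105151569710) (nat_lit 76) (nat_lit 104960504054) (nat_lit 1) (nat_lit 4) (nat_lit 2) (nat_lit 5) (nat_lit 2) (nat_lit 4) (nat_lit 494) (nat_lit 361) (nat_lit 345))) (XT.nd (nat_lit 78) (nat_lit 0) (nat_lit 0) (XT.lf (nat_lit 0) (nat_lit 395099950077) (nat_lit 76) (nat_lit 108114220385) (nat_lit 76) (nat_lit 107917320703) (nat_lit 1) (nat_lit 4) (nat_lit 2) (nat_lit 5) (nat_lit 2) (nat_lit 4) (nat_lit 495) (nat_lit 361) (nat_lit 344)) (XT.lf (nat_lit 0) (nat_lit 436913386209) (nat_lit 76) (nat_lit 111458570717) (nat_lit 76) (nat_lit 111256269159) (nat_lit 1) (nat_lit 4) (nat_lit 2) (nat_lit 5) (nat_lit 2) (nat_lit 4) (nat_lit 496) (nat_lit 361) (nat_lit 343))))) (XT.nd (nat_lit 234) (nat_lit 0) (nat_lit 0) (XT.nd (nat_lit 78) (nat_lit 0) (nat_lit 0) (XT.lf (nat_lit 0) (nat_lit 481813110416) (nat_lit 76) (nat_lit 115204439078) (nat_lit 76) (nat_lit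 114997135784) (nat_lit 1) (nat_lit 4) (nat_lit 2) (nat_lit 5) (nat_lit 2) (nat_lit 4) (nat_lit 497) (nat_lit 361) (nat_lit 342)) (XT.nd (nat_lit 78) (nat_lit 0) (nat_lit 0) (XT.lf (nat_lit 0) (nat_lit 530065195137) (nat_lit 76) (nat_lit 119374023207) (nat_lit 76) (nat_lit 119162088675) (nat_lit 1) (nat_lit 4) (nat_lit 2) (nat_lit 5) (nat_lit 2) (nat_lit 4) (nat_lit 498) (nat_lit 361) (nat_lit 341)) (XT.lf (nat_lit 0) (nat_lit 581955578653) (nat_lit 76) (nat_lit 123992031749) (nat_lit 76) (nat_lit 123775809035) (nat_lit 1) (nat_lit 4) (nat_lit 2) (nat_lit 5) (nat_lit 2) (nat_lit 4) (nat_lit 499) (nat_lit 361) (nat_lit 340)))) (XT.nd (nat_lit 156) (nat_lit 0) (nat_lit 0) (XT.nd (nat_lit 78) (nat_lit 0) (nat_lit 0) (XT.lf (nat_lit 0) (nat_lit 637791759532) (nat_lit 76) (nat_lit 129085830683) (nat_lit 76) (nat_lit 128865637429) (nat_lit 1) (nat_lit 4) (nat_lit 2) (nat_lit 5) (nat_lit 2) (nat_lit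 4) (nat_lit 500) (nat_lit 361) (nat_lit 339)) (XT.lf (nat_lit 0) (nat_lit 697904618847) (nat_lit 76) (nat_lit 134685605483) (nat_lit 76) (nat_lit 134461735803) (nat_lit 1) (nat_lit 4) (nat_lit 2) (nat_lit 5) (nat_lit 2) (nat_lit 4) (nat_lit 501) (nat_lit 361) (nat_lit 338))) (XT.nd (nat_lit 78) (nat_lit 0) (nat_lit 0) (XT.lf (nat_lit 0) (nat_lit 762650380948) (nat_lit 76) (nat_lit 140824540000) (nat_lit 76) (nat_lit 140597266221) (nat_lit 1) (nat_lit 4) (nat_lit 2) (nat_lit 5) (nat_lit 2) (nat_lit 4) (nat_lit 502) (nat_lit 361) (nat_lit 337)) (XT.lf (nat_lit 0) (nat_lit 832412724427) (nat_lit 76) (nat_lit 147539013104) (nat_lit 76) (nat_lit 147308587383) (nat_lit 1) (nat_lit 4) (nat_lit 2) (nat_lit 5) (nat_lit 2) (nat_lit 4) (nat_lit 503) (nat_lit 361) (nat_lit 336))))))) (XT.nd (nat_lit 1092) (nat_lit 0) (nat_lit 0) (XT.nd (nat_lit 546) (nat_lit 0) (nat_lit 0) (XT.nd (nat_lit 234) (nat_lit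 0) (nat_lit 0) (XT.nd (nat_lit 78) (nat_lit 0) (nat_lit 0) (XT.lf (nat_lit 0) (nat_lit 907605055762) (nat_lit 76) (nat_lit 154868814266) (nat_lit 76) (nat_lit 154635470080) (nat_lit 1) (nat_lit 4) (nat_lit 2) (nat_lit 5) (nat_lit 2) (nat_lit 4) (nat_lit 504) (nat_lit 361) (nat_lit 335)) (XT.nd (nat_lit 78) (nat_lit 0) (nat_lit 0) (XT.lf (nat_lit 0) (nat_lit 988672959141) (nat_lit 76) (nat_lit 162857379346) (nat_lit 76) (nat_lit 162621332877) (nat_lit 1) (nat_lit 4) (nat_lit 2) (nat_lit 5) (nat_lit 2) (nat_lit 4) (nat_lit 505) (nat_lit 361) (nat_lit 334)) (XT.lf (nat_lit 0) (nat_lit 1076096836952) (nat_lit 76) (nat_lit 171552047987) (nat_lit 76) (nat_lit 171313499405) (nat_lit 1) (nat_lit 4) (nat_lit 2) (nat_lit 5) (nat_lit 2) (nat_lit 4) (nat_lit 506) (nat_lit 361) (nat_lit 333)))) (XT.nd (nat_lit 156) (nat_lit 0) (nat_lit 0) (XT.nd (nat_lit 78) (nat_lit 0) (nat_lit 0) (XT.lf (nat_lit 0)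 (nat_lit 1170394756620) (nat_lit 76) (nat_lit 181004344152) (nat_lit 76) (nat_lit 180763478798) (nat_lit 1) (nat_lit 4) (nat_lit 2) (nat_lit 5) (nat_lit 2) (nat_lit 4) (nat_lit 507) (nat_lit 361) (nat_lit 332)) (XT.lf (nat_lit 0) (nat_lit 1272125520633) (nat_lit 76) (nat_lit 191270281448) (nat_lit 76) (nat_lit 191027270935) (nat_lit 1) (nat_lit 4) (nat_lit 2) (nat_lit 5) (nat_lit 2) (nat_lit 4) (nat_lit 508) (nat_lit 361) (nat_lit 331))) (XT.nd (nat_lit 78) (nat_lit 0) (nat_lit 0) (XT.lf (nat_lit 0) (nat_lit 1381891977961) (nat_lit 76) (nat_lit 202410695060) (nat_lit 76) (nat_lit 202165698288) (nat_lit 1) (nat_lit 4) (nat_lit 2) (nat_lit 5) (nat_lit 2) (nat_lit 4) (nat_lit 509) (nat_lit 361) (nat_lit 330)) (XT.lf (nat_lit 0) (nat_lit 1500344596500) (nat_lit 76) (nat_lit 214491602252) (nat_lit 76) (nat_lit 214244766352) (nat_lit 1) (nat_lit 4) (nat_lit 2) (nat_lit 5) (nat_lit 2) (nat_lit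 4) (nat_lit 510) (nat_lit 361) (nat_lit 329))))) (XT.nd (nat_lit 234) (nat_lit 0) (nat_lit 0) (XT.nd (nat_lit 78) (nat_lit 0) (nat_lit 0) (XT.lf (nat_lit 0) (nat_lit 1628185317694) (nat_lit 76) (nat_lit 227584593586) (nat_lit 76) (nat_lit 227336054790) (nat_lit 1) (nat_lit 4) (nat_lit 2) (nat_lit 5) (nat_lit 2) (nat_lit 4) (nat_lit 511) (nat_lit 361) (nat_lit 328)) (XT.nd (nat_lit 78) (nat_lit 0) (nat_lit 0) (XT.lf (nat_lit 0) (nat_lit 1766171716187) (nat_lit 76) (nat_lit 241767257159) (nat_lit 76) (nat_lit 241517141606) (nat_lit 1) (nat_lit 4) (nat_lit 2) (nat_lit 5) (nat_lit 2) (nat_lit 4) (nat_lit 512) (nat_lit 361) (nat_lit 327)) (XT.lf (nat_lit 0) (nat_lit 1915121489154) (nat_lit 76) (nat_lit 257123638384) (nat_lit 76) (nat_lit 256872062873) (nat_lit 1) (nat_lit 4) (nat_lit 2) (nat_lit 5) (nat_lit 2) (nat_lit 4) (nat_lit 513) (nat_lit 361) (nat_lit 326)))) (XT.nd (nat_lit 156) (nat_lit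 0) (nat_lit 0) (XT.nd (nat_lit 78) (nat_lit 0) (nat_lit 0) (XT.lf (nat_lit 0) (nat_lit 2075917301918) (nat_lit 76) (nat_lit 273744738040) (nat_lit 76) (nat_lit 273491810714) (nat_lit 1) (nat_lit 4) (nat_lit 2) (nat_lit 5) (nat_lit 2) (nat_lit 4) (nat_lit 514) (nat_lit 361) (nat_lit 325)) (XT.lf (nat_lit 0) (nat_lit 2249512018553) (nat_lit 76) (nat_lit 291729051531) (nat_lit 76) (nat_lit 291474872525) (nat_lit 1) (nat_lit 4) (nat_lit 2) (nat_lit 5) (nat_lit 2) (nat_lit 4) (nat_lit 515) (nat_lit 361) (nat_lit 324))) (XT.nd (nat_lit 78) (nat_lit 0) (nat_lit 0) (XT.lf (nat_lit 0) (nat_lit 2436934348491) (nat_lit 76) (nat_lit 311183152567) (nat_lit 76) (nat_lit 310927814599) (nat_lit 1) (nat_lit 4) (nat_lit 2) (nat_lit 5) (nat_lit 2) (nat_lit 4) (nat_lit 516) (nat_lit 361) (nat_lit 323)) (XT.lf (nat_lit 0) (nat_lit 2639294942578) (nat_lit 76) (nat_lit 332222324710) (nat_lit 76) (nat_lit 331965913628)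 (nat_lit 1) (nat_lit 4) (nat_lit 2) (nat_lit 5) (nat_lit 2) (nat_lit 4) (nat_lit 517) (nat_lit 361) (nat_lit 322)))))) (XT.nd (nat_lit 546) (nat_lit 0) (nat_lit 0) (XT.nd (nat_lit 234) (nat_lit 0) (nat_lit 0) (XT.nd (nat_lit 78) (nat_lit 0) (nat_lit 0) (XT.lf (nat_lit 0) (nat_lit 2857792974703) (nat_lit 76) (nat_lit 354971244535) (nat_lit 76) (nat_lit 354713839830) (nat_lit 1) (nat_lit 4) (nat_lit 2) (nat_lit 5) (nat_lit 2) (nat_lit 4) (nat_lit 518) (nat_lit 361) (nat_lit 321)) (XT.nd (nat_lit 78) (nat_lit 0) (nat_lit 0) (XT.lf (nat_lit 0) (nat_lit 3093723248020) (nat_lit 76) (nat_lit 379564720457) (nat_lit 76) (nat_lit 379306395729) (nat_lit 1) (nat_lit 4) (nat_lit 2) (nat_lit 5) (nat_lit 2) (nat_lit 4) (nat_lit 519) (nat_lit 361) (nat_lit 320)) (XT.lf (nat_lit 0) (nat_lit 3348483867852) (nat_lit 76) (nat_lit 406148491592) (nat_lit 76) (nat_lit 405889314992) (nat_lit 1) (nat_lit 4) (nat_lit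 2) (nat_lit 5) (nat_lit 2) (nat_lit 4) (nat_lit 520) (nat_lit 361) (nat_lit 319)))) (XT.nd (nat_lit 156) (nat_lit 0) (nat_lit 0) (XT.nd (nat_lit 78) (nat_lit 0) (nat_lit 0) (XT.lf (nat_lit 0) (nat_lit 3623584526761) (nat_lit 76) (nat_lit 434880091397) (nat_lit 76) (nat_lit 434620126027) (nat_lit 1) (nat_lit 4) (nat_lit 2) (nat_lit 5) (nat_lit 2) (nat_lit 4) (nat_lit 521) (nat_lit 361) (nat_lit 318)) (XT.lf (nat_lit 0) (nat_lit 3920655450875) (nat_lit 76) (nat_lit 465929781207) (nat_lit 76) (nat_lit 465669085494) (nat_lit 1) (nat_lit 4) (nat_lit 2) (nat_lit 5) (nat_lit 2) (nat_lit 4) (nat_lit 522) (nat_lit 361) (nat_lit 317))) (XT.nd (nat_lit 78) (nat_lit 0) (nat_lit 0) (XT.lf (nat_lit 0) (nat_lit 4241457060483) (nat_lit 76) (nat_lit 499481559182) (nat_lit 76) (nat_lit 499220187225) (nat_lit 1) (nat_lit 4) (nat_lit 2) (nat_lit 5) (nat_lit 2) (nat_lit 4) (nat_lit 523) (nat_lit 361) (nat_lit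 316)) (XT.lf (nat_lit 0) (nat_lit 4587890402163) (nat_lit 76) (nat_lit 535734250673) (nat_lit 76) (nat_lit 535472252565) (nat_lit 1) (nat_lit 4) (nat_lit 2) (nat_lit 5) (nat_lit 2) (nat_lit 4) (nat_lit 524) (nat_lit 361) (nat_lit 315))))) (XT.nd (nat_lit 312) (nat_lit 0) (nat_lit 0) (XT.nd (nat_lit 156) (nat_lit 0) (nat_lit 0) (XT.nd (nat_lit 78) (nat_lit 0) (nat_lit 0) (XT.lf (nat_lit 0) (nat_lit 4962008414234) (nat_lit 76) (nat_lit 574902686445) (nat_lit 76) (nat_lit 574640108567) (nat_lit 1) (nat_lit 4) (nat_lit 2) (nat_lit 5) (nat_lit 2) (nat_lit 4) (nat_lit 525) (nat_lit 361) (nat_lit 314)) (XT.lf (nat_lit 0) (nat_lit 5366028092324) (nat_lit 76) (nat_lit 617218975747) (nat_lit 76) (nat_lit 616955861045) (nat_lit 1) (nat_lit 4) (nat_lit 2) (nat_lit 5) (nat_lit 2) (nat_lit 4) (nat_lit 526) (nat_lit 361) (nat_lit 313))) (XT.nd (nat_lit 78) (nat_lit 0) (nat_lit 0) (XT.lf (nat_lit 0) (nat_lit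 5802343627117) (nat_lit 76) (nat_lit 662933881774) (nat_lit 76) (nat_lit 662670270013) (nat_lit 1) (nat_lit 4) (nat_lit 2) (nat_lit 5) (nat_lit 2) (nat_lit 4) (nat_lit 527) (nat_lit 361) (nat_lit 312)) (XT.lf (nat_lit 0) (nat_lit 6273540592154) (nat_lit 76) (nat_lit 712318307674) (nat_lit 76) (nat_lit 712054235673) (nat_lit 1) (nat_lit 4) (nat_lit 2) (nat_lit 5) (nat_lit 2) (nat_lit 4) (nat_lit 528) (nat_lit 361) (nat_lit 311)))) (XT.nd (nat_lit 156) (nat_lit 0) (nat_lit 0) (XT.nd (nat_lit 78) (nat_lit 0) (nat_lit 0) (XT.lf (nat_lit 0) (nat_lit 6782411265745) (nat_lit 76) (nat_lit 765664901897) (nat_lit 76) (nat_lit 765400403747) (nat_lit 1) (nat_lit 4) (nat_lit 2) (nat_lit 5) (nat_lit 2) (nat_lit 4) (nat_lit 529) (nat_lit 361) (nat_lit 310)) (XT.lf (nat_lit 0) (nat_lit 7331971177809) (nat_lit 76) (nat_lit 823289792407) (nat_lit 76) (nat_lit 823024899675) (nat_lit 1) (nat_lit 4) (nat_lit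 2) (nat_lit 5) (nat_lit 2) (nat_lit 4) (nat_lit 530) (nat_lit 361) (nat_lit 309))) (XT.nd (nat_lit 78) (nat_lit 0) (nat_lit 0) (XT.lf (nat_lit 0) (nat_lit 7925476979675) (nat_lit 76) (nat_lit 885534460038) (nat_lit 76) (nat_lit 885269201953) (nat_lit 1) (nat_lit 4) (nat_lit 2) (nat_lit 5) (nat_lit 2) (nat_lit 4) (nat_lit 531) (nat_lit 361) (nat_lit 308)) (XT.lf (nat_lit 0) (nat_lit 8566445742763) (nat_lit 76) (nat_lit 952767762079) (nat_lit 76) (nat_lit 952502165704) (nat_lit 1) (nat_lit 4) (nat_lit 2) (nat_lit 5) (nat_lit 2) (nat_lit 4) (nat_lit 532) (nat_lit 361) (nat_lit 307))))))))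
noncomputable def xc21 : XT := (XT.nd (nat_lit 59202) (nat_lit 0) (nat_lit 0) (XT.nd (nat_lit 58110) (nat_lit 0) (nat_lit 0) (XT.nd (nat_lit 546) (nat_lit 0) (nat_lit 0) (XT.nd (nat_lit 234) (nat_lit 0) (nat_lit 0) (XT.nd (nat_lit 78) (nat_lit 0) (nat_lit 0) (XT.lf (nat_lit 0) (nat_lit 9258675800483) (nat_lit 76) (nat_lit 1025388118098) (nat_lit 76) (nat_lit 1025122208491) (nat_lit 1) (nat_lit 4) (nat_lit 2) (nat_lit 5) (nat_lit 2) (nat_lit 4) (nat_lit 533) (nat_lit 361) (nat_lit 306)) (XT.nd (nat_lit 78) (nat_lit 0) (nat_lit 0) (XT.lf (nat_lit 0) (nat_lit 10006269256881) (nat_lit 76) (nat_lit 1103825870946) (nat_lit 76) (nat_lit 1103559671310) (nat_lit 1) (nat_lit 4) (nat_lit 2) (nat_lit 5) (nat_lit 2) (nat_lit 4) (nat_lit 534) (nat_lit 361) (nat_lit 305)) (XT.lf (nat_lit 0) (nat_lit 10813656295403) (nat_lit 76) (nat_lit 1188545836935) (nat_lit 76) (nat_lit 1188279368754) (nat_lit 1) (nat_lit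 4) (nat_lit 2) (nat_lit 5) (nat_lit 2) (nat_lit 4) (nat_lit 535) (nat_lit 361) (nat_lit 304)))) (XT.nd (nat_lit 156) (nat_lit 0) (nat_lit 0) (XT.nd (nat_lit 78) (nat_lit 0) (nat_lit 0) (XT.lf (nat_lit 0) (nat_lit 11685621431831) (nat_lit 76) (nat_lit 1280050060309) (nat_lit 76) (nat_lit 1279783343474) (nat_lit 1) (nat_lit 4) (nat_lit 2) (nat_lit 5) (nat_lit 2) (nat_lit 4) (nat_lit 536) (nat_lit 361) (nat_lit 303)) (XT.lf (nat_lit 0) (nat_lit 12627331866976) (nat_lit 76) (nat_lit 1378880788317) (nat_lit 76) (nat_lit 1378613841247) (nat_lit 1) (nat_lit 4) (nat_lit 2) (nat_lit 5) (nat_lit 2) (nat_lit 4) (nat_lit 537) (nat_lit 361) (nat_lit 302))) (XT.nd (nat_lit 78) (nat_lit 0) (nat_lit 0) (XT.lf (nat_lit 0) (nat_lit 13644368107118) (nat_lit 76) (nat_lit 1485623684533) (nat_lit 76) (nat_lit 1485356524283) (nat_lit 1) (nat_lit 4) (nat_lit 2) (nat_lit 5) (nat_lit 2) (nat_lit 4) (nat_lit 538)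 (nat_lit 361) (nat_lit 301)) (XT.lf (nat_lit 0) (nat_lit 14742757033681) (nat_lit 76) (nat_lit 1600911299452) (nat_lit 76) (nat_lit 1600643941813) (nat_lit 1) (nat_lit 4) (nat_lit 2) (nat_lit 5) (nat_lit 2) (nat_lit 4) (nat_lit 539) (nat_lit 361) (nat_lit 300))))) (XT.nd (nat_lit 234) (nat_lit 0) (nat_lit 0) (XT.nd (nat_lit 78) (nat_lit 0) (nat_lit 0) (XT.lf (nat_lit 0) (nat_lit 15929007618082) (nat_lit 76) (nat_lit 1725426818941) (nat_lit 76) (nat_lit 1725159278534) (nat_lit 1) (nat_lit 4) (nat_lit 2) (nat_lit 5) (nat_lit 2) (nat_lit 4) (nat_lit 540) (nat_lit 361) (nat_lit 299)) (XT.nd (nat_lit 78) (nat_lit 0) (nat_lit 0) (XT.lf (nat_lit 0) (nat_lit 17210149493414) (nat_lit 76) (nat_lit 1859908112745) (nat_lit 76) (nat_lit 1859640403109) (nat_lit 1) (nat_lit 4) (nat_lit 2) (nat_lit 5) (nat_lit 2) (nat_lit 4) (nat_lit 541) (nat_lit 361) (nat_lit 298)) (XT.lf (nat_lit 0) (nat_lit 18593774611530)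 (nat_lit 76) (nat_lit 2005152107049) (nat_lit 76) (nat_lit 2004884240720) (nat_lit 1) (nat_lit 4) (nat_lit 2) (nat_lit 5) (nat_lit 2) (nat_lit 4) (nat_lit 542) (nat_lit 361) (nat_lit 297)))) (XT.nd (nat_lit 156) (nat_lit 0) (nat_lit 0) (XT.nd (nat_lit 78) (nat_lit 0) (nat_lit 0) (XT.lf (nat_lit 0) (nat_lit 20088082232389) (nat_lit 76) (nat_lit 2162019507006) (nat_lit 76) (nat_lit 2161751495589) (nat_lit 1) (nat_lit 4) (nat_lit 2) (nat_lit 5) (nat_lit 2) (nat_lit 4) (nat_lit 543) (nat_lit 361) (nat_lit 296)) (XT.lf (nat_lit 0) (nat_lit 21701927512264) (nat_lit 76) (nat_lit 2331439897206) (nat_lit 76) (nat_lit 2331171751450) (nat_lit 1) (nat_lit 4) (nat_lit 2) (nat_lit 5) (nat_lit 2) (nat_lit 4) (nat_lit 544) (nat_lit 361) (nat_lit 295))) (XT.nd (nat_lit 57096) (nat_lit 0) (nat_lit 76) (XT.lf (nat_lit 0) (nat_lit 23444873978738) (nat_lit 76) (nat_lit 2514417250334) (nat_lit 76) (nat_lit 2514148980189)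 (nat_lit 1) (nat_lit 4) (nat_lit 2) (nat_lit 5) (nat_lit 2) (nat_lit 4) (nat_lit 545) (nat_lit 361) (nat_lit 294)) (XT.lf (nat_lit 0) (nat_lit 21449000611) (nat_lit 152) (nat_lit 30862576052) (nat_lit 0) (nat_lit 21449000611) (nat_lit 2) (nat_lit 5) (nat_lit 4) (nat_lit 4) (nat_lit 2) (nat_lit 4) (nat_lit 476) (nat_lit 362) (nat_lit 362)))))) (XT.nd (nat_lit 546) (nat_lit 0) (nat_lit 0) (XT.nd (nat_lit 234) (nat_lit 76) (nat_lit 0) (XT.nd (nat_lit 78) (nat_lit 0) (nat_lit 0) (XT.lf (nat_lit 0) (nat_lit 56026032626) (nat_lit 152) (nat_lit 46514796378) (nat_lit 0) (nat_lit 56004446626) (nat_lit 2) (nat_lit 5) (nat_lit 4) (nat_lit 4) (nat_lit 2) (nat_lit 4) (nat_lit 477) (nat_lit 362) (nat_lit 361)) (XT.nd (nat_lit 78) (nat_lit 0) (nat_lit 0) (XT.lf (nat_lit 0) (nat_lit 69730406667) (nat_lit 152) (nat_lit 31069998626) (nat_lit 0) (nat_lit 69688833630) (nat_lit 2) (nat_lit 5) (nat_lit 4) (nat_lit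 4) (nat_lit 2) (nat_lit 4) (nat_lit 478) (nat_lit 362) (nat_lit 360)) (XT.lf (nat_lit 0) (nat_lit 84092334450) (nat_lit 152) (nat_lit 15299234121) (nat_lit 0) (nat_lit 84032254897) (nat_lit 2) (nat_lit 5) (nat_lit 4) (nat_lit 4) (nat_lit 2) (nat_lit 4) (nat_lit 479) (nat_lit 362) (nat_lit 359)))) (XT.nd (nat_lit 156) (nat_lit 0) (nat_lit 0) (XT.nd (nat_lit 78) (nat_lit 0) (nat_lit 0) (XT.lf (nat_lit 0) (nat_lit 937869551) (nat_lit 76) (nat_lit 98281609929) (nat_lit 76) (nat_lit 98204394712) (nat_lit 1) (nat_lit 4) (nat_lit 2) (nat_lit 5) (nat_lit 2) (nat_lit 4) (nat_lit 480) (nat_lit 362) (nat_lit 358)) (XT.lf (nat_lit 0) (nat_lit 18523106975) (nat_lit 76) (nat_lit 97056057271) (nat_lit 76) (nat_lit 96962975701) (nat_lit 1) (nat_lit 4) (nat_lit 2) (nat_lit 5) (nat_lit 2) (nat_lit 4) (nat_lit 481) (nat_lit 362) (nat_lit 357))) (XT.nd (nat_lit 78) (nat_lit 0) (nat_lit 0) (XT.lf (nat_lit 0)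 (nat_lit 36755056408) (nat_lit 76) (nat_lit 96125956239) (nat_lit 76) (nat_lit 96018183599) (nat_lit 1) (nat_lit 4) (nat_lit 2) (nat_lit 5) (nat_lit 2) (nat_lit 4) (nat_lit 482) (nat_lit 362) (nat_lit 356)) (XT.lf (nat_lit 0) (nat_lit 55741759032) (nat_lit 76) (nat_lit 95485795122) (nat_lit 76) (nat_lit 95364419641) (nat_lit 1) (nat_lit 4) (nat_lit 2) (nat_lit 5) (nat_lit 2) (nat_lit 4) (nat_lit 483) (nat_lit 362) (nat_lit 355))))) (XT.nd (nat_lit 234) (nat_lit 0) (nat_lit 0) (XT.nd (nat_lit 78) (nat_lit 0) (nat_lit 0) (XT.lf (nat_lit 0) (nat_lit 75595728640) (nat_lit 76) (nat_lit 95131780373) (nat_lit 76) (nat_lit 94997809667) (nat_lit 1) (nat_lit 4) (nat_lit 2) (nat_lit 5) (nat_lit 2) (nat_lit 4) (nat_lit 484) (nat_lit 362) (nat_lit 354)) (XT.nd (nat_lit 78) (nat_lit 0) (nat_lit 0) (XT.lf (nat_lit 0) (nat_lit 96434618385) (nat_lit 76) (nat_lit 95061814126) (nat_lit 76) (nat_lit 94916181176)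 (nat_lit 1) (nat_lit 4) (nat_lit 2) (nat_lit 5) (nat_lit 2) (nat_lit 4) (nat_lit 485) (nat_lit 362) (nat_lit 353)) (XT.lf (nat_lit 0) (nat_lit 118381917985) (nat_lit 76) (nat_lit 95275481767) (nat_lit 76) (nat_lit 95119050443) (nat_lit 1) (nat_lit 4) (nat_lit 2) (nat_lit 5) (nat_lit 2) (nat_lit 4) (nat_lit 486) (nat_lit 362) (nat_lit 352)))) (XT.nd (nat_lit 156) (nat_lit 0) (nat_lit 0) (XT.nd (nat_lit 78) (nat_lit 0) (nat_lit 0) (XT.lf (nat_lit 0) (nat_lit 141567685511) (nat_lit 76) (nat_lit 95774049474) (nat_lit 76) (nat_lit 95607619656) (nat_lit 1) (nat_lit 4) (nat_lit 2) (nat_lit 5) (nat_lit 2) (nat_lit 4) (nat_lit 487) (nat_lit 362) (nat_lit 351)) (XT.lf (nat_lit 0) (nat_lit 166129318104) (nat_lit 76) (nat_lit 96560471724) (nat_lit 76) (nat_lit 96384784040) (nat_lit 1) (nat_lit 4) (nat_lit 2) (nat_lit 5) (nat_lit 2) (nat_lit 4) (nat_lit 488) (nat_lit 362) (nat_lit 350))) (XT.nd (nat_lit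 78) (nat_lit 0) (nat_lit 0) (XT.lf (nat_lit 0) (nat_lit 192212366179) (nat_lit 76) (nat_lit 97639408795) (nat_lit 76) (nat_lit 97455149013) (nat_lit 1) (nat_lit 4) (nat_lit 2) (nat_lit 5) (nat_lit 2) (nat_lit 4) (nat_lit 489) (nat_lit 362) (nat_lit 349)) (XT.lf (nat_lit 0) (nat_lit 219971395948) (nat_lit 76) (nat_lit 99017254388) (nat_lit 76) (nat_lit 98825057479) (nat_lit 1) (nat_lit 4) (nat_lit 2) (nat_lit 5) (nat_lit 2) (nat_lit 4) (nat_lit 490) (nat_lit 362) (nat_lit 348))))))) (XT.nd (nat_lit 1092) (nat_lit 0) (nat_lit 0) (XT.nd (nat_lit 546) (nat_lit 0) (nat_lit 0) (XT.nd (nat_lit 234) (nat_lit 0) (nat_lit 0) (XT.nd (nat_lit 78) (nat_lit 0) (nat_lit 0) (XT.lf (nat_lit 0) (nat_lit 249570905364) (nat_lit 76) (nat_lit 100702173516) (nat_lit 76) (nat_lit 100502627415) (nat_lit 1) (nat_lit 4) (nat_lit 2) (nat_lit 5) (nat_lit 2) (nat_lit 4) (nat_lit 491) (nat_lit 362) (nat_lit 347)) (XT.nd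 (nat_lit 78) (nat_lit 0) (nat_lit 0) (XT.lf (nat_lit 0) (nat_lit 281186298928) (nat_lit 76) (nat_lit 102704150883) (nat_lit 76) (nat_lit 102497799975) (nat_lit 1) (nat_lit 4) (nat_lit 2) (nat_lit 5) (nat_lit 2) (nat_lit 4) (nat_lit 492) (nat_lit 362) (nat_lit 346)) (XT.lf (nat_lit 0) (nat_lit 315004927119) (nat_lit 76) (nat_lit 105035050060) (nat_lit 76) (nat_lit 104822398404) (nat_lit 1) (nat_lit 4) (nat_lit 2) (nat_lit 5) (nat_lit 2) (nat_lit 4) (nat_lit 493) (nat_lit 362) (nat_lit 345)))) (XT.nd (nat_lit 156) (nat_lit 0) (nat_lit 0) (XT.nd (nat_lit 78) (nat_lit 0) (nat_lit 0) (XT.lf (nat_lit 0) (nat_lit 351227196624) (nat_lit 76) (nat_lit 107708683782) (nat_lit 76) (nat_lit 107490198100) (nat_lit 1) (nat_lit 4) (nat_lit 2) (nat_lit 5) (nat_lit 2) (nat_lit 4) (nat_lit 494) (nat_lit 362) (nat_lit 344)) (XT.lf (nat_lit 0) (nat_lit 390067757929) (nat_lit 76) (nat_lit 110740895805) (nat_lit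 76) (nat_lit 110517008247) (nat_lit 1) (nat_lit 4) (nat_lit 2) (nat_lit 5) (nat_lit 2) (nat_lit 4) (nat_lit 495) (nat_lit 362) (nat_lit 343))) (XT.nd (nat_lit 78) (nat_lit 0) (nat_lit 0) (XT.lf (nat_lit 0) (nat_lit 431756777323) (nat_lit 76) (nat_lit 114149654792) (nat_lit 76) (nat_lit 113920765497) (nat_lit 1) (nat_lit 4) (nat_lit 2) (nat_lit 5) (nat_lit 2) (nat_lit 4) (nat_lit 496) (nat_lit 362) (nat_lit 342)) (XT.lf (nat_lit 0) (nat_lit 476541300846) (nat_lit 76) (nat_lit 117955160796) (nat_lit 76) (nat_lit 117721640264) (nat_lit 1) (nat_lit 4) (nat_lit 2) (nat_lit 5) (nat_lit 2) (nat_lit 4) (nat_lit 497) (nat_lit 362) (nat_lit 341))))) (XT.nd (nat_lit 234) (nat_lit 0) (nat_lit 0) (XT.nd (nat_lit 78) (nat_lit 0) (nat_lit 0) (XT.lf (nat_lit 0) (nat_lit 524686718268) (nat_lit 76) (nat_lit 122179964965) (nat_lit 76) (nat_lit 121942156250) (nat_lit 1) (nat_lit 4) (nat_lit 2) (nat_lit 5) (nat_lit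 2) (nat_lit 4) (nat_lit 498) (nat_lit 362) (nat_lit 340)) (XT.nd (nat_lit 78) (nat_lit 0) (nat_lit 0) (XT.lf (nat_lit 0) (nat_lit 576478335765) (nat_lit 76) (nat_lit 126849103175) (nat_lit 76) (nat_lit 126607323921) (nat_lit 1) (nat_lit 4) (nat_lit 2) (nat_lit 5) (nat_lit 2) (nat_lit 4) (nat_lit 499) (nat_lit 362) (nat_lit 339)) (XT.lf (nat_lit 0) (nat_lit 632223066628) (nat_lit 76) (nat_lit 131990244393) (nat_lit 76) (nat_lit 131744788713) (nat_lit 1) (nat_lit 4) (nat_lit 2) (nat_lit 5) (nat_lit 2) (nat_lit 4) (nat_lit 500) (nat_lit 362) (nat_lit 338)))) (XT.nd (nat_lit 156) (nat_lit 0) (nat_lit 0) (XT.nd (nat_lit 78) (nat_lit 0) (nat_lit 0) (XT.lf (nat_lit 0) (nat_lit 692251250001) (nat_lit 76) (nat_lit 137633854641) (nat_lit 76) (nat_lit 137384994863) (nat_lit 1) (nat_lit 4) (nat_lit 2) (nat_lit 5) (nat_lit 2) (nat_lit 4) (nat_lit 501) (nat_lit 362) (nat_lit 337)) (XT.lf (nat_lit 0) (nat_lit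 756918608453) (nat_lit 76) (nat_lit 143813377536) (nat_lit 76) (nat_lit 143561365815) (nat_lit 1) (nat_lit 4) (nat_lit 2) (nat_lit 5) (nat_lit 2) (nat_lit 4) (nat_lit 502) (nat_lit 362) (nat_lit 336))) (XT.nd (nat_lit 78) (nat_lit 0) (nat_lit 0) (XT.lf (nat_lit 0) (nat_lit 826608355960) (nat_lit 76) (nat_lit 150565432472) (nat_lit 76) (nat_lit 150310502286) (nat_lit 1) (nat_lit 4) (nat_lit 2) (nat_lit 5) (nat_lit 2) (nat_lit 4) (nat_lit 503) (nat_lit 362) (nat_lit 335)) (XT.lf (nat_lit 0) (nat_lit 901733468803) (nat_lit 76) (nat_lit 157930031627) (nat_lit 76) (nat_lit 157672399158) (nat_lit 1) (nat_lit 4) (nat_lit 2) (nat_lit 5) (nat_lit 2) (nat_lit 4) (nat_lit 504) (nat_lit 362) (nat_lit 334)))))) (XT.nd (nat_lit 546) (nat_lit 0) (nat_lit 0) (XT.nd (nat_lit 234) (nat_lit 0) (nat_lit 0) (XT.nd (nat_lit 78) (nat_lit 0) (nat_lit 0) (XT.lf (nat_lit 0) (nat_lit 982739132836) (nat_lit 76) (nat_lit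 165950817069) (nat_lit 76) (nat_lit 165690682487) (nat_lit 1) (nat_lit 4) (nat_lit 2) (nat_lit 5) (nat_lit 2) (nat_lit 4) (nat_lit 505) (nat_lit 362) (nat_lit 333)) (XT.nd (nat_lit 78) (nat_lit 0) (nat_lit 0) (XT.lf (nat_lit 0) (nat_lit 1070105381625) (nat_lit 76) (nat_lit 174675319380) (nat_lit 76) (nat_lit 174412868026) (nat_lit 1) (nat_lit 4) (nat_lit 2) (nat_lit 5) (nat_lit 2) (nat_lit 4) (nat_lit 506) (nat_lit 362) (nat_lit 332)) (XT.lf (nat_lit 0) (nat_lit 1164349941086) (nat_lit 76) (nat_lit 184155239314) (nat_lit 76) (nat_lit 183890642800) (nat_lit 1) (nat_lit 4) (nat_lit 2) (nat_lit 5) (nat_lit 2) (nat_lit 4) (nat_lit 507) (nat_lit 362) (nat_lit 331)))) (XT.nd (nat_lit 156) (nat_lit 0) (nat_lit 0) (XT.nd (nat_lit 78) (nat_lit 0) (nat_lit 0) (XT.lf (nat_lit 0) (nat_lit 1266031297500) (nat_lit 76) (nat_lit 194446754173) (nat_lit 76) (nat_lit 194180171401) (nat_lit 1) (nat_lit 4) (nat_lit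 2) (nat_lit 5) (nat_lit 2) (nat_lit 4) (nat_lit 508) (nat_lit 362) (nat_lit 330)) (XT.lf (nat_lit 0) (nat_lit 1375752007052) (nat_lit 76) (nat_lit 205610850713) (nat_lit 76) (nat_lit 205342428813) (nat_lit 1) (nat_lit 4) (nat_lit 2) (nat_lit 5) (nat_lit 2) (nat_lit 4) (nat_lit 509) (nat_lit 362) (nat_lit 329))) (XT.nd (nat_lit 78) (nat_lit 0) (nat_lit 0) (XT.lf (nat_lit 0) (nat_lit 1494162266539) (nat_lit 76) (nat_lit 217713686543) (nat_lit 76) (nat_lit 217443561746) (nat_lit 1) (nat_lit 4) (nat_lit 2) (nat_lit 5) (nat_lit 2) (nat_lit 4) (nat_lit 510) (nat_lit 362) (nat_lit 328)) (XT.lf (nat_lit 0) (nat_lit 1621963766389) (nat_lit 76) (nat_lit 230826982171) (nat_lit 76) (nat_lit 230555280619) (nat_lit 1) (nat_lit 4) (nat_lit 2) (nat_lit 5) (nat_lit 2) (nat_lit 4) (nat_lit 511) (nat_lit 362) (nat_lit 327))))) (XT.nd (nat_lit 312) (nat_lit 0) (nat_lit 0) (XT.nd (nat_lit 156) (nat_lit 0) (nat_lit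 0) (XT.nd (nat_lit 78) (nat_lit 0) (nat_lit 0) (XT.lf (nat_lit 0) (nat_lit 1759913848821) (nat_lit 76) (nat_lit 245028446017) (nat_lit 76) (nat_lit 244755284505) (nat_lit 1) (nat_lit 4) (nat_lit 2) (nat_lit 5) (nat_lit 2) (nat_lit 4) (nat_lit 512) (nat_lit 362) (nat_lit 326)) (XT.lf (nat_lit 0) (nat_lit 1908829995807) (nat_lit 76) (nat_lit 260402234902) (nat_lit 76) (nat_lit 260127721576) (nat_lit 1) (nat_lit 4) (nat_lit 2) (nat_lit 5) (nat_lit 2) (nat_lit 4) (nat_lit 513) (nat_lit 362) (nat_lit 325))) (XT.nd (nat_lit 78) (nat_lit 0) (nat_lit 0) (XT.lf (nat_lit 0) (nat_lit 2069594673402) (nat_lit 76) (nat_lit 277039452761) (nat_lit 76) (nat_lit 276763687755) (nat_lit 1) (nat_lit 4) (nat_lit 2) (nat_lit 5) (nat_lit 2) (nat_lit 4) (nat_lit 514) (nat_lit 362) (nat_lit 324)) (XT.lf (nat_lit 0) (nat_lit 2243160561178) (nat_lit 76) (nat_lit 295038690514) (nat_lit 76) (nat_lit 294761766546) (nat_lit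 1) (nat_lit 4) (nat_lit 2) (nat_lit 5) (nat_lit 2) (nat_lit 4) (nat_lit 515) (nat_lit 362) (nat_lit 323)))) (XT.nd (nat_lit 156) (nat_lit 0) (nat_lit 0) (XT.nd (nat_lit 78) (nat_lit 0) (nat_lit 0) (XT.lf (nat_lit 0) (nat_lit 2430556197729) (nat_lit 76) (nat_lit 314506610312) (nat_lit 76) (nat_lit 314228613230) (nat_lit 1) (nat_lit 4) (nat_lit 2) (nat_lit 5) (nat_lit 2) (nat_lit 4) (nat_lit 516) (nat_lit 362) (nat_lit 322)) (XT.lf (nat_lit 0) (nat_lit 2632892075715) (nat_lit 76) (nat_lit 335558577604) (nat_lit 76) (nat_lit 335279586899) (nat_lit 1) (nat_lit 4) (nat_lit 2) (nat_lit 5) (nat_lit 2) (nat_lit 4) (nat_lit 517) (nat_lit 362) (nat_lit 321))) (XT.nd (nat_lit 78) (nat_lit 0) (nat_lit 0) (XT.lf (nat_lit 0) (nat_lit 2851367222562) (nat_lit 76) (nat_lit 358319344790) (nat_lit 76) (nat_lit 358039434063) (nat_lit 1) (nat_lit 4) (nat_lit 2) (nat_lit 5) (nat_lit 2) (nat_lit 4) (nat_lit 518)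 (nat_lit 362) (nat_lit 320)) (XT.lf (nat_lit 0) (nat_lit 3087276305807) (nat_lit 76) (nat_lit 382923790490) (nat_lit 76) (nat_lit 382643027891) (nat_lit 1) (nat_lit 4) (nat_lit 2) (nat_lit 5) (nat_lit 2) (nat_lit 4) (nat_lit 519) (nat_lit 362) (nat_lit 319))))))))
noncomputable def xc22 : XT := (XT.nd (nat_lit 59124) (nat_lit 0) (nat_lit 0) (XT.nd (nat_lit 1092) (nat_lit 0) (nat_lit 0) (XT.nd (nat_lit 546) (nat_lit 0) (nat_lit 0) (XT.nd (nat_lit 234) (nat_lit 0) (nat_lit 0) (XT.nd (nat_lit 78) (nat_lit 0) (nat_lit 0) (XT.lf (nat_lit 0) (nat_lit 3342017305202) (nat_lit 76) (nat_lit 409517718827) (nat_lit 76) (nat_lit 409236167457) (nat_lit 1) (nat_lit 4) (nat_lit 2) (nat_lit 5) (nat_lit 2) (nat_lit 4) (nat_lit 520) (nat_lit 362) (nat_lit 318)) (XT.nd (nat_lit 78) (nat_lit 0) (nat_lit 0) (XT.lf (nat_lit 0) (nat_lit 3617099797040) (nat_lit 76) (nat_lit 438258723450) (nat_lit 76) (nat_lit 437976441736)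 (nat_lit 1) (nat_lit 4) (nat_lit 2) (nat_lit 5) (nat_lit 2) (nat_lit 4) (nat_lit 521) (nat_lit 362) (nat_lit 317)) (XT.lf (nat_lit 0) (nat_lit 3914153899791) (nat_lit 76) (nat_lit 469317121423) (nat_lit 76) (nat_lit 469034163466) (nat_lit 1) (nat_lit 4) (nat_lit 2) (nat_lit 5) (nat_lit 2) (nat_lit 4) (nat_lit 522) (nat_lit 362) (nat_lit 316)))) (XT.nd (nat_lit 156) (nat_lit 0) (nat_lit 0) (XT.nd (nat_lit 78) (nat_lit 0) (nat_lit 0) (XT.lf (nat_lit 0) (nat_lit 4234939934064) (nat_lit 76) (nat_lit 502876962513) (nat_lit 76) (nat_lit 502593378404) (nat_lit 1) (nat_lit 4) (nat_lit 2) (nat_lit 5) (nat_lit 2) (nat_lit 4) (nat_lit 523) (nat_lit 362) (nat_lit 315)) (XT.lf (nat_lit 0) (nat_lit 4581358854136) (nat_lit 76) (nat_lit 539137119851) (nat_lit 76) (nat_lit 538852955972) (nat_lit 1) (nat_lit 4) (nat_lit 2) (nat_lit 5) (nat_lit 2) (nat_lit 4) (nat_lit 524) (nat_lit 362) (nat_lit 314))) (XT.nd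 (nat_lit 78) (nat_lit 0) (nat_lit 0) (XT.lf (nat_lit 0) (nat_lit 4955463512867) (nat_lit 76) (nat_lit 578312468444) (nat_lit 76) (nat_lit 578027767742) (nat_lit 1) (nat_lit 4) (nat_lit 2) (nat_lit 5) (nat_lit 2) (nat_lit 4) (nat_lit 525) (nat_lit 362) (nat_lit 313)) (XT.lf (nat_lit 0) (nat_lit 5359470826754) (nat_lit 76) (nat_lit 620635158506) (nat_lit 76) (nat_lit 620349960744) (nat_lit 1) (nat_lit 4) (nat_lit 2) (nat_lit 5) (nat_lit 2) (nat_lit 4) (nat_lit 526) (nat_lit 362) (nat_lit 312))))) (XT.nd (nat_lit 234) (nat_lit 0) (nat_lit 0) (XT.nd (nat_lit 78) (nat_lit 0) (nat_lit 0) (XT.lf (nat_lit 0) (nat_lit 5795774913210) (nat_lit 76) (nat_lit 666355991164) (nat_lit 76) (nat_lit 666070333162) (nat_lit 1) (nat_lit 4) (nat_lit 2) (nat_lit 5) (nat_lit 2) (nat_lit 4) (nat_lit 527) (nat_lit 362) (nat_lit 311)) (XT.nd (nat_lit 78) (nat_lit 0) (nat_lit 0) (XT.lf (nat_lit 0) (nat_lit 6266961277935)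 (nat_lit 76) (nat_lit 715745904684) (nat_lit 76) (nat_lit 715459820534) (nat_lit 1) (nat_lit 4) (nat_lit 2) (nat_lit 5) (nat_lit 2) (nat_lit 4) (nat_lit 528) (nat_lit 362) (nat_lit 310)) (XT.lf (nat_lit 0) (nat_lit 6775822136423) (nat_lit 76) (nat_lit 769097580036) (nat_lit 76) (nat_lit 768811101304) (nat_lit 1) (nat_lit 4) (nat_lit 2) (nat_lit 5) (nat_lit 2) (nat_lit 4) (nat_lit 529) (nat_lit 362) (nat_lit 309)))) (XT.nd (nat_lit 156) (nat_lit 0) (nat_lit 0) (XT.nd (nat_lit 78) (nat_lit 0) (nat_lit 0) (XT.lf (nat_lit 0) (nat_lit 7325372960428) (nat_lit 76) (nat_lit 826727175296) (nat_lit 76) (nat_lit 826440331211) (nat_lit 1) (nat_lit 4) (nat_lit 2) (nat_lit 5) (nat_lit 2) (nat_lit 4) (nat_lit 530) (nat_lit 362) (nat_lit 308)) (XT.lf (nat_lit 0) (nat_lit 7918870347425) (nat_lit 76) (nat_lit 888976199177) (nat_lit 76) (nat_lit 888689016802) (nat_lit 1) (nat_lit 4) (nat_lit 2) (nat_lit 5)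 (nat_lit 2) (nat_lit 4) (nat_lit 531) (nat_lit 362) (nat_lit 307))) (XT.nd (nat_lit 78) (nat_lit 0) (nat_lit 0) (XT.lf (nat_lit 0) (nat_lit 8559831318968) (nat_lit 76) (nat_lit 956213534783) (nat_lit 76) (nat_lit 955926039176) (nat_lit 1) (nat_lit 4) (nat_lit 2) (nat_lit 5) (nat_lit 2) (nat_lit 4) (nat_lit 532) (nat_lit 362) (nat_lit 306)) (XT.lf (nat_lit 0) (nat_lit 9252054162294) (nat_lit 76) (nat_lit 1028837625584) (nat_lit 76) (nat_lit 1028549839948) (nat_lit 1) (nat_lit 4) (nat_lit 2) (nat_lit 5) (nat_lit 2) (nat_lit 4) (nat_lit 533) (nat_lit 362) (nat_lit 305)))))) (XT.nd (nat_lit 546) (nat_lit 0) (nat_lit 0) (XT.nd (nat_lit 234) (nat_lit 0) (nat_lit 0) (XT.nd (nat_lit 78) (nat_lit 0) (nat_lit 0) (XT.lf (nat_lit 0) (nat_lit 9999640938698) (nat_lit 76) (nat_lit 1107278836564) (nat_lit 76) (nat_lit 1106990782382) (nat_lit 1) (nat_lit 4) (nat_lit 2) (nat_lit 5) (nat_lit 2) (nat_lit 4)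 (nat_lit 534) (nat_lit 362) (nat_lit 304)) (XT.nd (nat_lit 78) (nat_lit 0) (nat_lit 0) (XT.lf (nat_lit 0) (nat_lit 10807021792039) (nat_lit 76) (nat_lit 1192002004527) (nat_lit 76) (nat_lit 1191713701692) (nat_lit 1) (nat_lit 4) (nat_lit 2) (nat_lit 5) (nat_lit 2) (nat_lit 4) (nat_lit 535) (nat_lit 362) (nat_lit 303)) (XT.lf (nat_lit 0) (nat_lit 11678981201449) (nat_lit 76) (nat_lit 1283509192691) (nat_lit 76) (nat_lit 1283220659621) (nat_lit 1) (nat_lit 4) (nat_lit 2) (nat_lit 5) (nat_lit 2) (nat_lit 4) (nat_lit 536) (nat_lit 362) (nat_lit 302)))) (XT.nd (nat_lit 156) (nat_lit 0) (nat_lit 0) (XT.nd (nat_lit 78) (nat_lit 0) (nat_lit 0) (XT.lf (nat_lit 0) (nat_lit 12620686333798) (nat_lit 76) (nat_lit 1382342665876) (nat_lit 76) (nat_lit 1382053919626) (nat_lit 1) (nat_lit 4) (nat_lit 2) (nat_lit 5) (nat_lit 2) (nat_lit 4) (nat_lit 537) (nat_lit 362) (nat_lit 301)) (XT.lf (nat_lit 0) (nat_lit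 13637717663945) (nat_lit 76) (nat_lit 1489088103921) (nat_lit 76) (nat_lit 1488799160282) (nat_lit 1) (nat_lit 4) (nat_lit 2) (nat_lit 5) (nat_lit 2) (nat_lit 4) (nat_lit 538) (nat_lit 362) (nat_lit 300))) (XT.nd (nat_lit 78) (nat_lit 0) (nat_lit 0) (XT.lf (nat_lit 0) (nat_lit 14736102044217) (nat_lit 76) (nat_lit 1604378072387) (nat_lit 76) (nat_lit 1604088945980) (nat_lit 1) (nat_lit 4) (nat_lit 2) (nat_lit 5) (nat_lit 2) (nat_lit 4) (nat_lit 539) (nat_lit 362) (nat_lit 299)) (XT.lf (nat_lit 0) (nat_lit 15922348419088) (nat_lit 76) (nat_lit 1728895771085) (nat_lit 76) (nat_lit 1728606475449) (nat_lit 1) (nat_lit 4) (nat_lit 2) (nat_lit 5) (nat_lit 2) (nat_lit 4) (nat_lit 540) (nat_lit 362) (nat_lit 298))))) (XT.nd (nat_lit 234) (nat_lit 0) (nat_lit 0) (XT.nd (nat_lit 78) (nat_lit 0) (nat_lit 0) (XT.lf (nat_lit 0) (nat_lit 17203486396707) (nat_lit 76) (nat_lit 1863379082676) (nat_lit 76)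 (nat_lit 1863089630346) (nat_lit 1) (nat_lit 4) (nat_lit 2) (nat_lit 5) (nat_lit 2) (nat_lit 4) (nat_lit 541) (nat_lit 362) (nat_lit 297)) (XT.nd (nat_lit 78) (nat_lit 0) (nat_lit 0) (XT.lf (nat_lit 0) (nat_lit 18587107905830) (nat_lit 76) (nat_lit 2008624945301) (nat_lit 76) (nat_lit 2008335347885) (nat_lit 1) (nat_lit 4) (nat_lit 2) (nat_lit 5) (nat_lit 2) (nat_lit 4) (nat_lit 542) (nat_lit 362) (nat_lit 296)) (XT.lf (nat_lit 0) (nat_lit 20081412185029) (nat_lit 76) (nat_lit 2165494075184) (nat_lit 76) (nat_lit 2165204343428) (nat_lit 1) (nat_lit 4) (nat_lit 2) (nat_lit 5) (nat_lit 2) (nat_lit 4) (nat_lit 543) (nat_lit 362) (nat_lit 295)))) (XT.nd (nat_lit 57096) (nat_lit 0) (nat_lit 76) (XT.nd (nat_lit 57018) (nat_lit 0) (nat_lit 76) (XT.lf (nat_lit 0) (nat_lit 21695254370773) (nat_lit 76) (nat_lit 2334916067169) (nat_lit 76) (nat_lit 2334626211024) (nat_lit 1) (nat_lit 4) (nat_lit 2)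 (nat_lit 5) (nat_lit 2) (nat_lit 4) (nat_lit 544) (nat_lit 362) (nat_lit 294)) (XT.lf (nat_lit 0) (nat_lit 9175899528) (nat_lit 152) (nat_lit 45625666006) (nat_lit 0) (nat_lit 9175899528) (nat_lit 2) (nat_lit 5) (nat_lit 4) (nat_lit 4) (nat_lit 2) (nat_lit 4) (nat_lit 474) (nat_lit 363) (nat_lit 363))) (XT.nd (nat_lit 78) (nat_lit 0) (nat_lit 0) (XT.lf (nat_lit 0) (nat_lit 30291829592) (nat_lit 152) (nat_lit 76791201247) (nat_lit 0) (nat_lit 30268516712) (nat_lit 2) (nat_lit 5) (nat_lit 4) (nat_lit 4) (nat_lit 2) (nat_lit 4) (nat_lit 475) (nat_lit 363) (nat_lit 362)) (XT.lf (nat_lit 0) (nat_lit 42675250705) (nat_lit 152) (nat_lit 62235237368) (nat_lit 0) (nat_lit 42630351825) (nat_lit 2) (nat_lit 5) (nat_lit 4) (nat_lit 4) (nat_lit 2) (nat_lit 4) (nat_lit 476) (nat_lit 363) (nat_lit 361))))))) (XT.nd (nat_lit 1092) (nat_lit 0) (nat_lit 0) (XT.nd (nat_lit 546) (nat_lit 0) (nat_lit 0) (XT.nd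 (nat_lit 234) (nat_lit 76) (nat_lit 0) (XT.nd (nat_lit 78) (nat_lit 0) (nat_lit 0) (XT.lf (nat_lit 0) (nat_lit 55575445631) (nat_lit 152) (nat_lit 47497182811) (nat_lit 0) (nat_lit 55510559713) (nat_lit 2) (nat_lit 5) (nat_lit 4) (nat_lit 4) (nat_lit 2) (nat_lit 4) (nat_lit 477) (nat_lit 363) (nat_lit 360)) (XT.nd (nat_lit 78) (nat_lit 0) (nat_lit 0) (XT.lf (nat_lit 0) (nat_lit 69068859969) (nat_lit 152) (nat_lit 32489700956) (nat_lit 0) (nat_lit 68985467535) (nat_lit 2) (nat_lit 5) (nat_lit 4) (nat_lit 4) (nat_lit 2) (nat_lit 4) (nat_lit 478) (nat_lit 363) (nat_lit 359)) (XT.lf (nat_lit 0) (nat_lit 83235454694) (nat_lit 152) (nat_lit 17123858579) (nat_lit 0) (nat_lit 83134926597) (nat_lit 2) (nat_lit 5) (nat_lit 4) (nat_lit 4) (nat_lit 2) (nat_lit 4) (nat_lit 479) (nat_lit 363) (nat_lit 358)))) (XT.nd (nat_lit 156) (nat_lit 0) (nat_lit 0) (XT.nd (nat_lit 78) (nat_lit 76) (nat_lit 0) (XT.lf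 (nat_lit 0) (nat_lit 98159179996) (nat_lit 152) (nat_lit 1308598836) (nat_lit 0) (nat_lit 98042785545) (nat_lit 2) (nat_lit 5) (nat_lit 4) (nat_lit 4) (nat_lit 2) (nat_lit 4) (nat_lit 480) (nat_lit 363) (nat_lit 357)) (XT.lf (nat_lit 0) (nat_lit 15842294041) (nat_lit 76) (nat_lit 98467186277) (nat_lit 76) (nat_lit 98336100757) (nat_lit 1) (nat_lit 4) (nat_lit 2) (nat_lit 5) (nat_lit 2) (nat_lit 4) (nat_lit 481) (nat_lit 363) (nat_lit 356))) (XT.nd (nat_lit 78) (nat_lit 0) (nat_lit 0) (XT.lf (nat_lit 0) (nat_lit 33735876761) (nat_lit 76) (nat_lit 97712252551) (nat_lit 76) (nat_lit 97567564190) (nat_lit 1) (nat_lit 4) (nat_lit 2) (nat_lit 5) (nat_lit 2) (nat_lit 4) (nat_lit 482) (nat_lit 363) (nat_lit 355)) (XT.lf (nat_lit 0) (nat_lit 52409276872) (nat_lit 76) (nat_lit 97234283385) (nat_lit 76) (nat_lit 97076999799) (nat_lit 1) (nat_lit 4) (nat_lit 2) (nat_lit 5) (nat_lit 2) (nat_lit 4) (nat_lit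 483) (nat_lit 363) (nat_lit 354))))) (XT.nd (nat_lit 234) (nat_lit 0) (nat_lit 0) (XT.nd (nat_lit 78) (nat_lit 0) (nat_lit 0) (XT.lf (nat_lit 0) (nat_lit 71973151562) (nat_lit 76) (nat_lit 97030446367) (nat_lit 76) (nat_lit 96861500538) (nat_lit 1) (nat_lit 4) (nat_lit 2) (nat_lit 5) (nat_lit 2) (nat_lit 4) (nat_lit 484) (nat_lit 363) (nat_lit 353)) (XT.nd (nat_lit 78) (nat_lit 0) (nat_lit 0) (XT.lf (nat_lit 0) (nat_lit 92543434901) (nat_lit 76) (nat_lit 97099533576) (nat_lit 76) (nat_lit 96919789372) (nat_lit 1) (nat_lit 4) (nat_lit 2) (nat_lit 5) (nat_lit 2) (nat_lit 4) (nat_lit 485) (nat_lit 363) (nat_lit 352)) (XT.lf (nat_lit 0) (nat_lit 114242024865) (nat_lit 76) (nat_lit 97441954417) (nat_lit 76) (nat_lit 97252211718) (nat_lit 1) (nat_lit 4) (nat_lit 2) (nat_lit 5) (nat_lit 2) (nat_lit 4) (nat_lit 486) (nat_lit 363) (nat_lit 351)))) (XT.nd (nat_lit 156) (nat_lit 0) (nat_lit 0) (XT.nd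 (nat_lit 78) (nat_lit 0) (nat_lit 0) (XT.lf (nat_lit 0) (nat_lit 137197505692) (nat_lit 76) (nat_lit 98059738050) (nat_lit 76) (nat_lit 97860737486) (nat_lit 1) (nat_lit 4) (nat_lit 2) (nat_lit 5) (nat_lit 2) (nat_lit 4) (nat_lit 487) (nat_lit 363) (nat_lit 350)) (XT.lf (nat_lit 0) (nat_lit 161545909859) (nat_lit 76) (nat_lit 98956545415) (nat_lit 76) (nat_lit 98748972753) (nat_lit 1) (nat_lit 4) (nat_lit 2) (nat_lit 5) (nat_lit 2) (nat_lit 4) (nat_lit 488) (nat_lit 363) (nat_lit 349))) (XT.nd (nat_lit 78) (nat_lit 0) (nat_lit 0) (XT.lf (nat_lit 0) (nat_lit 187431524207) (nat_lit 76) (nat_lit 100137690927) (nat_lit 76) (nat_lit 99922181138) (nat_lit 1) (nat_lit 4) (nat_lit 2) (nat_lit 5) (nat_lit 2) (nat_lit 4) (nat_lit 489) (nat_lit 363) (nat_lit 348)) (XT.lf (nat_lit 0) (nat_lit 215007744969) (nat_lit 76) (nat_lit 101610173966) (nat_lit 76) (nat_lit 101387314985) (nat_lit 1) (nat_lit 4)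 (nat_lit 2) (nat_lit 5) (nat_lit 2) (nat_lit 4) (nat_lit 490) (nat_lit 363) (nat_lit 347)))))) (XT.nd (nat_lit 546) (nat_lit 0) (nat_lit 0) (XT.nd (nat_lit 234) (nat_lit 0) (nat_lit 0) (XT.nd (nat_lit 78) (nat_lit 0) (nat_lit 0) (XT.lf (nat_lit 0) (nat_lit 244437986786) (nat_lit 76) (nat_lit 103382720358) (nat_lit 76) (nat_lit 103153056569) (nat_lit 1) (nat_lit 4) (nat_lit 2) (nat_lit 5) (nat_lit 2) (nat_lit 4) (nat_lit 491) (nat_lit 363) (nat_lit 346)) (XT.nd (nat_lit 78) (nat_lit 0) (nat_lit 0) (XT.lf (nat_lit 0) (nat_lit 275896651091) (nat_lit 76) (nat_lit 105465834081) (nat_lit 76) (nat_lit 105229869545) (nat_lit 1) (nat_lit 4) (nat_lit 2) (nat_lit 5) (nat_lit 2) (nat_lit 4) (nat_lit 492) (nat_lit 363) (nat_lit 345)) (XT.lf (nat_lit 0) (nat_lit 309570159600) (nat_lit 76) (nat_lit 107871859513) (nat_lit 76) (nat_lit 107630060951) (nat_lit 1) (nat_lit 4) (nat_lit 2) (nat_lit 5) (nat_lit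 2) (nat_lit 4) (nat_lit 493) (nat_lit 363) (nat_lit 344)))) (XT.nd (nat_lit 156) (nat_lit 0) (nat_lit 0) (XT.nd (nat_lit 78) (nat_lit 0) (nat_lit 0) (XT.lf (nat_lit 0) (nat_lit 345658059027) (nat_lit 76) (nat_lit 110615054583) (nat_lit 76) (nat_lit 110367854145) (nat_lit 1) (nat_lit 4) (nat_lit 2) (nat_lit 5) (nat_lit 2) (nat_lit 4) (nat_lit 494) (nat_lit 363) (nat_lit 343)) (XT.lf (nat_lit 0) (nat_lit 384374203594) (nat_lit 76) (nat_lit 113711675260) (nat_lit 76) (nat_lit 113459473086) (nat_lit 1) (nat_lit 4) (nat_lit 2) (nat_lit 5) (nat_lit 2) (nat_lit 4) (nat_lit 495) (nat_lit 363) (nat_lit 342))) (XT.nd (nat_lit 78) (nat_lit 0) (nat_lit 0) (XT.lf (nat_lit 0) (nat_lit 425948022304) (nat_lit 76) (nat_lit 117180071891) (nat_lit 76) (nat_lit 116923238479) (nat_lit 1) (nat_lit 4) (nat_lit 2) (nat_lit 5) (nat_lit 2) (nat_lit 4) (nat_lit 496) (nat_lit 363) (nat_lit 341)) (XT.lf (nat_lit 0)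 (nat_lit 470625878527) (nat_lit 76) (nat_lit 121040797936) (nat_lit 76) (nat_lit 120779676341) (nat_lit 1) (nat_lit 4) (nat_lit 2) (nat_lit 5) (nat_lit 2) (nat_lit 4) (nat_lit 497) (nat_lit 363) (nat_lit 340))))) (XT.nd (nat_lit 312) (nat_lit 0) (nat_lit 0) (XT.nd (nat_lit 156) (nat_lit 0) (nat_lit 0) (XT.nd (nat_lit 78) (nat_lit 0) (nat_lit 0) (XT.lf (nat_lit 0) (nat_lit 518672529931) (nat_lit 76) (nat_lit 125316731772) (nat_lit 76) (nat_lit 125051639637) (nat_lit 1) (nat_lit 4) (nat_lit 2) (nat_lit 5) (nat_lit 2) (nat_lit 4) (nat_lit 498) (nat_lit 363) (nat_lit 339)) (XT.lf (nat_lit 0) (nat_lit 570372697412) (nat_lit 76) (nat_lit 130033212266) (nat_lit 76) (nat_lit 129764443706) (nat_lit 1) (nat_lit 4) (nat_lit 2) (nat_lit 5) (nat_lit 2) (nat_lit 4) (nat_lit 499) (nat_lit 363) (nat_lit 338))) (XT.nd (nat_lit 78) (nat_lit 0) (nat_lit 0) (XT.lf (nat_lit 0) (nat_lit 626032752333) (nat_lit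 76) (nat_lit 135218188933) (nat_lit 76) (nat_lit 134946016274) (nat_lit 1) (nat_lit 4) (nat_lit 2) (nat_lit 5) (nat_lit 2) (nat_lit 4) (nat_lit 500) (nat_lit 363) (nat_lit 337)) (XT.lf (nat_lit 0) (nat_lit 685982532056) (nat_lit 76) (nat_lit 140902387559) (nat_lit 76) (nat_lit 140627062958) (nat_lit 1) (nat_lit 4) (nat_lit 2) (nat_lit 5) (nat_lit 2) (nat_lit 4) (nat_lit 501) (nat_lit 363) (nat_lit 336)))) (XT.nd (nat_lit 156) (nat_lit 0) (nat_lit 0) (XT.nd (nat_lit 78) (nat_lit 0) (nat_lit 0) (XT.lf (nat_lit 0) (nat_lit 750577294537) (nat_lit 76) (nat_lit 147119492285) (nat_lit 76) (nat_lit 146841249219) (nat_lit 1) (nat_lit 4) (nat_lit 2) (nat_lit 5) (nat_lit 2) (nat_lit 4) (nat_lit 502) (nat_lit 363) (nat_lit 335)) (XT.lf (nat_lit 0) (nat_lit 820199823551) (nat_lit 76) (nat_lit 153906345214) (nat_lit 76) (nat_lit 153625399865) (nat_lit 1) (nat_lit 4) (nat_lit 2) (nat_lit 5) (nat_lit 2)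 (nat_lit 4) (nat_lit 503) (nat_lit 363) (nat_lit 334))) (XT.nd (nat_lit 78) (nat_lit 0) (nat_lit 0) (XT.lf (nat_lit 0) (nat_lit 895262697049) (nat_lit 76) (nat_lit 161303164732) (nat_lit 76) (nat_lit 161019717269) (nat_lit 1) (nat_lit 4) (nat_lit 2) (nat_lit 5) (nat_lit 2) (nat_lit 4) (nat_lit 504) (nat_lit 363) (nat_lit 333)) (XT.lf (nat_lit 0) (nat_lit 976210732060) (nat_lit 76) (nat_lit 169353783844) (nat_lit 76) (nat_lit 169068019609) (nat_lit 1) (nat_lit 4) (nat_lit 2) (nat_lit 5) (nat_lit 2) (nat_lit 4) (nat_lit 505) (nat_lit 363) (nat_lit 332))))))))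
noncomputable def xc23 : XT := (XT.nd (nat_lit 2184) (nat_lit 0) (nat_lit 0) (XT.nd (nat_lit 1092) (nat_lit 0) (nat_lit 0) (XT.nd (nat_lit 546) (nat_lit 0) (nat_lit 0) (XT.nd (nat_lit 234) (nat_lit 0) (nat_lit 0) (XT.nd (nat_lit 78) (nat_lit 0) (nat_lit 0) (XT.lf (nat_lit 0) (nat_lit 1063523620642) (nat_lit 76) (nat_lit 178105909923) (nat_lit 76) (nat_lit 177818000529) (nat_lit 1) (nat_lit 4) (nat_lit 2) (nat_lit 5) (nat_lit 2) (nat_lit 4) (nat_lit 506) (nat_lit 363) (nat_lit 331)) (XT.nd (nat_lit 78) (nat_lit 0) (nat_lit 0) (XT.lf (nat_lit 0) (nat_lit 1157718772505) (nat_lit 76) (nat_lit 187611407419) (nat_lit 76) (nat_lit 187321511767) (nat_lit 1) (nat_lit 4) (nat_lit 2) (nat_lit 5) (nat_lit 2) (nat_lit 4) (nat_lit 507) (nat_lit 363) (nat_lit 330)) (XT.lf (nat_lit 0) (nat_lit 1259354381142) (nat_lit 76) (nat_lit 197926605207) (nat_lit 76) (nat_lit 197634870427) (nat_lit 1) (nat_lit 4)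 (nat_lit 2) (nat_lit 5) (nat_lit 2) (nat_lit 4) (nat_lit 508) (nat_lit 363) (nat_lit 329)))) (XT.nd (nat_lit 156) (nat_lit 0) (nat_lit 0) (XT.nd (nat_lit 78) (nat_lit 0) (nat_lit 0) (XT.lf (nat_lit 0) (nat_lit 1369032731642) (nat_lit 76) (nat_lit 209112630385) (nat_lit 76) (nat_lit 208819192709) (nat_lit 1) (nat_lit 4) (nat_lit 2) (nat_lit 5) (nat_lit 2) (nat_lit 4) (nat_lit 509) (nat_lit 363) (nat_lit 328)) (XT.lf (nat_lit 0) (nat_lit 1487403769784) (nat_lit 76) (nat_lit 221235770509) (nat_lit 76) (nat_lit 220940756077) (nat_lit 1) (nat_lit 4) (nat_lit 2) (nat_lit 5) (nat_lit 2) (nat_lit 4) (nat_lit 510) (nat_lit 363) (nat_lit 327))) (XT.nd (nat_lit 78) (nat_lit 0) (nat_lit 0) (XT.lf (nat_lit 0) (nat_lit 1615168953574) (nat_lit 76) (nat_lit 234367866410) (nat_lit 76) (nat_lit 234071392018) (nat_lit 1) (nat_lit 4) (nat_lit 2) (nat_lit 5) (nat_lit 2) (nat_lit 4) (nat_lit 511) (nat_lit 363)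 (nat_lit 326)) (XT.lf (nat_lit 0) (nat_lit 1753085410025) (nat_lit 76) (nat_lit 248586737915) (nat_lit 76) (nat_lit 248288911709) (nat_lit 1) (nat_lit 4) (nat_lit 2) (nat_lit 5) (nat_lit 2) (nat_lit 4) (nat_lit 512) (nat_lit 363) (nat_lit 325))))) (XT.nd (nat_lit 234) (nat_lit 0) (nat_lit 0) (XT.nd (nat_lit 78) (nat_lit 0) (nat_lit 0) (XT.lf (nat_lit 0) (nat_lit 1901970421843) (nat_lit 76) (nat_lit 263976645004) (nat_lit 76) (nat_lit 263677567118) (nat_lit 1) (nat_lit 4) (nat_lit 2) (nat_lit 5) (nat_lit 2) (nat_lit 4) (nat_lit 513) (nat_lit 363) (nat_lit 324)) (XT.nd (nat_lit 78) (nat_lit 0) (nat_lit 0) (XT.lf (nat_lit 0) (nat_lit 2062706270579) (nat_lit 76) (nat_lit 280628787125) (nat_lit 76) (nat_lit 280328550276) (nat_lit 1) (nat_lit 4) (nat_lit 2) (nat_lit 5) (nat_lit 2) (nat_lit 4) (nat_lit 514) (nat_lit 363) (nat_lit 323)) (XT.lf (nat_lit 0) (nat_lit 2236245464967) (nat_lit 76) (nat_lit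 298641843640) (nat_lit 76) (nat_lit 298340533678) (nat_lit 1) (nat_lit 4) (nat_lit 2) (nat_lit 5) (nat_lit 2) (nat_lit 4) (nat_lit 515) (nat_lit 363) (nat_lit 322)))) (XT.nd (nat_lit 156) (nat_lit 0) (nat_lit 0) (XT.nd (nat_lit 78) (nat_lit 0) (nat_lit 0) (XT.lf (nat_lit 0) (nat_lit 2423616385417) (nat_lit 76) (nat_lit 318122558587) (nat_lit 76) (nat_lit 317820255001) (nat_lit 1) (nat_lit 4) (nat_lit 2) (nat_lit 5) (nat_lit 2) (nat_lit 4) (nat_lit 516) (nat_lit 363) (nat_lit 321)) (XT.lf (nat_lit 0) (nat_lit 2625929378125) (nat_lit 76) (nat_lit 339186373240) (nat_lit 76) (nat_lit 338883149633) (nat_lit 1) (nat_lit 4) (nat_lit 2) (nat_lit 5) (nat_lit 2) (nat_lit 4) (nat_lit 517) (nat_lit 363) (nat_lit 320))) (XT.nd (nat_lit 78) (nat_lit 0) (nat_lit 0) (XT.lf (nat_lit 0) (nat_lit 2844383334900) (nat_lit 76) (nat_lit 361958110205) (nat_lit 76) (nat_lit 361654034725) (nat_lit 1) (nat_lit 4)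 (nat_lit 2) (nat_lit 5) (nat_lit 2) (nat_lit 4) (nat_lit 518) (nat_lit 363) (nat_lit 319)) (XT.lf (nat_lit 0) (nat_lit 3080272797708) (nat_lit 76) (nat_lit 386572713107) (nat_lit 76) (nat_lit 386267848857) (nat_lit 1) (nat_lit 4) (nat_lit 2) (nat_lit 5) (nat_lit 2) (nat_lit 4) (nat_lit 519) (nat_lit 363) (nat_lit 318)))))) (XT.nd (nat_lit 546) (nat_lit 0) (nat_lit 0) (XT.nd (nat_lit 234) (nat_lit 0) (nat_lit 0) (XT.nd (nat_lit 78) (nat_lit 0) (nat_lit 0) (XT.lf (nat_lit 0) (nat_lit 3334995630031) (nat_lit 76) (nat_lit 413176046261) (nat_lit 76) (nat_lit 412870451667) (nat_lit 1) (nat_lit 4) (nat_lit 2) (nat_lit 5) (nat_lit 2) (nat_lit 4) (nat_lit 520) (nat_lit 363) (nat_lit 317)) (XT.nd (nat_lit 78) (nat_lit 0) (nat_lit 0) (XT.lf (nat_lit 0) (nat_lit 3610061300507) (nat_lit 76) (nat_lit 441925759047) (nat_lit 76) (nat_lit 441619488210) (nat_lit 1) (nat_lit 4) (nat_lit 2) (nat_lit 5) (nat_lit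 2) (nat_lit 4) (nat_lit 521) (nat_lit 363) (nat_lit 316)) (XT.lf (nat_lit 0) (nat_lit 3907099827922) (nat_lit 76) (nat_lit 472992220135) (nat_lit 76) (nat_lit 472685323146) (nat_lit 1) (nat_lit 4) (nat_lit 2) (nat_lit 5) (nat_lit 2) (nat_lit 4) (nat_lit 522) (nat_lit 363) (nat_lit 315)))) (XT.nd (nat_lit 156) (nat_lit 0) (nat_lit 0) (XT.nd (nat_lit 78) (nat_lit 0) (nat_lit 0) (XT.lf (nat_lit 0) (nat_lit 4227871440588) (nat_lit 76) (nat_lit 506559527072) (nat_lit 76) (nat_lit 506252050313) (nat_lit 1) (nat_lit 4) (nat_lit 2) (nat_lit 5) (nat_lit 2) (nat_lit 4) (nat_lit 523) (nat_lit 363) (nat_lit 314)) (XT.lf (nat_lit 0) (nat_lit 4574277007321) (nat_lit 76) (nat_lit 542826597231) (nat_lit 76) (nat_lit 542518583648) (nat_lit 1) (nat_lit 4) (nat_lit 2) (nat_lit 5) (nat_lit 2) (nat_lit 4) (nat_lit 524) (nat_lit 363) (nat_lit 313))) (XT.nd (nat_lit 78) (nat_lit 0) (nat_lit 0) (XT.lf (nat_lit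 0) (nat_lit 4948369301848) (nat_lit 76) (nat_lit 582008346585) (nat_lit 76) (nat_lit 581699835943) (nat_lit 1) (nat_lit 4) (nat_lit 2) (nat_lit 5) (nat_lit 2) (nat_lit 4) (nat_lit 525) (nat_lit 363) (nat_lit 312)) (XT.lf (nat_lit 0) (nat_lit 5352365167398) (nat_lit 76) (nat_lit 624336963277) (nat_lit 76) (nat_lit 624027992395) (nat_lit 1) (nat_lit 4) (nat_lit 2) (nat_lit 5) (nat_lit 2) (nat_lit 4) (nat_lit 526) (nat_lit 363) (nat_lit 311))))) (XT.nd (nat_lit 234) (nat_lit 0) (nat_lit 0) (XT.nd (nat_lit 78) (nat_lit 0) (nat_lit 0) (XT.lf (nat_lit 0) (nat_lit 5788658653543) (nat_lit 76) (nat_lit 670063283554) (nat_lit 76) (nat_lit 669753886524) (nat_lit 1) (nat_lit 4) (nat_lit 2) (nat_lit 5) (nat_lit 2) (nat_lit 4) (nat_lit 527) (nat_lit 363) (nat_lit 310)) (XT.nd (nat_lit 78) (nat_lit 0) (nat_lit 0) (XT.lf (nat_lit 0) (nat_lit 6259835203165) (nat_lit 76) (nat_lit 719458278205) (nat_lit 76)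 (nat_lit 719148486593) (nat_lit 1) (nat_lit 4) (nat_lit 2) (nat_lit 5) (nat_lit 2) (nat_lit 4) (nat_lit 528) (nat_lit 363) (nat_lit 309)) (XT.lf (nat_lit 0) (nat_lit 6768686973594) (nat_lit 76) (nat_lit 772814658307) (nat_lit 76) (nat_lit 772504501341) (nat_lit 1) (nat_lit 4) (nat_lit 2) (nat_lit 5) (nat_lit 2) (nat_lit 4) (nat_lit 529) (nat_lit 363) (nat_lit 308)))) (XT.nd (nat_lit 156) (nat_lit 0) (nat_lit 0) (XT.nd (nat_lit 78) (nat_lit 0) (nat_lit 0) (XT.lf (nat_lit 0) (nat_lit 7318229382729) (nat_lit 76) (nat_lit 830448609817) (nat_lit 76) (nat_lit 830138114561) (nat_lit 1) (nat_lit 4) (nat_lit 2) (nat_lit 5) (nat_lit 2) (nat_lit 4) (nat_lit 530) (nat_lit 363) (nat_lit 307)) (XT.lf (nat_lit 0) (nat_lit 7911718978181) (nat_lit 76) (nat_lit 892701667262) (nat_lit 76) (nat_lit 892390858775) (nat_lit 1) (nat_lit 4) (nat_lit 2) (nat_lit 5) (nat_lit 2) (nat_lit 4) (nat_lit 531) (nat_lit 363)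 (nat_lit 306))) (XT.nd (nat_lit 78) (nat_lit 0) (nat_lit 0) (XT.lf (nat_lit 0) (nat_lit 8552672735329) (nat_lit 76) (nat_lit 959942737650) (nat_lit 76) (nat_lit 959631639134) (nat_lit 1) (nat_lit 4) (nat_lit 2) (nat_lit 5) (nat_lit 2) (nat_lit 4) (nat_lit 532) (nat_lit 363) (nat_lit 305)) (XT.lf (nat_lit 0) (nat_lit 9244888898661) (nat_lit 76) (nat_lit 1032570286583) (nat_lit 76) (nat_lit 1032258919521) (nat_lit 1) (nat_lit 4) (nat_lit 2) (nat_lit 5) (nat_lit 2) (nat_lit 4) (nat_lit 533) (nat_lit 363) (nat_lit 304))))))) (XT.nd (nat_lit 57876) (nat_lit 0) (nat_lit 0) (XT.nd (nat_lit 546) (nat_lit 0) (nat_lit 0) (XT.nd (nat_lit 234) (nat_lit 0) (nat_lit 0) (XT.nd (nat_lit 78) (nat_lit 0) (nat_lit 0) (XT.lf (nat_lit 0) (nat_lit 9992469489885) (nat_lit 76) (nat_lit 1111014699537) (nat_lit 76) (nat_lit 1110703083821) (nat_lit 1) (nat_lit 4) (nat_lit 2) (nat_lit 5) (nat_lit 2) (nat_lit 4) (nat_lit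 534) (nat_lit 363) (nat_lit 303)) (XT.nd (nat_lit 78) (nat_lit 0) (nat_lit 0) (XT.lf (nat_lit 0) (nat_lit 10799844616207) (nat_lit 76) (nat_lit 1195740832290) (nat_lit 76) (nat_lit 1195428986340) (nat_lit 1) (nat_lit 4) (nat_lit 2) (nat_lit 5) (nat_lit 2) (nat_lit 4) (nat_lit 535) (nat_lit 363) (nat_lit 302)) (XT.lf (nat_lit 0) (nat_lit 11671798722822) (nat_lit 76) (nat_lit 1287250765631) (nat_lit 76) (nat_lit 1286938706501) (nat_lit 1) (nat_lit 4) (nat_lit 2) (nat_lit 5) (nat_lit 2) (nat_lit 4) (nat_lit 536) (nat_lit 363) (nat_lit 301)))) (XT.nd (nat_lit 156) (nat_lit 0) (nat_lit 0) (XT.nd (nat_lit 78) (nat_lit 0) (nat_lit 0) (XT.lf (nat_lit 0) (nat_lit 12613498945176) (nat_lit 76) (nat_lit 1386086780645) (nat_lit 76) (nat_lit 1385774524126) (nat_lit 1) (nat_lit 4) (nat_lit 2) (nat_lit 5) (nat_lit 2) (nat_lit 4) (nat_lit 537) (nat_lit 363) (nat_lit 300)) (XT.lf (nat_lit 0) (nat_lit 13630525729031)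 (nat_lit 76) (nat_lit 1492834572237) (nat_lit 76) (nat_lit 1492522132950) (nat_lit 1) (nat_lit 4) (nat_lit 2) (nat_lit 5) (nat_lit 2) (nat_lit 4) (nat_lit 538) (nat_lit 363) (nat_lit 299))) (XT.nd (nat_lit 78) (nat_lit 0) (nat_lit 0) (XT.lf (nat_lit 0) (nat_lit 14728905899773) (nat_lit 76) (nat_lit 1608126719912) (nat_lit 76) (nat_lit 1607814111396) (nat_lit 1) (nat_lit 4) (nat_lit 2) (nat_lit 5) (nat_lit 2) (nat_lit 4) (nat_lit 539) (nat_lit 363) (nat_lit 298)) (XT.lf (nat_lit 0) (nat_lit 15915148376932) (nat_lit 76) (nat_lit 1732646436397) (nat_lit 76) (nat_lit 1732333671187) (nat_lit 1) (nat_lit 4) (nat_lit 2) (nat_lit 5) (nat_lit 2) (nat_lit 4) (nat_lit 540) (nat_lit 363) (nat_lit 297))))) (XT.nd (nat_lit 234) (nat_lit 0) (nat_lit 0) (XT.nd (nat_lit 78) (nat_lit 0) (nat_lit 0) (XT.lf (nat_lit 0) (nat_lit 17196282745558) (nat_lit 76) (nat_lit 1867131616309) (nat_lit 76) (nat_lit 1866818706012)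 (nat_lit 1) (nat_lit 4) (nat_lit 2) (nat_lit 5) (nat_lit 2) (nat_lit 4) (nat_lit 541) (nat_lit 363) (nat_lit 296)) (XT.nd (nat_lit 78) (nat_lit 0) (nat_lit 0) (XT.lf (nat_lit 0) (nat_lit 18579900913020) (nat_lit 76) (nat_lit 2012379208861) (nat_lit 76) (nat_lit 2012066164225) (nat_lit 1) (nat_lit 4) (nat_lit 2) (nat_lit 5) (nat_lit 2) (nat_lit 4) (nat_lit 542) (nat_lit 363) (nat_lit 295)) (XT.lf (nat_lit 0) (nat_lit 20074202098089) (nat_lit 76) (nat_lit 2169249940528) (nat_lit 76) (nat_lit 2168936771503) (nat_lit 1) (nat_lit 4) (nat_lit 2) (nat_lit 5) (nat_lit 2) (nat_lit 4) (nat_lit 543) (nat_lit 363) (nat_lit 294)))) (XT.nd (nat_lit 56940) (nat_lit 0) (nat_lit 76) (XT.nd (nat_lit 56862) (nat_lit 0) (nat_lit 228) (XT.lf (nat_lit 0) (nat_lit 21688041418898) (nat_lit 76) (nat_lit 2338673415646) (nat_lit 76) (nat_lit 2338360131446) (nat_lit 1) (nat_lit 4) (nat_lit 2) (nat_lit 5) (nat_lit 2)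 (nat_lit 4) (nat_lit 544) (nat_lit 363) (nat_lit 293)) (XT.lf (nat_lit 0) (nat_lit 51571710923) (nat_lit 76) (nat_lit 2030616107) (nat_lit 76) (nat_lit 2030616107) (nat_lit 4) (nat_lit 4) (nat_lit 5) (nat_lit 5) (nat_lit 5) (nat_lit 4) (nat_lit 472) (nat_lit 364) (nat_lit 364))) (XT.nd (nat_lit 78) (nat_lit 0) (nat_lit 0) (XT.lf (nat_lit 0) (nat_lit 6809581272) (nat_lit 152) (nat_lit 105701319328) (nat_lit 0) (nat_lit 6784403361) (nat_lit 2) (nat_lit 5) (nat_lit 4) (nat_lit 4) (nat_lit 2) (nat_lit 4) (nat_lit 473) (nat_lit 364) (nat_lit 363)) (XT.lf (nat_lit 0) (nat_lit 18111228498) (nat_lit 152) (nat_lit 91802224097) (nat_lit 0) (nat_lit 18062737707) (nat_lit 2) (nat_lit 5) (nat_lit 4) (nat_lit 4) (nat_lit 2) (nat_lit 4) (nat_lit 474) (nat_lit 364) (nat_lit 362)))))) (XT.nd (nat_lit 546) (nat_lit 0) (nat_lit 0) (XT.nd (nat_lit 234) (nat_lit 76) (nat_lit 0) (XT.nd (nat_lit 78) (nat_lit 0)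 (nat_lit 0) (XT.lf (nat_lit 0) (nat_lit 29805195637) (nat_lit 152) (nat_lit 77852178594) (nat_lit 0) (nat_lit 29735118846) (nat_lit 2) (nat_lit 5) (nat_lit 4) (nat_lit 4) (nat_lit 2) (nat_lit 4) (nat_lit 475) (nat_lit 364) (nat_lit 361)) (XT.nd (nat_lit 78) (nat_lit 0) (nat_lit 0) (XT.lf (nat_lit 0) (nat_lit 41960780271) (nat_lit 152) (nat_lit 63768515884) (nat_lit 0) (nat_lit 41870716442) (nat_lit 2) (nat_lit 5) (nat_lit 4) (nat_lit 4) (nat_lit 2) (nat_lit 4) (nat_lit 476) (nat_lit 364) (nat_lit 360)) (XT.lf (nat_lit 0) (nat_lit 54650015494) (nat_lit 152) (nat_lit 49467777225) (nat_lit 0) (nat_lit 54541445150) (nat_lit 2) (nat_lit 5) (nat_lit 4) (nat_lit 4) (nat_lit 2) (nat_lit 4) (nat_lit 477) (nat_lit 364) (nat_lit 359)))) (XT.nd (nat_lit 156) (nat_lit 76) (nat_lit 0) (XT.nd (nat_lit 78) (nat_lit 0) (nat_lit 0) (XT.lf (nat_lit 0) (nat_lit 67948096774) (nat_lit 152) (nat_lit 34865217499)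 (nat_lit 0) (nat_lit 67822390767) (nat_lit 2) (nat_lit 5) (nat_lit 4) (nat_lit 4) (nat_lit 2) (nat_lit 4) (nat_lit 478) (nat_lit 364) (nat_lit 358)) (XT.lf (nat_lit 0) (nat_lit 81933827556) (nat_lit 152) (nat_lit 19874303018) (nat_lit 0) (nat_lit 81792255195) (nat_lit 2) (nat_lit 5) (nat_lit 4) (nat_lit 4) (nat_lit 2) (nat_lit 4) (nat_lit 479) (nat_lit 364) (nat_lit 357))) (XT.nd (nat_lit 78) (nat_lit 76) (nat_lit 0) (XT.lf (nat_lit 0) (nat_lit 96690086245) (nat_lit 152) (nat_lit 4406198733) (nat_lit 0) (nat_lit 96533822814) (nat_lit 2) (nat_lit 5) (nat_lit 4) (nat_lit 4) (nat_lit 2) (nat_lit 4) (nat_lit 480) (nat_lit 364) (nat_lit 356)) (XT.lf (nat_lit 0) (nat_lit 12243213309) (nat_lit 76) (nat_lit 100355553601) (nat_lit 76) (nat_lit 100185687328) (nat_lit 1) (nat_lit 4) (nat_lit 2) (nat_lit 5) (nat_lit 2) (nat_lit 4) (nat_lit 481) (nat_lit 364) (nat_lit 355))))) (XT.nd (nat_lit 312) (nat_lit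 0) (nat_lit 0) (XT.nd (nat_lit 156) (nat_lit 0) (nat_lit 0) (XT.nd (nat_lit 78) (nat_lit 0) (nat_lit 0) (XT.lf (nat_lit 0) (nat_lit 29823493517) (nat_lit 76) (nat_lit 99762811825) (nat_lit 76) (nat_lit 99580350329) (nat_lit 1) (nat_lit 4) (nat_lit 2) (nat_lit 5) (nat_lit 2) (nat_lit 4) (nat_lit 482) (nat_lit 364) (nat_lit 354)) (XT.lf (nat_lit 0) (nat_lit 48206798709) (nat_lit 76) (nat_lit 99435020391) (nat_lit 76) (nat_lit 99240896651) (nat_lit 1) (nat_lit 4) (nat_lit 2) (nat_lit 5) (nat_lit 2) (nat_lit 4) (nat_lit 483) (nat_lit 364) (nat_lit 353))) (XT.nd (nat_lit 78) (nat_lit 0) (nat_lit 0) (XT.lf (nat_lit 0) (nat_lit 67502066992) (nat_lit 76) (nat_lit 99370236829) (nat_lit 76) (nat_lit 99165314714) (nat_lit 1) (nat_lit 4) (nat_lit 2) (nat_lit 5) (nat_lit 2) (nat_lit 4) (nat_lit 484) (nat_lit 364) (nat_lit 352)) (XT.lf (nat_lit 0) (nat_lit 87823640696) (nat_lit 76) (nat_lit 99568077237)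 (nat_lit 76) (nat_lit 99353156628) (nat_lit 1) (nat_lit 4) (nat_lit 2) (nat_lit 5) (nat_lit 2) (nat_lit 4) (nat_lit 485) (nat_lit 364) (nat_lit 351)))) (XT.nd (nat_lit 156) (nat_lit 0) (nat_lit 0) (XT.nd (nat_lit 78) (nat_lit 0) (nat_lit 0) (XT.lf (nat_lit 0) (nat_lit 109291943961) (nat_lit 76) (nat_lit 100029714004) (nat_lit 76) (nat_lit 99805535529) (nat_lit 1) (nat_lit 4) (nat_lit 2) (nat_lit 5) (nat_lit 2) (nat_lit 4) (nat_lit 486) (nat_lit 364) (nat_lit 350)) (XT.lf (nat_lit 0) (nat_lit 132034196361) (nat_lit 76) (nat_lit 100757882753) (nat_lit 76) (nat_lit 100525132180) (nat_lit 1) (nat_lit 4) (nat_lit 2) (nat_lit 5) (nat_lit 2) (nat_lit 4) (nat_lit 487) (nat_lit 364) (nat_lit 349))) (XT.nd (nat_lit 78) (nat_lit 0) (nat_lit 0) (XT.lf (nat_lit 0) (nat_lit 156185166802) (nat_lit 76) (nat_lit 101756898559) (nat_lit 76) (nat_lit 101516210859) (nat_lit 1) (nat_lit 4) (nat_lit 2) (nat_lit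 5) (nat_lit 2) (nat_lit 4) (nat_lit 488) (nat_lit 364) (nat_lit 348)) (XT.lf (nat_lit 0) (nat_lit 181887972143) (nat_lit 76) (nat_lit 103032681516) (nat_lit 76) (nat_lit 102784644625) (nat_lit 1) (nat_lit 4) (nat_lit 2) (nat_lit 5) (nat_lit 2) (nat_lit 4) (nat_lit 489) (nat_lit 364) (nat_lit 347))))))))
noncomputable def xc24 : XT := (XT.nd (nat_lit 2184) (nat_lit 0) (nat_lit 0) (XT.nd (nat_lit 1092) (nat_lit 0) (nat_lit 0) (XT.nd (nat_lit 546) (nat_lit 0) (nat_lit 0) (XT.nd (nat_lit 234) (nat_lit 0) (nat_lit 0) (XT.nd (nat_lit 78) (nat_lit 0) (nat_lit 0) (XT.lf (nat_lit 0) (nat_lit 209294925306) (nat_lit 76) (nat_lit 104592791820) (nat_lit 76) (nat_lit 104337950120) (nat_lit 1) (nat_lit 4) (nat_lit 2) (nat_lit 5) (nat_lit 2) (nat_lit 4) (nat_lit 490) (nat_lit 364) (nat_lit 346)) (XT.nd (nat_lit 78) (nat_lit 0) (nat_lit 0) (XT.lf (nat_lit 0) (nat_lit 238568437865) (nat_lit 76) (nat_lit 106446474567)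 (nat_lit 76) (nat_lit 106185332120) (nat_lit 1) (nat_lit 4) (nat_lit 2) (nat_lit 5) (nat_lit 2) (nat_lit 4) (nat_lit 491) (nat_lit 364) (nat_lit 345)) (XT.lf (nat_lit 0) (nat_lit 269881982487) (nat_lit 76) (nat_lit 108604714546) (nat_lit 76) (nat_lit 108337738073) (nat_lit 1) (nat_lit 4) (nat_lit 2) (nat_lit 5) (nat_lit 2) (nat_lit 4) (nat_lit 492) (nat_lit 364) (nat_lit 344)))) (XT.nd (nat_lit 156) (nat_lit 0) (nat_lit 0) (XT.nd (nat_lit 78) (nat_lit 0) (nat_lit 0) (XT.lf (nat_lit 0) (nat_lit 303421120917) (nat_lit 76) (nat_lit 111080301325) (nat_lit 76) (nat_lit 110807922977) (nat_lit 1) (nat_lit 4) (nat_lit 2) (nat_lit 5) (nat_lit 2) (nat_lit 4) (nat_lit 493) (nat_lit 364) (nat_lit 343)) (XT.lf (nat_lit 0) (nat_lit 339384603607) (nat_lit 76) (nat_lit 113887905050) (nat_lit 76) (nat_lit 113610524965) (nat_lit 1) (nat_lit 4) (nat_lit 2) (nat_lit 5) (nat_lit 2) (nat_lit 4) (nat_lit 494)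 (nat_lit 364) (nat_lit 342))) (XT.nd (nat_lit 78) (nat_lit 0) (nat_lit 0) (XT.lf (nat_lit 0) (nat_lit 377985547490) (nat_lit 76) (nat_lit 117044163371) (nat_lit 76) (nat_lit 116762152049) (nat_lit 1) (nat_lit 4) (nat_lit 2) (nat_lit 5) (nat_lit 2) (nat_lit 4) (nat_lit 495) (nat_lit 364) (nat_lit 341)) (XT.lf (nat_lit 0) (nat_lit 419452698900) (nat_lit 76) (nat_lit 120567780042) (nat_lit 76) (nat_lit 120281480537) (nat_lit 1) (nat_lit 4) (nat_lit 2) (nat_lit 5) (nat_lit 2) (nat_lit 4) (nat_lit 496) (nat_lit 364) (nat_lit 340))))) (XT.nd (nat_lit 234) (nat_lit 0) (nat_lit 0) (XT.nd (nat_lit 78) (nat_lit 0) (nat_lit 0) (XT.lf (nat_lit 0) (nat_lit 464031789106) (nat_lit 76) (nat_lit 124479635754) (nat_lit 76) (nat_lit 124189365709) (nat_lit 1) (nat_lit 4) (nat_lit 2) (nat_lit 5) (nat_lit 2) (nat_lit 4) (nat_lit 497) (nat_lit 364) (nat_lit 339)) (XT.nd (nat_lit 78) (nat_lit 0) (nat_lit 0) (XT.lf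 (nat_lit 0) (nat_lit 511986990492) (nat_lit 76) (nat_lit 128802911875) (nat_lit 76) (nat_lit 128508965403) (nat_lit 1) (nat_lit 4) (nat_lit 2) (nat_lit 5) (nat_lit 2) (nat_lit 4) (nat_lit 498) (nat_lit 364) (nat_lit 338)) (XT.lf (nat_lit 0) (nat_lit 563602482032) (nat_lit 76) (nat_lit 133563227817) (nat_lit 76) (nat_lit 133265877248) (nat_lit 1) (nat_lit 4) (nat_lit 2) (nat_lit 5) (nat_lit 2) (nat_lit 4) (nat_lit 499) (nat_lit 364) (nat_lit 337)))) (XT.nd (nat_lit 156) (nat_lit 0) (nat_lit 0) (XT.nd (nat_lit 78) (nat_lit 0) (nat_lit 0) (XT.lf (nat_lit 0) (nat_lit 619184133303) (nat_lit 76) (nat_lit 138788792862) (nat_lit 76) (nat_lit 138488290350) (nat_lit 1) (nat_lit 4) (nat_lit 2) (nat_lit 5) (nat_lit 2) (nat_lit 4) (nat_lit 500) (nat_lit 364) (nat_lit 336)) (XT.lf (nat_lit 0) (nat_lit 679061317055) (nat_lit 76) (nat_lit 144510573320) (nat_lit 76) (nat_lit 144207152343) (nat_lit 1) (nat_lit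 4) (nat_lit 2) (nat_lit 5) (nat_lit 2) (nat_lit 4) (nat_lit 501) (nat_lit 364) (nat_lit 335))) (XT.nd (nat_lit 78) (nat_lit 0) (nat_lit 0) (XT.lf (nat_lit 0) (nat_lit 743588861043) (nat_lit 76) (nat_lit 150762476038) (nat_lit 76) (nat_lit 150456352779) (nat_lit 1) (nat_lit 4) (nat_lit 2) (nat_lit 5) (nat_lit 2) (nat_lit 4) (nat_lit 502) (nat_lit 364) (nat_lit 334)) (XT.lf (nat_lit 0) (nat_lit 813149150712) (nat_lit 76) (nat_lit 157581549330) (nat_lit 76) (nat_lit 157272923957) (nat_lit 1) (nat_lit 4) (nat_lit 2) (nat_lit 5) (nat_lit 2) (nat_lit 4) (nat_lit 503) (nat_lit 364) (nat_lit 333)))))) (XT.nd (nat_lit 546) (nat_lit 0) (nat_lit 0) (XT.nd (nat_lit 234) (nat_lit 0) (nat_lit 0) (XT.nd (nat_lit 78) (nat_lit 0) (nat_lit 0) (XT.lf (nat_lit 0) (nat_lit 888154395188) (nat_lit 76) (nat_lit 165008202517) (nat_lit 76) (nat_lit 164697260372) (nat_lit 1) (nat_lit 4) (nat_lit 2) (nat_lit 5) (nat_lit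 2) (nat_lit 4) (nat_lit 504) (nat_lit 364) (nat_lit 332)) (XT.nd (nat_lit 78) (nat_lit 0) (nat_lit 0) (XT.lf (nat_lit 0) (nat_lit 969049069992) (nat_lit 76) (nat_lit 173086445398) (nat_lit 76) (nat_lit 172773358094) (nat_lit 1) (nat_lit 4) (nat_lit 2) (nat_lit 5) (nat_lit 2) (nat_lit 4) (nat_lit 505) (nat_lit 364) (nat_lit 331)) (XT.lf (nat_lit 0) (nat_lit 1056312550975) (nat_lit 76) (nat_lit 181864149040) (nat_lit 76) (nat_lit 181549075477) (nat_lit 1) (nat_lit 4) (nat_lit 2) (nat_lit 5) (nat_lit 2) (nat_lit 4) (nat_lit 506) (nat_lit 364) (nat_lit 330)))) (XT.nd (nat_lit 156) (nat_lit 0) (nat_lit 0) (XT.nd (nat_lit 78) (nat_lit 0) (nat_lit 0) (XT.lf (nat_lit 0) (nat_lit 1150461955062) (nat_lit 76) (nat_lit 191393329465) (nat_lit 76) (nat_lit 191076416774) (nat_lit 1) (nat_lit 4) (nat_lit 2) (nat_lit 5) (nat_lit 2) (nat_lit 4) (nat_lit 507) (nat_lit 364) (nat_lit 329)) (XT.lf (nat_lit 0)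 (nat_lit 1252055204647) (nat_lit 76) (nat_lit 201730455891) (nat_lit 76) (nat_lit 201411840304) (nat_lit 1) (nat_lit 4) (nat_lit 2) (nat_lit 5) (nat_lit 2) (nat_lit 4) (nat_lit 508) (nat_lit 364) (nat_lit 328))) (XT.nd (nat_lit 78) (nat_lit 0) (nat_lit 0) (XT.lf (nat_lit 0) (nat_lit 1361694333802) (nat_lit 76) (nat_lit 212936785363) (nat_lit 76) (nat_lit 212616593020) (nat_lit 1) (nat_lit 4) (nat_lit 2) (nat_lit 5) (nat_lit 2) (nat_lit 4) (nat_lit 509) (nat_lit 364) (nat_lit 327)) (XT.lf (nat_lit 0) (nat_lit 1480029055884) (nat_lit 76) (nat_lit 225078725760) (nat_lit 76) (nat_lit 224757073457) (nat_lit 1) (nat_lit 4) (nat_lit 2) (nat_lit 5) (nat_lit 2) (nat_lit 4) (nat_lit 510) (nat_lit 364) (nat_lit 326))))) (XT.nd (nat_lit 234) (nat_lit 0) (nat_lit 0) (XT.nd (nat_lit 78) (nat_lit 0) (nat_lit 0) (XT.lf (nat_lit 0) (nat_lit 1607760613692) (nat_lit 76) (nat_lit 238228229320) (nat_lit 76)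 (nat_lit 237905225204) (nat_lit 1) (nat_lit 4) (nat_lit 2) (nat_lit 5) (nat_lit 2) (nat_lit 4) (nat_lit 511) (nat_lit 364) (nat_lit 325)) (XT.nd (nat_lit 78) (nat_lit 0) (nat_lit 0) (XT.lf (nat_lit 0) (nat_lit 1745645934975) (nat_lit 76) (nat_lit 252463219029) (nat_lit 76) (nat_lit 252138963232) (nat_lit 1) (nat_lit 4) (nat_lit 2) (nat_lit 5) (nat_lit 2) (nat_lit 4) (nat_lit 512) (nat_lit 364) (nat_lit 324)) (XT.lf (nat_lit 0) (nat_lit 1894502117934) (nat_lit 76) (nat_lit 267868050380) (nat_lit 76) (nat_lit 267542635621) (nat_lit 1) (nat_lit 4) (nat_lit 2) (nat_lit 5) (nat_lit 2) (nat_lit 4) (nat_lit 513) (nat_lit 364) (nat_lit 323)))) (XT.nd (nat_lit 156) (nat_lit 0) (nat_lit 0) (XT.nd (nat_lit 78) (nat_lit 0) (nat_lit 0) (XT.lf (nat_lit 0) (nat_lit 2055211273282) (nat_lit 76) (nat_lit 284534011263) (nat_lit 76) (nat_lit 284207523390) (nat_lit 1) (nat_lit 4) (nat_lit 2) (nat_lit 5) (nat_lit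 2) (nat_lit 4) (nat_lit 514) (nat_lit 364) (nat_lit 322)) (XT.lf (nat_lit 0) (nat_lit 2228725751570) (nat_lit 76) (nat_lit 302559862927) (nat_lit 76) (nat_lit 302232381431) (nat_lit 1) (nat_lit 4) (nat_lit 2) (nat_lit 5) (nat_lit 2) (nat_lit 4) (nat_lit 515) (nat_lit 364) (nat_lit 321))) (XT.nd (nat_lit 78) (nat_lit 0) (nat_lit 0) (XT.lf (nat_lit 0) (nat_lit 2416073786742) (nat_lit 76) (nat_lit 322052425235) (nat_lit 76) (nat_lit 321724023716) (nat_lit 1) (nat_lit 4) (nat_lit 2) (nat_lit 5) (nat_lit 2) (nat_lit 4) (nat_lit 516) (nat_lit 364) (nat_lit 320)) (XT.lf (nat_lit 0) (nat_lit 2618365589378) (nat_lit 76) (nat_lit 343127209667) (nat_lit 76) (nat_lit 342797956276) (nat_lit 1) (nat_lit 4) (nat_lit 2) (nat_lit 5) (nat_lit 2) (nat_lit 4) (nat_lit 517) (nat_lit 364) (nat_lit 319))))))) (XT.nd (nat_lit 1092) (nat_lit 0) (nat_lit 0) (XT.nd (nat_lit 546) (nat_lit 0) (nat_lit 0) (XT.nd (nat_lit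 234) (nat_lit 0) (nat_lit 0) (XT.nd (nat_lit 78) (nat_lit 0) (nat_lit 0) (XT.lf (nat_lit 0) (nat_lit 2836799925716) (nat_lit 76) (nat_lit 365909103833) (nat_lit 76) (nat_lit 365579061672) (nat_lit 1) (nat_lit 4) (nat_lit 2) (nat_lit 5) (nat_lit 2) (nat_lit 4) (nat_lit 518) (nat_lit 364) (nat_lit 318)) (XT.nd (nat_lit 78) (nat_lit 0) (nat_lit 0) (XT.lf (nat_lit 0) (nat_lit 3072671221452) (nat_lit 76) (nat_lit 390533111552) (nat_lit 76) (nat_lit 390202339048) (nat_lit 1) (nat_lit 4) (nat_lit 2) (nat_lit 5) (nat_lit 2) (nat_lit 4) (nat_lit 519) (nat_lit 364) (nat_lit 317)) (XT.lf (nat_lit 0) (nat_lit 3327377232413) (nat_lit 76) (nat_lit 417145152870) (nat_lit 76) (nat_lit 416813704122) (nat_lit 1) (nat_lit 4) (nat_lit 2) (nat_lit 5) (nat_lit 2) (nat_lit 4) (nat_lit 520) (nat_lit 364) (nat_lit 316)))) (XT.nd (nat_lit 156) (nat_lit 0) (nat_lit 0) (XT.nd (nat_lit 78) (nat_lit 0) (nat_lit 0) (XT.lf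 (nat_lit 0) (nat_lit 3602427327553) (nat_lit 76) (nat_lit 445902928771) (nat_lit 76) (nat_lit 445570853872) (nat_lit 1) (nat_lit 4) (nat_lit 2) (nat_lit 5) (nat_lit 2) (nat_lit 4) (nat_lit 521) (nat_lit 364) (nat_lit 315)) (XT.lf (nat_lit 0) (nat_lit 3899451433361) (nat_lit 76) (nat_lit 476976855706) (nat_lit 76) (nat_lit 476644201036) (nat_lit 1) (nat_lit 4) (nat_lit 2) (nat_lit 5) (nat_lit 2) (nat_lit 4) (nat_lit 522) (nat_lit 364) (nat_lit 314))) (XT.nd (nat_lit 78) (nat_lit 0) (nat_lit 0) (XT.lf (nat_lit 0) (nat_lit 4220209692688) (nat_lit 76) (nat_lit 510551075463) (nat_lit 76) (nat_lit 510217883970) (nat_lit 1) (nat_lit 4) (nat_lit 2) (nat_lit 5) (nat_lit 2) (nat_lit 4) (nat_lit 523) (nat_lit 364) (nat_lit 313)) (XT.lf (nat_lit 0) (nat_lit 4566602895216) (nat_lit 76) (nat_lit 546824546383) (nat_lit 76) (nat_lit 546490857830) (nat_lit 1) (nat_lit 4) (nat_lit 2) (nat_lit 5) (nat_lit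 2) (nat_lit 4) (nat_lit 524) (nat_lit 364) (nat_lit 312))))) (XT.nd (nat_lit 234) (nat_lit 0) (nat_lit 0) (XT.nd (nat_lit 78) (nat_lit 0) (nat_lit 0) (XT.lf (nat_lit 0) (nat_lit 4940683741407) (nat_lit 76) (nat_lit 586012222366) (nat_lit 76) (nat_lit 585678073574) (nat_lit 1) (nat_lit 4) (nat_lit 2) (nat_lit 5) (nat_lit 2) (nat_lit 4) (nat_lit 525) (nat_lit 364) (nat_lit 311)) (XT.nd (nat_lit 78) (nat_lit 0) (nat_lit 0) (XT.lf (nat_lit 0) (nat_lit 5344669006645) (nat_lit 76) (nat_lit 628346326679) (nat_lit 76) (nat_lit 628011751738) (nat_lit 1) (nat_lit 4) (nat_lit 2) (nat_lit 5) (nat_lit 2) (nat_lit 4) (nat_lit 526) (nat_lit 364) (nat_lit 310)) (XT.lf (nat_lit 0) (nat_lit 5780952677687) (nat_lit 76) (nat_lit 674077728087) (nat_lit 76) (nat_lit 673742758564) (nat_lit 1) (nat_lit 4) (nat_lit 2) (nat_lit 5) (nat_lit 2) (nat_lit 4) (nat_lit 527) (nat_lit 364) (nat_lit 309)))) (XT.nd (nat_lit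 156) (nat_lit 0) (nat_lit 0) (XT.nd (nat_lit 78) (nat_lit 0) (nat_lit 0) (XT.lf (nat_lit 0) (nat_lit 6252120139250) (nat_lit 76) (nat_lit 723477427487) (nat_lit 76) (nat_lit 723142092611) (nat_lit 1) (nat_lit 4) (nat_lit 2) (nat_lit 5) (nat_lit 2) (nat_lit 4) (nat_lit 528) (nat_lit 364) (nat_lit 308)) (XT.lf (nat_lit 0) (nat_lit 6760963494810) (nat_lit 76) (nat_lit 776838163839) (nat_lit 76) (nat_lit 776502490673) (nat_lit 1) (nat_lit 4) (nat_lit 2) (nat_lit 5) (nat_lit 2) (nat_lit 4) (nat_lit 529) (nat_lit 364) (nat_lit 307))) (XT.nd (nat_lit 78) (nat_lit 0) (nat_lit 0) (XT.lf (nat_lit 0) (nat_lit 7310498112400) (nat_lit 76) (nat_lit 834476148913) (nat_lit 76) (nat_lit 834140162516) (nat_lit 1) (nat_lit 4) (nat_lit 2) (nat_lit 5) (nat_lit 2) (nat_lit 4) (nat_lit 530) (nat_lit 364) (nat_lit 306)) (XT.lf (nat_lit 0) (nat_lit 7903980493458) (nat_lit 76) (nat_lit 896732941141) (nat_lit 76)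 (nat_lit 896396664714) (nat_lit 1) (nat_lit 4) (nat_lit 2) (nat_lit 5) (nat_lit 2) (nat_lit 4) (nat_lit 531) (nat_lit 364) (nat_lit 305)))))) (XT.nd (nat_lit 546) (nat_lit 0) (nat_lit 0) (XT.nd (nat_lit 234) (nat_lit 0) (nat_lit 0) (XT.nd (nat_lit 78) (nat_lit 0) (nat_lit 0) (XT.lf (nat_lit 0) (nat_lit 8544927570611) (nat_lit 76) (nat_lit 963977469661) (nat_lit 76) (nat_lit 963640924688) (nat_lit 1) (nat_lit 4) (nat_lit 2) (nat_lit 5) (nat_lit 2) (nat_lit 4) (nat_lit 532) (nat_lit 364) (nat_lit 304)) (XT.nd (nat_lit 78) (nat_lit 0) (nat_lit 0) (XT.lf (nat_lit 0) (nat_lit 9237137548763) (nat_lit 76) (nat_lit 1036608220568) (nat_lit 76) (nat_lit 1036271426942) (nat_lit 1) (nat_lit 4) (nat_lit 2) (nat_lit 5) (nat_lit 2) (nat_lit 4) (nat_lit 533) (nat_lit 364) (nat_lit 303)) (XT.lf (nat_lit 0) (nat_lit 9984712412968) (nat_lit 76) (nat_lit 1115055598311) (nat_lit 76) (nat_lit 1114718574451) (nat_lit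 1) (nat_lit 4) (nat_lit 2) (nat_lit 5) (nat_lit 2) (nat_lit 4) (nat_lit 534) (nat_lit 364) (nat_lit 302)))) (XT.nd (nat_lit 156) (nat_lit 0) (nat_lit 0) (XT.nd (nat_lit 78) (nat_lit 0) (nat_lit 0) (XT.lf (nat_lit 0) (nat_lit 10792082236496) (nat_lit 76) (nat_lit 1199784476241) (nat_lit 76) (nat_lit 1199447239201) (nat_lit 1) (nat_lit 4) (nat_lit 2) (nat_lit 5) (nat_lit 2) (nat_lit 4) (nat_lit 535) (nat_lit 364) (nat_lit 301)) (XT.lf (nat_lit 0) (nat_lit 11664031433116) (nat_lit 76) (nat_lit 1291296951412) (nat_lit 76) (nat_lit 1290959516982) (nat_lit 1) (nat_lit 4) (nat_lit 2) (nat_lit 5) (nat_lit 2) (nat_lit 4) (nat_lit 536) (nat_lit 364) (nat_lit 300))) (XT.nd (nat_lit 78) (nat_lit 0) (nat_lit 0) (XT.lf (nat_lit 0) (nat_lit 12605727109177) (nat_lit 76) (nat_lit 1390135319973) (nat_lit 76) (nat_lit 1389797702775) (nat_lit 1) (nat_lit 4) (nat_lit 2) (nat_lit 5) (nat_lit 2) (nat_lit 4) (nat_lit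 537) (nat_lit 364) (nat_lit 299)) (XT.lf (nat_lit 0) (nat_lit 13622749683503) (nat_lit 76) (nat_lit 1496885290774) (nat_lit 76) (nat_lit 1496547504347) (nat_lit 1) (nat_lit 4) (nat_lit 2) (nat_lit 5) (nat_lit 2) (nat_lit 4) (nat_lit 538) (nat_lit 364) (nat_lit 298))))) (XT.nd (nat_lit 234) (nat_lit 0) (nat_lit 0) (XT.nd (nat_lit 78) (nat_lit 0) (nat_lit 0) (XT.lf (nat_lit 0) (nat_lit 14721125956532) (nat_lit 76) (nat_lit 1612179456236) (nat_lit 76) (nat_lit 1611841513115) (nat_lit 1) (nat_lit 4) (nat_lit 2) (nat_lit 5) (nat_lit 2) (nat_lit 4) (nat_lit 539) (nat_lit 364) (nat_lit 297)) (XT.nd (nat_lit 78) (nat_lit 0) (nat_lit 0) (XT.lf (nat_lit 0) (nat_lit 15907364824698) (nat_lit 76) (nat_lit 1736701041042) (nat_lit 76) (nat_lit 1736362952835) (nat_lit 1) (nat_lit 4) (nat_lit 2) (nat_lit 5) (nat_lit 2) (nat_lit 4) (nat_lit 540) (nat_lit 364) (nat_lit 296)) (XT.lf (nat_lit 0) (nat_lit 17188495851663)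 (nat_lit 76) (nat_lit 1871187950880) (nat_lit 76) (nat_lit 1870849728333) (nat_lit 1) (nat_lit 4) (nat_lit 2) (nat_lit 5) (nat_lit 2) (nat_lit 4) (nat_lit 541) (nat_lit 364) (nat_lit 295)))) (XT.nd (nat_lit 156) (nat_lit 0) (nat_lit 0) (XT.nd (nat_lit 78) (nat_lit 0) (nat_lit 0) (XT.lf (nat_lit 0) (nat_lit 18572110924995) (nat_lit 76) (nat_lit 2016437145217) (nat_lit 76) (nat_lit 2016098798281) (nat_lit 1) (nat_lit 4) (nat_lit 2) (nat_lit 5) (nat_lit 2) (nat_lit 4) (nat_lit 542) (nat_lit 364) (nat_lit 294)) (XT.lf (nat_lit 0) (nat_lit 20066409245129) (nat_lit 76) (nat_lit 2173309360017) (nat_lit 76) (nat_lit 2172970897907) (nat_lit 1) (nat_lit 4) (nat_lit 2) (nat_lit 5) (nat_lit 2) (nat_lit 4) (nat_lit 543) (nat_lit 364) (nat_lit 293))) (XT.nd (nat_lit 56706) (nat_lit 0) (nat_lit 228) (XT.lf (nat_lit 0) (nat_lit 21680245913221) (nat_lit 76) (nat_lit 2342734208407) (nat_lit 76) (nat_lit 2342395639653)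 (nat_lit 1) (nat_lit 4) (nat_lit 2) (nat_lit 5) (nat_lit 2) (nat_lit 4) (nat_lit 544) (nat_lit 364) (nat_lit 292)) (XT.lf (nat_lit 0) (nat_lit 24044984255) (nat_lit 76) (nat_lit 12215100928) (nat_lit 76) (nat_lit 12215100928) (nat_lit 4) (nat_lit 4) (nat_lit 5) (nat_lit 5) (nat_lit 5) (nat_lit 4) (nat_lit 470) (nat_lit 365) (nat_lit 365))))))))
noncomputable def xc25 : XT := (XT.nd (nat_lit 2184) (nat_lit 0) (nat_lit 0) (XT.nd (nat_lit 1092) (nat_lit 0) (nat_lit 0) (XT.nd (nat_lit 546) (nat_lit 76) (nat_lit 0) (XT.nd (nat_lit 234) (nat_lit 0) (nat_lit 0) (XT.nd (nat_lit 78) (nat_lit 152) (nat_lit 0) (XT.lf (nat_lit 0) (nat_lit 74836693613) (nat_lit 76) (nat_lit 14507370619) (nat_lit 76) (nat_lit 14478003104) (nat_lit 4) (nat_lit 4) (nat_lit 5) (nat_lit 5) (nat_lit 5) (nat_lit 4) (nat_lit 471) (nat_lit 365) (nat_lit 364)) (XT.nd (nat_lit 78) (nat_lit 152) (nat_lit 0) (XT.lf (nat_lit 0) (nat_lit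 102606630294) (nat_lit 76) (nat_lit 4368272737) (nat_lit 76) (nat_lit 4311713078) (nat_lit 4) (nat_lit 4) (nat_lit 5) (nat_lit 5) (nat_lit 5) (nat_lit 4) (nat_lit 472) (nat_lit 365) (nat_lit 363)) (XT.lf (nat_lit 0) (nat_lit 6284016600) (nat_lit 152) (nat_lit 106847174863) (nat_lit 0) (nat_lit 6208333665) (nat_lit 2) (nat_lit 5) (nat_lit 4) (nat_lit 4) (nat_lit 2) (nat_lit 4) (nat_lit 473) (nat_lit 365) (nat_lit 362)))) (XT.nd (nat_lit 156) (nat_lit 0) (nat_lit 0) (XT.nd (nat_lit 78) (nat_lit 0) (nat_lit 0) (XT.lf (nat_lit 0) (nat_lit 17339600429) (nat_lit 152) (nat_lit 93458164895) (nat_lit 0) (nat_lit 17242331495) (nat_lit 2) (nat_lit 5) (nat_lit 4) (nat_lit 4) (nat_lit 2) (nat_lit 4) (nat_lit 474) (nat_lit 365) (nat_lit 361)) (XT.lf (nat_lit 0) (nat_lit 28805731089) (nat_lit 152) (nat_lit 79980420562) (nat_lit 0) (nat_lit 28688475117) (nat_lit 2) (nat_lit 5) (nat_lit 4) (nat_lit 4) (nat_lit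 2) (nat_lit 4) (nat_lit 475) (nat_lit 365) (nat_lit 360))) (XT.nd (nat_lit 78) (nat_lit 0) (nat_lit 0) (XT.lf (nat_lit 0) (nat_lit 40750356020) (nat_lit 152) (nat_lit 66334073750) (nat_lit 0) (nat_lit 40614593533) (nat_lit 2) (nat_lit 5) (nat_lit 4) (nat_lit 4) (nat_lit 2) (nat_lit 4) (nat_lit 476) (nat_lit 365) (nat_lit 359)) (XT.lf (nat_lit 0) (nat_lit 53244258185) (nat_lit 152) (nat_lit 52438257219) (nat_lit 0) (nat_lit 53091360035) (nat_lit 2) (nat_lit 5) (nat_lit 4) (nat_lit 4) (nat_lit 2) (nat_lit 4) (nat_lit 477) (nat_lit 365) (nat_lit 358))))) (XT.nd (nat_lit 234) (nat_lit 76) (nat_lit 0) (XT.nd (nat_lit 78) (nat_lit 0) (nat_lit 0) (XT.lf (nat_lit 0) (nat_lit 66361475523) (nat_lit 152) (nat_lit 38210625388) (nat_lit 0) (nat_lit 66192711018) (nat_lit 2) (nat_lit 5) (nat_lit 4) (nat_lit 4) (nat_lit 2) (nat_lit 4) (nat_lit 478) (nat_lit 365) (nat_lit 357)) (XT.nd (nat_lit 78) (nat_lit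 0) (nat_lit 0) (XT.lf (nat_lit 0) (nat_lit 80179739692) (nat_lit 152) (nat_lit 23566866366) (nat_lit 0) (nat_lit 79996284118) (nat_lit 2) (nat_lit 5) (nat_lit 4) (nat_lit 4) (nat_lit 2) (nat_lit 4) (nat_lit 479) (nat_lit 365) (nat_lit 356)) (XT.lf (nat_lit 0) (nat_lit 94780936701) (nat_lit 152) (nat_lit 8420202321) (nat_lit 0) (nat_lit 94583878285) (nat_lit 2) (nat_lit 5) (nat_lit 4) (nat_lit 4) (nat_lit 2) (nat_lit 4) (nat_lit 480) (nat_lit 365) (nat_lit 355)))) (XT.nd (nat_lit 156) (nat_lit 0) (nat_lit 0) (XT.nd (nat_lit 78) (nat_lit 0) (nat_lit 0) (XT.lf (nat_lit 0) (nat_lit 7704536893) (nat_lit 76) (nat_lit 102732349567) (nat_lit 76) (nat_lit 102522695928) (nat_lit 1) (nat_lit 4) (nat_lit 2) (nat_lit 5) (nat_lit 2) (nat_lit 4) (nat_lit 481) (nat_lit 365) (nat_lit 354)) (XT.lf (nat_lit 0) (nat_lit 24994722182) (nat_lit 76) (nat_lit 102289785524) (nat_lit 76) (nat_lit 102068469640) (nat_lit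 1) (nat_lit 4) (nat_lit 2) (nat_lit 5) (nat_lit 2) (nat_lit 4) (nat_lit 482) (nat_lit 365) (nat_lit 353))) (XT.nd (nat_lit 78) (nat_lit 0) (nat_lit 0) (XT.lf (nat_lit 0) (nat_lit 43109420968) (nat_lit 76) (nat_lit 102101047545) (nat_lit 76) (nat_lit 101868933287) (nat_lit 1) (nat_lit 4) (nat_lit 2) (nat_lit 5) (nat_lit 2) (nat_lit 4) (nat_lit 483) (nat_lit 365) (nat_lit 352)) (XT.lf (nat_lit 0) (nat_lit 62155979615) (nat_lit 76) (nat_lit 102165017183) (nat_lit 76) (nat_lit 101922904430) (nat_lit 1) (nat_lit 4) (nat_lit 2) (nat_lit 5) (nat_lit 2) (nat_lit 4) (nat_lit 484) (nat_lit 365) (nat_lit 351)))))) (XT.nd (nat_lit 546) (nat_lit 0) (nat_lit 0) (XT.nd (nat_lit 234) (nat_lit 0) (nat_lit 0) (XT.nd (nat_lit 78) (nat_lit 0) (nat_lit 0) (XT.lf (nat_lit 0) (nat_lit 82247266619) (nat_lit 76) (nat_lit 102482073517) (nat_lit 76) (nat_lit 102230702899) (nat_lit 1) (nat_lit 4) (nat_lit 2) (nat_lit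 5) (nat_lit 2) (nat_lit 4) (nat_lit 485) (nat_lit 365) (nat_lit 350)) (XT.nd (nat_lit 78) (nat_lit 0) (nat_lit 0) (XT.lf (nat_lit 0) (nat_lit 103502341459) (nat_lit 76) (nat_lit 103054095399) (nat_lit 76) (nat_lit 102794152683) (nat_lit 1) (nat_lit 4) (nat_lit 2) (nat_lit 5) (nat_lit 2) (nat_lit 4) (nat_lit 486) (nat_lit 365) (nat_lit 349)) (XT.lf (nat_lit 0) (nat_lit 126047160132) (nat_lit 76) (nat_lit 103884472589) (nat_lit 76) (nat_lit 103616592746) (nat_lit 1) (nat_lit 4) (nat_lit 2) (nat_lit 5) (nat_lit 2) (nat_lit 4) (nat_lit 487) (nat_lit 365) (nat_lit 348)))) (XT.nd (nat_lit 156) (nat_lit 0) (nat_lit 0) (XT.nd (nat_lit 78) (nat_lit 0) (nat_lit 0) (XT.lf (nat_lit 0) (nat_lit 150015321566) (nat_lit 76) (nat_lit 104978125841) (nat_lit 76) (nat_lit 104702896806) (nat_lit 1) (nat_lit 4) (nat_lit 2) (nat_lit 5) (nat_lit 2) (nat_lit 4) (nat_lit 488) (nat_lit 365) (nat_lit 347)) (XT.lf (nat_lit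 0) (nat_lit 175548859308) (nat_lit 76) (nat_lit 106341536063) (nat_lit 76) (nat_lit 106059502220) (nat_lit 1) (nat_lit 4) (nat_lit 2) (nat_lit 5) (nat_lit 2) (nat_lit 4) (nat_lit 489) (nat_lit 365) (nat_lit 346))) (XT.nd (nat_lit 78) (nat_lit 0) (nat_lit 0) (XT.lf (nat_lit 0) (nat_lit 202799083213) (nat_lit 76) (nat_lit 107982782722) (nat_lit 76) (nat_lit 107694448131) (nat_lit 1) (nat_lit 4) (nat_lit 2) (nat_lit 5) (nat_lit 2) (nat_lit 4) (nat_lit 490) (nat_lit 365) (nat_lit 345)) (XT.lf (nat_lit 0) (nat_lit 231927476088) (nat_lit 76) (nat_lit 109911591725) (nat_lit 76) (nat_lit 109617423108) (nat_lit 1) (nat_lit 4) (nat_lit 2) (nat_lit 5) (nat_lit 2) (nat_lit 4) (nat_lit 491) (nat_lit 365) (nat_lit 344))))) (XT.nd (nat_lit 234) (nat_lit 0) (nat_lit 0) (XT.nd (nat_lit 78) (nat_lit 0) (nat_lit 0) (XT.lf (nat_lit 0) (nat_lit 263106650633) (nat_lit 76) (nat_lit 112139393051) (nat_lit 76) (nat_lit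 111839822559) (nat_lit 1) (nat_lit 4) (nat_lit 2) (nat_lit 5) (nat_lit 2) (nat_lit 4) (nat_lit 492) (nat_lit 365) (nat_lit 343)) (XT.nd (nat_lit 78) (nat_lit 0) (nat_lit 0) (XT.lf (nat_lit 0) (nat_lit 296521372325) (nat_lit 76) (nat_lit 114679388485) (nat_lit 76) (nat_lit 114374816257) (nat_lit 1) (nat_lit 4) (nat_lit 2) (nat_lit 5) (nat_lit 2) (nat_lit 4) (nat_lit 493) (nat_lit 365) (nat_lit 342)) (XT.lf (nat_lit 0) (nat_lit 332369654331) (nat_lit 76) (nat_lit 117546629854) (nat_lit 76) (nat_lit 117237426387) (nat_lit 1) (nat_lit 4) (nat_lit 2) (nat_lit 5) (nat_lit 2) (nat_lit 4) (nat_lit 494) (nat_lit 365) (nat_lit 341)))) (XT.nd (nat_lit 156) (nat_lit 0) (nat_lit 0) (XT.nd (nat_lit 78) (nat_lit 0) (nat_lit 0) (XT.lf (nat_lit 0) (nat_lit 370863930914) (nat_lit 76) (nat_lit 120758108215) (nat_lit 76) (nat_lit 120444616566) (nat_lit 1) (nat_lit 4) (nat_lit 2) (nat_lit 5) (nat_lit 2) (nat_lit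 4) (nat_lit 495) (nat_lit 365) (nat_lit 340)) (XT.lf (nat_lit 0) (nat_lit 412232316306) (nat_lit 76) (nat_lit 124332854553) (nat_lit 76) (nat_lit 124015392364) (nat_lit 1) (nat_lit 4) (nat_lit 2) (nat_lit 5) (nat_lit 2) (nat_lit 4) (nat_lit 496) (nat_lit 365) (nat_lit 339))) (XT.nd (nat_lit 78) (nat_lit 0) (nat_lit 0) (XT.lf (nat_lit 0) (nat_lit 456719956495) (nat_lit 76) (nat_lit 128292052549) (nat_lit 76) (nat_lit 127970913935) (nat_lit 1) (nat_lit 4) (nat_lit 2) (nat_lit 5) (nat_lit 2) (nat_lit 4) (nat_lit 497) (nat_lit 365) (nat_lit 338)) (XT.lf (nat_lit 0) (nat_lit 504590481940) (nat_lit 76) (nat_lit 132659164118) (nat_lit 76) (nat_lit 132334621406) (nat_lit 1) (nat_lit 4) (nat_lit 2) (nat_lit 5) (nat_lit 2) (nat_lit 4) (nat_lit 498) (nat_lit 365) (nat_lit 337))))))) (XT.nd (nat_lit 1092) (nat_lit 0) (nat_lit 0) (XT.nd (nat_lit 546) (nat_lit 0) (nat_lit 0) (XT.nd (nat_lit 234) (nat_lit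 0) (nat_lit 0) (XT.nd (nat_lit 78) (nat_lit 0) (nat_lit 0) (XT.lf (nat_lit 0) (nat_lit 556127569830) (nat_lit 76) (nat_lit 137460068439) (nat_lit 76) (nat_lit 137132373784) (nat_lit 1) (nat_lit 4) (nat_lit 2) (nat_lit 5) (nat_lit 2) (nat_lit 4) (nat_lit 499) (nat_lit 365) (nat_lit 336)) (XT.nd (nat_lit 78) (nat_lit 0) (nat_lit 0) (XT.lf (nat_lit 0) (nat_lit 611636625130) (nat_lit 76) (nat_lit 142723215315) (nat_lit 76) (nat_lit 142392602195) (nat_lit 1) (nat_lit 4) (nat_lit 2) (nat_lit 5) (nat_lit 2) (nat_lit 4) (nat_lit 500) (nat_lit 365) (nat_lit 335)) (XT.lf (nat_lit 0) (nat_lit 671446590389) (nat_lit 76) (nat_lit 148479793766) (nat_lit 76) (nat_lit 148146478362) (nat_lit 1) (nat_lit 4) (nat_lit 2) (nat_lit 5) (nat_lit 2) (nat_lit 4) (nat_lit 501) (nat_lit 365) (nat_lit 334)))) (XT.nd (nat_lit 156) (nat_lit 0) (nat_lit 0) (XT.nd (nat_lit 78) (nat_lit 0) (nat_lit 0) (XT.lf (nat_lit 0)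 (nat_lit 735911895032) (nat_lit 76) (nat_lit 154763916847) (nat_lit 76) (nat_lit 154428099331) (nat_lit 1) (nat_lit 4) (nat_lit 2) (nat_lit 5) (nat_lit 2) (nat_lit 4) (nat_lit 502) (nat_lit 365) (nat_lit 333)) (XT.lf (nat_lit 0) (nat_lit 805414555679) (nat_lit 76) (nat_lit 161612823808) (nat_lit 76) (nat_lit 161274689520) (nat_lit 1) (nat_lit 4) (nat_lit 2) (nat_lit 5) (nat_lit 2) (nat_lit 4) (nat_lit 503) (nat_lit 365) (nat_lit 332))) (XT.nd (nat_lit 78) (nat_lit 0) (nat_lit 0) (XT.lf (nat_lit 0) (nat_lit 880366439948) (nat_lit 76) (nat_lit 169067100764) (nat_lit 76) (nat_lit 168726821316) (nat_lit 1) (nat_lit 4) (nat_lit 2) (nat_lit 5) (nat_lit 2) (nat_lit 4) (nat_lit 504) (nat_lit 365) (nat_lit 331)) (XT.lf (nat_lit 0) (nat_lit 961211707153) (nat_lit 76) (nat_lit 177170921207) (nat_lit 76) (nat_lit 176828655501) (nat_lit 1) (nat_lit 4) (nat_lit 2) (nat_lit 5) (nat_lit 2) (nat_lit 4) (nat_lit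 505) (nat_lit 365) (nat_lit 330))))) (XT.nd (nat_lit 234) (nat_lit 0) (nat_lit 0) (XT.nd (nat_lit 78) (nat_lit 0) (nat_lit 0) (XT.lf (nat_lit 0) (nat_lit 1048429440360) (nat_lit 76) (nat_lit 185972307778) (nat_lit 76) (nat_lit 185628202944) (nat_lit 1) (nat_lit 4) (nat_lit 2) (nat_lit 5) (nat_lit 2) (nat_lit 4) (nat_lit 506) (nat_lit 365) (nat_lit 329)) (XT.nd (nat_lit 78) (nat_lit 0) (nat_lit 0) (XT.lf (nat_lit 0) (nat_lit 1142536485394) (nat_lit 76) (nat_lit 195523416842) (nat_lit 76) (nat_lit 195177609111) (nat_lit 1) (nat_lit 4) (nat_lit 2) (nat_lit 5) (nat_lit 2) (nat_lit 4) (nat_lit 507) (nat_lit 365) (nat_lit 328)) (XT.lf (nat_lit 0) (nat_lit 1244090513635) (nat_lit 76) (nat_lit 205880847562) (nat_lit 76) (nat_lit 205533463075) (nat_lit 1) (nat_lit 4) (nat_lit 2) (nat_lit 5) (nat_lit 2) (nat_lit 4) (nat_lit 508) (nat_lit 365) (nat_lit 327)))) (XT.nd (nat_lit 156) (nat_lit 0) (nat_lit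 0) (XT.nd (nat_lit 78) (nat_lit 0) (nat_lit 0) (XT.lf (nat_lit 0) (nat_lit 1353693326730) (nat_lit 76) (nat_lit 217105977306) (nat_lit 76) (nat_lit 216757132860) (nat_lit 1) (nat_lit 4) (nat_lit 2) (nat_lit 5) (nat_lit 2) (nat_lit 4) (nat_lit 509) (nat_lit 365) (nat_lit 326)) (XT.lf (nat_lit 0) (nat_lit 1471994422831) (nat_lit 76) (nat_lit 229265325363) (nat_lit 76) (nat_lit 228915129102) (nat_lit 1) (nat_lit 4) (nat_lit 2) (nat_lit 5) (nat_lit 2) (nat_lit 4) (nat_lit 510) (nat_lit 365) (nat_lit 325))) (XT.nd (nat_lit 78) (nat_lit 0) (nat_lit 0) (XT.lf (nat_lit 0) (nat_lit 1599694845471) (nat_lit 76) (nat_lit 242430947126) (nat_lit 76) (nat_lit 242079499187) (nat_lit 1) (nat_lit 4) (nat_lit 2) (nat_lit 5) (nat_lit 2) (nat_lit 4) (nat_lit 511) (nat_lit 365) (nat_lit 324)) (XT.lf (nat_lit 0) (nat_lit 1737551337895) (nat_lit 76) (nat_lit 256680861097) (nat_lit 76) (nat_lit 256328254195) (nat_lit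 1) (nat_lit 4) (nat_lit 2) (nat_lit 5) (nat_lit 2) (nat_lit 4) (nat_lit 512) (nat_lit 365) (nat_lit 323)))))) (XT.nd (nat_lit 546) (nat_lit 0) (nat_lit 0) (XT.nd (nat_lit 234) (nat_lit 0) (nat_lit 0) (XT.nd (nat_lit 78) (nat_lit 0) (nat_lit 0) (XT.lf (nat_lit 0) (nat_lit 1886380827465) (nat_lit 76) (nat_lit 272099511210) (nat_lit 76) (nat_lit 271745831193) (nat_lit 1) (nat_lit 4) (nat_lit 2) (nat_lit 5) (nat_lit 2) (nat_lit 4) (nat_lit 513) (nat_lit 365) (nat_lit 322)) (XT.nd (nat_lit 78) (nat_lit 0) (nat_lit 0) (XT.lf (nat_lit 0) (nat_lit 2047065266713) (nat_lit 76) (nat_lit 288778267242) (nat_lit 76) (nat_lit 288423593602) (nat_lit 1) (nat_lit 4) (nat_lit 2) (nat_lit 5) (nat_lit 2) (nat_lit 4) (nat_lit 514) (nat_lit 365) (nat_lit 321)) (XT.lf (nat_lit 0) (nat_lit 2220556859723) (nat_lit 76) (nat_lit 306815966267) (nat_lit 76) (nat_lit 306460372605) (nat_lit 1) (nat_lit 4) (nat_lit 2) (nat_lit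 5) (nat_lit 2) (nat_lit 4) (nat_lit 515) (nat_lit 365) (nat_lit 320)))) (XT.nd (nat_lit 156) (nat_lit 0) (nat_lit 0) (XT.nd (nat_lit 78) (nat_lit 0) (nat_lit 0) (XT.lf (nat_lit 0) (nat_lit 2407883704823) (nat_lit 76) (nat_lit 326319498354) (nat_lit 76) (nat_lit 325963052819) (nat_lit 1) (nat_lit 4) (nat_lit 2) (nat_lit 5) (nat_lit 2) (nat_lit 4) (nat_lit 516) (nat_lit 365) (nat_lit 319)) (XT.lf (nat_lit 0) (nat_lit 2610155887022) (nat_lit 76) (nat_lit 347404439987) (nat_lit 76) (nat_lit 347047205683) (nat_lit 1) (nat_lit 4) (nat_lit 2) (nat_lit 5) (nat_lit 2) (nat_lit 4) (nat_lit 517) (nat_lit 365) (nat_lit 318))) (XT.nd (nat_lit 78) (nat_lit 0) (nat_lit 0) (XT.lf (nat_lit 0) (nat_lit 2828572056288) (nat_lit 76) (nat_lit 370195738971) (nat_lit 76) (nat_lit 369837774323) (nat_lit 1) (nat_lit 4) (nat_lit 2) (nat_lit 5) (nat_lit 2) (nat_lit 4) (nat_lit 518) (nat_lit 365) (nat_lit 317)) (XT.lf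 (nat_lit 0) (nat_lit 3064426530662) (nat_lit 76) (nat_lit 394828454854) (nat_lit 76) (nat_lit 394469813963) (nat_lit 1) (nat_lit 4) (nat_lit 2) (nat_lit 5) (nat_lit 2) (nat_lit 4) (nat_lit 519) (nat_lit 365) (nat_lit 316))))) (XT.nd (nat_lit 312) (nat_lit 0) (nat_lit 0) (XT.nd (nat_lit 156) (nat_lit 0) (nat_lit 0) (XT.nd (nat_lit 78) (nat_lit 0) (nat_lit 0) (XT.lf (nat_lit 0) (nat_lit 3319116966287) (nat_lit 76) (nat_lit 421448559286) (nat_lit 76) (nat_lit 421089292243) (nat_lit 1) (nat_lit 4) (nat_lit 2) (nat_lit 5) (nat_lit 2) (nat_lit 4) (nat_lit 520) (nat_lit 365) (nat_lit 315)) (XT.lf (nat_lit 0) (nat_lit 3594152639820) (nat_lit 76) (nat_lit 450213801034) (nat_lit 76) (nat_lit 449853954221) (nat_lit 1) (nat_lit 4) (nat_lit 2) (nat_lit 5) (nat_lit 2) (nat_lit 4) (nat_lit 521) (nat_lit 365) (nat_lit 314))) (XT.nd (nat_lit 78) (nat_lit 0) (nat_lit 0) (XT.lf (nat_lit 0) (nat_lit 3891163392289)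 (nat_lit 76) (nat_lit 481294640790) (nat_lit 76) (nat_lit 480934257153) (nat_lit 1) (nat_lit 4) (nat_lit 2) (nat_lit 5) (nat_lit 2) (nat_lit 4) (nat_lit 522) (nat_lit 365) (nat_lit 313)) (XT.lf (nat_lit 0) (nat_lit 4211909287411) (nat_lit 76) (nat_lit 514875261308) (nat_lit 76) (nat_lit 514514380612) (nat_lit 1) (nat_lit 4) (nat_lit 2) (nat_lit 5) (nat_lit 2) (nat_lit 4) (nat_lit 523) (nat_lit 365) (nat_lit 312)))) (XT.nd (nat_lit 156) (nat_lit 0) (nat_lit 0) (XT.nd (nat_lit 78) (nat_lit 0) (nat_lit 0) (XT.lf (nat_lit 0) (nat_lit 4558291041604) (nat_lit 76) (nat_lit 551154658857) (nat_lit 76) (nat_lit 550793317921) (nat_lit 1) (nat_lit 4) (nat_lit 2) (nat_lit 5) (nat_lit 2) (nat_lit 4) (nat_lit 524) (nat_lit 365) (nat_lit 311)) (XT.lf (nat_lit 0) (nat_lit 4932361287483) (nat_lit 76) (nat_lit 590347822461) (nat_lit 76) (nat_lit 589986055377) (nat_lit 1) (nat_lit 4) (nat_lit 2) (nat_lit 5)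 (nat_lit 2) (nat_lit 4) (nat_lit 525) (nat_lit 365) (nat_lit 310))) (XT.nd (nat_lit 78) (nat_lit 0) (nat_lit 0) (XT.lf (nat_lit 0) (nat_lit 5336336737617) (nat_lit 76) (nat_lit 632687007903) (nat_lit 76) (nat_lit 632324846238) (nat_lit 1) (nat_lit 4) (nat_lit 2) (nat_lit 5) (nat_lit 2) (nat_lit 4) (nat_lit 526) (nat_lit 365) (nat_lit 309)) (XT.lf (nat_lit 0) (nat_lit 5772611320600) (nat_lit 76) (nat_lit 678423114061) (nat_lit 76) (nat_lit 678060587042) (nat_lit 1) (nat_lit 4) (nat_lit 2) (nat_lit 5) (nat_lit 2) (nat_lit 4) (nat_lit 527) (nat_lit 365) (nat_lit 308))))))))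
noncomputable def xc26 : XT := (XT.nd (nat_lit 58656) (nat_lit 0) (nat_lit 0) (XT.nd (nat_lit 1092) (nat_lit 0) (nat_lit 0) (XT.nd (nat_lit 546) (nat_lit 0) (nat_lit 0) (XT.nd (nat_lit 234) (nat_lit 0) (nat_lit 0) (XT.nd (nat_lit 78) (nat_lit 0) (nat_lit 0) (XT.lf (nat_lit 0) (nat_lit 6243770367294) (nat_lit 76) (nat_lit 727827169711) (nat_lit 76) (nat_lit 727464304402) (nat_lit 1) (nat_lit 4) (nat_lit 2) (nat_lit 5) (nat_lit 2) (nat_lit 4) (nat_lit 528) (nat_lit 365) (nat_lit 307)) (XT.nd (nat_lit 78) (nat_lit 0) (nat_lit 0) (XT.lf (nat_lit 0) (nat_lit 6752605931308) (nat_lit 76) (nat_lit 781191939628) (nat_lit 76) (nat_lit 780828761087) (nat_lit 1) (nat_lit 4) (nat_lit 2) (nat_lit 5) (nat_lit 2) (nat_lit 4) (nat_lit 529) (nat_lit 365) (nat_lit 306)) (XT.lf (nat_lit 0) (nat_lit 7302133334504) (nat_lit 76) (nat_lit 838833659485) (nat_lit 76) (nat_lit 838470190914) (nat_lit 1) (nat_lit 4)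 (nat_lit 2) (nat_lit 5) (nat_lit 2) (nat_lit 4) (nat_lit 530) (nat_lit 365) (nat_lit 305)))) (XT.nd (nat_lit 156) (nat_lit 0) (nat_lit 0) (XT.nd (nat_lit 78) (nat_lit 0) (nat_lit 0) (XT.lf (nat_lit 0) (nat_lit 7895609035568) (nat_lit 76) (nat_lit 901093909844) (nat_lit 76) (nat_lit 900730172728) (nat_lit 1) (nat_lit 4) (nat_lit 2) (nat_lit 5) (nat_lit 2) (nat_lit 4) (nat_lit 531) (nat_lit 365) (nat_lit 304)) (XT.lf (nat_lit 0) (nat_lit 8536549927541) (nat_lit 76) (nat_lit 968341640338) (nat_lit 76) (nat_lit 967977654568) (nat_lit 1) (nat_lit 4) (nat_lit 2) (nat_lit 5) (nat_lit 2) (nat_lit 4) (nat_lit 532) (nat_lit 365) (nat_lit 303))) (XT.nd (nat_lit 78) (nat_lit 0) (nat_lit 0) (XT.lf (nat_lit 0) (nat_lit 9228754178674) (nat_lit 76) (nat_lit 1040975356035) (nat_lit 76) (nat_lit 1040611140031) (nat_lit 1) (nat_lit 4) (nat_lit 2) (nat_lit 5) (nat_lit 2) (nat_lit 4) (nat_lit 533) (nat_lit 365)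 (nat_lit 302)) (XT.lf (nat_lit 0) (nat_lit 9976323740084) (nat_lit 76) (nat_lit 1119425478955) (nat_lit 76) (nat_lit 1119061049771) (nat_lit 1) (nat_lit 4) (nat_lit 2) (nat_lit 5) (nat_lit 2) (nat_lit 4) (nat_lit 534) (nat_lit 365) (nat_lit 301))))) (XT.nd (nat_lit 234) (nat_lit 0) (nat_lit 0) (XT.nd (nat_lit 78) (nat_lit 0) (nat_lit 0) (XT.lf (nat_lit 0) (nat_lit 10783688653617) (nat_lit 76) (nat_lit 1204156898715) (nat_lit 76) (nat_lit 1203792272142) (nat_lit 1) (nat_lit 4) (nat_lit 2) (nat_lit 5) (nat_lit 2) (nat_lit 4) (nat_lit 535) (nat_lit 365) (nat_lit 300)) (XT.nd (nat_lit 78) (nat_lit 0) (nat_lit 0) (XT.lf (nat_lit 0) (nat_lit 11655633303945) (nat_lit 76) (nat_lit 1295671727432) (nat_lit 76) (nat_lit 1295306918091) (nat_lit 1) (nat_lit 4) (nat_lit 2) (nat_lit 5) (nat_lit 2) (nat_lit 4) (nat_lit 536) (nat_lit 365) (nat_lit 299)) (XT.lf (nat_lit 0) (nat_lit 12597324770477) (nat_lit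 76) (nat_lit 1394512275202) (nat_lit 76) (nat_lit 1394147296632) (nat_lit 1) (nat_lit 4) (nat_lit 2) (nat_lit 5) (nat_lit 2) (nat_lit 4) (nat_lit 537) (nat_lit 365) (nat_lit 298)))) (XT.nd (nat_lit 156) (nat_lit 0) (nat_lit 0) (XT.nd (nat_lit 78) (nat_lit 0) (nat_lit 0) (XT.lf (nat_lit 0) (nat_lit 13614343447090) (nat_lit 76) (nat_lit 1501264263790) (nat_lit 76) (nat_lit 1500899128526) (nat_lit 1) (nat_lit 4) (nat_lit 2) (nat_lit 5) (nat_lit 2) (nat_lit 4) (nat_lit 538) (nat_lit 365) (nat_lit 297)) (XT.lf (nat_lit 0) (nat_lit 14712716111126) (nat_lit 76) (nat_lit 1616560297573) (nat_lit 76) (nat_lit 1616195017222) (nat_lit 1) (nat_lit 4) (nat_lit 2) (nat_lit 5) (nat_lit 2) (nat_lit 4) (nat_lit 539) (nat_lit 365) (nat_lit 296))) (XT.nd (nat_lit 78) (nat_lit 0) (nat_lit 0) (XT.lf (nat_lit 0) (nat_lit 15898951637631) (nat_lit 76) (nat_lit 1741083612306) (nat_lit 76) (nat_lit 1740718197615)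 (nat_lit 1) (nat_lit 4) (nat_lit 2) (nat_lit 5) (nat_lit 2) (nat_lit 4) (nat_lit 540) (nat_lit 365) (nat_lit 295)) (XT.lf (nat_lit 0) (nat_lit 17180079570466) (nat_lit 76) (nat_lit 1875572123928) (nat_lit 76) (nat_lit 1875206584849) (nat_lit 1) (nat_lit 4) (nat_lit 2) (nat_lit 5) (nat_lit 2) (nat_lit 4) (nat_lit 541) (nat_lit 365) (nat_lit 294)))))) (XT.nd (nat_lit 57018) (nat_lit 0) (nat_lit 76) (XT.nd (nat_lit 56706) (nat_lit 0) (nat_lit 228) (XT.nd (nat_lit 78) (nat_lit 0) (nat_lit 0) (XT.lf (nat_lit 0) (nat_lit 18563691778864) (nat_lit 76) (nat_lit 2020822801398) (nat_lit 76) (nat_lit 2020457147144) (nat_lit 1) (nat_lit 4) (nat_lit 2) (nat_lit 5) (nat_lit 2) (nat_lit 4) (nat_lit 542) (nat_lit 365) (nat_lit 293)) (XT.nd (nat_lit 78) (nat_lit 0) (nat_lit 0) (XT.lf (nat_lit 0) (nat_lit 20057987446280) (nat_lit 76) (nat_lit 2177696389470) (nat_lit 76) (nat_lit 2177330628573) (nat_lit 1)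 (nat_lit 4) (nat_lit 2) (nat_lit 5) (nat_lit 2) (nat_lit 4) (nat_lit 543) (nat_lit 365) (nat_lit 292)) (XT.lf (nat_lit 0) (nat_lit 21671821658151) (nat_lit 76) (nat_lit 2347122509408) (nat_lit 76) (nat_lit 2346756649767) (nat_lit 1) (nat_lit 4) (nat_lit 2) (nat_lit 5) (nat_lit 2) (nat_lit 4) (nat_lit 544) (nat_lit 365) (nat_lit 291)))) (XT.nd (nat_lit 156) (nat_lit 0) (nat_lit 0) (XT.nd (nat_lit 78) (nat_lit 76) (nat_lit 0) (XT.lf (nat_lit 0) (nat_lit 20644384075) (nat_lit 152) (nat_lit 1109859521) (nat_lit 0) (nat_lit 20644384075) (nat_lit 5) (nat_lit 5) (nat_lit 7) (nat_lit 4) (nat_lit 5) (nat_lit 4) (nat_lit 468) (nat_lit 366) (nat_lit 366)) (XT.lf (nat_lit 0) (nat_lit 22207955876) (nat_lit 76) (nat_lit 34227285328) (nat_lit 76) (nat_lit 34195568411) (nat_lit 4) (nat_lit 4) (nat_lit 5) (nat_lit 5) (nat_lit 5) (nat_lit 4) (nat_lit 469) (nat_lit 366) (nat_lit 365))) (XT.nd (nat_lit 78)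 (nat_lit 0) (nat_lit 0) (XT.lf (nat_lit 0) (nat_lit 47510233634) (nat_lit 76) (nat_lit 24761805620) (nat_lit 76) (nat_lit 24700721189) (nat_lit 4) (nat_lit 4) (nat_lit 5) (nat_lit 5) (nat_lit 5) (nat_lit 4) (nat_lit 470) (nat_lit 366) (nat_lit 364)) (XT.lf (nat_lit 0) (nat_lit 73720167184) (nat_lit 76) (nat_lit 15116647389) (nat_lit 76) (nat_lit 15028370815) (nat_lit 4) (nat_lit 4) (nat_lit 5) (nat_lit 5) (nat_lit 5) (nat_lit 4) (nat_lit 471) (nat_lit 366) (nat_lit 363))))) (XT.nd (nat_lit 234) (nat_lit 0) (nat_lit 0) (XT.nd (nat_lit 78) (nat_lit 152) (nat_lit 0) (XT.lf (nat_lit 0) (nat_lit 100993074650) (nat_lit 76) (nat_lit 5234654143) (nat_lit 76) (nat_lit 5121199658) (nat_lit 4) (nat_lit 4) (nat_lit 5) (nat_lit 5) (nat_lit 5) (nat_lit 4) (nat_lit 472) (nat_lit 366) (nat_lit 362)) (XT.nd (nat_lit 78) (nat_lit 0) (nat_lit 0) (XT.lf (nat_lit 0) (nat_lit 5204594888) (nat_lit 152) (nat_lit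 109145676188) (nat_lit 0) (nat_lit 5077958439) (nat_lit 2) (nat_lit 5) (nat_lit 4) (nat_lit 4) (nat_lit 2) (nat_lit 4) (nat_lit 473) (nat_lit 366) (nat_lit 361)) (XT.lf (nat_lit 0) (nat_lit 16032342239) (nat_lit 152) (nat_lit 96228967390) (nat_lit 0) (nat_lit 15885718752) (nat_lit 2) (nat_lit 5) (nat_lit 4) (nat_lit 4) (nat_lit 2) (nat_lit 4) (nat_lit 474) (nat_lit 366) (nat_lit 360)))) (XT.nd (nat_lit 156) (nat_lit 0) (nat_lit 0) (XT.nd (nat_lit 78) (nat_lit 0) (nat_lit 0) (XT.lf (nat_lit 0) (nat_lit 27287513196) (nat_lit 152) (nat_lit 83188538955) (nat_lit 0) (nat_lit 27122383193) (nat_lit 2) (nat_lit 5) (nat_lit 4) (nat_lit 4) (nat_lit 2) (nat_lit 4) (nat_lit 475) (nat_lit 366) (nat_lit 359)) (XT.lf (nat_lit 0) (nat_lit 39036805069) (nat_lit 152) (nat_lit 69947114270) (nat_lit 0) (nat_lit 38854539404) (nat_lit 2) (nat_lit 5) (nat_lit 4) (nat_lit 4) (nat_lit 2) (nat_lit 4) (nat_lit 476)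 (nat_lit 366) (nat_lit 358))) (XT.nd (nat_lit 78) (nat_lit 0) (nat_lit 0) (XT.lf (nat_lit 0) (nat_lit 51349843292) (nat_lit 152) (nat_lit 56426225635) (nat_lit 0) (nat_lit 51151711272) (nat_lit 2) (nat_lit 5) (nat_lit 4) (nat_lit 4) (nat_lit 2) (nat_lit 4) (nat_lit 477) (nat_lit 366) (nat_lit 357)) (XT.lf (nat_lit 0) (nat_lit 64299594016) (nat_lit 152) (nat_lit 42545749263) (nat_lit 0) (nat_lit 64086770927) (nat_lit 2) (nat_lit 5) (nat_lit 4) (nat_lit 4) (nat_lit 2) (nat_lit 4) (nat_lit 478) (nat_lit 366) (nat_lit 356))))))) (XT.nd (nat_lit 1092) (nat_lit 0) (nat_lit 0) (XT.nd (nat_lit 546) (nat_lit 0) (nat_lit 0) (XT.nd (nat_lit 234) (nat_lit 0) (nat_lit 0) (XT.nd (nat_lit 78) (nat_lit 76) (nat_lit 0) (XT.lf (nat_lit 0) (nat_lit 77962796505) (nat_lit 152) (nat_lit 28223430481) (nat_lit 0) (nat_lit 77736370575) (nat_lit 2) (nat_lit 5) (nat_lit 4) (nat_lit 4) (nat_lit 2) (nat_lit 4) (nat_lit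 479) (nat_lit 366) (nat_lit 355)) (XT.nd (nat_lit 78) (nat_lit 76) (nat_lit 0) (XT.lf (nat_lit 0) (nat_lit 92420417886) (nat_lit 152) (nat_lit 13374396288) (nat_lit 0) (nat_lit 92181396732) (nat_lit 2) (nat_lit 5) (nat_lit 4) (nat_lit 4) (nat_lit 2) (nat_lit 4) (nat_lit 480) (nat_lit 366) (nat_lit 354)) (XT.lf (nat_lit 0) (nat_lit 2199368932) (nat_lit 76) (nat_lit 105611658894) (nat_lit 76) (nat_lit 105360975495) (nat_lit 1) (nat_lit 4) (nat_lit 2) (nat_lit 5) (nat_lit 2) (nat_lit 4) (nat_lit 481) (nat_lit 366) (nat_lit 353)))) (XT.nd (nat_lit 156) (nat_lit 0) (nat_lit 0) (XT.nd (nat_lit 78) (nat_lit 0) (nat_lit 0) (XT.lf (nat_lit 0) (nat_lit 19220947815) (nat_lit 76) (nat_lit 105308148306) (nat_lit 76) (nat_lit 105046666533) (nat_lit 1) (nat_lit 4) (nat_lit 2) (nat_lit 5) (nat_lit 2) (nat_lit 4) (nat_lit 482) (nat_lit 366) (nat_lit 352)) (XT.lf (nat_lit 0) (nat_lit 37086936965) (nat_lit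 76) (nat_lit 105248163527) (nat_lit 76) (nat_lit 104976683259) (nat_lit 1) (nat_lit 4) (nat_lit 2) (nat_lit 5) (nat_lit 2) (nat_lit 4) (nat_lit 483) (nat_lit 366) (nat_lit 351))) (XT.nd (nat_lit 78) (nat_lit 0) (nat_lit 0) (XT.lf (nat_lit 0) (nat_lit 55903208913) (nat_lit 76) (nat_lit 105431349090) (nat_lit 76) (nat_lit 105150610957) (nat_lit 1) (nat_lit 4) (nat_lit 2) (nat_lit 5) (nat_lit 2) (nat_lit 4) (nat_lit 484) (nat_lit 366) (nat_lit 350)) (XT.lf (nat_lit 0) (nat_lit 75781267492) (nat_lit 76) (nat_lit 105858790540) (nat_lit 76) (nat_lit 105569480309) (nat_lit 1) (nat_lit 4) (nat_lit 2) (nat_lit 5) (nat_lit 2) (nat_lit 4) (nat_lit 485) (nat_lit 366) (nat_lit 349))))) (XT.nd (nat_lit 234) (nat_lit 0) (nat_lit 0) (XT.nd (nat_lit 78) (nat_lit 0) (nat_lit 0) (XT.lf (nat_lit 0) (nat_lit 96838908604) (nat_lit 76) (nat_lit 106533020864) (nat_lit 76) (nat_lit 106235773505) (nat_lit 1) (nat_lit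 4) (nat_lit 2) (nat_lit 5) (nat_lit 2) (nat_lit 4) (nat_lit 486) (nat_lit 366) (nat_lit 348)) (XT.nd (nat_lit 78) (nat_lit 0) (nat_lit 0) (XT.lf (nat_lit 0) (nat_lit 119200918270) (nat_lit 76) (nat_lit 107458035499) (nat_lit 76) (nat_lit 107153438949) (nat_lit 1) (nat_lit 4) (nat_lit 2) (nat_lit 5) (nat_lit 2) (nat_lit 4) (nat_lit 487) (nat_lit 366) (nat_lit 347)) (XT.lf (nat_lit 0) (nat_lit 142999812105) (nat_lit 76) (nat_lit 108639316015) (nat_lit 76) (nat_lit 108327914657) (nat_lit 1) (nat_lit 4) (nat_lit 2) (nat_lit 5) (nat_lit 2) (nat_lit 4) (nat_lit 488) (nat_lit 366) (nat_lit 346)))) (XT.nd (nat_lit 156) (nat_lit 0) (nat_lit 0) (XT.nd (nat_lit 78) (nat_lit 0) (nat_lit 0) (XT.lf (nat_lit 0) (nat_lit 168376620589) (nat_lit 76) (nat_lit 110083862592) (nat_lit 76) (nat_lit 109766160487) (nat_lit 1) (nat_lit 4) (nat_lit 2) (nat_lit 5) (nat_lit 2) (nat_lit 4) (nat_lit 489) (nat_lit 366)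 (nat_lit 345)) (XT.lf (nat_lit 0) (nat_lit 195481724810) (nat_lit 76) (nat_lit 111800235507) (nat_lit 76) (nat_lit 111476699376) (nat_lit 1) (nat_lit 4) (nat_lit 2) (nat_lit 5) (nat_lit 2) (nat_lit 4) (nat_lit 490) (nat_lit 366) (nat_lit 344))) (XT.nd (nat_lit 78) (nat_lit 0) (nat_lit 0) (XT.lf (nat_lit 0) (nat_lit 224475747608) (nat_lit 76) (nat_lit 113798605857) (nat_lit 76) (nat_lit 113469667851) (nat_lit 1) (nat_lit 4) (nat_lit 2) (nat_lit 5) (nat_lit 2) (nat_lit 4) (nat_lit 491) (nat_lit 366) (nat_lit 343)) (XT.lf (nat_lit 0) (nat_lit 255530505415) (nat_lit 76) (nat_lit 116090815838) (nat_lit 76) (nat_lit 115756876095) (nat_lit 1) (nat_lit 4) (nat_lit 2) (nat_lit 5) (nat_lit 2) (nat_lit 4) (nat_lit 492) (nat_lit 366) (nat_lit 342)))))) (XT.nd (nat_lit 546) (nat_lit 0) (nat_lit 0) (XT.nd (nat_lit 234) (nat_lit 0) (nat_lit 0) (XT.nd (nat_lit 78) (nat_lit 0) (nat_lit 0) (XT.lf (nat_lit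 0) (nat_lit 288830026424) (nat_lit 76) (nat_lit 118690448917) (nat_lit 76) (nat_lit 118351877936) (nat_lit 1) (nat_lit 4) (nat_lit 2) (nat_lit 5) (nat_lit 2) (nat_lit 4) (nat_lit 493) (nat_lit 366) (nat_lit 341)) (XT.nd (nat_lit 78) (nat_lit 0) (nat_lit 0) (XT.lf (nat_lit 0) (nat_lit 324571641130) (nat_lit 76) (nat_lit 121612910325) (nat_lit 76) (nat_lit 121270051161) (nat_lit 1) (nat_lit 4) (nat_lit 2) (nat_lit 5) (nat_lit 2) (nat_lit 4) (nat_lit 494) (nat_lit 366) (nat_lit 340)) (XT.lf (nat_lit 0) (nat_lit 362967151695) (nat_lit 76) (nat_lit 124875518354) (nat_lit 76) (nat_lit 124528688650) (nat_lit 1) (nat_lit 4) (nat_lit 2) (nat_lit 5) (nat_lit 2) (nat_lit 4) (nat_lit 495) (nat_lit 366) (nat_lit 339)))) (XT.nd (nat_lit 156) (nat_lit 0) (nat_lit 0) (XT.nd (nat_lit 78) (nat_lit 0) (nat_lit 0) (XT.lf (nat_lit 0) (nat_lit 404244087070) (nat_lit 76) (nat_lit 128497606976) (nat_lit 76) (nat_lit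 128147100847) (nat_lit 1) (nat_lit 4) (nat_lit 2) (nat_lit 5) (nat_lit 2) (nat_lit 4) (nat_lit 496) (nat_lit 366) (nat_lit 338)) (XT.lf (nat_lit 0) (nat_lit 448647051317) (nat_lit 76) (nat_lit 132500640421) (nat_lit 76) (nat_lit 132146730193) (nat_lit 1) (nat_lit 4) (nat_lit 2) (nat_lit 5) (nat_lit 2) (nat_lit 4) (nat_lit 497) (nat_lit 366) (nat_lit 337))) (XT.nd (nat_lit 78) (nat_lit 0) (nat_lit 0) (XT.lf (nat_lit 0) (nat_lit 496439173113) (nat_lit 76) (nat_lit 136908340368) (nat_lit 76) (nat_lit 136551278198) (nat_lit 1) (nat_lit 4) (nat_lit 2) (nat_lit 5) (nat_lit 2) (nat_lit 4) (nat_lit 498) (nat_lit 366) (nat_lit 336)) (XT.lf (nat_lit 0) (nat_lit 547903665031) (nat_lit 76) (nat_lit 141746826520) (nat_lit 76) (nat_lit 141386845885) (nat_lit 1) (nat_lit 4) (nat_lit 2) (nat_lit 5) (nat_lit 2) (nat_lit 4) (nat_lit 499) (nat_lit 366) (nat_lit 335))))) (XT.nd (nat_lit 312) (nat_lit 0) (nat_lit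 0) (XT.nd (nat_lit 156) (nat_lit 0) (nat_lit 0) (XT.nd (nat_lit 78) (nat_lit 0) (nat_lit 0) (XT.lf (nat_lit 0) (nat_lit 603345501838) (nat_lit 76) (nat_lit 147044771389) (nat_lit 76) (nat_lit 146682088471) (nat_lit 1) (nat_lit 4) (nat_lit 2) (nat_lit 5) (nat_lit 2) (nat_lit 4) (nat_lit 500) (nat_lit 366) (nat_lit 334)) (XT.lf (nat_lit 0) (nat_lit 663093227753) (nat_lit 76) (nat_lit 152833570202) (nat_lit 76) (nat_lit 152468385171) (nat_lit 1) (nat_lit 4) (nat_lit 2) (nat_lit 5) (nat_lit 2) (nat_lit 4) (nat_lit 501) (nat_lit 366) (nat_lit 333))) (XT.nd (nat_lit 78) (nat_lit 0) (nat_lit 0) (XT.lf (nat_lit 0) (nat_lit 727500903373) (nat_lit 76) (nat_lit 159147526954) (nat_lit 76) (nat_lit 158780025150) (nat_lit 1) (nat_lit 4) (nat_lit 2) (nat_lit 5) (nat_lit 2) (nat_lit 4) (nat_lit 502) (nat_lit 366) (nat_lit 332)) (XT.lf (nat_lit 0) (nat_lit 796950203813) (nat_lit 76) (nat_lit 166024057683)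 (nat_lit 76) (nat_lit 165654410720) (nat_lit 1) (nat_lit 4) (nat_lit 2) (nat_lit 5) (nat_lit 2) (nat_lit 4) (nat_lit 503) (nat_lit 366) (nat_lit 331)))) (XT.nd (nat_lit 156) (nat_lit 0) (nat_lit 0) (XT.nd (nat_lit 78) (nat_lit 0) (nat_lit 0) (XT.lf (nat_lit 0) (nat_lit 871852680483) (nat_lit 76) (nat_lit 173503912202) (nat_lit 76) (nat_lit 173132278981) (nat_lit 1) (nat_lit 4) (nat_lit 2) (nat_lit 5) (nat_lit 2) (nat_lit 4) (nat_lit 504) (nat_lit 366) (nat_lit 330)) (XT.lf (nat_lit 0) (nat_lit 952652199912) (nat_lit 76) (nat_lit 181631415574) (nat_lit 76) (nat_lit 181257943225) (nat_lit 1) (nat_lit 4) (nat_lit 2) (nat_lit 5) (nat_lit 2) (nat_lit 4) (nat_lit 505) (nat_lit 366) (nat_lit 329))) (XT.nd (nat_lit 78) (nat_lit 0) (nat_lit 0) (XT.lf (nat_lit 0) (nat_lit 1039827574067) (nat_lit 76) (nat_lit 190454730783) (nat_lit 76) (nat_lit 190079555537) (nat_lit 1) (nat_lit 4) (nat_lit 2) (nat_lit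 5) (nat_lit 2) (nat_lit 4) (nat_lit 506) (nat_lit 366) (nat_lit 328)) (XT.lf (nat_lit 0) (nat_lit 1133895397757) (nat_lit 76) (nat_lit 200026144140) (nat_lit 76) (nat_lit 199649392138) (nat_lit 1) (nat_lit 4) (nat_lit 2) (nat_lit 5) (nat_lit 2) (nat_lit 4) (nat_lit 507) (nat_lit 366) (nat_lit 327))))))))
noncomputable def xc27 : XT := (XT.nd (nat_lit 2184) (nat_lit 0) (nat_lit 0) (XT.nd (nat_lit 1092) (nat_lit 0) (nat_lit 0) (XT.nd (nat_lit 546) (nat_lit 0) (nat_lit 0) (XT.nd (nat_lit 234) (nat_lit 0) (nat_lit 0) (XT.nd (nat_lit 78) (nat_lit 0) (nat_lit 0) (XT.lf (nat_lit 0) (nat_lit 1235413109937) (nat_lit 76) (nat_lit 210402375133) (nat_lit 76) (nat_lit 210024163172) (nat_lit 1) (nat_lit 4) (nat_lit 2) (nat_lit 5) (nat_lit 2) (nat_lit 4) (nat_lit 508) (nat_lit 366) (nat_lit 326)) (XT.nd (nat_lit 78) (nat_lit 0) (nat_lit 0) (XT.lf (nat_lit 0) (nat_lit 1344982297051) (nat_lit 76) (nat_lit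 221644912537) (nat_lit 76) (nat_lit 221265348762) (nat_lit 1) (nat_lit 4) (nat_lit 2) (nat_lit 5) (nat_lit 2) (nat_lit 4) (nat_lit 509) (nat_lit 366) (nat_lit 325)) (XT.lf (nat_lit 0) (nat_lit 1463252257984) (nat_lit 76) (nat_lit 233820378797) (nat_lit 76) (nat_lit 233439563342) (nat_lit 1) (nat_lit 4) (nat_lit 2) (nat_lit 5) (nat_lit 2) (nat_lit 4) (nat_lit 510) (nat_lit 366) (nat_lit 324)))) (XT.nd (nat_lit 156) (nat_lit 0) (nat_lit 0) (XT.nd (nat_lit 78) (nat_lit 0) (nat_lit 0) (XT.lf (nat_lit 0) (nat_lit 1590923851765) (nat_lit 76) (nat_lit 247000924823) (nat_lit 76) (nat_lit 246618950405) (nat_lit 1) (nat_lit 4) (nat_lit 2) (nat_lit 5) (nat_lit 2) (nat_lit 4) (nat_lit 511) (nat_lit 366) (nat_lit 323)) (XT.lf (nat_lit 0) (nat_lit 1728753650800) (nat_lit 76) (nat_lit 261264657555) (nat_lit 76) (nat_lit 260881610024) (nat_lit 1) (nat_lit 4) (nat_lit 2) (nat_lit 5) (nat_lit 2) (nat_lit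 4) (nat_lit 512) (nat_lit 366) (nat_lit 322))) (XT.nd (nat_lit 78) (nat_lit 0) (nat_lit 0) (XT.lf (nat_lit 0) (nat_lit 1877558424271) (nat_lit 76) (nat_lit 276696102817) (nat_lit 76) (nat_lit 276312061662) (nat_lit 1) (nat_lit 4) (nat_lit 2) (nat_lit 5) (nat_lit 2) (nat_lit 4) (nat_lit 513) (nat_lit 366) (nat_lit 321)) (XT.lf (nat_lit 0) (nat_lit 2038219978241) (nat_lit 76) (nat_lit 293386706210) (nat_lit 76) (nat_lit 293001745033) (nat_lit 1) (nat_lit 4) (nat_lit 2) (nat_lit 5) (nat_lit 2) (nat_lit 4) (nat_lit 514) (nat_lit 366) (nat_lit 320))))) (XT.nd (nat_lit 234) (nat_lit 0) (nat_lit 0) (XT.nd (nat_lit 78) (nat_lit 0) (nat_lit 0) (XT.lf (nat_lit 0) (nat_lit 2211690381178) (nat_lit 76) (nat_lit 311435375014) (nat_lit 76) (nat_lit 311049561965) (nat_lit 1) (nat_lit 4) (nat_lit 2) (nat_lit 5) (nat_lit 2) (nat_lit 4) (nat_lit 515) (nat_lit 366) (nat_lit 319)) (XT.nd (nat_lit 78) (nat_lit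 0) (nat_lit 0) (XT.lf (nat_lit 0) (nat_lit 2398997605841) (nat_lit 76) (nat_lit 330949064302) (nat_lit 76) (nat_lit 330562462483) (nat_lit 1) (nat_lit 4) (nat_lit 2) (nat_lit 5) (nat_lit 2) (nat_lit 4) (nat_lit 516) (nat_lit 366) (nat_lit 318)) (XT.lf (nat_lit 0) (nat_lit 2601251620969) (nat_lit 76) (nat_lit 352043410753) (nat_lit 76) (nat_lit 351656078590) (nat_lit 1) (nat_lit 4) (nat_lit 2) (nat_lit 5) (nat_lit 2) (nat_lit 4) (nat_lit 517) (nat_lit 366) (nat_lit 317)))) (XT.nd (nat_lit 156) (nat_lit 0) (nat_lit 0) (XT.nd (nat_lit 78) (nat_lit 0) (nat_lit 0) (XT.lf (nat_lit 0) (nat_lit 2819650968873) (nat_lit 76) (nat_lit 374843417900) (nat_lit 76) (nat_lit 374455409494) (nat_lit 1) (nat_lit 4) (nat_lit 2) (nat_lit 5) (nat_lit 2) (nat_lit 4) (nat_lit 518) (nat_lit 366) (nat_lit 316)) (XT.lf (nat_lit 0) (nat_lit 3055489867911) (nat_lit 76) (nat_lit 399484196898) (nat_lit 76) (nat_lit 399095562340)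 (nat_lit 1) (nat_lit 4) (nat_lit 2) (nat_lit 5) (nat_lit 2) (nat_lit 4) (nat_lit 519) (nat_lit 366) (nat_lit 315))) (XT.nd (nat_lit 78) (nat_lit 0) (nat_lit 0) (XT.lf (nat_lit 0) (nat_lit 3310165881929) (nat_lit 76) (nat_lit 426111767177) (nat_lit 76) (nat_lit 425722552849) (nat_lit 1) (nat_lit 4) (nat_lit 2) (nat_lit 5) (nat_lit 2) (nat_lit 4) (nat_lit 520) (nat_lit 366) (nat_lit 314)) (XT.lf (nat_lit 0) (nat_lit 3585188202122) (nat_lit 76) (nat_lit 454883921746) (nat_lit 76) (nat_lit 454494170594) (nat_lit 1) (nat_lit 4) (nat_lit 2) (nat_lit 5) (nat_lit 2) (nat_lit 4) (nat_lit 521) (nat_lit 366) (nat_lit 313)))))) (XT.nd (nat_lit 546) (nat_lit 0) (nat_lit 0) (XT.nd (nat_lit 234) (nat_lit 0) (nat_lit 0) (XT.nd (nat_lit 78) (nat_lit 0) (nat_lit 0) (XT.lf (nat_lit 0) (nat_lit 3882186590387) (nat_lit 76) (nat_lit 485971162262) (nat_lit 76) (nat_lit 485580914051) (nat_lit 1) (nat_lit 4) (nat_lit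 2) (nat_lit 5) (nat_lit 2) (nat_lit 4) (nat_lit 522) (nat_lit 366) (nat_lit 312)) (XT.nd (nat_lit 78) (nat_lit 0) (nat_lit 0) (XT.lf (nat_lit 0) (nat_lit 4202921037173) (nat_lit 76) (nat_lit 519557709410) (nat_lit 76) (nat_lit 519167000959) (nat_lit 1) (nat_lit 4) (nat_lit 2) (nat_lit 5) (nat_lit 2) (nat_lit 4) (nat_lit 523) (nat_lit 366) (nat_lit 311)) (XT.lf (nat_lit 0) (nat_lit 4549292191053) (nat_lit 76) (nat_lit 555842594580) (nat_lit 76) (nat_lit 555451459981) (nat_lit 1) (nat_lit 4) (nat_lit 2) (nat_lit 5) (nat_lit 2) (nat_lit 4) (nat_lit 524) (nat_lit 366) (nat_lit 310)))) (XT.nd (nat_lit 156) (nat_lit 0) (nat_lit 0) (XT.nd (nat_lit 78) (nat_lit 0) (nat_lit 0) (XT.lf (nat_lit 0) (nat_lit 4923352621829) (nat_lit 76) (nat_lit 595040839314) (nat_lit 76) (nat_lit 594649310133) (nat_lit 1) (nat_lit 4) (nat_lit 2) (nat_lit 5) (nat_lit 2) (nat_lit 4) (nat_lit 525) (nat_lit 366) (nat_lit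 309)) (XT.lf (nat_lit 0) (nat_lit 5327318983905) (nat_lit 76) (nat_lit 637384729506) (nat_lit 76) (nat_lit 636992834972) (nat_lit 1) (nat_lit 4) (nat_lit 2) (nat_lit 5) (nat_lit 2) (nat_lit 4) (nat_lit 526) (nat_lit 366) (nat_lit 308))) (XT.nd (nat_lit 78) (nat_lit 0) (nat_lit 0) (XT.lf (nat_lit 0) (nat_lit 5763585152019) (nat_lit 76) (nat_lit 683125191913) (nat_lit 76) (nat_lit 682732959089) (nat_lit 1) (nat_lit 4) (nat_lit 2) (nat_lit 5) (nat_lit 2) (nat_lit 4) (nat_lit 527) (nat_lit 366) (nat_lit 307)) (XT.lf (nat_lit 0) (nat_lit 6234736407167) (nat_lit 76) (nat_lit 732533281128) (nat_lit 76) (nat_lit 732140735072) (nat_lit 1) (nat_lit 4) (nat_lit 2) (nat_lit 5) (nat_lit 2) (nat_lit 4) (nat_lit 528) (nat_lit 366) (nat_lit 306))))) (XT.nd (nat_lit 234) (nat_lit 0) (nat_lit 0) (XT.nd (nat_lit 78) (nat_lit 0) (nat_lit 0) (XT.lf (nat_lit 0) (nat_lit 6743564756787) (nat_lit 76) (nat_lit 785901785827)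 (nat_lit 76) (nat_lit 785508949742) (nat_lit 1) (nat_lit 4) (nat_lit 2) (nat_lit 5) (nat_lit 2) (nat_lit 4) (nat_lit 529) (nat_lit 366) (nat_lit 305)) (XT.nd (nat_lit 78) (nat_lit 0) (nat_lit 0) (XT.lf (nat_lit 0) (nat_lit 7293085479989) (nat_lit 76) (nat_lit 843546963816) (nat_lit 76) (nat_lit 843153859185) (nat_lit 1) (nat_lit 4) (nat_lit 2) (nat_lit 5) (nat_lit 2) (nat_lit 4) (nat_lit 530) (nat_lit 366) (nat_lit 304)) (XT.lf (nat_lit 0) (nat_lit 7886554995872) (nat_lit 76) (nat_lit 905810416149) (nat_lit 76) (nat_lit 905417062865) (nat_lit 1) (nat_lit 4) (nat_lit 2) (nat_lit 5) (nat_lit 2) (nat_lit 4) (nat_lit 531) (nat_lit 366) (nat_lit 303)))) (XT.nd (nat_lit 156) (nat_lit 0) (nat_lit 0) (XT.nd (nat_lit 78) (nat_lit 0) (nat_lit 0) (XT.lf (nat_lit 0) (nat_lit 8527490160827) (nat_lit 76) (nat_lit 973061111433) (nat_lit 76) (nat_lit 972667527914) (nat_lit 1) (nat_lit 4) (nat_lit 2) (nat_lit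 5) (nat_lit 2) (nat_lit 4) (nat_lit 532) (nat_lit 366) (nat_lit 302)) (XT.lf (nat_lit 0) (nat_lit 9219689109165) (nat_lit 76) (nat_lit 1045697572307) (nat_lit 76) (nat_lit 1045303775608) (nat_lit 1) (nat_lit 4) (nat_lit 2) (nat_lit 5) (nat_lit 2) (nat_lit 4) (nat_lit 533) (nat_lit 366) (nat_lit 301))) (XT.nd (nat_lit 78) (nat_lit 0) (nat_lit 0) (XT.lf (nat_lit 0) (nat_lit 9967253760580) (nat_lit 76) (nat_lit 1124150237057) (nat_lit 76) (nat_lit 1123756242969) (nat_lit 1) (nat_lit 4) (nat_lit 2) (nat_lit 5) (nat_lit 2) (nat_lit 4) (nat_lit 534) (nat_lit 366) (nat_lit 300)) (XT.lf (nat_lit 0) (nat_lit 10774614127820) (nat_lit 76) (nat_lit 1208884010363) (nat_lit 76) (nat_lit 1208489833507) (nat_lit 1) (nat_lit 4) (nat_lit 2) (nat_lit 5) (nat_lit 2) (nat_lit 4) (nat_lit 535) (nat_lit 366) (nat_lit 299))))))) (XT.nd (nat_lit 57408) (nat_lit 0) (nat_lit 0) (XT.nd (nat_lit 546) (nat_lit 0) (nat_lit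 0) (XT.nd (nat_lit 234) (nat_lit 0) (nat_lit 0) (XT.nd (nat_lit 78) (nat_lit 0) (nat_lit 0) (XT.lf (nat_lit 0) (nat_lit 11646554568618) (nat_lit 76) (nat_lit 1300401018290) (nat_lit 76) (nat_lit 1300006672204) (nat_lit 1) (nat_lit 4) (nat_lit 2) (nat_lit 5) (nat_lit 2) (nat_lit 4) (nat_lit 536) (nat_lit 366) (nat_lit 298)) (XT.nd (nat_lit 78) (nat_lit 0) (nat_lit 0) (XT.lf (nat_lit 0) (nat_lit 12588242137438) (nat_lit 76) (nat_lit 1399243583847) (nat_lit 76) (nat_lit 1398849081067) (nat_lit 1) (nat_lit 4) (nat_lit 2) (nat_lit 5) (nat_lit 2) (nat_lit 4) (nat_lit 537) (nat_lit 366) (nat_lit 297)) (XT.lf (nat_lit 0) (nat_lit 13605257205058) (nat_lit 76) (nat_lit 1505997440755) (nat_lit 76) (nat_lit 1505602792890) (nat_lit 1) (nat_lit 4) (nat_lit 2) (nat_lit 5) (nat_lit 2) (nat_lit 4) (nat_lit 538) (nat_lit 366) (nat_lit 296)))) (XT.nd (nat_lit 156) (nat_lit 0) (nat_lit 0) (XT.nd (nat_lit 78)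 (nat_lit 0) (nat_lit 0) (XT.lf (nat_lit 0) (nat_lit 14703626527433) (nat_lit 76) (nat_lit 1621295204465) (nat_lit 76) (nat_lit 1620900422259) (nat_lit 1) (nat_lit 4) (nat_lit 2) (nat_lit 5) (nat_lit 2) (nat_lit 4) (nat_lit 539) (nat_lit 366) (nat_lit 295)) (XT.lf (nat_lit 0) (nat_lit 15889858959809) (nat_lit 76) (nat_lit 1745820120982) (nat_lit 76) (nat_lit 1745425214388) (nat_lit 1) (nat_lit 4) (nat_lit 2) (nat_lit 5) (nat_lit 2) (nat_lit 4) (nat_lit 540) (nat_lit 366) (nat_lit 294))) (XT.nd (nat_lit 78) (nat_lit 0) (nat_lit 0) (XT.lf (nat_lit 0) (nat_lit 17170984027709) (nat_lit 76) (nat_lit 1880310115738) (nat_lit 76) (nat_lit 1879915093969) (nat_lit 1) (nat_lit 4) (nat_lit 2) (nat_lit 5) (nat_lit 2) (nat_lit 4) (nat_lit 541) (nat_lit 366) (nat_lit 293)) (XT.lf (nat_lit 0) (nat_lit 18554593583389) (nat_lit 76) (nat_lit 2025562166479) (nat_lit 76) (nat_lit 2025167038067) (nat_lit 1) (nat_lit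 4) (nat_lit 2) (nat_lit 5) (nat_lit 2) (nat_lit 4) (nat_lit 542) (nat_lit 366) (nat_lit 292))))) (XT.nd (nat_lit 56550) (nat_lit 0) (nat_lit 228) (XT.nd (nat_lit 78) (nat_lit 0) (nat_lit 0) (XT.lf (nat_lit 0) (nat_lit 20048886794585) (nat_lit 76) (nat_lit 2182437026099) (nat_lit 76) (nat_lit 2182041798943) (nat_lit 1) (nat_lit 4) (nat_lit 2) (nat_lit 5) (nat_lit 2) (nat_lit 4) (nat_lit 543) (nat_lit 366) (nat_lit 291)) (XT.nd (nat_lit 56394) (nat_lit 0) (nat_lit 304) (XT.lf (nat_lit 0) (nat_lit 21662718732178) (nat_lit 76) (nat_lit 2351864323395) (nat_lit 76) (nat_lit 2351469004810) (nat_lit 1) (nat_lit 4) (nat_lit 2) (nat_lit 5) (nat_lit 2) (nat_lit 4) (nat_lit 544) (nat_lit 366) (nat_lit 290)) (XT.lf (nat_lit 0) (nat_lit 6956460454) (nat_lit 152) (nat_lit 23300319084) (nat_lit 0) (nat_lit 6956460454) (nat_lit 5) (nat_lit 5) (nat_lit 7) (nat_lit 4) (nat_lit 5) (nat_lit 4) (nat_lit 466)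 (nat_lit 367) (nat_lit 367)))) (XT.nd (nat_lit 156) (nat_lit 76) (nat_lit 0) (XT.nd (nat_lit 78) (nat_lit 0) (nat_lit 0) (XT.lf (nat_lit 0) (nat_lit 27239965889) (nat_lit 152) (nat_lit 24954823031) (nat_lit 0) (nat_lit 27205711619) (nat_lit 5) (nat_lit 5) (nat_lit 7) (nat_lit 4) (nat_lit 5) (nat_lit 4) (nat_lit 467) (nat_lit 367) (nat_lit 366)) (XT.lf (nat_lit 0) (nat_lit 41035844596) (nat_lit 152) (nat_lit 2814511967) (nat_lit 0) (nat_lit 40969873411) (nat_lit 5) (nat_lit 5) (nat_lit 7) (nat_lit 4) (nat_lit 5) (nat_lit 4) (nat_lit 468) (nat_lit 367) (nat_lit 365))) (XT.nd (nat_lit 78) (nat_lit 0) (nat_lit 0) (XT.lf (nat_lit 0) (nat_lit 21002107333) (nat_lit 76) (nat_lit 34885304239) (nat_lit 76) (nat_lit 34789965539) (nat_lit 4) (nat_lit 4) (nat_lit 5) (nat_lit 5) (nat_lit 5) (nat_lit 4) (nat_lit 469) (nat_lit 367) (nat_lit 364)) (XT.lf (nat_lit 0) (nat_lit 45767593538) (nat_lit 76) (nat_lit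 25697497538) (nat_lit 76) (nat_lit 25574966694) (nat_lit 4) (nat_lit 4) (nat_lit 5) (nat_lit 5) (nat_lit 5) (nat_lit 4) (nat_lit 470) (nat_lit 367) (nat_lit 363)))))) (XT.nd (nat_lit 546) (nat_lit 76) (nat_lit 0) (XT.nd (nat_lit 234) (nat_lit 0) (nat_lit 0) (XT.nd (nat_lit 78) (nat_lit 152) (nat_lit 0) (XT.lf (nat_lit 0) (nat_lit 71480497873) (nat_lit 76) (nat_lit 16309443944) (nat_lit 76) (nat_lit 16161735189) (nat_lit 4) (nat_lit 4) (nat_lit 5) (nat_lit 5) (nat_lit 5) (nat_lit 4) (nat_lit 471) (nat_lit 367) (nat_lit 362)) (XT.nd (nat_lit 78) (nat_lit 152) (nat_lit 0) (XT.lf (nat_lit 0) (nat_lit 98293193104) (nat_lit 76) (nat_lit 6665510546) (nat_lit 76) (nat_lit 6494488911) (nat_lit 4) (nat_lit 4) (nat_lit 5) (nat_lit 5) (nat_lit 5) (nat_lit 4) (nat_lit 472) (nat_lit 367) (nat_lit 361)) (XT.lf (nat_lit 0) (nat_lit 3564919564) (nat_lit 152) (nat_lit 112610444052) (nat_lit 0) (nat_lit 3386579161)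 (nat_lit 2) (nat_lit 5) (nat_lit 4) (nat_lit 4) (nat_lit 2) (nat_lit 4) (nat_lit 473) (nat_lit 367) (nat_lit 360)))) (XT.nd (nat_lit 156) (nat_lit 0) (nat_lit 0) (XT.nd (nat_lit 78) (nat_lit 0) (nat_lit 0) (XT.lf (nat_lit 0) (nat_lit 14181707212) (nat_lit 152) (nat_lit 100131051152) (nat_lit 0) (nat_lit 13984860293) (nat_lit 2) (nat_lit 5) (nat_lit 4) (nat_lit 4) (nat_lit 2) (nat_lit 4) (nat_lit 474) (nat_lit 367) (nat_lit 359)) (XT.lf (nat_lit 0) (nat_lit 25241545111) (nat_lit 152) (nat_lit 87495544844) (nat_lit 0) (nat_lit 25027562529) (nat_lit 2) (nat_lit 5) (nat_lit 4) (nat_lit 4) (nat_lit 2) (nat_lit 4) (nat_lit 475) (nat_lit 367) (nat_lit 358))) (XT.nd (nat_lit 78) (nat_lit 0) (nat_lit 0) (XT.lf (nat_lit 0) (nat_lit 36809973041) (nat_lit 152) (nat_lit 74629048056) (nat_lit 0) (nat_lit 36580124105) (nat_lit 2) (nat_lit 5) (nat_lit 4) (nat_lit 4) (nat_lit 2) (nat_lit 4) (nat_lit 476)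 (nat_lit 367) (nat_lit 357)) (XT.lf (nat_lit 0) (nat_lit 48955544650) (nat_lit 152) (nat_lit 61455314879) (nat_lit 0) (nat_lit 48711004645) (nat_lit 2) (nat_lit 5) (nat_lit 4) (nat_lit 4) (nat_lit 2) (nat_lit 4) (nat_lit 477) (nat_lit 367) (nat_lit 356))))) (XT.nd (nat_lit 312) (nat_lit 76) (nat_lit 0) (XT.nd (nat_lit 156) (nat_lit 0) (nat_lit 0) (XT.nd (nat_lit 78) (nat_lit 0) (nat_lit 0) (XT.lf (nat_lit 0) (nat_lit 61750233695) (nat_lit 152) (nat_lit 47896278748) (nat_lit 0) (nat_lit 61492090849) (nat_lit 2) (nat_lit 5) (nat_lit 4) (nat_lit 4) (nat_lit 2) (nat_lit 4) (nat_lit 478) (nat_lit 367) (nat_lit 355)) (XT.lf (nat_lit 0) (nat_lit 75269860556) (nat_lit 152) (nat_lit 33871589818) (nat_lit 0) (nat_lit 74999122486) (nat_lit 2) (nat_lit 5) (nat_lit 4) (nat_lit 4) (nat_lit 2) (nat_lit 4) (nat_lit 479) (nat_lit 367) (nat_lit 354))) (XT.nd (nat_lit 78) (nat_lit 0) (nat_lit 0) (XT.lf (nat_lit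 0) (nat_lit 89594541540) (nat_lit 152) (nat_lit 19298138821) (nat_lit 0) (nat_lit 89312141225) (nat_lit 2) (nat_lit 5) (nat_lit 4) (nat_lit 4) (nat_lit 2) (nat_lit 4) (nat_lit 480) (nat_lit 367) (nat_lit 353)) (XT.lf (nat_lit 0) (nat_lit 104809163644) (nat_lit 152) (nat_lit 4089564567) (nat_lit 0) (nat_lit 104515964955) (nat_lit 2) (nat_lit 5) (nat_lit 4) (nat_lit 4) (nat_lit 2) (nat_lit 4) (nat_lit 481) (nat_lit 367) (nat_lit 352)))) (XT.nd (nat_lit 156) (nat_lit 0) (nat_lit 0) (XT.nd (nat_lit 78) (nat_lit 0) (nat_lit 0) (XT.lf (nat_lit 0) (nat_lit 12467955456) (nat_lit 76) (nat_lit 108835786766) (nat_lit 76) (nat_lit 108532589582) (nat_lit 1) (nat_lit 4) (nat_lit 2) (nat_lit 5) (nat_lit 2) (nat_lit 4) (nat_lit 482) (nat_lit 367) (nat_lit 351)) (XT.lf (nat_lit 0) (nat_lit 30103657907) (nat_lit 76) (nat_lit 108895017912) (nat_lit 76) (nat_lit 108582562863) (nat_lit 1) (nat_lit 4) (nat_lit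 2) (nat_lit 5) (nat_lit 2) (nat_lit 4) (nat_lit 483) (nat_lit 367) (nat_lit 350))) (XT.nd (nat_lit 78) (nat_lit 0) (nat_lit 0) (XT.lf (nat_lit 0) (nat_lit 48706701430) (nat_lit 76) (nat_lit 109188588592) (nat_lit 76) (nat_lit 108867561445) (nat_lit 1) (nat_lit 4) (nat_lit 2) (nat_lit 5) (nat_lit 2) (nat_lit 4) (nat_lit 484) (nat_lit 367) (nat_lit 349)) (XT.lf (nat_lit 0) (nat_lit 68387326281) (nat_lit 76) (nat_lit 109718238483) (nat_lit 76) (nat_lit 109389274209) (nat_lit 1) (nat_lit 4) (nat_lit 2) (nat_lit 5) (nat_lit 2) (nat_lit 4) (nat_lit 485) (nat_lit 367) (nat_lit 348))))))))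
noncomputable def xc28 : XT := (XT.nd (nat_lit 2184) (nat_lit 0) (nat_lit 0) (XT.nd (nat_lit 1092) (nat_lit 0) (nat_lit 0) (XT.nd (nat_lit 546) (nat_lit 0) (nat_lit 0) (XT.nd (nat_lit 234) (nat_lit 0) (nat_lit 0) (XT.nd (nat_lit 78) (nat_lit 0) (nat_lit 0) (XT.lf (nat_lit 0) (nat_lit 89262158386) (nat_lit 76) (nat_lit 110487106252) (nat_lit 76) (nat_lit 110150792785) (nat_lit 1) (nat_lit 4) (nat_lit 2) (nat_lit 5) (nat_lit 2) (nat_lit 4) (nat_lit 486) (nat_lit 367) (nat_lit 347)) (XT.nd (nat_lit 78) (nat_lit 0) (nat_lit 0) (XT.lf (nat_lit 0) (nat_lit 111454900454) (nat_lit 76) (nat_lit 111499748151) (nat_lit 76) (nat_lit 111156629877) (nat_lit 1) (nat_lit 4) (nat_lit 2) (nat_lit 5) (nat_lit 2) (nat_lit 4) (nat_lit 487) (nat_lit 367) (nat_lit 346)) (XT.lf (nat_lit 0) (nat_lit 135097065030) (nat_lit 76) (nat_lit 112762165023) (nat_lit 76) (nat_lit 112412746001) (nat_lit 1) (nat_lit 4) (nat_lit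 2) (nat_lit 5) (nat_lit 2) (nat_lit 4) (nat_lit 488) (nat_lit 367) (nat_lit 345)))) (XT.nd (nat_lit 156) (nat_lit 0) (nat_lit 0) (XT.nd (nat_lit 78) (nat_lit 0) (nat_lit 0) (XT.lf (nat_lit 0) (nat_lit 160328753831) (nat_lit 76) (nat_lit 114281837856) (nat_lit 76) (nat_lit 113926584808) (nat_lit 1) (nat_lit 4) (nat_lit 2) (nat_lit 5) (nat_lit 2) (nat_lit 4) (nat_lit 489) (nat_lit 367) (nat_lit 344)) (XT.lf (nat_lit 0) (nat_lit 187299487975) (nat_lit 76) (nat_lit 116067772118) (nat_lit 76) (nat_lit 115707117195) (nat_lit 1) (nat_lit 4) (nat_lit 2) (nat_lit 5) (nat_lit 2) (nat_lit 4) (nat_lit 490) (nat_lit 367) (nat_lit 343))) (XT.nd (nat_lit 78) (nat_lit 0) (nat_lit 0) (XT.lf (nat_lit 0) (nat_lit 216169094035) (nat_lit 76) (nat_lit 118130551123) (nat_lit 76) (nat_lit 117764894464) (nat_lit 1) (nat_lit 4) (nat_lit 2) (nat_lit 5) (nat_lit 2) (nat_lit 4) (nat_lit 491) (nat_lit 367) (nat_lit 342))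 (XT.lf (nat_lit 0) (nat_lit 247108651157) (nat_lit 76) (nat_lit 120482398748) (nat_lit 76) (nat_lit 120112110851) (nat_lit 1) (nat_lit 4) (nat_lit 2) (nat_lit 5) (nat_lit 2) (nat_lit 4) (nat_lit 492) (nat_lit 367) (nat_lit 341))))) (XT.nd (nat_lit 234) (nat_lit 0) (nat_lit 0) (XT.nd (nat_lit 78) (nat_lit 0) (nat_lit 0) (XT.lf (nat_lit 0) (nat_lit 280301504867) (nat_lit 76) (nat_lit 123137251867) (nat_lit 76) (nat_lit 122762675786) (nat_lit 1) (nat_lit 4) (nat_lit 2) (nat_lit 5) (nat_lit 2) (nat_lit 4) (nat_lit 493) (nat_lit 367) (nat_lit 340)) (XT.nd (nat_lit 78) (nat_lit 0) (nat_lit 0) (XT.lf (nat_lit 0) (nat_lit 315944353555) (nat_lit 76) (nat_lit 126110842942) (nat_lit 76) (nat_lit 125732296322) (nat_lit 1) (nat_lit 4) (nat_lit 2) (nat_lit 5) (nat_lit 2) (nat_lit 4) (nat_lit 494) (nat_lit 367) (nat_lit 339)) (XT.lf (nat_lit 0) (nat_lit 354248414103) (nat_lit 76) (nat_lit 129420793255)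 (nat_lit 76) (nat_lit 129038570209) (nat_lit 1) (nat_lit 4) (nat_lit 2) (nat_lit 5) (nat_lit 2) (nat_lit 4) (nat_lit 495) (nat_lit 367) (nat_lit 338)))) (XT.nd (nat_lit 156) (nat_lit 0) (nat_lit 0) (XT.nd (nat_lit 78) (nat_lit 0) (nat_lit 0) (XT.lf (nat_lit 0) (nat_lit 395440673537) (nat_lit 76) (nat_lit 133086717326) (nat_lit 76) (nat_lit 132701090182) (nat_lit 1) (nat_lit 4) (nat_lit 2) (nat_lit 5) (nat_lit 2) (nat_lit 4) (nat_lit 496) (nat_lit 367) (nat_lit 337)) (XT.lf (nat_lit 0) (nat_lit 439765234134) (nat_lit 76) (nat_lit 137130339149) (nat_lit 76) (nat_lit 136741560062) (nat_lit 1) (nat_lit 4) (nat_lit 2) (nat_lit 5) (nat_lit 2) (nat_lit 4) (nat_lit 497) (nat_lit 367) (nat_lit 336))) (XT.nd (nat_lit 78) (nat_lit 0) (nat_lit 0) (XT.lf (nat_lit 0) (nat_lit 487484759958) (nat_lit 76) (nat_lit 141575620927) (nat_lit 76) (nat_lit 141183923376) (nat_lit 1) (nat_lit 4) (nat_lit 2) (nat_lit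 5) (nat_lit 2) (nat_lit 4) (nat_lit 498) (nat_lit 367) (nat_lit 335)) (XT.lf (nat_lit 0) (nat_lit 538882033384) (nat_lit 76) (nat_lit 146448905072) (nat_lit 76) (nat_lit 146054505238) (nat_lit 1) (nat_lit 4) (nat_lit 2) (nat_lit 5) (nat_lit 2) (nat_lit 4) (nat_lit 499) (nat_lit 367) (nat_lit 334)))))) (XT.nd (nat_lit 546) (nat_lit 0) (nat_lit 0) (XT.nd (nat_lit 234) (nat_lit 0) (nat_lit 0) (XT.nd (nat_lit 78) (nat_lit 0) (nat_lit 0) (XT.lf (nat_lit 0) (nat_lit 594261630846) (nat_lit 76) (nat_lit 151779070304) (nat_lit 76) (nat_lit 151382168356) (nat_lit 1) (nat_lit 4) (nat_lit 2) (nat_lit 5) (nat_lit 2) (nat_lit 4) (nat_lit 500) (nat_lit 367) (nat_lit 333)) (XT.nd (nat_lit 78) (nat_lit 0) (nat_lit 0) (XT.lf (nat_lit 0) (nat_lit 653951727738) (nat_lit 76) (nat_lit 157597702787) (nat_lit 76) (nat_lit 157198484067) (nat_lit 1) (nat_lit 4) (nat_lit 2) (nat_lit 5) (nat_lit 2) (nat_lit 4) (nat_lit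 501) (nat_lit 367) (nat_lit 332)) (XT.lf (nat_lit 0) (nat_lit 718306043151) (nat_lit 76) (nat_lit 163939283306) (nat_lit 76) (nat_lit 163537919427) (nat_lit 1) (nat_lit 4) (nat_lit 2) (nat_lit 5) (nat_lit 2) (nat_lit 4) (nat_lit 502) (nat_lit 367) (nat_lit 331)))) (XT.nd (nat_lit 156) (nat_lit 0) (nat_lit 0) (XT.nd (nat_lit 78) (nat_lit 0) (nat_lit 0) (XT.lf (nat_lit 0) (nat_lit 787705935993) (nat_lit 76) (nat_lit 170841391598) (nat_lit 76) (nat_lit 170438041461) (nat_lit 1) (nat_lit 4) (nat_lit 2) (nat_lit 5) (nat_lit 2) (nat_lit 4) (nat_lit 503) (nat_lit 367) (nat_lit 330)) (XT.lf (nat_lit 0) (nat_lit 862562664887) (nat_lit 76) (nat_lit 178344929046) (nat_lit 76) (nat_lit 177939739781) (nat_lit 1) (nat_lit 4) (nat_lit 2) (nat_lit 5) (nat_lit 2) (nat_lit 4) (nat_lit 504) (nat_lit 367) (nat_lit 329))) (XT.nd (nat_lit 78) (nat_lit 0) (nat_lit 0) (XT.lf (nat_lit 0) (nat_lit 943319825263) (nat_lit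 76) (nat_lit 186494361056) (nat_lit 76) (nat_lit 186087468894) (nat_lit 1) (nat_lit 4) (nat_lit 2) (nat_lit 5) (nat_lit 2) (nat_lit 4) (nat_lit 505) (nat_lit 367) (nat_lit 328)) (XT.lf (nat_lit 0) (nat_lit 1030455978073) (nat_lit 76) (nat_lit 195337980559) (nat_lit 76) (nat_lit 194929511641) (nat_lit 1) (nat_lit 4) (nat_lit 2) (nat_lit 5) (nat_lit 2) (nat_lit 4) (nat_lit 506) (nat_lit 367) (nat_lit 327))))) (XT.nd (nat_lit 234) (nat_lit 0) (nat_lit 0) (XT.nd (nat_lit 78) (nat_lit 0) (nat_lit 0) (XT.lf (nat_lit 0) (nat_lit 1124487485703) (nat_lit 76) (nat_lit 204928194189) (nat_lit 76) (nat_lit 204518265312) (nat_lit 1) (nat_lit 4) (nat_lit 2) (nat_lit 5) (nat_lit 2) (nat_lit 4) (nat_lit 507) (nat_lit 367) (nat_lit 326)) (XT.nd (nat_lit 78) (nat_lit 0) (nat_lit 0) (XT.lf (nat_lit 0) (nat_lit 1225971571902) (nat_lit 76) (nat_lit 215321832841) (nat_lit 76) (nat_lit 214910552150) (nat_lit 1)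 (nat_lit 4) (nat_lit 2) (nat_lit 5) (nat_lit 2) (nat_lit 4) (nat_lit 508) (nat_lit 367) (nat_lit 325)) (XT.lf (nat_lit 0) (nat_lit 1335509623848) (nat_lit 76) (nat_lit 226580488449) (nat_lit 76) (nat_lit 226167956078) (nat_lit 1) (nat_lit 4) (nat_lit 2) (nat_lit 5) (nat_lit 2) (nat_lit 4) (nat_lit 509) (nat_lit 367) (nat_lit 324)))) (XT.nd (nat_lit 156) (nat_lit 0) (nat_lit 0) (XT.nd (nat_lit 78) (nat_lit 0) (nat_lit 0) (XT.lf (nat_lit 0) (nat_lit 1453750755922) (nat_lit 76) (nat_lit 238770878971) (nat_lit 76) (nat_lit 238357187637) (nat_lit 1) (nat_lit 4) (nat_lit 2) (nat_lit 5) (nat_lit 2) (nat_lit 4) (nat_lit 510) (nat_lit 367) (nat_lit 323)) (XT.lf (nat_lit 0) (nat_lit 1581395656314) (nat_lit 76) (nat_lit 251965243759) (nat_lit 76) (nat_lit 251550479312) (nat_lit 1) (nat_lit 4) (nat_lit 2) (nat_lit 5) (nat_lit 2) (nat_lit 4) (nat_lit 511) (nat_lit 367) (nat_lit 322))) (XT.nd (nat_lit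 78) (nat_lit 0) (nat_lit 0) (XT.lf (nat_lit 0) (nat_lit 1719200739250) (nat_lit 76) (nat_lit 266241771641) (nat_lit 76) (nat_lit 265826013570) (nat_lit 1) (nat_lit 4) (nat_lit 2) (nat_lit 5) (nat_lit 2) (nat_lit 4) (nat_lit 512) (nat_lit 367) (nat_lit 321)) (XT.lf (nat_lit 0) (nat_lit 1867982627443) (nat_lit 76) (nat_lit 281685064263) (nat_lit 76) (nat_lit 281268386170) (nat_lit 1) (nat_lit 4) (nat_lit 2) (nat_lit 5) (nat_lit 2) (nat_lit 4) (nat_lit 513) (nat_lit 367) (nat_lit 320))))))) (XT.nd (nat_lit 1092) (nat_lit 0) (nat_lit 0) (XT.nd (nat_lit 546) (nat_lit 0) (nat_lit 0) (XT.nd (nat_lit 234) (nat_lit 0) (nat_lit 0) (XT.nd (nat_lit 78) (nat_lit 0) (nat_lit 0) (XT.lf (nat_lit 0) (nat_lit 2028622991340) (nat_lit 76) (nat_lit 298386637435) (nat_lit 76) (nat_lit 297969107470) (nat_lit 1) (nat_lit 4) (nat_lit 2) (nat_lit 5) (nat_lit 2) (nat_lit 4) (nat_lit 514) (nat_lit 367) (nat_lit 319))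 (XT.nd (nat_lit 78) (nat_lit 0) (nat_lit 0) (XT.lf (nat_lit 0) (nat_lit 2202073773841) (nat_lit 76) (nat_lit 316445463441) (nat_lit 76) (nat_lit 316027144705) (nat_lit 1) (nat_lit 4) (nat_lit 2) (nat_lit 5) (nat_lit 2) (nat_lit 4) (nat_lit 515) (nat_lit 367) (nat_lit 318)) (XT.lf (nat_lit 0) (nat_lit 2389362831432) (nat_lit 76) (nat_lit 335968557546) (nat_lit 76) (nat_lit 335549508467) (nat_lit 1) (nat_lit 4) (nat_lit 2) (nat_lit 5) (nat_lit 2) (nat_lit 4) (nat_lit 516) (nat_lit 367) (nat_lit 317)))) (XT.nd (nat_lit 156) (nat_lit 0) (nat_lit 0) (XT.nd (nat_lit 78) (nat_lit 0) (nat_lit 0) (XT.lf (nat_lit 0) (nat_lit 2591600025197) (nat_lit 76) (nat_lit 357071612161) (nat_lit 76) (nat_lit 356651886838) (nat_lit 1) (nat_lit 4) (nat_lit 2) (nat_lit 5) (nat_lit 2) (nat_lit 4) (nat_lit 517) (nat_lit 367) (nat_lit 316)) (XT.lf (nat_lit 0) (nat_lit 2809983797766) (nat_lit 76) (nat_lit 379879682423)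 (nat_lit 76) (nat_lit 379459330949) (nat_lit 1) (nat_lit 4) (nat_lit 2) (nat_lit 5) (nat_lit 2) (nat_lit 4) (nat_lit 518) (nat_lit 367) (nat_lit 315))) (XT.nd (nat_lit 78) (nat_lit 0) (nat_lit 0) (XT.lf (nat_lit 0) (nat_lit 3045808275197) (nat_lit 76) (nat_lit 404527927267) (nat_lit 76) (nat_lit 404106996023) (nat_lit 1) (nat_lit 4) (nat_lit 2) (nat_lit 5) (nat_lit 2) (nat_lit 4) (nat_lit 519) (nat_lit 367) (nat_lit 314)) (XT.lf (nat_lit 0) (nat_lit 3300470935875) (nat_lit 76) (nat_lit 431162410367) (nat_lit 76) (nat_lit 430740942299) (nat_lit 1) (nat_lit 4) (nat_lit 2) (nat_lit 5) (nat_lit 2) (nat_lit 4) (nat_lit 520) (nat_lit 367) (nat_lit 313))))) (XT.nd (nat_lit 234) (nat_lit 0) (nat_lit 0) (XT.nd (nat_lit 78) (nat_lit 0) (nat_lit 0) (XT.lf (nat_lit 0) (nat_lit 3575480891864) (nat_lit 76) (nat_lit 459940965697) (nat_lit 76) (nat_lit 459519000569) (nat_lit 1) (nat_lit 4) (nat_lit 2) (nat_lit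 5) (nat_lit 2) (nat_lit 4) (nat_lit 521) (nat_lit 367) (nat_lit 312)) (XT.nd (nat_lit 78) (nat_lit 0) (nat_lit 0) (XT.lf (nat_lit 0) (nat_lit 3872467831793) (nat_lit 76) (nat_lit 491034132843) (nat_lit 76) (nat_lit 490611707476) (nat_lit 1) (nat_lit 4) (nat_lit 2) (nat_lit 5) (nat_lit 2) (nat_lit 4) (nat_lit 522) (nat_lit 367) (nat_lit 311)) (XT.lf (nat_lit 0) (nat_lit 4193191678267) (nat_lit 76) (nat_lit 524626167611) (nat_lit 76) (nat_lit 524203316095) (nat_lit 1) (nat_lit 4) (nat_lit 2) (nat_lit 5) (nat_lit 2) (nat_lit 4) (nat_lit 523) (nat_lit 367) (nat_lit 310)))) (XT.nd (nat_lit 156) (nat_lit 0) (nat_lit 0) (XT.nd (nat_lit 78) (nat_lit 0) (nat_lit 0) (XT.lf (nat_lit 0) (nat_lit 4539553017044) (nat_lit 76) (nat_lit 560916133911) (nat_lit 76) (nat_lit 560492887814) (nat_lit 1) (nat_lit 4) (nat_lit 2) (nat_lit 5) (nat_lit 2) (nat_lit 4) (nat_lit 524) (nat_lit 367) (nat_lit 309)) (XT.lf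 (nat_lit 0) (nat_lit 4913604359761) (nat_lit 76) (nat_lit 600119083394) (nat_lit 76) (nat_lit 599695471944) (nat_lit 1) (nat_lit 4) (nat_lit 2) (nat_lit 5) (nat_lit 2) (nat_lit 4) (nat_lit 525) (nat_lit 367) (nat_lit 308))) (XT.nd (nat_lit 78) (nat_lit 0) (nat_lit 0) (XT.lf (nat_lit 0) (nat_lit 5317562306968) (nat_lit 76) (nat_lit 642467329836) (nat_lit 76) (nat_lit 642043380096) (nat_lit 1) (nat_lit 4) (nat_lit 2) (nat_lit 5) (nat_lit 2) (nat_lit 4) (nat_lit 526) (nat_lit 367) (nat_lit 307)) (XT.lf (nat_lit 0) (nat_lit 5753820683536) (nat_lit 76) (nat_lit 688211825809) (nat_lit 76) (nat_lit 687787562837) (nat_lit 1) (nat_lit 4) (nat_lit 2) (nat_lit 5) (nat_lit 2) (nat_lit 4) (nat_lit 527) (nat_lit 367) (nat_lit 306)))))) (XT.nd (nat_lit 546) (nat_lit 0) (nat_lit 0) (XT.nd (nat_lit 234) (nat_lit 0) (nat_lit 0) (XT.nd (nat_lit 78) (nat_lit 0) (nat_lit 0) (XT.lf (nat_lit 0) (nat_lit 6224964724290)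 (nat_lit 76) (nat_lit 737623649806) (nat_lit 76) (nat_lit 737199096804) (nat_lit 1) (nat_lit 4) (nat_lit 2) (nat_lit 5) (nat_lit 2) (nat_lit 4) (nat_lit 528) (nat_lit 367) (nat_lit 305)) (XT.nd (nat_lit 78) (nat_lit 0) (nat_lit 0) (XT.lf (nat_lit 0) (nat_lit 6733786393916) (nat_lit 76) (nat_lit 790995612636) (nat_lit 76) (nat_lit 790570791089) (nat_lit 1) (nat_lit 4) (nat_lit 2) (nat_lit 5) (nat_lit 2) (nat_lit 4) (nat_lit 529) (nat_lit 367) (nat_lit 304)) (XT.lf (nat_lit 0) (nat_lit 7283300931937) (nat_lit 76) (nat_lit 848643992599) (nat_lit 76) (nat_lit 848218922398) (nat_lit 1) (nat_lit 4) (nat_lit 2) (nat_lit 5) (nat_lit 2) (nat_lit 4) (nat_lit 530) (nat_lit 367) (nat_lit 303)))) (XT.nd (nat_lit 156) (nat_lit 0) (nat_lit 0) (XT.nd (nat_lit 78) (nat_lit 0) (nat_lit 0) (XT.lf (nat_lit 0) (nat_lit 7876764720802) (nat_lit 76) (nat_lit 910910409722) (nat_lit 76) (nat_lit 910485109287) (nat_lit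 1) (nat_lit 4) (nat_lit 2) (nat_lit 5) (nat_lit 2) (nat_lit 4) (nat_lit 531) (nat_lit 367) (nat_lit 302)) (XT.lf (nat_lit 0) (nat_lit 8517694582962) (nat_lit 76) (nat_lit 978163850183) (nat_lit 76) (nat_lit 977738336568) (nat_lit 1) (nat_lit 4) (nat_lit 2) (nat_lit 5) (nat_lit 2) (nat_lit 4) (nat_lit 532) (nat_lit 367) (nat_lit 301))) (XT.nd (nat_lit 78) (nat_lit 0) (nat_lit 0) (XT.lf (nat_lit 0) (nat_lit 9209888621305) (nat_lit 76) (nat_lit 1050802852887) (nat_lit 76) (nat_lit 1050377141882) (nat_lit 1) (nat_lit 4) (nat_lit 2) (nat_lit 5) (nat_lit 2) (nat_lit 4) (nat_lit 533) (nat_lit 367) (nat_lit 300)) (XT.lf (nat_lit 0) (nat_lit 9957448726427) (nat_lit 76) (nat_lit 1129257871183) (nat_lit 76) (nat_lit 1128831977411) (nat_lit 1) (nat_lit 4) (nat_lit 2) (nat_lit 5) (nat_lit 2) (nat_lit 4) (nat_lit 534) (nat_lit 367) (nat_lit 299))))) (XT.nd (nat_lit 312) (nat_lit 0) (nat_lit 0) (XT.nd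 (nat_lit 156) (nat_lit 0) (nat_lit 0) (XT.nd (nat_lit 78) (nat_lit 0) (nat_lit 0) (XT.lf (nat_lit 0) (nat_lit 10764804884138) (nat_lit 76) (nat_lit 1213993823699) (nat_lit 76) (nat_lit 1213567760697) (nat_lit 1) (nat_lit 4) (nat_lit 2) (nat_lit 5) (nat_lit 2) (nat_lit 4) (nat_lit 535) (nat_lit 367) (nat_lit 298)) (XT.lf (nat_lit 0) (nat_lit 11636741427224) (nat_lit 76) (nat_lit 1305512849412) (nat_lit 76) (nat_lit 1305086629717) (nat_lit 1) (nat_lit 4) (nat_lit 2) (nat_lit 5) (nat_lit 2) (nat_lit 4) (nat_lit 536) (nat_lit 367) (nat_lit 297))) (XT.nd (nat_lit 78) (nat_lit 0) (nat_lit 0) (XT.lf (nat_lit 0) (nat_lit 12578425387050) (nat_lit 76) (nat_lit 1404357283290) (nat_lit 76) (nat_lit 1403930918508) (nat_lit 1) (nat_lit 4) (nat_lit 2) (nat_lit 5) (nat_lit 2) (nat_lit 4) (nat_lit 537) (nat_lit 367) (nat_lit 296)) (XT.lf (nat_lit 0) (nat_lit 13595437113010) (nat_lit 76) (nat_lit 1511112870125)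 (nat_lit 76) (nat_lit 1510686371004) (nat_lit 1) (nat_lit 4) (nat_lit 2) (nat_lit 5) (nat_lit 2) (nat_lit 4) (nat_lit 538) (nat_lit 367) (nat_lit 295)))) (XT.nd (nat_lit 156) (nat_lit 0) (nat_lit 0) (XT.nd (nat_lit 78) (nat_lit 0) (nat_lit 0) (XT.lf (nat_lit 0) (nat_lit 14693803341255) (nat_lit 76) (nat_lit 1626412235619) (nat_lit 76) (nat_lit 1625985612108) (nat_lit 1) (nat_lit 4) (nat_lit 2) (nat_lit 5) (nat_lit 2) (nat_lit 4) (nat_lit 539) (nat_lit 367) (nat_lit 294)) (XT.lf (nat_lit 0) (nat_lit 15880032908696) (nat_lit 76) (nat_lit 1750938635269) (nat_lit 76) (nat_lit 1750511896584) (nat_lit 1) (nat_lit 4) (nat_lit 2) (nat_lit 5) (nat_lit 2) (nat_lit 4) (nat_lit 540) (nat_lit 367) (nat_lit 293))) (XT.nd (nat_lit 78) (nat_lit 0) (nat_lit 0) (XT.lf (nat_lit 0) (nat_lit 17161155323878) (nat_lit 76) (nat_lit 1885430003296) (nat_lit 76) (nat_lit 1885003157968) (nat_lit 1) (nat_lit 4) (nat_lit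 2) (nat_lit 5) (nat_lit 2) (nat_lit 4) (nat_lit 541) (nat_lit 367) (nat_lit 292)) (XT.lf (nat_lit 0) (nat_lit 18544762423338) (nat_lit 76) (nat_lit 2030683325586) (nat_lit 76) (nat_lit 2030256381514) (nat_lit 1) (nat_lit 4) (nat_lit 2) (nat_lit 5) (nat_lit 2) (nat_lit 4) (nat_lit 542) (nat_lit 367) (nat_lit 291))))))))
noncomputable def xc29 : XT := (XT.nd (nat_lit 58344) (nat_lit 0) (nat_lit 0) (XT.nd (nat_lit 57252) (nat_lit 0) (nat_lit 0) (XT.nd (nat_lit 56706) (nat_lit 0) (nat_lit 76) (XT.nd (nat_lit 56394) (nat_lit 0) (nat_lit 304) (XT.nd (nat_lit 78) (nat_lit 0) (nat_lit 0) (XT.lf (nat_lit 0) (nat_lit 20039053360256) (nat_lit 76) (nat_lit 2187559362565) (nat_lit 76) (nat_lit 2187132327064) (nat_lit 1) (nat_lit 4) (nat_lit 2) (nat_lit 5) (nat_lit 2) (nat_lit 4) (nat_lit 543) (nat_lit 367) (nat_lit 290)) (XT.nd (nat_lit 56238) (nat_lit 0) (nat_lit 456) (XT.lf (nat_lit 0) (nat_lit 21652883192037)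 (nat_lit 76) (nat_lit 2356987750009) (nat_lit 76) (nat_lit 2356560629851) (nat_lit 1) (nat_lit 4) (nat_lit 2) (nat_lit 5) (nat_lit 2) (nat_lit 4) (nat_lit 544) (nat_lit 367) (nat_lit 289)) (XT.lf (nat_lit 0) (nat_lit 21801858271) (nat_lit 76) (nat_lit 5495411586) (nat_lit 76) (nat_lit 5495411586) (nat_lit 7) (nat_lit 4) (nat_lit 8) (nat_lit 5) (nat_lit 8) (nat_lit 4) (nat_lit 464) (nat_lit 368) (nat_lit 368)))) (XT.nd (nat_lit 156) (nat_lit 0) (nat_lit 0) (XT.nd (nat_lit 78) (nat_lit 0) (nat_lit 0) (XT.lf (nat_lit 0) (nat_lit 1012729185) (nat_lit 152) (nat_lit 67880228875) (nat_lit 0) (nat_lit 975734574) (nat_lit 5) (nat_lit 5) (nat_lit 7) (nat_lit 4) (nat_lit 5) (nat_lit 4) (nat_lit 465) (nat_lit 368) (nat_lit 367)) (XT.lf (nat_lit 0) (nat_lit 13639763471) (nat_lit 152) (nat_lit 47243014527) (nat_lit 0) (nat_lit 13568514590) (nat_lit 5) (nat_lit 5) (nat_lit 7) (nat_lit 4) (nat_lit 5) (nat_lit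 4) (nat_lit 466) (nat_lit 368) (nat_lit 366))) (XT.nd (nat_lit 78) (nat_lit 0) (nat_lit 0) (XT.lf (nat_lit 0) (nat_lit 26679630628) (nat_lit 152) (nat_lit 26191992315) (nat_lit 0) (nat_lit 26576664832) (nat_lit 5) (nat_lit 5) (nat_lit 7) (nat_lit 4) (nat_lit 5) (nat_lit 4) (nat_lit 467) (nat_lit 368) (nat_lit 365)) (XT.lf (nat_lit 0) (nat_lit 40209603944) (nat_lit 152) (nat_lit 4602415442) (nat_lit 0) (nat_lit 40077270633) (nat_lit 5) (nat_lit 5) (nat_lit 7) (nat_lit 4) (nat_lit 5) (nat_lit 4) (nat_lit 468) (nat_lit 368) (nat_lit 364))))) (XT.nd (nat_lit 234) (nat_lit 152) (nat_lit 0) (XT.nd (nat_lit 78) (nat_lit 0) (nat_lit 0) (XT.lf (nat_lit 0) (nat_lit 18583264477) (nat_lit 76) (nat_lit 36173524518) (nat_lit 76) (nat_lit 36013999063) (nat_lit 4) (nat_lit 4) (nat_lit 5) (nat_lit 5) (nat_lit 5) (nat_lit 4) (nat_lit 469) (nat_lit 368) (nat_lit 363)) (XT.nd (nat_lit 78) (nat_lit 0) (nat_lit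 0) (XT.lf (nat_lit 0) (nat_lit 42851721468) (nat_lit 76) (nat_lit 27242822453) (nat_lit 76) (nat_lit 27058119088) (nat_lit 4) (nat_lit 4) (nat_lit 5) (nat_lit 5) (nat_lit 5) (nat_lit 4) (nat_lit 470) (nat_lit 368) (nat_lit 362)) (XT.lf (nat_lit 0) (nat_lit 68104413567) (nat_lit 76) (nat_lit 18092828707) (nat_lit 76) (nat_lit 17884812461) (nat_lit 4) (nat_lit 4) (nat_lit 5) (nat_lit 5) (nat_lit 5) (nat_lit 4) (nat_lit 471) (nat_lit 368) (nat_lit 361)))) (XT.nd (nat_lit 156) (nat_lit 0) (nat_lit 0) (XT.nd (nat_lit 78) (nat_lit 152) (nat_lit 0) (XT.lf (nat_lit 0) (nat_lit 94490986356) (nat_lit 76) (nat_lit 8669321094) (nat_lit 76) (nat_lit 8439718848) (nat_lit 4) (nat_lit 4) (nat_lit 5) (nat_lit 5) (nat_lit 5) (nat_lit 4) (nat_lit 472) (nat_lit 368) (nat_lit 360)) (XT.lf (nat_lit 0) (nat_lit 1355274032) (nat_lit 152) (nat_lit 117262010413) (nat_lit 0) (nat_lit 1124172843) (nat_lit 2) (nat_lit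 5) (nat_lit 4) (nat_lit 4) (nat_lit 2) (nat_lit 4) (nat_lit 473) (nat_lit 368) (nat_lit 359))) (XT.nd (nat_lit 78) (nat_lit 0) (nat_lit 0) (XT.lf (nat_lit 0) (nat_lit 11776728622) (nat_lit 152) (nat_lit 105187539640) (nat_lit 0) (nat_lit 11528491771) (nat_lit 2) (nat_lit 5) (nat_lit 4) (nat_lit 4) (nat_lit 2) (nat_lit 4) (nat_lit 474) (nat_lit 368) (nat_lit 358)) (XT.lf (nat_lit 0) (nat_lit 22655702578) (nat_lit 152) (nat_lit 92926961228) (nat_lit 0) (nat_lit 22391599373) (nat_lit 2) (nat_lit 5) (nat_lit 4) (nat_lit 4) (nat_lit 2) (nat_lit 4) (nat_lit 475) (nat_lit 368) (nat_lit 357)))))) (XT.nd (nat_lit 546) (nat_lit 0) (nat_lit 0) (XT.nd (nat_lit 234) (nat_lit 76) (nat_lit 0) (XT.nd (nat_lit 78) (nat_lit 0) (nat_lit 0) (XT.lf (nat_lit 0) (nat_lit 34056663895) (nat_lit 152) (nat_lit 80407619899) (nat_lit 0) (nat_lit 33777869621) (nat_lit 2) (nat_lit 5) (nat_lit 4) (nat_lit 4) (nat_lit 2)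 (nat_lit 4) (nat_lit 476) (nat_lit 368) (nat_lit 356)) (XT.nd (nat_lit 78) (nat_lit 0) (nat_lit 0) (XT.lf (nat_lit 0) (nat_lit 46047173825) (nat_lit 152) (nat_lit 67555326963) (nat_lit 0) (nat_lit 45754776709) (nat_lit 2) (nat_lit 5) (nat_lit 4) (nat_lit 4) (nat_lit 2) (nat_lit 4) (nat_lit 477) (nat_lit 368) (nat_lit 355)) (XT.lf (nat_lit 0) (nat_lit 58698287241) (nat_lit 152) (nat_lit 54293920683) (nat_lit 0) (nat_lit 58393294901) (nat_lit 2) (nat_lit 5) (nat_lit 4) (nat_lit 4) (nat_lit 2) (nat_lit 4) (nat_lit 478) (nat_lit 368) (nat_lit 354)))) (XT.nd (nat_lit 156) (nat_lit 76) (nat_lit 0) (XT.nd (nat_lit 78) (nat_lit 0) (nat_lit 0) (XT.lf (nat_lit 0) (nat_lit 72084973705) (nat_lit 152) (nat_lit 40544814949) (nat_lit 0) (nat_lit 71768319121) (nat_lit 2) (nat_lit 5) (nat_lit 4) (nat_lit 4) (nat_lit 2) (nat_lit 4) (nat_lit 479) (nat_lit 368) (nat_lit 353)) (XT.lf (nat_lit 0) (nat_lit 86286561728)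 (nat_lit 152) (nat_lit 26226533578) (nat_lit 0) (nat_lit 85959108770) (nat_lit 2) (nat_lit 5) (nat_lit 4) (nat_lit 4) (nat_lit 2) (nat_lit 4) (nat_lit 480) (nat_lit 368) (nat_lit 352))) (XT.nd (nat_lit 78) (nat_lit 76) (nat_lit 0) (XT.lf (nat_lit 0) (nat_lit 101387208870) (nat_lit 152) (nat_lit 11254227496) (nat_lit 0) (nat_lit 101049757417) (nat_lit 2) (nat_lit 5) (nat_lit 4) (nat_lit 4) (nat_lit 2) (nat_lit 4) (nat_lit 481) (nat_lit 368) (nat_lit 351)) (XT.lf (nat_lit 0) (nat_lit 4695727374) (nat_lit 76) (nat_lit 112893605428) (nat_lit 76) (nat_lit 112546896109) (nat_lit 1) (nat_lit 4) (nat_lit 2) (nat_lit 5) (nat_lit 2) (nat_lit 4) (nat_lit 482) (nat_lit 368) (nat_lit 350))))) (XT.nd (nat_lit 234) (nat_lit 0) (nat_lit 0) (XT.nd (nat_lit 78) (nat_lit 0) (nat_lit 0) (XT.lf (nat_lit 0) (nat_lit 22118201400) (nat_lit 76) (nat_lit 113063221690) (nat_lit 76) (nat_lit 112707940274) (nat_lit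 1) (nat_lit 4) (nat_lit 2) (nat_lit 5) (nat_lit 2) (nat_lit 4) (nat_lit 483) (nat_lit 368) (nat_lit 349)) (XT.nd (nat_lit 78) (nat_lit 0) (nat_lit 0) (XT.lf (nat_lit 0) (nat_lit 40523811195) (nat_lit 76) (nat_lit 113459000811) (nat_lit 76) (nat_lit 113095782267) (nat_lit 1) (nat_lit 4) (nat_lit 2) (nat_lit 5) (nat_lit 2) (nat_lit 4) (nat_lit 484) (nat_lit 368) (nat_lit 348)) (XT.lf (nat_lit 0) (nat_lit 60021627039) (nat_lit 76) (nat_lit 114083288147) (nat_lit 76) (nat_lit 113712720411) (nat_lit 1) (nat_lit 4) (nat_lit 2) (nat_lit 5) (nat_lit 2) (nat_lit 4) (nat_lit 485) (nat_lit 368) (nat_lit 347)))) (XT.nd (nat_lit 156) (nat_lit 0) (nat_lit 0) (XT.nd (nat_lit 78) (nat_lit 0) (nat_lit 0) (XT.lf (nat_lit 0) (nat_lit 80727191546) (nat_lit 76) (nat_lit 114939783180) (nat_lit 76) (nat_lit 114562410637) (nat_lit 1) (nat_lit 4) (nat_lit 2) (nat_lit 5) (nat_lit 2) (nat_lit 4) (nat_lit 486) (nat_lit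 368) (nat_lit 346)) (XT.lf (nat_lit 0) (nat_lit 102763204355) (nat_lit 76) (nat_lit 116033561436) (nat_lit 76) (nat_lit 115649888145) (nat_lit 1) (nat_lit 4) (nat_lit 2) (nat_lit 5) (nat_lit 2) (nat_lit 4) (nat_lit 487) (nat_lit 368) (nat_lit 345))) (XT.nd (nat_lit 78) (nat_lit 0) (nat_lit 0) (XT.lf (nat_lit 0) (nat_lit 126260249248) (nat_lit 76) (nat_lit 117371104563) (nat_lit 76) (nat_lit 116981597246) (nat_lit 1) (nat_lit 4) (nat_lit 2) (nat_lit 5) (nat_lit 2) (nat_lit 4) (nat_lit 488) (nat_lit 368) (nat_lit 344)) (XT.lf (nat_lit 0) (nat_lit 151357567971) (nat_lit 76) (nat_lit 118960338743) (nat_lit 76) (nat_lit 118565429550) (nat_lit 1) (nat_lit 4) (nat_lit 2) (nat_lit 5) (nat_lit 2) (nat_lit 4) (nat_lit 489) (nat_lit 368) (nat_lit 343))))))) (XT.nd (nat_lit 1092) (nat_lit 0) (nat_lit 0) (XT.nd (nat_lit 546) (nat_lit 0) (nat_lit 0) (XT.nd (nat_lit 234) (nat_lit 0) (nat_lit 0) (XT.nd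 (nat_lit 78) (nat_lit 0) (nat_lit 0) (XT.lf (nat_lit 0) (nat_lit 178203885377) (nat_lit 76) (nat_lit 120810681660) (nat_lit 76) (nat_lit 120410770731) (nat_lit 1) (nat_lit 4) (nat_lit 2) (nat_lit 5) (nat_lit 2) (nat_lit 4) (nat_lit 490) (nat_lit 368) (nat_lit 342)) (XT.nd (nat_lit 78) (nat_lit 0) (nat_lit 0) (XT.lf (nat_lit 0) (nat_lit 206958290753) (nat_lit 76) (nat_lit 122933098309) (nat_lit 76) (nat_lit 122528556142) (nat_lit 1) (nat_lit 4) (nat_lit 2) (nat_lit 5) (nat_lit 2) (nat_lit 4) (nat_lit 491) (nat_lit 368) (nat_lit 341)) (XT.lf (nat_lit 0) (nat_lit 237791180576) (nat_lit 76) (nat_lit 125340165974) (nat_lit 76) (nat_lit 124931335624) (nat_lit 1) (nat_lit 4) (nat_lit 2) (nat_lit 5) (nat_lit 2) (nat_lit 4) (nat_lit 492) (nat_lit 368) (nat_lit 340)))) (XT.nd (nat_lit 156) (nat_lit 0) (nat_lit 0) (XT.nd (nat_lit 78) (nat_lit 0) (nat_lit 0) (XT.lf (nat_lit 0) (nat_lit 270885268267)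 (nat_lit 76) (nat_lit 128046148760) (nat_lit 76) (nat_lit 127633347870) (nat_lit 1) (nat_lit 4) (nat_lit 2) (nat_lit 5) (nat_lit 2) (nat_lit 4) (nat_lit 493) (nat_lit 368) (nat_lit 339)) (XT.lf (nat_lit 0) (nat_lit 306436666939) (nat_lit 76) (nat_lit 131067082120) (nat_lit 76) (nat_lit 130650604805) (nat_lit 1) (nat_lit 4) (nat_lit 2) (nat_lit 5) (nat_lit 2) (nat_lit 4) (nat_lit 494) (nat_lit 368) (nat_lit 338))) (XT.nd (nat_lit 78) (nat_lit 0) (nat_lit 0) (XT.lf (nat_lit 0) (nat_lit 344656051545) (nat_lit 76) (nat_lit 134420867881) (nat_lit 76) (nat_lit 134000986468) (nat_lit 1) (nat_lit 4) (nat_lit 2) (nat_lit 5) (nat_lit 2) (nat_lit 4) (nat_lit 495) (nat_lit 368) (nat_lit 337)) (XT.lf (nat_lit 0) (nat_lit 385769907330) (nat_lit 76) (nat_lit 138127380330) (nat_lit 76) (nat_lit 137704346974) (nat_lit 1) (nat_lit 4) (nat_lit 2) (nat_lit 5) (nat_lit 2) (nat_lit 4) (nat_lit 496) (nat_lit 368)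 (nat_lit 336))))) (XT.nd (nat_lit 234) (nat_lit 0) (nat_lit 0) (XT.nd (nat_lit 78) (nat_lit 0) (nat_lit 0) (XT.lf (nat_lit 0) (nat_lit 430021871955) (nat_lit 76) (nat_lit 142208583984) (nat_lit 76) (nat_lit 141782632164) (nat_lit 1) (nat_lit 4) (nat_lit 2) (nat_lit 5) (nat_lit 2) (nat_lit 4) (nat_lit 497) (nat_lit 368) (nat_lit 335)) (XT.nd (nat_lit 78) (nat_lit 0) (nat_lit 0) (XT.lf (nat_lit 0) (nat_lit 477674179287) (nat_lit 76) (nat_lit 146688663755) (nat_lit 76) (nat_lit 146260009652) (nat_lit 1) (nat_lit 4) (nat_lit 2) (nat_lit 5) (nat_lit 2) (nat_lit 4) (nat_lit 498) (nat_lit 368) (nat_lit 334)) (XT.lf (nat_lit 0) (nat_lit 529009213368) (nat_lit 76) (nat_lit 151594168263) (nat_lit 76) (nat_lit 151163012046) (nat_lit 1) (nat_lit 4) (nat_lit 2) (nat_lit 5) (nat_lit 2) (nat_lit 4) (nat_lit 499) (nat_lit 368) (nat_lit 333)))) (XT.nd (nat_lit 156) (nat_lit 0) (nat_lit 0) (XT.nd (nat_lit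 78) (nat_lit 0) (nat_lit 0) (XT.lf (nat_lit 0) (nat_lit 584331181807) (nat_lit 76) (nat_lit 156954167164) (nat_lit 76) (nat_lit 156520694175) (nat_lit 1) (nat_lit 4) (nat_lit 2) (nat_lit 5) (nat_lit 2) (nat_lit 4) (nat_lit 500) (nat_lit 368) (nat_lit 332)) (XT.lf (nat_lit 0) (nat_lit 643967918492) (nat_lit 76) (nat_lit 162800423416) (nat_lit 76) (nat_lit 162364805267) (nat_lit 1) (nat_lit 4) (nat_lit 2) (nat_lit 5) (nat_lit 2) (nat_lit 4) (nat_lit 501) (nat_lit 368) (nat_lit 331))) (XT.nd (nat_lit 78) (nat_lit 0) (nat_lit 0) (XT.lf (nat_lit 0) (nat_lit 708272826307) (nat_lit 76) (nat_lit 169167581498) (nat_lit 76) (nat_lit 168729977092) (nat_lit 1) (nat_lit 4) (nat_lit 2) (nat_lit 5) (nat_lit 2) (nat_lit 4) (nat_lit 502) (nat_lit 368) (nat_lit 330)) (XT.lf (nat_lit 0) (nat_lit 777626971372) (nat_lit 76) (nat_lit 176093372719) (nat_lit 76) (nat_lit 175653929185) (nat_lit 1) (nat_lit 4) (nat_lit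 2) (nat_lit 5) (nat_lit 2) (nat_lit 4) (nat_lit 503) (nat_lit 368) (nat_lit 329)))))) (XT.nd (nat_lit 546) (nat_lit 0) (nat_lit 0) (XT.nd (nat_lit 234) (nat_lit 0) (nat_lit 0) (XT.nd (nat_lit 78) (nat_lit 0) (nat_lit 0) (XT.lf (nat_lit 0) (nat_lit 852441341214) (nat_lit 76) (nat_lit 183618838805) (nat_lit 76) (nat_lit 183177692374) (nat_lit 1) (nat_lit 4) (nat_lit 2) (nat_lit 5) (nat_lit 2) (nat_lit 4) (nat_lit 504) (nat_lit 368) (nat_lit 328)) (XT.nd (nat_lit 78) (nat_lit 0) (nat_lit 0) (XT.lf (nat_lit 0) (nat_lit 933159280246) (nat_lit 76) (nat_lit 191788575109) (nat_lit 76) (nat_lit 191345851922) (nat_lit 1) (nat_lit 4) (nat_lit 2) (nat_lit 5) (nat_lit 2) (nat_lit 4) (nat_lit 505) (nat_lit 368) (nat_lit 327)) (XT.lf (nat_lit 0) (nat_lit 1020259116996) (nat_lit 76) (nat_lit 200650994885) (nat_lit 76) (nat_lit 200206811738) (nat_lit 1) (nat_lit 4) (nat_lit 2) (nat_lit 5) (nat_lit 2) (nat_lit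 4) (nat_lit 506) (nat_lit 368) (nat_lit 326)))) (XT.nd (nat_lit 156) (nat_lit 0) (nat_lit 0) (XT.nd (nat_lit 78) (nat_lit 0) (nat_lit 0) (XT.lf (nat_lit 0) (nat_lit 1114256998644) (nat_lit 76) (nat_lit 210258616174) (nat_lit 76) (nat_lit 209813081213) (nat_lit 1) (nat_lit 4) (nat_lit 2) (nat_lit 5) (nat_lit 2) (nat_lit 4) (nat_lit 507) (nat_lit 368) (nat_lit 325)) (XT.lf (nat_lit 0) (nat_lit 1215709949675) (nat_lit 76) (nat_lit 220668373030) (nat_lit 76) (nat_lit 220221586390) (nat_lit 1) (nat_lit 4) (nat_lit 2) (nat_lit 5) (nat_lit 2) (nat_lit 4) (nat_lit 508) (nat_lit 368) (nat_lit 324))) (XT.nd (nat_lit 78) (nat_lit 0) (nat_lit 0) (XT.lf (nat_lit 0) (nat_lit 1325219172762) (nat_lit 76) (nat_lit 231941952900) (nat_lit 76) (nat_lit 231494007297) (nat_lit 1) (nat_lit 4) (nat_lit 2) (nat_lit 5) (nat_lit 2) (nat_lit 4) (nat_lit 509) (nat_lit 368) (nat_lit 323)) (XT.lf (nat_lit 0) (nat_lit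 1443433611448) (nat_lit 76) (nat_lit 244146162184) (nat_lit 76) (nat_lit 243697143467) (nat_lit 1) (nat_lit 4) (nat_lit 2) (nat_lit 5) (nat_lit 2) (nat_lit 4) (nat_lit 510) (nat_lit 368) (nat_lit 322))))) (XT.nd (nat_lit 312) (nat_lit 0) (nat_lit 0) (XT.nd (nat_lit 156) (nat_lit 0) (nat_lit 0) (XT.nd (nat_lit 78) (nat_lit 0) (nat_lit 0) (XT.lf (nat_lit 0) (nat_lit 1571053795740) (nat_lit 76) (nat_lit 257353322121) (nat_lit 76) (nat_lit 256903309780) (nat_lit 1) (nat_lit 4) (nat_lit 2) (nat_lit 5) (nat_lit 2) (nat_lit 4) (nat_lit 511) (nat_lit 368) (nat_lit 321)) (XT.lf (nat_lit 0) (nat_lit 1708835993398) (nat_lit 76) (nat_lit 271641697363) (nat_lit 76) (nat_lit 271190765001) (nat_lit 1) (nat_lit 4) (nat_lit 2) (nat_lit 5) (nat_lit 2) (nat_lit 4) (nat_lit 512) (nat_lit 368) (nat_lit 320))) (XT.nd (nat_lit 78) (nat_lit 0) (nat_lit 0) (XT.lf (nat_lit 0) (nat_lit 1857596691518) (nat_lit 76)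 (nat_lit 287095959764) (nat_lit 76) (nat_lit 286644175530) (nat_lit 1) (nat_lit 4) (nat_lit 2) (nat_lit 5) (nat_lit 2) (nat_lit 4) (nat_lit 513) (nat_lit 368) (nat_lit 319)) (XT.lf (nat_lit 0) (nat_lit 2018217434979) (nat_lit 76) (nat_lit 303807690138) (nat_lit 76) (nat_lit 303355117133) (nat_lit 1) (nat_lit 4) (nat_lit 2) (nat_lit 5) (nat_lit 2) (nat_lit 4) (nat_lit 514) (nat_lit 368) (nat_lit 318)))) (XT.nd (nat_lit 156) (nat_lit 0) (nat_lit 0) (XT.nd (nat_lit 78) (nat_lit 0) (nat_lit 0) (XT.lf (nat_lit 0) (nat_lit 2191650050407) (nat_lit 76) (nat_lit 321875920961) (nat_lit 76) (nat_lit 321422617612) (nat_lit 1) (nat_lit 4) (nat_lit 2) (nat_lit 5) (nat_lit 2) (nat_lit 4) (nat_lit 515) (nat_lit 368) (nat_lit 317)) (XT.lf (nat_lit 0) (nat_lit 2378922286637) (nat_lit 76) (nat_lit 341407723230) (nat_lit 76) (nat_lit 340953743638) (nat_lit 1) (nat_lit 4) (nat_lit 2) (nat_lit 5) (nat_lit 2)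 (nat_lit 4) (nat_lit 516) (nat_lit 368) (nat_lit 316))) (XT.nd (nat_lit 78) (nat_lit 0) (nat_lit 0) (XT.lf (nat_lit 0) (nat_lit 2581143905066) (nat_lit 76) (nat_lit 362518840959) (nat_lit 76) (nat_lit 362064235216) (nat_lit 1) (nat_lit 4) (nat_lit 2) (nat_lit 5) (nat_lit 2) (nat_lit 4) (nat_lit 517) (nat_lit 368) (nat_lit 315)) (XT.lf (nat_lit 0) (nat_lit 2799513256027) (nat_lit 76) (nat_lit 385334377068) (nat_lit 76) (nat_lit 384879191555) (nat_lit 1) (nat_lit 4) (nat_lit 2) (nat_lit 5) (nat_lit 2) (nat_lit 4) (nat_lit 518) (nat_lit 368) (nat_lit 314))))))))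
noncomputable def xc30 : XT := (XT.nd (nat_lit 58188) (nat_lit 0) (nat_lit 0) (XT.nd (nat_lit 1092) (nat_lit 0) (nat_lit 0) (XT.nd (nat_lit 546) (nat_lit 0) (nat_lit 0) (XT.nd (nat_lit 234) (nat_lit 0) (nat_lit 0) (XT.nd (nat_lit 78) (nat_lit 0) (nat_lit 0) (XT.lf (nat_lit 0) (nat_lit 3035324380118) (nat_lit 76) (nat_lit 409989534734) (nat_lit 76) (nat_lit 409533812396) (nat_lit 1) (nat_lit 4) (nat_lit 2) (nat_lit 5) (nat_lit 2) (nat_lit 4) (nat_lit 519) (nat_lit 368) (nat_lit 313)) (XT.nd (nat_lit 78) (nat_lit 0) (nat_lit 0) (XT.lf (nat_lit 0) (nat_lit 3289974676593) (nat_lit 76) (nat_lit 436630418594) (nat_lit 76) (nat_lit 436174199197) (nat_lit 1) (nat_lit 4) (nat_lit 2) (nat_lit 5) (nat_lit 2) (nat_lit 4) (nat_lit 520) (nat_lit 368) (nat_lit 312)) (XT.lf (nat_lit 0) (nat_lit 3564973184246) (nat_lit 76) (nat_lit 465414900553) (nat_lit 76) (nat_lit 464958220917) (nat_lit 1) (nat_lit 4)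 (nat_lit 2) (nat_lit 5) (nat_lit 2) (nat_lit 4) (nat_lit 521) (nat_lit 368) (nat_lit 311)))) (XT.nd (nat_lit 156) (nat_lit 0) (nat_lit 0) (XT.nd (nat_lit 78) (nat_lit 0) (nat_lit 0) (XT.lf (nat_lit 0) (nat_lit 3861949523863) (nat_lit 76) (nat_lit 496513555320) (nat_lit 76) (nat_lit 496056449535) (nat_lit 1) (nat_lit 4) (nat_lit 2) (nat_lit 5) (nat_lit 2) (nat_lit 4) (nat_lit 522) (nat_lit 368) (nat_lit 310)) (XT.lf (nat_lit 0) (nat_lit 4182663555234) (nat_lit 76) (nat_lit 530110671218) (nat_lit 76) (nat_lit 529653170851) (nat_lit 1) (nat_lit 4) (nat_lit 2) (nat_lit 5) (nat_lit 2) (nat_lit 4) (nat_lit 523) (nat_lit 368) (nat_lit 309))) (XT.nd (nat_lit 78) (nat_lit 0) (nat_lit 0) (XT.lf (nat_lit 0) (nat_lit 4529015805952) (nat_lit 76) (nat_lit 566405342268) (nat_lit 76) (nat_lit 565947476548) (nat_lit 1) (nat_lit 4) (nat_lit 2) (nat_lit 5) (nat_lit 2) (nat_lit 4) (nat_lit 524) (nat_lit 368)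 (nat_lit 308)) (XT.lf (nat_lit 0) (nat_lit 4903058733800) (nat_lit 76) (nat_lit 605612648001) (nat_lit 76) (nat_lit 605154443991) (nat_lit 1) (nat_lit 4) (nat_lit 2) (nat_lit 5) (nat_lit 2) (nat_lit 4) (nat_lit 525) (nat_lit 368) (nat_lit 307))))) (XT.nd (nat_lit 234) (nat_lit 0) (nat_lit 0) (XT.nd (nat_lit 78) (nat_lit 0) (nat_lit 0) (XT.lf (nat_lit 0) (nat_lit 5307008889461) (nat_lit 76) (nat_lit 647964928008) (nat_lit 76) (nat_lit 647506410767) (nat_lit 1) (nat_lit 4) (nat_lit 2) (nat_lit 5) (nat_lit 2) (nat_lit 4) (nat_lit 526) (nat_lit 368) (nat_lit 306)) (XT.nd (nat_lit 78) (nat_lit 0) (nat_lit 0) (XT.lf (nat_lit 0) (nat_lit 5743260051635) (nat_lit 76) (nat_lit 693713158763) (nat_lit 76) (nat_lit 693254351492) (nat_lit 1) (nat_lit 4) (nat_lit 2) (nat_lit 5) (nat_lit 2) (nat_lit 4) (nat_lit 527) (nat_lit 368) (nat_lit 305)) (XT.lf (nat_lit 0) (nat_lit 6214397412395) (nat_lit 76) (nat_lit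 743128440891) (nat_lit 76) (nat_lit 742669365075) (nat_lit 1) (nat_lit 4) (nat_lit 2) (nat_lit 5) (nat_lit 2) (nat_lit 4) (nat_lit 528) (nat_lit 368) (nat_lit 304)))) (XT.nd (nat_lit 156) (nat_lit 0) (nat_lit 0) (XT.nd (nat_lit 78) (nat_lit 0) (nat_lit 0) (XT.lf (nat_lit 0) (nat_lit 6723212896840) (nat_lit 76) (nat_lit 796503605696) (nat_lit 76) (nat_lit 796044281226) (nat_lit 1) (nat_lit 4) (nat_lit 2) (nat_lit 5) (nat_lit 2) (nat_lit 4) (nat_lit 529) (nat_lit 368) (nat_lit 303)) (XT.lf (nat_lit 0) (nat_lit 7272721707843) (nat_lit 76) (nat_lit 854154950449) (nat_lit 76) (nat_lit 853695395744) (nat_lit 1) (nat_lit 4) (nat_lit 2) (nat_lit 5) (nat_lit 2) (nat_lit 4) (nat_lit 530) (nat_lit 368) (nat_lit 302))) (XT.nd (nat_lit 78) (nat_lit 0) (nat_lit 0) (XT.lf (nat_lit 0) (nat_lit 7866180193913) (nat_lit 76) (nat_lit 916424112749) (nat_lit 76) (nat_lit 915964344864) (nat_lit 1) (nat_lit 4)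 (nat_lit 2) (nat_lit 5) (nat_lit 2) (nat_lit 4) (nat_lit 531) (nat_lit 368) (nat_lit 301)) (XT.lf (nat_lit 0) (nat_lit 8507105146078) (nat_lit 76) (nat_lit 983680095039) (nat_lit 76) (nat_lit 983220129765) (nat_lit 1) (nat_lit 4) (nat_lit 2) (nat_lit 5) (nat_lit 2) (nat_lit 4) (nat_lit 532) (nat_lit 368) (nat_lit 300)))))) (XT.nd (nat_lit 546) (nat_lit 0) (nat_lit 0) (XT.nd (nat_lit 234) (nat_lit 0) (nat_lit 0) (XT.nd (nat_lit 78) (nat_lit 0) (nat_lit 0) (XT.lf (nat_lit 0) (nat_lit 9199294638128) (nat_lit 76) (nat_lit 1056321451289) (nat_lit 76) (nat_lit 1055861303248) (nat_lit 1) (nat_lit 4) (nat_lit 2) (nat_lit 5) (nat_lit 2) (nat_lit 4) (nat_lit 533) (nat_lit 368) (nat_lit 299)) (XT.nd (nat_lit 78) (nat_lit 0) (nat_lit 0) (XT.lf (nat_lit 0) (nat_lit 9946850533721) (nat_lit 76) (nat_lit 1134778648795) (nat_lit 76) (nat_lit 1134318331524) (nat_lit 1) (nat_lit 4) (nat_lit 2) (nat_lit 5)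 (nat_lit 2) (nat_lit 4) (nat_lit 534) (nat_lit 368) (nat_lit 298)) (XT.lf (nat_lit 0) (nat_lit 10754202793720) (nat_lit 76) (nat_lit 1219516619097) (nat_lit 76) (nat_lit 1219056145133) (nat_lit 1) (nat_lit 4) (nat_lit 2) (nat_lit 5) (nat_lit 2) (nat_lit 4) (nat_lit 535) (nat_lit 368) (nat_lit 297)))) (XT.nd (nat_lit 156) (nat_lit 0) (nat_lit 0) (XT.nd (nat_lit 78) (nat_lit 0) (nat_lit 0) (XT.lf (nat_lit 0) (nat_lit 11626135727812) (nat_lit 76) (nat_lit 1311037513131) (nat_lit 76) (nat_lit 1310576894080) (nat_lit 1) (nat_lit 4) (nat_lit 2) (nat_lit 5) (nat_lit 2) (nat_lit 4) (nat_lit 536) (nat_lit 368) (nat_lit 296)) (XT.lf (nat_lit 0) (nat_lit 12567816345978) (nat_lit 76) (nat_lit 1409883676936) (nat_lit 76) (nat_lit 1409422923545) (nat_lit 1) (nat_lit 4) (nat_lit 2) (nat_lit 5) (nat_lit 2) (nat_lit 4) (nat_lit 537) (nat_lit 368) (nat_lit 295))) (XT.nd (nat_lit 78) (nat_lit 0) (nat_lit 0)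 (XT.lf (nat_lit 0) (nat_lit 13584824977808) (nat_lit 76) (nat_lit 1516640865556) (nat_lit 76) (nat_lit 1516179987776) (nat_lit 1) (nat_lit 4) (nat_lit 2) (nat_lit 5) (nat_lit 2) (nat_lit 4) (nat_lit 538) (nat_lit 368) (nat_lit 294)) (XT.lf (nat_lit 0) (nat_lit 14683188341118) (nat_lit 76) (nat_lit 1631941714182) (nat_lit 76) (nat_lit 1631480721228) (nat_lit 1) (nat_lit 4) (nat_lit 2) (nat_lit 5) (nat_lit 2) (nat_lit 4) (nat_lit 539) (nat_lit 368) (nat_lit 293))))) (XT.nd (nat_lit 234) (nat_lit 0) (nat_lit 0) (XT.nd (nat_lit 78) (nat_lit 0) (nat_lit 0) (XT.lf (nat_lit 0) (nat_lit 15869415255841) (nat_lit 76) (nat_lit 1756469487104) (nat_lit 76) (nat_lit 1756008387507) (nat_lit 1) (nat_lit 4) (nat_lit 2) (nat_lit 5) (nat_lit 2) (nat_lit 4) (nat_lit 540) (nat_lit 368) (nat_lit 292)) (XT.nd (nat_lit 78) (nat_lit 0) (nat_lit 0) (XT.lf (nat_lit 0) (nat_lit 17150535214803) (nat_lit 76) (nat_lit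 1890962126680) (nat_lit 76) (nat_lit 1890500928339) (nat_lit 1) (nat_lit 4) (nat_lit 2) (nat_lit 5) (nat_lit 2) (nat_lit 4) (nat_lit 541) (nat_lit 368) (nat_lit 291)) (XT.lf (nat_lit 0) (nat_lit 18534140039985) (nat_lit 76) (nat_lit 2036216626328) (nat_lit 76) (nat_lit 2035755336557) (nat_lit 1) (nat_lit 4) (nat_lit 2) (nat_lit 5) (nat_lit 2) (nat_lit 4) (nat_lit 542) (nat_lit 368) (nat_lit 290)))) (XT.nd (nat_lit 56160) (nat_lit 0) (nat_lit 456) (XT.nd (nat_lit 78) (nat_lit 0) (nat_lit 0) (XT.lf (nat_lit 0) (nat_lit 20028428871090) (nat_lit 76) (nat_lit 2193093753454) (nat_lit 76) (nat_lit 2192632379027) (nat_lit 1) (nat_lit 4) (nat_lit 2) (nat_lit 5) (nat_lit 2) (nat_lit 4) (nat_lit 543) (nat_lit 368) (nat_lit 289)) (XT.lf (nat_lit 0) (nat_lit 21642256753044) (nat_lit 76) (nat_lit 2362523150294) (nat_lit 76) (nat_lit 2362061697481) (nat_lit 1) (nat_lit 4) (nat_lit 2) (nat_lit 5) (nat_lit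 2) (nat_lit 4) (nat_lit 544) (nat_lit 368) (nat_lit 288))) (XT.nd (nat_lit 78) (nat_lit 76) (nat_lit 0) (XT.lf (nat_lit 0) (nat_lit 12215063329) (nat_lit 152) (nat_lit 4584171075) (nat_lit 0) (nat_lit 12215063329) (nat_lit 8) (nat_lit 5) (nat_lit 10) (nat_lit 4) (nat_lit 8) (nat_lit 4) (nat_lit 462) (nat_lit 369) (nat_lit 369)) (XT.lf (nat_lit 0) (nat_lit 16277141261) (nat_lit 76) (nat_lit 22712372074) (nat_lit 76) (nat_lit 22669221559) (nat_lit 7) (nat_lit 4) (nat_lit 8) (nat_lit 5) (nat_lit 8) (nat_lit 4) (nat_lit 463) (nat_lit 369) (nat_lit 368))))))) (XT.nd (nat_lit 1092) (nat_lit 76) (nat_lit 0) (XT.nd (nat_lit 546) (nat_lit 152) (nat_lit 0) (XT.nd (nat_lit 234) (nat_lit 76) (nat_lit 0) (XT.nd (nat_lit 78) (nat_lit 152) (nat_lit 0) (XT.lf (nat_lit 0) (nat_lit 42977829001) (nat_lit 76) (nat_lit 11357417303) (nat_lit 76) (nat_lit 11274312609) (nat_lit 7) (nat_lit 4) (nat_lit 8) (nat_lit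 5) (nat_lit 8) (nat_lit 4) (nat_lit 464) (nat_lit 369) (nat_lit 367)) (XT.nd (nat_lit 78) (nat_lit 0) (nat_lit 0) (XT.lf (nat_lit 0) (nat_lit 407567104) (nat_lit 152) (nat_lit 69216371703) (nat_lit 0) (nat_lit 296364043) (nat_lit 5) (nat_lit 5) (nat_lit 7) (nat_lit 4) (nat_lit 5) (nat_lit 4) (nat_lit 465) (nat_lit 369) (nat_lit 366)) (XT.lf (nat_lit 0) (nat_lit 12747423567) (nat_lit 152) (nat_lit 49173950279) (nat_lit 0) (nat_lit 12604503591) (nat_lit 5) (nat_lit 5) (nat_lit 7) (nat_lit 4) (nat_lit 5) (nat_lit 4) (nat_lit 466) (nat_lit 369) (nat_lit 365)))) (XT.nd (nat_lit 156) (nat_lit 76) (nat_lit 0) (XT.nd (nat_lit 78) (nat_lit 0) (nat_lit 0) (XT.lf (nat_lit 0) (nat_lit 25521385333) (nat_lit 152) (nat_lit 28673662258) (nat_lit 0) (nat_lit 25349097842) (nat_lit 5) (nat_lit 5) (nat_lit 7) (nat_lit 4) (nat_lit 5) (nat_lit 4) (nat_lit 467) (nat_lit 369) (nat_lit 364)) (XT.lf (nat_lit 0) (nat_lit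 38805149953) (nat_lit 152) (nat_lit 7594024449) (nat_lit 0) (nat_lit 38605670319) (nat_lit 5) (nat_lit 5) (nat_lit 7) (nat_lit 4) (nat_lit 5) (nat_lit 4) (nat_lit 468) (nat_lit 369) (nat_lit 363))) (XT.nd (nat_lit 78) (nat_lit 0) (nat_lit 0) (XT.lf (nat_lit 0) (nat_lit 14937093426) (nat_lit 76) (nat_lit 38099580062) (nat_lit 76) (nat_lit 37874922517) (nat_lit 4) (nat_lit 4) (nat_lit 5) (nat_lit 5) (nat_lit 5) (nat_lit 4) (nat_lit 469) (nat_lit 369) (nat_lit 362)) (XT.lf (nat_lit 0) (nat_lit 38745338181) (nat_lit 76) (nat_lit 29406937845) (nat_lit 76) (nat_lit 29158967420) (nat_lit 4) (nat_lit 4) (nat_lit 5) (nat_lit 5) (nat_lit 5) (nat_lit 4) (nat_lit 470) (nat_lit 369) (nat_lit 361))))) (XT.nd (nat_lit 234) (nat_lit 152) (nat_lit 0) (XT.nd (nat_lit 78) (nat_lit 0) (nat_lit 0) (XT.lf (nat_lit 0) (nat_lit 63571907838) (nat_lit 76) (nat_lit 20477369884) (nat_lit 76) (nat_lit 20207813458) (nat_lit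 4) (nat_lit 4) (nat_lit 5) (nat_lit 5) (nat_lit 5) (nat_lit 4) (nat_lit 471) (nat_lit 369) (nat_lit 360)) (XT.nd (nat_lit 78) (nat_lit 0) (nat_lit 0) (XT.lf (nat_lit 0) (nat_lit 89563922812) (nat_lit 76) (nat_lit 11257960220) (nat_lit 76) (nat_lit 10968416758) (nat_lit 4) (nat_lit 4) (nat_lit 5) (nat_lit 5) (nat_lit 5) (nat_lit 4) (nat_lit 472) (nat_lit 369) (nat_lit 359)) (XT.lf (nat_lit 0) (nat_lit 116875409857) (nat_lit 76) (nat_lit 1694075316) (nat_lit 76) (nat_lit 1386025337) (nat_lit 4) (nat_lit 4) (nat_lit 5) (nat_lit 5) (nat_lit 5) (nat_lit 4) (nat_lit 473) (nat_lit 369) (nat_lit 358)))) (XT.nd (nat_lit 156) (nat_lit 0) (nat_lit 0) (XT.nd (nat_lit 78) (nat_lit 0) (nat_lit 0) (XT.lf (nat_lit 0) (nat_lit 8803154744) (nat_lit 152) (nat_lit 111428397231) (nat_lit 0) (nat_lit 8502056927) (nat_lit 2) (nat_lit 5) (nat_lit 4) (nat_lit 4) (nat_lit 2) (nat_lit 4) (nat_lit 474) (nat_lit 369)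 (nat_lit 357)) (XT.lf (nat_lit 0) (nat_lit 19514662087) (nat_lit 152) (nat_lit 99514974278) (nat_lit 0) (nat_lit 19198873202) (nat_lit 2) (nat_lit 5) (nat_lit 4) (nat_lit 4) (nat_lit 2) (nat_lit 4) (nat_lit 475) (nat_lit 369) (nat_lit 356))) (XT.nd (nat_lit 78) (nat_lit 0) (nat_lit 0) (XT.lf (nat_lit 0) (nat_lit 30760561725) (nat_lit 152) (nat_lit 87317073189) (nat_lit 0) (nat_lit 30431169998) (nat_lit 2) (nat_lit 5) (nat_lit 4) (nat_lit 4) (nat_lit 2) (nat_lit 4) (nat_lit 476) (nat_lit 369) (nat_lit 355)) (XT.lf (nat_lit 0) (nat_lit 42607496026) (nat_lit 152) (nat_lit 74762410104) (nat_lit 0) (nat_lit 42265509075) (nat_lit 2) (nat_lit 5) (nat_lit 4) (nat_lit 4) (nat_lit 2) (nat_lit 4) (nat_lit 477) (nat_lit 369) (nat_lit 354)))))) (XT.nd (nat_lit 546) (nat_lit 0) (nat_lit 0) (XT.nd (nat_lit 234) (nat_lit 76) (nat_lit 0) (XT.nd (nat_lit 78) (nat_lit 0) (nat_lit 0) (XT.lf (nat_lit 0) (nat_lit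 55125669045) (nat_lit 152) (nat_lit 61776587021) (nat_lit 0) (nat_lit 54772019850) (nat_lit 2) (nat_lit 5) (nat_lit 4) (nat_lit 4) (nat_lit 2) (nat_lit 4) (nat_lit 478) (nat_lit 369) (nat_lit 353)) (XT.nd (nat_lit 78) (nat_lit 0) (nat_lit 0) (XT.lf (nat_lit 0) (nat_lit 68389262548) (nat_lit 152) (nat_lit 48282650913) (nat_lit 0) (nat_lit 68024814979) (nat_lit 2) (nat_lit 5) (nat_lit 4) (nat_lit 4) (nat_lit 2) (nat_lit 4) (nat_lit 479) (nat_lit 369) (nat_lit 352)) (XT.lf (nat_lit 0) (nat_lit 82476875608) (nat_lit 152) (nat_lit 34200637714) (nat_lit 0) (nat_lit 82102429544) (nat_lit 2) (nat_lit 5) (nat_lit 4) (nat_lit 4) (nat_lit 2) (nat_lit 4) (nat_lit 480) (nat_lit 369) (nat_lit 351)))) (XT.nd (nat_lit 156) (nat_lit 76) (nat_lit 0) (XT.nd (nat_lit 78) (nat_lit 0) (nat_lit 0) (XT.lf (nat_lit 0) (nat_lit 97471990377) (nat_lit 152) (nat_lit 19447098458) (nat_lit 0) (nat_lit 97088286447) (nat_lit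 2) (nat_lit 5) (nat_lit 4) (nat_lit 4) (nat_lit 2) (nat_lit 4) (nat_lit 481) (nat_lit 369) (nat_lit 350)) (XT.lf (nat_lit 0) (nat_lit 113463466793) (nat_lit 152) (nat_lit 3934604764) (nat_lit 0) (nat_lit 113071190765) (nat_lit 2) (nat_lit 5) (nat_lit 4) (nat_lit 4) (nat_lit 2) (nat_lit 4) (nat_lit 482) (nat_lit 369) (nat_lit 349))) (XT.nd (nat_lit 78) (nat_lit 0) (nat_lit 0) (XT.lf (nat_lit 0) (nat_lit 13083246219) (nat_lit 76) (nat_lit 117777475328) (nat_lit 76) (nat_lit 117377262173) (nat_lit 1) (nat_lit 4) (nat_lit 2) (nat_lit 5) (nat_lit 2) (nat_lit 4) (nat_lit 483) (nat_lit 369) (nat_lit 348)) (XT.lf (nat_lit 0) (nat_lit 31306047007) (nat_lit 76) (nat_lit 118267891894) (nat_lit 76) (nat_lit 117860329547) (nat_lit 1) (nat_lit 4) (nat_lit 2) (nat_lit 5) (nat_lit 2) (nat_lit 4) (nat_lit 484) (nat_lit 369) (nat_lit 347))))) (XT.nd (nat_lit 312) (nat_lit 0) (nat_lit 0) (XT.nd (nat_lit 156)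 (nat_lit 0) (nat_lit 0) (XT.nd (nat_lit 78) (nat_lit 0) (nat_lit 0) (XT.lf (nat_lit 0) (nat_lit 50634595253) (nat_lit 76) (nat_lit 118979806494) (nat_lit 76) (nat_lit 118565439340) (nat_lit 1) (nat_lit 4) (nat_lit 2) (nat_lit 5) (nat_lit 2) (nat_lit 4) (nat_lit 485) (nat_lit 369) (nat_lit 346)) (XT.lf (nat_lit 0) (nat_lit 71183430501) (nat_lit 76) (nat_lit 119917437883) (nat_lit 76) (nat_lit 119496769981) (nat_lit 1) (nat_lit 4) (nat_lit 2) (nat_lit 5) (nat_lit 2) (nat_lit 4) (nat_lit 486) (nat_lit 369) (nat_lit 345))) (XT.nd (nat_lit 78) (nat_lit 0) (nat_lit 0) (XT.lf (nat_lit 0) (nat_lit 93074323627) (nat_lit 76) (nat_lit 121086342394) (nat_lit 76) (nat_lit 120659840466) (nat_lit 1) (nat_lit 4) (nat_lit 2) (nat_lit 5) (nat_lit 2) (nat_lit 4) (nat_lit 487) (nat_lit 369) (nat_lit 344)) (XT.lf (nat_lit 0) (nat_lit 116436998442) (nat_lit 76) (nat_lit 122493446868) (nat_lit 76) (nat_lit 122061543065)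 (nat_lit 1) (nat_lit 4) (nat_lit 2) (nat_lit 5) (nat_lit 2) (nat_lit 4) (nat_lit 488) (nat_lit 369) (nat_lit 343)))) (XT.nd (nat_lit 156) (nat_lit 0) (nat_lit 0) (XT.nd (nat_lit 78) (nat_lit 0) (nat_lit 0) (XT.lf (nat_lit 0) (nat_lit 141409900427) (nat_lit 76) (nat_lit 124147089703) (nat_lit 76) (nat_lit 123710184164) (nat_lit 1) (nat_lit 4) (nat_lit 2) (nat_lit 5) (nat_lit 2) (nat_lit 4) (nat_lit 489) (nat_lit 369) (nat_lit 342)) (XT.lf (nat_lit 0) (nat_lit 168141017149) (nat_lit 76) (nat_lit 126057070264) (nat_lit 76) (nat_lit 125615533487) (nat_lit 1) (nat_lit 4) (nat_lit 2) (nat_lit 5) (nat_lit 2) (nat_lit 4) (nat_lit 490) (nat_lit 369) (nat_lit 341))) (XT.nd (nat_lit 78) (nat_lit 0) (nat_lit 0) (XT.lf (nat_lit 0) (nat_lit 196788755226) (nat_lit 76) (nat_lit 128234706954) (nat_lit 76) (nat_lit 127788881993) (nat_lit 1) (nat_lit 4) (nat_lit 2) (nat_lit 5) (nat_lit 2) (nat_lit 4) (nat_lit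 491) (nat_lit 369) (nat_lit 340)) (XT.lf (nat_lit 0) (nat_lit 227522879031) (nat_lit 76) (nat_lit 130692904286) (nat_lit 76) (nat_lit 130243108785) (nat_lit 1) (nat_lit 4) (nat_lit 2) (nat_lit 5) (nat_lit 2) (nat_lit 4) (nat_lit 492) (nat_lit 369) (nat_lit 339))))))))
noncomputable def xc31 : XT := (XT.nd (nat_lit 2184) (nat_lit 0) (nat_lit 0) (XT.nd (nat_lit 1092) (nat_lit 0) (nat_lit 0) (XT.nd (nat_lit 546) (nat_lit 0) (nat_lit 0) (XT.nd (nat_lit 234) (nat_lit 0) (nat_lit 0) (XT.nd (nat_lit 78) (nat_lit 0) (nat_lit 0) (XT.lf (nat_lit 0) (nat_lit 260525516705) (nat_lit 76) (nat_lit 133446229356) (nat_lit 76) (nat_lit 132992757430) (nat_lit 1) (nat_lit 4) (nat_lit 2) (nat_lit 5) (nat_lit 2) (nat_lit 4) (nat_lit 493) (nat_lit 369) (nat_lit 338)) (XT.nd (nat_lit 78) (nat_lit 0) (nat_lit 0) (XT.lf (nat_lit 0) (nat_lit 295992239435) (nat_lit 76) (nat_lit 136510998164) (nat_lit 76) (nat_lit 136054122140)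 (nat_lit 1) (nat_lit 4) (nat_lit 2) (nat_lit 5) (nat_lit 2) (nat_lit 4) (nat_lit 494) (nat_lit 369) (nat_lit 337)) (XT.lf (nat_lit 0) (nat_lit 334133220392) (nat_lit 76) (nat_lit 139905372304) (nat_lit 76) (nat_lit 139445344337) (nat_lit 1) (nat_lit 4) (nat_lit 2) (nat_lit 5) (nat_lit 2) (nat_lit 4) (nat_lit 495) (nat_lit 369) (nat_lit 336)))) (XT.nd (nat_lit 156) (nat_lit 0) (nat_lit 0) (XT.nd (nat_lit 78) (nat_lit 0) (nat_lit 0) (XT.lf (nat_lit 0) (nat_lit 375174480205) (nat_lit 76) (nat_lit 143649466584) (nat_lit 76) (nat_lit 143186520152) (nat_lit 1) (nat_lit 4) (nat_lit 2) (nat_lit 5) (nat_lit 2) (nat_lit 4) (nat_lit 496) (nat_lit 369) (nat_lit 335)) (XT.lf (nat_lit 0) (nat_lit 419359226338) (nat_lit 76) (nat_lit 147765468231) (nat_lit 76) (nat_lit 147299819516) (nat_lit 1) (nat_lit 4) (nat_lit 2) (nat_lit 5) (nat_lit 2) (nat_lit 4) (nat_lit 497) (nat_lit 369) (nat_lit 334))) (XT.nd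 (nat_lit 78) (nat_lit 0) (nat_lit 0) (XT.lf (nat_lit 0) (nat_lit 466949294325) (nat_lit 76) (nat_lit 152277768365) (nat_lit 76) (nat_lit 151809617537) (nat_lit 1) (nat_lit 4) (nat_lit 2) (nat_lit 5) (nat_lit 2) (nat_lit 4) (nat_lit 498) (nat_lit 369) (nat_lit 333)) (XT.lf (nat_lit 0) (nat_lit 518226699382) (nat_lit 76) (nat_lit 157213106542) (nat_lit 76) (nat_lit 156742638942) (nat_lit 1) (nat_lit 4) (nat_lit 2) (nat_lit 5) (nat_lit 2) (nat_lit 4) (nat_lit 499) (nat_lit 369) (nat_lit 332))))) (XT.nd (nat_lit 234) (nat_lit 0) (nat_lit 0) (XT.nd (nat_lit 78) (nat_lit 0) (nat_lit 0) (XT.lf (nat_lit 0) (nat_lit 573495307615) (nat_lit 76) (nat_lit 162600729212) (nat_lit 76) (nat_lit 162128116453) (nat_lit 1) (nat_lit 4) (nat_lit 2) (nat_lit 5) (nat_lit 2) (nat_lit 4) (nat_lit 500) (nat_lit 369) (nat_lit 331)) (XT.nd (nat_lit 78) (nat_lit 0) (nat_lit 0) (XT.lf (nat_lit 0) (nat_lit 633082636702)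 (nat_lit 76) (nat_lit 168472563026) (nat_lit 76) (nat_lit 167997964009) (nat_lit 1) (nat_lit 4) (nat_lit 2) (nat_lit 5) (nat_lit 2) (nat_lit 4) (nat_lit 501) (nat_lit 369) (nat_lit 330)) (XT.lf (nat_lit 0) (nat_lit 697341796740) (nat_lit 76) (nat_lit 174863404038) (nat_lit 76) (nat_lit 174386965892) (nat_lit 1) (nat_lit 4) (nat_lit 2) (nat_lit 5) (nat_lit 2) (nat_lit 4) (nat_lit 502) (nat_lit 369) (nat_lit 329)))) (XT.nd (nat_lit 156) (nat_lit 0) (nat_lit 0) (XT.nd (nat_lit 78) (nat_lit 0) (nat_lit 0) (XT.lf (nat_lit 0) (nat_lit 766653582753) (nat_lit 76) (nat_lit 181811123897) (nat_lit 76) (nat_lit 181332982854) (nat_lit 1) (nat_lit 4) (nat_lit 2) (nat_lit 5) (nat_lit 2) (nat_lit 4) (nat_lit 503) (nat_lit 369) (nat_lit 328)) (XT.lf (nat_lit 0) (nat_lit 841428731250) (nat_lit 76) (nat_lit 189356894276) (nat_lit 76) (nat_lit 188877176478) (nat_lit 1) (nat_lit 4) (nat_lit 2) (nat_lit 5) (nat_lit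 2) (nat_lit 4) (nat_lit 504) (nat_lit 369) (nat_lit 327))) (XT.nd (nat_lit 78) (nat_lit 0) (nat_lit 0) (XT.lf (nat_lit 0) (nat_lit 922110354222) (nat_lit 76) (nat_lit 197545430853) (nat_lit 76) (nat_lit 197064253096) (nat_lit 1) (nat_lit 4) (nat_lit 2) (nat_lit 5) (nat_lit 2) (nat_lit 4) (nat_lit 505) (nat_lit 369) (nat_lit 326)) (XT.lf (nat_lit 0) (nat_lit 1009176564991) (nat_lit 76) (nat_lit 206425258288) (nat_lit 76) (nat_lit 205942728717) (nat_lit 1) (nat_lit 4) (nat_lit 2) (nat_lit 5) (nat_lit 2) (nat_lit 4) (nat_lit 506) (nat_lit 369) (nat_lit 325)))))) (XT.nd (nat_lit 546) (nat_lit 0) (nat_lit 0) (XT.nd (nat_lit 234) (nat_lit 0) (nat_lit 0) (XT.nd (nat_lit 78) (nat_lit 0) (nat_lit 0) (XT.lf (nat_lit 0) (nat_lit 1103143311471) (nat_lit 76) (nat_lit 216048997781) (nat_lit 76) (nat_lit 215565216530) (nat_lit 1) (nat_lit 4) (nat_lit 2) (nat_lit 5) (nat_lit 2) (nat_lit 4) (nat_lit 507)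 (nat_lit 369) (nat_lit 324)) (XT.nd (nat_lit 78) (nat_lit 0) (nat_lit 0) (XT.lf (nat_lit 0) (nat_lit 1204567433643) (nat_lit 76) (nat_lit 226473678899) (nat_lit 76) (nat_lit 225988738685) (nat_lit 1) (nat_lit 4) (nat_lit 2) (nat_lit 5) (nat_lit 2) (nat_lit 4) (nat_lit 508) (nat_lit 369) (nat_lit 323)) (XT.lf (nat_lit 0) (nat_lit 1314049963341) (nat_lit 76) (nat_lit 237761077531) (nat_lit 76) (nat_lit 237275064203) (nat_lit 1) (nat_lit 4) (nat_lit 2) (nat_lit 5) (nat_lit 2) (nat_lit 4) (nat_lit 509) (nat_lit 369) (nat_lit 322)))) (XT.nd (nat_lit 156) (nat_lit 0) (nat_lit 0) (XT.nd (nat_lit 78) (nat_lit 0) (nat_lit 0) (XT.lf (nat_lit 0) (nat_lit 1432239685927) (nat_lit 76) (nat_lit 249978081964) (nat_lit 76) (nat_lit 249491075013) (nat_lit 1) (nat_lit 4) (nat_lit 2) (nat_lit 5) (nat_lit 2) (nat_lit 4) (nat_lit 510) (nat_lit 369) (nat_lit 321)) (XT.lf (nat_lit 0) (nat_lit 1559836984942) (nat_lit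 76) (nat_lit 263197089262) (nat_lit 76) (nat_lit 262709162289) (nat_lit 1) (nat_lit 4) (nat_lit 2) (nat_lit 5) (nat_lit 2) (nat_lit 4) (nat_lit 511) (nat_lit 369) (nat_lit 320))) (XT.nd (nat_lit 78) (nat_lit 0) (nat_lit 0) (XT.lf (nat_lit 0) (nat_lit 1697597992527) (nat_lit 76) (nat_lit 277496434283) (nat_lit 76) (nat_lit 277007655437) (nat_lit 1) (nat_lit 4) (nat_lit 2) (nat_lit 5) (nat_lit 2) (nat_lit 4) (nat_lit 512) (nat_lit 369) (nat_lit 319)) (XT.lf (nat_lit 0) (nat_lit 1846339070210) (nat_lit 76) (nat_lit 292960853886) (nat_lit 76) (nat_lit 292471286270) (nat_lit 1) (nat_lit 4) (nat_lit 2) (nat_lit 5) (nat_lit 2) (nat_lit 4) (nat_lit 513) (nat_lit 369) (nat_lit 318))))) (XT.nd (nat_lit 234) (nat_lit 0) (nat_lit 0) (XT.nd (nat_lit 78) (nat_lit 0) (nat_lit 0) (XT.lf (nat_lit 0) (nat_lit 2006941646599) (nat_lit 76) (nat_lit 309681989077) (nat_lit 76) (nat_lit 309191691117) (nat_lit 1)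 (nat_lit 4) (nat_lit 2) (nat_lit 5) (nat_lit 2) (nat_lit 4) (nat_lit 514) (nat_lit 369) (nat_lit 317)) (XT.nd (nat_lit 78) (nat_lit 0) (nat_lit 0) (XT.lf (nat_lit 0) (nat_lit 2180357440666) (nat_lit 76) (nat_lit 327758928063) (nat_lit 76) (nat_lit 327267953860) (nat_lit 1) (nat_lit 4) (nat_lit 2) (nat_lit 5) (nat_lit 2) (nat_lit 4) (nat_lit 515) (nat_lit 369) (nat_lit 316)) (XT.lf (nat_lit 0) (nat_lit 2367614101559) (nat_lit 76) (nat_lit 347298793447) (nat_lit 76) (nat_lit 346807193093) (nat_lit 1) (nat_lit 4) (nat_lit 2) (nat_lit 5) (nat_lit 2) (nat_lit 4) (nat_lit 516) (nat_lit 369) (nat_lit 315)))) (XT.nd (nat_lit 156) (nat_lit 0) (nat_lit 0) (XT.nd (nat_lit 78) (nat_lit 0) (nat_lit 0) (XT.lf (nat_lit 0) (nat_lit 2569821298382) (nat_lit 76) (nat_lit 368417377023) (nat_lit 76) (nat_lit 367925196899) (nat_lit 1) (nat_lit 4) (nat_lit 2) (nat_lit 5) (nat_lit 2) (nat_lit 4) (nat_lit 517) (nat_lit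 369) (nat_lit 314)) (XT.lf (nat_lit 0) (nat_lit 2788177296003) (nat_lit 76) (nat_lit 391239825953) (nat_lit 76) (nat_lit 390747109005) (nat_lit 1) (nat_lit 4) (nat_lit 2) (nat_lit 5) (nat_lit 2) (nat_lit 4) (nat_lit 518) (nat_lit 369) (nat_lit 313))) (XT.nd (nat_lit 78) (nat_lit 0) (nat_lit 0) (XT.lf (nat_lit 0) (nat_lit 3023976055891) (nat_lit 76) (nat_lit 415901384379) (nat_lit 76) (nat_lit 415408170371) (nat_lit 1) (nat_lit 4) (nat_lit 2) (nat_lit 5) (nat_lit 2) (nat_lit 4) (nat_lit 519) (nat_lit 369) (nat_lit 312)) (XT.lf (nat_lit 0) (nat_lit 3278614904029) (nat_lit 76) (nat_lit 442548194869) (nat_lit 76) (nat_lit 442054520622) (nat_lit 1) (nat_lit 4) (nat_lit 2) (nat_lit 5) (nat_lit 2) (nat_lit 4) (nat_lit 520) (nat_lit 369) (nat_lit 311))))))) (XT.nd (nat_lit 1092) (nat_lit 0) (nat_lit 0) (XT.nd (nat_lit 546) (nat_lit 0) (nat_lit 0) (XT.nd (nat_lit 234) (nat_lit 0) (nat_lit 0) (XT.nd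 (nat_lit 78) (nat_lit 0) (nat_lit 0) (XT.lf (nat_lit 0) (nat_lit 3553602811370) (nat_lit 76) (nat_lit 471338164449) (nat_lit 76) (nat_lit 470844064053) (nat_lit 1) (nat_lit 4) (nat_lit 2) (nat_lit 5) (nat_lit 2) (nat_lit 4) (nat_lit 521) (nat_lit 369) (nat_lit 310)) (XT.nd (nat_lit 78) (nat_lit 0) (nat_lit 0) (XT.lf (nat_lit 0) (nat_lit 3850569335883) (nat_lit 76) (nat_lit 502441900345) (nat_lit 76) (nat_lit 501947405368) (nat_lit 1) (nat_lit 4) (nat_lit 2) (nat_lit 5) (nat_lit 2) (nat_lit 4) (nat_lit 522) (nat_lit 369) (nat_lit 309)) (XT.lf (nat_lit 0) (nat_lit 4171274279195) (nat_lit 76) (nat_lit 536043720993) (nat_lit 76) (nat_lit 535548860663) (nat_lit 1) (nat_lit 4) (nat_lit 2) (nat_lit 5) (nat_lit 2) (nat_lit 4) (nat_lit 523) (nat_lit 369) (nat_lit 308)))) (XT.nd (nat_lit 156) (nat_lit 0) (nat_lit 0) (XT.nd (nat_lit 78) (nat_lit 0) (nat_lit 0) (XT.lf (nat_lit 0) (nat_lit 4517618115044)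 (nat_lit 76) (nat_lit 572342748293) (nat_lit 76) (nat_lit 571847549672) (nat_lit 1) (nat_lit 4) (nat_lit 2) (nat_lit 5) (nat_lit 2) (nat_lit 4) (nat_lit 524) (nat_lit 369) (nat_lit 307)) (XT.lf (nat_lit 0) (nat_lit 4891653251347) (nat_lit 76) (nat_lit 611554087591) (nat_lit 76) (nat_lit 611058575739) (nat_lit 1) (nat_lit 4) (nat_lit 2) (nat_lit 5) (nat_lit 2) (nat_lit 4) (nat_lit 525) (nat_lit 369) (nat_lit 306))) (XT.nd (nat_lit 78) (nat_lit 0) (nat_lit 0) (XT.lf (nat_lit 0) (nat_lit 5295596192614) (nat_lit 76) (nat_lit 653910102381) (nat_lit 76) (nat_lit 653414300499) (nat_lit 1) (nat_lit 4) (nat_lit 2) (nat_lit 5) (nat_lit 2) (nat_lit 4) (nat_lit 526) (nat_lit 369) (nat_lit 305)) (XT.lf (nat_lit 0) (nat_lit 5731840674793) (nat_lit 76) (nat_lit 699661791267) (nat_lit 76) (nat_lit 699165720839) (nat_lit 1) (nat_lit 4) (nat_lit 2) (nat_lit 5) (nat_lit 2) (nat_lit 4) (nat_lit 527) (nat_lit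 369) (nat_lit 304))))) (XT.nd (nat_lit 234) (nat_lit 0) (nat_lit 0) (XT.nd (nat_lit 78) (nat_lit 0) (nat_lit 0) (XT.lf (nat_lit 0) (nat_lit 6202971850373) (nat_lit 76) (nat_lit 749080275369) (nat_lit 76) (nat_lit 748583956288) (nat_lit 1) (nat_lit 4) (nat_lit 2) (nat_lit 5) (nat_lit 2) (nat_lit 4) (nat_lit 528) (nat_lit 369) (nat_lit 303)) (XT.nd (nat_lit 78) (nat_lit 0) (nat_lit 0) (XT.lf (nat_lit 0) (nat_lit 6711781607800) (nat_lit 76) (nat_lit 802458404964) (nat_lit 76) (nat_lit 801961855648) (nat_lit 1) (nat_lit 4) (nat_lit 2) (nat_lit 5) (nat_lit 2) (nat_lit 4) (nat_lit 529) (nat_lit 369) (nat_lit 302)) (XT.lf (nat_lit 0) (nat_lit 7261285116008) (nat_lit 76) (nat_lit 860112494893) (nat_lit 76) (nat_lit 859615732397) (nat_lit 1) (nat_lit 4) (nat_lit 2) (nat_lit 5) (nat_lit 2) (nat_lit 4) (nat_lit 530) (nat_lit 369) (nat_lit 301)))) (XT.nd (nat_lit 156) (nat_lit 0) (nat_lit 0) (XT.nd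 (nat_lit 78) (nat_lit 0) (nat_lit 0) (XT.lf (nat_lit 0) (nat_lit 7854738692082) (nat_lit 76) (nat_lit 922384199023) (nat_lit 76) (nat_lit 921887239138) (nat_lit 1) (nat_lit 4) (nat_lit 2) (nat_lit 5) (nat_lit 2) (nat_lit 4) (nat_lit 531) (nat_lit 369) (nat_lit 300)) (XT.lf (nat_lit 0) (nat_lit 8495659097955) (nat_lit 76) (nat_lit 989642534860) (nat_lit 76) (nat_lit 989145392208) (nat_lit 1) (nat_lit 4) (nat_lit 2) (nat_lit 5) (nat_lit 2) (nat_lit 4) (nat_lit 532) (nat_lit 369) (nat_lit 299))) (XT.nd (nat_lit 78) (nat_lit 0) (nat_lit 0) (XT.lf (nat_lit 0) (nat_lit 9187844380476) (nat_lit 76) (nat_lit 1062286070319) (nat_lit 76) (nat_lit 1061788758438) (nat_lit 1) (nat_lit 4) (nat_lit 2) (nat_lit 5) (nat_lit 2) (nat_lit 4) (nat_lit 533) (nat_lit 369) (nat_lit 298)) (XT.lf (nat_lit 0) (nat_lit 9935396378357) (nat_lit 76) (nat_lit 1140745285612) (nat_lit 76) (nat_lit 1140247817036) (nat_lit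 1) (nat_lit 4) (nat_lit 2) (nat_lit 5) (nat_lit 2) (nat_lit 4) (nat_lit 534) (nat_lit 369) (nat_lit 297)))))) (XT.nd (nat_lit 546) (nat_lit 0) (nat_lit 0) (XT.nd (nat_lit 234) (nat_lit 0) (nat_lit 0) (XT.nd (nat_lit 78) (nat_lit 0) (nat_lit 0) (XT.lf (nat_lit 0) (nat_lit 10742745029362) (nat_lit 76) (nat_lit 1225485124235) (nat_lit 76) (nat_lit 1224987510573) (nat_lit 1) (nat_lit 4) (nat_lit 2) (nat_lit 5) (nat_lit 2) (nat_lit 4) (nat_lit 535) (nat_lit 369) (nat_lit 296)) (XT.nd (nat_lit 78) (nat_lit 0) (nat_lit 0) (XT.lf (nat_lit 0) (nat_lit 11614674621794) (nat_lit 76) (nat_lit 1317007748196) (nat_lit 76) (nat_lit 1316510000194) (nat_lit 1) (nat_lit 4) (nat_lit 2) (nat_lit 5) (nat_lit 2) (nat_lit 4) (nat_lit 536) (nat_lit 369) (nat_lit 295)) (XT.lf (nat_lit 0) (nat_lit 12556352145830) (nat_lit 76) (nat_lit 1415855513785) (nat_lit 76) (nat_lit 1415357641394) (nat_lit 1) (nat_lit 4) (nat_lit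 2) (nat_lit 5) (nat_lit 2) (nat_lit 4) (nat_lit 537) (nat_lit 369) (nat_lit 294)))) (XT.nd (nat_lit 156) (nat_lit 0) (nat_lit 0) (XT.nd (nat_lit 78) (nat_lit 0) (nat_lit 0) (XT.lf (nat_lit 0) (nat_lit 13573357912724) (nat_lit 76) (nat_lit 1522614185538) (nat_lit 76) (nat_lit 1522116197973) (nat_lit 1) (nat_lit 4) (nat_lit 2) (nat_lit 5) (nat_lit 2) (nat_lit 4) (nat_lit 538) (nat_lit 369) (nat_lit 293)) (XT.lf (nat_lit 0) (nat_lit 14671718623317) (nat_lit 76) (nat_lit 1637916407436) (nat_lit 76) (nat_lit 1637418313228) (nat_lit 1) (nat_lit 4) (nat_lit 2) (nat_lit 5) (nat_lit 2) (nat_lit 4) (nat_lit 539) (nat_lit 369) (nat_lit 292))) (XT.nd (nat_lit 78) (nat_lit 0) (nat_lit 0) (XT.lf (nat_lit 0) (nat_lit 15857943081819) (nat_lit 76) (nat_lit 1762445451906) (nat_lit 76) (nat_lit 1761947258954) (nat_lit 1) (nat_lit 4) (nat_lit 2) (nat_lit 5) (nat_lit 2) (nat_lit 4) (nat_lit 540) (nat_lit 369)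 (nat_lit 291)) (XT.lf (nat_lit 0) (nat_lit 17139060766504) (nat_lit 76) (nat_lit 1896939268840) (nat_lit 76) (nat_lit 1896440984459) (nat_lit 1) (nat_lit 4) (nat_lit 2) (nat_lit 5) (nat_lit 2) (nat_lit 4) (nat_lit 541) (nat_lit 369) (nat_lit 290))))) (XT.nd (nat_lit 56160) (nat_lit 0) (nat_lit 456) (XT.nd (nat_lit 156) (nat_lit 0) (nat_lit 0) (XT.nd (nat_lit 78) (nat_lit 0) (nat_lit 0) (XT.lf (nat_lit 0) (nat_lit 18522663485873) (nat_lit 76) (nat_lit 2042194858636) (nat_lit 76) (nat_lit 2041696489598) (nat_lit 1) (nat_lit 4) (nat_lit 2) (nat_lit 5) (nat_lit 2) (nat_lit 4) (nat_lit 542) (nat_lit 369) (nat_lit 289)) (XT.lf (nat_lit 0) (nat_lit 20016950367151) (nat_lit 76) (nat_lit 2199072995158) (nat_lit 76) (nat_lit 2198574547734) (nat_lit 1) (nat_lit 4) (nat_lit 2) (nat_lit 5) (nat_lit 2) (nat_lit 4) (nat_lit 543) (nat_lit 369) (nat_lit 288))) (XT.nd (nat_lit 55926) (nat_lit 0) (nat_lit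 684) (XT.lf (nat_lit 0) (nat_lit 21630776443710) (nat_lit 76) (nat_lit 2368503326623) (nat_lit 76) (nat_lit 2368004806620) (nat_lit 1) (nat_lit 4) (nat_lit 2) (nat_lit 5) (nat_lit 2) (nat_lit 4) (nat_lit 544) (nat_lit 369) (nat_lit 287)) (XT.lf (nat_lit 0) (nat_lit 23606203212) (nat_lit 76) (nat_lit 1096555944) (nat_lit 76) (nat_lit 1096555944) (nat_lit 10) (nat_lit 4) (nat_lit 11) (nat_lit 5) (nat_lit 11) (nat_lit 4) (nat_lit 460) (nat_lit 370) (nat_lit 370)))) (XT.nd (nat_lit 156) (nat_lit 76) (nat_lit 0) (XT.nd (nat_lit 78) (nat_lit 0) (nat_lit 0) (XT.lf (nat_lit 0) (nat_lit 10760509875) (nat_lit 152) (nat_lit 33211763588) (nat_lit 0) (nat_lit 10713907320) (nat_lit 8) (nat_lit 5) (nat_lit 10) (nat_lit 4) (nat_lit 8) (nat_lit 4) (nat_lit 461) (nat_lit 370) (nat_lit 369)) (XT.lf (nat_lit 0) (nat_lit 24166346595) (nat_lit 152) (nat_lit 9810486511) (nat_lit 0) (nat_lit 24076593525) (nat_lit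 8) (nat_lit 5) (nat_lit 10) (nat_lit 4) (nat_lit 8) (nat_lit 4) (nat_lit 462) (nat_lit 370) (nat_lit 368))) (XT.nd (nat_lit 78) (nat_lit 0) (nat_lit 0) (XT.lf (nat_lit 0) (nat_lit 14975295174) (nat_lit 76) (nat_lit 23431737353) (nat_lit 76) (nat_lit 23302030103) (nat_lit 7) (nat_lit 4) (nat_lit 8) (nat_lit 5) (nat_lit 8) (nat_lit 4) (nat_lit 463) (nat_lit 370) (nat_lit 367)) (XT.lf (nat_lit 0) (nat_lit 41096457413) (nat_lit 76) (nat_lit 12376267413) (nat_lit 76) (nat_lit 12209565552) (nat_lit 7) (nat_lit 4) (nat_lit 8) (nat_lit 5) (nat_lit 8) (nat_lit 4) (nat_lit 464) (nat_lit 370) (nat_lit 366))))))))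
noncomputable def xc32 : XT := (XT.nd (nat_lit 2184) (nat_lit 0) (nat_lit 0) (XT.nd (nat_lit 1092) (nat_lit 76) (nat_lit 0) (XT.nd (nat_lit 546) (nat_lit 152) (nat_lit 0) (XT.nd (nat_lit 234) (nat_lit 76) (nat_lit 0) (XT.nd (nat_lit 78) (nat_lit 152) (nat_lit 0) (XT.lf (nat_lit 0) (nat_lit 68191189443) (nat_lit 76) (nat_lit 1013145478) (nat_lit 76) (nat_lit 812189348) (nat_lit 7) (nat_lit 4) (nat_lit 8) (nat_lit 5) (nat_lit 8) (nat_lit 4) (nat_lit 465) (nat_lit 370) (nat_lit 365)) (XT.nd (nat_lit 78) (nat_lit 0) (nat_lit 0) (XT.lf (nat_lit 0) (nat_lit 11230613256) (nat_lit 152) (nat_lit 52404888007) (nat_lit 0) (nat_lit 11015175251) (nat_lit 5) (nat_lit 5) (nat_lit 7) (nat_lit 4) (nat_lit 5) (nat_lit 4) (nat_lit 466) (nat_lit 370) (nat_lit 364)) (XT.lf (nat_lit 0) (nat_lit 23758366327) (nat_lit 152) (nat_lit 32414539051) (nat_lit 0) (nat_lit 23515736178) (nat_lit 5) (nat_lit 5) (nat_lit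 7) (nat_lit 4) (nat_lit 5) (nat_lit 4) (nat_lit 467) (nat_lit 370) (nat_lit 363)))) (XT.nd (nat_lit 156) (nat_lit 0) (nat_lit 0) (XT.nd (nat_lit 78) (nat_lit 76) (nat_lit 0) (XT.lf (nat_lit 0) (nat_lit 36814159932) (nat_lit 152) (nat_lit 11807067043) (nat_lit 0) (nat_lit 36546351873) (nat_lit 5) (nat_lit 5) (nat_lit 7) (nat_lit 4) (nat_lit 5) (nat_lit 4) (nat_lit 468) (nat_lit 370) (nat_lit 362)) (XT.lf (nat_lit 0) (nat_lit 10041987239) (nat_lit 76) (nat_lit 40674884534) (nat_lit 76) (nat_lit 40383763594) (nat_lit 4) (nat_lit 4) (nat_lit 5) (nat_lit 5) (nat_lit 5) (nat_lit 4) (nat_lit 469) (nat_lit 370) (nat_lit 361))) (XT.nd (nat_lit 78) (nat_lit 0) (nat_lit 0) (XT.lf (nat_lit 0) (nat_lit 33424109553) (nat_lit 76) (nat_lit 32202668102) (nat_lit 76) (nat_lit 31889961162) (nat_lit 4) (nat_lit 4) (nat_lit 5) (nat_lit 5) (nat_lit 5) (nat_lit 4) (nat_lit 470) (nat_lit 370) (nat_lit 360)) (XT.lf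 (nat_lit 0) (nat_lit 57856121395) (nat_lit 76) (nat_lit 23477198090) (nat_lit 76) (nat_lit 23144504113) (nat_lit 4) (nat_lit 4) (nat_lit 5) (nat_lit 5) (nat_lit 5) (nat_lit 4) (nat_lit 471) (nat_lit 370) (nat_lit 359))))) (XT.nd (nat_lit 234) (nat_lit 0) (nat_lit 0) (XT.nd (nat_lit 78) (nat_lit 152) (nat_lit 0) (XT.lf (nat_lit 0) (nat_lit 83482805058) (nat_lit 76) (nat_lit 14446768009) (nat_lit 76) (nat_lit 14095567516) (nat_lit 4) (nat_lit 4) (nat_lit 5) (nat_lit 5) (nat_lit 5) (nat_lit 4) (nat_lit 472) (nat_lit 370) (nat_lit 358)) (XT.nd (nat_lit 78) (nat_lit 152) (nat_lit 0) (XT.lf (nat_lit 0) (nat_lit 110456022371) (nat_lit 76) (nat_lit 5057864200) (nat_lit 76) (nat_lit 4689528044) (nat_lit 4) (nat_lit 4) (nat_lit 5) (nat_lit 5) (nat_lit 5) (nat_lit 4) (nat_lit 473) (nat_lit 370) (nat_lit 357)) (XT.lf (nat_lit 0) (nat_lit 5243364400) (nat_lit 152) (nat_lit 118890606784) (nat_lit 0) (nat_lit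 4887621335) (nat_lit 2) (nat_lit 5) (nat_lit 4) (nat_lit 4) (nat_lit 2) (nat_lit 4) (nat_lit 474) (nat_lit 370) (nat_lit 356)))) (XT.nd (nat_lit 156) (nat_lit 0) (nat_lit 0) (XT.nd (nat_lit 78) (nat_lit 0) (nat_lit 0) (XT.lf (nat_lit 0) (nat_lit 15799810064) (nat_lit 152) (nat_lit 107298624071) (nat_lit 0) (nat_lit 15430464157) (nat_lit 2) (nat_lit 5) (nat_lit 4) (nat_lit 4) (nat_lit 2) (nat_lit 4) (nat_lit 475) (nat_lit 370) (nat_lit 355)) (XT.lf (nat_lit 0) (nat_lit 26902134073) (nat_lit 152) (nat_lit 95398352834) (nat_lit 0) (nat_lit 26520192942) (nat_lit 2) (nat_lit 5) (nat_lit 4) (nat_lit 4) (nat_lit 2) (nat_lit 4) (nat_lit 476) (nat_lit 370) (nat_lit 354))) (XT.nd (nat_lit 78) (nat_lit 0) (nat_lit 0) (XT.lf (nat_lit 0) (nat_lit 38616127977) (nat_lit 152) (nat_lit 83119272945) (nat_lit 0) (nat_lit 38222524602) (nat_lit 2) (nat_lit 5) (nat_lit 4) (nat_lit 4) (nat_lit 2) (nat_lit 4) (nat_lit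 477) (nat_lit 370) (nat_lit 353)) (XT.lf (nat_lit 0) (nat_lit 51011208036) (nat_lit 152) (nat_lit 70388619488) (nat_lit 0) (nat_lit 50606806286) (nat_lit 2) (nat_lit 5) (nat_lit 4) (nat_lit 4) (nat_lit 2) (nat_lit 4) (nat_lit 478) (nat_lit 370) (nat_lit 352)))))) (XT.nd (nat_lit 546) (nat_lit 0) (nat_lit 0) (XT.nd (nat_lit 234) (nat_lit 76) (nat_lit 0) (XT.nd (nat_lit 78) (nat_lit 0) (nat_lit 0) (XT.lf (nat_lit 0) (nat_lit 64160826576) (nat_lit 152) (nat_lit 57130951552) (nat_lit 0) (nat_lit 63746426332) (nat_lit 2) (nat_lit 5) (nat_lit 4) (nat_lit 4) (nat_lit 2) (nat_lit 4) (nat_lit 479) (nat_lit 370) (nat_lit 351)) (XT.nd (nat_lit 78) (nat_lit 0) (nat_lit 0) (XT.lf (nat_lit 0) (nat_lit 78142907262) (nat_lit 152) (nat_lit 43267705180) (nat_lit 0) (nat_lit 77719249153) (nat_lit 2) (nat_lit 5) (nat_lit 4) (nat_lit 4) (nat_lit 2) (nat_lit 4) (nat_lit 480) (nat_lit 370) (nat_lit 350)) (XT.lf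 (nat_lit 0) (nat_lit 93040306870) (nat_lit 152) (nat_lit 28716727800) (nat_lit 0) (nat_lit 92608076663) (nat_lit 2) (nat_lit 5) (nat_lit 4) (nat_lit 4) (nat_lit 2) (nat_lit 4) (nat_lit 481) (nat_lit 370) (nat_lit 349)))) (XT.nd (nat_lit 156) (nat_lit 0) (nat_lit 0) (XT.nd (nat_lit 78) (nat_lit 76) (nat_lit 0) (XT.lf (nat_lit 0) (nat_lit 108941306286) (nat_lit 152) (nat_lit 13391791398) (nat_lit 0) (nat_lit 108501138951) (nat_lit 2) (nat_lit 5) (nat_lit 4) (nat_lit 4) (nat_lit 2) (nat_lit 4) (nat_lit 482) (nat_lit 370) (nat_lit 348)) (XT.lf (nat_lit 0) (nat_lit 2945251889) (nat_lit 76) (nat_lit 123065715142) (nat_lit 76) (nat_lit 122618198616) (nat_lit 1) (nat_lit 4) (nat_lit 2) (nat_lit 5) (nat_lit 2) (nat_lit 4) (nat_lit 483) (nat_lit 370) (nat_lit 347))) (XT.nd (nat_lit 78) (nat_lit 0) (nat_lit 0) (XT.lf (nat_lit 0) (nat_lit 20998785079) (nat_lit 76) (nat_lit 123643758973) (nat_lit 76)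 (nat_lit 123189437638) (nat_lit 1) (nat_lit 4) (nat_lit 2) (nat_lit 5) (nat_lit 2) (nat_lit 4) (nat_lit 484) (nat_lit 370) (nat_lit 346)) (XT.lf (nat_lit 0) (nat_lit 40170604066) (nat_lit 76) (nat_lit 124436809929) (nat_lit 76) (nat_lit 123976187847) (nat_lit 1) (nat_lit 4) (nat_lit 2) (nat_lit 5) (nat_lit 2) (nat_lit 4) (nat_lit 485) (nat_lit 370) (nat_lit 345))))) (XT.nd (nat_lit 234) (nat_lit 0) (nat_lit 0) (XT.nd (nat_lit 78) (nat_lit 0) (nat_lit 0) (XT.lf (nat_lit 0) (nat_lit 60574319631) (nat_lit 76) (nat_lit 125449567573) (nat_lit 76) (nat_lit 124983111465) (nat_lit 1) (nat_lit 4) (nat_lit 2) (nat_lit 5) (nat_lit 2) (nat_lit 4) (nat_lit 486) (nat_lit 370) (nat_lit 344)) (XT.nd (nat_lit 78) (nat_lit 0) (nat_lit 0) (XT.lf (nat_lit 0) (nat_lit 82330842679) (nat_lit 76) (nat_lit 126688033431) (nat_lit 76) (nat_lit 126216175448) (nat_lit 1) (nat_lit 4) (nat_lit 2) (nat_lit 5) (nat_lit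 2) (nat_lit 4) (nat_lit 487) (nat_lit 370) (nat_lit 343)) (XT.lf (nat_lit 0) (nat_lit 105569100757) (nat_lit 76) (nat_lit 128159546561) (nat_lit 76) (nat_lit 127682686841) (nat_lit 1) (nat_lit 4) (nat_lit 2) (nat_lit 5) (nat_lit 2) (nat_lit 4) (nat_lit 488) (nat_lit 370) (nat_lit 342)))) (XT.nd (nat_lit 156) (nat_lit 0) (nat_lit 0) (XT.nd (nat_lit 78) (nat_lit 0) (nat_lit 0) (XT.lf (nat_lit 0) (nat_lit 130426802058) (nat_lit 76) (nat_lit 129872827040) (nat_lit 76) (nat_lit 129391336082) (nat_lit 1) (nat_lit 4) (nat_lit 2) (nat_lit 5) (nat_lit 2) (nat_lit 4) (nat_lit 489) (nat_lit 370) (nat_lit 341)) (XT.lf (nat_lit 0) (nat_lit 157051251480) (nat_lit 76) (nat_lit 131838027641) (nat_lit 76) (nat_lit 131352248500) (nat_lit 1) (nat_lit 4) (nat_lit 2) (nat_lit 5) (nat_lit 2) (nat_lit 4) (nat_lit 490) (nat_lit 370) (nat_lit 340))) (XT.nd (nat_lit 78) (nat_lit 0) (nat_lit 0) (XT.lf (nat_lit 0)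 (nat_lit 185600223539) (nat_lit 76) (nat_lit 134066793997) (nat_lit 76) (nat_lit 133577044317) (nat_lit 1) (nat_lit 4) (nat_lit 2) (nat_lit 5) (nat_lit 2) (nat_lit 4) (nat_lit 491) (nat_lit 370) (nat_lit 339)) (XT.lf (nat_lit 0) (nat_lit 216242897327) (nat_lit 76) (nat_lit 136572333614) (nat_lit 76) (nat_lit 136078907508) (nat_lit 1) (nat_lit 4) (nat_lit 2) (nat_lit 5) (nat_lit 2) (nat_lit 4) (nat_lit 492) (nat_lit 370) (nat_lit 338))))))) (XT.nd (nat_lit 1092) (nat_lit 0) (nat_lit 0) (XT.nd (nat_lit 546) (nat_lit 0) (nat_lit 0) (XT.nd (nat_lit 234) (nat_lit 0) (nat_lit 0) (XT.nd (nat_lit 78) (nat_lit 0) (nat_lit 0) (XT.lf (nat_lit 0) (nat_lit 249160859060) (nat_lit 76) (nat_lit 139369494132) (nat_lit 76) (nat_lit 138872663928) (nat_lit 1) (nat_lit 4) (nat_lit 2) (nat_lit 5) (nat_lit 2) (nat_lit 4) (nat_lit 493) (nat_lit 370) (nat_lit 337)) (XT.nd (nat_lit 78) (nat_lit 0) (nat_lit 0) (XT.lf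 (nat_lit 0) (nat_lit 284549178140) (nat_lit 76) (nat_lit 142474851319) (nat_lit 76) (nat_lit 141974869172) (nat_lit 1) (nat_lit 4) (nat_lit 2) (nat_lit 5) (nat_lit 2) (nat_lit 4) (nat_lit 494) (nat_lit 370) (nat_lit 336)) (XT.lf (nat_lit 0) (nat_lit 322617563125) (nat_lit 76) (nat_lit 145906807290) (nat_lit 76) (nat_lit 145403906678) (nat_lit 1) (nat_lit 4) (nat_lit 2) (nat_lit 5) (nat_lit 2) (nat_lit 4) (nat_lit 495) (nat_lit 370) (nat_lit 335)))) (XT.nd (nat_lit 156) (nat_lit 0) (nat_lit 0) (XT.nd (nat_lit 78) (nat_lit 0) (nat_lit 0) (XT.lf (nat_lit 0) (nat_lit 363591604445) (nat_lit 76) (nat_lit 149685699563) (nat_lit 76) (nat_lit 149180096668) (nat_lit 1) (nat_lit 4) (nat_lit 2) (nat_lit 5) (nat_lit 2) (nat_lit 4) (nat_lit 496) (nat_lit 370) (nat_lit 334)) (XT.lf (nat_lit 0) (nat_lit 407714111234) (nat_lit 76) (nat_lit 153833921573) (nat_lit 76) (nat_lit 153325816565) (nat_lit 1) (nat_lit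 4) (nat_lit 2) (nat_lit 5) (nat_lit 2) (nat_lit 4) (nat_lit 497) (nat_lit 370) (nat_lit 333))) (XT.nd (nat_lit 78) (nat_lit 0) (nat_lit 0) (XT.lf (nat_lit 0) (nat_lit 455246550198) (nat_lit 76) (nat_lit 158376055376) (nat_lit 76) (nat_lit 157865633596) (nat_lit 1) (nat_lit 4) (nat_lit 2) (nat_lit 5) (nat_lit 2) (nat_lit 4) (nat_lit 498) (nat_lit 370) (nat_lit 332)) (XT.lf (nat_lit 0) (nat_lit 506470595049) (nat_lit 76) (nat_lit 163339017322) (nat_lit 76) (nat_lit 162826450383) (nat_lit 1) (nat_lit 4) (nat_lit 2) (nat_lit 5) (nat_lit 2) (nat_lit 4) (nat_lit 499) (nat_lit 370) (nat_lit 331))))) (XT.nd (nat_lit 234) (nat_lit 0) (nat_lit 0) (XT.nd (nat_lit 78) (nat_lit 0) (nat_lit 0) (XT.lf (nat_lit 0) (nat_lit 561689795683) (nat_lit 76) (nat_lit 168752217554) (nat_lit 76) (nat_lit 168237664357) (nat_lit 1) (nat_lit 4) (nat_lit 2) (nat_lit 5) (nat_lit 2) (nat_lit 4) (nat_lit 500) (nat_lit 370)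 (nat_lit 330)) (XT.nd (nat_lit 78) (nat_lit 0) (nat_lit 0) (XT.lf (nat_lit 0) (nat_lit 621231376993) (nat_lit 76) (nat_lit 174647734298) (nat_lit 76) (nat_lit 174131341972) (nat_lit 1) (nat_lit 4) (nat_lit 2) (nat_lit 5) (nat_lit 2) (nat_lit 4) (nat_lit 501) (nat_lit 370) (nat_lit 329)) (XT.lf (nat_lit 0) (nat_lit 685448177980) (nat_lit 76) (nat_lit 181060503947) (nat_lit 76) (nat_lit 180542408725) (nat_lit 1) (nat_lit 4) (nat_lit 2) (nat_lit 5) (nat_lit 2) (nat_lit 4) (nat_lit 502) (nat_lit 370) (nat_lit 328)))) (XT.nd (nat_lit 156) (nat_lit 0) (nat_lit 0) (XT.nd (nat_lit 78) (nat_lit 0) (nat_lit 0) (XT.lf (nat_lit 0) (nat_lit 754720742648) (nat_lit 76) (nat_lit 188028528100) (nat_lit 76) (nat_lit 187508856122) (nat_lit 1) (nat_lit 4) (nat_lit 2) (nat_lit 5) (nat_lit 2) (nat_lit 4) (nat_lit 503) (nat_lit 370) (nat_lit 327)) (XT.lf (nat_lit 0) (nat_lit 829459575085) (nat_lit 76) (nat_lit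 195593098752) (nat_lit 76) (nat_lit 195071966815) (nat_lit 1) (nat_lit 4) (nat_lit 2) (nat_lit 5) (nat_lit 2) (nat_lit 4) (nat_lit 504) (nat_lit 370) (nat_lit 326))) (XT.nd (nat_lit 78) (nat_lit 0) (nat_lit 0) (XT.lf (nat_lit 0) (nat_lit 910107572075) (nat_lit 76) (nat_lit 203799042989) (nat_lit 76) (nat_lit 203276559237) (nat_lit 1) (nat_lit 4) (nat_lit 2) (nat_lit 5) (nat_lit 2) (nat_lit 4) (nat_lit 505) (nat_lit 370) (nat_lit 325)) (XT.lf (nat_lit 0) (nat_lit 997142647676) (nat_lit 76) (nat_lit 212694988627) (nat_lit 76) (nat_lit 212171253196) (nat_lit 1) (nat_lit 4) (nat_lit 2) (nat_lit 5) (nat_lit 2) (nat_lit 4) (nat_lit 506) (nat_lit 370) (nat_lit 324)))))) (XT.nd (nat_lit 546) (nat_lit 0) (nat_lit 0) (XT.nd (nat_lit 234) (nat_lit 0) (nat_lit 0) (XT.nd (nat_lit 78) (nat_lit 0) (nat_lit 0) (XT.lf (nat_lit 0) (nat_lit 1091080565297) (nat_lit 76) (nat_lit 222333652382) (nat_lit 76) (nat_lit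 221808757989) (nat_lit 1) (nat_lit 4) (nat_lit 2) (nat_lit 5) (nat_lit 2) (nat_lit 4) (nat_lit 507) (nat_lit 370) (nat_lit 323)) (XT.nd (nat_lit 78) (nat_lit 0) (nat_lit 0) (XT.lf (nat_lit 0) (nat_lit 1192477994081) (nat_lit 76) (nat_lit 232772152262) (nat_lit 76) (nat_lit 232246184755) (nat_lit 1) (nat_lit 4) (nat_lit 2) (nat_lit 5) (nat_lit 2) (nat_lit 4) (nat_lit 508) (nat_lit 370) (nat_lit 322)) (XT.lf (nat_lit 0) (nat_lit 1301935807679) (nat_lit 76) (nat_lit 244072346043) (nat_lit 76) (nat_lit 243545384912) (nat_lit 1) (nat_lit 4) (nat_lit 2) (nat_lit 5) (nat_lit 2) (nat_lit 4) (nat_lit 509) (nat_lit 370) (nat_lit 321)))) (XT.nd (nat_lit 156) (nat_lit 0) (nat_lit 0) (XT.nd (nat_lit 78) (nat_lit 0) (nat_lit 0) (XT.lf (nat_lit 0) (nat_lit 1420102644987) (nat_lit 76) (nat_lit 256301197837) (nat_lit 76) (nat_lit 255773316684) (nat_lit 1) (nat_lit 4) (nat_lit 2) (nat_lit 5) (nat_lit 2) (nat_lit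 4) (nat_lit 510) (nat_lit 370) (nat_lit 320)) (XT.lf (nat_lit 0) (nat_lit 1547678753929) (nat_lit 76) (nat_lit 269531174913) (nat_lit 76) (nat_lit 269002441888) (nat_lit 1) (nat_lit 4) (nat_lit 2) (nat_lit 5) (nat_lit 2) (nat_lit 4) (nat_lit 511) (nat_lit 370) (nat_lit 319))) (XT.nd (nat_lit 78) (nat_lit 0) (nat_lit 0) (XT.lf (nat_lit 0) (nat_lit 1685420141078) (nat_lit 76) (nat_lit 283840677137) (nat_lit 76) (nat_lit 283311155341) (nat_lit 1) (nat_lit 4) (nat_lit 2) (nat_lit 5) (nat_lit 2) (nat_lit 4) (nat_lit 512) (nat_lit 370) (nat_lit 318)) (XT.lf (nat_lit 0) (nat_lit 1834143051689) (nat_lit 76) (nat_lit 299314501557) (nat_lit 76) (nat_lit 298784249418) (nat_lit 1) (nat_lit 4) (nat_lit 2) (nat_lit 5) (nat_lit 2) (nat_lit 4) (nat_lit 513) (nat_lit 370) (nat_lit 317))))) (XT.nd (nat_lit 234) (nat_lit 0) (nat_lit 0) (XT.nd (nat_lit 78) (nat_lit 0) (nat_lit 0) (XT.lf (nat_lit 0) (nat_lit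 1994728806716) (nat_lit 76) (nat_lit 316044344911) (nat_lit 76) (nat_lit 315513416528) (nat_lit 1) (nat_lit 4) (nat_lit 2) (nat_lit 5) (nat_lit 2) (nat_lit 4) (nat_lit 514) (nat_lit 370) (nat_lit 316)) (XT.nd (nat_lit 78) (nat_lit 0) (nat_lit 0) (XT.lf (nat_lit 0) (nat_lit 2168129025447) (nat_lit 76) (nat_lit 334129347012) (nat_lit 76) (nat_lit 333597792478) (nat_lit 1) (nat_lit 4) (nat_lit 2) (nat_lit 5) (nat_lit 2) (nat_lit 4) (nat_lit 515) (nat_lit 370) (nat_lit 315)) (XT.lf (nat_lit 0) (nat_lit 2355371264733) (nat_lit 76) (nat_lit 353676678243) (nat_lit 76) (nat_lit 353144543939) (nat_lit 1) (nat_lit 4) (nat_lit 2) (nat_lit 5) (nat_lit 2) (nat_lit 4) (nat_lit 516) (nat_lit 370) (nat_lit 314)))) (XT.nd (nat_lit 156) (nat_lit 0) (nat_lit 0) (XT.nd (nat_lit 78) (nat_lit 0) (nat_lit 0) (XT.lf (nat_lit 0) (nat_lit 2557565108216) (nat_lit 76) (nat_lit 374802174640) (nat_lit 76) (nat_lit 374269503512)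 (nat_lit 1) (nat_lit 4) (nat_lit 2) (nat_lit 5) (nat_lit 2) (nat_lit 4) (nat_lit 517) (nat_lit 370) (nat_lit 313)) (XT.lf (nat_lit 0) (nat_lit 2775908741633) (nat_lit 76) (nat_lit 397631024330) (nat_lit 76) (nat_lit 397097856143) (nat_lit 1) (nat_lit 4) (nat_lit 2) (nat_lit 5) (nat_lit 2) (nat_lit 4) (nat_lit 518) (nat_lit 370) (nat_lit 312))) (XT.nd (nat_lit 78) (nat_lit 0) (nat_lit 0) (XT.lf (nat_lit 0) (nat_lit 3011696053184) (nat_lit 76) (nat_lit 422298509386) (nat_lit 76) (nat_lit 421764880959) (nat_lit 1) (nat_lit 4) (nat_lit 2) (nat_lit 5) (nat_lit 2) (nat_lit 4) (nat_lit 519) (nat_lit 370) (nat_lit 311)) (XT.lf (nat_lit 0) (nat_lit 3266324301011) (nat_lit 76) (nat_lit 448950807497) (nat_lit 76) (nat_lit 448416752921) (nat_lit 1) (nat_lit 4) (nat_lit 2) (nat_lit 5) (nat_lit 2) (nat_lit 4) (nat_lit 520) (nat_lit 370) (nat_lit 310))))))))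
noncomputable def xc33 : XT := (XT.nd (nat_lit 57876) (nat_lit 0) (nat_lit 0) (XT.nd (nat_lit 1092) (nat_lit 0) (nat_lit 0) (XT.nd (nat_lit 546) (nat_lit 0) (nat_lit 0) (XT.nd (nat_lit 234) (nat_lit 0) (nat_lit 0) (XT.nd (nat_lit 78) (nat_lit 0) (nat_lit 0) (XT.lf (nat_lit 0) (nat_lit 3541302393249) (nat_lit 76) (nat_lit 477745858206) (nat_lit 76) (nat_lit 477211409049) (nat_lit 1) (nat_lit 4) (nat_lit 2) (nat_lit 5) (nat_lit 2) (nat_lit 4) (nat_lit 521) (nat_lit 370) (nat_lit 309)) (XT.nd (nat_lit 78) (nat_lit 0) (nat_lit 0) (XT.lf (nat_lit 0) (nat_lit 3838259829703) (nat_lit 76) (nat_lit 508854298853) (nat_lit 76) (nat_lit 508319484342) (nat_lit 1) (nat_lit 4) (nat_lit 2) (nat_lit 5) (nat_lit 2) (nat_lit 4) (nat_lit 522) (nat_lit 370) (nat_lit 308)) (XT.lf (nat_lit 0) (nat_lit 4158956358146) (nat_lit 76) (nat_lit 542460475751) (nat_lit 76) (nat_lit 541925322950) (nat_lit 1) (nat_lit 4)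 (nat_lit 2) (nat_lit 5) (nat_lit 2) (nat_lit 4) (nat_lit 523) (nat_lit 370) (nat_lit 307)))) (XT.nd (nat_lit 156) (nat_lit 0) (nat_lit 0) (XT.nd (nat_lit 78) (nat_lit 0) (nat_lit 0) (XT.lf (nat_lit 0) (nat_lit 4505292402449) (nat_lit 76) (nat_lit 578763536615) (nat_lit 76) (nat_lit 578228070583) (nat_lit 1) (nat_lit 4) (nat_lit 2) (nat_lit 5) (nat_lit 2) (nat_lit 4) (nat_lit 524) (nat_lit 370) (nat_lit 306)) (XT.lf (nat_lit 0) (nat_lit 4879320324358) (nat_lit 76) (nat_lit 617978610696) (nat_lit 76) (nat_lit 617442854634) (nat_lit 1) (nat_lit 4) (nat_lit 2) (nat_lit 5) (nat_lit 2) (nat_lit 4) (nat_lit 525) (nat_lit 370) (nat_lit 305))) (XT.nd (nat_lit 78) (nat_lit 0) (nat_lit 0) (XT.lf (nat_lit 0) (nat_lit 5283256585630) (nat_lit 76) (nat_lit 660338083616) (nat_lit 76) (nat_lit 659802059009) (nat_lit 1) (nat_lit 4) (nat_lit 2) (nat_lit 5) (nat_lit 2) (nat_lit 4) (nat_lit 526) (nat_lit 370)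 (nat_lit 304)) (XT.lf (nat_lit 0) (nat_lit 5719494882630) (nat_lit 76) (nat_lit 706092974476) (nat_lit 76) (nat_lit 705556701216) (nat_lit 1) (nat_lit 4) (nat_lit 2) (nat_lit 5) (nat_lit 2) (nat_lit 4) (nat_lit 527) (nat_lit 370) (nat_lit 303))))) (XT.nd (nat_lit 234) (nat_lit 0) (nat_lit 0) (XT.nd (nat_lit 78) (nat_lit 0) (nat_lit 0) (XT.lf (nat_lit 0) (nat_lit 6190620331191) (nat_lit 76) (nat_lit 755514423369) (nat_lit 76) (nat_lit 754977919874) (nat_lit 1) (nat_lit 4) (nat_lit 2) (nat_lit 5) (nat_lit 2) (nat_lit 4) (nat_lit 528) (nat_lit 370) (nat_lit 302)) (XT.nd (nat_lit 78) (nat_lit 0) (nat_lit 0) (XT.lf (nat_lit 0) (nat_lit 6699424785823) (nat_lit 76) (nat_lit 808895298140) (nat_lit 76) (nat_lit 808358581465) (nat_lit 1) (nat_lit 4) (nat_lit 2) (nat_lit 5) (nat_lit 2) (nat_lit 4) (nat_lit 529) (nat_lit 370) (nat_lit 301)) (XT.lf (nat_lit 0) (nat_lit 7248923384036) (nat_lit 76) (nat_lit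 866551929900) (nat_lit 76) (nat_lit 866015015835) (nat_lit 1) (nat_lit 4) (nat_lit 2) (nat_lit 5) (nat_lit 2) (nat_lit 4) (nat_lit 530) (nat_lit 370) (nat_lit 300)))) (XT.nd (nat_lit 156) (nat_lit 0) (nat_lit 0) (XT.nd (nat_lit 78) (nat_lit 0) (nat_lit 0) (XT.lf (nat_lit 0) (nat_lit 7842372413818) (nat_lit 76) (nat_lit 928825987576) (nat_lit 76) (nat_lit 928288890744) (nat_lit 1) (nat_lit 4) (nat_lit 2) (nat_lit 5) (nat_lit 2) (nat_lit 4) (nat_lit 531) (nat_lit 370) (nat_lit 299)) (XT.lf (nat_lit 0) (nat_lit 8483288610161) (nat_lit 76) (nat_lit 996086502622) (nat_lit 76) (nat_lit 995549236561) (nat_lit 1) (nat_lit 4) (nat_lit 2) (nat_lit 5) (nat_lit 2) (nat_lit 4) (nat_lit 532) (nat_lit 370) (nat_lit 298))) (XT.nd (nat_lit 78) (nat_lit 0) (nat_lit 0) (XT.lf (nat_lit 0) (nat_lit 9175469994969) (nat_lit 76) (nat_lit 1068732055868) (nat_lit 76) (nat_lit 1068194633113) (nat_lit 1) (nat_lit 4)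 (nat_lit 2) (nat_lit 5) (nat_lit 2) (nat_lit 4) (nat_lit 533) (nat_lit 370) (nat_lit 297)) (XT.lf (nat_lit 0) (nat_lit 9923018383857) (nat_lit 76) (nat_lit 1147193139482) (nat_lit 76) (nat_lit 1146655571640) (nat_lit 1) (nat_lit 4) (nat_lit 2) (nat_lit 5) (nat_lit 2) (nat_lit 4) (nat_lit 534) (nat_lit 370) (nat_lit 296)))))) (XT.nd (nat_lit 546) (nat_lit 0) (nat_lit 0) (XT.nd (nat_lit 234) (nat_lit 0) (nat_lit 0) (XT.nd (nat_lit 78) (nat_lit 0) (nat_lit 0) (XT.lf (nat_lit 0) (nat_lit 10730363693202) (nat_lit 76) (nat_lit 1231934708032) (nat_lit 76) (nat_lit 1231397005850) (nat_lit 1) (nat_lit 4) (nat_lit 2) (nat_lit 5) (nat_lit 2) (nat_lit 4) (nat_lit 535) (nat_lit 370) (nat_lit 295)) (XT.nd (nat_lit 78) (nat_lit 0) (nat_lit 0) (XT.lf (nat_lit 0) (nat_lit 11602290191504) (nat_lit 76) (nat_lit 1323458933777) (nat_lit 76) (nat_lit 1322921107206) (nat_lit 1) (nat_lit 4) (nat_lit 2) (nat_lit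 5) (nat_lit 2) (nat_lit 4) (nat_lit 536) (nat_lit 370) (nat_lit 294)) (XT.lf (nat_lit 0) (nat_lit 12543964850605) (nat_lit 76) (nat_lit 1422308182499) (nat_lit 76) (nat_lit 1421770240754) (nat_lit 1) (nat_lit 4) (nat_lit 2) (nat_lit 5) (nat_lit 2) (nat_lit 4) (nat_lit 537) (nat_lit 370) (nat_lit 293)))) (XT.nd (nat_lit 156) (nat_lit 0) (nat_lit 0) (XT.nd (nat_lit 78) (nat_lit 0) (nat_lit 0) (XT.lf (nat_lit 0) (nat_lit 13560967964781) (nat_lit 76) (nat_lit 1529068227524) (nat_lit 76) (nat_lit 1528530179135) (nat_lit 1) (nat_lit 4) (nat_lit 2) (nat_lit 5) (nat_lit 2) (nat_lit 4) (nat_lit 538) (nat_lit 370) (nat_lit 292)) (XT.lf (nat_lit 0) (nat_lit 14659326219154) (nat_lit 76) (nat_lit 1644371720970) (nat_lit 76) (nat_lit 1643833573838) (nat_lit 1) (nat_lit 4) (nat_lit 2) (nat_lit 5) (nat_lit 2) (nat_lit 4) (nat_lit 539) (nat_lit 370) (nat_lit 291))) (XT.nd (nat_lit 78) (nat_lit 0) (nat_lit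 0) (XT.lf (nat_lit 0) (nat_lit 15845548403378) (nat_lit 76) (nat_lit 1768901942799) (nat_lit 76) (nat_lit 1768363704238) (nat_lit 1) (nat_lit 4) (nat_lit 2) (nat_lit 5) (nat_lit 2) (nat_lit 4) (nat_lit 540) (nat_lit 370) (nat_lit 290)) (XT.lf (nat_lit 0) (nat_lit 17126663982250) (nat_lit 76) (nat_lit 1903396849881) (nat_lit 76) (nat_lit 1902858526662) (nat_lit 1) (nat_lit 4) (nat_lit 2) (nat_lit 5) (nat_lit 2) (nat_lit 4) (nat_lit 541) (nat_lit 370) (nat_lit 289))))) (XT.nd (nat_lit 55926) (nat_lit 0) (nat_lit 532) (XT.nd (nat_lit 78) (nat_lit 0) (nat_lit 0) (XT.lf (nat_lit 0) (nat_lit 18510264751792) (nat_lit 76) (nat_lit 2048653449072) (nat_lit 76) (nat_lit 2048115047468) (nat_lit 1) (nat_lit 4) (nat_lit 2) (nat_lit 5) (nat_lit 2) (nat_lit 4) (nat_lit 542) (nat_lit 370) (nat_lit 288)) (XT.nd (nat_lit 78) (nat_lit 0) (nat_lit 0) (XT.lf (nat_lit 0) (nat_lit 20004549827676) (nat_lit 76) (nat_lit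 2205532520219) (nat_lit 76) (nat_lit 2204994046036) (nat_lit 1) (nat_lit 4) (nat_lit 2) (nat_lit 5) (nat_lit 2) (nat_lit 4) (nat_lit 543) (nat_lit 370) (nat_lit 287)) (XT.lf (nat_lit 0) (nat_lit 21618374232573) (nat_lit 76) (nat_lit 2374963717079) (nat_lit 76) (nat_lit 2374425175692) (nat_lit 1) (nat_lit 4) (nat_lit 2) (nat_lit 5) (nat_lit 2) (nat_lit 4) (nat_lit 544) (nat_lit 370) (nat_lit 286)))) (XT.nd (nat_lit 156) (nat_lit 152) (nat_lit 0) (XT.nd (nat_lit 78) (nat_lit 76) (nat_lit 0) (XT.lf (nat_lit 0) (nat_lit 9958975295) (nat_lit 152) (nat_lit 3104452411) (nat_lit 0) (nat_lit 9958975295) (nat_lit 11) (nat_lit 5) (nat_lit 13) (nat_lit 4) (nat_lit 11) (nat_lit 4) (nat_lit 458) (nat_lit 371) (nat_lit 371)) (XT.lf (nat_lit 0) (nat_lit 19629487597) (nat_lit 76) (nat_lit 14566869232) (nat_lit 76) (nat_lit 14512512011) (nat_lit 10) (nat_lit 4) (nat_lit 11) (nat_lit 5) (nat_lit 11) (nat_lit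 4) (nat_lit 459) (nat_lit 371) (nat_lit 370))) (XT.nd (nat_lit 78) (nat_lit 152) (nat_lit 0) (XT.lf (nat_lit 0) (nat_lit 46586803735) (nat_lit 76) (nat_lit 2570365787) (nat_lit 76) (nat_lit 2465677807) (nat_lit 10) (nat_lit 4) (nat_lit 11) (nat_lit 5) (nat_lit 11) (nat_lit 4) (nat_lit 460) (nat_lit 371) (nat_lit 369)) (XT.lf (nat_lit 0) (nat_lit 10165244787) (nat_lit 152) (nat_lit 34547423859) (nat_lit 0) (nat_lit 10025160958) (nat_lit 8) (nat_lit 5) (nat_lit 10) (nat_lit 4) (nat_lit 8) (nat_lit 4) (nat_lit 461) (nat_lit 371) (nat_lit 368))))))) (XT.nd (nat_lit 1092) (nat_lit 76) (nat_lit 0) (XT.nd (nat_lit 546) (nat_lit 228) (nat_lit 0) (XT.nd (nat_lit 234) (nat_lit 152) (nat_lit 0) (XT.nd (nat_lit 78) (nat_lit 76) (nat_lit 0) (XT.lf (nat_lit 0) (nat_lit 23283690192) (nat_lit 152) (nat_lit 11740724893) (nat_lit 0) (nat_lit 23103652183) (nat_lit 8) (nat_lit 5) (nat_lit 10) (nat_lit 4) (nat_lit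 8) (nat_lit 4) (nat_lit 462) (nat_lit 371) (nat_lit 367)) (XT.nd (nat_lit 78) (nat_lit 0) (nat_lit 0) (XT.lf (nat_lit 0) (nat_lit 12363888358) (nat_lit 76) (nat_lit 24831580302) (nat_lit 76) (nat_lit 24614547681) (nat_lit 7) (nat_lit 4) (nat_lit 8) (nat_lit 5) (nat_lit 8) (nat_lit 4) (nat_lit 463) (nat_lit 371) (nat_lit 366)) (XT.lf (nat_lit 0) (nat_lit 37948452910) (nat_lit 76) (nat_lit 14053411131) (nat_lit 76) (nat_lit 13802124241) (nat_lit 7) (nat_lit 4) (nat_lit 8) (nat_lit 5) (nat_lit 8) (nat_lit 4) (nat_lit 464) (nat_lit 371) (nat_lit 365)))) (XT.nd (nat_lit 156) (nat_lit 0) (nat_lit 0) (XT.nd (nat_lit 78) (nat_lit 152) (nat_lit 0) (XT.lf (nat_lit 0) (nat_lit 64546335230) (nat_lit 76) (nat_lit 2947049167) (nat_lit 76) (nat_lit 2664045361) (nat_lit 7) (nat_lit 4) (nat_lit 8) (nat_lit 5) (nat_lit 8) (nat_lit 4) (nat_lit 465) (nat_lit 371) (nat_lit 364)) (XT.lf (nat_lit 0) (nat_lit 9080344034)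 (nat_lit 152) (nat_lit 56954974008) (nat_lit 0) (nat_lit 8791111330) (nat_lit 5) (nat_lit 5) (nat_lit 7) (nat_lit 4) (nat_lit 5) (nat_lit 4) (nat_lit 466) (nat_lit 371) (nat_lit 363))) (XT.nd (nat_lit 78) (nat_lit 0) (nat_lit 0) (XT.lf (nat_lit 0) (nat_lit 21380126090) (nat_lit 152) (nat_lit 37436790852) (nat_lit 0) (nat_lit 21065715475) (nat_lit 5) (nat_lit 5) (nat_lit 7) (nat_lit 4) (nat_lit 5) (nat_lit 4) (nat_lit 467) (nat_lit 371) (nat_lit 362)) (XT.lf (nat_lit 0) (nat_lit 34224835423) (nat_lit 152) (nat_lit 17266509401) (nat_lit 0) (nat_lit 33887111927) (nat_lit 5) (nat_lit 5) (nat_lit 7) (nat_lit 4) (nat_lit 5) (nat_lit 4) (nat_lit 468) (nat_lit 371) (nat_lit 361))))) (XT.nd (nat_lit 234) (nat_lit 152) (nat_lit 0) (XT.nd (nat_lit 78) (nat_lit 0) (nat_lit 0) (XT.lf (nat_lit 0) (nat_lit 3868937881) (nat_lit 76) (nat_lit 43914698996) (nat_lit 76) (nat_lit 43555389501) (nat_lit 4) (nat_lit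 4) (nat_lit 5) (nat_lit 5) (nat_lit 5) (nat_lit 4) (nat_lit 469) (nat_lit 371) (nat_lit 360)) (XT.nd (nat_lit 78) (nat_lit 0) (nat_lit 0) (XT.lf (nat_lit 0) (nat_lit 26856502379) (nat_lit 76) (nat_lit 35646580514) (nat_lit 76) (nat_lit 35267283981) (nat_lit 4) (nat_lit 4) (nat_lit 5) (nat_lit 5) (nat_lit 5) (nat_lit 4) (nat_lit 470) (nat_lit 371) (nat_lit 359)) (XT.lf (nat_lit 0) (nat_lit 50923182910) (nat_lit 76) (nat_lit 27110090084) (nat_lit 76) (nat_lit 26712287036) (nat_lit 4) (nat_lit 4) (nat_lit 5) (nat_lit 5) (nat_lit 5) (nat_lit 4) (nat_lit 471) (nat_lit 371) (nat_lit 358)))) (XT.nd (nat_lit 156) (nat_lit 152) (nat_lit 0) (XT.nd (nat_lit 78) (nat_lit 0) (nat_lit 0) (XT.lf (nat_lit 0) (nat_lit 76211596841) (nat_lit 76) (nat_lit 18254641099) (nat_lit 76) (nat_lit 17839702387) (nat_lit 4) (nat_lit 4) (nat_lit 5) (nat_lit 5) (nat_lit 5) (nat_lit 4) (nat_lit 472) (nat_lit 371) (nat_lit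 357)) (XT.lf (nat_lit 0) (nat_lit 102871601439) (nat_lit 76) (nat_lit 9027756822) (nat_lit 76) (nat_lit 8596951756) (nat_lit 4) (nat_lit 4) (nat_lit 5) (nat_lit 5) (nat_lit 5) (nat_lit 4) (nat_lit 473) (nat_lit 371) (nat_lit 356))) (XT.nd (nat_lit 78) (nat_lit 0) (nat_lit 0) (XT.lf (nat_lit 0) (nat_lit 1076262536) (nat_lit 152) (nat_lit 127618388800) (nat_lit 0) (nat_lit 663766114) (nat_lit 2) (nat_lit 5) (nat_lit 4) (nat_lit 4) (nat_lit 2) (nat_lit 4) (nat_lit 474) (nat_lit 371) (nat_lit 355)) (XT.lf (nat_lit 0) (nat_lit 11489132571) (nat_lit 152) (nat_lit 116324035940) (nat_lit 0) (nat_lit 11064040926) (nat_lit 2) (nat_lit 5) (nat_lit 4) (nat_lit 4) (nat_lit 2) (nat_lit 4) (nat_lit 475) (nat_lit 371) (nat_lit 354)))))) (XT.nd (nat_lit 546) (nat_lit 76) (nat_lit 0) (XT.nd (nat_lit 234) (nat_lit 0) (nat_lit 0) (XT.nd (nat_lit 78) (nat_lit 0) (nat_lit 0) (XT.lf (nat_lit 0) (nat_lit 22458516183)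 (nat_lit 152) (nat_lit 104699347898) (nat_lit 0) (nat_lit 22021762294) (nat_lit 2) (nat_lit 5) (nat_lit 4) (nat_lit 4) (nat_lit 2) (nat_lit 4) (nat_lit 476) (nat_lit 371) (nat_lit 353)) (XT.nd (nat_lit 78) (nat_lit 0) (nat_lit 0) (XT.lf (nat_lit 0) (nat_lit 34049417126) (nat_lit 152) (nat_lit 92675437636) (nat_lit 0) (nat_lit 33601864863) (nat_lit 2) (nat_lit 5) (nat_lit 4) (nat_lit 4) (nat_lit 2) (nat_lit 4) (nat_lit 477) (nat_lit 371) (nat_lit 352)) (XT.lf (nat_lit 0) (nat_lit 46330522222) (nat_lit 152) (nat_lit 80181052350) (nat_lit 0) (nat_lit 45872971464) (nat_lit 2) (nat_lit 5) (nat_lit 4) (nat_lit 4) (nat_lit 2) (nat_lit 4) (nat_lit 478) (nat_lit 371) (nat_lit 351)))) (XT.nd (nat_lit 156) (nat_lit 0) (nat_lit 0) (XT.nd (nat_lit 78) (nat_lit 0) (nat_lit 0) (XT.lf (nat_lit 0) (nat_lit 59374608389) (nat_lit 152) (nat_lit 67142151241) (nat_lit 0) (nat_lit 58907799765) (nat_lit 2) (nat_lit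 5) (nat_lit 4) (nat_lit 4) (nat_lit 2) (nat_lit 4) (nat_lit 479) (nat_lit 371) (nat_lit 350)) (XT.lf (nat_lit 0) (nat_lit 73258973915) (nat_lit 152) (nat_lit 53481466745) (nat_lit 0) (nat_lit 72783593194) (nat_lit 2) (nat_lit 5) (nat_lit 4) (nat_lit 4) (nat_lit 2) (nat_lit 4) (nat_lit 480) (nat_lit 371) (nat_lit 349))) (XT.nd (nat_lit 78) (nat_lit 0) (nat_lit 0) (XT.lf (nat_lit 0) (nat_lit 88065896522) (nat_lit 152) (nat_lit 39118046657) (nat_lit 0) (nat_lit 87582578673) (nat_lit 2) (nat_lit 5) (nat_lit 4) (nat_lit 4) (nat_lit 2) (nat_lit 4) (nat_lit 481) (nat_lit 371) (nat_lit 348)) (XT.lf (nat_lit 0) (nat_lit 103883120937) (nat_lit 152) (nat_lit 23966774416) (nat_lit 0) (nat_lit 103392453896) (nat_lit 2) (nat_lit 5) (nat_lit 4) (nat_lit 4) (nat_lit 2) (nat_lit 4) (nat_lit 482) (nat_lit 371) (nat_lit 347))))) (XT.nd (nat_lit 312) (nat_lit 0) (nat_lit 0) (XT.nd (nat_lit 156) (nat_lit 0)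 (nat_lit 0) (XT.nd (nat_lit 78) (nat_lit 76) (nat_lit 0) (XT.lf (nat_lit 0) (nat_lit 120804378860) (nat_lit 152) (nat_lit 7937864703) (nat_lit 0) (nat_lit 120306907012) (nat_lit 2) (nat_lit 5) (nat_lit 4) (nat_lit 4) (nat_lit 2) (nat_lit 4) (nat_lit 483) (nat_lit 371) (nat_lit 346)) (XT.lf (nat_lit 0) (nat_lit 9540945339) (nat_lit 76) (nat_lit 129618459038) (nat_lit 76) (nat_lit 129114686442) (nat_lit 1) (nat_lit 4) (nat_lit 2) (nat_lit 5) (nat_lit 2) (nat_lit 4) (nat_lit 484) (nat_lit 371) (nat_lit 345))) (XT.nd (nat_lit 78) (nat_lit 0) (nat_lit 0) (XT.lf (nat_lit 0) (nat_lit 28567644643) (nat_lit 76) (nat_lit 130486636250) (nat_lit 76) (nat_lit 129977029628) (nat_lit 1) (nat_lit 4) (nat_lit 2) (nat_lit 5) (nat_lit 2) (nat_lit 4) (nat_lit 485) (nat_lit 371) (nat_lit 344)) (XT.lf (nat_lit 0) (nat_lit 48836990130) (nat_lit 76) (nat_lit 131568955241) (nat_lit 76) (nat_lit 131053946744) (nat_lit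 1) (nat_lit 4) (nat_lit 2) (nat_lit 5) (nat_lit 2) (nat_lit 4) (nat_lit 486) (nat_lit 371) (nat_lit 343)))) (XT.nd (nat_lit 156) (nat_lit 0) (nat_lit 0) (XT.nd (nat_lit 78) (nat_lit 0) (nat_lit 0) (XT.lf (nat_lit 0) (nat_lit 70469096441) (nat_lit 76) (nat_lit 132871829755) (nat_lit 76) (nat_lit 132351819521) (nat_lit 1) (nat_lit 4) (nat_lit 2) (nat_lit 5) (nat_lit 2) (nat_lit 4) (nat_lit 487) (nat_lit 371) (nat_lit 342)) (XT.lf (nat_lit 0) (nat_lit 93592153834) (nat_lit 76) (nat_lit 134402980528) (nat_lit 76) (nat_lit 133878339056) (nat_lit 1) (nat_lit 4) (nat_lit 2) (nat_lit 5) (nat_lit 2) (nat_lit 4) (nat_lit 488) (nat_lit 371) (nat_lit 341))) (XT.nd (nat_lit 78) (nat_lit 0) (nat_lit 0) (XT.lf (nat_lit 0) (nat_lit 118343187836) (nat_lit 76) (nat_lit 136171481047) (nat_lit 76) (nat_lit 135642551392) (nat_lit 1) (nat_lit 4) (nat_lit 2) (nat_lit 5) (nat_lit 2) (nat_lit 4) (nat_lit 489) (nat_lit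 371) (nat_lit 340)) (XT.lf (nat_lit 0) (nat_lit 144868871240) (nat_lit 76) (nat_lit 138187811315) (nat_lit 76) (nat_lit 137654911121) (nat_lit 1) (nat_lit 4) (nat_lit 2) (nat_lit 5) (nat_lit 2) (nat_lit 4) (nat_lit 490) (nat_lit 371) (nat_lit 339))))))))
noncomputable def xc34 : XT := (XT.nd (nat_lit 2184) (nat_lit 0) (nat_lit 0) (XT.nd (nat_lit 1092) (nat_lit 0) (nat_lit 0) (XT.nd (nat_lit 546) (nat_lit 0) (nat_lit 0) (XT.nd (nat_lit 234) (nat_lit 0) (nat_lit 0) (XT.nd (nat_lit 78) (nat_lit 0) (nat_lit 0) (XT.lf (nat_lit 0) (nat_lit 173326393282) (nat_lit 76) (nat_lit 140463919956) (nat_lit 76) (nat_lit 139927343336) (nat_lit 1) (nat_lit 4) (nat_lit 2) (nat_lit 5) (nat_lit 2) (nat_lit 4) (nat_lit 491) (nat_lit 371) (nat_lit 338)) (XT.nd (nat_lit 78) (nat_lit 0) (nat_lit 0) (XT.lf (nat_lit 0) (nat_lit 203884391128) (nat_lit 76) (nat_lit 143013295021) (nat_lit 76) (nat_lit 142473314303) (nat_lit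 1) (nat_lit 4) (nat_lit 2) (nat_lit 5) (nat_lit 2) (nat_lit 4) (nat_lit 492) (nat_lit 371) (nat_lit 337)) (XT.lf (nat_lit 0) (nat_lit 236723949211) (nat_lit 76) (nat_lit 145851043917) (nat_lit 76) (nat_lit 145307911257) (nat_lit 1) (nat_lit 4) (nat_lit 2) (nat_lit 5) (nat_lit 2) (nat_lit 4) (nat_lit 493) (nat_lit 371) (nat_lit 336)))) (XT.nd (nat_lit 156) (nat_lit 0) (nat_lit 0) (XT.nd (nat_lit 78) (nat_lit 0) (nat_lit 0) (XT.lf (nat_lit 0) (nat_lit 272039672320) (nat_lit 76) (nat_lit 148993982935) (nat_lit 76) (nat_lit 148447931809) (nat_lit 1) (nat_lit 4) (nat_lit 2) (nat_lit 5) (nat_lit 2) (nat_lit 4) (nat_lit 494) (nat_lit 371) (nat_lit 335)) (XT.lf (nat_lit 0) (nat_lit 310040838813) (nat_lit 76) (nat_lit 152460736899) (nat_lit 76) (nat_lit 151911983490) (nat_lit 1) (nat_lit 4) (nat_lit 2) (nat_lit 5) (nat_lit 2) (nat_lit 4) (nat_lit 495) (nat_lit 371) (nat_lit 334))) (XT.nd (nat_lit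 78) (nat_lit 0) (nat_lit 0) (XT.lf (nat_lit 0) (nat_lit 350952640788) (nat_lit 76) (nat_lit 156271849535) (nat_lit 76) (nat_lit 155720594012) (nat_lit 1) (nat_lit 4) (nat_lit 2) (nat_lit 5) (nat_lit 2) (nat_lit 4) (nat_lit 496) (nat_lit 371) (nat_lit 333)) (XT.lf (nat_lit 0) (nat_lit 395017518554) (nat_lit 76) (nat_lit 160449905214) (nat_lit 76) (nat_lit 159896332920) (nat_lit 1) (nat_lit 4) (nat_lit 2) (nat_lit 5) (nat_lit 2) (nat_lit 4) (nat_lit 497) (nat_lit 371) (nat_lit 332))))) (XT.nd (nat_lit 234) (nat_lit 0) (nat_lit 0) (XT.nd (nat_lit 78) (nat_lit 0) (nat_lit 0) (XT.lf (nat_lit 0) (nat_lit 442496597311) (nat_lit 76) (nat_lit 165019662786) (nat_lit 76) (nat_lit 164463945333) (nat_lit 1) (nat_lit 4) (nat_lit 2) (nat_lit 5) (nat_lit 2) (nat_lit 4) (nat_lit 498) (nat_lit 371) (nat_lit 331)) (XT.nd (nat_lit 78) (nat_lit 0) (nat_lit 0) (XT.lf (nat_lit 0) (nat_lit 493671234564) (nat_lit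 76) (nat_lit 170008202295) (nat_lit 76) (nat_lit 169450498583) (nat_lit 1) (nat_lit 4) (nat_lit 2) (nat_lit 5) (nat_lit 2) (nat_lit 4) (nat_lit 499) (nat_lit 371) (nat_lit 330)) (XT.lf (nat_lit 0) (nat_lit 548844687422) (nat_lit 76) (nat_lit 175445085456) (nat_lit 76) (nat_lit 174885542616) (nat_lit 1) (nat_lit 4) (nat_lit 2) (nat_lit 5) (nat_lit 2) (nat_lit 4) (nat_lit 500) (nat_lit 371) (nat_lit 329)))) (XT.nd (nat_lit 156) (nat_lit 0) (nat_lit 0) (XT.nd (nat_lit 78) (nat_lit 0) (nat_lit 0) (XT.lf (nat_lit 0) (nat_lit 608343909679) (nat_lit 76) (nat_lit 181362530837) (nat_lit 76) (nat_lit 180801285101) (nat_lit 1) (nat_lit 4) (nat_lit 2) (nat_lit 5) (nat_lit 2) (nat_lit 4) (nat_lit 501) (nat_lit 371) (nat_lit 328)) (XT.lf (nat_lit 0) (nat_lit 672521489321) (nat_lit 76) (nat_lit 187795604781) (nat_lit 76) (nat_lit 187232782288) (nat_lit 1) (nat_lit 4) (nat_lit 2) (nat_lit 5) (nat_lit 2)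 (nat_lit 4) (nat_lit 502) (nat_lit 371) (nat_lit 327))) (XT.nd (nat_lit 78) (nat_lit 0) (nat_lit 0) (XT.lf (nat_lit 0) (nat_lit 741757737929) (nat_lit 76) (nat_lit 194782429206) (nat_lit 76) (nat_lit 194218146755) (nat_lit 1) (nat_lit 4) (nat_lit 2) (nat_lit 5) (nat_lit 2) (nat_lit 4) (nat_lit 503) (nat_lit 371) (nat_lit 326)) (XT.lf (nat_lit 0) (nat_lit 816462944385) (nat_lit 76) (nat_lit 202364407518) (nat_lit 76) (nat_lit 201798773253) (nat_lit 1) (nat_lit 4) (nat_lit 2) (nat_lit 5) (nat_lit 2) (nat_lit 4) (nat_lit 504) (nat_lit 371) (nat_lit 325)))))) (XT.nd (nat_lit 546) (nat_lit 0) (nat_lit 0) (XT.nd (nat_lit 234) (nat_lit 0) (nat_lit 0) (XT.nd (nat_lit 78) (nat_lit 0) (nat_lit 0) (XT.lf (nat_lit 0) (nat_lit 897079806207) (nat_lit 76) (nat_lit 210586469958) (nat_lit 76) (nat_lit 210019584013) (nat_lit 1) (nat_lit 4) (nat_lit 2) (nat_lit 5) (nat_lit 2) (nat_lit 4) (nat_lit 505) (nat_lit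 371) (nat_lit 324)) (XT.nd (nat_lit 78) (nat_lit 0) (nat_lit 0) (XT.lf (nat_lit 0) (nat_lit 984086052949) (nat_lit 76) (nat_lit 219497339859) (nat_lit 76) (nat_lit 218929294951) (nat_lit 1) (nat_lit 4) (nat_lit 2) (nat_lit 5) (nat_lit 2) (nat_lit 4) (nat_lit 506) (nat_lit 371) (nat_lit 323)) (XT.lf (nat_lit 0) (nat_lit 1077997277182) (nat_lit 76) (nat_lit 229149822376) (nat_lit 76) (nat_lit 228580704354) (nat_lit 1) (nat_lit 4) (nat_lit 2) (nat_lit 5) (nat_lit 2) (nat_lit 4) (nat_lit 507) (nat_lit 371) (nat_lit 322)))) (XT.nd (nat_lit 156) (nat_lit 0) (nat_lit 0) (XT.nd (nat_lit 78) (nat_lit 0) (nat_lit 0) (XT.lf (nat_lit 0) (nat_lit 1179369989865) (nat_lit 76) (nat_lit 239601117405) (nat_lit 76) (nat_lit 239031005760) (nat_lit 1) (nat_lit 4) (nat_lit 2) (nat_lit 5) (nat_lit 2) (nat_lit 4) (nat_lit 508) (nat_lit 371) (nat_lit 321)) (XT.lf (nat_lit 0) (nat_lit 1288804918186) (nat_lit 76)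 (nat_lit 250913158547) (nat_lit 76) (nat_lit 250342126879) (nat_lit 1) (nat_lit 4) (nat_lit 2) (nat_lit 5) (nat_lit 2) (nat_lit 4) (nat_lit 509) (nat_lit 371) (nat_lit 320))) (XT.nd (nat_lit 78) (nat_lit 0) (nat_lit 0) (XT.lf (nat_lit 0) (nat_lit 1406950565421) (nat_lit 76) (nat_lit 263152980119) (nat_lit 76) (nat_lit 262581096579) (nat_lit 1) (nat_lit 4) (nat_lit 2) (nat_lit 5) (nat_lit 2) (nat_lit 4) (nat_lit 510) (nat_lit 371) (nat_lit 319)) (XT.lf (nat_lit 0) (nat_lit 1534507053926) (nat_lit 76) (nat_lit 276393114398) (nat_lit 76) (nat_lit 275820442087) (nat_lit 1) (nat_lit 4) (nat_lit 2) (nat_lit 5) (nat_lit 2) (nat_lit 4) (nat_lit 511) (nat_lit 371) (nat_lit 318))))) (XT.nd (nat_lit 234) (nat_lit 0) (nat_lit 0) (XT.nd (nat_lit 78) (nat_lit 0) (nat_lit 0) (XT.lf (nat_lit 0) (nat_lit 1672230274003) (nat_lit 76) (nat_lit 290712021438) (nat_lit 76) (nat_lit 290138618784) (nat_lit 1) (nat_lit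 4) (nat_lit 2) (nat_lit 5) (nat_lit 2) (nat_lit 4) (nat_lit 512) (nat_lit 371) (nat_lit 317)) (XT.nd (nat_lit 78) (nat_lit 0) (nat_lit 0) (XT.lf (nat_lit 0) (nat_lit 1820936363253) (nat_lit 76) (nat_lit 306194554022) (nat_lit 76) (nat_lit 305620475125) (nat_lit 1) (nat_lit 4) (nat_lit 2) (nat_lit 5) (nat_lit 2) (nat_lit 4) (nat_lit 513) (nat_lit 371) (nat_lit 316)) (XT.lf (nat_lit 0) (nat_lit 1981506542944) (nat_lit 76) (nat_lit 322932460490) (nat_lit 76) (nat_lit 322357755442) (nat_lit 1) (nat_lit 4) (nat_lit 2) (nat_lit 5) (nat_lit 2) (nat_lit 4) (nat_lit 514) (nat_lit 371) (nat_lit 315)))) (XT.nd (nat_lit 156) (nat_lit 0) (nat_lit 0) (XT.nd (nat_lit 78) (nat_lit 0) (nat_lit 0) (XT.lf (nat_lit 0) (nat_lit 2154892340067) (nat_lit 76) (nat_lit 341024928438) (nat_lit 76) (nat_lit 340449643620) (nat_lit 1) (nat_lit 4) (nat_lit 2) (nat_lit 5) (nat_lit 2) (nat_lit 4) (nat_lit 515) (nat_lit 371)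 (nat_lit 314)) (XT.lf (nat_lit 0) (nat_lit 2342121226014) (nat_lit 76) (nat_lit 360579172490) (nat_lit 76) (nat_lit 360003350848) (nat_lit 1) (nat_lit 4) (nat_lit 2) (nat_lit 5) (nat_lit 2) (nat_lit 4) (nat_lit 516) (nat_lit 371) (nat_lit 313))) (XT.nd (nat_lit 78) (nat_lit 0) (nat_lit 0) (XT.lf (nat_lit 0) (nat_lit 2544302705293) (nat_lit 76) (nat_lit 381711069648) (nat_lit 76) (nat_lit 381134750946) (nat_lit 1) (nat_lit 4) (nat_lit 2) (nat_lit 5) (nat_lit 2) (nat_lit 4) (nat_lit 517) (nat_lit 371) (nat_lit 312)) (XT.lf (nat_lit 0) (nat_lit 2762634890374) (nat_lit 76) (nat_lit 404545845968) (nat_lit 76) (nat_lit 403969067026) (nat_lit 1) (nat_lit 4) (nat_lit 2) (nat_lit 5) (nat_lit 2) (nat_lit 4) (nat_lit 518) (nat_lit 371) (nat_lit 311))))))) (XT.nd (nat_lit 1092) (nat_lit 0) (nat_lit 0) (XT.nd (nat_lit 546) (nat_lit 0) (nat_lit 0) (XT.nd (nat_lit 234) (nat_lit 0) (nat_lit 0) (XT.nd (nat_lit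 78) (nat_lit 0) (nat_lit 0) (XT.lf (nat_lit 0) (nat_lit 2998411601613) (nat_lit 76) (nat_lit 429218818644) (nat_lit 76) (nat_lit 428641613554) (nat_lit 1) (nat_lit 4) (nat_lit 2) (nat_lit 5) (nat_lit 2) (nat_lit 4) (nat_lit 519) (nat_lit 371) (nat_lit 310)) (XT.nd (nat_lit 78) (nat_lit 0) (nat_lit 0) (XT.lf (nat_lit 0) (nat_lit 3253030034336) (nat_lit 76) (nat_lit 455876197885) (nat_lit 76) (nat_lit 455298598213) (nat_lit 1) (nat_lit 4) (nat_lit 2) (nat_lit 5) (nat_lit 2) (nat_lit 4) (nat_lit 520) (nat_lit 371) (nat_lit 309)) (XT.lf (nat_lit 0) (nat_lit 3527999038515) (nat_lit 76) (nat_lit 484675953344) (nat_lit 76) (nat_lit 484097988320) (nat_lit 1) (nat_lit 4) (nat_lit 2) (nat_lit 5) (nat_lit 2) (nat_lit 4) (nat_lit 521) (nat_lit 371) (nat_lit 308)))) (XT.nd (nat_lit 156) (nat_lit 0) (nat_lit 0) (XT.nd (nat_lit 78) (nat_lit 0) (nat_lit 0) (XT.lf (nat_lit 0) (nat_lit 3824948060101) (nat_lit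 76) (nat_lit 515788750241) (nat_lit 76) (nat_lit 515210446926) (nat_lit 1) (nat_lit 4) (nat_lit 2) (nat_lit 5) (nat_lit 2) (nat_lit 4) (nat_lit 522) (nat_lit 371) (nat_lit 307)) (XT.lf (nat_lit 0) (nat_lit 4145636796998) (nat_lit 76) (nat_lit 549398960703) (nat_lit 76) (nat_lit 548820344157) (nat_lit 1) (nat_lit 4) (nat_lit 2) (nat_lit 5) (nat_lit 2) (nat_lit 4) (nat_lit 523) (nat_lit 371) (nat_lit 306))) (XT.nd (nat_lit 78) (nat_lit 0) (nat_lit 0) (XT.lf (nat_lit 0) (nat_lit 4491965626907) (nat_lit 76) (nat_lit 585705756350) (nat_lit 76) (nat_lit 585126849774) (nat_lit 1) (nat_lit 4) (nat_lit 2) (nat_lit 5) (nat_lit 2) (nat_lit 4) (nat_lit 524) (nat_lit 371) (nat_lit 305)) (XT.lf (nat_lit 0) (nat_lit 4865986868821) (nat_lit 76) (nat_lit 624924288562) (nat_lit 76) (nat_lit 624345113441) (nat_lit 1) (nat_lit 4) (nat_lit 2) (nat_lit 5) (nat_lit 2) (nat_lit 4) (nat_lit 525) (nat_lit 371) (nat_lit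 304))))) (XT.nd (nat_lit 234) (nat_lit 0) (nat_lit 0) (XT.nd (nat_lit 78) (nat_lit 0) (nat_lit 0) (XT.lf (nat_lit 0) (nat_lit 5269916944914) (nat_lit 76) (nat_lit 667286963457) (nat_lit 76) (nat_lit 666707539682) (nat_lit 1) (nat_lit 4) (nat_lit 2) (nat_lit 5) (nat_lit 2) (nat_lit 4) (nat_lit 526) (nat_lit 371) (nat_lit 303)) (XT.nd (nat_lit 78) (nat_lit 0) (nat_lit 0) (XT.lf (nat_lit 0) (nat_lit 5706149514895) (nat_lit 76) (nat_lit 713044819107) (nat_lit 76) (nat_lit 712465165097) (nat_lit 1) (nat_lit 4) (nat_lit 2) (nat_lit 5) (nat_lit 2) (nat_lit 4) (nat_lit 527) (nat_lit 371) (nat_lit 302)) (XT.lf (nat_lit 0) (nat_lit 6177269660661) (nat_lit 76) (nat_lit 762469013176) (nat_lit 76) (nat_lit 761889145987) (nat_lit 1) (nat_lit 4) (nat_lit 2) (nat_lit 5) (nat_lit 2) (nat_lit 4) (nat_lit 528) (nat_lit 371) (nat_lit 301)))) (XT.nd (nat_lit 156) (nat_lit 0) (nat_lit 0) (XT.nd (nat_lit 78) (nat_lit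 0) (nat_lit 0) (XT.lf (nat_lit 0) (nat_lit 6686069205298) (nat_lit 76) (nat_lit 815852429778) (nat_lit 76) (nat_lit 815272365199) (nat_lit 1) (nat_lit 4) (nat_lit 2) (nat_lit 5) (nat_lit 2) (nat_lit 4) (nat_lit 529) (nat_lit 371) (nat_lit 300)) (XT.lf (nat_lit 0) (nat_lit 7235563257218) (nat_lit 76) (nat_lit 873511415083) (nat_lit 76) (nat_lit 872931167737) (nat_lit 1) (nat_lit 4) (nat_lit 2) (nat_lit 5) (nat_lit 2) (nat_lit 4) (nat_lit 530) (nat_lit 371) (nat_lit 299))) (XT.nd (nat_lit 78) (nat_lit 0) (nat_lit 0) (XT.lf (nat_lit 0) (nat_lit 7829008077471) (nat_lit 76) (nat_lit 935787651969) (nat_lit 76) (nat_lit 935207235393) (nat_lit 1) (nat_lit 4) (nat_lit 2) (nat_lit 5) (nat_lit 2) (nat_lit 4) (nat_lit 531) (nat_lit 371) (nat_lit 298)) (XT.lf (nat_lit 0) (nat_lit 8469920376101) (nat_lit 76) (nat_lit 1003050184802) (nat_lit 76) (nat_lit 1002469611532) (nat_lit 1) (nat_lit 4) (nat_lit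 2) (nat_lit 5) (nat_lit 2) (nat_lit 4) (nat_lit 532) (nat_lit 371) (nat_lit 297)))))) (XT.nd (nat_lit 546) (nat_lit 0) (nat_lit 0) (XT.nd (nat_lit 234) (nat_lit 0) (nat_lit 0) (XT.nd (nat_lit 78) (nat_lit 0) (nat_lit 0) (XT.lf (nat_lit 0) (nat_lit 9162098151917) (nat_lit 76) (nat_lit 1075697606369) (nat_lit 76) (nat_lit 1075116888012) (nat_lit 1) (nat_lit 4) (nat_lit 2) (nat_lit 5) (nat_lit 2) (nat_lit 4) (nat_lit 533) (nat_lit 371) (nat_lit 296)) (XT.nd (nat_lit 78) (nat_lit 0) (nat_lit 0) (XT.lf (nat_lit 0) (nat_lit 9909643199143) (nat_lit 76) (nat_lit 1154160419909) (nat_lit 76) (nat_lit 1153579567213) (nat_lit 1) (nat_lit 4) (nat_lit 2) (nat_lit 5) (nat_lit 2) (nat_lit 4) (nat_lit 534) (nat_lit 371) (nat_lit 295)) (XT.lf (nat_lit 0) (nat_lit 10716985414358) (nat_lit 76) (nat_lit 1238903590243) (nat_lit 76) (nat_lit 1238322613158) (nat_lit 1) (nat_lit 4) (nat_lit 2) (nat_lit 5) (nat_lit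 2) (nat_lit 4) (nat_lit 535) (nat_lit 371) (nat_lit 294)))) (XT.nd (nat_lit 156) (nat_lit 0) (nat_lit 0) (XT.nd (nat_lit 78) (nat_lit 0) (nat_lit 0) (XT.lf (nat_lit 0) (nat_lit 11588909047725) (nat_lit 76) (nat_lit 1330429299122) (nat_lit 76) (nat_lit 1329848206862) (nat_lit 1) (nat_lit 4) (nat_lit 2) (nat_lit 5) (nat_lit 2) (nat_lit 4) (nat_lit 536) (nat_lit 371) (nat_lit 293)) (XT.lf (nat_lit 0) (nat_lit 12530581054109) (nat_lit 76) (nat_lit 1429279921115) (nat_lit 76) (nat_lit 1428698722213) (nat_lit 1) (nat_lit 4) (nat_lit 2) (nat_lit 5) (nat_lit 2) (nat_lit 4) (nat_lit 537) (nat_lit 371) (nat_lit 292))) (XT.nd (nat_lit 78) (nat_lit 0) (nat_lit 0) (XT.lf (nat_lit 0) (nat_lit 13547581712065) (nat_lit 76) (nat_lit 1536041237688) (nat_lit 76) (nat_lit 1535459940042) (nat_lit 1) (nat_lit 4) (nat_lit 2) (nat_lit 5) (nat_lit 2) (nat_lit 4) (nat_lit 538) (nat_lit 371) (nat_lit 291)) (XT.lf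 (nat_lit 0) (nat_lit 14645937692160) (nat_lit 76) (nat_lit 1651345908493) (nat_lit 76) (nat_lit 1650764519418) (nat_lit 1) (nat_lit 4) (nat_lit 2) (nat_lit 5) (nat_lit 2) (nat_lit 4) (nat_lit 539) (nat_lit 371) (nat_lit 290))))) (XT.nd (nat_lit 312) (nat_lit 0) (nat_lit 0) (XT.nd (nat_lit 156) (nat_lit 0) (nat_lit 0) (XT.nd (nat_lit 78) (nat_lit 0) (nat_lit 0) (XT.lf (nat_lit 0) (nat_lit 15832157770572) (nat_lit 76) (nat_lit 1775877220470) (nat_lit 76) (nat_lit 1775295746737) (nat_lit 1) (nat_lit 4) (nat_lit 2) (nat_lit 5) (nat_lit 2) (nat_lit 4) (nat_lit 540) (nat_lit 371) (nat_lit 289)) (XT.lf (nat_lit 0) (nat_lit 17113271399617) (nat_lit 76) (nat_lit 1910373136947) (nat_lit 76) (nat_lit 1909791584829) (nat_lit 1) (nat_lit 4) (nat_lit 2) (nat_lit 5) (nat_lit 2) (nat_lit 4) (nat_lit 541) (nat_lit 371) (nat_lit 288))) (XT.nd (nat_lit 78) (nat_lit 0) (nat_lit 0) (XT.lf (nat_lit 0) (nat_lit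 18496870363764) (nat_lit 76) (nat_lit 2055630670764) (nat_lit 76) (nat_lit 2055049046066) (nat_lit 1) (nat_lit 4) (nat_lit 2) (nat_lit 5) (nat_lit 2) (nat_lit 4) (nat_lit 542) (nat_lit 371) (nat_lit 287)) (XT.lf (nat_lit 0) (nat_lit 19991153767985) (nat_lit 76) (nat_lit 2212510607305) (nat_lit 76) (nat_lit 2211928915404) (nat_lit 1) (nat_lit 4) (nat_lit 2) (nat_lit 5) (nat_lit 2) (nat_lit 4) (nat_lit 543) (nat_lit 371) (nat_lit 286)))) (XT.nd (nat_lit 55692) (nat_lit 0) (nat_lit 760) (XT.nd (nat_lit 55614) (nat_lit 0) (nat_lit 912) (XT.lf (nat_lit 0) (nat_lit 21604976625047) (nat_lit 76) (nat_lit 2381942605456) (nat_lit 76) (nat_lit 2381360851329) (nat_lit 1) (nat_lit 4) (nat_lit 2) (nat_lit 5) (nat_lit 2) (nat_lit 4) (nat_lit 544) (nat_lit 371) (nat_lit 285)) (XT.lf (nat_lit 0) (nat_lit 14695986022) (nat_lit 76) (nat_lit 2976040248) (nat_lit 76) (nat_lit 2976040248) (nat_lit 13) (nat_lit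 4) (nat_lit 14) (nat_lit 5) (nat_lit 14) (nat_lit 4) (nat_lit 456) (nat_lit 372) (nat_lit 372))) (XT.nd (nat_lit 78) (nat_lit 0) (nat_lit 0) (XT.lf (nat_lit 0) (nat_lit 6594696594) (nat_lit 152) (nat_lit 30460292172) (nat_lit 0) (nat_lit 6535990796) (nat_lit 11) (nat_lit 5) (nat_lit 13) (nat_lit 4) (nat_lit 11) (nat_lit 4) (nat_lit 457) (nat_lit 372) (nat_lit 371)) (XT.lf (nat_lit 0) (nat_lit 19665983318) (nat_lit 152) (nat_lit 6850756932) (nat_lit 0) (nat_lit 19552920299) (nat_lit 11) (nat_lit 5) (nat_lit 13) (nat_lit 4) (nat_lit 11) (nat_lit 4) (nat_lit 458) (nat_lit 372) (nat_lit 370))))))))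
noncomputable def xc35 : XT := (XT.nd (nat_lit 2184) (nat_lit 0) (nat_lit 0) (XT.nd (nat_lit 1092) (nat_lit 228) (nat_lit 0) (XT.nd (nat_lit 546) (nat_lit 228) (nat_lit 0) (XT.nd (nat_lit 234) (nat_lit 76) (nat_lit 0) (XT.nd (nat_lit 78) (nat_lit 152) (nat_lit 0) (XT.lf (nat_lit 0) (nat_lit 18328234003) (nat_lit 76) (nat_lit 15297200120) (nat_lit 76) (nat_lit 15133806341) (nat_lit 10) (nat_lit 4) (nat_lit 11) (nat_lit 5) (nat_lit 11) (nat_lit 4) (nat_lit 459) (nat_lit 372) (nat_lit 369)) (XT.nd (nat_lit 78) (nat_lit 152) (nat_lit 0) (XT.lf (nat_lit 0) (nat_lit 44706288392) (nat_lit 76) (nat_lit 3599675081) (nat_lit 76) (nat_lit 3389678747) (nat_lit 10) (nat_lit 4) (nat_lit 11) (nat_lit 5) (nat_lit 11) (nat_lit 4) (nat_lit 460) (nat_lit 372) (nat_lit 368)) (XT.lf (nat_lit 0) (nat_lit 8924584558) (nat_lit 152) (nat_lit 37226659424) (nat_lit 0) (nat_lit 8690189329) (nat_lit 8) (nat_lit 5) (nat_lit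 10) (nat_lit 4) (nat_lit 8) (nat_lit 4) (nat_lit 461) (nat_lit 372) (nat_lit 367)))) (XT.nd (nat_lit 156) (nat_lit 0) (nat_lit 0) (XT.nd (nat_lit 78) (nat_lit 76) (nat_lit 0) (XT.lf (nat_lit 0) (nat_lit 21776926895) (nat_lit 152) (nat_lit 14970495747) (nat_lit 0) (nat_lit 21505537054) (nat_lit 8) (nat_lit 5) (nat_lit 10) (nat_lit 4) (nat_lit 8) (nat_lit 4) (nat_lit 462) (nat_lit 372) (nat_lit 366)) (XT.lf (nat_lit 0) (nat_lit 8427445808) (nat_lit 76) (nat_lit 26920196286) (nat_lit 76) (nat_lit 26614552176) (nat_lit 7) (nat_lit 4) (nat_lit 8) (nat_lit 5) (nat_lit 8) (nat_lit 4) (nat_lit 463) (nat_lit 372) (nat_lit 365))) (XT.nd (nat_lit 78) (nat_lit 0) (nat_lit 0) (XT.lf (nat_lit 0) (nat_lit 33515160650) (nat_lit 76) (nat_lit 16398787087) (nat_lit 76) (nat_lit 16061426060) (nat_lit 7) (nat_lit 4) (nat_lit 8) (nat_lit 5) (nat_lit 8) (nat_lit 4) (nat_lit 464) (nat_lit 372) (nat_lit 364)) (XT.lf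 (nat_lit 0) (nat_lit 59652996942) (nat_lit 76) (nat_lit 5530165837) (nat_lit 76) (nat_lit 5163437296) (nat_lit 7) (nat_lit 4) (nat_lit 8) (nat_lit 5) (nat_lit 8) (nat_lit 4) (nat_lit 465) (nat_lit 372) (nat_lit 363))))) (XT.nd (nat_lit 234) (nat_lit 76) (nat_lit 0) (XT.nd (nat_lit 78) (nat_lit 0) (nat_lit 0) (XT.lf (nat_lit 0) (nat_lit 6283873563) (nat_lit 152) (nat_lit 62851171755) (nat_lit 0) (nat_lit 5919132189) (nat_lit 5) (nat_lit 5) (nat_lit 7) (nat_lit 4) (nat_lit 5) (nat_lit 4) (nat_lit 466) (nat_lit 372) (nat_lit 362)) (XT.nd (nat_lit 78) (nat_lit 0) (nat_lit 0) (XT.lf (nat_lit 0) (nat_lit 18372571346) (nat_lit 152) (nat_lit 43770179155) (nat_lit 0) (nat_lit 17984517091) (nat_lit 5) (nat_lit 5) (nat_lit 7) (nat_lit 4) (nat_lit 5) (nat_lit 4) (nat_lit 467) (nat_lit 372) (nat_lit 361)) (XT.lf (nat_lit 0) (nat_lit 31021832278) (nat_lit 152) (nat_lit 24004703775) (nat_lit 0) (nat_lit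 30612192023) (nat_lit 5) (nat_lit 5) (nat_lit 7) (nat_lit 4) (nat_lit 5) (nat_lit 4) (nat_lit 468) (nat_lit 372) (nat_lit 360)))) (XT.nd (nat_lit 156) (nat_lit 0) (nat_lit 0) (XT.nd (nat_lit 78) (nat_lit 76) (nat_lit 0) (XT.lf (nat_lit 0) (nat_lit 44306614943) (nat_lit 152) (nat_lit 3437616870) (nat_lit 0) (nat_lit 43876987651) (nat_lit 5) (nat_lit 5) (nat_lit 7) (nat_lit 4) (nat_lit 5) (nat_lit 4) (nat_lit 469) (nat_lit 372) (nat_lit 359)) (XT.lf (nat_lit 0) (nat_lit 19003597504) (nat_lit 76) (nat_lit 39759083450) (nat_lit 76) (nat_lit 39310949642) (nat_lit 4) (nat_lit 4) (nat_lit 5) (nat_lit 5) (nat_lit 5) (nat_lit 4) (nat_lit 470) (nat_lit 372) (nat_lit 358))) (XT.nd (nat_lit 78) (nat_lit 0) (nat_lit 0) (XT.lf (nat_lit 0) (nat_lit 42732008303) (nat_lit 76) (nat_lit 31397574116) (nat_lit 76) (nat_lit 30932304645) (nat_lit 4) (nat_lit 4) (nat_lit 5) (nat_lit 5) (nat_lit 5) (nat_lit 4) (nat_lit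 471) (nat_lit 372) (nat_lit 357)) (XT.lf (nat_lit 0) (nat_lit 67707209519) (nat_lit 76) (nat_lit 22704144663) (nat_lit 76) (nat_lit 22223008837) (nat_lit 4) (nat_lit 4) (nat_lit 5) (nat_lit 5) (nat_lit 5) (nat_lit 4) (nat_lit 472) (nat_lit 372) (nat_lit 356)))))) (XT.nd (nat_lit 546) (nat_lit 76) (nat_lit 0) (XT.nd (nat_lit 234) (nat_lit 0) (nat_lit 0) (XT.nd (nat_lit 78) (nat_lit 152) (nat_lit 0) (XT.lf (nat_lit 0) (nat_lit 94077202343) (nat_lit 76) (nat_lit 13627278472) (nat_lit 76) (nat_lit 13131451577) (nat_lit 4) (nat_lit 4) (nat_lit 5) (nat_lit 5) (nat_lit 5) (nat_lit 4) (nat_lit 473) (nat_lit 372) (nat_lit 355)) (XT.nd (nat_lit 78) (nat_lit 152) (nat_lit 0) (XT.lf (nat_lit 0) (nat_lit 121998253401) (nat_lit 76) (nat_lit 4113186705) (nat_lit 76) (nat_lit 3603756969) (nat_lit 4) (nat_lit 4) (nat_lit 5) (nat_lit 5) (nat_lit 5) (nat_lit 4) (nat_lit 474) (nat_lit 372) (nat_lit 354)) (XT.lf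 (nat_lit 0) (nat_lit 6557084852) (nat_lit 152) (nat_lit 126644693805) (nat_lit 0) (nat_lit 6073728408) (nat_lit 2) (nat_lit 5) (nat_lit 4) (nat_lit 4) (nat_lit 2) (nat_lit 4) (nat_lit 475) (nat_lit 372) (nat_lit 353)))) (XT.nd (nat_lit 156) (nat_lit 0) (nat_lit 0) (XT.nd (nat_lit 78) (nat_lit 0) (nat_lit 0) (XT.lf (nat_lit 0) (nat_lit 17403375504) (nat_lit 152) (nat_lit 115275175390) (nat_lit 0) (nat_lit 16909220685) (nat_lit 2) (nat_lit 5) (nat_lit 4) (nat_lit 4) (nat_lit 2) (nat_lit 4) (nat_lit 476) (nat_lit 372) (nat_lit 352)) (XT.lf (nat_lit 0) (nat_lit 28880301484) (nat_lit 152) (nat_lit 103487533300) (nat_lit 0) (nat_lit 28376148171) (nat_lit 2) (nat_lit 5) (nat_lit 4) (nat_lit 4) (nat_lit 2) (nat_lit 4) (nat_lit 477) (nat_lit 372) (nat_lit 351))) (XT.nd (nat_lit 78) (nat_lit 0) (nat_lit 0) (XT.lf (nat_lit 0) (nat_lit 41055874207) (nat_lit 152) (nat_lit 91211914841) (nat_lit 0) (nat_lit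 40542463028) (nat_lit 2) (nat_lit 5) (nat_lit 4) (nat_lit 4) (nat_lit 2) (nat_lit 4) (nat_lit 478) (nat_lit 372) (nat_lit 350)) (XT.lf (nat_lit 0) (nat_lit 54002245213) (nat_lit 152) (nat_lit 78375575607) (nat_lit 0) (nat_lit 53480261936) (nat_lit 2) (nat_lit 5) (nat_lit 4) (nat_lit 4) (nat_lit 2) (nat_lit 4) (nat_lit 479) (nat_lit 372) (nat_lit 349))))) (XT.nd (nat_lit 234) (nat_lit 76) (nat_lit 0) (XT.nd (nat_lit 78) (nat_lit 0) (nat_lit 0) (XT.lf (nat_lit 0) (nat_lit 67796133739) (nat_lit 152) (nat_lit 64902448403) (nat_lit 0) (nat_lit 67266213335) (nat_lit 2) (nat_lit 5) (nat_lit 4) (nat_lit 4) (nat_lit 2) (nat_lit 4) (nat_lit 480) (nat_lit 372) (nat_lit 348)) (XT.nd (nat_lit 78) (nat_lit 0) (nat_lit 0) (XT.lf (nat_lit 0) (nat_lit 82519281346) (nat_lit 152) (nat_lit 50712692476) (nat_lit 0) (nat_lit 81982011749) (nat_lit 2) (nat_lit 5) (nat_lit 4) (nat_lit 4) (nat_lit 2) (nat_lit 4)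 (nat_lit 481) (nat_lit 372) (nat_lit 347)) (XT.lf (nat_lit 0) (nat_lit 98258936316) (nat_lit 152) (nat_lit 35722220383) (nat_lit 0) (nat_lit 97714861912) (nat_lit 2) (nat_lit 5) (nat_lit 4) (nat_lit 4) (nat_lit 2) (nat_lit 4) (nat_lit 482) (nat_lit 372) (nat_lit 346)))) (XT.nd (nat_lit 156) (nat_lit 76) (nat_lit 0) (XT.nd (nat_lit 78) (nat_lit 0) (nat_lit 0) (XT.lf (nat_lit 0) (nat_lit 115108370679) (nat_lit 152) (nat_lit 19842199696) (nat_lit 0) (nat_lit 114557995527) (nat_lit 2) (nat_lit 5) (nat_lit 4) (nat_lit 4) (nat_lit 2) (nat_lit 4) (nat_lit 483) (nat_lit 372) (nat_lit 345)) (XT.lf (nat_lit 0) (nat_lit 133167432934) (nat_lit 152) (nat_lit 2978526589) (nat_lit 0) (nat_lit 132611223757) (nat_lit 2) (nat_lit 5) (nat_lit 4) (nat_lit 4) (nat_lit 2) (nat_lit 4) (nat_lit 484) (nat_lit 372) (nat_lit 344))) (XT.nd (nat_lit 78) (nat_lit 0) (nat_lit 0) (XT.lf (nat_lit 0) (nat_lit 15756958705)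 (nat_lit 76) (nat_lit 137165136279) (nat_lit 76) (nat_lit 136603525226) (nat_lit 1) (nat_lit 4) (nat_lit 2) (nat_lit 5) (nat_lit 2) (nat_lit 4) (nat_lit 485) (nat_lit 372) (nat_lit 343)) (XT.lf (nat_lit 0) (nat_lit 35901887454) (nat_lit 76) (nat_lit 138311863925) (nat_lit 76) (nat_lit 137745251136) (nat_lit 1) (nat_lit 4) (nat_lit 2) (nat_lit 5) (nat_lit 2) (nat_lit 4) (nat_lit 486) (nat_lit 372) (nat_lit 342))))))) (XT.nd (nat_lit 1092) (nat_lit 0) (nat_lit 0) (XT.nd (nat_lit 546) (nat_lit 0) (nat_lit 0) (XT.nd (nat_lit 234) (nat_lit 0) (nat_lit 0) (XT.nd (nat_lit 78) (nat_lit 0) (nat_lit 0) (XT.lf (nat_lit 0) (nat_lit 57418793081) (nat_lit 76) (nat_lit 139674376082) (nat_lit 76) (nat_lit 139103132055) (nat_lit 1) (nat_lit 4) (nat_lit 2) (nat_lit 5) (nat_lit 2) (nat_lit 4) (nat_lit 487) (nat_lit 372) (nat_lit 341)) (XT.nd (nat_lit 78) (nat_lit 0) (nat_lit 0) (XT.lf (nat_lit 0) (nat_lit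 80435183175) (nat_lit 76) (nat_lit 141260746896) (nat_lit 76) (nat_lit 140685214686) (nat_lit 1) (nat_lit 4) (nat_lit 2) (nat_lit 5) (nat_lit 2) (nat_lit 4) (nat_lit 488) (nat_lit 372) (nat_lit 340)) (XT.lf (nat_lit 0) (nat_lit 105087451158) (nat_lit 76) (nat_lit 143080377082) (nat_lit 76) (nat_lit 142500874332) (nat_lit 1) (nat_lit 4) (nat_lit 2) (nat_lit 5) (nat_lit 2) (nat_lit 4) (nat_lit 489) (nat_lit 372) (nat_lit 339)))) (XT.nd (nat_lit 156) (nat_lit 0) (nat_lit 0) (XT.nd (nat_lit 78) (nat_lit 0) (nat_lit 0) (XT.lf (nat_lit 0) (nat_lit 131521684546) (nat_lit 76) (nat_lit 145144049635) (nat_lit 76) (nat_lit 144560870459) (nat_lit 1) (nat_lit 4) (nat_lit 2) (nat_lit 5) (nat_lit 2) (nat_lit 4) (nat_lit 490) (nat_lit 372) (nat_lit 338)) (XT.lf (nat_lit 0) (nat_lit 159894530646) (nat_lit 76) (nat_lit 147463993724) (nat_lit 76) (nat_lit 146877410450) (nat_lit 1) (nat_lit 4) (nat_lit 2) (nat_lit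 5) (nat_lit 2) (nat_lit 4) (nat_lit 491) (nat_lit 372) (nat_lit 337))) (XT.nd (nat_lit 78) (nat_lit 0) (nat_lit 0) (XT.lf (nat_lit 0) (nat_lit 190374124843) (nat_lit 76) (nat_lit 150053957167) (nat_lit 76) (nat_lit 149464221951) (nat_lit 1) (nat_lit 4) (nat_lit 2) (nat_lit 5) (nat_lit 2) (nat_lit 4) (nat_lit 492) (nat_lit 372) (nat_lit 336)) (XT.lf (nat_lit 0) (nat_lit 223141086954) (nat_lit 76) (nat_lit 152929287895) (nat_lit 76) (nat_lit 152336634214) (nat_lit 1) (nat_lit 4) (nat_lit 2) (nat_lit 5) (nat_lit 2) (nat_lit 4) (nat_lit 493) (nat_lit 372) (nat_lit 335))))) (XT.nd (nat_lit 234) (nat_lit 0) (nat_lit 0) (XT.nd (nat_lit 78) (nat_lit 0) (nat_lit 0) (XT.lf (nat_lit 0) (nat_lit 258389591570) (nat_lit 76) (nat_lit 156107024905) (nat_lit 76) (nat_lit 155511668941) (nat_lit 1) (nat_lit 4) (nat_lit 2) (nat_lit 5) (nat_lit 2) (nat_lit 4) (nat_lit 494) (nat_lit 372) (nat_lit 334)) (XT.nd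 (nat_lit 78) (nat_lit 0) (nat_lit 0) (XT.lf (nat_lit 0) (nat_lit 296328518718) (nat_lit 76) (nat_lit 159605999232) (nat_lit 76) (nat_lit 159008141154) (nat_lit 1) (nat_lit 4) (nat_lit 2) (nat_lit 5) (nat_lit 2) (nat_lit 4) (nat_lit 495) (nat_lit 372) (nat_lit 333)) (XT.lf (nat_lit 0) (nat_lit 337182691671) (nat_lit 76) (nat_lit 163446945537) (nat_lit 76) (nat_lit 162846770688) (nat_lit 1) (nat_lit 4) (nat_lit 2) (nat_lit 5) (nat_lit 2) (nat_lit 4) (nat_lit 496) (nat_lit 372) (nat_lit 332)))) (XT.nd (nat_lit 156) (nat_lit 0) (nat_lit 0) (XT.nd (nat_lit 78) (nat_lit 0) (nat_lit 0) (XT.lf (nat_lit 0) (nat_lit 381194209230) (nat_lit 76) (nat_lit 167652624985) (nat_lit 76) (nat_lit 167050304977) (nat_lit 1) (nat_lit 4) (nat_lit 2) (nat_lit 5) (nat_lit 2) (nat_lit 4) (nat_lit 497) (nat_lit 372) (nat_lit 331)) (XT.lf (nat_lit 0) (nat_lit 428623880388) (nat_lit 76) (nat_lit 172247960120) (nat_lit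 76) (nat_lit 171643653853) (nat_lit 1) (nat_lit 4) (nat_lit 2) (nat_lit 5) (nat_lit 2) (nat_lit 4) (nat_lit 498) (nat_lit 372) (nat_lit 330))) (XT.nd (nat_lit 78) (nat_lit 0) (nat_lit 0) (XT.lf (nat_lit 0) (nat_lit 479752769865) (nat_lit 76) (nat_lit 177260182558) (nat_lit 76) (nat_lit 176654037163) (nat_lit 1) (nat_lit 4) (nat_lit 2) (nat_lit 5) (nat_lit 2) (nat_lit 4) (nat_lit 499) (nat_lit 372) (nat_lit 329)) (XT.lf (nat_lit 0) (nat_lit 534883863670) (nat_lit 76) (nat_lit 182718994357) (nat_lit 76) (nat_lit 182111146065) (nat_lit 1) (nat_lit 4) (nat_lit 2) (nat_lit 5) (nat_lit 2) (nat_lit 4) (nat_lit 500) (nat_lit 372) (nat_lit 328)))))) (XT.nd (nat_lit 546) (nat_lit 0) (nat_lit 0) (XT.nd (nat_lit 234) (nat_lit 0) (nat_lit 0) (XT.nd (nat_lit 78) (nat_lit 0) (nat_lit 0) (XT.lf (nat_lit 0) (nat_lit 594343864583) (nat_lit 76) (nat_lit 188656744032) (nat_lit 76) (nat_lit 188047318984) (nat_lit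 1) (nat_lit 4) (nat_lit 2) (nat_lit 5) (nat_lit 2) (nat_lit 4) (nat_lit 501) (nat_lit 372) (nat_lit 327)) (XT.nd (nat_lit 78) (nat_lit 0) (nat_lit 0) (XT.lf (nat_lit 0) (nat_lit 658485128165) (nat_lit 76) (nat_lit 195108618248) (nat_lit 76) (nat_lit 194497733241) (nat_lit 1) (nat_lit 4) (nat_lit 2) (nat_lit 5) (nat_lit 2) (nat_lit 4) (nat_lit 502) (nat_lit 372) (nat_lit 326)) (XT.lf (nat_lit 0) (nat_lit 727687750792) (nat_lit 76) (nat_lit 202112850333) (nat_lit 76) (nat_lit 201500613512) (nat_lit 1) (nat_lit 4) (nat_lit 2) (nat_lit 5) (nat_lit 2) (nat_lit 4) (nat_lit 503) (nat_lit 372) (nat_lit 325)))) (XT.nd (nat_lit 156) (nat_lit 0) (nat_lit 0) (XT.nd (nat_lit 78) (nat_lit 0) (nat_lit 0) (XT.lf (nat_lit 0) (nat_lit 802361822079) (nat_lit 76) (nat_lit 209710946849) (nat_lit 76) (nat_lit 209097458348) (nat_lit 1) (nat_lit 4) (nat_lit 2) (nat_lit 5) (nat_lit 2) (nat_lit 4) (nat_lit 504) (nat_lit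 372) (nat_lit 324)) (XT.lf (nat_lit 0) (nat_lit 882949855043) (nat_lit 76) (nat_lit 217947933551) (nat_lit 76) (nat_lit 217333286087) (nat_lit 1) (nat_lit 4) (nat_lit 2) (nat_lit 5) (nat_lit 2) (nat_lit 4) (nat_lit 505) (nat_lit 372) (nat_lit 323))) (XT.nd (nat_lit 78) (nat_lit 0) (nat_lit 0) (XT.lf (nat_lit 0) (nat_lit 969929408396) (nat_lit 76) (nat_lit 226872622213) (nat_lit 76) (nat_lit 226256901636) (nat_lit 1) (nat_lit 4) (nat_lit 2) (nat_lit 5) (nat_lit 2) (nat_lit 4) (nat_lit 506) (nat_lit 372) (nat_lit 322)) (XT.lf (nat_lit 0) (nat_lit 1063815916529) (nat_lit 76) (nat_lit 236537899880) (nat_lit 76) (nat_lit 235921185679) (nat_lit 1) (nat_lit 4) (nat_lit 2) (nat_lit 5) (nat_lit 2) (nat_lit 4) (nat_lit 507) (nat_lit 372) (nat_lit 321))))) (XT.nd (nat_lit 312) (nat_lit 0) (nat_lit 0) (XT.nd (nat_lit 156) (nat_lit 0) (nat_lit 0) (XT.nd (nat_lit 78) (nat_lit 0) (nat_lit 0) (XT.lf (nat_lit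 0) (nat_lit 1165165743935) (nat_lit 76) (nat_lit 247001042270) (nat_lit 76) (nat_lit 246383408047) (nat_lit 1) (nat_lit 4) (nat_lit 2) (nat_lit 5) (nat_lit 2) (nat_lit 4) (nat_lit 508) (nat_lit 372) (nat_lit 320)) (XT.lf (nat_lit 0) (nat_lit 1274579482183) (nat_lit 76) (nat_lit 258324053190) (nat_lit 76) (nat_lit 257705567095) (nat_lit 1) (nat_lit 4) (nat_lit 2) (nat_lit 5) (nat_lit 2) (nat_lit 4) (nat_lit 509) (nat_lit 372) (nat_lit 319))) (XT.nd (nat_lit 78) (nat_lit 0) (nat_lit 0) (XT.lf (nat_lit 0) (nat_lit 1392705508981) (nat_lit 76) (nat_lit 270574031964) (nat_lit 76) (nat_lit 269954757099) (nat_lit 1) (nat_lit 4) (nat_lit 2) (nat_lit 5) (nat_lit 2) (nat_lit 4) (nat_lit 510) (nat_lit 372) (nat_lit 318)) (XT.lf (nat_lit 0) (nat_lit 1520243830415) (nat_lit 76) (nat_lit 283823571060) (nat_lit 76) (nat_lit 283203565851) (nat_lit 1) (nat_lit 4) (nat_lit 2) (nat_lit 5) (nat_lit 2) (nat_lit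 4) (nat_lit 511) (nat_lit 372) (nat_lit 317)))) (XT.nd (nat_lit 156) (nat_lit 0) (nat_lit 0) (XT.nd (nat_lit 78) (nat_lit 0) (nat_lit 0) (XT.lf (nat_lit 0) (nat_lit 1657950229129) (nat_lit 76) (nat_lit 298151186263) (nat_lit 76) (nat_lit 297530504811) (nat_lit 1) (nat_lit 4) (nat_lit 2) (nat_lit 5) (nat_lit 2) (nat_lit 4) (nat_lit 512) (nat_lit 372) (nat_lit 316)) (XT.lf (nat_lit 0) (nat_lit 1806640743043) (nat_lit 76) (nat_lit 313641781962) (nat_lit 76) (nat_lit 313020474358) (nat_lit 1) (nat_lit 4) (nat_lit 2) (nat_lit 5) (nat_lit 2) (nat_lit 4) (nat_lit 513) (nat_lit 372) (nat_lit 315))) (XT.nd (nat_lit 78) (nat_lit 0) (nat_lit 0) (XT.lf (nat_lit 0) (nat_lit 1967196501127) (nat_lit 76) (nat_lit 330387154278) (nat_lit 76) (nat_lit 329765266904) (nat_lit 1) (nat_lit 4) (nat_lit 2) (nat_lit 5) (nat_lit 2) (nat_lit 4) (nat_lit 514) (nat_lit 372) (nat_lit 314)) (XT.lf (nat_lit 0) (nat_lit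 2140568944911) (nat_lit 76) (nat_lit 348486535047) (nat_lit 76) (nat_lit 347864110849) (nat_lit 1) (nat_lit 4) (nat_lit 2) (nat_lit 5) (nat_lit 2) (nat_lit 4) (nat_lit 515) (nat_lit 372) (nat_lit 313))))))))
noncomputable def xc36 : XT := (XT.nd (nat_lit 2184) (nat_lit 0) (nat_lit 0) (XT.nd (nat_lit 1092) (nat_lit 0) (nat_lit 0) (XT.nd (nat_lit 546) (nat_lit 0) (nat_lit 0) (XT.nd (nat_lit 234) (nat_lit 0) (nat_lit 0) (XT.nd (nat_lit 78) (nat_lit 0) (nat_lit 0) (XT.lf (nat_lit 0) (nat_lit 2327785466654) (nat_lit 76) (nat_lit 368047179859) (nat_lit 76) (nat_lit 367424258602) (nat_lit 1) (nat_lit 4) (nat_lit 2) (nat_lit 5) (nat_lit 2) (nat_lit 4) (nat_lit 516) (nat_lit 372) (nat_lit 312)) (XT.nd (nat_lit 78) (nat_lit 0) (nat_lit 0) (XT.lf (nat_lit 0) (nat_lit 2529955497596) (nat_lit 76) (nat_lit 389185003646) (nat_lit 76) (nat_lit 388561622149) (nat_lit 1) (nat_lit 4) (nat_lit 2) (nat_lit 5)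 (nat_lit 2) (nat_lit 4) (nat_lit 517) (nat_lit 372) (nat_lit 311)) (XT.lf (nat_lit 0) (nat_lit 2748277082365) (nat_lit 76) (nat_lit 412025267587) (nat_lit 76) (nat_lit 411401459942) (nat_lit 1) (nat_lit 4) (nat_lit 2) (nat_lit 5) (nat_lit 2) (nat_lit 4) (nat_lit 518) (nat_lit 372) (nat_lit 310)))) (XT.nd (nat_lit 156) (nat_lit 0) (nat_lit 0) (XT.nd (nat_lit 78) (nat_lit 0) (nat_lit 0) (XT.lf (nat_lit 0) (nat_lit 2984043978501) (nat_lit 76) (nat_lit 436703321393) (nat_lit 76) (nat_lit 436079119166) (nat_lit 1) (nat_lit 4) (nat_lit 2) (nat_lit 5) (nat_lit 2) (nat_lit 4) (nat_lit 519) (nat_lit 372) (nat_lit 309)) (XT.lf (nat_lit 0) (nat_lit 3238653323166) (nat_lit 76) (nat_lit 463365405384) (nat_lit 76) (nat_lit 462740837803) (nat_lit 1) (nat_lit 4) (nat_lit 2) (nat_lit 5) (nat_lit 2) (nat_lit 4) (nat_lit 520) (nat_lit 372) (nat_lit 308))) (XT.nd (nat_lit 78) (nat_lit 0) (nat_lit 0) (XT.lf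 (nat_lit 0) (nat_lit 3513613912475) (nat_lit 76) (nat_lit 492169517093) (nat_lit 76) (nat_lit 491544611223) (nat_lit 1) (nat_lit 4) (nat_lit 2) (nat_lit 5) (nat_lit 2) (nat_lit 4) (nat_lit 521) (nat_lit 372) (nat_lit 307)) (XT.lf (nat_lit 0) (nat_lit 3810555142515) (nat_lit 76) (nat_lit 523286347554) (nat_lit 76) (nat_lit 522661128452) (nat_lit 1) (nat_lit 4) (nat_lit 2) (nat_lit 5) (nat_lit 2) (nat_lit 4) (nat_lit 522) (nat_lit 372) (nat_lit 306))))) (XT.nd (nat_lit 234) (nat_lit 0) (nat_lit 0) (XT.nd (nat_lit 78) (nat_lit 0) (nat_lit 0) (XT.lf (nat_lit 0) (nat_lit 4131236665018) (nat_lit 76) (nat_lit 556900292799) (nat_lit 76) (nat_lit 556274783668) (nat_lit 1) (nat_lit 4) (nat_lit 2) (nat_lit 5) (nat_lit 2) (nat_lit 4) (nat_lit 523) (nat_lit 372) (nat_lit 305)) (XT.nd (nat_lit 78) (nat_lit 0) (nat_lit 0) (XT.lf (nat_lit 0) (nat_lit 4477558814933) (nat_lit 76) (nat_lit 593210546577) (nat_lit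 76) (nat_lit 592584768900) (nat_lit 1) (nat_lit 4) (nat_lit 2) (nat_lit 5) (nat_lit 2) (nat_lit 4) (nat_lit 524) (nat_lit 372) (nat_lit 304)) (XT.lf (nat_lit 0) (nat_lit 4851573871667) (nat_lit 76) (nat_lit 632432280763) (nat_lit 76) (nat_lit 631806254433) (nat_lit 1) (nat_lit 4) (nat_lit 2) (nat_lit 5) (nat_lit 2) (nat_lit 4) (nat_lit 525) (nat_lit 372) (nat_lit 303)))) (XT.nd (nat_lit 156) (nat_lit 0) (nat_lit 0) (XT.nd (nat_lit 78) (nat_lit 0) (nat_lit 0) (XT.lf (nat_lit 0) (nat_lit 5255498220741) (nat_lit 76) (nat_lit 674797920448) (nat_lit 76) (nat_lit 674171663883) (nat_lit 1) (nat_lit 4) (nat_lit 2) (nat_lit 5) (nat_lit 2) (nat_lit 4) (nat_lit 526) (nat_lit 372) (nat_lit 302)) (XT.lf (nat_lit 0) (nat_lit 5691725487927) (nat_lit 76) (nat_lit 720558521275) (nat_lit 76) (nat_lit 719932051530) (nat_lit 1) (nat_lit 4) (nat_lit 2) (nat_lit 5) (nat_lit 2) (nat_lit 4) (nat_lit 527) (nat_lit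 372) (nat_lit 301))) (XT.nd (nat_lit 78) (nat_lit 0) (nat_lit 0) (XT.lf (nat_lit 0) (nat_lit 6162840723698) (nat_lit 76) (nat_lit 769985257174) (nat_lit 76) (nat_lit 769358590040) (nat_lit 1) (nat_lit 4) (nat_lit 2) (nat_lit 5) (nat_lit 2) (nat_lit 4) (nat_lit 528) (nat_lit 372) (nat_lit 300)) (XT.lf (nat_lit 0) (nat_lit 6671635722043) (nat_lit 76) (nat_lit 823371027322) (nat_lit 76) (nat_lit 822744177420) (nat_lit 1) (nat_lit 4) (nat_lit 2) (nat_lit 5) (nat_lit 2) (nat_lit 4) (nat_lit 529) (nat_lit 372) (nat_lit 299)))))) (XT.nd (nat_lit 546) (nat_lit 0) (nat_lit 0) (XT.nd (nat_lit 234) (nat_lit 0) (nat_lit 0) (XT.nd (nat_lit 78) (nat_lit 0) (nat_lit 0) (XT.lf (nat_lit 0) (nat_lit 7221125564434) (nat_lit 76) (nat_lit 881032191837) (nat_lit 76) (nat_lit 880405172706) (nat_lit 1) (nat_lit 4) (nat_lit 2) (nat_lit 5) (nat_lit 2) (nat_lit 4) (nat_lit 530) (nat_lit 372) (nat_lit 298)) (XT.nd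 (nat_lit 78) (nat_lit 0) (nat_lit 0) (XT.lf (nat_lit 0) (nat_lit 7814566486974) (nat_lit 76) (nat_lit 943310446509) (nat_lit 76) (nat_lit 942683270685) (nat_lit 1) (nat_lit 4) (nat_lit 2) (nat_lit 5) (nat_lit 2) (nat_lit 4) (nat_lit 531) (nat_lit 372) (nat_lit 297)) (XT.lf (nat_lit 0) (nat_lit 8455475176611) (nat_lit 76) (nat_lit 1010574847663) (nat_lit 76) (nat_lit 1009947526751) (nat_lit 1) (nat_lit 4) (nat_lit 2) (nat_lit 5) (nat_lit 2) (nat_lit 4) (nat_lit 532) (nat_lit 372) (nat_lit 296)))) (XT.nd (nat_lit 156) (nat_lit 0) (nat_lit 0) (XT.nd (nat_lit 78) (nat_lit 0) (nat_lit 0) (XT.lf (nat_lit 0) (nat_lit 9147649610766) (nat_lit 76) (nat_lit 1083223999157) (nat_lit 76) (nat_lit 1082596543906) (nat_lit 1) (nat_lit 4) (nat_lit 2) (nat_lit 5) (nat_lit 2) (nat_lit 4) (nat_lit 533) (nat_lit 372) (nat_lit 295)) (XT.lf (nat_lit 0) (nat_lit 9895191563863) (nat_lit 76) (nat_lit 1161688414481)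 (nat_lit 76) (nat_lit 1161060834841) (nat_lit 1) (nat_lit 4) (nat_lit 2) (nat_lit 5) (nat_lit 2) (nat_lit 4) (nat_lit 534) (nat_lit 372) (nat_lit 294))) (XT.nd (nat_lit 78) (nat_lit 0) (nat_lit 0) (XT.lf (nat_lit 0) (nat_lit 10702530914143) (nat_lit 76) (nat_lit 1246433067949) (nat_lit 76) (nat_lit 1245805373134) (nat_lit 1) (nat_lit 4) (nat_lit 2) (nat_lit 5) (nat_lit 2) (nat_lit 4) (nat_lit 535) (nat_lit 372) (nat_lit 293)) (XT.lf (nat_lit 0) (nat_lit 11574451894792) (nat_lit 76) (nat_lit 1337960150099) (nat_lit 76) (nat_lit 1337332348641) (nat_lit 1) (nat_lit 4) (nat_lit 2) (nat_lit 5) (nat_lit 2) (nat_lit 4) (nat_lit 536) (nat_lit 372) (nat_lit 292))))) (XT.nd (nat_lit 234) (nat_lit 0) (nat_lit 0) (XT.nd (nat_lit 78) (nat_lit 0) (nat_lit 0) (XT.lf (nat_lit 0) (nat_lit 12516121444955) (nat_lit 76) (nat_lit 1436812043640) (nat_lit 76) (nat_lit 1436184143439) (nat_lit 1) (nat_lit 4) (nat_lit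 2) (nat_lit 5) (nat_lit 2) (nat_lit 4) (nat_lit 537) (nat_lit 372) (nat_lit 291)) (XT.nd (nat_lit 78) (nat_lit 0) (nat_lit 0) (XT.lf (nat_lit 0) (nat_lit 13533119828634) (nat_lit 76) (nat_lit 1543574537572) (nat_lit 76) (nat_lit 1542946545941) (nat_lit 1) (nat_lit 4) (nat_lit 2) (nat_lit 5) (nat_lit 2) (nat_lit 4) (nat_lit 538) (nat_lit 372) (nat_lit 290)) (XT.lf (nat_lit 0) (nat_lit 14631473702916) (nat_lit 76) (nat_lit 1658880298525) (nat_lit 76) (nat_lit 1658252222237) (nat_lit 1) (nat_lit 4) (nat_lit 2) (nat_lit 5) (nat_lit 2) (nat_lit 4) (nat_lit 539) (nat_lit 372) (nat_lit 289)))) (XT.nd (nat_lit 156) (nat_lit 0) (nat_lit 0) (XT.nd (nat_lit 78) (nat_lit 0) (nat_lit 0) (XT.lf (nat_lit 0) (nat_lit 15817691831501) (nat_lit 76) (nat_lit 1783412619897) (nat_lit 76) (nat_lit 1782784465223) (nat_lit 1) (nat_lit 4) (nat_lit 2) (nat_lit 5) (nat_lit 2) (nat_lit 4) (nat_lit 540) (nat_lit 372)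 (nat_lit 288)) (XT.lf (nat_lit 0) (nat_lit 17098803655151) (nat_lit 76) (nat_lit 1917909471000) (nat_lit 76) (nat_lit 1917281243747) (nat_lit 1) (nat_lit 4) (nat_lit 2) (nat_lit 5) (nat_lit 2) (nat_lit 4) (nat_lit 541) (nat_lit 372) (nat_lit 287))) (XT.nd (nat_lit 78) (nat_lit 0) (nat_lit 0) (XT.lf (nat_lit 0) (nat_lit 18482400947635) (nat_lit 76) (nat_lit 2063167870211) (nat_lit 76) (nat_lit 2062539575754) (nat_lit 1) (nat_lit 4) (nat_lit 2) (nat_lit 5) (nat_lit 2) (nat_lit 4) (nat_lit 542) (nat_lit 372) (nat_lit 286)) (XT.lf (nat_lit 0) (nat_lit 19976682804021) (nat_lit 76) (nat_lit 2220048608043) (nat_lit 76) (nat_lit 2219420251362) (nat_lit 1) (nat_lit 4) (nat_lit 2) (nat_lit 5) (nat_lit 2) (nat_lit 4) (nat_lit 543) (nat_lit 372) (nat_lit 285))))))) (XT.nd (nat_lit 56472) (nat_lit 0) (nat_lit 76) (XT.nd (nat_lit 55926) (nat_lit 0) (nat_lit 304) (XT.nd (nat_lit 55614) (nat_lit 0) (nat_lit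 684) (XT.nd (nat_lit 55458) (nat_lit 0) (nat_lit 912) (XT.lf (nat_lit 0) (nat_lit 21590504227902) (nat_lit 76) (nat_lit 2389481348129) (nat_lit 76) (nat_lit 2388852933832) (nat_lit 1) (nat_lit 4) (nat_lit 2) (nat_lit 5) (nat_lit 2) (nat_lit 4) (nat_lit 544) (nat_lit 372) (nat_lit 284)) (XT.nd (nat_lit 78) (nat_lit 76) (nat_lit 0) (XT.lf (nat_lit 0) (nat_lit 4121891487) (nat_lit 152) (nat_lit 10348581716) (nat_lit 0) (nat_lit 4121891487) (nat_lit 14) (nat_lit 5) (nat_lit 16) (nat_lit 4) (nat_lit 14) (nat_lit 4) (nat_lit 454) (nat_lit 373) (nat_lit 373)) (XT.lf (nat_lit 0) (nat_lit 3142900423) (nat_lit 76) (nat_lit 18048058485) (nat_lit 76) (nat_lit 17979584042) (nat_lit 13) (nat_lit 4) (nat_lit 14) (nat_lit 5) (nat_lit 14) (nat_lit 4) (nat_lit 455) (nat_lit 373) (nat_lit 372)))) (XT.nd (nat_lit 156) (nat_lit 76) (nat_lit 0) (XT.nd (nat_lit 78) (nat_lit 152) (nat_lit 0) (XT.lf (nat_lit 0)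 (nat_lit 28766728187) (nat_lit 76) (nat_lit 6342762632) (nat_lit 76) (nat_lit 6210885927) (nat_lit 13) (nat_lit 4) (nat_lit 14) (nat_lit 5) (nat_lit 14) (nat_lit 4) (nat_lit 456) (nat_lit 373) (nat_lit 371)) (XT.lf (nat_lit 0) (nat_lit 6011898867) (nat_lit 152) (nat_lit 31795344561) (nat_lit 0) (nat_lit 5835433586) (nat_lit 11) (nat_lit 5) (nat_lit 13) (nat_lit 4) (nat_lit 11) (nat_lit 4) (nat_lit 457) (nat_lit 373) (nat_lit 370))) (XT.nd (nat_lit 78) (nat_lit 76) (nat_lit 0) (XT.lf (nat_lit 0) (nat_lit 18795525338) (nat_lit 152) (nat_lit 8780116829) (nat_lit 0) (nat_lit 18568729298) (nat_lit 11) (nat_lit 5) (nat_lit 13) (nat_lit 4) (nat_lit 11) (nat_lit 4) (nat_lit 458) (nat_lit 373) (nat_lit 369)) (XT.lf (nat_lit 0) (nat_lit 15718015683) (nat_lit 76) (nat_lit 16707832562) (nat_lit 76) (nat_lit 16434433966) (nat_lit 10) (nat_lit 4) (nat_lit 11) (nat_lit 5) (nat_lit 11) (nat_lit 4) (nat_lit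 459) (nat_lit 373) (nat_lit 368))))) (XT.nd (nat_lit 234) (nat_lit 228) (nat_lit 0) (XT.nd (nat_lit 78) (nat_lit 152) (nat_lit 0) (XT.lf (nat_lit 0) (nat_lit 41559716601) (nat_lit 76) (nat_lit 5287139380) (nat_lit 76) (nat_lit 4970590270) (nat_lit 10) (nat_lit 4) (nat_lit 11) (nat_lit 5) (nat_lit 11) (nat_lit 4) (nat_lit 460) (nat_lit 373) (nat_lit 367)) (XT.nd (nat_lit 78) (nat_lit 0) (nat_lit 0) (XT.lf (nat_lit 0) (nat_lit 7031177129) (nat_lit 152) (nat_lit 41265347235) (nat_lit 0) (nat_lit 6701081490) (nat_lit 8) (nat_lit 5) (nat_lit 10) (nat_lit 4) (nat_lit 8) (nat_lit 4) (nat_lit 461) (nat_lit 373) (nat_lit 366)) (XT.lf (nat_lit 0) (nat_lit 19637127735) (nat_lit 152) (nat_lit 19518938455) (nat_lit 0) (nat_lit 19272777827) (nat_lit 8) (nat_lit 5) (nat_lit 10) (nat_lit 4) (nat_lit 8) (nat_lit 4) (nat_lit 462) (nat_lit 373) (nat_lit 365)))) (XT.nd (nat_lit 156) (nat_lit 152) (nat_lit 0)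 (XT.nd (nat_lit 78) (nat_lit 0) (nat_lit 0) (XT.lf (nat_lit 0) (nat_lit 3142640457) (nat_lit 76) (nat_lit 29709962290) (nat_lit 76) (nat_lit 29313895465) (nat_lit 7) (nat_lit 4) (nat_lit 8) (nat_lit 5) (nat_lit 8) (nat_lit 4) (nat_lit 463) (nat_lit 373) (nat_lit 364)) (XT.lf (nat_lit 0) (nat_lit 27770309272) (nat_lit 76) (nat_lit 19426293805) (nat_lit 76) (nat_lit 19000859465) (nat_lit 7) (nat_lit 4) (nat_lit 8) (nat_lit 5) (nat_lit 8) (nat_lit 4) (nat_lit 464) (nat_lit 373) (nat_lit 363))) (XT.nd (nat_lit 78) (nat_lit 152) (nat_lit 0) (XT.lf (nat_lit 0) (nat_lit 53482177020) (nat_lit 76) (nat_lit 8777802846) (nat_lit 76) (nat_lit 8325176363) (nat_lit 7) (nat_lit 4) (nat_lit 8) (nat_lit 5) (nat_lit 8) (nat_lit 4) (nat_lit 465) (nat_lit 373) (nat_lit 362)) (XT.lf (nat_lit 0) (nat_lit 2824630168) (nat_lit 152) (nat_lit 70128421679) (nat_lit 0) (nat_lit 2382218692) (nat_lit 5) (nat_lit 5) (nat_lit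 7) (nat_lit 4) (nat_lit 5) (nat_lit 4) (nat_lit 466) (nat_lit 373) (nat_lit 361)))))) (XT.nd (nat_lit 546) (nat_lit 152) (nat_lit 0) (XT.nd (nat_lit 234) (nat_lit 76) (nat_lit 0) (XT.nd (nat_lit 78) (nat_lit 0) (nat_lit 0) (XT.lf (nat_lit 0) (nat_lit 14717879550) (nat_lit 152) (nat_lit 51452235150) (nat_lit 0) (nat_lit 14253882074) (nat_lit 5) (nat_lit 5) (nat_lit 7) (nat_lit 4) (nat_lit 5) (nat_lit 4) (nat_lit 467) (nat_lit 373) (nat_lit 360)) (XT.nd (nat_lit 78) (nat_lit 0) (nat_lit 0) (XT.lf (nat_lit 0) (nat_lit 27186169741) (nat_lit 152) (nat_lit 32061580205) (nat_lit 0) (nat_lit 26702185228) (nat_lit 5) (nat_lit 5) (nat_lit 7) (nat_lit 4) (nat_lit 5) (nat_lit 4) (nat_lit 468) (nat_lit 373) (nat_lit 359)) (XT.lf (nat_lit 0) (nat_lit 40303386904) (nat_lit 152) (nat_lit 11841549259) (nat_lit 0) (nat_lit 39800895875) (nat_lit 5) (nat_lit 5) (nat_lit 7) (nat_lit 4) (nat_lit 5) (nat_lit 4)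 (nat_lit 469) (nat_lit 373) (nat_lit 358)))) (XT.nd (nat_lit 156) (nat_lit 0) (nat_lit 0) (XT.nd (nat_lit 78) (nat_lit 0) (nat_lit 0) (XT.lf (nat_lit 0) (nat_lit 9818859196) (nat_lit 76) (nat_lit 44564547300) (nat_lit 76) (nat_lit 44044920608) (nat_lit 4) (nat_lit 4) (nat_lit 5) (nat_lit 5) (nat_lit 5) (nat_lit 4) (nat_lit 470) (nat_lit 373) (nat_lit 357)) (XT.lf (nat_lit 0) (nat_lit 33234057280) (nat_lit 76) (nat_lit 36365057498) (nat_lit 76) (nat_lit 35829564452) (nat_lit 4) (nat_lit 4) (nat_lit 5) (nat_lit 5) (nat_lit 5) (nat_lit 4) (nat_lit 471) (nat_lit 373) (nat_lit 356))) (XT.nd (nat_lit 78) (nat_lit 0) (nat_lit 0) (XT.lf (nat_lit 0) (nat_lit 57919246723) (nat_lit 76) (nat_lit 27821646131) (nat_lit 76) (nat_lit 27271462015) (nat_lit 4) (nat_lit 4) (nat_lit 5) (nat_lit 5) (nat_lit 5) (nat_lit 4) (nat_lit 472) (nat_lit 373) (nat_lit 355)) (XT.lf (nat_lit 0) (nat_lit 84020710128) (nat_lit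 76) (nat_lit 18883685574) (nat_lit 76) (nat_lit 18319898617) (nat_lit 4) (nat_lit 4) (nat_lit 5) (nat_lit 5) (nat_lit 5) (nat_lit 4) (nat_lit 473) (nat_lit 373) (nat_lit 354))))) (XT.nd (nat_lit 312) (nat_lit 0) (nat_lit 0) (XT.nd (nat_lit 156) (nat_lit 0) (nat_lit 0) (XT.nd (nat_lit 78) (nat_lit 152) (nat_lit 0) (XT.lf (nat_lit 0) (nat_lit 111693122834) (nat_lit 76) (nat_lit 9498210136) (nat_lit 76) (nat_lit 8921827956) (nat_lit 4) (nat_lit 4) (nat_lit 5) (nat_lit 5) (nat_lit 5) (nat_lit 4) (nat_lit 474) (nat_lit 373) (nat_lit 353)) (XT.lf (nat_lit 0) (nat_lit 974439959) (nat_lit 152) (nat_lit 138321757122) (nat_lit 0) (nat_lit 429954380) (nat_lit 2) (nat_lit 5) (nat_lit 4) (nat_lit 4) (nat_lit 2) (nat_lit 4) (nat_lit 475) (nat_lit 373) (nat_lit 352))) (XT.nd (nat_lit 78) (nat_lit 0) (nat_lit 0) (XT.lf (nat_lit 0) (nat_lit 11706755648) (nat_lit 152) (nat_lit 127188506879) (nat_lit 0) (nat_lit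 11152271574) (nat_lit 2) (nat_lit 5) (nat_lit 4) (nat_lit 4) (nat_lit 2) (nat_lit 4) (nat_lit 476) (nat_lit 373) (nat_lit 351)) (XT.lf (nat_lit 0) (nat_lit 23078149255) (nat_lit 152) (nat_lit 115619631615) (nat_lit 0) (nat_lit 22514407316) (nat_lit 2) (nat_lit 5) (nat_lit 4) (nat_lit 4) (nat_lit 2) (nat_lit 4) (nat_lit 477) (nat_lit 373) (nat_lit 350)))) (XT.nd (nat_lit 156) (nat_lit 0) (nat_lit 0) (XT.nd (nat_lit 78) (nat_lit 0) (nat_lit 0) (XT.lf (nat_lit 0) (nat_lit 35156006816) (nat_lit 152) (nat_lit 103546575032) (nat_lit 0) (nat_lit 34583692780) (nat_lit 2) (nat_lit 5) (nat_lit 4) (nat_lit 4) (nat_lit 2) (nat_lit 4) (nat_lit 478) (nat_lit 373) (nat_lit 349)) (XT.lf (nat_lit 0) (nat_lit 48011900822) (nat_lit 152) (nat_lit 90897793091) (nat_lit 0) (nat_lit 47431649658) (nat_lit 2) (nat_lit 5) (nat_lit 4) (nat_lit 4) (nat_lit 2) (nat_lit 4) (nat_lit 479) (nat_lit 373) (nat_lit 348)))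 (XT.nd (nat_lit 78) (nat_lit 0) (nat_lit 0) (XT.lf (nat_lit 0) (nat_lit 61722014348) (nat_lit 152) (nat_lit 77598330048) (nat_lit 0) (nat_lit 61134413991) (nat_lit 2) (nat_lit 5) (nat_lit 4) (nat_lit 4) (nat_lit 2) (nat_lit 4) (nat_lit 480) (nat_lit 373) (nat_lit 347)) (XT.lf (nat_lit 0) (nat_lit 76367592510) (nat_lit 152) (nat_lit 63569374268) (nat_lit 0) (nat_lit 75773187346) (nat_lit 2) (nat_lit 5) (nat_lit 4) (nat_lit 4) (nat_lit 2) (nat_lit 4) (nat_lit 481) (nat_lit 373) (nat_lit 346))))))))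
noncomputable def xc37 : XT := (XT.nd (nat_lit 2184) (nat_lit 0) (nat_lit 0) (XT.nd (nat_lit 1092) (nat_lit 0) (nat_lit 0) (XT.nd (nat_lit 546) (nat_lit 0) (nat_lit 0) (XT.nd (nat_lit 234) (nat_lit 76) (nat_lit 0) (XT.nd (nat_lit 78) (nat_lit 0) (nat_lit 0) (XT.lf (nat_lit 0) (nat_lit 92035423920) (nat_lit 152) (nat_lit 48727791201) (nat_lit 0) (nat_lit 91434718009) (nat_lit 2) (nat_lit 5) (nat_lit 4) (nat_lit 4) (nat_lit 2) (nat_lit 4) (nat_lit 482) (nat_lit 373) (nat_lit 345)) (XT.nd (nat_lit 78) (nat_lit 0) (nat_lit 0) (XT.lf (nat_lit 0) (nat_lit 108818354986) (nat_lit 152) (nat_lit 32985630723) (nat_lit 0) (nat_lit 108211815049) (nat_lit 2) (nat_lit 5) (nat_lit 4) (nat_lit 4) (nat_lit 2) (nat_lit 4) (nat_lit 483) (nat_lit 373) (nat_lit 344)) (XT.lf (nat_lit 0) (nat_lit 126815840116) (nat_lit 152) (nat_lit 16249605958) (nat_lit 0) (nat_lit 126203898303) (nat_lit 2) (nat_lit 5) (nat_lit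 4) (nat_lit 4) (nat_lit 2) (nat_lit 4) (nat_lit 484) (nat_lit 373) (nat_lit 343)))) (XT.nd (nat_lit 156) (nat_lit 0) (nat_lit 0) (XT.nd (nat_lit 78) (nat_lit 0) (nat_lit 0) (XT.lf (nat_lit 0) (nat_lit 1662631076) (nat_lit 76) (nat_lit 144511886313) (nat_lit 76) (nat_lit 143894942763) (nat_lit 1) (nat_lit 4) (nat_lit 2) (nat_lit 5) (nat_lit 2) (nat_lit 4) (nat_lit 485) (nat_lit 373) (nat_lit 342)) (XT.lf (nat_lit 0) (nat_lit 21692359141) (nat_lit 76) (nat_lit 145718251603) (nat_lit 76) (nat_lit 145096676816) (nat_lit 1) (nat_lit 4) (nat_lit 2) (nat_lit 5) (nat_lit 2) (nat_lit 4) (nat_lit 486) (nat_lit 373) (nat_lit 341))) (XT.nd (nat_lit 78) (nat_lit 0) (nat_lit 0) (XT.lf (nat_lit 0) (nat_lit 43102597469) (nat_lit 76) (nat_lit 147135983800) (nat_lit 76) (nat_lit 146510120831) (nat_lit 1) (nat_lit 4) (nat_lit 2) (nat_lit 5) (nat_lit 2) (nat_lit 4) (nat_lit 487) (nat_lit 373) (nat_lit 340))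 (XT.lf (nat_lit 0) (nat_lit 66020221544) (nat_lit 76) (nat_lit 148773484281) (nat_lit 76) (nat_lit 148143650771) (nat_lit 1) (nat_lit 4) (nat_lit 2) (nat_lit 5) (nat_lit 2) (nat_lit 4) (nat_lit 488) (nat_lit 373) (nat_lit 339))))) (XT.nd (nat_lit 234) (nat_lit 0) (nat_lit 0) (XT.nd (nat_lit 78) (nat_lit 0) (nat_lit 0) (XT.lf (nat_lit 0) (nat_lit 90581039511) (nat_lit 76) (nat_lit 150640456752) (nat_lit 76) (nat_lit 150006946816) (nat_lit 1) (nat_lit 4) (nat_lit 2) (nat_lit 5) (nat_lit 2) (nat_lit 4) (nat_lit 489) (nat_lit 373) (nat_lit 338)) (XT.nd (nat_lit 78) (nat_lit 0) (nat_lit 0) (XT.lf (nat_lit 0) (nat_lit 116930596957) (nat_lit 76) (nat_lit 152747964752) (nat_lit 76) (nat_lit 152111050719) (nat_lit 1) (nat_lit 4) (nat_lit 2) (nat_lit 5) (nat_lit 2) (nat_lit 4) (nat_lit 490) (nat_lit 373) (nat_lit 337)) (XT.lf (nat_lit 0) (nat_lit 145225039408) (nat_lit 76) (nat_lit 155108497220) (nat_lit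 76) (nat_lit 154468431244) (nat_lit 1) (nat_lit 4) (nat_lit 2) (nat_lit 5) (nat_lit 2) (nat_lit 4) (nat_lit 491) (nat_lit 373) (nat_lit 336)))) (XT.nd (nat_lit 156) (nat_lit 0) (nat_lit 0) (XT.nd (nat_lit 78) (nat_lit 0) (nat_lit 0) (XT.lf (nat_lit 0) (nat_lit 175632037633) (nat_lit 76) (nat_lit 157736042494) (nat_lit 76) (nat_lit 157093058053) (nat_lit 1) (nat_lit 4) (nat_lit 2) (nat_lit 5) (nat_lit 2) (nat_lit 4) (nat_lit 492) (nat_lit 373) (nat_lit 335)) (XT.lf (nat_lit 0) (nat_lit 208331781252) (nat_lit 76) (nat_lit 160646171215) (nat_lit 76) (nat_lit 160000484491) (nat_lit 1) (nat_lit 4) (nat_lit 2) (nat_lit 5) (nat_lit 2) (nat_lit 4) (nat_lit 493) (nat_lit 373) (nat_lit 334))) (XT.nd (nat_lit 78) (nat_lit 0) (nat_lit 0) (XT.lf (nat_lit 0) (nat_lit 243518046523) (nat_lit 76) (nat_lit 163856128588) (nat_lit 76) (nat_lit 163207939751) (nat_lit 1) (nat_lit 4) (nat_lit 2) (nat_lit 5) (nat_lit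 2) (nat_lit 4) (nat_lit 494) (nat_lit 373) (nat_lit 333)) (XT.lf (nat_lit 0) (nat_lit 281399344648) (nat_lit 76) (nat_lit 167384936585) (nat_lit 76) (nat_lit 166734430975) (nat_lit 1) (nat_lit 4) (nat_lit 2) (nat_lit 5) (nat_lit 2) (nat_lit 4) (nat_lit 495) (nat_lit 373) (nat_lit 332)))))) (XT.nd (nat_lit 546) (nat_lit 0) (nat_lit 0) (XT.nd (nat_lit 234) (nat_lit 0) (nat_lit 0) (XT.nd (nat_lit 78) (nat_lit 0) (nat_lit 0) (XT.lf (nat_lit 0) (nat_lit 322200157394) (nat_lit 76) (nat_lit 171253506658) (nat_lit 76) (nat_lit 170600855890) (nat_lit 1) (nat_lit 4) (nat_lit 2) (nat_lit 5) (nat_lit 2) (nat_lit 4) (nat_lit 496) (nat_lit 373) (nat_lit 331)) (XT.nd (nat_lit 78) (nat_lit 0) (nat_lit 0) (XT.lf (nat_lit 0) (nat_lit 366162267355) (nat_lit 76) (nat_lit 175484763669) (nat_lit 76) (nat_lit 174830126642) (nat_lit 1) (nat_lit 4) (nat_lit 2) (nat_lit 5) (nat_lit 2) (nat_lit 4) (nat_lit 497) (nat_lit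 373) (nat_lit 330)) (XT.lf (nat_lit 0) (nat_lit 413546190737) (nat_lit 76) (nat_lit 180103781733) (nat_lit 76) (nat_lit 179447305578) (nat_lit 1) (nat_lit 4) (nat_lit 2) (nat_lit 5) (nat_lit 2) (nat_lit 4) (nat_lit 498) (nat_lit 373) (nat_lit 329)))) (XT.nd (nat_lit 156) (nat_lit 0) (nat_lit 0) (XT.nd (nat_lit 78) (nat_lit 0) (nat_lit 0) (XT.lf (nat_lit 0) (nat_lit 464632721161) (nat_lit 76) (nat_lit 185137932808) (nat_lit 76) (nat_lit 184479753757) (nat_lit 1) (nat_lit 4) (nat_lit 2) (nat_lit 5) (nat_lit 2) (nat_lit 4) (nat_lit 499) (nat_lit 373) (nat_lit 328)) (XT.lf (nat_lit 0) (nat_lit 519724593622) (nat_lit 76) (nat_lit 190617048902) (nat_lit 76) (nat_lit 189957293094) (nat_lit 1) (nat_lit 4) (nat_lit 2) (nat_lit 5) (nat_lit 2) (nat_lit 4) (nat_lit 500) (nat_lit 373) (nat_lit 327))) (XT.nd (nat_lit 78) (nat_lit 0) (nat_lit 0) (XT.lf (nat_lit 0) (nat_lit 579148278475) (nat_lit 76) (nat_lit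 196573598849) (nat_lit 76) (nat_lit 195912383083) (nat_lit 1) (nat_lit 4) (nat_lit 2) (nat_lit 5) (nat_lit 2) (nat_lit 4) (nat_lit 501) (nat_lit 373) (nat_lit 326)) (XT.lf (nat_lit 0) (nat_lit 643255916075) (nat_lit 76) (nat_lit 203042880725) (nat_lit 76) (nat_lit 202380313144) (nat_lit 1) (nat_lit 4) (nat_lit 2) (nat_lit 5) (nat_lit 2) (nat_lit 4) (nat_lit 502) (nat_lit 373) (nat_lit 325))))) (XT.nd (nat_lit 234) (nat_lit 0) (nat_lit 0) (XT.nd (nat_lit 78) (nat_lit 0) (nat_lit 0) (XT.lf (nat_lit 0) (nat_lit 712427403534) (nat_lit 76) (nat_lit 210063231014) (nat_lit 76) (nat_lit 209399411753) (nat_lit 1) (nat_lit 4) (nat_lit 2) (nat_lit 5) (nat_lit 2) (nat_lit 4) (nat_lit 503) (nat_lit 373) (nat_lit 324)) (XT.nd (nat_lit 78) (nat_lit 0) (nat_lit 0) (XT.lf (nat_lit 0) (nat_lit 787072645962) (nat_lit 76) (nat_lit 217676251791) (nat_lit 76) (nat_lit 217011273568) (nat_lit 1) (nat_lit 4) (nat_lit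 2) (nat_lit 5) (nat_lit 2) (nat_lit 4) (nat_lit 504) (nat_lit 373) (nat_lit 323)) (XT.lf (nat_lit 0) (nat_lit 867633985538) (nat_lit 76) (nat_lit 225927057255) (nat_lit 76) (nat_lit 225261005918) (nat_lit 1) (nat_lit 4) (nat_lit 2) (nat_lit 5) (nat_lit 2) (nat_lit 4) (nat_lit 505) (nat_lit 373) (nat_lit 322)))) (XT.nd (nat_lit 156) (nat_lit 0) (nat_lit 0) (XT.nd (nat_lit 78) (nat_lit 0) (nat_lit 0) (XT.lf (nat_lit 0) (nat_lit 954588822791) (nat_lit 76) (nat_lit 234864541067) (nat_lit 76) (nat_lit 234197496106) (nat_lit 1) (nat_lit 4) (nat_lit 2) (nat_lit 5) (nat_lit 2) (nat_lit 4) (nat_lit 506) (nat_lit 373) (nat_lit 321)) (XT.lf (nat_lit 0) (nat_lit 1048452445646) (nat_lit 76) (nat_lit 244541666094) (nat_lit 76) (nat_lit 243873701111) (nat_lit 1) (nat_lit 4) (nat_lit 2) (nat_lit 5) (nat_lit 2) (nat_lit 4) (nat_lit 507) (nat_lit 373) (nat_lit 320))) (XT.nd (nat_lit 78) (nat_lit 0) (nat_lit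 0) (XT.lf (nat_lit 0) (nat_lit 1149781082979) (nat_lit 76) (nat_lit 255015778262) (nat_lit 76) (nat_lit 254346961408) (nat_lit 1) (nat_lit 4) (nat_lit 2) (nat_lit 5) (nat_lit 2) (nat_lit 4) (nat_lit 508) (nat_lit 373) (nat_lit 319)) (XT.lf (nat_lit 0) (nat_lit 1259175200790) (nat_lit 76) (nat_lit 266348946385) (nat_lit 76) (nat_lit 265679340759) (nat_lit 1) (nat_lit 4) (nat_lit 2) (nat_lit 5) (nat_lit 2) (nat_lit 4) (nat_lit 509) (nat_lit 373) (nat_lit 318))))))) (XT.nd (nat_lit 1092) (nat_lit 0) (nat_lit 0) (XT.nd (nat_lit 546) (nat_lit 0) (nat_lit 0) (XT.nd (nat_lit 234) (nat_lit 0) (nat_lit 0) (XT.nd (nat_lit 78) (nat_lit 0) (nat_lit 0) (XT.lf (nat_lit 0) (nat_lit 1377283060517) (nat_lit 76) (nat_lit 278608329976) (nat_lit 76) (nat_lit 277937994008) (nat_lit 1) (nat_lit 4) (nat_lit 2) (nat_lit 5) (nat_lit 2) (nat_lit 4) (nat_lit 510) (nat_lit 373) (nat_lit 317)) (XT.nd (nat_lit 78) (nat_lit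 0) (nat_lit 0) (XT.lf (nat_lit 0) (nat_lit 1504804560588) (nat_lit 76) (nat_lit 291866577235) (nat_lit 76) (nat_lit 291195565023) (nat_lit 1) (nat_lit 4) (nat_lit 2) (nat_lit 5) (nat_lit 2) (nat_lit 4) (nat_lit 511) (nat_lit 373) (nat_lit 316)) (XT.lf (nat_lit 0) (nat_lit 1642495383967) (nat_lit 76) (nat_lit 306202255554) (nat_lit 76) (nat_lit 305530617190) (nat_lit 1) (nat_lit 4) (nat_lit 2) (nat_lit 5) (nat_lit 2) (nat_lit 4) (nat_lit 512) (nat_lit 373) (nat_lit 315)))) (XT.nd (nat_lit 156) (nat_lit 0) (nat_lit 0) (XT.nd (nat_lit 78) (nat_lit 0) (nat_lit 0) (XT.lf (nat_lit 0) (nat_lit 1791171476274) (nat_lit 76) (nat_lit 321700317099) (nat_lit 76) (nat_lit 321028098966) (nat_lit 1) (nat_lit 4) (nat_lit 2) (nat_lit 5) (nat_lit 2) (nat_lit 4) (nat_lit 513) (nat_lit 373) (nat_lit 314)) (XT.lf (nat_lit 0) (nat_lit 1951713881018) (nat_lit 76) (nat_lit 338452602236) (nat_lit 76) (nat_lit 337779847279)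 (nat_lit 1) (nat_lit 4) (nat_lit 2) (nat_lit 5) (nat_lit 2) (nat_lit 4) (nat_lit 514) (nat_lit 373) (nat_lit 313))) (XT.nd (nat_lit 78) (nat_lit 0) (nat_lit 0) (XT.lf (nat_lit 0) (nat_lit 2125073960598) (nat_lit 76) (nat_lit 356558383766) (nat_lit 76) (nat_lit 355885131749) (nat_lit 1) (nat_lit 4) (nat_lit 2) (nat_lit 5) (nat_lit 2) (nat_lit 4) (nat_lit 515) (nat_lit 373) (nat_lit 312)) (XT.lf (nat_lit 0) (nat_lit 2312279034005) (nat_lit 76) (nat_lit 376124955208) (nat_lit 76) (nat_lit 375451242951) (nat_lit 1) (nat_lit 4) (nat_lit 2) (nat_lit 5) (nat_lit 2) (nat_lit 4) (nat_lit 516) (nat_lit 373) (nat_lit 311))))) (XT.nd (nat_lit 234) (nat_lit 0) (nat_lit 0) (XT.nd (nat_lit 78) (nat_lit 0) (nat_lit 0) (XT.lf (nat_lit 0) (nat_lit 2514438464635) (nat_lit 76) (nat_lit 397268266615) (nat_lit 76) (nat_lit 396594128210) (nat_lit 1) (nat_lit 4) (nat_lit 2) (nat_lit 5) (nat_lit 2) (nat_lit 4) (nat_lit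 517) (nat_lit 373) (nat_lit 310)) (XT.nd (nat_lit 78) (nat_lit 0) (nat_lit 0) (XT.lf (nat_lit 0) (nat_lit 2732750234301) (nat_lit 76) (nat_lit 420113611686) (nat_lit 76) (nat_lit 419439078699) (nat_lit 1) (nat_lit 4) (nat_lit 2) (nat_lit 5) (nat_lit 2) (nat_lit 4) (nat_lit 518) (nat_lit 373) (nat_lit 309)) (XT.lf (nat_lit 0) (nat_lit 2968508042378) (nat_lit 76) (nat_lit 444796370242) (nat_lit 76) (nat_lit 444121471902) (nat_lit 1) (nat_lit 4) (nat_lit 2) (nat_lit 5) (nat_lit 2) (nat_lit 4) (nat_lit 519) (nat_lit 373) (nat_lit 308)))) (XT.nd (nat_lit 156) (nat_lit 0) (nat_lit 0) (XT.nd (nat_lit 78) (nat_lit 0) (nat_lit 0) (XT.lf (nat_lit 0) (nat_lit 3223108972173) (nat_lit 76) (nat_lit 471462810482) (nat_lit 76) (nat_lit 470787573852) (nat_lit 1) (nat_lit 4) (nat_lit 2) (nat_lit 5) (nat_lit 2) (nat_lit 4) (nat_lit 520) (nat_lit 373) (nat_lit 307)) (XT.lf (nat_lit 0) (nat_lit 3498061769938)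 (nat_lit 76) (nat_lit 500270955757) (nat_lit 76) (nat_lit 499595405895) (nat_lit 1) (nat_lit 4) (nat_lit 2) (nat_lit 5) (nat_lit 2) (nat_lit 4) (nat_lit 521) (nat_lit 373) (nat_lit 306))) (XT.nd (nat_lit 78) (nat_lit 0) (nat_lit 0) (XT.lf (nat_lit 0) (nat_lit 3794995785583) (nat_lit 76) (nat_lit 531391521000) (nat_lit 76) (nat_lit 530715681109) (nat_lit 1) (nat_lit 4) (nat_lit 2) (nat_lit 5) (nat_lit 2) (nat_lit 4) (nat_lit 522) (nat_lit 373) (nat_lit 305)) (XT.lf (nat_lit 0) (nat_lit 4115670628092) (nat_lit 76) (nat_lit 565008924376) (nat_lit 76) (nat_lit 564332815940) (nat_lit 1) (nat_lit 4) (nat_lit 2) (nat_lit 5) (nat_lit 2) (nat_lit 4) (nat_lit 523) (nat_lit 373) (nat_lit 304)))))) (XT.nd (nat_lit 546) (nat_lit 0) (nat_lit 0) (XT.nd (nat_lit 234) (nat_lit 0) (nat_lit 0) (XT.nd (nat_lit 78) (nat_lit 0) (nat_lit 0) (XT.lf (nat_lit 0) (nat_lit 4461986592827) (nat_lit 76) (nat_lit 601322380128)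 (nat_lit 76) (nat_lit 600646023038) (nat_lit 1) (nat_lit 4) (nat_lit 2) (nat_lit 5) (nat_lit 2) (nat_lit 4) (nat_lit 524) (nat_lit 373) (nat_lit 303)) (XT.nd (nat_lit 78) (nat_lit 0) (nat_lit 0) (XT.lf (nat_lit 0) (nat_lit 4835995922542) (nat_lit 76) (nat_lit 640547079105) (nat_lit 76) (nat_lit 639870491780) (nat_lit 1) (nat_lit 4) (nat_lit 2) (nat_lit 5) (nat_lit 2) (nat_lit 4) (nat_lit 525) (nat_lit 373) (nat_lit 302)) (XT.lf (nat_lit 0) (nat_lit 5239914968821) (nat_lit 76) (nat_lit 682915463966) (nat_lit 76) (nat_lit 682238663461) (nat_lit 1) (nat_lit 4) (nat_lit 2) (nat_lit 5) (nat_lit 2) (nat_lit 4) (nat_lit 526) (nat_lit 373) (nat_lit 301)))) (XT.nd (nat_lit 156) (nat_lit 0) (nat_lit 0) (XT.nd (nat_lit 78) (nat_lit 0) (nat_lit 0) (XT.lf (nat_lit 0) (nat_lit 5676137326012) (nat_lit 76) (nat_lit 728678606623) (nat_lit 76) (nat_lit 728001608729) (nat_lit 1) (nat_lit 4) (nat_lit 2) (nat_lit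 5) (nat_lit 2) (nat_lit 4) (nat_lit 527) (nat_lit 373) (nat_lit 300)) (XT.lf (nat_lit 0) (nat_lit 6147248015490) (nat_lit 76) (nat_lit 778107696069) (nat_lit 76) (nat_lit 777430515407) (nat_lit 1) (nat_lit 4) (nat_lit 2) (nat_lit 5) (nat_lit 2) (nat_lit 4) (nat_lit 528) (nat_lit 373) (nat_lit 299))) (XT.nd (nat_lit 78) (nat_lit 0) (nat_lit 0) (XT.lf (nat_lit 0) (nat_lit 6656038804306) (nat_lit 76) (nat_lit 831495645426) (nat_lit 76) (nat_lit 830818295535) (nat_lit 1) (nat_lit 4) (nat_lit 2) (nat_lit 5) (nat_lit 2) (nat_lit 4) (nat_lit 529) (nat_lit 373) (nat_lit 298)) (XT.lf (nat_lit 0) (nat_lit 7205524748984) (nat_lit 76) (nat_lit 889158827727) (nat_lit 76) (nat_lit 888481321143) (nat_lit 1) (nat_lit 4) (nat_lit 2) (nat_lit 5) (nat_lit 2) (nat_lit 4) (nat_lit 530) (nat_lit 373) (nat_lit 297))))) (XT.nd (nat_lit 312) (nat_lit 0) (nat_lit 0) (XT.nd (nat_lit 156) (nat_lit 0) (nat_lit 0) (XT.nd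 (nat_lit 78) (nat_lit 0) (nat_lit 0) (XT.lf (nat_lit 0) (nat_lit 7798962062531) (nat_lit 76) (nat_lit 951438950721) (nat_lit 76) (nat_lit 950761299049) (nat_lit 1) (nat_lit 4) (nat_lit 2) (nat_lit 5) (nat_lit 2) (nat_lit 4) (nat_lit 531) (nat_lit 373) (nat_lit 296)) (XT.lf (nat_lit 0) (nat_lit 8439867410508) (nat_lit 76) (nat_lit 1018705081801) (nat_lit 76) (nat_lit 1018027295790) (nat_lit 1) (nat_lit 4) (nat_lit 2) (nat_lit 5) (nat_lit 2) (nat_lit 4) (nat_lit 532) (nat_lit 373) (nat_lit 295))) (XT.nd (nat_lit 78) (nat_lit 0) (nat_lit 0) (XT.lf (nat_lit 0) (nat_lit 9132038750533) (nat_lit 76) (nat_lit 1091355835079) (nat_lit 76) (nat_lit 1090677924679) (nat_lit 1) (nat_lit 4) (nat_lit 2) (nat_lit 5) (nat_lit 2) (nat_lit 4) (nat_lit 533) (nat_lit 373) (nat_lit 294)) (XT.lf (nat_lit 0) (nat_lit 9879577838695) (nat_lit 76) (nat_lit 1169821733537) (nat_lit 76) (nat_lit 1169143707962) (nat_lit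 1) (nat_lit 4) (nat_lit 2) (nat_lit 5) (nat_lit 2) (nat_lit 4) (nat_lit 534) (nat_lit 373) (nat_lit 293)))) (XT.nd (nat_lit 156) (nat_lit 0) (nat_lit 0) (XT.nd (nat_lit 78) (nat_lit 0) (nat_lit 0) (XT.lf (nat_lit 0) (nat_lit 10686914536257) (nat_lit 76) (nat_lit 1254567760276) (nat_lit 76) (nat_lit 1253889628058) (nat_lit 1) (nat_lit 4) (nat_lit 2) (nat_lit 5) (nat_lit 2) (nat_lit 4) (nat_lit 535) (nat_lit 373) (nat_lit 292)) (XT.lf (nat_lit 0) (nat_lit 11558833060686) (nat_lit 76) (nat_lit 1346096113974) (nat_lit 76) (nat_lit 1345417883012) (nat_lit 1) (nat_lit 4) (nat_lit 2) (nat_lit 5) (nat_lit 2) (nat_lit 4) (nat_lit 536) (nat_lit 373) (nat_lit 291))) (XT.nd (nat_lit 78) (nat_lit 0) (nat_lit 0) (XT.lf (nat_lit 0) (nat_lit 12500500336571) (nat_lit 76) (nat_lit 1444949184874) (nat_lit 76) (nat_lit 1444270862484) (nat_lit 1) (nat_lit 4) (nat_lit 2) (nat_lit 5) (nat_lit 2) (nat_lit 4) (nat_lit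 537) (nat_lit 373) (nat_lit 290)) (XT.lf (nat_lit 0) (nat_lit 13517496614437) (nat_lit 76) (nat_lit 1551712768954) (nat_lit 76) (nat_lit 1551034361906) (nat_lit 1) (nat_lit 4) (nat_lit 2) (nat_lit 5) (nat_lit 2) (nat_lit 4) (nat_lit 538) (nat_lit 373) (nat_lit 289))))))))
noncomputable def xc38 : XT := (XT.nd (nat_lit 57408) (nat_lit 0) (nat_lit 0) (XT.nd (nat_lit 56316) (nat_lit 0) (nat_lit 228) (XT.nd (nat_lit 55770) (nat_lit 0) (nat_lit 684) (XT.nd (nat_lit 234) (nat_lit 0) (nat_lit 0) (XT.nd (nat_lit 78) (nat_lit 0) (nat_lit 0) (XT.lf (nat_lit 0) (nat_lit 14615848538892) (nat_lit 76) (nat_lit 1667019539302) (nat_lit 76) (nat_lit 1666341053868) (nat_lit 1) (nat_lit 4) (nat_lit 2) (nat_lit 5) (nat_lit 2) (nat_lit 4) (nat_lit 539) (nat_lit 373) (nat_lit 288)) (XT.nd (nat_lit 78) (nat_lit 0) (nat_lit 0) (XT.lf (nat_lit 0) (nat_lit 15802064862082) (nat_lit 76) (nat_lit 1791552795299) (nat_lit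 76) (nat_lit 1790874237286) (nat_lit 1) (nat_lit 4) (nat_lit 2) (nat_lit 5) (nat_lit 2) (nat_lit 4) (nat_lit 540) (nat_lit 373) (nat_lit 287)) (XT.lf (nat_lit 0) (nat_lit 17083175014070) (nat_lit 76) (nat_lit 1926050511796) (nat_lit 76) (nat_lit 1925371886580) (nat_lit 1) (nat_lit 4) (nat_lit 2) (nat_lit 5) (nat_lit 2) (nat_lit 4) (nat_lit 541) (nat_lit 373) (nat_lit 286)))) (XT.nd (nat_lit 156) (nat_lit 0) (nat_lit 0) (XT.nd (nat_lit 78) (nat_lit 0) (nat_lit 0) (XT.lf (nat_lit 0) (nat_lit 18466770758719) (nat_lit 76) (nat_lit 2071309712298) (nat_lit 76) (nat_lit 2070631024857) (nat_lit 1) (nat_lit 4) (nat_lit 2) (nat_lit 5) (nat_lit 2) (nat_lit 4) (nat_lit 542) (nat_lit 373) (nat_lit 285)) (XT.lf (nat_lit 0) (nat_lit 19961051181925) (nat_lit 76) (nat_lit 2228191192067) (nat_lit 76) (nat_lit 2227512447009) (nat_lit 1) (nat_lit 4) (nat_lit 2) (nat_lit 5) (nat_lit 2) (nat_lit 4) (nat_lit 543)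 (nat_lit 373) (nat_lit 284))) (XT.nd (nat_lit 55302) (nat_lit 0) (nat_lit 1140) (XT.lf (nat_lit 0) (nat_lit 21574871278786) (nat_lit 76) (nat_lit 2397624619131) (nat_lit 76) (nat_lit 2396945820725) (nat_lit 1) (nat_lit 4) (nat_lit 2) (nat_lit 5) (nat_lit 2) (nat_lit 4) (nat_lit 544) (nat_lit 373) (nat_lit 283)) (XT.lf (nat_lit 0) (nat_lit 1119296566) (nat_lit 76) (nat_lit 7846425474) (nat_lit 76) (nat_lit 7846425474) (nat_lit 16) (nat_lit 4) (nat_lit 17) (nat_lit 5) (nat_lit 17) (nat_lit 4) (nat_lit 452) (nat_lit 374) (nat_lit 374))))) (XT.nd (nat_lit 234) (nat_lit 228) (nat_lit 0) (XT.nd (nat_lit 78) (nat_lit 228) (nat_lit 0) (XT.lf (nat_lit 0) (nat_lit 27096957965) (nat_lit 76) (nat_lit 4169100114) (nat_lit 76) (nat_lit 4089231524) (nat_lit 16) (nat_lit 4) (nat_lit 17) (nat_lit 5) (nat_lit 17) (nat_lit 4) (nat_lit 453) (nat_lit 374) (nat_lit 373)) (XT.nd (nat_lit 78) (nat_lit 76) (nat_lit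 0) (XT.lf (nat_lit 0) (nat_lit 8006696414) (nat_lit 152) (nat_lit 21338647390) (nat_lit 0) (nat_lit 7864269572) (nat_lit 14) (nat_lit 5) (nat_lit 16) (nat_lit 4) (nat_lit 14) (nat_lit 4) (nat_lit 454) (nat_lit 374) (nat_lit 372)) (XT.lf (nat_lit 0) (nat_lit 1842393199) (nat_lit 76) (nat_lit 18792202882) (nat_lit 76) (nat_lit 18586373779) (nat_lit 13) (nat_lit 4) (nat_lit 14) (nat_lit 5) (nat_lit 14) (nat_lit 4) (nat_lit 455) (nat_lit 374) (nat_lit 371)))) (XT.nd (nat_lit 156) (nat_lit 76) (nat_lit 0) (XT.nd (nat_lit 78) (nat_lit 152) (nat_lit 0) (XT.lf (nat_lit 0) (nat_lit 26887291466) (nat_lit 76) (nat_lit 7385247485) (nat_lit 76) (nat_lit 7120712583) (nat_lit 13) (nat_lit 4) (nat_lit 14) (nat_lit 5) (nat_lit 14) (nat_lit 4) (nat_lit 456) (nat_lit 374) (nat_lit 370)) (XT.lf (nat_lit 0) (nat_lit 4784143998) (nat_lit 152) (nat_lit 34473360759) (nat_lit 0) (nat_lit 4488873514) (nat_lit 11)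 (nat_lit 5) (nat_lit 13) (nat_lit 4) (nat_lit 11) (nat_lit 4) (nat_lit 457) (nat_lit 374) (nat_lit 369))) (XT.nd (nat_lit 78) (nat_lit 76) (nat_lit 0) (XT.lf (nat_lit 0) (nat_lit 17301418384) (nat_lit 152) (nat_lit 12008417758) (nat_lit 0) (nat_lit 16959545345) (nat_lit 11) (nat_lit 5) (nat_lit 13) (nat_lit 4) (nat_lit 11) (nat_lit 4) (nat_lit 458) (nat_lit 374) (nat_lit 368)) (XT.lf (nat_lit 0) (nat_lit 11783364677) (nat_lit 76) (nat_lit 18807125862) (nat_lit 76) (nat_lit 18422102308) (nat_lit 10) (nat_lit 4) (nat_lit 11) (nat_lit 5) (nat_lit 11) (nat_lit 4) (nat_lit 459) (nat_lit 374) (nat_lit 367)))))) (XT.nd (nat_lit 546) (nat_lit 228) (nat_lit 0) (XT.nd (nat_lit 234) (nat_lit 76) (nat_lit 0) (XT.nd (nat_lit 78) (nat_lit 152) (nat_lit 0) (XT.lf (nat_lit 0) (nat_lit 37128442010) (nat_lit 76) (nat_lit 7642758473) (nat_lit 76) (nat_lit 7217780740) (nat_lit 10) (nat_lit 4) (nat_lit 11) (nat_lit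 5) (nat_lit 11) (nat_lit 4) (nat_lit 460) (nat_lit 374) (nat_lit 366)) (XT.nd (nat_lit 78) (nat_lit 0) (nat_lit 0) (XT.lf (nat_lit 0) (nat_lit 4473802306) (nat_lit 152) (nat_lit 46687420257) (nat_lit 0) (nat_lit 4046050135) (nat_lit 8) (nat_lit 5) (nat_lit 10) (nat_lit 4) (nat_lit 8) (nat_lit 4) (nat_lit 461) (nat_lit 374) (nat_lit 365)) (XT.lf (nat_lit 0) (nat_lit 16851612421) (nat_lit 152) (nat_lit 25413006752) (nat_lit 0) (nat_lit 16392143335) (nat_lit 8) (nat_lit 5) (nat_lit 10) (nat_lit 4) (nat_lit 8) (nat_lit 4) (nat_lit 462) (nat_lit 374) (nat_lit 364)))) (XT.nd (nat_lit 156) (nat_lit 0) (nat_lit 0) (XT.nd (nat_lit 78) (nat_lit 76) (nat_lit 0) (XT.lf (nat_lit 0) (nat_lit 29780265660) (nat_lit 152) (nat_lit 3345668104) (nat_lit 0) (nat_lit 29291429058) (nat_lit 8) (nat_lit 5) (nat_lit 10) (nat_lit 4) (nat_lit 8) (nat_lit 4) (nat_lit 463) (nat_lit 374) (nat_lit 363)) (XT.lf (nat_lit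 0) (nat_lit 20679855212) (nat_lit 76) (nat_lit 23153872066) (nat_lit 76) (nat_lit 22637843320) (nat_lit 7) (nat_lit 4) (nat_lit 8) (nat_lit 5) (nat_lit 8) (nat_lit 4) (nat_lit 464) (nat_lit 374) (nat_lit 362))) (XT.nd (nat_lit 78) (nat_lit 0) (nat_lit 0) (XT.lf (nat_lit 0) (nat_lit 45997307642) (nat_lit 76) (nat_lit 12709205450) (nat_lit 76) (nat_lit 12167998795) (nat_lit 7) (nat_lit 4) (nat_lit 8) (nat_lit 5) (nat_lit 8) (nat_lit 4) (nat_lit 465) (nat_lit 374) (nat_lit 361)) (XT.lf (nat_lit 0) (nat_lit 72580541578) (nat_lit 76) (nat_lit 1821516093) (nat_lit 76) (nat_lit 1256996558) (nat_lit 7) (nat_lit 4) (nat_lit 8) (nat_lit 5) (nat_lit 8) (nat_lit 4) (nat_lit 466) (nat_lit 374) (nat_lit 360))))) (XT.nd (nat_lit 234) (nat_lit 76) (nat_lit 0) (XT.nd (nat_lit 78) (nat_lit 0) (nat_lit 0) (XT.lf (nat_lit 0) (nat_lit 10394393268) (nat_lit 152) (nat_lit 60528482130) (nat_lit 0) (nat_lit 9851702956)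 (nat_lit 5) (nat_lit 5) (nat_lit 7) (nat_lit 4) (nat_lit 5) (nat_lit 4) (nat_lit 467) (nat_lit 374) (nat_lit 359)) (XT.nd (nat_lit 78) (nat_lit 0) (nat_lit 0) (XT.lf (nat_lit 0) (nat_lit 22695117957) (nat_lit 152) (nat_lit 41484883144) (nat_lit 0) (nat_lit 22133921130) (nat_lit 5) (nat_lit 5) (nat_lit 7) (nat_lit 4) (nat_lit 5) (nat_lit 4) (nat_lit 468) (nat_lit 374) (nat_lit 358)) (XT.lf (nat_lit 0) (nat_lit 35657181878) (nat_lit 152) (nat_lit 21586200308) (nat_lit 0) (nat_lit 35078849388) (nat_lit 5) (nat_lit 5) (nat_lit 7) (nat_lit 4) (nat_lit 5) (nat_lit 4) (nat_lit 469) (nat_lit 374) (nat_lit 357)))) (XT.nd (nat_lit 156) (nat_lit 0) (nat_lit 0) (XT.nd (nat_lit 78) (nat_lit 76) (nat_lit 0) (XT.lf (nat_lit 0) (nat_lit 49357397262) (nat_lit 152) (nat_lit 714515502) (nat_lit 0) (nat_lit 48763198418) (nat_lit 5) (nat_lit 5) (nat_lit 7) (nat_lit 4) (nat_lit 5) (nat_lit 4) (nat_lit 470) (nat_lit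 374) (nat_lit 356)) (XT.lf (nat_lit 0) (nat_lit 22373045687) (nat_lit 76) (nat_lit 42041977169) (nat_lit 76) (nat_lit 41433087255) (nat_lit 4) (nat_lit 4) (nat_lit 5) (nat_lit 5) (nat_lit 5) (nat_lit 4) (nat_lit 471) (nat_lit 374) (nat_lit 355))) (XT.nd (nat_lit 78) (nat_lit 0) (nat_lit 0) (XT.lf (nat_lit 0) (nat_lit 46789705710) (nat_lit 76) (nat_lit 33637471436) (nat_lit 76) (nat_lit 33014978681) (nat_lit 4) (nat_lit 4) (nat_lit 5) (nat_lit 5) (nat_lit 5) (nat_lit 4) (nat_lit 472) (nat_lit 374) (nat_lit 354)) (XT.lf (nat_lit 0) (nat_lit 72642530764) (nat_lit 76) (nat_lit 24828127208) (nat_lit 76) (nat_lit 24193039229) (nat_lit 4) (nat_lit 4) (nat_lit 5) (nat_lit 5) (nat_lit 5) (nat_lit 4) (nat_lit 473) (nat_lit 374) (nat_lit 353))))))) (XT.nd (nat_lit 1092) (nat_lit 0) (nat_lit 0) (XT.nd (nat_lit 546) (nat_lit 76) (nat_lit 0) (XT.nd (nat_lit 234) (nat_lit 0) (nat_lit 0) (XT.nd (nat_lit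 78) (nat_lit 152) (nat_lit 0) (XT.lf (nat_lit 0) (nat_lit 100084722775) (nat_lit 76) (nat_lit 15561740963) (nat_lit 76) (nat_lit 14914990740) (nat_lit 4) (nat_lit 4) (nat_lit 5) (nat_lit 5) (nat_lit 5) (nat_lit 4) (nat_lit 474) (nat_lit 374) (nat_lit 352)) (XT.nd (nat_lit 78) (nat_lit 152) (nat_lit 0) (XT.lf (nat_lit 0) (nat_lit 129278902139) (nat_lit 76) (nat_lit 5783400784) (nat_lit 76) (nat_lit 5125852186) (nat_lit 4) (nat_lit 4) (nat_lit 5) (nat_lit 5) (nat_lit 5) (nat_lit 4) (nat_lit 475) (nat_lit 374) (nat_lit 351)) (XT.lf (nat_lit 0) (nat_lit 5334898866) (nat_lit 152) (nat_lit 140509939886) (nat_lit 0) (nat_lit 4716799707) (nat_lit 2) (nat_lit 5) (nat_lit 4) (nat_lit 4) (nat_lit 2) (nat_lit 4) (nat_lit 476) (nat_lit 374) (nat_lit 350)))) (XT.nd (nat_lit 156) (nat_lit 0) (nat_lit 0) (XT.nd (nat_lit 78) (nat_lit 0) (nat_lit 0) (XT.lf (nat_lit 0) (nat_lit 16608577313) (nat_lit 152) (nat_lit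 129143626498) (nat_lit 0) (nat_lit 15981906056) (nat_lit 2) (nat_lit 5) (nat_lit 4) (nat_lit 4) (nat_lit 2) (nat_lit 4) (nat_lit 477) (nat_lit 374) (nat_lit 349)) (XT.lf (nat_lit 0) (nat_lit 28595957874) (nat_lit 152) (nat_lit 117258127208) (nat_lit 0) (nat_lit 27961349489) (nat_lit 2) (nat_lit 5) (nat_lit 4) (nat_lit 4) (nat_lit 2) (nat_lit 4) (nat_lit 478) (nat_lit 374) (nat_lit 348))) (XT.nd (nat_lit 78) (nat_lit 0) (nat_lit 0) (XT.lf (nat_lit 0) (nat_lit 41368076879) (nat_lit 152) (nat_lit 104783009427) (nat_lit 0) (nat_lit 40726119303) (nat_lit 2) (nat_lit 5) (nat_lit 4) (nat_lit 4) (nat_lit 2) (nat_lit 4) (nat_lit 479) (nat_lit 374) (nat_lit 347)) (XT.lf (nat_lit 0) (nat_lit 55000620960) (nat_lit 152) (nat_lit 91644346531) (nat_lit 0) (nat_lit 54351858576) (nat_lit 2) (nat_lit 5) (nat_lit 4) (nat_lit 4) (nat_lit 2) (nat_lit 4) (nat_lit 480) (nat_lit 374) (nat_lit 346))))) (XT.nd (nat_lit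 234) (nat_lit 76) (nat_lit 0) (XT.nd (nat_lit 78) (nat_lit 0) (nat_lit 0) (XT.lf (nat_lit 0) (nat_lit 69574375562) (nat_lit 152) (nat_lit 77764279778) (nat_lit 0) (nat_lit 68919312430) (nat_lit 2) (nat_lit 5) (nat_lit 4) (nat_lit 4) (nat_lit 2) (nat_lit 4) (nat_lit 481) (nat_lit 374) (nat_lit 345)) (XT.nd (nat_lit 78) (nat_lit 0) (nat_lit 0) (XT.lf (nat_lit 0) (nat_lit 85175703676) (nat_lit 152) (nat_lit 63060556920) (nat_lit 0) (nat_lit 84514806518) (nat_lit 2) (nat_lit 5) (nat_lit 4) (nat_lit 4) (nat_lit 2) (nat_lit 4) (nat_lit 482) (nat_lit 374) (nat_lit 344)) (XT.lf (nat_lit 0) (nat_lit 101897057616) (nat_lit 152) (nat_lit 47446044784) (nat_lit 0) (nat_lit 101230758583) (nat_lit 2) (nat_lit 5) (nat_lit 4) (nat_lit 4) (nat_lit 2) (nat_lit 4) (nat_lit 483) (nat_lit 374) (nat_lit 343)))) (XT.nd (nat_lit 156) (nat_lit 76) (nat_lit 0) (XT.nd (nat_lit 78) (nat_lit 0) (nat_lit 0) (XT.lf (nat_lit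 0) (nat_lit 119837526888) (nat_lit 152) (nat_lit 30828212928) (nat_lit 0) (nat_lit 119166226118) (nat_lit 2) (nat_lit 5) (nat_lit 4) (nat_lit 4) (nat_lit 2) (nat_lit 4) (nat_lit 484) (nat_lit 374) (nat_lit 342)) (XT.lf (nat_lit 0) (nat_lit 139103425383) (nat_lit 152) (nat_lit 13108585312) (nat_lit 0) (nat_lit 138427493375) (nat_lit 2) (nat_lit 5) (nat_lit 4) (nat_lit 4) (nat_lit 2) (nat_lit 4) (nat_lit 485) (nat_lit 374) (nat_lit 341))) (XT.nd (nat_lit 78) (nat_lit 0) (nat_lit 0) (XT.lf (nat_lit 0) (nat_lit 6124200581) (nat_lit 76) (nat_lit 153832007979) (nat_lit 76) (nat_lit 153151787788) (nat_lit 1) (nat_lit 4) (nat_lit 2) (nat_lit 5) (nat_lit 2) (nat_lit 4) (nat_lit 486) (nat_lit 374) (nat_lit 340)) (XT.lf (nat_lit 0) (nat_lit 27435672890) (nat_lit 76) (nat_lit 155300869843) (nat_lit 76) (nat_lit 154616679113) (nat_lit 1) (nat_lit 4) (nat_lit 2) (nat_lit 5) (nat_lit 2) (nat_lit 4) (nat_lit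 487) (nat_lit 374) (nat_lit 339)))))) (XT.nd (nat_lit 546) (nat_lit 0) (nat_lit 0) (XT.nd (nat_lit 234) (nat_lit 0) (nat_lit 0) (XT.nd (nat_lit 78) (nat_lit 0) (nat_lit 0) (XT.lf (nat_lit 0) (nat_lit 50261846949) (nat_lit 76) (nat_lit 156985712608) (nat_lit 76) (nat_lit 156297845452) (nat_lit 1) (nat_lit 4) (nat_lit 2) (nat_lit 5) (nat_lit 2) (nat_lit 4) (nat_lit 488) (nat_lit 374) (nat_lit 338)) (XT.nd (nat_lit 78) (nat_lit 0) (nat_lit 0) (XT.lf (nat_lit 0) (nat_lit 74737988974) (nat_lit 76) (nat_lit 158896520527) (nat_lit 76) (nat_lit 158205249273) (nat_lit 1) (nat_lit 4) (nat_lit 2) (nat_lit 5) (nat_lit 2) (nat_lit 4) (nat_lit 489) (nat_lit 374) (nat_lit 337)) (XT.lf (nat_lit 0) (nat_lit 101009142771) (nat_lit 76) (nat_lit 161044616906) (nat_lit 76) (nat_lit 160350193710) (nat_lit 1) (nat_lit 4) (nat_lit 2) (nat_lit 5) (nat_lit 2) (nat_lit 4) (nat_lit 490) (nat_lit 374) (nat_lit 336))))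 (XT.nd (nat_lit 156) (nat_lit 0) (nat_lit 0) (XT.nd (nat_lit 78) (nat_lit 0) (nat_lit 0) (XT.lf (nat_lit 0) (nat_lit 129230989249) (nat_lit 76) (nat_lit 163442731205) (nat_lit 76) (nat_lit 162745389543) (nat_lit 1) (nat_lit 4) (nat_lit 2) (nat_lit 5) (nat_lit 2) (nat_lit 4) (nat_lit 491) (nat_lit 374) (nat_lit 335)) (XT.lf (nat_lit 0) (nat_lit 159570768982) (nat_lit 76) (nat_lit 166105074472) (nat_lit 76) (nat_lit 165405030528) (nat_lit 1) (nat_lit 4) (nat_lit 2) (nat_lit 5) (nat_lit 2) (nat_lit 4) (nat_lit 492) (nat_lit 374) (nat_lit 334))) (XT.nd (nat_lit 78) (nat_lit 0) (nat_lit 0) (XT.lf (nat_lit 0) (nat_lit 192208273256) (nat_lit 76) (nat_lit 169047423556) (nat_lit 76) (nat_lit 168344877498) (nat_lit 1) (nat_lit 4) (nat_lit 2) (nat_lit 5) (nat_lit 2) (nat_lit 4) (nat_lit 493) (nat_lit 374) (nat_lit 333)) (XT.lf (nat_lit 0) (nat_lit 227336909505) (nat_lit 76) (nat_lit 172287214599) (nat_lit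 76) (nat_lit 171582351769) (nat_lit 1) (nat_lit 4) (nat_lit 2) (nat_lit 5) (nat_lit 2) (nat_lit 4) (nat_lit 494) (nat_lit 374) (nat_lit 332))))) (XT.nd (nat_lit 312) (nat_lit 0) (nat_lit 0) (XT.nd (nat_lit 156) (nat_lit 0) (nat_lit 0) (XT.nd (nat_lit 78) (nat_lit 0) (nat_lit 0) (XT.lf (nat_lit 0) (nat_lit 265164847423) (nat_lit 76) (nat_lit 175843646363) (nat_lit 76) (nat_lit 175136638374) (nat_lit 1) (nat_lit 4) (nat_lit 2) (nat_lit 5) (nat_lit 2) (nat_lit 4) (nat_lit 495) (nat_lit 374) (nat_lit 331)) (XT.lf (nat_lit 0) (nat_lit 305916252570) (nat_lit 76) (nat_lit 179737794000) (nat_lit 76) (nat_lit 179028799753) (nat_lit 1) (nat_lit 4) (nat_lit 2) (nat_lit 5) (nat_lit 2) (nat_lit 4) (nat_lit 496) (nat_lit 374) (nat_lit 330))) (XT.nd (nat_lit 78) (nat_lit 0) (nat_lit 0) (XT.lf (nat_lit 0) (nat_lit 349832614754) (nat_lit 76) (nat_lit 183992733940) (nat_lit 76) (nat_lit 183281900564) (nat_lit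 1) (nat_lit 4) (nat_lit 2) (nat_lit 5) (nat_lit 2) (nat_lit 4) (nat_lit 497) (nat_lit 374) (nat_lit 329)) (XT.lf (nat_lit 0) (nat_lit 397174179084) (nat_lit 76) (nat_lit 188633680641) (nat_lit 76) (nat_lit 187921144369) (nat_lit 1) (nat_lit 4) (nat_lit 2) (nat_lit 5) (nat_lit 2) (nat_lit 4) (nat_lit 498) (nat_lit 374) (nat_lit 328)))) (XT.nd (nat_lit 156) (nat_lit 0) (nat_lit 0) (XT.nd (nat_lit 78) (nat_lit 0) (nat_lit 0) (XT.lf (nat_lit 0) (nat_lit 448221488164) (nat_lit 76) (nat_lit 193688136011) (nat_lit 76) (nat_lit 192974022983) (nat_lit 1) (nat_lit 4) (nat_lit 2) (nat_lit 5) (nat_lit 2) (nat_lit 4) (nat_lit 499) (nat_lit 374) (nat_lit 327)) (XT.lf (nat_lit 0) (nat_lit 503277044565) (nat_lit 76) (nat_lit 199186052377) (nat_lit 76) (nat_lit 198470479389) (nat_lit 1) (nat_lit 4) (nat_lit 2) (nat_lit 5) (nat_lit 2) (nat_lit 4) (nat_lit 500) (nat_lit 374) (nat_lit 326))) (XT.nd (nat_lit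 78) (nat_lit 0) (nat_lit 0) (XT.lf (nat_lit 0) (nat_lit 562667103437) (nat_lit 76) (nat_lit 205160009984) (nat_lit 76) (nat_lit 204443085183) (nat_lit 1) (nat_lit 4) (nat_lit 2) (nat_lit 5) (nat_lit 2) (nat_lit 4) (nat_lit 501) (nat_lit 374) (nat_lit 325)) (XT.lf (nat_lit 0) (nat_lit 626743605869) (nat_lit 76) (nat_lit 211645410063) (nat_lit 76) (nat_lit 210927233582) (nat_lit 1) (nat_lit 4) (nat_lit 2) (nat_lit 5) (nat_lit 2) (nat_lit 4) (nat_lit 502) (nat_lit 374) (nat_lit 324))))))))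
noncomputable def xc39 : XT := (XT.nd (nat_lit 2184) (nat_lit 0) (nat_lit 0) (XT.nd (nat_lit 1092) (nat_lit 0) (nat_lit 0) (XT.nd (nat_lit 546) (nat_lit 0) (nat_lit 0) (XT.nd (nat_lit 234) (nat_lit 0) (nat_lit 0) (XT.nd (nat_lit 78) (nat_lit 0) (nat_lit 0) (XT.lf (nat_lit 0) (nat_lit 695886264468) (nat_lit 76) (nat_lit 218680684614) (nat_lit 76) (nat_lit 217961349170) (nat_lit 1) (nat_lit 4) (nat_lit 2) (nat_lit 5) (nat_lit 2) (nat_lit 4) (nat_lit 503) (nat_lit 374) (nat_lit 323)) (XT.nd (nat_lit 78) (nat_lit 0) (nat_lit 0) (XT.lf (nat_lit 0) (nat_lit 770504813509) (nat_lit 76) (nat_lit 226307524153) (nat_lit 76) (nat_lit 225587115596) (nat_lit 1) (nat_lit 4) (nat_lit 2) (nat_lit 5) (nat_lit 2) (nat_lit 4) (nat_lit 504) (nat_lit 374) (nat_lit 322)) (XT.lf (nat_lit 0) (nat_lit 851041436984) (nat_lit 76) (nat_lit 234571124767) (nat_lit 76) (nat_lit 233849722585) (nat_lit 1) (nat_lit 4) (nat_lit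 2) (nat_lit 5) (nat_lit 2) (nat_lit 4) (nat_lit 505) (nat_lit 374) (nat_lit 321)))) (XT.nd (nat_lit 156) (nat_lit 0) (nat_lit 0) (XT.nd (nat_lit 78) (nat_lit 0) (nat_lit 0) (XT.lf (nat_lit 0) (nat_lit 937973388959) (nat_lit 76) (nat_lit 243520455939) (nat_lit 76) (nat_lit 242798133736) (nat_lit 1) (nat_lit 4) (nat_lit 2) (nat_lit 5) (nat_lit 2) (nat_lit 4) (nat_lit 506) (nat_lit 374) (nat_lit 320)) (XT.lf (nat_lit 0) (nat_lit 1031815821742) (nat_lit 76) (nat_lit 253208550745) (nat_lit 76) (nat_lit 252485376669) (nat_lit 1) (nat_lit 4) (nat_lit 2) (nat_lit 5) (nat_lit 2) (nat_lit 4) (nat_lit 507) (nat_lit 374) (nat_lit 319))) (XT.nd (nat_lit 78) (nat_lit 0) (nat_lit 0) (XT.lf (nat_lit 0) (nat_lit 1133124838638) (nat_lit 76) (nat_lit 263692820115) (nat_lit 76) (nat_lit 262968857269) (nat_lit 1) (nat_lit 4) (nat_lit 2) (nat_lit 5) (nat_lit 2) (nat_lit 4) (nat_lit 508) (nat_lit 374) (nat_lit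 318)) (XT.lf (nat_lit 0) (nat_lit 1242500789377) (nat_lit 76) (nat_lit 275035393055) (nat_lit 76) (nat_lit 274310699865) (nat_lit 1) (nat_lit 4) (nat_lit 2) (nat_lit 5) (nat_lit 2) (nat_lit 4) (nat_lit 509) (nat_lit 374) (nat_lit 317))))) (XT.nd (nat_lit 234) (nat_lit 0) (nat_lit 0) (XT.nd (nat_lit 78) (nat_lit 0) (nat_lit 0) (XT.lf (nat_lit 0) (nat_lit 1360591827742) (nat_lit 76) (nat_lit 287303484810) (nat_lit 76) (nat_lit 286578115377) (nat_lit 1) (nat_lit 4) (nat_lit 2) (nat_lit 5) (nat_lit 2) (nat_lit 4) (nat_lit 510) (nat_lit 374) (nat_lit 316)) (XT.nd (nat_lit 78) (nat_lit 0) (nat_lit 0) (XT.lf (nat_lit 0) (nat_lit 1488097752478) (nat_lit 76) (nat_lit 300569795183) (nat_lit 76) (nat_lit 299843799599) (nat_lit 1) (nat_lit 4) (nat_lit 2) (nat_lit 5) (nat_lit 2) (nat_lit 4) (nat_lit 511) (nat_lit 374) (nat_lit 315)) (XT.lf (nat_lit 0) (nat_lit 1625774154249) (nat_lit 76) (nat_lit 314912939349)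 (nat_lit 76) (nat_lit 314186363995) (nat_lit 1) (nat_lit 4) (nat_lit 2) (nat_lit 5) (nat_lit 2) (nat_lit 4) (nat_lit 512) (nat_lit 374) (nat_lit 314)))) (XT.nd (nat_lit 156) (nat_lit 0) (nat_lit 0) (XT.nd (nat_lit 78) (nat_lit 0) (nat_lit 0) (XT.lf (nat_lit 0) (nat_lit 1774436893216) (nat_lit 76) (nat_lit 330417913715) (nat_lit 76) (nat_lit 329690801537) (nat_lit 1) (nat_lit 4) (nat_lit 2) (nat_lit 5) (nat_lit 2) (nat_lit 4) (nat_lit 513) (nat_lit 374) (nat_lit 313)) (XT.lf (nat_lit 0) (nat_lit 1934966933757) (nat_lit 76) (nat_lit 347176599613) (nat_lit 76) (nat_lit 346448990375) (nat_lit 1) (nat_lit 4) (nat_lit 2) (nat_lit 5) (nat_lit 2) (nat_lit 4) (nat_lit 514) (nat_lit 374) (nat_lit 312))) (XT.nd (nat_lit 78) (nat_lit 0) (nat_lit 0) (XT.lf (nat_lit 0) (nat_lit 2108315565000) (nat_lit 76) (nat_lit 365288307772) (nat_lit 76) (nat_lit 364560238295) (nat_lit 1) (nat_lit 4) (nat_lit 2) (nat_lit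 5) (nat_lit 2) (nat_lit 4) (nat_lit 515) (nat_lit 374) (nat_lit 311)) (XT.lf (nat_lit 0) (nat_lit 2295510038095) (nat_lit 76) (nat_lit 384860366834) (nat_lit 76) (nat_lit 384131871209) (nat_lit 1) (nat_lit 4) (nat_lit 2) (nat_lit 5) (nat_lit 2) (nat_lit 4) (nat_lit 516) (nat_lit 374) (nat_lit 310)))))) (XT.nd (nat_lit 546) (nat_lit 0) (nat_lit 0) (XT.nd (nat_lit 234) (nat_lit 0) (nat_lit 0) (XT.nd (nat_lit 78) (nat_lit 0) (nat_lit 0) (XT.lf (nat_lit 0) (nat_lit 2497659653622) (nat_lit 76) (nat_lit 406008759372) (nat_lit 76) (nat_lit 405279869165) (nat_lit 1) (nat_lit 4) (nat_lit 2) (nat_lit 5) (nat_lit 2) (nat_lit 4) (nat_lit 517) (nat_lit 374) (nat_lit 309)) (XT.nd (nat_lit 78) (nat_lit 0) (nat_lit 0) (XT.lf (nat_lit 0) (nat_lit 2715962335229) (nat_lit 76) (nat_lit 428858809192) (nat_lit 76) (nat_lit 428129553632) (nat_lit 1) (nat_lit 4) (nat_lit 2) (nat_lit 5) (nat_lit 2) (nat_lit 4) (nat_lit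 518) (nat_lit 374) (nat_lit 308)) (XT.lf (nat_lit 0) (nat_lit 2951711728437) (nat_lit 76) (nat_lit 453545923998) (nat_lit 76) (nat_lit 452816330148) (nat_lit 1) (nat_lit 4) (nat_lit 2) (nat_lit 5) (nat_lit 2) (nat_lit 4) (nat_lit 519) (nat_lit 374) (nat_lit 307)))) (XT.nd (nat_lit 156) (nat_lit 0) (nat_lit 0) (XT.nd (nat_lit 78) (nat_lit 0) (nat_lit 0) (XT.lf (nat_lit 0) (nat_lit 3206304866687) (nat_lit 76) (nat_lit 480216397804) (nat_lit 76) (nat_lit 479486490721) (nat_lit 1) (nat_lit 4) (nat_lit 2) (nat_lit 5) (nat_lit 2) (nat_lit 4) (nat_lit 520) (nat_lit 374) (nat_lit 306)) (XT.lf (nat_lit 0) (nat_lit 3481250450057) (nat_lit 76) (nat_lit 509028277860) (nat_lit 76) (nat_lit 508298080748) (nat_lit 1) (nat_lit 4) (nat_lit 2) (nat_lit 5) (nat_lit 2) (nat_lit 4) (nat_lit 521) (nat_lit 374) (nat_lit 305))) (XT.nd (nat_lit 78) (nat_lit 0) (nat_lit 0) (XT.lf (nat_lit 0) (nat_lit 3778177785708)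 (nat_lit 76) (nat_lit 540152301235) (nat_lit 76) (nat_lit 539421835578) (nat_lit 1) (nat_lit 4) (nat_lit 2) (nat_lit 5) (nat_lit 2) (nat_lit 4) (nat_lit 522) (nat_lit 374) (nat_lit 304)) (XT.lf (nat_lit 0) (nat_lit 4098846443037) (nat_lit 76) (nat_lit 573772906585) (nat_lit 76) (nat_lit 573042192274) (nat_lit 1) (nat_lit 4) (nat_lit 2) (nat_lit 5) (nat_lit 2) (nat_lit 4) (nat_lit 523) (nat_lit 374) (nat_lit 303))))) (XT.nd (nat_lit 234) (nat_lit 0) (nat_lit 0) (XT.nd (nat_lit 78) (nat_lit 0) (nat_lit 0) (XT.lf (nat_lit 0) (nat_lit 4445156680753) (nat_lit 76) (nat_lit 610089327128) (nat_lit 76) (nat_lit 609358382582) (nat_lit 1) (nat_lit 4) (nat_lit 2) (nat_lit 5) (nat_lit 2) (nat_lit 4) (nat_lit 524) (nat_lit 374) (nat_lit 302)) (XT.nd (nat_lit 78) (nat_lit 0) (nat_lit 0) (XT.lf (nat_lit 0) (nat_lit 4819160707674) (nat_lit 76) (nat_lit 649316771281) (nat_lit 76) (nat_lit 648585613555) (nat_lit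 1) (nat_lit 4) (nat_lit 2) (nat_lit 5) (nat_lit 2) (nat_lit 4) (nat_lit 525) (nat_lit 374) (nat_lit 301)) (XT.lf (nat_lit 0) (nat_lit 5223074843957) (nat_lit 76) (nat_lit 691687697972) (nat_lit 76) (nat_lit 690956342857) (nat_lit 1) (nat_lit 4) (nat_lit 2) (nat_lit 5) (nat_lit 2) (nat_lit 4) (nat_lit 526) (nat_lit 374) (nat_lit 300)))) (XT.nd (nat_lit 156) (nat_lit 0) (nat_lit 0) (XT.nd (nat_lit 78) (nat_lit 0) (nat_lit 0) (XT.lf (nat_lit 0) (nat_lit 5659292654856) (nat_lit 76) (nat_lit 737453194175) (nat_lit 76) (nat_lit 736721656293) (nat_lit 1) (nat_lit 4) (nat_lit 2) (nat_lit 5) (nat_lit 2) (nat_lit 4) (nat_lit 527) (nat_lit 374) (nat_lit 299)) (XT.lf (nat_lit 0) (nat_lit 6130399134805) (nat_lit 76) (nat_lit 786884462830) (nat_lit 76) (nat_lit 786152755719) (nat_lit 1) (nat_lit 4) (nat_lit 2) (nat_lit 5) (nat_lit 2) (nat_lit 4) (nat_lit 528) (nat_lit 374) (nat_lit 298))) (XT.nd (nat_lit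 78) (nat_lit 0) (nat_lit 0) (XT.lf (nat_lit 0) (nat_lit 6639186025908) (nat_lit 76) (nat_lit 840274429974) (nat_lit 76) (nat_lit 839542566168) (nat_lit 1) (nat_lit 4) (nat_lit 2) (nat_lit 5) (nat_lit 2) (nat_lit 4) (nat_lit 529) (nat_lit 374) (nat_lit 297)) (XT.lf (nat_lit 0) (nat_lit 7188668361593) (nat_lit 76) (nat_lit 897939480596) (nat_lit 76) (nat_lit 897207471704) (nat_lit 1) (nat_lit 4) (nat_lit 2) (nat_lit 5) (nat_lit 2) (nat_lit 4) (nat_lit 530) (nat_lit 374) (nat_lit 296))))))) (XT.nd (nat_lit 1092) (nat_lit 0) (nat_lit 0) (XT.nd (nat_lit 546) (nat_lit 0) (nat_lit 0) (XT.nd (nat_lit 234) (nat_lit 0) (nat_lit 0) (XT.nd (nat_lit 78) (nat_lit 0) (nat_lit 0) (XT.lf (nat_lit 0) (nat_lit 7782102333479) (nat_lit 76) (nat_lit 960221333517) (nat_lit 76) (nat_lit 959489190285) (nat_lit 1) (nat_lit 4) (nat_lit 2) (nat_lit 5) (nat_lit 2) (nat_lit 4) (nat_lit 531) (nat_lit 374) (nat_lit 295))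 (XT.nd (nat_lit 78) (nat_lit 0) (nat_lit 0) (XT.lf (nat_lit 0) (nat_lit 8423004587326) (nat_lit 76) (nat_lit 1027489066381) (nat_lit 76) (nat_lit 1026756798761) (nat_lit 1) (nat_lit 4) (nat_lit 2) (nat_lit 5) (nat_lit 2) (nat_lit 4) (nat_lit 532) (nat_lit 374) (nat_lit 294)) (XT.lf (nat_lit 0) (nat_lit 9115173062416) (nat_lit 76) (nat_lit 1100141302793) (nat_lit 76) (nat_lit 1099408919997) (nat_lit 1) (nat_lit 4) (nat_lit 2) (nat_lit 5) (nat_lit 2) (nat_lit 4) (nat_lit 533) (nat_lit 374) (nat_lit 293)))) (XT.nd (nat_lit 156) (nat_lit 0) (nat_lit 0) (XT.nd (nat_lit 78) (nat_lit 0) (nat_lit 0) (XT.lf (nat_lit 0) (nat_lit 9862709497860) (nat_lit 76) (nat_lit 1178608574522) (nat_lit 76) (nat_lit 1177876085084) (nat_lit 1) (nat_lit 4) (nat_lit 2) (nat_lit 5) (nat_lit 2) (nat_lit 4) (nat_lit 534) (nat_lit 374) (nat_lit 292)) (XT.lf (nat_lit 0) (nat_lit 10670043739202) (nat_lit 76) (nat_lit 1263355872809)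 (nat_lit 76) (nat_lit 1262623284627) (nat_lit 1) (nat_lit 4) (nat_lit 2) (nat_lit 5) (nat_lit 2) (nat_lit 4) (nat_lit 535) (nat_lit 374) (nat_lit 291))) (XT.nd (nat_lit 78) (nat_lit 0) (nat_lit 0) (XT.lf (nat_lit 0) (nat_lit 11541959989353) (nat_lit 76) (nat_lit 1354885403866) (nat_lit 76) (nat_lit 1354152724255) (nat_lit 1) (nat_lit 4) (nat_lit 2) (nat_lit 5) (nat_lit 2) (nat_lit 4) (nat_lit 536) (nat_lit 374) (nat_lit 290)) (XT.lf (nat_lit 0) (nat_lit 12483625159426) (nat_lit 76) (nat_lit 1453739564914) (nat_lit 76) (nat_lit 1453006800646) (nat_lit 1) (nat_lit 4) (nat_lit 2) (nat_lit 5) (nat_lit 2) (nat_lit 4) (nat_lit 537) (nat_lit 374) (nat_lit 289))))) (XT.nd (nat_lit 234) (nat_lit 0) (nat_lit 0) (XT.nd (nat_lit 78) (nat_lit 0) (nat_lit 0) (XT.lf (nat_lit 0) (nat_lit 13500619487465) (nat_lit 76) (nat_lit 1560504158388) (nat_lit 76) (nat_lit 1559771315734) (nat_lit 1) (nat_lit 4) (nat_lit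 2) (nat_lit 5) (nat_lit 2) (nat_lit 4) (nat_lit 538) (nat_lit 374) (nat_lit 288)) (XT.nd (nat_lit 78) (nat_lit 0) (nat_lit 0) (XT.lf (nat_lit 0) (nat_lit 14598969606525) (nat_lit 76) (nat_lit 1675811863362) (nat_lit 76) (nat_lit 1675078948129) (nat_lit 1) (nat_lit 4) (nat_lit 2) (nat_lit 5) (nat_lit 2) (nat_lit 4) (nat_lit 539) (nat_lit 374) (nat_lit 287)) (XT.lf (nat_lit 0) (nat_lit 15785184258053) (nat_lit 76) (nat_lit 1800345984754) (nat_lit 76) (nat_lit 1799613002317) (nat_lit 1) (nat_lit 4) (nat_lit 2) (nat_lit 5) (nat_lit 2) (nat_lit 4) (nat_lit 540) (nat_lit 374) (nat_lit 286)))) (XT.nd (nat_lit 156) (nat_lit 0) (nat_lit 0) (XT.nd (nat_lit 78) (nat_lit 0) (nat_lit 0) (XT.lf (nat_lit 0) (nat_lit 17066292862206) (nat_lit 76) (nat_lit 1934844502542) (nat_lit 76) (nat_lit 1934111457880) (nat_lit 1) (nat_lit 4) (nat_lit 2) (nat_lit 5) (nat_lit 2) (nat_lit 4) (nat_lit 541) (nat_lit 374)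 (nat_lit 285)) (XT.lf (nat_lit 0) (nat_lit 18449887173674) (nat_lit 76) (nat_lit 2080104444980) (nat_lit 76) (nat_lit 2079371342701) (nat_lit 1) (nat_lit 4) (nat_lit 2) (nat_lit 5) (nat_lit 2) (nat_lit 4) (nat_lit 542) (nat_lit 374) (nat_lit 284))) (XT.nd (nat_lit 78) (nat_lit 0) (nat_lit 0) (XT.lf (nat_lit 0) (nat_lit 19944166269860) (nat_lit 76) (nat_lit 2236986611726) (nat_lit 76) (nat_lit 2236253456100) (nat_lit 1) (nat_lit 4) (nat_lit 2) (nat_lit 5) (nat_lit 2) (nat_lit 4) (nat_lit 543) (nat_lit 374) (nat_lit 283)) (XT.lf (nat_lit 0) (nat_lit 21557985138000) (nat_lit 76) (nat_lit 2406420674880) (nat_lit 76) (nat_lit 2405687469857) (nat_lit 1) (nat_lit 4) (nat_lit 2) (nat_lit 5) (nat_lit 2) (nat_lit 4) (nat_lit 544) (nat_lit 374) (nat_lit 282)))))) (XT.nd (nat_lit 55536) (nat_lit 0) (nat_lit 532) (XT.nd (nat_lit 55224) (nat_lit 0) (nat_lit 988) (XT.nd (nat_lit 55068) (nat_lit 0) (nat_lit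 1216) (XT.lf (nat_lit 0) (nat_lit 23300907149165) (nat_lit 76) (nat_lit 2589410688150) (nat_lit 76) (nat_lit 2588677437390) (nat_lit 1) (nat_lit 4) (nat_lit 2) (nat_lit 5) (nat_lit 2) (nat_lit 4) (nat_lit 545) (nat_lit 374) (nat_lit 281)) (XT.nd (nat_lit 78) (nat_lit 152) (nat_lit 0) (XT.lf (nat_lit 0) (nat_lit 9305953127) (nat_lit 76) (nat_lit 2976401183) (nat_lit 76) (nat_lit 2976401183) (nat_lit 19) (nat_lit 4) (nat_lit 20) (nat_lit 5) (nat_lit 20) (nat_lit 4) (nat_lit 450) (nat_lit 375) (nat_lit 375)) (XT.lf (nat_lit 0) (nat_lit 5615071900) (nat_lit 152) (nat_lit 20882099762) (nat_lit 0) (nat_lit 5528813822) (nat_lit 17) (nat_lit 5) (nat_lit 19) (nat_lit 4) (nat_lit 17) (nat_lit 4) (nat_lit 451) (nat_lit 375) (nat_lit 374)))) (XT.nd (nat_lit 156) (nat_lit 152) (nat_lit 0) (XT.nd (nat_lit 78) (nat_lit 0) (nat_lit 0) (XT.lf (nat_lit 0) (nat_lit 1613801300) (nat_lit 76) (nat_lit 16100448793)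 (nat_lit 76) (nat_lit 15934322125) (nat_lit 16) (nat_lit 4) (nat_lit 17) (nat_lit 5) (nat_lit 17) (nat_lit 4) (nat_lit 452) (nat_lit 375) (nat_lit 373)) (XT.lf (nat_lit 0) (nat_lit 25893655177) (nat_lit 76) (nat_lit 4874234782) (nat_lit 76) (nat_lit 4634155715) (nat_lit 16) (nat_lit 4) (nat_lit 17) (nat_lit 5) (nat_lit 17) (nat_lit 4) (nat_lit 453) (nat_lit 375) (nat_lit 372))) (XT.nd (nat_lit 78) (nat_lit 0) (nat_lit 0) (XT.lf (nat_lit 0) (nat_lit 7151604934) (nat_lit 152) (nat_lit 23266900649) (nat_lit 0) (nat_lit 6865907240) (nat_lit 14) (nat_lit 5) (nat_lit 16) (nat_lit 4) (nat_lit 14) (nat_lit 4) (nat_lit 454) (nat_lit 375) (nat_lit 371)) (XT.lf (nat_lit 0) (nat_lit 19468529228) (nat_lit 152) (nat_lit 727993128) (nat_lit 0) (nat_lit 19124125736) (nat_lit 14) (nat_lit 5) (nat_lit 16) (nat_lit 4) (nat_lit 14) (nat_lit 4) (nat_lit 455) (nat_lit 375) (nat_lit 370))))) (XT.nd (nat_lit 312)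 (nat_lit 152) (nat_lit 0) (XT.nd (nat_lit 156) (nat_lit 76) (nat_lit 0) (XT.nd (nat_lit 78) (nat_lit 152) (nat_lit 0) (XT.lf (nat_lit 0) (nat_lit 23742524479) (nat_lit 76) (nat_lit 9085712744) (nat_lit 76) (nat_lit 8686952031) (nat_lit 13) (nat_lit 4) (nat_lit 14) (nat_lit 5) (nat_lit 14) (nat_lit 4) (nat_lit 456) (nat_lit 375) (nat_lit 369)) (XT.lf (nat_lit 0) (nat_lit 2904156402) (nat_lit 152) (nat_lit 38510210493) (nat_lit 0) (nat_lit 2488330964) (nat_lit 11) (nat_lit 5) (nat_lit 13) (nat_lit 4) (nat_lit 11) (nat_lit 4) (nat_lit 457) (nat_lit 375) (nat_lit 368))) (XT.nd (nat_lit 78) (nat_lit 76) (nat_lit 0) (XT.lf (nat_lit 0) (nat_lit 15174808488) (nat_lit 152) (nat_lit 16554790390) (nat_lit 0) (nat_lit 14715832536) (nat_lit 11) (nat_lit 5) (nat_lit 13) (nat_lit 4) (nat_lit 11) (nat_lit 4) (nat_lit 458) (nat_lit 375) (nat_lit 367)) (XT.lf (nat_lit 0) (nat_lit 6500964534) (nat_lit 76)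 (nat_lit 21607520276) (nat_lit 76) (nat_lit 21108590144) (nat_lit 10) (nat_lit 4) (nat_lit 11) (nat_lit 5) (nat_lit 11) (nat_lit 4) (nat_lit 459) (nat_lit 375) (nat_lit 366)))) (XT.nd (nat_lit 156) (nat_lit 0) (nat_lit 0) (XT.nd (nat_lit 78) (nat_lit 152) (nat_lit 0) (XT.lf (nat_lit 0) (nat_lit 31386205214) (nat_lit 76) (nat_lit 10680491584) (nat_lit 76) (nat_lit 10144566842) (nat_lit 10) (nat_lit 4) (nat_lit 11) (nat_lit 5) (nat_lit 11) (nat_lit 4) (nat_lit 460) (nat_lit 375) (nat_lit 365)) (XT.lf (nat_lit 0) (nat_lit 1237305276) (nat_lit 152) (nat_lit 53525009293) (nat_lit 0) (nat_lit 709361746) (nat_lit 8) (nat_lit 5) (nat_lit 10) (nat_lit 4) (nat_lit 8) (nat_lit 4) (nat_lit 461) (nat_lit 375) (nat_lit 364))) (XT.nd (nat_lit 78) (nat_lit 0) (nat_lit 0) (XT.lf (nat_lit 0) (nat_lit 13403874196) (nat_lit 152) (nat_lit 32687628450) (nat_lit 0) (nat_lit 12846563151) (nat_lit 8) (nat_lit 5)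 (nat_lit 10) (nat_lit 4) (nat_lit 8) (nat_lit 4) (nat_lit 462) (nat_lit 375) (nat_lit 363)) (XT.lf (nat_lit 0) (nat_lit 26136933735) (nat_lit 152) (nat_lit 11024949674) (nat_lit 0) (nat_lit 25552430547) (nat_lit 8) (nat_lit 5) (nat_lit 10) (nat_lit 4) (nat_lit 8) (nat_lit 4) (nat_lit 463) (nat_lit 375) (nat_lit 362))))))))
noncomputable def xc40 : XT := (XT.nd (nat_lit 2184) (nat_lit 0) (nat_lit 0) (XT.nd (nat_lit 1092) (nat_lit 76) (nat_lit 0) (XT.nd (nat_lit 546) (nat_lit 228) (nat_lit 0) (XT.nd (nat_lit 234) (nat_lit 152) (nat_lit 0) (XT.nd (nat_lit 78) (nat_lit 0) (nat_lit 0) (XT.lf (nat_lit 0) (nat_lit 12201780965) (nat_lit 76) (nat_lit 27603611222) (nat_lit 76) (nat_lit 26993930123) (nat_lit 7) (nat_lit 4) (nat_lit 8) (nat_lit 5) (nat_lit 8) (nat_lit 4) (nat_lit 464) (nat_lit 375) (nat_lit 361)) (XT.nd (nat_lit 78) (nat_lit 0) (nat_lit 0) (XT.lf (nat_lit 0) (nat_lit 37154034025) (nat_lit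 76) (nat_lit 17347670850) (nat_lit 76) (nat_lit 16714676871) (nat_lit 7) (nat_lit 4) (nat_lit 8) (nat_lit 5) (nat_lit 8) (nat_lit 4) (nat_lit 465) (nat_lit 375) (nat_lit 360)) (XT.lf (nat_lit 0) (nat_lit 63399120398) (nat_lit 76) (nat_lit 6634728016) (nat_lit 76) (nat_lit 5980148036) (nat_lit 7) (nat_lit 4) (nat_lit 8) (nat_lit 5) (nat_lit 8) (nat_lit 4) (nat_lit 466) (nat_lit 375) (nat_lit 359)))) (XT.nd (nat_lit 156) (nat_lit 0) (nat_lit 0) (XT.nd (nat_lit 78) (nat_lit 0) (nat_lit 0) (XT.lf (nat_lit 0) (nat_lit 5376491840) (nat_lit 152) (nat_lit 71052705263) (nat_lit 0) (nat_lit 4751892751) (nat_lit 5) (nat_lit 5) (nat_lit 7) (nat_lit 4) (nat_lit 5) (nat_lit 4) (nat_lit 467) (nat_lit 375) (nat_lit 358)) (XT.lf (nat_lit 0) (nat_lit 17522063287) (nat_lit 152) (nat_lit 52330454387) (nat_lit 0) (nat_lit 16880328535) (nat_lit 5) (nat_lit 5) (nat_lit 7) (nat_lit 4) (nat_lit 5) (nat_lit 4) (nat_lit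 468) (nat_lit 375) (nat_lit 357))) (XT.nd (nat_lit 78) (nat_lit 0) (nat_lit 0) (XT.lf (nat_lit 0) (nat_lit 30340466800) (nat_lit 152) (nat_lit 32729316098) (nat_lit 0) (nat_lit 29682865693) (nat_lit 5) (nat_lit 5) (nat_lit 7) (nat_lit 4) (nat_lit 5) (nat_lit 4) (nat_lit 469) (nat_lit 375) (nat_lit 356)) (XT.lf (nat_lit 0) (nat_lit 43907663286) (nat_lit 152) (nat_lit 12133135502) (nat_lit 0) (nat_lit 43235371110) (nat_lit 5) (nat_lit 5) (nat_lit 7) (nat_lit 4) (nat_lit 5) (nat_lit 4) (nat_lit 470) (nat_lit 375) (nat_lit 355))))) (XT.nd (nat_lit 234) (nat_lit 152) (nat_lit 0) (XT.nd (nat_lit 78) (nat_lit 0) (nat_lit 0) (XT.lf (nat_lit 0) (nat_lit 10084611974) (nat_lit 76) (nat_lit 48461974134) (nat_lit 76) (nat_lit 47776079116) (nat_lit 4) (nat_lit 4) (nat_lit 5) (nat_lit 5) (nat_lit 5) (nat_lit 4) (nat_lit 471) (nat_lit 375) (nat_lit 354)) (XT.nd (nat_lit 78) (nat_lit 0) (nat_lit 0) (XT.lf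 (nat_lit 0) (nat_lit 34252633646) (nat_lit 76) (nat_lit 40186084729) (nat_lit 76) (nat_lit 39487594488) (nat_lit 4) (nat_lit 4) (nat_lit 5) (nat_lit 5) (nat_lit 5) (nat_lit 4) (nat_lit 472) (nat_lit 375) (nat_lit 353)) (XT.lf (nat_lit 0) (nat_lit 59875238004) (nat_lit 76) (nat_lit 31495829695) (nat_lit 76) (nat_lit 30785677209) (nat_lit 4) (nat_lit 4) (nat_lit 5) (nat_lit 5) (nat_lit 5) (nat_lit 4) (nat_lit 473) (nat_lit 375) (nat_lit 352)))) (XT.nd (nat_lit 156) (nat_lit 152) (nat_lit 0) (XT.nd (nat_lit 78) (nat_lit 0) (nat_lit 0) (XT.lf (nat_lit 0) (nat_lit 87104262703) (nat_lit 76) (nat_lit 22339711221) (nat_lit 76) (nat_lit 21618760362) (nat_lit 4) (nat_lit 4) (nat_lit 5) (nat_lit 5) (nat_lit 5) (nat_lit 4) (nat_lit 474) (nat_lit 375) (nat_lit 351)) (XT.lf (nat_lit 0) (nat_lit 116101064928) (nat_lit 76) (nat_lit 12663470830) (nat_lit 76) (nat_lit 11932521476) (nat_lit 4) (nat_lit 4)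 (nat_lit 5) (nat_lit 5) (nat_lit 5) (nat_lit 4) (nat_lit 475) (nat_lit 375) (nat_lit 350))) (XT.nd (nat_lit 78) (nat_lit 152) (nat_lit 0) (XT.lf (nat_lit 0) (nat_lit 147037477581) (nat_lit 76) (nat_lit 2409767837) (nat_lit 76) (nat_lit 1669560617) (nat_lit 4) (nat_lit 4) (nat_lit 5) (nat_lit 5) (nat_lit 5) (nat_lit 4) (nat_lit 476) (nat_lit 375) (nat_lit 349)) (XT.lf (nat_lit 0) (nat_lit 9433247454) (nat_lit 152) (nat_lit 144139660141) (nat_lit 0) (nat_lit 8739933271) (nat_lit 2) (nat_lit 5) (nat_lit 4) (nat_lit 4) (nat_lit 2) (nat_lit 4) (nat_lit 477) (nat_lit 375) (nat_lit 348)))))) (XT.nd (nat_lit 546) (nat_lit 76) (nat_lit 0) (XT.nd (nat_lit 234) (nat_lit 0) (nat_lit 0) (XT.nd (nat_lit 78) (nat_lit 0) (nat_lit 0) (XT.lf (nat_lit 0) (nat_lit 21336853015) (nat_lit 152) (nat_lit 132427825010) (nat_lit 0) (nat_lit 20636189640) (nat_lit 2) (nat_lit 5) (nat_lit 4) (nat_lit 4) (nat_lit 2) (nat_lit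 4) (nat_lit 478) (nat_lit 375) (nat_lit 347)) (XT.nd (nat_lit 78) (nat_lit 0) (nat_lit 0) (XT.lf (nat_lit 0) (nat_lit 34031402576) (nat_lit 152) (nat_lit 120113507377) (nat_lit 0) (nat_lit 33323934393) (nat_lit 2) (nat_lit 5) (nat_lit 4) (nat_lit 4) (nat_lit 2) (nat_lit 4) (nat_lit 479) (nat_lit 375) (nat_lit 346)) (XT.lf (nat_lit 0) (nat_lit 47592123096) (nat_lit 152) (nat_lit 107123733507) (nat_lit 0) (nat_lit 46878354166) (nat_lit 2) (nat_lit 5) (nat_lit 4) (nat_lit 4) (nat_lit 2) (nat_lit 4) (nat_lit 480) (nat_lit 375) (nat_lit 345)))) (XT.nd (nat_lit 156) (nat_lit 0) (nat_lit 0) (XT.nd (nat_lit 78) (nat_lit 0) (nat_lit 0) (XT.lf (nat_lit 0) (nat_lit 62099374402) (nat_lit 152) (nat_lit 93381526963) (nat_lit 0) (nat_lit 61379771446) (nat_lit 2) (nat_lit 5) (nat_lit 4) (nat_lit 4) (nat_lit 2) (nat_lit 4) (nat_lit 481) (nat_lit 375) (nat_lit 344)) (XT.lf (nat_lit 0) (nat_lit 77639125389)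 (nat_lit 152) (nat_lit 78805452447) (nat_lit 0) (nat_lit 76914120558) (nat_lit 2) (nat_lit 5) (nat_lit 4) (nat_lit 4) (nat_lit 2) (nat_lit 4) (nat_lit 482) (nat_lit 375) (nat_lit 343))) (XT.nd (nat_lit 78) (nat_lit 0) (nat_lit 0) (XT.lf (nat_lit 0) (nat_lit 94303463472) (nat_lit 152) (nat_lit 63309133220) (nat_lit 0) (nat_lit 93573456904) (nat_lit 2) (nat_lit 5) (nat_lit 4) (nat_lit 4) (nat_lit 2) (nat_lit 4) (nat_lit 483) (nat_lit 375) (nat_lit 342)) (XT.lf (nat_lit 0) (nat_lit 112191140283) (nat_lit 152) (nat_lit 46800739243) (nat_lit 0) (nat_lit 111456502477) (nat_lit 2) (nat_lit 5) (nat_lit 4) (nat_lit 4) (nat_lit 2) (nat_lit 4) (nat_lit 484) (nat_lit 375) (nat_lit 341))))) (XT.nd (nat_lit 234) (nat_lit 0) (nat_lit 0) (XT.nd (nat_lit 78) (nat_lit 76) (nat_lit 0) (XT.lf (nat_lit 0) (nat_lit 131408156870) (nat_lit 152) (nat_lit 29182442997) (nat_lit 0) (nat_lit 130669230881) (nat_lit 2)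 (nat_lit 5) (nat_lit 4) (nat_lit 4) (nat_lit 2) (nat_lit 4) (nat_lit 485) (nat_lit 375) (nat_lit 340)) (XT.nd (nat_lit 78) (nat_lit 76) (nat_lit 0) (XT.lf (nat_lit 0) (nat_lit 152068391850) (nat_lit 152) (nat_lit 10349839761) (nat_lit 0) (nat_lit 151325495321) (nat_lit 2) (nat_lit 5) (nat_lit 4) (nat_lit 4) (nat_lit 2) (nat_lit 4) (nat_lit 486) (nat_lit 375) (nat_lit 339)) (XT.lf (nat_lit 0) (nat_lit 10325178310) (nat_lit 76) (nat_lit 164217418721) (nat_lit 76) (nat_lit 163470845767) (nat_lit 1) (nat_lit 4) (nat_lit 2) (nat_lit 5) (nat_lit 2) (nat_lit 4) (nat_lit 487) (nat_lit 375) (nat_lit 338)))) (XT.nd (nat_lit 156) (nat_lit 0) (nat_lit 0) (XT.nd (nat_lit 78) (nat_lit 0) (nat_lit 0) (XT.lf (nat_lit 0) (nat_lit 33066676427) (nat_lit 76) (nat_lit 165946096934) (nat_lit 76) (nat_lit 165196119882) (nat_lit 1) (nat_lit 4) (nat_lit 2) (nat_lit 5) (nat_lit 2) (nat_lit 4) (nat_lit 488) (nat_lit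 375) (nat_lit 337)) (XT.lf (nat_lit 0) (nat_lit 57464414803) (nat_lit 76) (nat_lit 167897493231) (nat_lit 76) (nat_lit 167144364237) (nat_lit 1) (nat_lit 4) (nat_lit 2) (nat_lit 5) (nat_lit 2) (nat_lit 4) (nat_lit 489) (nat_lit 375) (nat_lit 336))) (XT.nd (nat_lit 78) (nat_lit 0) (nat_lit 0) (XT.lf (nat_lit 0) (nat_lit 83662972628) (nat_lit 76) (nat_lit 170083171442) (nat_lit 76) (nat_lit 169327123982) (nat_lit 1) (nat_lit 4) (nat_lit 2) (nat_lit 5) (nat_lit 2) (nat_lit 4) (nat_lit 490) (nat_lit 375) (nat_lit 335)) (XT.lf (nat_lit 0) (nat_lit 111817600614) (nat_lit 76) (nat_lit 172516083733) (nat_lit 76) (nat_lit 171757333990) (nat_lit 1) (nat_lit 4) (nat_lit 2) (nat_lit 5) (nat_lit 2) (nat_lit 4) (nat_lit 491) (nat_lit 375) (nat_lit 334))))))) (XT.nd (nat_lit 1092) (nat_lit 0) (nat_lit 0) (XT.nd (nat_lit 546) (nat_lit 0) (nat_lit 0) (XT.nd (nat_lit 234) (nat_lit 0) (nat_lit 0) (XT.nd (nat_lit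 78) (nat_lit 0) (nat_lit 0) (XT.lf (nat_lit 0) (nat_lit 142095141002) (nat_lit 76) (nat_lit 175210647363) (nat_lit 76) (nat_lit 174449395507) (nat_lit 1) (nat_lit 4) (nat_lit 2) (nat_lit 5) (nat_lit 2) (nat_lit 4) (nat_lit 492) (nat_lit 375) (nat_lit 333)) (XT.nd (nat_lit 78) (nat_lit 0) (nat_lit 0) (XT.lf (nat_lit 0) (nat_lit 174675016253) (nat_lit 76) (nat_lit 178182830116) (nat_lit 76) (nat_lit 177419261488) (nat_lit 1) (nat_lit 4) (nat_lit 2) (nat_lit 5) (nat_lit 2) (nat_lit 4) (nat_lit 493) (nat_lit 375) (nat_lit 332)) (XT.lf (nat_lit 0) (nat_lit 209750292295) (nat_lit 76) (nat_lit 181450244928) (nat_lit 76) (nat_lit 180684531141) (nat_lit 1) (nat_lit 4) (nat_lit 2) (nat_lit 5) (nat_lit 2) (nat_lit 4) (nat_lit 494) (nat_lit 375) (nat_lit 331)))) (XT.nd (nat_lit 156) (nat_lit 0) (nat_lit 0) (XT.nd (nat_lit 78) (nat_lit 0) (nat_lit 0) (XT.lf (nat_lit 0) (nat_lit 247528822615) (nat_lit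 76) (nat_lit 185032254255) (nat_lit 76) (nat_lit 184264554210) (nat_lit 1) (nat_lit 4) (nat_lit 2) (nat_lit 5) (nat_lit 2) (nat_lit 4) (nat_lit 495) (nat_lit 375) (nat_lit 330)) (XT.lf (nat_lit 0) (nat_lit 288234479986) (nat_lit 76) (nat_lit 188950084821) (nat_lit 76) (nat_lit 188180545647) (nat_lit 1) (nat_lit 4) (nat_lit 2) (nat_lit 5) (nat_lit 2) (nat_lit 4) (nat_lit 496) (nat_lit 375) (nat_lit 329))) (XT.nd (nat_lit 78) (nat_lit 0) (nat_lit 0) (XT.lf (nat_lit 0) (nat_lit 332108483118) (nat_lit 76) (nat_lit 193226953398) (nat_lit 76) (nat_lit 192455711328) (nat_lit 1) (nat_lit 4) (nat_lit 2) (nat_lit 5) (nat_lit 2) (nat_lit 4) (nat_lit 497) (nat_lit 375) (nat_lit 328)) (XT.lf (nat_lit 0) (nat_lit 379410826103) (nat_lit 76) (nat_lit 197888204394) (nat_lit 76) (nat_lit 197115385568) (nat_lit 1) (nat_lit 4) (nat_lit 2) (nat_lit 5) (nat_lit 2) (nat_lit 4) (nat_lit 498) (nat_lit 375) (nat_lit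 327))))) (XT.nd (nat_lit 234) (nat_lit 0) (nat_lit 0) (XT.nd (nat_lit 78) (nat_lit 0) (nat_lit 0) (XT.lf (nat_lit 0) (nat_lit 430421819122) (nat_lit 76) (nat_lit 202961460036) (nat_lit 76) (nat_lit 202187181251) (nat_lit 1) (nat_lit 4) (nat_lit 2) (nat_lit 5) (nat_lit 2) (nat_lit 4) (nat_lit 499) (nat_lit 375) (nat_lit 326)) (XT.nd (nat_lit 78) (nat_lit 0) (nat_lit 0) (XT.lf (nat_lit 0) (nat_lit 485443749542) (nat_lit 76) (nat_lit 208476784062) (nat_lit 76) (nat_lit 207701153462) (nat_lit 1) (nat_lit 4) (nat_lit 2) (nat_lit 5) (nat_lit 2) (nat_lit 4) (nat_lit 500) (nat_lit 375) (nat_lit 325)) (XT.lf (nat_lit 0) (nat_lit 544802673246) (nat_lit 76) (nat_lit 214466859873) (nat_lit 76) (nat_lit 213689977593) (nat_lit 1) (nat_lit 4) (nat_lit 2) (nat_lit 5) (nat_lit 2) (nat_lit 4) (nat_lit 501) (nat_lit 375) (nat_lit 324)))) (XT.nd (nat_lit 156) (nat_lit 0) (nat_lit 0) (XT.nd (nat_lit 78) (nat_lit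 0) (nat_lit 0) (XT.lf (nat_lit 0) (nat_lit 608850346819) (nat_lit 76) (nat_lit 220967184214) (nat_lit 76) (nat_lit 220189142972) (nat_lit 1) (nat_lit 4) (nat_lit 2) (nat_lit 5) (nat_lit 2) (nat_lit 4) (nat_lit 502) (nat_lit 375) (nat_lit 323)) (XT.lf (nat_lit 0) (nat_lit 677966312030) (nat_lit 76) (nat_lit 228016277527) (nat_lit 76) (nat_lit 227237163171) (nat_lit 1) (nat_lit 4) (nat_lit 2) (nat_lit 5) (nat_lit 2) (nat_lit 4) (nat_lit 503) (nat_lit 375) (nat_lit 322))) (XT.nd (nat_lit 78) (nat_lit 0) (nat_lit 0) (XT.lf (nat_lit 0) (nat_lit 752560144970) (nat_lit 76) (nat_lit 235655912215) (nat_lit 76) (nat_lit 234875804236) (nat_lit 1) (nat_lit 4) (nat_lit 2) (nat_lit 5) (nat_lit 2) (nat_lit 4) (nat_lit 504) (nat_lit 375) (nat_lit 321)) (XT.lf (nat_lit 0) (nat_lit 833073883168) (nat_lit 76) (nat_lit 243931360189) (nat_lit 76) (nat_lit 243150332188) (nat_lit 1) (nat_lit 4) (nat_lit 2) (nat_lit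 5) (nat_lit 2) (nat_lit 4) (nat_lit 505) (nat_lit 375) (nat_lit 320)))))) (XT.nd (nat_lit 546) (nat_lit 0) (nat_lit 0) (XT.nd (nat_lit 234) (nat_lit 0) (nat_lit 0) (XT.nd (nat_lit 78) (nat_lit 0) (nat_lit 0) (XT.lf (nat_lit 0) (nat_lit 919984645070) (nat_lit 76) (nat_lit 252891661140) (nat_lit 76) (nat_lit 252109781267) (nat_lit 1) (nat_lit 4) (nat_lit 2) (nat_lit 5) (nat_lit 2) (nat_lit 4) (nat_lit 506) (nat_lit 375) (nat_lit 319)) (XT.nd (nat_lit 78) (nat_lit 0) (nat_lit 0) (XT.lf (nat_lit 0) (nat_lit 1013807457416) (nat_lit 76) (nat_lit 262589913148) (nat_lit 76) (nat_lit 261807244504) (nat_lit 1) (nat_lit 4) (nat_lit 2) (nat_lit 5) (nat_lit 2) (nat_lit 4) (nat_lit 507) (nat_lit 375) (nat_lit 318)) (XT.lf (nat_lit 0) (nat_lit 1115098307241) (nat_lit 76) (nat_lit 273083587335) (nat_lit 76) (nat_lit 272300188348) (nat_lit 1) (nat_lit 4) (nat_lit 2) (nat_lit 5) (nat_lit 2) (nat_lit 4) (nat_lit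 508) (nat_lit 375) (nat_lit 317)))) (XT.nd (nat_lit 156) (nat_lit 0) (nat_lit 0) (XT.nd (nat_lit 78) (nat_lit 0) (nat_lit 0) (XT.lf (nat_lit 0) (nat_lit 1224457436618) (nat_lit 76) (nat_lit 284434868438) (nat_lit 76) (nat_lit 283650793208) (nat_lit 1) (nat_lit 4) (nat_lit 2) (nat_lit 5) (nat_lit 2) (nat_lit 4) (nat_lit 509) (nat_lit 375) (nat_lit 316)) (XT.lf (nat_lit 0) (nat_lit 1342532899647) (nat_lit 76) (nat_lit 296711023308) (nat_lit 76) (nat_lit 295926321926) (nat_lit 1) (nat_lit 4) (nat_lit 2) (nat_lit 5) (nat_lit 2) (nat_lit 4) (nat_lit 510) (nat_lit 375) (nat_lit 315))) (XT.nd (nat_lit 78) (nat_lit 0) (nat_lit 0) (XT.lf (nat_lit 0) (nat_lit 1470024402775) (nat_lit 76) (nat_lit 309984799529) (nat_lit 76) (nat_lit 309199518377) (nat_lit 1) (nat_lit 4) (nat_lit 2) (nat_lit 5) (nat_lit 2) (nat_lit 4) (nat_lit 511) (nat_lit 375) (nat_lit 314)) (XT.lf (nat_lit 0) (nat_lit 1607687451207)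 (nat_lit 76) (nat_lit 324334856515) (nat_lit 76) (nat_lit 323549038539) (nat_lit 1) (nat_lit 4) (nat_lit 2) (nat_lit 5) (nat_lit 2) (nat_lit 4) (nat_lit 512) (nat_lit 375) (nat_lit 313))))) (XT.nd (nat_lit 234) (nat_lit 0) (nat_lit 0) (XT.nd (nat_lit 78) (nat_lit 0) (nat_lit 0) (XT.lf (nat_lit 0) (nat_lit 1756337825971) (nat_lit 76) (nat_lit 339846231642) (nat_lit 76) (nat_lit 339059916607) (nat_lit 1) (nat_lit 4) (nat_lit 2) (nat_lit 5) (nat_lit 2) (nat_lit 4) (nat_lit 513) (nat_lit 375) (nat_lit 312)) (XT.nd (nat_lit 78) (nat_lit 0) (nat_lit 0) (XT.lf (nat_lit 0) (nat_lit 1916856418174) (nat_lit 76) (nat_lit 356610844169) (nat_lit 76) (nat_lit 355824068894) (nat_lit 1) (nat_lit 4) (nat_lit 2) (nat_lit 5) (nat_lit 2) (nat_lit 4) (nat_lit 514) (nat_lit 375) (nat_lit 311)) (XT.lf (nat_lit 0) (nat_lit 2090194449106) (nat_lit 76) (nat_lit 374728039949) (nat_lit 76) (nat_lit 373940838525) (nat_lit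 1) (nat_lit 4) (nat_lit 2) (nat_lit 5) (nat_lit 2) (nat_lit 4) (nat_lit 515) (nat_lit 375) (nat_lit 310)))) (XT.nd (nat_lit 156) (nat_lit 0) (nat_lit 0) (XT.nd (nat_lit 78) (nat_lit 0) (nat_lit 0) (XT.lf (nat_lit 0) (nat_lit 2277379107098) (nat_lit 76) (nat_lit 394305180141) (nat_lit 76) (nat_lit 393517584136) (nat_lit 1) (nat_lit 4) (nat_lit 2) (nat_lit 5) (nat_lit 2) (nat_lit 4) (nat_lit 516) (nat_lit 375) (nat_lit 309)) (XT.lf (nat_lit 0) (nat_lit 2479519634566) (nat_lit 76) (nat_lit 415458277429) (nat_lit 76) (nat_lit 414670316070) (nat_lit 1) (nat_lit 4) (nat_lit 2) (nat_lit 5) (nat_lit 2) (nat_lit 4) (nat_lit 517) (nat_lit 375) (nat_lit 308))) (XT.nd (nat_lit 78) (nat_lit 0) (nat_lit 0) (XT.lf (nat_lit 0) (nat_lit 2697813901304) (nat_lit 76) (nat_lit 438312683499) (nat_lit 76) (nat_lit 437524383850) (nat_lit 1) (nat_lit 4) (nat_lit 2) (nat_lit 5) (nat_lit 2) (nat_lit 4) (nat_lit 518)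 (nat_lit 375) (nat_lit 307)) (XT.lf (nat_lit 0) (nat_lit 2933555502966) (nat_lit 76) (nat_lit 463003831870) (nat_lit 76) (nat_lit 462215218990) (nat_lit 1) (nat_lit 4) (nat_lit 2) (nat_lit 5) (nat_lit 2) (nat_lit 4) (nat_lit 519) (nat_lit 375) (nat_lit 306))))))))
noncomputable def xc41 : XT := (XT.nd (nat_lit 57018) (nat_lit 0) (nat_lit 76) (XT.nd (nat_lit 1092) (nat_lit 0) (nat_lit 0) (XT.nd (nat_lit 546) (nat_lit 0) (nat_lit 0) (XT.nd (nat_lit 234) (nat_lit 0) (nat_lit 0) (XT.nd (nat_lit 78) (nat_lit 0) (nat_lit 0) (XT.lf (nat_lit 0) (nat_lit 3188141426822) (nat_lit 76) (nat_lit 489678040458) (nat_lit 76) (nat_lit 488889137548) (nat_lit 1) (nat_lit 4) (nat_lit 2) (nat_lit 5) (nat_lit 2) (nat_lit 4) (nat_lit 520) (nat_lit 375) (nat_lit 305)) (XT.nd (nat_lit 78) (nat_lit 0) (nat_lit 0) (XT.lf (nat_lit 0) (nat_lit 3463080330198) (nat_lit 76) (nat_lit 518493378646) (nat_lit 76) (nat_lit 517704207190)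 (nat_lit 1) (nat_lit 4) (nat_lit 2) (nat_lit 5) (nat_lit 2) (nat_lit 4) (nat_lit 521) (nat_lit 375) (nat_lit 304)) (XT.lf (nat_lit 0) (nat_lit 3760001480669) (nat_lit 76) (nat_lit 549620603994) (nat_lit 76) (nat_lit 548831183885) (nat_lit 1) (nat_lit 4) (nat_lit 2) (nat_lit 5) (nat_lit 2) (nat_lit 4) (nat_lit 522) (nat_lit 375) (nat_lit 303)))) (XT.nd (nat_lit 156) (nat_lit 0) (nat_lit 0) (XT.nd (nat_lit 78) (nat_lit 0) (nat_lit 0) (XT.lf (nat_lit 0) (nat_lit 4080664410979) (nat_lit 76) (nat_lit 583244174135) (nat_lit 76) (nat_lit 582454523791) (nat_lit 1) (nat_lit 4) (nat_lit 2) (nat_lit 5) (nat_lit 2) (nat_lit 4) (nat_lit 523) (nat_lit 375) (nat_lit 302)) (XT.lf (nat_lit 0) (nat_lit 4426969345900) (nat_lit 76) (nat_lit 619563339854) (nat_lit 76) (nat_lit 618773476330) (nat_lit 1) (nat_lit 4) (nat_lit 2) (nat_lit 5) (nat_lit 2) (nat_lit 4) (nat_lit 524) (nat_lit 375) (nat_lit 301))) (XT.nd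 (nat_lit 78) (nat_lit 0) (nat_lit 0) (XT.lf (nat_lit 0) (nat_lit 4800968462825) (nat_lit 76) (nat_lit 658793325837) (nat_lit 76) (nat_lit 658003264924) (nat_lit 1) (nat_lit 4) (nat_lit 2) (nat_lit 5) (nat_lit 2) (nat_lit 4) (nat_lit 525) (nat_lit 375) (nat_lit 300)) (XT.lf (nat_lit 0) (nat_lit 5204878052817) (nat_lit 76) (nat_lit 701166606075) (nat_lit 76) (nat_lit 700376362394) (nat_lit 1) (nat_lit 4) (nat_lit 2) (nat_lit 5) (nat_lit 2) (nat_lit 4) (nat_lit 526) (nat_lit 375) (nat_lit 299))))) (XT.nd (nat_lit 234) (nat_lit 0) (nat_lit 0) (XT.nd (nat_lit 78) (nat_lit 0) (nat_lit 0) (XT.lf (nat_lit 0) (nat_lit 5641091654186) (nat_lit 76) (nat_lit 746934281487) (nat_lit 76) (nat_lit 746143868577) (nat_lit 1) (nat_lit 4) (nat_lit 2) (nat_lit 5) (nat_lit 2) (nat_lit 4) (nat_lit 527) (nat_lit 375) (nat_lit 298)) (XT.nd (nat_lit 78) (nat_lit 0) (nat_lit 0) (XT.lf (nat_lit 0) (nat_lit 6112194236422)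 (nat_lit 76) (nat_lit 796367567929) (nat_lit 76) (nat_lit 795576998325) (nat_lit 1) (nat_lit 4) (nat_lit 2) (nat_lit 5) (nat_lit 2) (nat_lit 4) (nat_lit 528) (nat_lit 375) (nat_lit 297)) (XT.lf (nat_lit 0) (nat_lit 6620977518532) (nat_lit 76) (nat_lit 849759403393) (nat_lit 76) (nat_lit 848968688703) (nat_lit 1) (nat_lit 4) (nat_lit 2) (nat_lit 5) (nat_lit 2) (nat_lit 4) (nat_lit 529) (nat_lit 375) (nat_lit 296)))) (XT.nd (nat_lit 156) (nat_lit 0) (nat_lit 0) (XT.nd (nat_lit 78) (nat_lit 0) (nat_lit 0) (XT.lf (nat_lit 0) (nat_lit 7170456512557) (nat_lit 76) (nat_lit 907426183943) (nat_lit 76) (nat_lit 906635334913) (nat_lit 1) (nat_lit 4) (nat_lit 2) (nat_lit 5) (nat_lit 2) (nat_lit 4) (nat_lit 530) (nat_lit 375) (nat_lit 295)) (XT.lf (nat_lit 0) (nat_lit 7763887390313) (nat_lit 76) (nat_lit 969709638647) (nat_lit 76) (nat_lit 968918665228) (nat_lit 1) (nat_lit 4) (nat_lit 2) (nat_lit 5)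 (nat_lit 2) (nat_lit 4) (nat_lit 531) (nat_lit 375) (nat_lit 294))) (XT.nd (nat_lit 78) (nat_lit 0) (nat_lit 0) (XT.lf (nat_lit 0) (nat_lit 8404786779225) (nat_lit 76) (nat_lit 1036978854645) (nat_lit 76) (nat_lit 1036187766052) (nat_lit 1) (nat_lit 4) (nat_lit 2) (nat_lit 5) (nat_lit 2) (nat_lit 4) (nat_lit 532) (nat_lit 375) (nat_lit 293)) (XT.lf (nat_lit 0) (nat_lit 9096952601597) (nat_lit 76) (nat_lit 1109632464328) (nat_lit 76) (nat_lit 1108841269091) (nat_lit 1) (nat_lit 4) (nat_lit 2) (nat_lit 5) (nat_lit 2) (nat_lit 4) (nat_lit 533) (nat_lit 375) (nat_lit 292)))))) (XT.nd (nat_lit 546) (nat_lit 0) (nat_lit 0) (XT.nd (nat_lit 234) (nat_lit 0) (nat_lit 0) (XT.nd (nat_lit 78) (nat_lit 0) (nat_lit 0) (XT.lf (nat_lit 0) (nat_lit 9844486580821) (nat_lit 76) (nat_lit 1188101007605) (nat_lit 76) (nat_lit 1187309713625) (nat_lit 1) (nat_lit 4) (nat_lit 2) (nat_lit 5) (nat_lit 2) (nat_lit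 4) (nat_lit 534) (nat_lit 375) (nat_lit 291)) (XT.nd (nat_lit 78) (nat_lit 0) (nat_lit 0) (XT.lf (nat_lit 0) (nat_lit 10651818547885) (nat_lit 76) (nat_lit 1272849483251) (nat_lit 76) (nat_lit 1272058097842) (nat_lit 1) (nat_lit 4) (nat_lit 2) (nat_lit 5) (nat_lit 2) (nat_lit 4) (nat_lit 535) (nat_lit 375) (nat_lit 290)) (XT.lf (nat_lit 0) (nat_lit 11523732692224) (nat_lit 76) (nat_lit 1364380104456) (nat_lit 76) (nat_lit 1363588634389) (nat_lit 1) (nat_lit 4) (nat_lit 2) (nat_lit 5) (nat_lit 2) (nat_lit 4) (nat_lit 536) (nat_lit 375) (nat_lit 289)))) (XT.nd (nat_lit 156) (nat_lit 0) (nat_lit 0) (XT.nd (nat_lit 78) (nat_lit 0) (nat_lit 0) (XT.lf (nat_lit 0) (nat_lit 12465395912470) (nat_lit 76) (nat_lit 1463235274899) (nat_lit 76) (nat_lit 1462443726447) (nat_lit 1) (nat_lit 4) (nat_lit 2) (nat_lit 5) (nat_lit 2) (nat_lit 4) (nat_lit 537) (nat_lit 375) (nat_lit 288)) (XT.lf (nat_lit 0) (nat_lit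 13482388435113) (nat_lit 76) (nat_lit 1570000802999) (nat_lit 76) (nat_lit 1569209181968) (nat_lit 1) (nat_lit 4) (nat_lit 2) (nat_lit 5) (nat_lit 2) (nat_lit 4) (nat_lit 538) (nat_lit 375) (nat_lit 287))) (XT.nd (nat_lit 78) (nat_lit 0) (nat_lit 0) (XT.lf (nat_lit 0) (nat_lit 14580736882512) (nat_lit 76) (nat_lit 1685309373368) (nat_lit 76) (nat_lit 1684517685132) (nat_lit 1) (nat_lit 4) (nat_lit 2) (nat_lit 5) (nat_lit 2) (nat_lit 4) (nat_lit 539) (nat_lit 375) (nat_lit 286)) (XT.lf (nat_lit 0) (nat_lit 15766949986204) (nat_lit 76) (nat_lit 1809844296050) (nat_lit 76) (nat_lit 1809052545590) (nat_lit 1) (nat_lit 4) (nat_lit 2) (nat_lit 5) (nat_lit 2) (nat_lit 4) (nat_lit 540) (nat_lit 375) (nat_lit 285))))) (XT.nd (nat_lit 234) (nat_lit 0) (nat_lit 0) (XT.nd (nat_lit 78) (nat_lit 0) (nat_lit 0) (XT.lf (nat_lit 0) (nat_lit 17048057157176) (nat_lit 76) (nat_lit 1944343555774) (nat_lit 76)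 (nat_lit 1943551747697) (nat_lit 1) (nat_lit 4) (nat_lit 2) (nat_lit 5) (nat_lit 2) (nat_lit 4) (nat_lit 541) (nat_lit 375) (nat_lit 284)) (XT.nd (nat_lit 78) (nat_lit 0) (nat_lit 0) (XT.lf (nat_lit 0) (nat_lit 18431650141625) (nat_lit 76) (nat_lit 2089604185189) (nat_lit 76) (nat_lit 2088812323765) (nat_lit 1) (nat_lit 4) (nat_lit 2) (nat_lit 5) (nat_lit 2) (nat_lit 4) (nat_lit 542) (nat_lit 375) (nat_lit 283)) (XT.lf (nat_lit 0) (nat_lit 19925928009089) (nat_lit 76) (nat_lit 2246486988026) (nat_lit 76) (nat_lit 2245695077205) (nat_lit 1) (nat_lit 4) (nat_lit 2) (nat_lit 5) (nat_lit 2) (nat_lit 4) (nat_lit 543) (nat_lit 375) (nat_lit 282)))) (XT.nd (nat_lit 54990) (nat_lit 0) (nat_lit 1444) (XT.nd (nat_lit 78) (nat_lit 0) (nat_lit 0) (XT.lf (nat_lit 0) (nat_lit 21539745739524) (nat_lit 76) (nat_lit 2415921640153) (nat_lit 76) (nat_lit 2415129683594) (nat_lit 1) (nat_lit 4) (nat_lit 2) (nat_lit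 5) (nat_lit 2) (nat_lit 4) (nat_lit 544) (nat_lit 375) (nat_lit 281)) (XT.lf (nat_lit 0) (nat_lit 23282666697258) (nat_lit 76) (nat_lit 2598912198768) (nat_lit 76) (nat_lit 2598120199860) (nat_lit 1) (nat_lit 4) (nat_lit 2) (nat_lit 5) (nat_lit 2) (nat_lit 4) (nat_lit 545) (nat_lit 375) (nat_lit 280))) (XT.nd (nat_lit 78) (nat_lit 0) (nat_lit 0) (XT.lf (nat_lit 0) (nat_lit 425002617) (nat_lit 152) (nat_lit 13051575191) (nat_lit 0) (nat_lit 425002617) (nat_lit 20) (nat_lit 5) (nat_lit 22) (nat_lit 4) (nat_lit 20) (nat_lit 4) (nat_lit 448) (nat_lit 376) (nat_lit 376)) (XT.lf (nat_lit 0) (nat_lit 12223400152) (nat_lit 152) (nat_lit 4768049427) (nat_lit 0) (nat_lit 12122788730) (nat_lit 20) (nat_lit 5) (nat_lit 22) (nat_lit 4) (nat_lit 20) (nat_lit 4) (nat_lit 449) (nat_lit 376) (nat_lit 375))))))) (XT.nd (nat_lit 1092) (nat_lit 456) (nat_lit 0) (XT.nd (nat_lit 546) (nat_lit 380) (nat_lit 0)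 (XT.nd (nat_lit 234) (nat_lit 304) (nat_lit 0) (XT.nd (nat_lit 78) (nat_lit 152) (nat_lit 0) (XT.lf (nat_lit 0) (nat_lit 18033922541) (nat_lit 76) (nat_lit 6349938263) (nat_lit 76) (nat_lit 6156168118) (nat_lit 19) (nat_lit 4) (nat_lit 20) (nat_lit 5) (nat_lit 20) (nat_lit 4) (nat_lit 450) (nat_lit 376) (nat_lit 374)) (XT.nd (nat_lit 78) (nat_lit 0) (nat_lit 0) (XT.lf (nat_lit 0) (nat_lit 5108304947) (nat_lit 152) (nat_lit 22116657168) (nat_lit 0) (nat_lit 4849019555) (nat_lit 17) (nat_lit 5) (nat_lit 19) (nat_lit 4) (nat_lit 17) (nat_lit 4) (nat_lit 451) (nat_lit 376) (nat_lit 373)) (XT.lf (nat_lit 0) (nat_lit 16901610250) (nat_lit 152) (nat_lit 251056477) (nat_lit 0) (nat_lit 16568372460) (nat_lit 17) (nat_lit 5) (nat_lit 19) (nat_lit 4) (nat_lit 17) (nat_lit 4) (nat_lit 452) (nat_lit 376) (nat_lit 372)))) (XT.nd (nat_lit 156) (nat_lit 76) (nat_lit 0) (XT.nd (nat_lit 78) (nat_lit 152)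 (nat_lit 0) (XT.lf (nat_lit 0) (nat_lit 23479918917) (nat_lit 76) (nat_lit 6208814103) (nat_lit 76) (nat_lit 5807101869) (nat_lit 16) (nat_lit 4) (nat_lit 17) (nat_lit 5) (nat_lit 17) (nat_lit 4) (nat_lit 453) (nat_lit 376) (nat_lit 371)) (XT.lf (nat_lit 0) (nat_lit 5673441327) (nat_lit 152) (nat_lit 26493349895) (nat_lit 0) (nat_lit 5242779757) (nat_lit 14) (nat_lit 5) (nat_lit 16) (nat_lit 4) (nat_lit 14) (nat_lit 4) (nat_lit 454) (nat_lit 376) (nat_lit 370))) (XT.nd (nat_lit 78) (nat_lit 76) (nat_lit 0) (XT.lf (nat_lit 0) (nat_lit 17743452868) (nat_lit 152) (nat_lit 4463673022) (nat_lit 0) (nat_lit 17258434077) (nat_lit 14) (nat_lit 5) (nat_lit 16) (nat_lit 4) (nat_lit 14) (nat_lit 4) (nat_lit 455) (nat_lit 376) (nat_lit 369)) (XT.lf (nat_lit 0) (nat_lit 19313791570) (nat_lit 76) (nat_lit 11454235240) (nat_lit 76) (nat_lit 10918885689) (nat_lit 13) (nat_lit 4) (nat_lit 14) (nat_lit 5)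 (nat_lit 14) (nat_lit 4) (nat_lit 456) (nat_lit 376) (nat_lit 368))))) (XT.nd (nat_lit 234) (nat_lit 228) (nat_lit 0) (XT.nd (nat_lit 78) (nat_lit 0) (nat_lit 0) (XT.lf (nat_lit 0) (nat_lit 177878105) (nat_lit 76) (nat_lit 187424880) (nat_lit 152) (nat_lit 43746898527) (nat_lit 11) (nat_lit 5) (nat_lit 12) (nat_lit 5) (nat_lit 13) (nat_lit 4) (nat_lit 457) (nat_lit 376) (nat_lit 367)) (XT.nd (nat_lit 78) (nat_lit 0) (nat_lit 0) (XT.lf (nat_lit 0) (nat_lit 12403093516) (nat_lit 152) (nat_lit 22446176194) (nat_lit 0) (nat_lit 11824294794) (nat_lit 11) (nat_lit 5) (nat_lit 13) (nat_lit 4) (nat_lit 11) (nat_lit 4) (nat_lit 458) (nat_lit 376) (nat_lit 366)) (XT.lf (nat_lit 0) (nat_lit 24968982613) (nat_lit 152) (nat_lit 152459604) (nat_lit 0) (nat_lit 24353189280) (nat_lit 11) (nat_lit 5) (nat_lit 13) (nat_lit 4) (nat_lit 11) (nat_lit 4) (nat_lit 459) (nat_lit 376) (nat_lit 365)))) (XT.nd (nat_lit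 156) (nat_lit 152) (nat_lit 0) (XT.nd (nat_lit 78) (nat_lit 0) (nat_lit 0) (XT.lf (nat_lit 0) (nat_lit 24298978144) (nat_lit 76) (nat_lit 14418340096) (nat_lit 76) (nat_lit 13768292493) (nat_lit 10) (nat_lit 4) (nat_lit 11) (nat_lit 5) (nat_lit 11) (nat_lit 4) (nat_lit 460) (nat_lit 376) (nat_lit 364)) (XT.lf (nat_lit 0) (nat_lit 49895190934) (nat_lit 76) (nat_lit 3277725539) (nat_lit 76) (nat_lit 2595961020) (nat_lit 10) (nat_lit 4) (nat_lit 11) (nat_lit 5) (nat_lit 11) (nat_lit 4) (nat_lit 461) (nat_lit 376) (nat_lit 363))) (XT.nd (nat_lit 78) (nat_lit 0) (nat_lit 0) (XT.lf (nat_lit 0) (nat_lit 9273482018) (nat_lit 152) (nat_lit 41385912418) (nat_lit 0) (nat_lit 8615026432) (nat_lit 8) (nat_lit 5) (nat_lit 10) (nat_lit 4) (nat_lit 8) (nat_lit 4) (nat_lit 462) (nat_lit 376) (nat_lit 362)) (XT.lf (nat_lit 0) (nat_lit 21825436280) (nat_lit 152) (nat_lit 20097918709) (nat_lit 0) (nat_lit 21141802783)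 (nat_lit 8) (nat_lit 5) (nat_lit 10) (nat_lit 4) (nat_lit 8) (nat_lit 4) (nat_lit 463) (nat_lit 376) (nat_lit 361)))))) (XT.nd (nat_lit 546) (nat_lit 228) (nat_lit 0) (XT.nd (nat_lit 234) (nat_lit 152) (nat_lit 0) (XT.nd (nat_lit 78) (nat_lit 0) (nat_lit 0) (XT.lf (nat_lit 0) (nat_lit 2285846090) (nat_lit 76) (nat_lit 32801880098) (nat_lit 76) (nat_lit 32094933720) (nat_lit 7) (nat_lit 4) (nat_lit 8) (nat_lit 5) (nat_lit 8) (nat_lit 4) (nat_lit 464) (nat_lit 376) (nat_lit 360)) (XT.nd (nat_lit 78) (nat_lit 0) (nat_lit 0) (XT.lf (nat_lit 0) (nat_lit 26899951587) (nat_lit 76) (nat_lit 22720686249) (nat_lit 76) (nat_lit 21992153871) (nat_lit 7) (nat_lit 4) (nat_lit 8) (nat_lit 5) (nat_lit 8) (nat_lit 4) (nat_lit 465) (nat_lit 376) (nat_lit 359)) (XT.lf (nat_lit 0) (nat_lit 52831938363) (nat_lit 76) (nat_lit 12169545749) (nat_lit 76) (nat_lit 11421026334) (nat_lit 7) (nat_lit 4) (nat_lit 8)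 (nat_lit 5) (nat_lit 8) (nat_lit 4) (nat_lit 466) (nat_lit 376) (nat_lit 358)))) (XT.nd (nat_lit 156) (nat_lit 0) (nat_lit 0) (XT.nd (nat_lit 78) (nat_lit 152) (nat_lit 0) (XT.lf (nat_lit 0) (nat_lit 80235477451) (nat_lit 76) (nat_lit 1085933322) (nat_lit 76) (nat_lit 318907392) (nat_lit 7) (nat_lit 4) (nat_lit 8) (nat_lit 5) (nat_lit 8) (nat_lit 4) (nat_lit 467) (nat_lit 376) (nat_lit 357)) (XT.lf (nat_lit 0) (nat_lit 11636350593) (nat_lit 152) (nat_lit 64662563987) (nat_lit 0) (nat_lit 10910275043) (nat_lit 5) (nat_lit 5) (nat_lit 7) (nat_lit 4) (nat_lit 5) (nat_lit 4) (nat_lit 468) (nat_lit 376) (nat_lit 356))) (XT.nd (nat_lit 78) (nat_lit 0) (nat_lit 0) (XT.lf (nat_lit 0) (nat_lit 24321735208) (nat_lit 152) (nat_lit 45336929908) (nat_lit 0) (nat_lit 23580968589) (nat_lit 5) (nat_lit 5) (nat_lit 7) (nat_lit 4) (nat_lit 5) (nat_lit 4) (nat_lit 469) (nat_lit 376) (nat_lit 355)) (XT.lf (nat_lit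 0) (nat_lit 37765766048) (nat_lit 152) (nat_lit 24995845802) (nat_lit 0) (nat_lit 37011396588) (nat_lit 5) (nat_lit 5) (nat_lit 7) (nat_lit 4) (nat_lit 5) (nat_lit 4) (nat_lit 470) (nat_lit 376) (nat_lit 354))))) (XT.nd (nat_lit 312) (nat_lit 152) (nat_lit 0) (XT.nd (nat_lit 156) (nat_lit 0) (nat_lit 0) (XT.nd (nat_lit 78) (nat_lit 76) (nat_lit 0) (XT.lf (nat_lit 0) (nat_lit 52048111446) (nat_lit 152) (nat_lit 3518771913) (nat_lit 0) (nat_lit 51281146762) (nat_lit 5) (nat_lit 5) (nat_lit 7) (nat_lit 4) (nat_lit 5) (nat_lit 4) (nat_lit 471) (nat_lit 376) (nat_lit 353)) (XT.lf (nat_lit 0) (nat_lit 20233736769) (nat_lit 76) (nat_lit 47506292608) (nat_lit 76) (nat_lit 46727665679) (nat_lit 4) (nat_lit 4) (nat_lit 5) (nat_lit 5) (nat_lit 5) (nat_lit 4) (nat_lit 472) (nat_lit 376) (nat_lit 352))) (XT.nd (nat_lit 78) (nat_lit 0) (nat_lit 0) (XT.lf (nat_lit 0) (nat_lit 45643173816) (nat_lit 76)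 (nat_lit 38926305344) (nat_lit 76) (nat_lit 38136880042) (nat_lit 4) (nat_lit 4) (nat_lit 5) (nat_lit 5) (nat_lit 5) (nat_lit 4) (nat_lit 473) (nat_lit 376) (nat_lit 351)) (XT.lf (nat_lit 0) (nat_lit 72674821376) (nat_lit 76) (nat_lit 29872286660) (nat_lit 76) (nat_lit 29072862862) (nat_lit 4) (nat_lit 4) (nat_lit 5) (nat_lit 5) (nat_lit 5) (nat_lit 4) (nat_lit 474) (nat_lit 376) (nat_lit 350)))) (XT.nd (nat_lit 156) (nat_lit 152) (nat_lit 0) (XT.nd (nat_lit 78) (nat_lit 0) (nat_lit 0) (XT.lf (nat_lit 0) (nat_lit 101488866990) (nat_lit 76) (nat_lit 20290583109) (nat_lit 76) (nat_lit 19481901446) (nat_lit 4) (nat_lit 4) (nat_lit 5) (nat_lit 5) (nat_lit 5) (nat_lit 4) (nat_lit 475) (nat_lit 376) (nat_lit 349)) (XT.lf (nat_lit 0) (nat_lit 132256060558) (nat_lit 76) (nat_lit 10124414228) (nat_lit 76) (nat_lit 9307160468) (nat_lit 4) (nat_lit 4) (nat_lit 5) (nat_lit 5) (nat_lit 5) (nat_lit 4)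 (nat_lit 476) (nat_lit 376) (nat_lit 348))) (XT.nd (nat_lit 78) (nat_lit 0) (nat_lit 0) (XT.lf (nat_lit 0) (nat_lit 1509639206) (nat_lit 152) (nat_lit 160696597927) (nat_lit 0) (nat_lit 745573569) (nat_lit 2) (nat_lit 5) (nat_lit 4) (nat_lit 4) (nat_lit 2) (nat_lit 4) (nat_lit 477) (nat_lit 376) (nat_lit 347)) (XT.lf (nat_lit 0) (nat_lit 13335675322) (nat_lit 152) (nat_lit 149145562944) (nat_lit 0) (nat_lit 12564804878) (nat_lit 2) (nat_lit 5) (nat_lit 4) (nat_lit 4) (nat_lit 2) (nat_lit 4) (nat_lit 478) (nat_lit 376) (nat_lit 346))))))))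
noncomputable def xc42 : XT := (XT.nd (nat_lit 2184) (nat_lit 0) (nat_lit 0) (XT.nd (nat_lit 1092) (nat_lit 0) (nat_lit 0) (XT.nd (nat_lit 546) (nat_lit 76) (nat_lit 0) (XT.nd (nat_lit 234) (nat_lit 0) (nat_lit 0) (XT.nd (nat_lit 78) (nat_lit 0) (nat_lit 0) (XT.lf (nat_lit 0) (nat_lit 25958401323) (nat_lit 152) (nat_lit 136980134337) (nat_lit 0) (nat_lit 25181230131) (nat_lit 2) (nat_lit 5) (nat_lit 4) (nat_lit 4) (nat_lit 2) (nat_lit 4) (nat_lit 479) (nat_lit 376) (nat_lit 345)) (XT.nd (nat_lit 78) (nat_lit 0) (nat_lit 0) (XT.lf (nat_lit 0) (nat_lit 39452618547) (nat_lit 152) (nat_lit 124128220677) (nat_lit 0) (nat_lit 38669613329) (nat_lit 2) (nat_lit 5) (nat_lit 4) (nat_lit 4) (nat_lit 2) (nat_lit 4) (nat_lit 480) (nat_lit 376) (nat_lit 344)) (XT.lf (nat_lit 0) (nat_lit 53898292726) (nat_lit 152) (nat_lit 110513662475) (nat_lit 0) (nat_lit 53109885633) (nat_lit 2) (nat_lit 5) (nat_lit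 4) (nat_lit 4) (nat_lit 2) (nat_lit 4) (nat_lit 481) (nat_lit 376) (nat_lit 343)))) (XT.nd (nat_lit 156) (nat_lit 0) (nat_lit 0) (XT.nd (nat_lit 78) (nat_lit 0) (nat_lit 0) (XT.lf (nat_lit 0) (nat_lit 69381027856) (nat_lit 152) (nat_lit 96055780868) (nat_lit 0) (nat_lit 68587619026) (nat_lit 2) (nat_lit 5) (nat_lit 4) (nat_lit 4) (nat_lit 2) (nat_lit 4) (nat_lit 482) (nat_lit 376) (nat_lit 342)) (XT.lf (nat_lit 0) (nat_lit 85992573478) (nat_lit 152) (nat_lit 80668899520) (nat_lit 0) (nat_lit 85194533411) (nat_lit 2) (nat_lit 5) (nat_lit 4) (nat_lit 4) (nat_lit 2) (nat_lit 4) (nat_lit 483) (nat_lit 376) (nat_lit 341))) (XT.nd (nat_lit 78) (nat_lit 0) (nat_lit 0) (XT.lf (nat_lit 0) (nat_lit 103831368381) (nat_lit 152) (nat_lit 64261836912) (nat_lit 0) (nat_lit 103029040130) (nat_lit 2) (nat_lit 5) (nat_lit 4) (nat_lit 4) (nat_lit 2) (nat_lit 4) (nat_lit 484) (nat_lit 376) (nat_lit 340)) (XT.lf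 (nat_lit 0) (nat_lit 123003123942) (nat_lit 152) (nat_lit 46737366007) (nat_lit 0) (nat_lit 122196825152) (nat_lit 2) (nat_lit 5) (nat_lit 4) (nat_lit 4) (nat_lit 2) (nat_lit 4) (nat_lit 485) (nat_lit 376) (nat_lit 339))))) (XT.nd (nat_lit 234) (nat_lit 0) (nat_lit 0) (XT.nd (nat_lit 78) (nat_lit 76) (nat_lit 0) (XT.lf (nat_lit 0) (nat_lit 143621450565) (nat_lit 152) (nat_lit 27991638088) (nat_lit 0) (nat_lit 142811475348) (nat_lit 2) (nat_lit 5) (nat_lit 4) (nat_lit 4) (nat_lit 2) (nat_lit 4) (nat_lit 486) (nat_lit 376) (nat_lit 338)) (XT.nd (nat_lit 78) (nat_lit 76) (nat_lit 0) (XT.lf (nat_lit 0) (nat_lit 165808530925) (nat_lit 152) (nat_lit 7913567361) (nat_lit 0) (nat_lit 164995151610) (nat_lit 2) (nat_lit 5) (nat_lit 4) (nat_lit 4) (nat_lit 2) (nat_lit 4) (nat_lit 487) (nat_lit 376) (nat_lit 337)) (XT.lf (nat_lit 0) (nat_lit 14332812673) (nat_lit 76) (nat_lit 175707735833) (nat_lit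 76) (nat_lit 174891204576) (nat_lit 1) (nat_lit 4) (nat_lit 2) (nat_lit 5) (nat_lit 2) (nat_lit 4) (nat_lit 488) (nat_lit 376) (nat_lit 336)))) (XT.nd (nat_lit 156) (nat_lit 0) (nat_lit 0) (XT.nd (nat_lit 78) (nat_lit 0) (nat_lit 0) (XT.lf (nat_lit 0) (nat_lit 38657955077) (nat_lit 76) (nat_lit 177696713962) (nat_lit 76) (nat_lit 176877264240) (nat_lit 1) (nat_lit 4) (nat_lit 2) (nat_lit 5) (nat_lit 2) (nat_lit 4) (nat_lit 489) (nat_lit 376) (nat_lit 335)) (XT.lf (nat_lit 0) (nat_lit 64789294409) (nat_lit 76) (nat_lit 179917190164) (nat_lit 76) (nat_lit 179095038160) (nat_lit 1) (nat_lit 4) (nat_lit 2) (nat_lit 5) (nat_lit 2) (nat_lit 4) (nat_lit 490) (nat_lit 376) (nat_lit 334))) (XT.nd (nat_lit 78) (nat_lit 0) (nat_lit 0) (XT.lf (nat_lit 0) (nat_lit 92881683051) (nat_lit 76) (nat_lit 182382322819) (nat_lit 76) (nat_lit 181557668701) (nat_lit 1) (nat_lit 4) (nat_lit 2) (nat_lit 5) (nat_lit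 2) (nat_lit 4) (nat_lit 491) (nat_lit 376) (nat_lit 333)) (XT.lf (nat_lit 0) (nat_lit 123101594416) (nat_lit 76) (nat_lit 185106720119) (nat_lit 76) (nat_lit 184279749228) (nat_lit 1) (nat_lit 4) (nat_lit 2) (nat_lit 5) (nat_lit 2) (nat_lit 4) (nat_lit 492) (nat_lit 376) (nat_lit 332)))))) (XT.nd (nat_lit 546) (nat_lit 0) (nat_lit 0) (XT.nd (nat_lit 234) (nat_lit 0) (nat_lit 0) (XT.nd (nat_lit 78) (nat_lit 0) (nat_lit 0) (XT.lf (nat_lit 0) (nat_lit 155628109460) (nat_lit 76) (nat_lit 188106526640) (nat_lit 76) (nat_lit 187277410591) (nat_lit 1) (nat_lit 4) (nat_lit 2) (nat_lit 5) (nat_lit 2) (nat_lit 4) (nat_lit 493) (nat_lit 376) (nat_lit 331)) (XT.nd (nat_lit 78) (nat_lit 0) (nat_lit 0) (XT.lf (nat_lit 0) (nat_lit 190653977904) (nat_lit 76) (nat_lit 191399519014) (nat_lit 76) (nat_lit 190568416707) (nat_lit 1) (nat_lit 4) (nat_lit 2) (nat_lit 5) (nat_lit 2) (nat_lit 4) (nat_lit 494) (nat_lit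 376) (nat_lit 330)) (XT.lf (nat_lit 0) (nat_lit 228386760447) (nat_lit 76) (nat_lit 195005211271) (nat_lit 76) (nat_lit 194172269835) (nat_lit 1) (nat_lit 4) (nat_lit 2) (nat_lit 5) (nat_lit 2) (nat_lit 4) (nat_lit 495) (nat_lit 376) (nat_lit 329)))) (XT.nd (nat_lit 156) (nat_lit 0) (nat_lit 0) (XT.nd (nat_lit 78) (nat_lit 0) (nat_lit 0) (XT.lf (nat_lit 0) (nat_lit 269050058766) (nat_lit 76) (nat_lit 198944970474) (nat_lit 76) (nat_lit 198110326142) (nat_lit 1) (nat_lit 4) (nat_lit 2) (nat_lit 5) (nat_lit 2) (nat_lit 4) (nat_lit 496) (nat_lit 376) (nat_lit 328)) (XT.lf (nat_lit 0) (nat_lit 312884840553) (nat_lit 76) (nat_lit 203242143346) (nat_lit 76) (nat_lit 202405922258) (nat_lit 1) (nat_lit 4) (nat_lit 2) (nat_lit 5) (nat_lit 2) (nat_lit 4) (nat_lit 497) (nat_lit 376) (nat_lit 327))) (XT.nd (nat_lit 78) (nat_lit 0) (nat_lit 0) (XT.lf (nat_lit 0) (nat_lit 360150867478) (nat_lit 76) (nat_lit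 207922194614) (nat_lit 76) (nat_lit 207084513566) (nat_lit 1) (nat_lit 4) (nat_lit 2) (nat_lit 5) (nat_lit 2) (nat_lit 4) (nat_lit 498) (nat_lit 376) (nat_lit 326)) (XT.lf (nat_lit 0) (nat_lit 411128234516) (nat_lit 76) (nat_lit 213012857916) (nat_lit 76) (nat_lit 212173825054) (nat_lit 1) (nat_lit 4) (nat_lit 2) (nat_lit 5) (nat_lit 2) (nat_lit 4) (nat_lit 499) (nat_lit 376) (nat_lit 325))))) (XT.nd (nat_lit 234) (nat_lit 0) (nat_lit 0) (XT.nd (nat_lit 78) (nat_lit 0) (nat_lit 0) (XT.lf (nat_lit 0) (nat_lit 466119029768) (nat_lit 76) (nat_lit 218544300145) (nat_lit 76) (nat_lit 217704015603) (nat_lit 1) (nat_lit 4) (nat_lit 2) (nat_lit 5) (nat_lit 2) (nat_lit 4) (nat_lit 500) (nat_lit 376) (nat_lit 324)) (XT.nd (nat_lit 78) (nat_lit 0) (nat_lit 0) (XT.lf (nat_lit 0) (nat_lit 525449124613) (nat_lit 76) (nat_lit 224549300218) (nat_lit 76) (nat_lit 223707856714) (nat_lit 1) (nat_lit 4) (nat_lit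 2) (nat_lit 5) (nat_lit 2) (nat_lit 4) (nat_lit 501) (nat_lit 376) (nat_lit 323)) (XT.lf (nat_lit 0) (nat_lit 589470104797) (nat_lit 76) (nat_lit 231063443321) (nat_lit 76) (nat_lit 230220926703) (nat_lit 1) (nat_lit 4) (nat_lit 2) (nat_lit 5) (nat_lit 2) (nat_lit 4) (nat_lit 502) (nat_lit 376) (nat_lit 322)))) (XT.nd (nat_lit 156) (nat_lit 0) (nat_lit 0) (XT.nd (nat_lit 78) (nat_lit 0) (nat_lit 0) (XT.lf (nat_lit 0) (nat_lit 658561353909) (nat_lit 76) (nat_lit 238125331783) (nat_lit 76) (nat_lit 237281821542) (nat_lit 1) (nat_lit 4) (nat_lit 2) (nat_lit 5) (nat_lit 2) (nat_lit 4) (nat_lit 503) (nat_lit 376) (nat_lit 321)) (XT.lf (nat_lit 0) (nat_lit 733132301571) (nat_lit 76) (nat_lit 245776813832) (nat_lit 76) (nat_lit 244932383569) (nat_lit 1) (nat_lit 4) (nat_lit 2) (nat_lit 5) (nat_lit 2) (nat_lit 4) (nat_lit 504) (nat_lit 376) (nat_lit 320))) (XT.nd (nat_lit 78) (nat_lit 0) (nat_lit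 0) (XT.lf (nat_lit 0) (nat_lit 813624849696) (nat_lit 76) (nat_lit 254063231585) (nat_lit 76) (nat_lit 253217949449) (nat_lit 1) (nat_lit 4) (nat_lit 2) (nat_lit 5) (nat_lit 2) (nat_lit 4) (nat_lit 505) (nat_lit 376) (nat_lit 319)) (XT.lf (nat_lit 0) (nat_lit 900515991162) (nat_lit 76) (nat_lit 263033689738) (nat_lit 76) (nat_lit 262187618832) (nat_lit 1) (nat_lit 4) (nat_lit 2) (nat_lit 5) (nat_lit 2) (nat_lit 4) (nat_lit 506) (nat_lit 376) (nat_lit 318))))))) (XT.nd (nat_lit 1092) (nat_lit 0) (nat_lit 0) (XT.nd (nat_lit 546) (nat_lit 0) (nat_lit 0) (XT.nd (nat_lit 234) (nat_lit 0) (nat_lit 0) (XT.nd (nat_lit 78) (nat_lit 0) (nat_lit 0) (XT.lf (nat_lit 0) (nat_lit 994320636436) (nat_lit 76) (nat_lit 272741346563) (nat_lit 76) (nat_lit 271894545313) (nat_lit 1) (nat_lit 4) (nat_lit 2) (nat_lit 5) (nat_lit 2) (nat_lit 4) (nat_lit 507) (nat_lit 376) (nat_lit 317)) (XT.nd (nat_lit 78) (nat_lit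 0) (nat_lit 0) (XT.lf (nat_lit 0) (nat_lit 1095594664898) (nat_lit 76) (nat_lit 283243728914) (nat_lit 76) (nat_lit 282396251421) (nat_lit 1) (nat_lit 4) (nat_lit 2) (nat_lit 5) (nat_lit 2) (nat_lit 4) (nat_lit 508) (nat_lit 376) (nat_lit 316)) (XT.lf (nat_lit 0) (nat_lit 1204938218940) (nat_lit 76) (nat_lit 294603073132) (nat_lit 76) (nat_lit 293754969487) (nat_lit 1) (nat_lit 4) (nat_lit 2) (nat_lit 5) (nat_lit 2) (nat_lit 4) (nat_lit 509) (nat_lit 376) (nat_lit 315)))) (XT.nd (nat_lit 156) (nat_lit 0) (nat_lit 0) (XT.nd (nat_lit 78) (nat_lit 0) (nat_lit 0) (XT.lf (nat_lit 0) (nat_lit 1322999260361) (nat_lit 76) (nat_lit 306886693848) (nat_lit 76) (nat_lit 306038010434) (nat_lit 1) (nat_lit 4) (nat_lit 2) (nat_lit 5) (nat_lit 2) (nat_lit 4) (nat_lit 510) (nat_lit 376) (nat_lit 314)) (XT.lf (nat_lit 0) (nat_lit 1450477410150) (nat_lit 76) (nat_lit 320167382890) (nat_lit 76) (nat_lit 319318162652)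 (nat_lit 1) (nat_lit 4) (nat_lit 2) (nat_lit 5) (nat_lit 2) (nat_lit 4) (nat_lit 511) (nat_lit 376) (nat_lit 313))) (XT.nd (nat_lit 78) (nat_lit 0) (nat_lit 0) (XT.lf (nat_lit 0) (nat_lit 1588128094379) (nat_lit 76) (nat_lit 334523840637) (nat_lit 76) (nat_lit 333674123339) (nat_lit 1) (nat_lit 4) (nat_lit 2) (nat_lit 5) (nat_lit 2) (nat_lit 4) (nat_lit 512) (nat_lit 376) (nat_lit 312)) (XT.lf (nat_lit 0) (nat_lit 1736767020805) (nat_lit 76) (nat_lit 350041142394) (nat_lit 76) (nat_lit 349190964856) (nat_lit 1) (nat_lit 4) (nat_lit 2) (nat_lit 5) (nat_lit 2) (nat_lit 4) (nat_lit 513) (nat_lit 376) (nat_lit 311))))) (XT.nd (nat_lit 234) (nat_lit 0) (nat_lit 0) (XT.nd (nat_lit 78) (nat_lit 0) (nat_lit 0) (XT.lf (nat_lit 0) (nat_lit 1897275012697) (nat_lit 76) (nat_lit 366811242541) (nat_lit 76) (nat_lit 365960638855) (nat_lit 1) (nat_lit 4) (nat_lit 2) (nat_lit 5) (nat_lit 2) (nat_lit 4) (nat_lit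 514) (nat_lit 376) (nat_lit 310)) (XT.nd (nat_lit 78) (nat_lit 0) (nat_lit 0) (XT.lf (nat_lit 0) (nat_lit 2070603228526) (nat_lit 76) (nat_lit 384933519451) (nat_lit 76) (nat_lit 384082521183) (nat_lit 1) (nat_lit 4) (nat_lit 2) (nat_lit 5) (nat_lit 2) (nat_lit 4) (nat_lit 515) (nat_lit 376) (nat_lit 309)) (XT.lf (nat_lit 0) (nat_lit 2257778798458) (nat_lit 76) (nat_lit 404515364393) (nat_lit 76) (nat_lit 403664000772) (nat_lit 1) (nat_lit 4) (nat_lit 2) (nat_lit 5) (nat_lit 2) (nat_lit 4) (nat_lit 516) (nat_lit 376) (nat_lit 308)))) (XT.nd (nat_lit 156) (nat_lit 0) (nat_lit 0) (XT.nd (nat_lit 78) (nat_lit 0) (nat_lit 0) (XT.lf (nat_lit 0) (nat_lit 2459910911058) (nat_lit 76) (nat_lit 425672817931) (nat_lit 76) (nat_lit 424821116019) (nat_lit 1) (nat_lit 4) (nat_lit 2) (nat_lit 5) (nat_lit 2) (nat_lit 4) (nat_lit 517) (nat_lit 376) (nat_lit 307)) (XT.lf (nat_lit 0) (nat_lit 2678197386250)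 (nat_lit 76) (nat_lit 448531257566) (nat_lit 76) (nat_lit 447679242423) (nat_lit 1) (nat_lit 4) (nat_lit 2) (nat_lit 5) (nat_lit 2) (nat_lit 4) (nat_lit 518) (nat_lit 376) (nat_lit 306))) (XT.nd (nat_lit 78) (nat_lit 0) (nat_lit 0) (XT.lf (nat_lit 0) (nat_lit 2913931773518) (nat_lit 76) (nat_lit 473226140719) (nat_lit 76) (nat_lit 472373835547) (nat_lit 1) (nat_lit 4) (nat_lit 2) (nat_lit 5) (nat_lit 2) (nat_lit 4) (nat_lit 519) (nat_lit 376) (nat_lit 305)) (XT.lf (nat_lit 0) (nat_lit 3168511017379) (nat_lit 76) (nat_lit 499903807438) (nat_lit 76) (nat_lit 499051233720) (nat_lit 1) (nat_lit 4) (nat_lit 2) (nat_lit 5) (nat_lit 2) (nat_lit 4) (nat_lit 520) (nat_lit 376) (nat_lit 304)))))) (XT.nd (nat_lit 546) (nat_lit 0) (nat_lit 0) (XT.nd (nat_lit 234) (nat_lit 0) (nat_lit 0) (XT.nd (nat_lit 78) (nat_lit 0) (nat_lit 0) (XT.lf (nat_lit 0) (nat_lit 3443443735575) (nat_lit 76) (nat_lit 528722347600)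 (nat_lit 76) (nat_lit 527869525228) (nat_lit 1) (nat_lit 4) (nat_lit 2) (nat_lit 5) (nat_lit 2) (nat_lit 4) (nat_lit 521) (nat_lit 376) (nat_lit 303)) (XT.nd (nat_lit 78) (nat_lit 0) (nat_lit 0) (XT.lf (nat_lit 0) (nat_lit 3740359159028) (nat_lit 76) (nat_lit 559852537739) (nat_lit 76) (nat_lit 558999485133) (nat_lit 1) (nat_lit 4) (nat_lit 2) (nat_lit 5) (nat_lit 2) (nat_lit 4) (nat_lit 522) (nat_lit 376) (nat_lit 302)) (XT.lf (nat_lit 0) (nat_lit 4061016786543) (nat_lit 76) (nat_lit 593478853056) (nat_lit 76) (nat_lit 592625587270) (nat_lit 1) (nat_lit 4) (nat_lit 2) (nat_lit 5) (nat_lit 2) (nat_lit 4) (nat_lit 523) (nat_lit 376) (nat_lit 301)))) (XT.nd (nat_lit 156) (nat_lit 0) (nat_lit 0) (XT.nd (nat_lit 78) (nat_lit 0) (nat_lit 0) (XT.lf (nat_lit 0) (nat_lit 4407316811469) (nat_lit 76) (nat_lit 629800560605) (nat_lit 76) (nat_lit 628947097430) (nat_lit 1) (nat_lit 4) (nat_lit 2) (nat_lit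 5) (nat_lit 2) (nat_lit 4) (nat_lit 524) (nat_lit 376) (nat_lit 300)) (XT.lf (nat_lit 0) (nat_lit 4781311382102) (nat_lit 76) (nat_lit 669032900134) (nat_lit 76) (nat_lit 668179254191) (nat_lit 1) (nat_lit 4) (nat_lit 2) (nat_lit 5) (nat_lit 2) (nat_lit 4) (nat_lit 525) (nat_lit 376) (nat_lit 299))) (XT.nd (nat_lit 78) (nat_lit 0) (nat_lit 0) (XT.lf (nat_lit 0) (nat_lit 5185216762563) (nat_lit 76) (nat_lit 711408359581) (nat_lit 76) (nat_lit 710554544409) (nat_lit 1) (nat_lit 4) (nat_lit 2) (nat_lit 5) (nat_lit 2) (nat_lit 4) (nat_lit 526) (nat_lit 376) (nat_lit 298)) (XT.lf (nat_lit 0) (nat_lit 5621426466220) (nat_lit 76) (nat_lit 757178052780) (nat_lit 76) (nat_lit 756324080915) (nat_lit 1) (nat_lit 4) (nat_lit 2) (nat_lit 5) (nat_lit 2) (nat_lit 4) (nat_lit 527) (nat_lit 376) (nat_lit 297))))) (XT.nd (nat_lit 312) (nat_lit 0) (nat_lit 0) (XT.nd (nat_lit 156) (nat_lit 0) (nat_lit 0) (XT.nd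 (nat_lit 78) (nat_lit 0) (nat_lit 0) (XT.lf (nat_lit 0) (nat_lit 6092525439463) (nat_lit 76) (nat_lit 806613207543) (nat_lit 76) (nat_lit 805759090590) (nat_lit 1) (nat_lit 4) (nat_lit 2) (nat_lit 5) (nat_lit 2) (nat_lit 4) (nat_lit 528) (nat_lit 376) (nat_lit 296)) (XT.lf (nat_lit 0) (nat_lit 6601305379912) (nat_lit 76) (nat_lit 860006772934) (nat_lit 76) (nat_lit 859152521642) (nat_lit 1) (nat_lit 4) (nat_lit 2) (nat_lit 5) (nat_lit 2) (nat_lit 4) (nat_lit 529) (nat_lit 376) (nat_lit 295))) (XT.nd (nat_lit 78) (nat_lit 0) (nat_lit 0) (XT.lf (nat_lit 0) (nat_lit 7150781279807) (nat_lit 76) (nat_lit 917675155268) (nat_lit 76) (nat_lit 916820779587) (nat_lit 1) (nat_lit 4) (nat_lit 2) (nat_lit 5) (nat_lit 2) (nat_lit 4) (nat_lit 530) (nat_lit 376) (nat_lit 294)) (XT.lf (nat_lit 0) (nat_lit 7744209292629) (nat_lit 76) (nat_lit 979960093105) (nat_lit 76) (nat_lit 979105602250) (nat_lit 1) (nat_lit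 4) (nat_lit 2) (nat_lit 5) (nat_lit 2) (nat_lit 4) (nat_lit 531) (nat_lit 376) (nat_lit 293)))) (XT.nd (nat_lit 156) (nat_lit 0) (nat_lit 0) (XT.nd (nat_lit 78) (nat_lit 0) (nat_lit 0) (XT.lf (nat_lit 0) (nat_lit 8385106028823) (nat_lit 76) (nat_lit 1047230682375) (nat_lit 76) (nat_lit 1046376084876) (nat_lit 1) (nat_lit 4) (nat_lit 2) (nat_lit 5) (nat_lit 2) (nat_lit 4) (nat_lit 532) (nat_lit 376) (nat_lit 292)) (XT.lf (nat_lit 0) (nat_lit 9077269394975) (nat_lit 76) (nat_lit 1119885563606) (nat_lit 76) (nat_lit 1119030867364) (nat_lit 1) (nat_lit 4) (nat_lit 2) (nat_lit 5) (nat_lit 2) (nat_lit 4) (nat_lit 533) (nat_lit 376) (nat_lit 291))) (XT.nd (nat_lit 78) (nat_lit 0) (nat_lit 0) (XT.lf (nat_lit 0) (nat_lit 9824801099921) (nat_lit 76) (nat_lit 1198355284242) (nat_lit 76) (nat_lit 1197500496570) (nat_lit 1) (nat_lit 4) (nat_lit 2) (nat_lit 5) (nat_lit 2) (nat_lit 4) (nat_lit 534) (nat_lit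 376) (nat_lit 290)) (XT.lf (nat_lit 0) (nat_lit 10632130961172) (nat_lit 76) (nat_lit 1283104850035) (nat_lit 76) (nat_lit 1282249977707) (nat_lit 1) (nat_lit 4) (nat_lit 2) (nat_lit 5) (nat_lit 2) (nat_lit 4) (nat_lit 535) (nat_lit 376) (nat_lit 289))))))))
noncomputable def xc43 : XT := (XT.nd (nat_lit 56862) (nat_lit 0) (nat_lit 0) (XT.nd (nat_lit 55770) (nat_lit 0) (nat_lit 532) (XT.nd (nat_lit 546) (nat_lit 0) (nat_lit 0) (XT.nd (nat_lit 234) (nat_lit 0) (nat_lit 0) (XT.nd (nat_lit 78) (nat_lit 0) (nat_lit 0) (XT.lf (nat_lit 0) (nat_lit 11504043155684) (nat_lit 76) (nat_lit 1374636480635) (nat_lit 76) (nat_lit 1373781529921) (nat_lit 1) (nat_lit 4) (nat_lit 2) (nat_lit 5) (nat_lit 2) (nat_lit 4) (nat_lit 536) (nat_lit 376) (nat_lit 288)) (XT.nd (nat_lit 78) (nat_lit 0) (nat_lit 0) (XT.lf (nat_lit 0) (nat_lit 12445704570535) (nat_lit 76) (nat_lit 1473492585705) (nat_lit 76) (nat_lit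 1472637562411) (nat_lit 1) (nat_lit 4) (nat_lit 2) (nat_lit 5) (nat_lit 2) (nat_lit 4) (nat_lit 537) (nat_lit 376) (nat_lit 287)) (XT.lf (nat_lit 0) (nat_lit 13462695421517) (nat_lit 76) (nat_lit 1580258979199) (nat_lit 76) (nat_lit 1579403888702) (nat_lit 1) (nat_lit 4) (nat_lit 2) (nat_lit 5) (nat_lit 2) (nat_lit 4) (nat_lit 538) (nat_lit 376) (nat_lit 286)))) (XT.nd (nat_lit 156) (nat_lit 0) (nat_lit 0) (XT.nd (nat_lit 78) (nat_lit 0) (nat_lit 0) (XT.lf (nat_lit 0) (nat_lit 14561042321079) (nat_lit 76) (nat_lit 1695568350858) (nat_lit 76) (nat_lit 1694713198135) (nat_lit 1) (nat_lit 4) (nat_lit 2) (nat_lit 5) (nat_lit 2) (nat_lit 4) (nat_lit 539) (nat_lit 376) (nat_lit 285)) (XT.lf (nat_lit 0) (nat_lit 15747253991591) (nat_lit 76) (nat_lit 1820104015476) (nat_lit 76) (nat_lit 1819248805138) (nat_lit 1) (nat_lit 4) (nat_lit 2) (nat_lit 5) (nat_lit 2) (nat_lit 4) (nat_lit 540) (nat_lit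 376) (nat_lit 284))) (XT.nd (nat_lit 78) (nat_lit 0) (nat_lit 0) (XT.lf (nat_lit 0) (nat_lit 17028359835543) (nat_lit 76) (nat_lit 1954603962178) (nat_lit 76) (nat_lit 1953748698491) (nat_lit 1) (nat_lit 4) (nat_lit 2) (nat_lit 5) (nat_lit 2) (nat_lit 4) (nat_lit 541) (nat_lit 376) (nat_lit 283)) (XT.lf (nat_lit 0) (nat_lit 18411951591271) (nat_lit 76) (nat_lit 2099865227684) (nat_lit 76) (nat_lit 2099009914601) (nat_lit 1) (nat_lit 4) (nat_lit 2) (nat_lit 5) (nat_lit 2) (nat_lit 4) (nat_lit 542) (nat_lit 376) (nat_lit 282))))) (XT.nd (nat_lit 54912) (nat_lit 0) (nat_lit 1444) (XT.nd (nat_lit 78) (nat_lit 0) (nat_lit 0) (XT.lf (nat_lit 0) (nat_lit 19906228321030) (nat_lit 76) (nat_lit 2256748619493) (nat_lit 76) (nat_lit 2255893260673) (nat_lit 1) (nat_lit 4) (nat_lit 2) (nat_lit 5) (nat_lit 2) (nat_lit 4) (nat_lit 543) (nat_lit 376) (nat_lit 281)) (XT.nd (nat_lit 78) (nat_lit 0) (nat_lit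 0) (XT.lf (nat_lit 0) (nat_lit 21520044998034) (nat_lit 76) (nat_lit 2426183816965) (nat_lit 76) (nat_lit 2425328415795) (nat_lit 1) (nat_lit 4) (nat_lit 2) (nat_lit 5) (nat_lit 2) (nat_lit 4) (nat_lit 544) (nat_lit 376) (nat_lit 280)) (XT.lf (nat_lit 0) (nat_lit 23262964980369) (nat_lit 76) (nat_lit 2609174880529) (nat_lit 76) (nat_lit 2608319440147) (nat_lit 1) (nat_lit 4) (nat_lit 2) (nat_lit 5) (nat_lit 2) (nat_lit 4) (nat_lit 545) (nat_lit 376) (nat_lit 279)))) (XT.nd (nat_lit 156) (nat_lit 152) (nat_lit 0) (XT.nd (nat_lit 78) (nat_lit 76) (nat_lit 0) (XT.lf (nat_lit 0) (nat_lit 2805477930) (nat_lit 152) (nat_lit 7081038720) (nat_lit 0) (nat_lit 2805477930) (nat_lit 23) (nat_lit 5) (nat_lit 25) (nat_lit 4) (nat_lit 23) (nat_lit 4) (nat_lit 446) (nat_lit 377) (nat_lit 377)) (XT.lf (nat_lit 0) (nat_lit 6703668350) (nat_lit 76) (nat_lit 9983984328) (nat_lit 76) (nat_lit 9866631166) (nat_lit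 22) (nat_lit 4) (nat_lit 23) (nat_lit 5) (nat_lit 23) (nat_lit 4) (nat_lit 447) (nat_lit 377) (nat_lit 376))) (XT.nd (nat_lit 78) (nat_lit 0) (nat_lit 0) (XT.lf (nat_lit 0) (nat_lit 669702156) (nat_lit 152) (nat_lit 26696146662) (nat_lit 0) (nat_lit 460430398) (nat_lit 20) (nat_lit 5) (nat_lit 22) (nat_lit 4) (nat_lit 20) (nat_lit 4) (nat_lit 448) (nat_lit 377) (nat_lit 375)) (XT.lf (nat_lit 0) (nat_lit 11775538358) (nat_lit 152) (nat_lit 5910116334) (nat_lit 0) (nat_lit 11473107877) (nat_lit 20) (nat_lit 5) (nat_lit 22) (nat_lit 4) (nat_lit 20) (nat_lit 4) (nat_lit 449) (nat_lit 377) (nat_lit 374)))))) (XT.nd (nat_lit 546) (nat_lit 380) (nat_lit 0) (XT.nd (nat_lit 234) (nat_lit 304) (nat_lit 0) (XT.nd (nat_lit 78) (nat_lit 152) (nat_lit 0) (XT.lf (nat_lit 0) (nat_lit 16296546310) (nat_lit 76) (nat_lit 7349929208) (nat_lit 76) (nat_lit 6961240649) (nat_lit 19) (nat_lit 4) (nat_lit 20) (nat_lit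 5) (nat_lit 20) (nat_lit 4) (nat_lit 450) (nat_lit 377) (nat_lit 373)) (XT.nd (nat_lit 78) (nat_lit 0) (nat_lit 0) (XT.lf (nat_lit 0) (nat_lit 4005509901) (nat_lit 152) (nat_lit 24593087877) (nat_lit 0) (nat_lit 3571660689) (nat_lit 17) (nat_lit 5) (nat_lit 19) (nat_lit 4) (nat_lit 17) (nat_lit 4) (nat_lit 451) (nat_lit 377) (nat_lit 372)) (XT.lf (nat_lit 0) (nat_lit 15551536563) (nat_lit 152) (nat_lit 3236349681) (nat_lit 0) (nat_lit 15049212908) (nat_lit 17) (nat_lit 5) (nat_lit 19) (nat_lit 4) (nat_lit 17) (nat_lit 4) (nat_lit 452) (nat_lit 377) (nat_lit 371)))) (XT.nd (nat_lit 156) (nat_lit 76) (nat_lit 0) (XT.nd (nat_lit 78) (nat_lit 152) (nat_lit 0) (XT.lf (nat_lit 0) (nat_lit 19841445563) (nat_lit 76) (nat_lit 8180746695) (nat_lit 76) (nat_lit 7615020777) (nat_lit 16) (nat_lit 4) (nat_lit 17) (nat_lit 5) (nat_lit 17) (nat_lit 4) (nat_lit 453) (nat_lit 377) (nat_lit 370)) (XT.lf (nat_lit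 0) (nat_lit 3563446104) (nat_lit 152) (nat_lit 31037114828) (nat_lit 0) (nat_lit 2985268590) (nat_lit 14) (nat_lit 5) (nat_lit 16) (nat_lit 4) (nat_lit 14) (nat_lit 4) (nat_lit 454) (nat_lit 377) (nat_lit 369))) (XT.nd (nat_lit 78) (nat_lit 76) (nat_lit 0) (XT.lf (nat_lit 0) (nat_lit 15404834725) (nat_lit 152) (nat_lit 9478947814) (nat_lit 0) (nat_lit 14776326451) (nat_lit 14) (nat_lit 5) (nat_lit 16) (nat_lit 4) (nat_lit 14) (nat_lit 4) (nat_lit 455) (nat_lit 377) (nat_lit 368)) (XT.lf (nat_lit 0) (nat_lit 13574848395) (nat_lit 76) (nat_lit 14504850662) (nat_lit 76) (nat_lit 13829739832) (nat_lit 13) (nat_lit 4) (nat_lit 14) (nat_lit 5) (nat_lit 14) (nat_lit 4) (nat_lit 456) (nat_lit 377) (nat_lit 367))))) (XT.nd (nat_lit 234) (nat_lit 228) (nat_lit 0) (XT.nd (nat_lit 78) (nat_lit 152) (nat_lit 0) (XT.lf (nat_lit 0) (nat_lit 38126921098) (nat_lit 76) (nat_lit 3471820717) (nat_lit 76) (nat_lit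 2753559373) (nat_lit 13) (nat_lit 4) (nat_lit 14) (nat_lit 5) (nat_lit 14) (nat_lit 4) (nat_lit 457) (nat_lit 377) (nat_lit 366)) (XT.nd (nat_lit 78) (nat_lit 0) (nat_lit 0) (XT.lf (nat_lit 0) (nat_lit 8969848492) (nat_lit 152) (nat_lit 29717487084) (nat_lit 0) (nat_lit 8267797082) (nat_lit 11) (nat_lit 5) (nat_lit 13) (nat_lit 4) (nat_lit 11) (nat_lit 4) (nat_lit 458) (nat_lit 377) (nat_lit 365)) (XT.lf (nat_lit 0) (nat_lit 21339960855) (nat_lit 152) (nat_lit 7828246199) (nat_lit 0) (nat_lit 20603655175) (nat_lit 11) (nat_lit 5) (nat_lit 13) (nat_lit 4) (nat_lit 11) (nat_lit 4) (nat_lit 459) (nat_lit 377) (nat_lit 364)))) (XT.nd (nat_lit 156) (nat_lit 152) (nat_lit 0) (XT.nd (nat_lit 78) (nat_lit 0) (nat_lit 0) (XT.lf (nat_lit 0) (nat_lit 15824762416) (nat_lit 76) (nat_lit 18878454220) (nat_lit 76) (nat_lit 18110431624) (nat_lit 10) (nat_lit 4) (nat_lit 11) (nat_lit 5) (nat_lit 11) (nat_lit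 4) (nat_lit 460) (nat_lit 377) (nat_lit 363)) (XT.lf (nat_lit 0) (nat_lit 41055942046) (nat_lit 76) (nat_lit 7926246773) (nat_lit 76) (nat_lit 7128856662) (nat_lit 10) (nat_lit 4) (nat_lit 11) (nat_lit 5) (nat_lit 11) (nat_lit 4) (nat_lit 461) (nat_lit 377) (nat_lit 362))) (XT.nd (nat_lit 78) (nat_lit 0) (nat_lit 0) (XT.lf (nat_lit 0) (nat_lit 4435959490) (nat_lit 152) (nat_lit 51559404043) (nat_lit 0) (nat_lit 3672457402) (nat_lit 8) (nat_lit 5) (nat_lit 10) (nat_lit 4) (nat_lit 8) (nat_lit 4) (nat_lit 462) (nat_lit 377) (nat_lit 361)) (XT.lf (nat_lit 0) (nat_lit 16820223680) (nat_lit 152) (nat_lit 30618340952) (nat_lit 0) (nat_lit 16033408712) (nat_lit 8) (nat_lit 5) (nat_lit 10) (nat_lit 4) (nat_lit 8) (nat_lit 4) (nat_lit 463) (nat_lit 377) (nat_lit 360))))))) (XT.nd (nat_lit 1092) (nat_lit 228) (nat_lit 0) (XT.nd (nat_lit 546) (nat_lit 76) (nat_lit 0) (XT.nd (nat_lit 234) (nat_lit 152)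 (nat_lit 0) (XT.nd (nat_lit 78) (nat_lit 76) (nat_lit 0) (XT.lf (nat_lit 0) (nat_lit 29872270350) (nat_lit 152) (nat_lit 8670155484) (nat_lit 0) (nat_lit 29063869382) (nat_lit 8) (nat_lit 5) (nat_lit 10) (nat_lit 4) (nat_lit 8) (nat_lit 4) (nat_lit 464) (nat_lit 377) (nat_lit 359)) (XT.nd (nat_lit 78) (nat_lit 0) (nat_lit 0) (XT.lf (nat_lit 0) (nat_lit 15174295393) (nat_lit 76) (nat_lit 28860091736) (nat_lit 76) (nat_lit 28031703731) (nat_lit 7) (nat_lit 4) (nat_lit 8) (nat_lit 5) (nat_lit 8) (nat_lit 4) (nat_lit 465) (nat_lit 377) (nat_lit 358)) (XT.lf (nat_lit 0) (nat_lit 40816375135) (nat_lit 76) (nat_lit 18458768214) (nat_lit 76) (nat_lit 17611873693) (nat_lit 7) (nat_lit 4) (nat_lit 8) (nat_lit 5) (nat_lit 8) (nat_lit 4) (nat_lit 466) (nat_lit 377) (nat_lit 357)))) (XT.nd (nat_lit 156) (nat_lit 0) (nat_lit 0) (XT.nd (nat_lit 78) (nat_lit 152) (nat_lit 0) (XT.lf (nat_lit 0) (nat_lit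 67951481785) (nat_lit 76) (nat_lit 7513875211) (nat_lit 76) (nat_lit 6649845026) (nat_lit 7) (nat_lit 4) (nat_lit 8) (nat_lit 5) (nat_lit 8) (nat_lit 4) (nat_lit 467) (nat_lit 377) (nat_lit 356)) (XT.lf (nat_lit 0) (nat_lit 5003101577) (nat_lit 152) (nat_lit 78554291111) (nat_lit 0) (nat_lit 4188382560) (nat_lit 5) (nat_lit 5) (nat_lit 7) (nat_lit 4) (nat_lit 5) (nat_lit 4) (nat_lit 468) (nat_lit 377) (nat_lit 355))) (XT.nd (nat_lit 78) (nat_lit 0) (nat_lit 0) (XT.lf (nat_lit 0) (nat_lit 17565320546) (nat_lit 152) (nat_lit 59483753522) (nat_lit 0) (nat_lit 16736998687) (nat_lit 5) (nat_lit 5) (nat_lit 7) (nat_lit 4) (nat_lit 5) (nat_lit 4) (nat_lit 469) (nat_lit 377) (nat_lit 354)) (XT.lf (nat_lit 0) (nat_lit 30895309122) (nat_lit 152) (nat_lit 39378869871) (nat_lit 0) (nat_lit 30054392039) (nat_lit 5) (nat_lit 5) (nat_lit 7) (nat_lit 4) (nat_lit 5) (nat_lit 4) (nat_lit 470) (nat_lit 377)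 (nat_lit 353))))) (XT.nd (nat_lit 234) (nat_lit 0) (nat_lit 0) (XT.nd (nat_lit 78) (nat_lit 76) (nat_lit 0) (XT.lf (nat_lit 0) (nat_lit 45072059830) (nat_lit 152) (nat_lit 18120500105) (nat_lit 0) (nat_lit 44219480503) (nat_lit 5) (nat_lit 5) (nat_lit 7) (nat_lit 4) (nat_lit 5) (nat_lit 4) (nat_lit 471) (nat_lit 377) (nat_lit 352)) (XT.nd (nat_lit 78) (nat_lit 0) (nat_lit 0) (XT.lf (nat_lit 0) (nat_lit 4649940135) (nat_lit 76) (nat_lit 55641474081) (nat_lit 76) (nat_lit 54778096380) (nat_lit 4) (nat_lit 4) (nat_lit 5) (nat_lit 5) (nat_lit 5) (nat_lit 4) (nat_lit 472) (nat_lit 377) (nat_lit 351)) (XT.lf (nat_lit 0) (nat_lit 29862000042) (nat_lit 76) (nat_lit 47163586606) (nat_lit 76) (nat_lit 46290210410) (nat_lit 4) (nat_lit 4) (nat_lit 5) (nat_lit 5) (nat_lit 5) (nat_lit 4) (nat_lit 473) (nat_lit 377) (nat_lit 350)))) (XT.nd (nat_lit 156) (nat_lit 0) (nat_lit 0) (XT.nd (nat_lit 78) (nat_lit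 0) (nat_lit 0) (XT.lf (nat_lit 0) (nat_lit 56710890991) (nat_lit 76) (nat_lit 38204104762) (nat_lit 76) (nat_lit 37321470701) (nat_lit 4) (nat_lit 4) (nat_lit 5) (nat_lit 5) (nat_lit 5) (nat_lit 4) (nat_lit 474) (nat_lit 377) (nat_lit 349)) (XT.lf (nat_lit 0) (nat_lit 85355717521) (nat_lit 76) (nat_lit 28709935324) (nat_lit 76) (nat_lit 27818729165) (nat_lit 4) (nat_lit 4) (nat_lit 5) (nat_lit 5) (nat_lit 5) (nat_lit 4) (nat_lit 475) (nat_lit 377) (nat_lit 348))) (XT.nd (nat_lit 78) (nat_lit 0) (nat_lit 0) (XT.lf (nat_lit 0) (nat_lit 115966226752) (nat_lit 76) (nat_lit 18624816547) (nat_lit 76) (nat_lit 17725673260) (nat_lit 4) (nat_lit 4) (nat_lit 5) (nat_lit 5) (nat_lit 5) (nat_lit 4) (nat_lit 476) (nat_lit 377) (nat_lit 347)) (XT.lf (nat_lit 0) (nat_lit 148723814294) (nat_lit 76) (nat_lit 7888984763) (nat_lit 76) (nat_lit 6982492285) (nat_lit 4) (nat_lit 4) (nat_lit 5) (nat_lit 5) (nat_lit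 5) (nat_lit 4) (nat_lit 477) (nat_lit 377) (nat_lit 346)))))) (XT.nd (nat_lit 546) (nat_lit 76) (nat_lit 0) (XT.nd (nat_lit 234) (nat_lit 0) (nat_lit 0) (XT.nd (nat_lit 78) (nat_lit 0) (nat_lit 0) (XT.lf (nat_lit 0) (nat_lit 4545010409) (nat_lit 152) (nat_lit 167510409088) (nat_lit 0) (nat_lit 3699364774) (nat_lit 2) (nat_lit 5) (nat_lit 4) (nat_lit 4) (nat_lit 2) (nat_lit 4) (nat_lit 478) (nat_lit 377) (nat_lit 345)) (XT.nd (nat_lit 78) (nat_lit 0) (nat_lit 0) (XT.lf (nat_lit 0) (nat_lit 17101233113) (nat_lit 152) (nat_lit 155482840690) (nat_lit 0) (nat_lit 16249753452) (nat_lit 2) (nat_lit 5) (nat_lit 4) (nat_lit 4) (nat_lit 2) (nat_lit 4) (nat_lit 479) (nat_lit 377) (nat_lit 344)) (XT.lf (nat_lit 0) (nat_lit 30533873211) (nat_lit 152) (nat_lit 142758575371) (nat_lit 0) (nat_lit 29676991675) (nat_lit 2) (nat_lit 5) (nat_lit 4) (nat_lit 4) (nat_lit 2) (nat_lit 4) (nat_lit 480) (nat_lit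 377) (nat_lit 343)))) (XT.nd (nat_lit 156) (nat_lit 0) (nat_lit 0) (XT.nd (nat_lit 78) (nat_lit 0) (nat_lit 0) (XT.lf (nat_lit 0) (nat_lit 44922531533) (nat_lit 152) (nat_lit 129262210078) (nat_lit 0) (nat_lit 44060648260) (nat_lit 2) (nat_lit 5) (nat_lit 4) (nat_lit 4) (nat_lit 2) (nat_lit 4) (nat_lit 481) (nat_lit 377) (nat_lit 342)) (XT.lf (nat_lit 0) (nat_lit 60352474202) (nat_lit 152) (nat_lit 114913766350) (nat_lit 0) (nat_lit 59485959692) (nat_lit 2) (nat_lit 5) (nat_lit 4) (nat_lit 4) (nat_lit 2) (nat_lit 4) (nat_lit 482) (nat_lit 377) (nat_lit 341))) (XT.nd (nat_lit 78) (nat_lit 0) (nat_lit 0) (XT.lf (nat_lit 0) (nat_lit 76915137916) (nat_lit 152) (nat_lit 99628216371) (nat_lit 0) (nat_lit 76044335222) (nat_lit 2) (nat_lit 5) (nat_lit 4) (nat_lit 4) (nat_lit 2) (nat_lit 4) (nat_lit 483) (nat_lit 377) (nat_lit 340)) (XT.lf (nat_lit 0) (nat_lit 94708671793) (nat_lit 152) (nat_lit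 83314979106) (nat_lit 0) (nat_lit 93833898559) (nat_lit 2) (nat_lit 5) (nat_lit 4) (nat_lit 4) (nat_lit 2) (nat_lit 4) (nat_lit 484) (nat_lit 377) (nat_lit 339))))) (XT.nd (nat_lit 312) (nat_lit 76) (nat_lit 0) (XT.nd (nat_lit 156) (nat_lit 0) (nat_lit 0) (XT.nd (nat_lit 78) (nat_lit 0) (nat_lit 0) (XT.lf (nat_lit 0) (nat_lit 113838518997) (nat_lit 152) (nat_lit 65877383517) (nat_lit 0) (nat_lit 112960069337) (nat_lit 2) (nat_lit 5) (nat_lit 4) (nat_lit 4) (nat_lit 2) (nat_lit 4) (nat_lit 485) (nat_lit 377) (nat_lit 338)) (XT.lf (nat_lit 0) (nat_lit 134418041584) (nat_lit 152) (nat_lit 47212095706) (nat_lit 0) (nat_lit 133536187827) (nat_lit 2) (nat_lit 5) (nat_lit 4) (nat_lit 4) (nat_lit 2) (nat_lit 4) (nat_lit 486) (nat_lit 377) (nat_lit 337))) (XT.nd (nat_lit 78) (nat_lit 0) (nat_lit 0) (XT.lf (nat_lit 0) (nat_lit 156569192283) (nat_lit 152) (nat_lit 27208506560) (nat_lit 0) (nat_lit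 155684186583) (nat_lit 2) (nat_lit 5) (nat_lit 4) (nat_lit 4) (nat_lit 2) (nat_lit 4) (nat_lit 487) (nat_lit 377) (nat_lit 336)) (XT.lf (nat_lit 0) (nat_lit 180423237170) (nat_lit 152) (nat_lit 5748076291) (nat_lit 0) (nat_lit 179535313005) (nat_lit 2) (nat_lit 5) (nat_lit 4) (nat_lit 4) (nat_lit 2) (nat_lit 4) (nat_lit 488) (nat_lit 377) (nat_lit 335)))) (XT.nd (nat_lit 156) (nat_lit 0) (nat_lit 0) (XT.nd (nat_lit 78) (nat_lit 0) (nat_lit 0) (XT.lf (nat_lit 0) (nat_lit 18207164109) (nat_lit 76) (nat_lit 188352252174) (nat_lit 76) (nat_lit 187461625726) (nat_lit 1) (nat_lit 4) (nat_lit 2) (nat_lit 5) (nat_lit 2) (nat_lit 4) (nat_lit 489) (nat_lit 377) (nat_lit 334)) (XT.lf (nat_lit 0) (nat_lit 44276264096) (nat_lit 76) (nat_lit 190604948740) (nat_lit 76) (nat_lit 189711820179) (nat_lit 1) (nat_lit 4) (nat_lit 2) (nat_lit 5) (nat_lit 2) (nat_lit 4) (nat_lit 490) (nat_lit 377) (nat_lit 333)))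 (XT.nd (nat_lit 78) (nat_lit 0) (nat_lit 0) (XT.lf (nat_lit 0) (nat_lit 72311023715) (nat_lit 76) (nat_lit 193099915064) (nat_lit 76) (nat_lit 192204469731) (nat_lit 1) (nat_lit 4) (nat_lit 2) (nat_lit 5) (nat_lit 2) (nat_lit 4) (nat_lit 491) (nat_lit 377) (nat_lit 332)) (XT.lf (nat_lit 0) (nat_lit 102477574873) (nat_lit 76) (nat_lit 195851936132) (nat_lit 76) (nat_lit 194954345640) (nat_lit 1) (nat_lit 4) (nat_lit 2) (nat_lit 5) (nat_lit 2) (nat_lit 4) (nat_lit 492) (nat_lit 377) (nat_lit 331))))))))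
noncomputable def xc44 : XT := (XT.nd (nat_lit 2184) (nat_lit 0) (nat_lit 0) (XT.nd (nat_lit 1092) (nat_lit 0) (nat_lit 0) (XT.nd (nat_lit 546) (nat_lit 0) (nat_lit 0) (XT.nd (nat_lit 234) (nat_lit 0) (nat_lit 0) (XT.nd (nat_lit 78) (nat_lit 0) (nat_lit 0) (XT.lf (nat_lit 0) (nat_lit 134954682319) (nat_lit 76) (nat_lit 198877320217) (nat_lit 76) (nat_lit 197977743466) (nat_lit 1) (nat_lit 4) (nat_lit 2) (nat_lit 5) (nat_lit 2) (nat_lit 4) (nat_lit 493) (nat_lit 377) (nat_lit 330)) (XT.nd (nat_lit 78) (nat_lit 0) (nat_lit 0) (XT.lf (nat_lit 0) (nat_lit 169934802986) (nat_lit 76) (nat_lit 202193995520) (nat_lit 76) (nat_lit 201292579641) (nat_lit 1) (nat_lit 4) (nat_lit 2) (nat_lit 5) (nat_lit 2) (nat_lit 4) (nat_lit 494) (nat_lit 377) (nat_lit 329)) (XT.lf (nat_lit 0) (nat_lit 207625226478) (nat_lit 76) (nat_lit 205821616414) (nat_lit 76) (nat_lit 204918497639) (nat_lit 1) (nat_lit 4) (nat_lit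 2) (nat_lit 5) (nat_lit 2) (nat_lit 4) (nat_lit 495) (nat_lit 377) (nat_lit 328)))) (XT.nd (nat_lit 156) (nat_lit 0) (nat_lit 0) (XT.nd (nat_lit 78) (nat_lit 0) (nat_lit 0) (XT.lf (nat_lit 0) (nat_lit 248249303451) (nat_lit 76) (nat_lit 209781679912) (nat_lit 76) (nat_lit 208876984380) (nat_lit 1) (nat_lit 4) (nat_lit 2) (nat_lit 5) (nat_lit 2) (nat_lit 4) (nat_lit 496) (nat_lit 377) (nat_lit 327)) (XT.lf (nat_lit 0) (nat_lit 292047769178) (nat_lit 76) (nat_lit 214097653056) (nat_lit 76) (nat_lit 213191497565) (nat_lit 1) (nat_lit 4) (nat_lit 2) (nat_lit 5) (nat_lit 2) (nat_lit 4) (nat_lit 497) (nat_lit 377) (nat_lit 326))) (XT.nd (nat_lit 78) (nat_lit 0) (nat_lit 0) (XT.lf (nat_lit 0) (nat_lit 339280170122) (nat_lit 76) (nat_lit 218795111984) (nat_lit 76) (nat_lit 217887604679) (nat_lit 1) (nat_lit 4) (nat_lit 2) (nat_lit 5) (nat_lit 2) (nat_lit 4) (nat_lit 498) (nat_lit 377) (nat_lit 325))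 (XT.lf (nat_lit 0) (nat_lit 390226401992) (nat_lit 76) (nat_lit 223901893489) (nat_lit 76) (nat_lit 222993134504) (nat_lit 1) (nat_lit 4) (nat_lit 2) (nat_lit 5) (nat_lit 2) (nat_lit 4) (nat_lit 499) (nat_lit 377) (nat_lit 324))))) (XT.nd (nat_lit 234) (nat_lit 0) (nat_lit 0) (XT.nd (nat_lit 78) (nat_lit 0) (nat_lit 0) (XT.lf (nat_lit 0) (nat_lit 445188368385) (nat_lit 76) (nat_lit 229448259980) (nat_lit 76) (nat_lit 228538342033) (nat_lit 1) (nat_lit 4) (nat_lit 2) (nat_lit 5) (nat_lit 2) (nat_lit 4) (nat_lit 500) (nat_lit 377) (nat_lit 323)) (XT.nd (nat_lit 78) (nat_lit 0) (nat_lit 0) (XT.lf (nat_lit 0) (nat_lit 504491769841) (nat_lit 76) (nat_lit 235467078815) (nat_lit 76) (nat_lit 234556087754) (nat_lit 1) (nat_lit 4) (nat_lit 2) (nat_lit 5) (nat_lit 2) (nat_lit 4) (nat_lit 501) (nat_lit 377) (nat_lit 322)) (XT.lf (nat_lit 0) (nat_lit 568488033926) (nat_lit 76) (nat_lit 241994017068)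 (nat_lit 76) (nat_lit 241082032383) (nat_lit 1) (nat_lit 4) (nat_lit 2) (nat_lit 5) (nat_lit 2) (nat_lit 4) (nat_lit 502) (nat_lit 377) (nat_lit 321)))) (XT.nd (nat_lit 156) (nat_lit 0) (nat_lit 0) (XT.nd (nat_lit 78) (nat_lit 0) (nat_lit 0) (XT.lf (nat_lit 0) (nat_lit 637556397759) (nat_lit 76) (nat_lit 249067752890) (nat_lit 76) (nat_lit 248154848184) (nat_lit 1) (nat_lit 4) (nat_lit 2) (nat_lit 5) (nat_lit 2) (nat_lit 4) (nat_lit 503) (nat_lit 377) (nat_lit 320)) (XT.lf (nat_lit 0) (nat_lit 712106155349) (nat_lit 76) (nat_lit 256730204718) (nat_lit 76) (nat_lit 255816448139) (nat_lit 1) (nat_lit 4) (nat_lit 2) (nat_lit 5) (nat_lit 2) (nat_lit 4) (nat_lit 504) (nat_lit 377) (nat_lit 319))) (XT.nd (nat_lit 78) (nat_lit 0) (nat_lit 0) (XT.lf (nat_lit 0) (nat_lit 792579083037) (nat_lit 76) (nat_lit 265026779673) (nat_lit 76) (nat_lit 264112234323) (nat_lit 1) (nat_lit 4) (nat_lit 2) (nat_lit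 5) (nat_lit 2) (nat_lit 4) (nat_lit 505) (nat_lit 377) (nat_lit 318)) (XT.lf (nat_lit 0) (nat_lit 879452057431) (nat_lit 76) (nat_lit 274006642643) (nat_lit 76) (nat_lit 273091366950) (nat_lit 1) (nat_lit 4) (nat_lit 2) (nat_lit 5) (nat_lit 2) (nat_lit 4) (nat_lit 506) (nat_lit 377) (nat_lit 317)))))) (XT.nd (nat_lit 546) (nat_lit 0) (nat_lit 0) (XT.nd (nat_lit 234) (nat_lit 0) (nat_lit 0) (XT.nd (nat_lit 78) (nat_lit 0) (nat_lit 0) (XT.lf (nat_lit 0) (nat_lit 973239881343) (nat_lit 76) (nat_lit 283723007631) (nat_lit 76) (nat_lit 282807055695) (nat_lit 1) (nat_lit 4) (nat_lit 2) (nat_lit 5) (nat_lit 2) (nat_lit 4) (nat_lit 507) (nat_lit 377) (nat_lit 316)) (XT.nd (nat_lit 78) (nat_lit 0) (nat_lit 0) (XT.lf (nat_lit 0) (nat_lit 1074498334470) (nat_lit 76) (nat_lit 294233453097) (nat_lit 76) (nat_lit 293316875009) (nat_lit 1) (nat_lit 4) (nat_lit 2) (nat_lit 5) (nat_lit 2) (nat_lit 4) (nat_lit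 508) (nat_lit 377) (nat_lit 315)) (XT.lf (nat_lit 0) (nat_lit 1183827466904) (nat_lit 76) (nat_lit 305600263162) (nat_lit 76) (nat_lit 304683105304) (nat_lit 1) (nat_lit 4) (nat_lit 2) (nat_lit 5) (nat_lit 2) (nat_lit 4) (nat_lit 509) (nat_lit 377) (nat_lit 314)))) (XT.nd (nat_lit 156) (nat_lit 0) (nat_lit 0) (XT.nd (nat_lit 78) (nat_lit 0) (nat_lit 0) (XT.lf (nat_lit 0) (nat_lit 1301875154986) (nat_lit 76) (nat_lit 317890796699) (nat_lit 76) (nat_lit 316973102018) (nat_lit 1) (nat_lit 4) (nat_lit 2) (nat_lit 5) (nat_lit 2) (nat_lit 4) (nat_lit 510) (nat_lit 377) (nat_lit 313)) (XT.lf (nat_lit 0) (nat_lit 1429340940571) (nat_lit 76) (nat_lit 331177886501) (nat_lit 76) (nat_lit 330259694761) (nat_lit 1) (nat_lit 4) (nat_lit 2) (nat_lit 5) (nat_lit 2) (nat_lit 4) (nat_lit 511) (nat_lit 377) (nat_lit 312))) (XT.nd (nat_lit 78) (nat_lit 0) (nat_lit 0) (XT.lf (nat_lit 0) (nat_lit 1566980176463)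 (nat_lit 76) (nat_lit 345540270878) (nat_lit 76) (nat_lit 344621618897) (nat_lit 1) (nat_lit 4) (nat_lit 2) (nat_lit 5) (nat_lit 2) (nat_lit 4) (nat_lit 512) (nat_lit 377) (nat_lit 311)) (XT.lf (nat_lit 0) (nat_lit 1715608502578) (nat_lit 76) (nat_lit 361063060255) (nat_lit 76) (nat_lit 360143982126) (nat_lit 1) (nat_lit 4) (nat_lit 2) (nat_lit 5) (nat_lit 2) (nat_lit 4) (nat_lit 513) (nat_lit 377) (nat_lit 310))))) (XT.nd (nat_lit 234) (nat_lit 0) (nat_lit 0) (XT.nd (nat_lit 78) (nat_lit 0) (nat_lit 0) (XT.lf (nat_lit 0) (nat_lit 1876106679367) (nat_lit 76) (nat_lit 377838241533) (nat_lit 76) (nat_lit 376918768822) (nat_lit 1) (nat_lit 4) (nat_lit 2) (nat_lit 5) (nat_lit 2) (nat_lit 4) (nat_lit 514) (nat_lit 377) (nat_lit 309)) (XT.nd (nat_lit 78) (nat_lit 0) (nat_lit 0) (XT.lf (nat_lit 0) (nat_lit 2049425807137) (nat_lit 76) (nat_lit 395965223192) (nat_lit 76) (nat_lit 395045385128) (nat_lit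 1) (nat_lit 4) (nat_lit 2) (nat_lit 5) (nat_lit 2) (nat_lit 4) (nat_lit 515) (nat_lit 377) (nat_lit 308)) (XT.lf (nat_lit 0) (nat_lit 2236592962200) (nat_lit 76) (nat_lit 415551424385) (nat_lit 76) (nat_lit 414631248030) (nat_lit 1) (nat_lit 4) (nat_lit 2) (nat_lit 5) (nat_lit 2) (nat_lit 4) (nat_lit 516) (nat_lit 377) (nat_lit 307)))) (XT.nd (nat_lit 156) (nat_lit 0) (nat_lit 0) (XT.nd (nat_lit 78) (nat_lit 0) (nat_lit 0) (XT.lf (nat_lit 0) (nat_lit 2438717283254) (nat_lit 76) (nat_lit 436712911487) (nat_lit 76) (nat_lit 435792421901) (nat_lit 1) (nat_lit 4) (nat_lit 2) (nat_lit 5) (nat_lit 2) (nat_lit 4) (nat_lit 517) (nat_lit 377) (nat_lit 306)) (XT.lf (nat_lit 0) (nat_lit 2656996544052) (nat_lit 76) (nat_lit 459575085904) (nat_lit 76) (nat_lit 458654306289) (nat_lit 1) (nat_lit 4) (nat_lit 2) (nat_lit 5) (nat_lit 2) (nat_lit 4) (nat_lit 518) (nat_lit 377) (nat_lit 305))) (XT.nd (nat_lit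 78) (nat_lit 0) (nat_lit 0) (XT.lf (nat_lit 0) (nat_lit 2892724251326) (nat_lit 76) (nat_lit 484273427189) (nat_lit 76) (nat_lit 483352379028) (nat_lit 1) (nat_lit 4) (nat_lit 2) (nat_lit 5) (nat_lit 2) (nat_lit 4) (nat_lit 519) (nat_lit 377) (nat_lit 304)) (XT.lf (nat_lit 0) (nat_lit 3147297310007) (nat_lit 76) (nat_lit 510954295881) (nat_lit 76) (nat_lit 510032999067) (nat_lit 1) (nat_lit 4) (nat_lit 2) (nat_lit 5) (nat_lit 2) (nat_lit 4) (nat_lit 520) (nat_lit 377) (nat_lit 303))))))) (XT.nd (nat_lit 1092) (nat_lit 0) (nat_lit 0) (XT.nd (nat_lit 546) (nat_lit 0) (nat_lit 0) (XT.nd (nat_lit 234) (nat_lit 0) (nat_lit 0) (XT.nd (nat_lit 78) (nat_lit 0) (nat_lit 0) (XT.lf (nat_lit 0) (nat_lit 3422224301184) (nat_lit 76) (nat_lit 539775800834) (nat_lit 76) (nat_lit 538854273785) (nat_lit 1) (nat_lit 4) (nat_lit 2) (nat_lit 5) (nat_lit 2) (nat_lit 4) (nat_lit 521) (nat_lit 377) (nat_lit 302))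 (XT.nd (nat_lit 78) (nat_lit 0) (nat_lit 0) (XT.lf (nat_lit 0) (nat_lit 3719134421841) (nat_lit 76) (nat_lit 570908736149) (nat_lit 76) (nat_lit 569986995920) (nat_lit 1) (nat_lit 4) (nat_lit 2) (nat_lit 5) (nat_lit 2) (nat_lit 4) (nat_lit 522) (nat_lit 377) (nat_lit 301)) (XT.lf (nat_lit 0) (nat_lit 4039787139361) (nat_lit 76) (nat_lit 604537593297) (nat_lit 76) (nat_lit 603615655678) (nat_lit 1) (nat_lit 4) (nat_lit 2) (nat_lit 5) (nat_lit 2) (nat_lit 4) (nat_lit 523) (nat_lit 377) (nat_lit 300)))) (XT.nd (nat_lit 156) (nat_lit 0) (nat_lit 0) (XT.nd (nat_lit 78) (nat_lit 0) (nat_lit 0) (XT.lf (nat_lit 0) (nat_lit 4386082617995) (nat_lit 76) (nat_lit 640861654392) (nat_lit 76) (nat_lit 639939534006) (nat_lit 1) (nat_lit 4) (nat_lit 2) (nat_lit 5) (nat_lit 2) (nat_lit 4) (nat_lit 524) (nat_lit 377) (nat_lit 299)) (XT.lf (nat_lit 0) (nat_lit 4760072979099) (nat_lit 76) (nat_lit 680096173130)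 (nat_lit 76) (nat_lit 679173883515) (nat_lit 1) (nat_lit 4) (nat_lit 2) (nat_lit 5) (nat_lit 2) (nat_lit 4) (nat_lit 525) (nat_lit 377) (nat_lit 298))) (XT.nd (nat_lit 78) (nat_lit 0) (nat_lit 0) (XT.lf (nat_lit 0) (nat_lit 5163974461848) (nat_lit 76) (nat_lit 722473650364) (nat_lit 76) (nat_lit 721551204055) (nat_lit 1) (nat_lit 4) (nat_lit 2) (nat_lit 5) (nat_lit 2) (nat_lit 4) (nat_lit 526) (nat_lit 377) (nat_lit 297)) (XT.lf (nat_lit 0) (nat_lit 5600180556511) (nat_lit 76) (nat_lit 768245211884) (nat_lit 76) (nat_lit 767322620489) (nat_lit 1) (nat_lit 4) (nat_lit 2) (nat_lit 5) (nat_lit 2) (nat_lit 4) (nat_lit 527) (nat_lit 377) (nat_lit 296))))) (XT.nd (nat_lit 234) (nat_lit 0) (nat_lit 0) (XT.nd (nat_lit 78) (nat_lit 0) (nat_lit 0) (XT.lf (nat_lit 0) (nat_lit 6071276188094) (nat_lit 76) (nat_lit 817682096574) (nat_lit 76) (nat_lit 816759370838) (nat_lit 1) (nat_lit 4) (nat_lit 2) (nat_lit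 5) (nat_lit 2) (nat_lit 4) (nat_lit 528) (nat_lit 377) (nat_lit 295)) (XT.nd (nat_lit 78) (nat_lit 0) (nat_lit 0) (XT.lf (nat_lit 0) (nat_lit 6580053034413) (nat_lit 76) (nat_lit 871077263749) (nat_lit 76) (nat_lit 870154413625) (nat_lit 1) (nat_lit 4) (nat_lit 2) (nat_lit 5) (nat_lit 2) (nat_lit 4) (nat_lit 529) (nat_lit 377) (nat_lit 294)) (XT.lf (nat_lit 0) (nat_lit 7129526069373) (nat_lit 76) (nat_lit 928747129216) (nat_lit 76) (nat_lit 927824163918) (nat_lit 1) (nat_lit 4) (nat_lit 2) (nat_lit 5) (nat_lit 2) (nat_lit 4) (nat_lit 530) (nat_lit 377) (nat_lit 293)))) (XT.nd (nat_lit 156) (nat_lit 0) (nat_lit 0) (XT.nd (nat_lit 78) (nat_lit 0) (nat_lit 0) (XT.lf (nat_lit 0) (nat_lit 7722951429477) (nat_lit 76) (nat_lit 991033440325) (nat_lit 76) (nat_lit 990110368384) (nat_lit 1) (nat_lit 4) (nat_lit 2) (nat_lit 5) (nat_lit 2) (nat_lit 4) (nat_lit 531) (nat_lit 377) (nat_lit 292)) (XT.lf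 (nat_lit 0) (nat_lit 8363845709451) (nat_lit 76) (nat_lit 1058305301143) (nat_lit 76) (nat_lit 1057382130458) (nat_lit 1) (nat_lit 4) (nat_lit 2) (nat_lit 5) (nat_lit 2) (nat_lit 4) (nat_lit 532) (nat_lit 377) (nat_lit 291))) (XT.nd (nat_lit 78) (nat_lit 0) (nat_lit 0) (XT.lf (nat_lit 0) (nat_lit 9056006801325) (nat_lit 76) (nat_lit 1130961359733) (nat_lit 76) (nat_lit 1130038097618) (nat_lit 1) (nat_lit 4) (nat_lit 2) (nat_lit 5) (nat_lit 2) (nat_lit 4) (nat_lit 533) (nat_lit 377) (nat_lit 290)) (XT.lf (nat_lit 0) (nat_lit 9803536400458) (nat_lit 76) (nat_lit 1209432170516) (nat_lit 76) (nat_lit 1208508823745) (nat_lit 1) (nat_lit 4) (nat_lit 2) (nat_lit 5) (nat_lit 2) (nat_lit 4) (nat_lit 534) (nat_lit 377) (nat_lit 289)))))) (XT.nd (nat_lit 546) (nat_lit 0) (nat_lit 0) (XT.nd (nat_lit 234) (nat_lit 0) (nat_lit 0) (XT.nd (nat_lit 78) (nat_lit 0) (nat_lit 0) (XT.lf (nat_lit 0) (nat_lit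 10610864311883) (nat_lit 76) (nat_lit 1294182745705) (nat_lit 76) (nat_lit 1293259320548) (nat_lit 1) (nat_lit 4) (nat_lit 2) (nat_lit 5) (nat_lit 2) (nat_lit 4) (nat_lit 535) (nat_lit 377) (nat_lit 288)) (XT.nd (nat_lit 78) (nat_lit 0) (nat_lit 0) (XT.lf (nat_lit 0) (nat_lit 11482774701000) (nat_lit 76) (nat_lit 1385715310931) (nat_lit 76) (nat_lit 1384791813194) (nat_lit 1) (nat_lit 4) (nat_lit 2) (nat_lit 5) (nat_lit 2) (nat_lit 4) (nat_lit 536) (nat_lit 377) (nat_lit 287)) (XT.lf (nat_lit 0) (nat_lit 12424434444188) (nat_lit 76) (nat_lit 1484572281394) (nat_lit 76) (nat_lit 1483648716454) (nat_lit 1) (nat_lit 4) (nat_lit 2) (nat_lit 5) (nat_lit 2) (nat_lit 4) (nat_lit 537) (nat_lit 377) (nat_lit 286)))) (XT.nd (nat_lit 156) (nat_lit 0) (nat_lit 0) (XT.nd (nat_lit 78) (nat_lit 0) (nat_lit 0) (XT.lf (nat_lit 0) (nat_lit 13441423747335) (nat_lit 76) (nat_lit 1591339476179) (nat_lit 76)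 (nat_lit 1590415849014) (nat_lit 1) (nat_lit 4) (nat_lit 2) (nat_lit 5) (nat_lit 2) (nat_lit 4) (nat_lit 538) (nat_lit 377) (nat_lit 285)) (XT.lf (nat_lit 0) (nat_lit 14539769213716) (nat_lit 76) (nat_lit 1706649589774) (nat_lit 76) (nat_lit 1705725904993) (nat_lit 1) (nat_lit 4) (nat_lit 2) (nat_lit 5) (nat_lit 2) (nat_lit 4) (nat_lit 539) (nat_lit 377) (nat_lit 284))) (XT.nd (nat_lit 78) (nat_lit 0) (nat_lit 0) (XT.lf (nat_lit 0) (nat_lit 15725979557209) (nat_lit 76) (nat_lit 1831185941370) (nat_lit 76) (nat_lit 1830262203241) (nat_lit 1) (nat_lit 4) (nat_lit 2) (nat_lit 5) (nat_lit 2) (nat_lit 4) (nat_lit 540) (nat_lit 377) (nat_lit 283)) (XT.lf (nat_lit 0) (nat_lit 17007084172440) (nat_lit 76) (nat_lit 1965686524162) (nat_lit 76) (nat_lit 1964762736636) (nat_lit 1) (nat_lit 4) (nat_lit 2) (nat_lit 5) (nat_lit 2) (nat_lit 4) (nat_lit 541) (nat_lit 377) (nat_lit 282))))) (XT.nd (nat_lit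 54834) (nat_lit 0) (nat_lit 1596) (XT.nd (nat_lit 156) (nat_lit 0) (nat_lit 0) (XT.nd (nat_lit 78) (nat_lit 0) (nat_lit 0) (XT.lf (nat_lit 0) (nat_lit 18390674790462) (nat_lit 76) (nat_lit 2110948378641) (nat_lit 76) (nat_lit 2110024545377) (nat_lit 1) (nat_lit 4) (nat_lit 2) (nat_lit 5) (nat_lit 2) (nat_lit 4) (nat_lit 542) (nat_lit 377) (nat_lit 281)) (XT.lf (nat_lit 0) (nat_lit 19884950466791) (nat_lit 76) (nat_lit 2267832315796) (nat_lit 76) (nat_lit 2266908440182) (nat_lit 1) (nat_lit 4) (nat_lit 2) (nat_lit 5) (nat_lit 2) (nat_lit 4) (nat_lit 543) (nat_lit 377) (nat_lit 280))) (XT.nd (nat_lit 78) (nat_lit 0) (nat_lit 0) (XT.lf (nat_lit 0) (nat_lit 21498766168396) (nat_lit 76) (nat_lit 2437268018217) (nat_lit 76) (nat_lit 2436344103391) (nat_lit 1) (nat_lit 4) (nat_lit 2) (nat_lit 5) (nat_lit 2) (nat_lit 4) (nat_lit 544) (nat_lit 377) (nat_lit 279)) (XT.lf (nat_lit 0) (nat_lit 23241685247584)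 (nat_lit 76) (nat_lit 2620259549326) (nat_lit 76) (nat_lit 2619335598193) (nat_lit 1) (nat_lit 4) (nat_lit 2) (nat_lit 5) (nat_lit 2) (nat_lit 4) (nat_lit 545) (nat_lit 377) (nat_lit 278)))) (XT.nd (nat_lit 156) (nat_lit 228) (nat_lit 0) (XT.nd (nat_lit 78) (nat_lit 76) (nat_lit 0) (XT.lf (nat_lit 0) (nat_lit 4395326836) (nat_lit 152) (nat_lit 2832680347) (nat_lit 0) (nat_lit 4395326836) (nat_lit 26) (nat_lit 5) (nat_lit 28) (nat_lit 4) (nat_lit 26) (nat_lit 4) (nat_lit 444) (nat_lit 378) (nat_lit 378)) (XT.lf (nat_lit 0) (nat_lit 14643543730) (nat_lit 76) (nat_lit 4892245938) (nat_lit 76) (nat_lit 4755365209) (nat_lit 25) (nat_lit 4) (nat_lit 26) (nat_lit 5) (nat_lit 26) (nat_lit 4) (nat_lit 445) (nat_lit 378) (nat_lit 377))) (XT.nd (nat_lit 78) (nat_lit 76) (nat_lit 0) (XT.lf (nat_lit 0) (nat_lit 5469511495) (nat_lit 152) (nat_lit 14710517121) (nat_lit 0) (nat_lit 5225416917) (nat_lit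 23) (nat_lit 5) (nat_lit 25) (nat_lit 4) (nat_lit 23) (nat_lit 4) (nat_lit 446) (nat_lit 378) (nat_lit 376)) (XT.lf (nat_lit 0) (nat_lit 5591793678) (nat_lit 76) (nat_lit 10679353853) (nat_lit 76) (nat_lit 10326598940) (nat_lit 22) (nat_lit 4) (nat_lit 23) (nat_lit 5) (nat_lit 23) (nat_lit 4) (nat_lit 447) (nat_lit 378) (nat_lit 375))))))))
noncomputable def xc45 : XT := (XT.nd (nat_lit 2184) (nat_lit 228) (nat_lit 0) (XT.nd (nat_lit 1092) (nat_lit 456) (nat_lit 0) (XT.nd (nat_lit 546) (nat_lit 304) (nat_lit 0) (XT.nd (nat_lit 234) (nat_lit 380) (nat_lit 0) (XT.nd (nat_lit 78) (nat_lit 228) (nat_lit 0) (XT.lf (nat_lit 0) (nat_lit 27325375900) (nat_lit 76) (nat_lit 510744081) (nat_lit 76) (nat_lit 57377746) (nat_lit 22) (nat_lit 4) (nat_lit 23) (nat_lit 5) (nat_lit 23) (nat_lit 4) (nat_lit 448) (nat_lit 378) (nat_lit 374)) (XT.nd (nat_lit 78) (nat_lit 76) (nat_lit 0) (XT.lf (nat_lit 0) (nat_lit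 10776549352) (nat_lit 152) (nat_lit 8201017950) (nat_lit 0) (nat_lit 10270507631) (nat_lit 20) (nat_lit 5) (nat_lit 22) (nat_lit 4) (nat_lit 20) (nat_lit 4) (nat_lit 449) (nat_lit 378) (nat_lit 373)) (XT.lf (nat_lit 0) (nat_lit 13389481999) (nat_lit 76) (nat_lit 8958701072) (nat_lit 76) (nat_lit 8372790760) (nat_lit 19) (nat_lit 4) (nat_lit 20) (nat_lit 5) (nat_lit 20) (nat_lit 4) (nat_lit 450) (nat_lit 378) (nat_lit 372)))) (XT.nd (nat_lit 156) (nat_lit 228) (nat_lit 0) (XT.nd (nat_lit 78) (nat_lit 0) (nat_lit 0) (XT.lf (nat_lit 0) (nat_lit 2300151679) (nat_lit 152) (nat_lit 28326067032) (nat_lit 0) (nat_lit 1689167689) (nat_lit 17) (nat_lit 5) (nat_lit 19) (nat_lit 4) (nat_lit 17) (nat_lit 4) (nat_lit 451) (nat_lit 378) (nat_lit 371)) (XT.lf (nat_lit 0) (nat_lit 13617216638) (nat_lit 152) (nat_lit 7440497813) (nat_lit 0) (nat_lit 12942830385) (nat_lit 17) (nat_lit 5) (nat_lit 19) (nat_lit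 4) (nat_lit 17) (nat_lit 4) (nat_lit 452) (nat_lit 378) (nat_lit 370))) (XT.nd (nat_lit 78) (nat_lit 152) (nat_lit 0) (XT.lf (nat_lit 0) (nat_lit 14956673791) (nat_lit 76) (nat_lit 10801718084) (nat_lit 76) (nat_lit 10068626033) (nat_lit 16) (nat_lit 4) (nat_lit 17) (nat_lit 5) (nat_lit 17) (nat_lit 4) (nat_lit 453) (nat_lit 378) (nat_lit 369)) (XT.lf (nat_lit 0) (nat_lit 809115590) (nat_lit 152) (nat_lit 36925121463) (nat_lit 0) (nat_lit 79995894) (nat_lit 14) (nat_lit 5) (nat_lit 16) (nat_lit 4) (nat_lit 14) (nat_lit 4) (nat_lit 454) (nat_lit 378) (nat_lit 368))))) (XT.nd (nat_lit 234) (nat_lit 228) (nat_lit 0) (XT.nd (nat_lit 78) (nat_lit 76) (nat_lit 0) (XT.lf (nat_lit 0) (nat_lit 12438816322) (nat_lit 152) (nat_lit 15803537651) (nat_lit 0) (nat_lit 11663094070) (nat_lit 14) (nat_lit 5) (nat_lit 16) (nat_lit 4) (nat_lit 14) (nat_lit 4) (nat_lit 455) (nat_lit 378) (nat_lit 367)) (XT.nd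 (nat_lit 78) (nat_lit 0) (nat_lit 0) (XT.lf (nat_lit 0) (nat_lit 6491686402) (nat_lit 76) (nat_lit 18255636731) (nat_lit 76) (nat_lit 17436763965) (nat_lit 13) (nat_lit 4) (nat_lit 14) (nat_lit 5) (nat_lit 14) (nat_lit 4) (nat_lit 456) (nat_lit 378) (nat_lit 366)) (XT.lf (nat_lit 0) (nat_lit 30649749417) (nat_lit 76) (nat_lit 7425652287) (nat_lit 76) (nat_lit 6566825342) (nat_lit 13) (nat_lit 4) (nat_lit 14) (nat_lit 5) (nat_lit 14) (nat_lit 4) (nat_lit 457) (nat_lit 378) (nat_lit 365)))) (XT.nd (nat_lit 156) (nat_lit 76) (nat_lit 0) (XT.nd (nat_lit 78) (nat_lit 0) (nat_lit 0) (XT.lf (nat_lit 0) (nat_lit 4854728260) (nat_lit 152) (nat_lit 38411812311) (nat_lit 0) (nat_lit 4025263856) (nat_lit 11) (nat_lit 5) (nat_lit 13) (nat_lit 4) (nat_lit 11) (nat_lit 4) (nat_lit 458) (nat_lit 378) (nat_lit 364)) (XT.lf (nat_lit 0) (nat_lit 17043565870) (nat_lit 152) (nat_lit 16897085968) (nat_lit 0)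 (nat_lit 16182384549) (nat_lit 11) (nat_lit 5) (nat_lit 13) (nat_lit 4) (nat_lit 11) (nat_lit 4) (nat_lit 459) (nat_lit 378) (nat_lit 363))) (XT.nd (nat_lit 78) (nat_lit 0) (nat_lit 0) (XT.lf (nat_lit 0) (nat_lit 5913340456) (nat_lit 76) (nat_lit 24087264263) (nat_lit 76) (nat_lit 23196715428) (nat_lit 10) (nat_lit 4) (nat_lit 11) (nat_lit 5) (nat_lit 11) (nat_lit 4) (nat_lit 460) (nat_lit 378) (nat_lit 362)) (XT.lf (nat_lit 0) (nat_lit 30806526419) (nat_lit 76) (nat_lit 13309507845) (nat_lit 76) (nat_lit 12391766866) (nat_lit 10) (nat_lit 4) (nat_lit 11) (nat_lit 5) (nat_lit 11) (nat_lit 4) (nat_lit 461) (nat_lit 378) (nat_lit 361)))))) (XT.nd (nat_lit 546) (nat_lit 228) (nat_lit 0) (XT.nd (nat_lit 234) (nat_lit 76) (nat_lit 0) (XT.nd (nat_lit 78) (nat_lit 152) (nat_lit 0) (XT.lf (nat_lit 0) (nat_lit 57040216493) (nat_lit 76) (nat_lit 2005510670) (nat_lit 76) (nat_lit 1062591781) (nat_lit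 10) (nat_lit 4) (nat_lit 11) (nat_lit 5) (nat_lit 11) (nat_lit 4) (nat_lit 462) (nat_lit 378) (nat_lit 360)) (XT.nd (nat_lit 78) (nat_lit 0) (nat_lit 0) (XT.lf (nat_lit 0) (nat_lit 11091635416) (nat_lit 152) (nat_lit 42648559644) (nat_lit 0) (nat_lit 10196976370) (nat_lit 8) (nat_lit 5) (nat_lit 10) (nat_lit 4) (nat_lit 8) (nat_lit 4) (nat_lit 463) (nat_lit 378) (nat_lit 359)) (XT.lf (nat_lit 0) (nat_lit 23999914877) (nat_lit 152) (nat_lit 20997811263) (nat_lit 0) (nat_lit 23085268794) (nat_lit 8) (nat_lit 5) (nat_lit 10) (nat_lit 4) (nat_lit 8) (nat_lit 4) (nat_lit 464) (nat_lit 378) (nat_lit 358)))) (XT.nd (nat_lit 156) (nat_lit 0) (nat_lit 0) (XT.nd (nat_lit 78) (nat_lit 0) (nat_lit 0) (XT.lf (nat_lit 0) (nat_lit 1907580073) (nat_lit 76) (nat_lit 35802268975) (nat_lit 76) (nat_lit 34869116377) (nat_lit 7) (nat_lit 4) (nat_lit 8) (nat_lit 5) (nat_lit 8) (nat_lit 4) (nat_lit 465) (nat_lit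 378) (nat_lit 357)) (XT.lf (nat_lit 0) (nat_lit 27281227377) (nat_lit 76) (nat_lit 25539664876) (nat_lit 76) (nat_lit 24589376615) (nat_lit 7) (nat_lit 4) (nat_lit 8) (nat_lit 5) (nat_lit 8) (nat_lit 4) (nat_lit 466) (nat_lit 378) (nat_lit 356))) (XT.nd (nat_lit 78) (nat_lit 0) (nat_lit 0) (XT.lf (nat_lit 0) (nat_lit 54167785473) (nat_lit 76) (nat_lit 14723215784) (nat_lit 76) (nat_lit 13757061167) (nat_lit 7) (nat_lit 4) (nat_lit 8) (nat_lit 5) (nat_lit 8) (nat_lit 4) (nat_lit 467) (nat_lit 378) (nat_lit 355)) (XT.lf (nat_lit 0) (nat_lit 82726582112) (nat_lit 76) (nat_lit 3288824220) (nat_lit 76) (nat_lit 2307978535) (nat_lit 7) (nat_lit 4) (nat_lit 8) (nat_lit 5) (nat_lit 8) (nat_lit 4) (nat_lit 468) (nat_lit 378) (nat_lit 354))))) (XT.nd (nat_lit 234) (nat_lit 76) (nat_lit 0) (XT.nd (nat_lit 78) (nat_lit 0) (nat_lit 0) (XT.lf (nat_lit 0) (nat_lit 10031184800) (nat_lit 152) (nat_lit 75253619970)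 (nat_lit 0) (nat_lit 9110399127) (nat_lit 5) (nat_lit 5) (nat_lit 7) (nat_lit 4) (nat_lit 5) (nat_lit 4) (nat_lit 469) (nat_lit 378) (nat_lit 353)) (XT.nd (nat_lit 78) (nat_lit 0) (nat_lit 0) (XT.lf (nat_lit 0) (nat_lit 23255578687) (nat_lit 152) (nat_lit 55367440443) (nat_lit 0) (nat_lit 22323130769) (nat_lit 5) (nat_lit 5) (nat_lit 7) (nat_lit 4) (nat_lit 5) (nat_lit 4) (nat_lit 470) (nat_lit 378) (nat_lit 352)) (XT.lf (nat_lit 0) (nat_lit 37334556534) (nat_lit 152) (nat_lit 34311574497) (nat_lit 0) (nat_lit 36391310243) (nat_lit 5) (nat_lit 5) (nat_lit 7) (nat_lit 4) (nat_lit 5) (nat_lit 4) (nat_lit 471) (nat_lit 378) (nat_lit 351)))) (XT.nd (nat_lit 156) (nat_lit 0) (nat_lit 0) (XT.nd (nat_lit 78) (nat_lit 76) (nat_lit 0) (XT.lf (nat_lit 0) (nat_lit 52351549322) (nat_lit 152) (nat_lit 11961246629) (nat_lit 0) (nat_lit 51398304536) (nat_lit 5) (nat_lit 5) (nat_lit 7) (nat_lit 4) (nat_lit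 5) (nat_lit 4) (nat_lit 472) (nat_lit 378) (nat_lit 350)) (XT.lf (nat_lit 0) (nat_lit 12438198616) (nat_lit 76) (nat_lit 56256486998) (nat_lit 76) (nat_lit 55293984346) (nat_lit 4) (nat_lit 4) (nat_lit 5) (nat_lit 5) (nat_lit 5) (nat_lit 4) (nat_lit 473) (nat_lit 378) (nat_lit 349))) (XT.nd (nat_lit 78) (nat_lit 0) (nat_lit 0) (XT.lf (nat_lit 0) (nat_lit 39117870481) (nat_lit 76) (nat_lit 47384539266) (nat_lit 76) (nat_lit 46413464517) (nat_lit 4) (nat_lit 4) (nat_lit 5) (nat_lit 5) (nat_lit 5) (nat_lit 4) (nat_lit 474) (nat_lit 378) (nat_lit 348)) (XT.lf (nat_lit 0) (nat_lit 67606012673) (nat_lit 76) (nat_lit 37971419932) (nat_lit 76) (nat_lit 36992408055) (nat_lit 4) (nat_lit 4) (nat_lit 5) (nat_lit 5) (nat_lit 5) (nat_lit 4) (nat_lit 475) (nat_lit 378) (nat_lit 347))))))) (XT.nd (nat_lit 1092) (nat_lit 76) (nat_lit 0) (XT.nd (nat_lit 546) (nat_lit 0) (nat_lit 0) (XT.nd (nat_lit 234) (nat_lit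 152) (nat_lit 0) (XT.nd (nat_lit 78) (nat_lit 0) (nat_lit 0) (XT.lf (nat_lit 0) (nat_lit 98071443814) (nat_lit 76) (nat_lit 27961347547) (nat_lit 76) (nat_lit 26974986478) (nat_lit 4) (nat_lit 4) (nat_lit 5) (nat_lit 5) (nat_lit 5) (nat_lit 4) (nat_lit 476) (nat_lit 378) (nat_lit 346)) (XT.nd (nat_lit 78) (nat_lit 0) (nat_lit 0) (XT.lf (nat_lit 0) (nat_lit 130694699792) (nat_lit 76) (nat_lit 17295003164) (nat_lit 76) (nat_lit 16301837287) (nat_lit 4) (nat_lit 4) (nat_lit 5) (nat_lit 5) (nat_lit 5) (nat_lit 4) (nat_lit 477) (nat_lit 378) (nat_lit 345)) (XT.lf (nat_lit 0) (nat_lit 165669103604) (nat_lit 76) (nat_lit 5909178816) (nat_lit 76) (nat_lit 4909712192) (nat_lit 4) (nat_lit 4) (nat_lit 5) (nat_lit 5) (nat_lit 5) (nat_lit 4) (nat_lit 478) (nat_lit 378) (nat_lit 344)))) (XT.nd (nat_lit 156) (nat_lit 0) (nat_lit 0) (XT.nd (nat_lit 78) (nat_lit 0) (nat_lit 0) (XT.lf (nat_lit 0) (nat_lit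 7407411025) (nat_lit 152) (nat_lit 175731272101) (nat_lit 0) (nat_lit 6476577090) (nat_lit 2) (nat_lit 5) (nat_lit 4) (nat_lit 4) (nat_lit 2) (nat_lit 4) (nat_lit 479) (nat_lit 378) (nat_lit 343)) (XT.lf (nat_lit 0) (nat_lit 20783035265) (nat_lit 152) (nat_lit 163125199692) (nat_lit 0) (nat_lit 19847199593) (nat_lit 2) (nat_lit 5) (nat_lit 4) (nat_lit 4) (nat_lit 2) (nat_lit 4) (nat_lit 480) (nat_lit 378) (nat_lit 342))) (XT.nd (nat_lit 78) (nat_lit 0) (nat_lit 0) (XT.lf (nat_lit 0) (nat_lit 35118901126) (nat_lit 152) (nat_lit 149738272278) (nat_lit 0) (nat_lit 34178434217) (nat_lit 2) (nat_lit 5) (nat_lit 4) (nat_lit 4) (nat_lit 2) (nat_lit 4) (nat_lit 481) (nat_lit 378) (nat_lit 341)) (XT.lf (nat_lit 0) (nat_lit 50499961887) (nat_lit 152) (nat_lit 135491159919) (nat_lit 0) (nat_lit 49555206795) (nat_lit 2) (nat_lit 5) (nat_lit 4) (nat_lit 4) (nat_lit 2) (nat_lit 4) (nat_lit 482) (nat_lit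 378) (nat_lit 340))))) (XT.nd (nat_lit 234) (nat_lit 0) (nat_lit 0) (XT.nd (nat_lit 78) (nat_lit 0) (nat_lit 0) (XT.lf (nat_lit 0) (nat_lit 67017364575) (nat_lit 152) (nat_lit 120299435282) (nat_lit 0) (nat_lit 66068638943) (nat_lit 2) (nat_lit 5) (nat_lit 4) (nat_lit 4) (nat_lit 2) (nat_lit 4) (nat_lit 483) (nat_lit 378) (nat_lit 339)) (XT.nd (nat_lit 78) (nat_lit 0) (nat_lit 0) (XT.lf (nat_lit 0) (nat_lit 84768990094) (nat_lit 152) (nat_lit 104073073333) (nat_lit 0) (nat_lit 83816588036) (nat_lit 2) (nat_lit 5) (nat_lit 4) (nat_lit 4) (nat_lit 2) (nat_lit 4) (nat_lit 484) (nat_lit 378) (nat_lit 338)) (XT.lf (nat_lit 0) (nat_lit 103860033263) (nat_lit 152) (nat_lit 86715917853) (nat_lit 0) (nat_lit 102904227107) (nat_lit 2) (nat_lit 5) (nat_lit 4) (nat_lit 4) (nat_lit 2) (nat_lit 4) (nat_lit 485) (nat_lit 378) (nat_lit 337)))) (XT.nd (nat_lit 156) (nat_lit 0) (nat_lit 0) (XT.nd (nat_lit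 78) (nat_lit 0) (nat_lit 0) (XT.lf (nat_lit 0) (nat_lit 124403626189) (nat_lit 152) (nat_lit 68125111623) (nat_lit 0) (nat_lit 123444668091) (nat_lit 2) (nat_lit 5) (nat_lit 4) (nat_lit 4) (nat_lit 2) (nat_lit 4) (nat_lit 486) (nat_lit 378) (nat_lit 336)) (XT.lf (nat_lit 0) (nat_lit 146521508682) (nat_lit 152) (nat_lit 48190486904) (nat_lit 0) (nat_lit 145559632119) (nat_lit 2) (nat_lit 5) (nat_lit 4) (nat_lit 4) (nat_lit 2) (nat_lit 4) (nat_lit 487) (nat_lit 378) (nat_lit 335))) (XT.nd (nat_lit 78) (nat_lit 0) (nat_lit 0) (XT.lf (nat_lit 0) (nat_lit 170344749676) (nat_lit 152) (nat_lit 26793912586) (nat_lit 0) (nat_lit 169380170829) (nat_lit 2) (nat_lit 5) (nat_lit 4) (nat_lit 4) (nat_lit 2) (nat_lit 4) (nat_lit 488) (nat_lit 378) (nat_lit 334)) (XT.lf (nat_lit 0) (nat_lit 196014523931) (nat_lit 152) (nat_lit 3808594154) (nat_lit 0) (nat_lit 195047442971) (nat_lit 2) (nat_lit 5) (nat_lit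 4) (nat_lit 4) (nat_lit 2) (nat_lit 4) (nat_lit 489) (nat_lit 378) (nat_lit 333)))))) (XT.nd (nat_lit 546) (nat_lit 0) (nat_lit 0) (XT.nd (nat_lit 234) (nat_lit 0) (nat_lit 0) (XT.nd (nat_lit 78) (nat_lit 0) (nat_lit 0) (XT.lf (nat_lit 0) (nat_lit 22002322990) (nat_lit 76) (nat_lit 202209782035) (nat_lit 76) (nat_lit 201240384303) (nat_lit 1) (nat_lit 4) (nat_lit 2) (nat_lit 5) (nat_lit 2) (nat_lit 4) (nat_lit 490) (nat_lit 378) (nat_lit 332)) (XT.nd (nat_lit 78) (nat_lit 0) (nat_lit 0) (XT.lf (nat_lit 0) (nat_lit 49983722402) (nat_lit 76) (nat_lit 204732372127) (nat_lit 76) (nat_lit 203760829236) (nat_lit 1) (nat_lit 4) (nat_lit 2) (nat_lit 5) (nat_lit 2) (nat_lit 4) (nat_lit 491) (nat_lit 378) (nat_lit 331)) (XT.lf (nat_lit 0) (nat_lit 80100865962) (nat_lit 76) (nat_lit 207509970758) (nat_lit 76) (nat_lit 206536441609) (nat_lit 1) (nat_lit 4) (nat_lit 2) (nat_lit 5) (nat_lit 2) (nat_lit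 4) (nat_lit 492) (nat_lit 378) (nat_lit 330)))) (XT.nd (nat_lit 156) (nat_lit 0) (nat_lit 0) (XT.nd (nat_lit 78) (nat_lit 0) (nat_lit 0) (XT.lf (nat_lit 0) (nat_lit 112532225632) (nat_lit 76) (nat_lit 210559037771) (nat_lit 76) (nat_lit 209583669494) (nat_lit 1) (nat_lit 4) (nat_lit 2) (nat_lit 5) (nat_lit 2) (nat_lit 4) (nat_lit 493) (nat_lit 378) (nat_lit 329)) (XT.lf (nat_lit 0) (nat_lit 147469987246) (nat_lit 76) (nat_lit 213897641712) (nat_lit 76) (nat_lit 212920570539) (nat_lit 1) (nat_lit 4) (nat_lit 2) (nat_lit 5) (nat_lit 2) (nat_lit 4) (nat_lit 494) (nat_lit 378) (nat_lit 328))) (XT.nd (nat_lit 78) (nat_lit 0) (nat_lit 0) (XT.lf (nat_lit 0) (nat_lit 185121189393) (nat_lit 76) (nat_lit 217545566901) (nat_lit 76) (nat_lit 216566918971) (nat_lit 1) (nat_lit 4) (nat_lit 2) (nat_lit 5) (nat_lit 2) (nat_lit 4) (nat_lit 495) (nat_lit 378) (nat_lit 327)) (XT.lf (nat_lit 0) (nat_lit 225708950307)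 (nat_lit 76) (nat_lit 221524430671) (nat_lit 76) (nat_lit 220544322782) (nat_lit 1) (nat_lit 4) (nat_lit 2) (nat_lit 5) (nat_lit 2) (nat_lit 4) (nat_lit 496) (nat_lit 378) (nat_lit 326))))) (XT.nd (nat_lit 312) (nat_lit 0) (nat_lit 0) (XT.nd (nat_lit 156) (nat_lit 0) (nat_lit 0) (XT.nd (nat_lit 78) (nat_lit 0) (nat_lit 0) (XT.lf (nat_lit 0) (nat_lit 269473790053) (nat_lit 76) (nat_lit 225857811475) (nat_lit 76) (nat_lit 224876351772) (nat_lit 1) (nat_lit 4) (nat_lit 2) (nat_lit 5) (nat_lit 2) (nat_lit 4) (nat_lit 497) (nat_lit 378) (nat_lit 325)) (XT.lf (nat_lit 0) (nat_lit 316675055828) (nat_lit 76) (nat_lit 230571388606) (nat_lit 76) (nat_lit 229588677223) (nat_lit 1) (nat_lit 4) (nat_lit 2) (nat_lit 5) (nat_lit 2) (nat_lit 4) (nat_lit 498) (nat_lit 378) (nat_lit 324))) (XT.nd (nat_lit 78) (nat_lit 0) (nat_lit 0) (XT.lf (nat_lit 0) (nat_lit 367592458839) (nat_lit 76) (nat_lit 235693094374)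 (nat_lit 76) (nat_lit 234709224028) (nat_lit 1) (nat_lit 4) (nat_lit 2) (nat_lit 5) (nat_lit 2) (nat_lit 4) (nat_lit 499) (nat_lit 378) (nat_lit 323)) (XT.lf (nat_lit 0) (nat_lit 422527731844) (nat_lit 76) (nat_lit 241253279627) (nat_lit 76) (nat_lit 240268336167) (nat_lit 1) (nat_lit 4) (nat_lit 2) (nat_lit 5) (nat_lit 2) (nat_lit 4) (nat_lit 500) (nat_lit 378) (nat_lit 322)))) (XT.nd (nat_lit 156) (nat_lit 0) (nat_lit 0) (XT.nd (nat_lit 78) (nat_lit 0) (nat_lit 0) (XT.lf (nat_lit 0) (nat_lit 481806417200) (nat_lit 76) (nat_lit 247284893611) (nat_lit 76) (nat_lit 246298956528) (nat_lit 1) (nat_lit 4) (nat_lit 2) (nat_lit 5) (nat_lit 2) (nat_lit 4) (nat_lit 501) (nat_lit 378) (nat_lit 321)) (XT.lf (nat_lit 0) (nat_lit 545779796007) (nat_lit 76) (nat_lit 253823679224) (nat_lit 76) (nat_lit 252836822119) (nat_lit 1) (nat_lit 4) (nat_lit 2) (nat_lit 5) (nat_lit 2) (nat_lit 4) (nat_lit 502)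 (nat_lit 378) (nat_lit 320))) (XT.nd (nat_lit 78) (nat_lit 0) (nat_lit 0) (XT.lf (nat_lit 0) (nat_lit 614826969768) (nat_lit 76) (nat_lit 260908384825) (nat_lit 76) (nat_lit 259920675848) (nat_lit 1) (nat_lit 4) (nat_lit 2) (nat_lit 5) (nat_lit 2) (nat_lit 4) (nat_lit 503) (nat_lit 378) (nat_lit 319)) (XT.lf (nat_lit 0) (nat_lit 689357106921) (nat_lit 76) (nat_lit 268580993855) (nat_lit 76) (nat_lit 267592496107) (nat_lit 1) (nat_lit 4) (nat_lit 2) (nat_lit 5) (nat_lit 2) (nat_lit 4) (nat_lit 504) (nat_lit 378) (nat_lit 318))))))))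
noncomputable def xc46 : XT := (XT.nd (nat_lit 2184) (nat_lit 0) (nat_lit 0) (XT.nd (nat_lit 1092) (nat_lit 0) (nat_lit 0) (XT.nd (nat_lit 546) (nat_lit 0) (nat_lit 0) (XT.nd (nat_lit 234) (nat_lit 0) (nat_lit 0) (XT.nd (nat_lit 78) (nat_lit 0) (nat_lit 0) (XT.lf (nat_lit 0) (nat_lit 769811867537) (nat_lit 76) (nat_lit 276886973627) (nat_lit 76) (nat_lit 275897745536) (nat_lit 1) (nat_lit 4) (nat_lit 2) (nat_lit 5) (nat_lit 2) (nat_lit 4) (nat_lit 505) (nat_lit 378) (nat_lit 317)) (XT.nd (nat_lit 78) (nat_lit 0) (nat_lit 0) (XT.lf (nat_lit 0) (nat_lit 856668020569) (nat_lit 76) (nat_lit 285875544761) (nat_lit 76) (nat_lit 284885640426) (nat_lit 1) (nat_lit 4) (nat_lit 2) (nat_lit 5) (nat_lit 2) (nat_lit 4) (nat_lit 506) (nat_lit 378) (nat_lit 316)) (XT.lf (nat_lit 0) (nat_lit 950440269145) (nat_lit 76) (nat_lit 295599972864) (nat_lit 76) (nat_lit 294609442377) (nat_lit 1) (nat_lit 4) (nat_lit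 2) (nat_lit 5) (nat_lit 2) (nat_lit 4) (nat_lit 507) (nat_lit 378) (nat_lit 315)))) (XT.nd (nat_lit 156) (nat_lit 0) (nat_lit 0) (XT.nd (nat_lit 78) (nat_lit 0) (nat_lit 0) (XT.lf (nat_lit 0) (nat_lit 1051684300665) (nat_lit 76) (nat_lit 306117884176) (nat_lit 76) (nat_lit 305126773920) (nat_lit 1) (nat_lit 4) (nat_lit 2) (nat_lit 5) (nat_lit 2) (nat_lit 4) (nat_lit 508) (nat_lit 378) (nat_lit 314)) (XT.lf (nat_lit 0) (nat_lit 1161000079759) (nat_lit 76) (nat_lit 317491607062) (nat_lit 76) (nat_lit 316499959982) (nat_lit 1) (nat_lit 4) (nat_lit 2) (nat_lit 5) (nat_lit 2) (nat_lit 4) (nat_lit 509) (nat_lit 378) (nat_lit 313))) (XT.nd (nat_lit 78) (nat_lit 0) (nat_lit 0) (XT.lf (nat_lit 0) (nat_lit 1279035403638) (nat_lit 76) (nat_lit 329788541360) (nat_lit 76) (nat_lit 328796397221) (nat_lit 1) (nat_lit 4) (nat_lit 2) (nat_lit 5) (nat_lit 2) (nat_lit 4) (nat_lit 510) (nat_lit 378) (nat_lit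 312)) (XT.lf (nat_lit 0) (nat_lit 1406489740886) (nat_lit 76) (nat_lit 343081557792) (nat_lit 76) (nat_lit 342088953413) (nat_lit 1) (nat_lit 4) (nat_lit 2) (nat_lit 5) (nat_lit 2) (nat_lit 4) (nat_lit 511) (nat_lit 378) (nat_lit 311))))) (XT.nd (nat_lit 234) (nat_lit 0) (nat_lit 0) (XT.nd (nat_lit 78) (nat_lit 0) (nat_lit 0) (XT.lf (nat_lit 0) (nat_lit 1544118376466) (nat_lit 76) (nat_lit 357449429789) (nat_lit 76) (nat_lit 356456399262) (nat_lit 1) (nat_lit 4) (nat_lit 2) (nat_lit 5) (nat_lit 2) (nat_lit 4) (nat_lit 512) (nat_lit 378) (nat_lit 310)) (XT.nd (nat_lit 78) (nat_lit 0) (nat_lit 0) (XT.lf (nat_lit 0) (nat_lit 1692736887478) (nat_lit 76) (nat_lit 372977300296) (nat_lit 76) (nat_lit 371983875187) (nat_lit 1) (nat_lit 4) (nat_lit 2) (nat_lit 5) (nat_lit 2) (nat_lit 4) (nat_lit 513) (nat_lit 378) (nat_lit 309)) (XT.lf (nat_lit 0) (nat_lit 1853225976208) (nat_lit 76) (nat_lit 389757186324)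 (nat_lit 76) (nat_lit 388763395861) (nat_lit 1) (nat_lit 4) (nat_lit 2) (nat_lit 5) (nat_lit 2) (nat_lit 4) (nat_lit 514) (nat_lit 378) (nat_lit 308)))) (XT.nd (nat_lit 156) (nat_lit 0) (nat_lit 0) (XT.nd (nat_lit 78) (nat_lit 0) (nat_lit 0) (XT.lf (nat_lit 0) (nat_lit 2026536689108) (nat_lit 76) (nat_lit 407888524233) (nat_lit 76) (nat_lit 406894395480) (nat_lit 1) (nat_lit 4) (nat_lit 2) (nat_lit 5) (nat_lit 2) (nat_lit 4) (nat_lit 515) (nat_lit 378) (nat_lit 307)) (XT.lf (nat_lit 0) (nat_lit 2213696052626) (nat_lit 76) (nat_lit 427478758990) (nat_lit 76) (nat_lit 426484317006) (nat_lit 1) (nat_lit 4) (nat_lit 2) (nat_lit 5) (nat_lit 2) (nat_lit 4) (nat_lit 516) (nat_lit 378) (nat_lit 306))) (XT.nd (nat_lit 78) (nat_lit 0) (nat_lit 0) (XT.lf (nat_lit 0) (nat_lit 2415813159286) (nat_lit 76) (nat_lit 448643980874) (nat_lit 76) (nat_lit 447649248861) (nat_lit 1) (nat_lit 4) (nat_lit 2) (nat_lit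 5) (nat_lit 2) (nat_lit 4) (nat_lit 517) (nat_lit 378) (nat_lit 305)) (XT.lf (nat_lit 0) (nat_lit 2634085740090) (nat_lit 76) (nat_lit 471509613424) (nat_lit 76) (nat_lit 470514612864) (nat_lit 1) (nat_lit 4) (nat_lit 2) (nat_lit 5) (nat_lit 2) (nat_lit 4) (nat_lit 518) (nat_lit 378) (nat_lit 304)))))) (XT.nd (nat_lit 546) (nat_lit 0) (nat_lit 0) (XT.nd (nat_lit 234) (nat_lit 0) (nat_lit 0) (XT.nd (nat_lit 78) (nat_lit 0) (nat_lit 0) (XT.lf (nat_lit 0) (nat_lit 2869807262183) (nat_lit 76) (nat_lit 496211156682) (nat_lit 76) (nat_lit 495215907469) (nat_lit 1) (nat_lit 4) (nat_lit 2) (nat_lit 5) (nat_lit 2) (nat_lit 4) (nat_lit 519) (nat_lit 378) (nat_lit 303)) (XT.nd (nat_lit 78) (nat_lit 0) (nat_lit 0) (XT.lf (nat_lit 0) (nat_lit 3124374593846) (nat_lit 76) (nat_lit 522894990165) (nat_lit 76) (nat_lit 521899510718) (nat_lit 1) (nat_lit 4) (nat_lit 2) (nat_lit 5) (nat_lit 2) (nat_lit 4) (nat_lit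 520) (nat_lit 378) (nat_lit 302)) (XT.lf (nat_lit 0) (nat_lit 3399296282228) (nat_lit 76) (nat_lit 551719240294) (nat_lit 76) (nat_lit 550723547666) (nat_lit 1) (nat_lit 4) (nat_lit 2) (nat_lit 5) (nat_lit 2) (nat_lit 4) (nat_lit 521) (nat_lit 378) (nat_lit 301)))) (XT.nd (nat_lit 156) (nat_lit 0) (nat_lit 0) (XT.nd (nat_lit 78) (nat_lit 0) (nat_lit 0) (XT.lf (nat_lit 0) (nat_lit 3696201492890) (nat_lit 76) (nat_lit 582854717439) (nat_lit 76) (nat_lit 581858827423) (nat_lit 1) (nat_lit 4) (nat_lit 2) (nat_lit 5) (nat_lit 2) (nat_lit 4) (nat_lit 522) (nat_lit 378) (nat_lit 300)) (XT.lf (nat_lit 0) (nat_lit 4016849664118) (nat_lit 76) (nat_lit 616485928133) (nat_lit 76) (nat_lit 615489855349) (nat_lit 1) (nat_lit 4) (nat_lit 2) (nat_lit 5) (nat_lit 2) (nat_lit 4) (nat_lit 523) (nat_lit 378) (nat_lit 299))) (XT.nd (nat_lit 78) (nat_lit 0) (nat_lit 0) (XT.lf (nat_lit 0) (nat_lit 4363140933222)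 (nat_lit 76) (nat_lit 652812168438) (nat_lit 76) (nat_lit 651815926424) (nat_lit 1) (nat_lit 4) (nat_lit 2) (nat_lit 5) (nat_lit 2) (nat_lit 4) (nat_lit 524) (nat_lit 378) (nat_lit 298)) (XT.lf (nat_lit 0) (nat_lit 4737127396613) (nat_lit 76) (nat_lit 692048704963) (nat_lit 76) (nat_lit 691052306256) (nat_lit 1) (nat_lit 4) (nat_lit 2) (nat_lit 5) (nat_lit 2) (nat_lit 4) (nat_lit 525) (nat_lit 378) (nat_lit 297))))) (XT.nd (nat_lit 234) (nat_lit 0) (nat_lit 0) (XT.nd (nat_lit 78) (nat_lit 0) (nat_lit 0) (XT.lf (nat_lit 0) (nat_lit 5141025270369) (nat_lit 76) (nat_lit 734428050518) (nat_lit 76) (nat_lit 733431506723) (nat_lit 1) (nat_lit 4) (nat_lit 2) (nat_lit 5) (nat_lit 2) (nat_lit 4) (nat_lit 526) (nat_lit 378) (nat_lit 296)) (XT.nd (nat_lit 78) (nat_lit 0) (nat_lit 0) (XT.lf (nat_lit 0) (nat_lit 5577228023372) (nat_lit 76) (nat_lit 780201341964) (nat_lit 76) (nat_lit 779204663831) (nat_lit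 1) (nat_lit 4) (nat_lit 2) (nat_lit 5) (nat_lit 2) (nat_lit 4) (nat_lit 527) (nat_lit 378) (nat_lit 295)) (XT.lf (nat_lit 0) (nat_lit 6048320560825) (nat_lit 76) (nat_lit 829639828438) (nat_lit 76) (nat_lit 828643025916) (nat_lit 1) (nat_lit 4) (nat_lit 2) (nat_lit 5) (nat_lit 2) (nat_lit 4) (nat_lit 528) (nat_lit 378) (nat_lit 294)))) (XT.nd (nat_lit 156) (nat_lit 0) (nat_lit 0) (XT.nd (nat_lit 78) (nat_lit 0) (nat_lit 0) (XT.lf (nat_lit 0) (nat_lit 6557094542209) (nat_lit 76) (nat_lit 883036478747) (nat_lit 76) (nat_lit 882039561050) (nat_lit 1) (nat_lit 4) (nat_lit 2) (nat_lit 5) (nat_lit 2) (nat_lit 4) (nat_lit 529) (nat_lit 378) (nat_lit 293)) (XT.lf (nat_lit 0) (nat_lit 7106564924451) (nat_lit 76) (nat_lit 940707717485) (nat_lit 76) (nat_lit 939710693145) (nat_lit 1) (nat_lit 4) (nat_lit 2) (nat_lit 5) (nat_lit 2) (nat_lit 4) (nat_lit 530) (nat_lit 378) (nat_lit 292))) (XT.nd (nat_lit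 78) (nat_lit 0) (nat_lit 0) (XT.lf (nat_lit 0) (nat_lit 7699987828335) (nat_lit 76) (nat_lit 1002995300142) (nat_lit 76) (nat_lit 1001998177059) (nat_lit 1) (nat_lit 4) (nat_lit 2) (nat_lit 5) (nat_lit 2) (nat_lit 4) (nat_lit 531) (nat_lit 378) (nat_lit 291)) (XT.lf (nat_lit 0) (nat_lit 8340879834031) (nat_lit 76) (nat_lit 1070268338319) (nat_lit 76) (nat_lit 1069271123806) (nat_lit 1) (nat_lit 4) (nat_lit 2) (nat_lit 5) (nat_lit 2) (nat_lit 4) (nat_lit 532) (nat_lit 378) (nat_lit 290))))))) (XT.nd (nat_lit 55458) (nat_lit 0) (nat_lit 912) (XT.nd (nat_lit 546) (nat_lit 0) (nat_lit 0) (XT.nd (nat_lit 234) (nat_lit 0) (nat_lit 0) (XT.nd (nat_lit 78) (nat_lit 0) (nat_lit 0) (XT.lf (nat_lit 0) (nat_lit 9033038820092) (nat_lit 76) (nat_lit 1142925487056) (nat_lit 76) (nat_lit 1141928187886) (nat_lit 1) (nat_lit 4) (nat_lit 2) (nat_lit 5) (nat_lit 2) (nat_lit 4) (nat_lit 533) (nat_lit 378) (nat_lit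 289)) (XT.nd (nat_lit 78) (nat_lit 0) (nat_lit 0) (XT.lf (nat_lit 0) (nat_lit 9780566469399) (nat_lit 76) (nat_lit 1221397307235) (nat_lit 76) (nat_lit 1220399929679) (nat_lit 1) (nat_lit 4) (nat_lit 2) (nat_lit 5) (nat_lit 2) (nat_lit 4) (nat_lit 534) (nat_lit 378) (nat_lit 288)) (XT.lf (nat_lit 0) (nat_lit 10587892575428) (nat_lit 76) (nat_lit 1306148817050) (nat_lit 76) (nat_lit 1305151366915) (nat_lit 1) (nat_lit 4) (nat_lit 2) (nat_lit 5) (nat_lit 2) (nat_lit 4) (nat_lit 535) (nat_lit 378) (nat_lit 287)))) (XT.nd (nat_lit 156) (nat_lit 0) (nat_lit 0) (XT.nd (nat_lit 78) (nat_lit 0) (nat_lit 0) (XT.lf (nat_lit 0) (nat_lit 11459801292883) (nat_lit 76) (nat_lit 1397682247670) (nat_lit 76) (nat_lit 1396684730331) (nat_lit 1) (nat_lit 4) (nat_lit 2) (nat_lit 5) (nat_lit 2) (nat_lit 4) (nat_lit 536) (nat_lit 378) (nat_lit 286)) (XT.lf (nat_lit 0) (nat_lit 12401459488236) (nat_lit 76) (nat_lit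 1496540019424) (nat_lit 76) (nat_lit 1495542439860) (nat_lit 1) (nat_lit 4) (nat_lit 2) (nat_lit 5) (nat_lit 2) (nat_lit 4) (nat_lit 537) (nat_lit 378) (nat_lit 285))) (XT.nd (nat_lit 78) (nat_lit 0) (nat_lit 0) (XT.lf (nat_lit 0) (nat_lit 13418447358202) (nat_lit 76) (nat_lit 1603307956145) (nat_lit 76) (nat_lit 1602310318965) (nat_lit 1) (nat_lit 4) (nat_lit 2) (nat_lit 5) (nat_lit 2) (nat_lit 4) (nat_lit 538) (nat_lit 378) (nat_lit 284)) (XT.lf (nat_lit 0) (nat_lit 14516791497564) (nat_lit 76) (nat_lit 1718618756718) (nat_lit 76) (nat_lit 1717621066189) (nat_lit 1) (nat_lit 4) (nat_lit 2) (nat_lit 5) (nat_lit 2) (nat_lit 4) (nat_lit 539) (nat_lit 378) (nat_lit 283))))) (XT.nd (nat_lit 234) (nat_lit 0) (nat_lit 0) (XT.nd (nat_lit 78) (nat_lit 0) (nat_lit 0) (XT.lf (nat_lit 0) (nat_lit 15703000612335) (nat_lit 76) (nat_lit 1843155744404) (nat_lit 76) (nat_lit 1842158004480) (nat_lit 1)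 (nat_lit 4) (nat_lit 2) (nat_lit 5) (nat_lit 2) (nat_lit 4) (nat_lit 540) (nat_lit 378) (nat_lit 282)) (XT.nd (nat_lit 78) (nat_lit 0) (nat_lit 0) (XT.lf (nat_lit 0) (nat_lit 16984104089861) (nat_lit 76) (nat_lit 1977656916169) (nat_lit 76) (nat_lit 1976659130507) (nat_lit 1) (nat_lit 4) (nat_lit 2) (nat_lit 5) (nat_lit 2) (nat_lit 4) (nat_lit 541) (nat_lit 378) (nat_lit 281)) (XT.lf (nat_lit 0) (nat_lit 18367693654453) (nat_lit 76) (nat_lit 2122919315993) (nat_lit 76) (nat_lit 2121921487981) (nat_lit 1) (nat_lit 4) (nat_lit 2) (nat_lit 5) (nat_lit 2) (nat_lit 4) (nat_lit 542) (nat_lit 378) (nat_lit 280)))) (XT.nd (nat_lit 156) (nat_lit 0) (nat_lit 0) (XT.nd (nat_lit 78) (nat_lit 0) (nat_lit 0) (XT.lf (nat_lit 0) (nat_lit 19861968355382) (nat_lit 76) (nat_lit 2279803758096) (nat_lit 76) (nat_lit 2278805890872) (nat_lit 1) (nat_lit 4) (nat_lit 2) (nat_lit 5) (nat_lit 2) (nat_lit 4) (nat_lit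 543) (nat_lit 378) (nat_lit 279)) (XT.lf (nat_lit 0) (nat_lit 21475783153841) (nat_lit 76) (nat_lit 2449239928063) (nat_lit 76) (nat_lit 2448242024531) (nat_lit 1) (nat_lit 4) (nat_lit 2) (nat_lit 5) (nat_lit 2) (nat_lit 4) (nat_lit 544) (nat_lit 378) (nat_lit 278))) (XT.nd (nat_lit 54444) (nat_lit 0) (nat_lit 2052) (XT.lf (nat_lit 0) (nat_lit 23218701396781) (nat_lit 76) (nat_lit 2632231892085) (nat_lit 76) (nat_lit 2631233954935) (nat_lit 1) (nat_lit 4) (nat_lit 2) (nat_lit 5) (nat_lit 2) (nat_lit 4) (nat_lit 545) (nat_lit 378) (nat_lit 277)) (XT.lf (nat_lit 0) (nat_lit 176689568) (nat_lit 76) (nat_lit 5247570886) (nat_lit 76) (nat_lit 5247570886) (nat_lit 28) (nat_lit 4) (nat_lit 29) (nat_lit 5) (nat_lit 29) (nat_lit 4) (nat_lit 442) (nat_lit 379) (nat_lit 379)))))) (XT.nd (nat_lit 546) (nat_lit 532) (nat_lit 0) (XT.nd (nat_lit 234) (nat_lit 380) (nat_lit 0) (XT.nd (nat_lit 78) (nat_lit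 228) (nat_lit 0) (XT.lf (nat_lit 0) (nat_lit 19868482610) (nat_lit 76) (nat_lit 1286677393) (nat_lit 76) (nat_lit 1127019711) (nat_lit 28) (nat_lit 4) (nat_lit 29) (nat_lit 5) (nat_lit 29) (nat_lit 4) (nat_lit 443) (nat_lit 379) (nat_lit 378)) (XT.nd (nat_lit 78) (nat_lit 76) (nat_lit 0) (XT.lf (nat_lit 0) (nat_lit 8689433282) (nat_lit 152) (nat_lit 6172439274) (nat_lit 0) (nat_lit 8404721367) (nat_lit 26) (nat_lit 5) (nat_lit 28) (nat_lit 4) (nat_lit 26) (nat_lit 4) (nat_lit 444) (nat_lit 379) (nat_lit 377)) (XT.lf (nat_lit 0) (nat_lit 13615522143) (nat_lit 76) (nat_lit 5563719878) (nat_lit 76) (nat_lit 5152266547) (nat_lit 25) (nat_lit 4) (nat_lit 26) (nat_lit 5) (nat_lit 26) (nat_lit 4) (nat_lit 445) (nat_lit 379) (nat_lit 376)))) (XT.nd (nat_lit 156) (nat_lit 152) (nat_lit 0) (XT.nd (nat_lit 78) (nat_lit 76) (nat_lit 0) (XT.lf (nat_lit 0) (nat_lit 4800245629) (nat_lit 152) (nat_lit 16359086173)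 (nat_lit 0) (nat_lit 4310609988) (nat_lit 23) (nat_lit 5) (nat_lit 25) (nat_lit 4) (nat_lit 23) (nat_lit 4) (nat_lit 446) (nat_lit 379) (nat_lit 375)) (XT.lf (nat_lit 0) (nat_lit 3361455447) (nat_lit 76) (nat_lit 11956860448) (nat_lit 76) (nat_lit 11366613385) (nat_lit 22) (nat_lit 4) (nat_lit 23) (nat_lit 5) (nat_lit 23) (nat_lit 4) (nat_lit 447) (nat_lit 379) (nat_lit 374))) (XT.nd (nat_lit 78) (nat_lit 152) (nat_lit 0) (XT.lf (nat_lit 0) (nat_lit 24636742804) (nat_lit 76) (nat_lit 2022629019) (nat_lit 76) (nat_lit 1339223232) (nat_lit 22) (nat_lit 4) (nat_lit 23) (nat_lit 5) (nat_lit 23) (nat_lit 4) (nat_lit 448) (nat_lit 379) (nat_lit 373)) (XT.lf (nat_lit 0) (nat_lit 9220513199) (nat_lit 152) (nat_lit 11654329989) (nat_lit 0) (nat_lit 8507861472) (nat_lit 20) (nat_lit 5) (nat_lit 22) (nat_lit 4) (nat_lit 20) (nat_lit 4) (nat_lit 449) (nat_lit 379) (nat_lit 372))))) (XT.nd (nat_lit 312)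 (nat_lit 228) (nat_lit 0) (XT.nd (nat_lit 156) (nat_lit 152) (nat_lit 0) (XT.nd (nat_lit 78) (nat_lit 76) (nat_lit 0) (XT.lf (nat_lit 0) (nat_lit 9295502561) (nat_lit 76) (nat_lit 11185787318) (nat_lit 76) (nat_lit 10399183193) (nat_lit 19) (nat_lit 4) (nat_lit 20) (nat_lit 5) (nat_lit 20) (nat_lit 4) (nat_lit 450) (nat_lit 379) (nat_lit 371)) (XT.lf (nat_lit 0) (nat_lit 23054582) (nat_lit 152) (nat_lit 807125035) (nat_lit 76) (nat_lit 31676771461) (nat_lit 18) (nat_lit 5) (nat_lit 20) (nat_lit 5) (nat_lit 19) (nat_lit 4) (nat_lit 451) (nat_lit 379) (nat_lit 370))) (XT.nd (nat_lit 78) (nat_lit 76) (nat_lit 0) (XT.lf (nat_lit 0) (nat_lit 11087187837) (nat_lit 152) (nat_lit 12888414345) (nat_lit 0) (nat_lit 10236742624) (nat_lit 17) (nat_lit 5) (nat_lit 19) (nat_lit 4) (nat_lit 17) (nat_lit 4) (nat_lit 452) (nat_lit 379) (nat_lit 369)) (XT.lf (nat_lit 0) (nat_lit 8796656807) (nat_lit 76) (nat_lit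 14087259954) (nat_lit 76) (nat_lit 13182457520) (nat_lit 16) (nat_lit 4) (nat_lit 17) (nat_lit 5) (nat_lit 17) (nat_lit 4) (nat_lit 453) (nat_lit 379) (nat_lit 368)))) (XT.nd (nat_lit 156) (nat_lit 76) (nat_lit 0) (XT.nd (nat_lit 78) (nat_lit 152) (nat_lit 0) (XT.lf (nat_lit 0) (nat_lit 32130561537) (nat_lit 76) (nat_lit 3448463900) (nat_lit 76) (nat_lit 2493330706) (nat_lit 16) (nat_lit 4) (nat_lit 17) (nat_lit 5) (nat_lit 17) (nat_lit 4) (nat_lit 454) (nat_lit 379) (nat_lit 367)) (XT.lf (nat_lit 0) (nat_lit 8827821253) (nat_lit 152) (nat_lit 23474921583) (nat_lit 0) (nat_lit 7900288152) (nat_lit 14) (nat_lit 5) (nat_lit 16) (nat_lit 4) (nat_lit 14) (nat_lit 4) (nat_lit 455) (nat_lit 379) (nat_lit 366))) (XT.nd (nat_lit 78) (nat_lit 76) (nat_lit 0) (XT.lf (nat_lit 0) (nat_lit 20798714605) (nat_lit 152) (nat_lit 1878737703) (nat_lit 0) (nat_lit 19831227324) (nat_lit 14) (nat_lit 5) (nat_lit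 16) (nat_lit 4) (nat_lit 14) (nat_lit 4) (nat_lit 456) (nat_lit 379) (nat_lit 365)) (XT.lf (nat_lit 0) (nat_lit 21815570528) (nat_lit 76) (nat_lit 12086840977) (nat_lit 76) (nat_lit 11082359085) (nat_lit 13) (nat_lit 4) (nat_lit 14) (nat_lit 5) (nat_lit 14) (nat_lit 4) (nat_lit 457) (nat_lit 379) (nat_lit 364))))))))
noncomputable def xc47 : XT := (XT.nd (nat_lit 2184) (nat_lit 76) (nat_lit 0) (XT.nd (nat_lit 1092) (nat_lit 228) (nat_lit 0) (XT.nd (nat_lit 546) (nat_lit 228) (nat_lit 0) (XT.nd (nat_lit 234) (nat_lit 228) (nat_lit 0) (XT.nd (nat_lit 78) (nat_lit 76) (nat_lit 0) (XT.lf (nat_lit 0) (nat_lit 78989548) (nat_lit 152) (nat_lit 874437900) (nat_lit 76) (nat_lit 46728496047) (nat_lit 12) (nat_lit 5) (nat_lit 14) (nat_lit 5) (nat_lit 13) (nat_lit 4) (nat_lit 458) (nat_lit 379) (nat_lit 363)) (XT.nd (nat_lit 78) (nat_lit 0) (nat_lit 0) (XT.lf (nat_lit 0) (nat_lit 12054337538) (nat_lit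 152) (nat_lit 27412720182) (nat_lit 0) (nat_lit 11063177281) (nat_lit 11) (nat_lit 5) (nat_lit 13) (nat_lit 4) (nat_lit 11) (nat_lit 4) (nat_lit 459) (nat_lit 379) (nat_lit 362)) (XT.lf (nat_lit 0) (nat_lit 24713746525) (nat_lit 152) (nat_lit 5219188851) (nat_lit 0) (nat_lit 23695394125) (nat_lit 11) (nat_lit 5) (nat_lit 13) (nat_lit 4) (nat_lit 11) (nat_lit 4) (nat_lit 460) (nat_lit 379) (nat_lit 361)))) (XT.nd (nat_lit 156) (nat_lit 152) (nat_lit 0) (XT.nd (nat_lit 78) (nat_lit 0) (nat_lit 0) (XT.lf (nat_lit 0) (nat_lit 19086206776) (nat_lit 76) (nat_lit 19459409559) (nat_lit 76) (nat_lit 18415879248) (nat_lit 10) (nat_lit 4) (nat_lit 11) (nat_lit 5) (nat_lit 11) (nat_lit 4) (nat_lit 461) (nat_lit 379) (nat_lit 360)) (XT.lf (nat_lit 0) (nat_lit 45030121758) (nat_lit 76) (nat_lit 8304976023) (nat_lit 76) (nat_lit 7238132832) (nat_lit 10) (nat_lit 4) (nat_lit 11) (nat_lit 5) (nat_lit 11)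 (nat_lit 4) (nat_lit 462) (nat_lit 379) (nat_lit 359))) (XT.nd (nat_lit 78) (nat_lit 0) (nat_lit 0) (XT.lf (nat_lit 0) (nat_lit 4605724297) (nat_lit 152) (nat_lit 56259864972) (nat_lit 0) (nat_lit 3597919491) (nat_lit 8) (nat_lit 5) (nat_lit 10) (nat_lit 4) (nat_lit 8) (nat_lit 4) (nat_lit 463) (nat_lit 379) (nat_lit 358)) (XT.lf (nat_lit 0) (nat_lit 17380885974) (nat_lit 152) (nat_lit 34884521300) (nat_lit 0) (nat_lit 16354574651) (nat_lit 8) (nat_lit 5) (nat_lit 10) (nat_lit 4) (nat_lit 8) (nat_lit 4) (nat_lit 464) (nat_lit 379) (nat_lit 357))))) (XT.nd (nat_lit 234) (nat_lit 152) (nat_lit 0) (XT.nd (nat_lit 78) (nat_lit 76) (nat_lit 0) (XT.lf (nat_lit 0) (nat_lit 30921685590) (nat_lit 152) (nat_lit 12329559205) (nat_lit 0) (nat_lit 29878238605) (nat_lit 8) (nat_lit 5) (nat_lit 10) (nat_lit 4) (nat_lit 8) (nat_lit 4) (nat_lit 465) (nat_lit 379) (nat_lit 356)) (XT.nd (nat_lit 78) (nat_lit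 0) (nat_lit 0) (XT.lf (nat_lit 0) (nat_lit 12146286806) (nat_lit 76) (nat_lit 33454196606) (nat_lit 76) (nat_lit 32394883266) (nat_lit 7) (nat_lit 4) (nat_lit 8) (nat_lit 5) (nat_lit 8) (nat_lit 4) (nat_lit 466) (nat_lit 379) (nat_lit 355)) (XT.lf (nat_lit 0) (nat_lit 38802707352) (nat_lit 76) (nat_lit 22756677060) (nat_lit 76) (nat_lit 21682672651) (nat_lit 7) (nat_lit 4) (nat_lit 8) (nat_lit 5) (nat_lit 8) (nat_lit 4) (nat_lit 467) (nat_lit 379) (nat_lit 354)))) (XT.nd (nat_lit 156) (nat_lit 0) (nat_lit 0) (XT.nd (nat_lit 78) (nat_lit 152) (nat_lit 0) (XT.lf (nat_lit 0) (nat_lit 67148413667) (nat_lit 76) (nat_lit 11432405447) (nat_lit 76) (nat_lit 10344798196) (nat_lit 7) (nat_lit 4) (nat_lit 8) (nat_lit 5) (nat_lit 8) (nat_lit 4) (nat_lit 468) (nat_lit 379) (nat_lit 353)) (XT.lf (nat_lit 0) (nat_lit 1674681241) (nat_lit 152) (nat_lit 92739980313) (nat_lit 0) (nat_lit 655975246) (nat_lit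 5) (nat_lit 5) (nat_lit 7) (nat_lit 4) (nat_lit 5) (nat_lit 4) (nat_lit 469) (nat_lit 379) (nat_lit 352))) (XT.nd (nat_lit 78) (nat_lit 0) (nat_lit 0) (XT.lf (nat_lit 0) (nat_lit 14801302267) (nat_lit 152) (nat_lit 73056304604) (nat_lit 0) (nat_lit 13771797898) (nat_lit 5) (nat_lit 5) (nat_lit 7) (nat_lit 4) (nat_lit 5) (nat_lit 4) (nat_lit 470) (nat_lit 379) (nat_lit 351)) (XT.lf (nat_lit 0) (nat_lit 28789749688) (nat_lit 152) (nat_lit 52187942194) (nat_lit 0) (nat_lit 27750246824) (nat_lit 5) (nat_lit 5) (nat_lit 7) (nat_lit 4) (nat_lit 5) (nat_lit 4) (nat_lit 471) (nat_lit 379) (nat_lit 350)))))) (XT.nd (nat_lit 546) (nat_lit 152) (nat_lit 0) (XT.nd (nat_lit 234) (nat_lit 0) (nat_lit 0) (XT.nd (nat_lit 78) (nat_lit 76) (nat_lit 0) (XT.lf (nat_lit 0) (nat_lit 43722918007) (nat_lit 152) (nat_lit 30011228711) (nat_lit 0) (nat_lit 42674157278) (nat_lit 5) (nat_lit 5) (nat_lit 7) (nat_lit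 4) (nat_lit 5) (nat_lit 4) (nat_lit 472) (nat_lit 379) (nat_lit 349)) (XT.nd (nat_lit 78) (nat_lit 76) (nat_lit 0) (XT.lf (nat_lit 0) (nat_lit 59689300074) (nat_lit 152) (nat_lit 6394746595) (nat_lit 0) (nat_lit 58631967247) (nat_lit 5) (nat_lit 5) (nat_lit 7) (nat_lit 4) (nat_lit 5) (nat_lit 4) (nat_lit 473) (nat_lit 379) (nat_lit 348)) (XT.lf (nat_lit 0) (nat_lit 19791504908) (nat_lit 76) (nat_lit 57467992746) (nat_lit 76) (nat_lit 56402722792) (nat_lit 4) (nat_lit 4) (nat_lit 5) (nat_lit 5) (nat_lit 5) (nat_lit 4) (nat_lit 474) (nat_lit 379) (nat_lit 347)))) (XT.nd (nat_lit 156) (nat_lit 0) (nat_lit 0) (XT.nd (nat_lit 78) (nat_lit 0) (nat_lit 0) (XT.lf (nat_lit 0) (nat_lit 48134569011) (nat_lit 76) (nat_lit 48129919804) (nat_lit 76) (nat_lit 47057300658) (nat_lit 4) (nat_lit 4) (nat_lit 5) (nat_lit 5) (nat_lit 5) (nat_lit 4) (nat_lit 475) (nat_lit 379) (nat_lit 346)) (XT.lf (nat_lit 0)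 (nat_lit 78465668587) (nat_lit 76) (nat_lit 38189334820) (nat_lit 76) (nat_lit 37109910866) (nat_lit 4) (nat_lit 4) (nat_lit 5) (nat_lit 5) (nat_lit 5) (nat_lit 4) (nat_lit 476) (nat_lit 379) (nat_lit 345))) (XT.nd (nat_lit 78) (nat_lit 0) (nat_lit 0) (XT.lf (nat_lit 0) (nat_lit 110964543486) (nat_lit 76) (nat_lit 27587330622) (nat_lit 76) (nat_lit 26501605920) (nat_lit 4) (nat_lit 4) (nat_lit 5) (nat_lit 5) (nat_lit 5) (nat_lit 4) (nat_lit 477) (nat_lit 379) (nat_lit 344)) (XT.lf (nat_lit 0) (nat_lit 145823779633) (nat_lit 76) (nat_lit 16261080520) (nat_lit 76) (nat_lit 15169521793) (nat_lit 4) (nat_lit 4) (nat_lit 5) (nat_lit 5) (nat_lit 5) (nat_lit 4) (nat_lit 478) (nat_lit 379) (nat_lit 343))))) (XT.nd (nat_lit 234) (nat_lit 0) (nat_lit 0) (XT.nd (nat_lit 78) (nat_lit 152) (nat_lit 0) (XT.lf (nat_lit 0) (nat_lit 183249950279) (nat_lit 76) (nat_lit 4143465995) (nat_lit 76) (nat_lit 3046505392)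 (nat_lit 4) (nat_lit 4) (nat_lit 5) (nat_lit 5) (nat_lit 5) (nat_lit 4) (nat_lit 479) (nat_lit 379) (nat_lit 342)) (XT.nd (nat_lit 78) (nat_lit 0) (nat_lit 0) (XT.lf (nat_lit 0) (nat_lit 10142321964) (nat_lit 152) (nat_lit 185348784746) (nat_lit 0) (nat_lit 9121986465) (nat_lit 2) (nat_lit 5) (nat_lit 4) (nat_lit 4) (nat_lit 2) (nat_lit 4) (nat_lit 480) (nat_lit 379) (nat_lit 341)) (XT.lf (nat_lit 0) (nat_lit 24429305917) (nat_lit 152) (nat_lit 172063188702) (nat_lit 0) (nat_lit 23404682235) (nat_lit 2) (nat_lit 5) (nat_lit 4) (nat_lit 4) (nat_lit 2) (nat_lit 4) (nat_lit 481) (nat_lit 379) (nat_lit 340)))) (XT.nd (nat_lit 156) (nat_lit 0) (nat_lit 0) (XT.nd (nat_lit 78) (nat_lit 0) (nat_lit 0) (XT.lf (nat_lit 0) (nat_lit 39765105653) (nat_lit 152) (nat_lit 157909901684) (nat_lit 0) (nat_lit 38736511430) (nat_lit 2) (nat_lit 5) (nat_lit 4) (nat_lit 4) (nat_lit 2) (nat_lit 4) (nat_lit 482)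 (nat_lit 379) (nat_lit 339)) (XT.lf (nat_lit 0) (nat_lit 56240599983) (nat_lit 152) (nat_lit 142805052364) (nat_lit 0) (nat_lit 55208329335) (nat_lit 2) (nat_lit 5) (nat_lit 4) (nat_lit 4) (nat_lit 2) (nat_lit 4) (nat_lit 483) (nat_lit 379) (nat_lit 338))) (XT.nd (nat_lit 78) (nat_lit 0) (nat_lit 0) (XT.lf (nat_lit 0) (nat_lit 73953421468) (nat_lit 152) (nat_lit 126659130523) (nat_lit 0) (nat_lit 72917746721) (nat_lit 2) (nat_lit 5) (nat_lit 4) (nat_lit 4) (nat_lit 2) (nat_lit 4) (nat_lit 484) (nat_lit 379) (nat_lit 337)) (XT.lf (nat_lit 0) (nat_lit 93008534975) (nat_lit 152) (nat_lit 109376456624) (nat_lit 0) (nat_lit 91969708286) (nat_lit 2) (nat_lit 5) (nat_lit 4) (nat_lit 4) (nat_lit 2) (nat_lit 4) (nat_lit 485) (nat_lit 379) (nat_lit 336))))))) (XT.nd (nat_lit 1092) (nat_lit 0) (nat_lit 0) (XT.nd (nat_lit 546) (nat_lit 0) (nat_lit 0) (XT.nd (nat_lit 234) (nat_lit 76) (nat_lit 0) (XT.nd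 (nat_lit 78) (nat_lit 0) (nat_lit 0) (XT.lf (nat_lit 0) (nat_lit 113518859695) (nat_lit 152) (nat_lit 90854614822) (nat_lit 0) (nat_lit 112477114541) (nat_lit 2) (nat_lit 5) (nat_lit 4) (nat_lit 4) (nat_lit 2) (nat_lit 4) (nat_lit 486) (nat_lit 379) (nat_lit 335)) (XT.nd (nat_lit 78) (nat_lit 0) (nat_lit 0) (XT.lf (nat_lit 0) (nat_lit 135605938295) (nat_lit 152) (nat_lit 70983846054) (nat_lit 0) (nat_lit 134561490858) (nat_lit 2) (nat_lit 5) (nat_lit 4) (nat_lit 4) (nat_lit 2) (nat_lit 4) (nat_lit 487) (nat_lit 379) (nat_lit 334)) (XT.lf (nat_lit 0) (nat_lit 159400657164) (nat_lit 152) (nat_lit 49646397617) (nat_lit 0) (nat_lit 158353707614) (nat_lit 2) (nat_lit 5) (nat_lit 4) (nat_lit 4) (nat_lit 2) (nat_lit 4) (nat_lit 488) (nat_lit 379) (nat_lit 333)))) (XT.nd (nat_lit 156) (nat_lit 76) (nat_lit 0) (XT.nd (nat_lit 78) (nat_lit 0) (nat_lit 0) (XT.lf (nat_lit 0) (nat_lit 185044022045) (nat_lit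 152) (nat_lit 26715825371) (nat_lit 0) (nat_lit 183994755723) (nat_lit 2) (nat_lit 5) (nat_lit 4) (nat_lit 4) (nat_lit 2) (nat_lit 4) (nat_lit 489) (nat_lit 379) (nat_lit 332)) (XT.lf (nat_lit 0) (nat_lit 212687993619) (nat_lit 152) (nat_lit 2056244444) (nat_lit 0) (nat_lit 211636582138) (nat_lit 2) (nat_lit 5) (nat_lit 4) (nat_lit 4) (nat_lit 2) (nat_lit 4) (nat_lit 490) (nat_lit 379) (nat_lit 331))) (XT.nd (nat_lit 78) (nat_lit 0) (nat_lit 0) (XT.lf (nat_lit 0) (nat_lit 25767469180) (nat_lit 76) (nat_lit 217348627086) (nat_lit 76) (nat_lit 216295229347) (nat_lit 1) (nat_lit 4) (nat_lit 2) (nat_lit 5) (nat_lit 2) (nat_lit 4) (nat_lit 491) (nat_lit 379) (nat_lit 330)) (XT.lf (nat_lit 0) (nat_lit 55838864963) (nat_lit 76) (nat_lit 220149908646) (nat_lit 76) (nat_lit 219094671778) (nat_lit 1) (nat_lit 4) (nat_lit 2) (nat_lit 5) (nat_lit 2) (nat_lit 4) (nat_lit 492) (nat_lit 379) (nat_lit 329)))))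 (XT.nd (nat_lit 234) (nat_lit 0) (nat_lit 0) (XT.nd (nat_lit 78) (nat_lit 0) (nat_lit 0) (XT.lf (nat_lit 0) (nat_lit 88227865580) (nat_lit 76) (nat_lit 223220904297) (nat_lit 76) (nat_lit 222163964533) (nat_lit 1) (nat_lit 4) (nat_lit 2) (nat_lit 5) (nat_lit 2) (nat_lit 4) (nat_lit 493) (nat_lit 379) (nat_lit 328)) (XT.nd (nat_lit 78) (nat_lit 0) (nat_lit 0) (XT.lf (nat_lit 0) (nat_lit 123126405850) (nat_lit 76) (nat_lit 226579812533) (nat_lit 76) (nat_lit 225521296012) (nat_lit 1) (nat_lit 4) (nat_lit 2) (nat_lit 5) (nat_lit 2) (nat_lit 4) (nat_lit 494) (nat_lit 379) (nat_lit 327)) (XT.lf (nat_lit 0) (nat_lit 160741291937) (nat_lit 76) (nat_lit 230246537993) (nat_lit 76) (nat_lit 229186561514) (nat_lit 1) (nat_lit 4) (nat_lit 2) (nat_lit 5) (nat_lit 2) (nat_lit 4) (nat_lit 495) (nat_lit 379) (nat_lit 326)))) (XT.nd (nat_lit 156) (nat_lit 0) (nat_lit 0) (XT.nd (nat_lit 78) (nat_lit 0) (nat_lit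 0) (XT.lf (nat_lit 0) (nat_lit 201295426870) (nat_lit 76) (nat_lit 234242809423) (nat_lit 76) (nat_lit 233181481129) (nat_lit 1) (nat_lit 4) (nat_lit 2) (nat_lit 5) (nat_lit 2) (nat_lit 4) (nat_lit 496) (nat_lit 379) (nat_lit 325)) (XT.lf (nat_lit 0) (nat_lit 245029131447) (nat_lit 76) (nat_lit 238592308430) (nat_lit 76) (nat_lit 237529728457) (nat_lit 1) (nat_lit 4) (nat_lit 2) (nat_lit 5) (nat_lit 2) (nat_lit 4) (nat_lit 497) (nat_lit 379) (nat_lit 324))) (XT.nd (nat_lit 78) (nat_lit 0) (nat_lit 0) (XT.lf (nat_lit 0) (nat_lit 292201568364) (nat_lit 76) (nat_lit 243320809824) (nat_lit 76) (nat_lit 242257070888) (nat_lit 1) (nat_lit 4) (nat_lit 2) (nat_lit 5) (nat_lit 2) (nat_lit 4) (nat_lit 498) (nat_lit 379) (nat_lit 323)) (XT.lf (nat_lit 0) (nat_lit 343092277987) (nat_lit 76) (nat_lit 248456334353) (nat_lit 76) (nat_lit 247391522303) (nat_lit 1) (nat_lit 4) (nat_lit 2) (nat_lit 5) (nat_lit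 2) (nat_lit 4) (nat_lit 499) (nat_lit 379) (nat_lit 322)))))) (XT.nd (nat_lit 546) (nat_lit 0) (nat_lit 0) (XT.nd (nat_lit 234) (nat_lit 0) (nat_lit 0) (XT.nd (nat_lit 78) (nat_lit 0) (nat_lit 0) (XT.lf (nat_lit 0) (nat_lit 398002834891) (nat_lit 76) (nat_lit 254029314756) (nat_lit 76) (nat_lit 252963509082) (nat_lit 1) (nat_lit 4) (nat_lit 2) (nat_lit 5) (nat_lit 2) (nat_lit 4) (nat_lit 500) (nat_lit 379) (nat_lit 321)) (XT.nd (nat_lit 78) (nat_lit 0) (nat_lit 0) (XT.lf (nat_lit 0) (nat_lit 457258634969) (nat_lit 76) (nat_lit 260072776101) (nat_lit 76) (nat_lit 259006050405) (nat_lit 1) (nat_lit 4) (nat_lit 2) (nat_lit 5) (nat_lit 2) (nat_lit 4) (nat_lit 501) (nat_lit 379) (nat_lit 320)) (XT.lf (nat_lit 0) (nat_lit 521210823704) (nat_lit 76) (nat_lit 266622531492) (nat_lit 76) (nat_lit 265554953924) (nat_lit 1) (nat_lit 4) (nat_lit 2) (nat_lit 5) (nat_lit 2) (nat_lit 4) (nat_lit 502) (nat_lit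 379) (nat_lit 319)))) (XT.nd (nat_lit 156) (nat_lit 0) (nat_lit 0) (XT.nd (nat_lit 78) (nat_lit 0) (nat_lit 0) (XT.lf (nat_lit 0) (nat_lit 590238377028) (nat_lit 76) (nat_lit 273717394296) (nat_lit 76) (nat_lit 272649027957) (nat_lit 1) (nat_lit 4) (nat_lit 2) (nat_lit 5) (nat_lit 2) (nat_lit 4) (nat_lit 503) (nat_lit 379) (nat_lit 318)) (XT.lf (nat_lit 0) (nat_lit 664750347109) (nat_lit 76) (nat_lit 281399408142) (nat_lit 76) (nat_lit 280330311461) (nat_lit 1) (nat_lit 4) (nat_lit 2) (nat_lit 5) (nat_lit 2) (nat_lit 4) (nat_lit 504) (nat_lit 379) (nat_lit 317))) (XT.nd (nat_lit 78) (nat_lit 0) (nat_lit 0) (XT.lf (nat_lit 0) (nat_lit 745188286363) (nat_lit 76) (nat_lit 289714096078) (nat_lit 76) (nat_lit 288644323153) (nat_lit 1) (nat_lit 4) (nat_lit 2) (nat_lit 5) (nat_lit 2) (nat_lit 4) (nat_lit 505) (nat_lit 379) (nat_lit 316)) (XT.lf (nat_lit 0) (nat_lit 832028864059) (nat_lit 76) (nat_lit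 298710730326) (nat_lit 76) (nat_lit 297640331250) (nat_lit 1) (nat_lit 4) (nat_lit 2) (nat_lit 5) (nat_lit 2) (nat_lit 4) (nat_lit 506) (nat_lit 379) (nat_lit 315))))) (XT.nd (nat_lit 312) (nat_lit 0) (nat_lit 0) (XT.nd (nat_lit 156) (nat_lit 0) (nat_lit 0) (XT.nd (nat_lit 78) (nat_lit 0) (nat_lit 0) (XT.lf (nat_lit 0) (nat_lit 925786691029) (nat_lit 76) (nat_lit 308442624276) (nat_lit 76) (nat_lit 307371645430) (nat_lit 1) (nat_lit 4) (nat_lit 2) (nat_lit 5) (nat_lit 2) (nat_lit 4) (nat_lit 507) (nat_lit 379) (nat_lit 314)) (XT.lf (nat_lit 0) (nat_lit 1027017369208) (nat_lit 76) (nat_lit 318967448410) (nat_lit 76) (nat_lit 317895932739) (nat_lit 1) (nat_lit 4) (nat_lit 2) (nat_lit 5) (nat_lit 2) (nat_lit 4) (nat_lit 508) (nat_lit 379) (nat_lit 313))) (XT.nd (nat_lit 78) (nat_lit 0) (nat_lit 0) (XT.lf (nat_lit 0) (nat_lit 1136320784099) (nat_lit 76) (nat_lit 330347572056) (nat_lit 76) (nat_lit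 329275559326) (nat_lit 1) (nat_lit 4) (nat_lit 2) (nat_lit 5) (nat_lit 2) (nat_lit 4) (nat_lit 509) (nat_lit 379) (nat_lit 312)) (XT.lf (nat_lit 0) (nat_lit 1254344659641) (nat_lit 76) (nat_lit 342650432984) (nat_lit 76) (nat_lit 341577960014) (nat_lit 1) (nat_lit 4) (nat_lit 2) (nat_lit 5) (nat_lit 2) (nat_lit 4) (nat_lit 510) (nat_lit 379) (nat_lit 311)))) (XT.nd (nat_lit 156) (nat_lit 0) (nat_lit 0) (XT.nd (nat_lit 78) (nat_lit 0) (nat_lit 0) (XT.lf (nat_lit 0) (nat_lit 1381788396578) (nat_lit 76) (nat_lit 355948937036) (nat_lit 76) (nat_lit 354876037918) (nat_lit 1) (nat_lit 4) (nat_lit 2) (nat_lit 5) (nat_lit 2) (nat_lit 4) (nat_lit 511) (nat_lit 379) (nat_lit 310)) (XT.lf (nat_lit 0) (nat_lit 1519407217054) (nat_lit 76) (nat_lit 370321890163) (nat_lit 76) (nat_lit 369248596464) (nat_lit 1) (nat_lit 4) (nat_lit 2) (nat_lit 5) (nat_lit 2) (nat_lit 4) (nat_lit 512) (nat_lit 379) (nat_lit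 309))) (XT.nd (nat_lit 78) (nat_lit 0) (nat_lit 0) (XT.lf (nat_lit 0) (nat_lit 1668016640007) (nat_lit 76) (nat_lit 385854465420) (nat_lit 76) (nat_lit 384780806367) (nat_lit 1) (nat_lit 4) (nat_lit 2) (nat_lit 5) (nat_lit 2) (nat_lit 4) (nat_lit 513) (nat_lit 379) (nat_lit 308)) (XT.lf (nat_lit 0) (nat_lit 1828497313868) (nat_lit 76) (nat_lit 402638707698) (nat_lit 76) (nat_lit 401564710355) (nat_lit 1) (nat_lit 4) (nat_lit 2) (nat_lit 5) (nat_lit 2) (nat_lit 4) (nat_lit 514) (nat_lit 379) (nat_lit 307))))))))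
noncomputable def xc48 : XT := (XT.nd (nat_lit 2184) (nat_lit 0) (nat_lit 0) (XT.nd (nat_lit 1092) (nat_lit 0) (nat_lit 0) (XT.nd (nat_lit 546) (nat_lit 0) (nat_lit 0) (XT.nd (nat_lit 234) (nat_lit 0) (nat_lit 0) (XT.nd (nat_lit 78) (nat_lit 0) (nat_lit 0) (XT.lf (nat_lit 0) (nat_lit 2001800235223) (nat_lit 76) (nat_lit 420774079172) (nat_lit 76) (nat_lit 419699768597) (nat_lit 1) (nat_lit 4) (nat_lit 2) (nat_lit 5) (nat_lit 2) (nat_lit 4) (nat_lit 515) (nat_lit 379) (nat_lit 306)) (XT.nd (nat_lit 78) (nat_lit 0) (nat_lit 0) (XT.lf (nat_lit 0) (nat_lit 2188952384347) (nat_lit 76) (nat_lit 440368048711) (nat_lit 76) (nat_lit 439293448107) (nat_lit 1) (nat_lit 4) (nat_lit 2) (nat_lit 5) (nat_lit 2) (nat_lit 4) (nat_lit 516) (nat_lit 379) (nat_lit 305)) (XT.lf (nat_lit 0) (nat_lit 2391062811012) (nat_lit 76) (nat_lit 461536728727) (nat_lit 76) (nat_lit 460461859577) (nat_lit 1) (nat_lit 4)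 (nat_lit 2) (nat_lit 5) (nat_lit 2) (nat_lit 4) (nat_lit 517) (nat_lit 379) (nat_lit 304)))) (XT.nd (nat_lit 156) (nat_lit 0) (nat_lit 0) (XT.nd (nat_lit 78) (nat_lit 0) (nat_lit 0) (XT.lf (nat_lit 0) (nat_lit 2609329206636) (nat_lit 76) (nat_lit 484405563250) (nat_lit 76) (nat_lit 483330445447) (nat_lit 1) (nat_lit 4) (nat_lit 2) (nat_lit 5) (nat_lit 2) (nat_lit 4) (nat_lit 518) (nat_lit 379) (nat_lit 303)) (XT.lf (nat_lit 0) (nat_lit 2845045001711) (nat_lit 76) (nat_lit 509110071299) (nat_lit 76) (nat_lit 508034723261) (nat_lit 1) (nat_lit 4) (nat_lit 2) (nat_lit 5) (nat_lit 2) (nat_lit 4) (nat_lit 519) (nat_lit 379) (nat_lit 302))) (XT.nd (nat_lit 78) (nat_lit 0) (nat_lit 0) (XT.lf (nat_lit 0) (nat_lit 3099607030578) (nat_lit 76) (nat_lit 535796649958) (nat_lit 76) (nat_lit 534721088740) (nat_lit 1) (nat_lit 4) (nat_lit 2) (nat_lit 5) (nat_lit 2) (nat_lit 4) (nat_lit 520) (nat_lit 379)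 (nat_lit 301)) (XT.lf (nat_lit 0) (nat_lit 3374523808965) (nat_lit 76) (nat_lit 564623441917) (nat_lit 76) (nat_lit 563547683310) (nat_lit 1) (nat_lit 4) (nat_lit 2) (nat_lit 5) (nat_lit 2) (nat_lit 4) (nat_lit 521) (nat_lit 379) (nat_lit 300))))) (XT.nd (nat_lit 234) (nat_lit 0) (nat_lit 0) (XT.nd (nat_lit 78) (nat_lit 0) (nat_lit 0) (XT.lf (nat_lit 0) (nat_lit 3671424473335) (nat_lit 76) (nat_lit 595761272609) (nat_lit 76) (nat_lit 594685331234) (nat_lit 1) (nat_lit 4) (nat_lit 2) (nat_lit 5) (nat_lit 2) (nat_lit 4) (nat_lit 522) (nat_lit 379) (nat_lit 299)) (XT.nd (nat_lit 78) (nat_lit 0) (nat_lit 0) (XT.lf (nat_lit 0) (nat_lit 3992068435034) (nat_lit 76) (nat_lit 629394662512) (nat_lit 76) (nat_lit 628318551908) (nat_lit 1) (nat_lit 4) (nat_lit 2) (nat_lit 5) (nat_lit 2) (nat_lit 4) (nat_lit 523) (nat_lit 379) (nat_lit 298)) (XT.lf (nat_lit 0) (nat_lit 4338355806425) (nat_lit 76) (nat_lit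 665722920603) (nat_lit 76) (nat_lit 664646653305) (nat_lit 1) (nat_lit 4) (nat_lit 2) (nat_lit 5) (nat_lit 2) (nat_lit 4) (nat_lit 524) (nat_lit 379) (nat_lit 297)))) (XT.nd (nat_lit 156) (nat_lit 0) (nat_lit 0) (XT.nd (nat_lit 78) (nat_lit 0) (nat_lit 0) (XT.lf (nat_lit 0) (nat_lit 4712338660823) (nat_lit 76) (nat_lit 704961325449) (nat_lit 76) (nat_lit 703884913065) (nat_lit 1) (nat_lit 4) (nat_lit 2) (nat_lit 5) (nat_lit 2) (nat_lit 4) (nat_lit 525) (nat_lit 379) (nat_lit 296)) (XT.lf (nat_lit 0) (nat_lit 5116233192919) (nat_lit 76) (nat_lit 747342400931) (nat_lit 76) (nat_lit 746265854207) (nat_lit 1) (nat_lit 4) (nat_lit 2) (nat_lit 5) (nat_lit 2) (nat_lit 4) (nat_lit 526) (nat_lit 379) (nat_lit 295))) (XT.nd (nat_lit 78) (nat_lit 0) (nat_lit 0) (XT.lf (nat_lit 0) (nat_lit 5552432851792) (nat_lit 76) (nat_lit 793117294162) (nat_lit 76) (nat_lit 792040623049) (nat_lit 1) (nat_lit 4)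 (nat_lit 2) (nat_lit 5) (nat_lit 2) (nat_lit 4) (nat_lit 527) (nat_lit 379) (nat_lit 294)) (XT.lf (nat_lit 0) (nat_lit 6023522524309) (nat_lit 76) (nat_lit 842557263769) (nat_lit 76) (nat_lit 841480477481) (nat_lit 1) (nat_lit 4) (nat_lit 2) (nat_lit 5) (nat_lit 2) (nat_lit 4) (nat_lit 528) (nat_lit 379) (nat_lit 293)))))) (XT.nd (nat_lit 546) (nat_lit 0) (nat_lit 0) (XT.nd (nat_lit 234) (nat_lit 0) (nat_lit 0) (XT.nd (nat_lit 78) (nat_lit 0) (nat_lit 0) (XT.lf (nat_lit 0) (nat_lit 6532293852976) (nat_lit 76) (nat_lit 895955287349) (nat_lit 76) (nat_lit 894878394419) (nat_lit 1) (nat_lit 4) (nat_lit 2) (nat_lit 5) (nat_lit 2) (nat_lit 4) (nat_lit 529) (nat_lit 379) (nat_lit 292)) (XT.nd (nat_lit 78) (nat_lit 0) (nat_lit 0) (XT.lf (nat_lit 0) (nat_lit 7081761778998) (nat_lit 76) (nat_lit 953627797636) (nat_lit 76) (nat_lit 952550805961) (nat_lit 1) (nat_lit 4) (nat_lit 2) (nat_lit 5) (nat_lit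 2) (nat_lit 4) (nat_lit 530) (nat_lit 379) (nat_lit 291)) (XT.lf (nat_lit 0) (nat_lit 7675182408604) (nat_lit 76) (nat_lit 1015916557652) (nat_lit 76) (nat_lit 1014839474548) (nat_lit 1) (nat_lit 4) (nat_lit 2) (nat_lit 5) (nat_lit 2) (nat_lit 4) (nat_lit 531) (nat_lit 379) (nat_lit 290)))) (XT.nd (nat_lit 156) (nat_lit 0) (nat_lit 0) (XT.nd (nat_lit 78) (nat_lit 0) (nat_lit 0) (XT.lf (nat_lit 0) (nat_lit 8316072308487) (nat_lit 76) (nat_lit 1083190685976) (nat_lit 76) (nat_lit 1082113518215) (nat_lit 1) (nat_lit 4) (nat_lit 2) (nat_lit 5) (nat_lit 2) (nat_lit 4) (nat_lit 532) (nat_lit 379) (nat_lit 289)) (XT.lf (nat_lit 0) (nat_lit 9008229344722) (nat_lit 76) (nat_lit 1155848844109) (nat_lit 76) (nat_lit 1154771597962) (nat_lit 1) (nat_lit 4) (nat_lit 2) (nat_lit 5) (nat_lit 2) (nat_lit 4) (nat_lit 533) (nat_lit 379) (nat_lit 288))) (XT.nd (nat_lit 78) (nat_lit 0) (nat_lit 0) (XT.lf (nat_lit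 0) (nat_lit 9755755188633) (nat_lit 76) (nat_lit 1234321598913) (nat_lit 76) (nat_lit 1233244280187) (nat_lit 1) (nat_lit 4) (nat_lit 2) (nat_lit 5) (nat_lit 2) (nat_lit 4) (nat_lit 534) (nat_lit 379) (nat_lit 287)) (XT.lf (nat_lit 0) (nat_lit 10563079623000) (nat_lit 76) (nat_lit 1319073974122) (nat_lit 76) (nat_lit 1317996588193) (nat_lit 1) (nat_lit 4) (nat_lit 2) (nat_lit 5) (nat_lit 2) (nat_lit 4) (nat_lit 535) (nat_lit 379) (nat_lit 286))))) (XT.nd (nat_lit 234) (nat_lit 0) (nat_lit 0) (XT.nd (nat_lit 78) (nat_lit 0) (nat_lit 0) (XT.lf (nat_lit 0) (nat_lit 11434986792619) (nat_lit 76) (nat_lit 1410608206033) (nat_lit 76) (nat_lit 1409530757878) (nat_lit 1) (nat_lit 4) (nat_lit 2) (nat_lit 5) (nat_lit 2) (nat_lit 4) (nat_lit 536) (nat_lit 379) (nat_lit 285)) (XT.nd (nat_lit 78) (nat_lit 0) (nat_lit 0) (XT.lf (nat_lit 0) (nat_lit 12376643554792) (nat_lit 76) (nat_lit 1509466719723) (nat_lit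 76) (nat_lit 1508389213952) (nat_lit 1) (nat_lit 4) (nat_lit 2) (nat_lit 5) (nat_lit 2) (nat_lit 4) (nat_lit 537) (nat_lit 379) (nat_lit 284)) (XT.lf (nat_lit 0) (nat_lit 13393630097738) (nat_lit 76) (nat_lit 1616235343422) (nat_lit 76) (nat_lit 1615157784303) (nat_lit 1) (nat_lit 4) (nat_lit 2) (nat_lit 5) (nat_lit 2) (nat_lit 4) (nat_lit 538) (nat_lit 379) (nat_lit 283)))) (XT.nd (nat_lit 156) (nat_lit 0) (nat_lit 0) (XT.nd (nat_lit 78) (nat_lit 0) (nat_lit 0) (XT.lf (nat_lit 0) (nat_lit 14491973008379) (nat_lit 76) (nat_lit 1731546780085) (nat_lit 76) (nat_lit 1730469171570) (nat_lit 1) (nat_lit 4) (nat_lit 2) (nat_lit 5) (nat_lit 2) (nat_lit 4) (nat_lit 539) (nat_lit 379) (nat_lit 282)) (XT.lf (nat_lit 0) (nat_lit 15678180985445) (nat_lit 76) (nat_lit 1856084356744) (nat_lit 76) (nat_lit 1855006702492) (nat_lit 1) (nat_lit 4) (nat_lit 2) (nat_lit 5) (nat_lit 2) (nat_lit 4) (nat_lit 540)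 (nat_lit 379) (nat_lit 281))) (XT.nd (nat_lit 78) (nat_lit 0) (nat_lit 0) (XT.lf (nat_lit 0) (nat_lit 16959283409540) (nat_lit 76) (nat_lit 1990586073854) (nat_lit 76) (nat_lit 1989508377252) (nat_lit 1) (nat_lit 4) (nat_lit 2) (nat_lit 5) (nat_lit 2) (nat_lit 4) (nat_lit 541) (nat_lit 379) (nat_lit 280)) (XT.lf (nat_lit 0) (nat_lit 18342871998733) (nat_lit 76) (nat_lit 2135848978626) (nat_lit 76) (nat_lit 2134771242812) (nat_lit 1) (nat_lit 4) (nat_lit 2) (nat_lit 5) (nat_lit 2) (nat_lit 4) (nat_lit 542) (nat_lit 379) (nat_lit 279))))))) (XT.nd (nat_lit 55302) (nat_lit 0) (nat_lit 532) (XT.nd (nat_lit 54756) (nat_lit 0) (nat_lit 1368) (XT.nd (nat_lit 54444) (nat_lit 0) (nat_lit 2052) (XT.nd (nat_lit 78) (nat_lit 0) (nat_lit 0) (XT.lf (nat_lit 0) (nat_lit 19837145796516) (nat_lit 76) (nat_lit 2292733888276) (nat_lit 76) (nat_lit 2291656116153) (nat_lit 1) (nat_lit 4) (nat_lit 2) (nat_lit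 5) (nat_lit 2) (nat_lit 4) (nat_lit 543) (nat_lit 379) (nat_lit 278)) (XT.nd (nat_lit 78) (nat_lit 0) (nat_lit 0) (XT.lf (nat_lit 0) (nat_lit 21450959758727) (nat_lit 76) (nat_lit 2462170491155) (nat_lit 76) (nat_lit 2461092685414) (nat_lit 1) (nat_lit 4) (nat_lit 2) (nat_lit 5) (nat_lit 2) (nat_lit 4) (nat_lit 544) (nat_lit 379) (nat_lit 277)) (XT.lf (nat_lit 0) (nat_lit 23193877227364) (nat_lit 76) (nat_lit 2645162856022) (nat_lit 76) (nat_lit 2644085019153) (nat_lit 1) (nat_lit 4) (nat_lit 2) (nat_lit 5) (nat_lit 2) (nat_lit 4) (nat_lit 545) (nat_lit 379) (nat_lit 276)))) (XT.nd (nat_lit 156) (nat_lit 76) (nat_lit 0) (XT.nd (nat_lit 78) (nat_lit 152) (nat_lit 0) (XT.lf (nat_lit 0) (nat_lit 2388643055) (nat_lit 76) (nat_lit 3713559410) (nat_lit 76) (nat_lit 3713559410) (nat_lit 31) (nat_lit 4) (nat_lit 32) (nat_lit 5) (nat_lit 32) (nat_lit 4) (nat_lit 440) (nat_lit 380) (nat_lit 380))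 (XT.lf (nat_lit 0) (nat_lit 1458073025) (nat_lit 152) (nat_lit 17732529131) (nat_lit 0) (nat_lit 1285642729) (nat_lit 29) (nat_lit 5) (nat_lit 31) (nat_lit 4) (nat_lit 29) (nat_lit 4) (nat_lit 441) (nat_lit 380) (nat_lit 379))) (XT.nd (nat_lit 78) (nat_lit 76) (nat_lit 0) (XT.lf (nat_lit 0) (nat_lit 10780996001) (nat_lit 152) (nat_lit 132957125) (nat_lit 0) (nat_lit 10448908023) (nat_lit 29) (nat_lit 5) (nat_lit 31) (nat_lit 4) (nat_lit 29) (nat_lit 4) (nat_lit 442) (nat_lit 380) (nat_lit 378)) (XT.lf (nat_lit 0) (nat_lit 18918351036) (nat_lit 76) (nat_lit 1940620640) (nat_lit 76) (nat_lit 1460701475) (nat_lit 28) (nat_lit 4) (nat_lit 29) (nat_lit 5) (nat_lit 29) (nat_lit 4) (nat_lit 443) (nat_lit 380) (nat_lit 377))))) (XT.nd (nat_lit 234) (nat_lit 304) (nat_lit 0) (XT.nd (nat_lit 78) (nat_lit 228) (nat_lit 0) (XT.lf (nat_lit 0) (nat_lit 8100460370) (nat_lit 152) (nat_lit 7696679925) (nat_lit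 0) (nat_lit 7529349358) (nat_lit 26) (nat_lit 5) (nat_lit 28) (nat_lit 4) (nat_lit 26) (nat_lit 4) (nat_lit 444) (nat_lit 380) (nat_lit 376)) (XT.nd (nat_lit 78) (nat_lit 152) (nat_lit 0) (XT.lf (nat_lit 0) (nat_lit 11553386989) (nat_lit 76) (nat_lit 6773766135) (nat_lit 76) (nat_lit 6085301960) (nat_lit 25) (nat_lit 4) (nat_lit 26) (nat_lit 5) (nat_lit 26) (nat_lit 4) (nat_lit 445) (nat_lit 380) (nat_lit 375)) (XT.lf (nat_lit 0) (nat_lit 3599192244) (nat_lit 152) (nat_lit 19117553895) (nat_lit 0) (nat_lit 2861113994) (nat_lit 23) (nat_lit 5) (nat_lit 25) (nat_lit 4) (nat_lit 23) (nat_lit 4) (nat_lit 446) (nat_lit 380) (nat_lit 374)))) (XT.nd (nat_lit 156) (nat_lit 228) (nat_lit 0) (XT.nd (nat_lit 78) (nat_lit 76) (nat_lit 0) (XT.lf (nat_lit 0) (nat_lit 13823524906) (nat_lit 152) (nat_lit 534990) (nat_lit 0) (nat_lit 12992287932) (nat_lit 23) (nat_lit 5) (nat_lit 25) (nat_lit 4) (nat_lit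 23) (nat_lit 4) (nat_lit 447) (nat_lit 380) (nat_lit 373)) (XT.lf (nat_lit 0) (nat_lit 20850377097) (nat_lit 76) (nat_lit 4106860079) (nat_lit 76) (nat_lit 3189365027) (nat_lit 22) (nat_lit 4) (nat_lit 23) (nat_lit 5) (nat_lit 23) (nat_lit 4) (nat_lit 448) (nat_lit 380) (nat_lit 372))) (XT.nd (nat_lit 78) (nat_lit 76) (nat_lit 0) (XT.lf (nat_lit 0) (nat_lit 7098208944) (nat_lit 152) (nat_lit 16290516523) (nat_lit 0) (nat_lit 6174724090) (nat_lit 20) (nat_lit 5) (nat_lit 22) (nat_lit 4) (nat_lit 20) (nat_lit 4) (nat_lit 449) (nat_lit 380) (nat_lit 371)) (XT.lf (nat_lit 0) (nat_lit 3990347376) (nat_lit 76) (nat_lit 14044385495) (nat_lit 76) (nat_lit 13052426198) (nat_lit 19) (nat_lit 4) (nat_lit 20) (nat_lit 5) (nat_lit 20) (nat_lit 4) (nat_lit 450) (nat_lit 380) (nat_lit 370)))))) (XT.nd (nat_lit 546) (nat_lit 380) (nat_lit 0) (XT.nd (nat_lit 234) (nat_lit 228) (nat_lit 0) (XT.nd (nat_lit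 78) (nat_lit 228) (nat_lit 0) (XT.lf (nat_lit 0) (nat_lit 26001935208) (nat_lit 76) (nat_lit 3891217724) (nat_lit 76) (nat_lit 2835856165) (nat_lit 19) (nat_lit 4) (nat_lit 20) (nat_lit 5) (nat_lit 20) (nat_lit 4) (nat_lit 451) (nat_lit 380) (nat_lit 369)) (XT.nd (nat_lit 78) (nat_lit 76) (nat_lit 0) (XT.lf (nat_lit 0) (nat_lit 7946457397) (nat_lit 152) (nat_lit 19612383226) (nat_lit 0) (nat_lit 6914913548) (nat_lit 17) (nat_lit 5) (nat_lit 19) (nat_lit 4) (nat_lit 17) (nat_lit 4) (nat_lit 452) (nat_lit 380) (nat_lit 368)) (XT.lf (nat_lit 0) (nat_lit 1324890805) (nat_lit 76) (nat_lit 18056842181) (nat_lit 76) (nat_lit 16974967572) (nat_lit 16) (nat_lit 4) (nat_lit 17) (nat_lit 5) (nat_lit 17) (nat_lit 4) (nat_lit 453) (nat_lit 380) (nat_lit 367)))) (XT.nd (nat_lit 156) (nat_lit 76) (nat_lit 0) (XT.nd (nat_lit 78) (nat_lit 152) (nat_lit 0) (XT.lf (nat_lit 0) (nat_lit 24294235502) (nat_lit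 76) (nat_lit 7605544796) (nat_lit 76) (nat_lit 6477067631) (nat_lit 16) (nat_lit 4) (nat_lit 17) (nat_lit 5) (nat_lit 17) (nat_lit 4) (nat_lit 454) (nat_lit 380) (nat_lit 366)) (XT.lf (nat_lit 0) (nat_lit 4550451029) (nat_lit 152) (nat_lit 32538559665) (nat_lit 0) (nat_lit 3465610586) (nat_lit 14) (nat_lit 5) (nat_lit 16) (nat_lit 4) (nat_lit 14) (nat_lit 4) (nat_lit 455) (nat_lit 380) (nat_lit 365))) (XT.nd (nat_lit 78) (nat_lit 76) (nat_lit 0) (XT.lf (nat_lit 0) (nat_lit 16353299710) (nat_lit 152) (nat_lit 11288949607) (nat_lit 0) (nat_lit 15231464656) (nat_lit 14) (nat_lit 5) (nat_lit 16) (nat_lit 4) (nat_lit 14) (nat_lit 4) (nat_lit 456) (nat_lit 380) (nat_lit 364)) (XT.lf (nat_lit 0) (nat_lit 11572033740) (nat_lit 76) (nat_lit 17483008646) (nat_lit 76) (nat_lit 16326919322) (nat_lit 13) (nat_lit 4) (nat_lit 14) (nat_lit 5) (nat_lit 14) (nat_lit 4) (nat_lit 457) (nat_lit 380) (nat_lit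 363))))) (XT.nd (nat_lit 234) (nat_lit 228) (nat_lit 0) (XT.nd (nat_lit 78) (nat_lit 152) (nat_lit 0) (XT.lf (nat_lit 0) (nat_lit 36253330928) (nat_lit 76) (nat_lit 6512938896) (nat_lit 76) (nat_lit 5325132657) (nat_lit 13) (nat_lit 4) (nat_lit 14) (nat_lit 5) (nat_lit 14) (nat_lit 4) (nat_lit 458) (nat_lit 380) (nat_lit 362)) (XT.nd (nat_lit 78) (nat_lit 0) (nat_lit 0) (XT.lf (nat_lit 0) (nat_lit 6342710062) (nat_lit 152) (nat_lit 39437463712) (nat_lit 0) (nat_lit 5215697326) (nat_lit 11) (nat_lit 5) (nat_lit 13) (nat_lit 4) (nat_lit 11) (nat_lit 4) (nat_lit 459) (nat_lit 380) (nat_lit 361)) (XT.lf (nat_lit 0) (nat_lit 18858217305) (nat_lit 152) (nat_lit 17541234098) (nat_lit 0) (nat_lit 17706026659) (nat_lit 11) (nat_lit 5) (nat_lit 13) (nat_lit 4) (nat_lit 11) (nat_lit 4) (nat_lit 460) (nat_lit 380) (nat_lit 360)))) (XT.nd (nat_lit 156) (nat_lit 152) (nat_lit 0) (XT.nd (nat_lit 78) (nat_lit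 0) (nat_lit 0) (XT.lf (nat_lit 0) (nat_lit 5825529371) (nat_lit 76) (nat_lit 26412395779) (nat_lit 76) (nat_lit 25236892252) (nat_lit 10) (nat_lit 4) (nat_lit 11) (nat_lit 5) (nat_lit 11) (nat_lit 4) (nat_lit 461) (nat_lit 380) (nat_lit 359)) (XT.lf (nat_lit 0) (nat_lit 31501134082) (nat_lit 76) (nat_lit 15396447093) (nat_lit 76) (nat_lit 14199357566) (nat_lit 10) (nat_lit 4) (nat_lit 11) (nat_lit 5) (nat_lit 11) (nat_lit 4) (nat_lit 462) (nat_lit 380) (nat_lit 358))) (XT.nd (nat_lit 78) (nat_lit 152) (nat_lit 0) (XT.lf (nat_lit 0) (nat_lit 58714041465) (nat_lit 76) (nat_lit 3765934076) (nat_lit 76) (nat_lit 2548857512) (nat_lit 10) (nat_lit 4) (nat_lit 11) (nat_lit 5) (nat_lit 11) (nat_lit 4) (nat_lit 463) (nat_lit 380) (nat_lit 357)) (XT.lf (nat_lit 0) (nat_lit 9975959764) (nat_lit 152) (nat_lit 50412577211) (nat_lit 0) (nat_lit 8831901357) (nat_lit 8) (nat_lit 5) (nat_lit 10) (nat_lit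 4) (nat_lit 8) (nat_lit 4) (nat_lit 464) (nat_lit 380) (nat_lit 356))))))))
noncomputable def xc49 : XT := (XT.nd (nat_lit 2184) (nat_lit 0) (nat_lit 0) (XT.nd (nat_lit 1092) (nat_lit 228) (nat_lit 0) (XT.nd (nat_lit 546) (nat_lit 76) (nat_lit 0) (XT.nd (nat_lit 234) (nat_lit 152) (nat_lit 0) (XT.nd (nat_lit 78) (nat_lit 76) (nat_lit 0) (XT.lf (nat_lit 0) (nat_lit 23402632336) (nat_lit 152) (nat_lit 28093730264) (nat_lit 0) (nat_lit 22242707574) (nat_lit 8) (nat_lit 5) (nat_lit 10) (nat_lit 4) (nat_lit 8) (nat_lit 4) (nat_lit 465) (nat_lit 380) (nat_lit 355)) (XT.nd (nat_lit 78) (nat_lit 76) (nat_lit 0) (XT.lf (nat_lit 0) (nat_lit 37683638478) (nat_lit 152) (nat_lit 4444115849) (nat_lit 0) (nat_lit 36509022648) (nat_lit 8) (nat_lit 5) (nat_lit 10) (nat_lit 4) (nat_lit 8) (nat_lit 4) (nat_lit 466) (nat_lit 380) (nat_lit 354)) (XT.lf (nat_lit 0) (nat_lit 21765195107) (nat_lit 76) (nat_lit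 31661864735) (nat_lit 76) (nat_lit 30473646063) (nat_lit 7) (nat_lit 4) (nat_lit 8) (nat_lit 5) (nat_lit 8) (nat_lit 4) (nat_lit 467) (nat_lit 380) (nat_lit 353)))) (XT.nd (nat_lit 156) (nat_lit 152) (nat_lit 0) (XT.nd (nat_lit 78) (nat_lit 0) (nat_lit 0) (XT.lf (nat_lit 0) (nat_lit 49913595566) (nat_lit 76) (nat_lit 20439556040) (nat_lit 76) (nat_lit 19238742144) (nat_lit 7) (nat_lit 4) (nat_lit 8) (nat_lit 5) (nat_lit 8) (nat_lit 4) (nat_lit 468) (nat_lit 380) (nat_lit 352)) (XT.lf (nat_lit 0) (nat_lit 79933871599) (nat_lit 76) (nat_lit 8515835675) (nat_lit 76) (nat_lit 7303359535) (nat_lit 7) (nat_lit 4) (nat_lit 8) (nat_lit 5) (nat_lit 8) (nat_lit 4) (nat_lit 469) (nat_lit 380) (nat_lit 351))) (XT.nd (nat_lit 78) (nat_lit 0) (nat_lit 0) (XT.lf (nat_lit 0) (nat_lit 5482380446) (nat_lit 152) (nat_lit 92550285253) (nat_lit 0) (nat_lit 4349718859) (nat_lit 5) (nat_lit 5) (nat_lit 7) (nat_lit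 4) (nat_lit 5) (nat_lit 4) (nat_lit 470) (nat_lit 380) (nat_lit 350)) (XT.lf (nat_lit 0) (nat_lit 19387003399) (nat_lit 152) (nat_lit 71855537227) (nat_lit 0) (nat_lit 18245083945) (nat_lit 5) (nat_lit 5) (nat_lit 7) (nat_lit 4) (nat_lit 5) (nat_lit 4) (nat_lit 471) (nat_lit 380) (nat_lit 349))))) (XT.nd (nat_lit 234) (nat_lit 76) (nat_lit 0) (XT.nd (nat_lit 78) (nat_lit 0) (nat_lit 0) (XT.lf (nat_lit 0) (nat_lit 34242556469) (nat_lit 152) (nat_lit 49839577805) (nat_lit 0) (nat_lit 33092064918) (nat_lit 5) (nat_lit 5) (nat_lit 7) (nat_lit 4) (nat_lit 5) (nat_lit 4) (nat_lit 472) (nat_lit 380) (nat_lit 348)) (XT.nd (nat_lit 78) (nat_lit 0) (nat_lit 0) (XT.lf (nat_lit 0) (nat_lit 50137072564) (nat_lit 152) (nat_lit 26371942041) (nat_lit 0) (nat_lit 48978643886) (nat_lit 5) (nat_lit 5) (nat_lit 7) (nat_lit 4) (nat_lit 5) (nat_lit 4) (nat_lit 473) (nat_lit 380) (nat_lit 347)) (XT.lf (nat_lit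 0) (nat_lit 67164741410) (nat_lit 152) (nat_lit 1313562465) (nat_lit 0) (nat_lit 65998963540) (nat_lit 5) (nat_lit 5) (nat_lit 7) (nat_lit 4) (nat_lit 5) (nat_lit 4) (nat_lit 474) (nat_lit 380) (nat_lit 346)))) (XT.nd (nat_lit 156) (nat_lit 0) (nat_lit 0) (XT.nd (nat_lit 78) (nat_lit 0) (nat_lit 0) (XT.lf (nat_lit 0) (nat_lit 26826000201) (nat_lit 76) (nat_lit 59245633459) (nat_lit 76) (nat_lit 58073050781) (nat_lit 4) (nat_lit 4) (nat_lit 5) (nat_lit 5) (nat_lit 5) (nat_lit 4) (nat_lit 475) (nat_lit 380) (nat_lit 345)) (XT.lf (nat_lit 0) (nat_lit 57032718698) (nat_lit 76) (nat_lit 49369388660) (nat_lit 76) (nat_lit 48190505235) (nat_lit 4) (nat_lit 4) (nat_lit 5) (nat_lit 5) (nat_lit 5) (nat_lit 4) (nat_lit 476) (nat_lit 380) (nat_lit 344))) (XT.nd (nat_lit 78) (nat_lit 0) (nat_lit 0) (XT.lf (nat_lit 0) (nat_lit 89416425932) (nat_lit 76) (nat_lit 38826958709) (nat_lit 76) (nat_lit 37642241257)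 (nat_lit 4) (nat_lit 4) (nat_lit 5) (nat_lit 5) (nat_lit 5) (nat_lit 4) (nat_lit 477) (nat_lit 380) (nat_lit 343)) (XT.lf (nat_lit 0) (nat_lit 124169025352) (nat_lit 76) (nat_lit 27555869945) (nat_lit 76) (nat_lit 26365750619) (nat_lit 4) (nat_lit 4) (nat_lit 5) (nat_lit 5) (nat_lit 5) (nat_lit 4) (nat_lit 478) (nat_lit 380) (nat_lit 342)))))) (XT.nd (nat_lit 546) (nat_lit 76) (nat_lit 0) (XT.nd (nat_lit 234) (nat_lit 0) (nat_lit 0) (XT.nd (nat_lit 78) (nat_lit 152) (nat_lit 0) (XT.lf (nat_lit 0) (nat_lit 161496458288) (nat_lit 76) (nat_lit 15489330734) (nat_lit 76) (nat_lit 14294209670) (nat_lit 4) (nat_lit 4) (nat_lit 5) (nat_lit 5) (nat_lit 5) (nat_lit 4) (nat_lit 479) (nat_lit 380) (nat_lit 341)) (XT.nd (nat_lit 78) (nat_lit 152) (nat_lit 0) (XT.lf (nat_lit 0) (nat_lit 201619924343) (nat_lit 76) (nat_lit 2555835656) (nat_lit 76) (nat_lit 1356083354) (nat_lit 4) (nat_lit 4) (nat_lit 5)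 (nat_lit 5) (nat_lit 5) (nat_lit 4) (nat_lit 480) (nat_lit 380) (nat_lit 340)) (XT.lf (nat_lit 0) (nat_lit 12790400158) (nat_lit 152) (nat_lit 196369255150) (nat_lit 0) (nat_lit 11675547858) (nat_lit 2) (nat_lit 5) (nat_lit 4) (nat_lit 4) (nat_lit 2) (nat_lit 4) (nat_lit 481) (nat_lit 380) (nat_lit 339)))) (XT.nd (nat_lit 156) (nat_lit 0) (nat_lit 0) (XT.nd (nat_lit 78) (nat_lit 0) (nat_lit 0) (XT.lf (nat_lit 0) (nat_lit 28084291536) (nat_lit 152) (nat_lit 182302843450) (nat_lit 0) (nat_lit 26965762810) (nat_lit 2) (nat_lit 5) (nat_lit 4) (nat_lit 4) (nat_lit 2) (nat_lit 4) (nat_lit 482) (nat_lit 380) (nat_lit 338)) (XT.lf (nat_lit 0) (nat_lit 44520981831) (nat_lit 152) (nat_lit 167278434238) (nat_lit 0) (nat_lit 43399049008) (nat_lit 2) (nat_lit 5) (nat_lit 4) (nat_lit 4) (nat_lit 2) (nat_lit 4) (nat_lit 483) (nat_lit 380) (nat_lit 337))) (XT.nd (nat_lit 78) (nat_lit 0) (nat_lit 0) (XT.lf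 (nat_lit 0) (nat_lit 62197873654) (nat_lit 152) (nat_lit 151206993978) (nat_lit 0) (nat_lit 61072788888) (nat_lit 2) (nat_lit 5) (nat_lit 4) (nat_lit 4) (nat_lit 2) (nat_lit 4) (nat_lit 484) (nat_lit 380) (nat_lit 336)) (XT.lf (nat_lit 0) (nat_lit 81219718956) (nat_lit 152) (nat_lit 133993284506) (nat_lit 0) (nat_lit 80091715725) (nat_lit 2) (nat_lit 5) (nat_lit 4) (nat_lit 4) (nat_lit 2) (nat_lit 4) (nat_lit 485) (nat_lit 380) (nat_lit 335))))) (XT.nd (nat_lit 234) (nat_lit 76) (nat_lit 0) (XT.nd (nat_lit 78) (nat_lit 0) (nat_lit 0) (XT.lf (nat_lit 0) (nat_lit 101699239783) (nat_lit 152) (nat_lit 115535298656) (nat_lit 0) (nat_lit 100568534269) (nat_lit 2) (nat_lit 5) (nat_lit 4) (nat_lit 4) (nat_lit 2) (nat_lit 4) (nat_lit 486) (nat_lit 380) (nat_lit 334)) (XT.nd (nat_lit 78) (nat_lit 0) (nat_lit 0) (XT.lf (nat_lit 0) (nat_lit 123757796258) (nat_lit 152) (nat_lit 95723655768) (nat_lit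 0) (nat_lit 122624588631) (nat_lit 2) (nat_lit 5) (nat_lit 4) (nat_lit 4) (nat_lit 2) (nat_lit 4) (nat_lit 487) (nat_lit 380) (nat_lit 333)) (XT.lf (nat_lit 0) (nat_lit 147526105754) (nat_lit 152) (nat_lit 74440953517) (nat_lit 0) (nat_lit 146390581354) (nat_lit 2) (nat_lit 5) (nat_lit 4) (nat_lit 4) (nat_lit 2) (nat_lit 4) (nat_lit 488) (nat_lit 380) (nat_lit 332)))) (XT.nd (nat_lit 156) (nat_lit 76) (nat_lit 0) (XT.nd (nat_lit 78) (nat_lit 0) (nat_lit 0) (XT.lf (nat_lit 0) (nat_lit 173145017511) (nat_lit 152) (nat_lit 51561072184) (nat_lit 0) (nat_lit 172007347952) (nat_lit 2) (nat_lit 5) (nat_lit 4) (nat_lit 4) (nat_lit 2) (nat_lit 4) (nat_lit 489) (nat_lit 380) (nat_lit 331)) (XT.lf (nat_lit 0) (nat_lit 200766347303) (nat_lit 152) (nat_lit 26948427287) (nat_lit 0) (nat_lit 199626691486) (nat_lit 2) (nat_lit 5) (nat_lit 4) (nat_lit 4) (nat_lit 2) (nat_lit 4) (nat_lit 490) (nat_lit 380)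 (nat_lit 330))) (XT.nd (nat_lit 78) (nat_lit 76) (nat_lit 0) (XT.lf (nat_lit 0) (nat_lit 230553777085) (nat_lit 152) (nat_lit 457166117) (nat_lit 0) (nat_lit 229412282139) (nat_lit 2) (nat_lit 5) (nat_lit 4) (nat_lit 4) (nat_lit 2) (nat_lit 4) (nat_lit 491) (nat_lit 380) (nat_lit 329)) (XT.lf (nat_lit 0) (nat_lit 29547797055) (nat_lit 76) (nat_lit 233846653132) (nat_lit 76) (nat_lit 232703455290) (nat_lit 1) (nat_lit 4) (nat_lit 2) (nat_lit 5) (nat_lit 2) (nat_lit 4) (nat_lit 492) (nat_lit 380) (nat_lit 328))))))) (XT.nd (nat_lit 1092) (nat_lit 0) (nat_lit 0) (XT.nd (nat_lit 546) (nat_lit 0) (nat_lit 0) (XT.nd (nat_lit 234) (nat_lit 0) (nat_lit 0) (XT.nd (nat_lit 78) (nat_lit 0) (nat_lit 0) (XT.lf (nat_lit 0) (nat_lit 61897576328) (nat_lit 76) (nat_lit 236937953077) (nat_lit 76) (nat_lit 235793178479) (nat_lit 1) (nat_lit 4) (nat_lit 2) (nat_lit 5) (nat_lit 2) (nat_lit 4) (nat_lit 493) (nat_lit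 380) (nat_lit 327)) (XT.nd (nat_lit 78) (nat_lit 0) (nat_lit 0) (XT.lf (nat_lit 0) (nat_lit 96759800538) (nat_lit 76) (nat_lit 240315661585) (nat_lit 76) (nat_lit 239169427028) (nat_lit 1) (nat_lit 4) (nat_lit 2) (nat_lit 5) (nat_lit 2) (nat_lit 4) (nat_lit 494) (nat_lit 380) (nat_lit 326)) (XT.lf (nat_lit 0) (nat_lit 134341060644) (nat_lit 76) (nat_lit 243999794705) (nat_lit 76) (nat_lit 242852208334) (nat_lit 1) (nat_lit 4) (nat_lit 2) (nat_lit 5) (nat_lit 2) (nat_lit 4) (nat_lit 495) (nat_lit 380) (nat_lit 325)))) (XT.nd (nat_lit 156) (nat_lit 0) (nat_lit 0) (XT.nd (nat_lit 78) (nat_lit 0) (nat_lit 0) (XT.lf (nat_lit 0) (nat_lit 174864060408) (nat_lit 76) (nat_lit 248012184339) (nat_lit 76) (nat_lit 246863346287) (nat_lit 1) (nat_lit 4) (nat_lit 2) (nat_lit 5) (nat_lit 2) (nat_lit 4) (nat_lit 496) (nat_lit 380) (nat_lit 324)) (XT.lf (nat_lit 0) (nat_lit 218568936126) (nat_lit 76) (nat_lit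 252376607608) (nat_lit 76) (nat_lit 251226610594) (nat_lit 1) (nat_lit 4) (nat_lit 2) (nat_lit 5) (nat_lit 2) (nat_lit 4) (nat_lit 497) (nat_lit 380) (nat_lit 323))) (XT.nd (nat_lit 78) (nat_lit 0) (nat_lit 0) (XT.lf (nat_lit 0) (nat_lit 265714679655) (nat_lit 76) (nat_lit 257118927763) (nat_lit 76) (nat_lit 255967857636) (nat_lit 1) (nat_lit 4) (nat_lit 2) (nat_lit 5) (nat_lit 2) (nat_lit 4) (nat_lit 498) (nat_lit 380) (nat_lit 322)) (XT.lf (nat_lit 0) (nat_lit 316580673178) (nat_lit 76) (nat_lit 262267247442) (nat_lit 76) (nat_lit 261115183691) (nat_lit 1) (nat_lit 4) (nat_lit 2) (nat_lit 5) (nat_lit 2) (nat_lit 4) (nat_lit 499) (nat_lit 380) (nat_lit 321))))) (XT.nd (nat_lit 234) (nat_lit 0) (nat_lit 0) (XT.nd (nat_lit 78) (nat_lit 0) (nat_lit 0) (XT.lf (nat_lit 0) (nat_lit 371468344804) (nat_lit 76) (nat_lit 267852075205) (nat_lit 76) (nat_lit 266699091432) (nat_lit 1) (nat_lit 4) (nat_lit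 2) (nat_lit 5) (nat_lit 2) (nat_lit 4) (nat_lit 500) (nat_lit 380) (nat_lit 320)) (XT.nd (nat_lit 78) (nat_lit 0) (nat_lit 0) (XT.lf (nat_lit 0) (nat_lit 430702954810) (nat_lit 76) (nat_lit 273906506328) (nat_lit 76) (nat_lit 272752670683) (nat_lit 1) (nat_lit 4) (nat_lit 2) (nat_lit 5) (nat_lit 2) (nat_lit 4) (nat_lit 501) (nat_lit 380) (nat_lit 319)) (XT.lf (nat_lit 0) (nat_lit 494635523108) (nat_lit 76) (nat_lit 280466418922) (nat_lit 76) (nat_lit 279311794506) (nat_lit 1) (nat_lit 4) (nat_lit 2) (nat_lit 5) (nat_lit 2) (nat_lit 4) (nat_lit 502) (nat_lit 380) (nat_lit 318)))) (XT.nd (nat_lit 156) (nat_lit 0) (nat_lit 0) (XT.nd (nat_lit 78) (nat_lit 0) (nat_lit 0) (XT.lf (nat_lit 0) (nat_lit 563644909360) (nat_lit 76) (nat_lit 287570686543) (nat_lit 76) (nat_lit 286415331784) (nat_lit 1) (nat_lit 4) (nat_lit 2) (nat_lit 5) (nat_lit 2) (nat_lit 4) (nat_lit 503) (nat_lit 380) (nat_lit 317))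 (XT.lf (nat_lit 0) (nat_lit 638140058079) (nat_lit 76) (nat_lit 295261408553) (nat_lit 76) (nat_lit 294105377551) (nat_lit 1) (nat_lit 4) (nat_lit 2) (nat_lit 5) (nat_lit 2) (nat_lit 4) (nat_lit 504) (nat_lit 380) (nat_lit 316))) (XT.nd (nat_lit 78) (nat_lit 0) (nat_lit 0) (XT.lf (nat_lit 0) (nat_lit 718562421997) (nat_lit 76) (nat_lit 303584159603) (nat_lit 76) (nat_lit 302427502449) (nat_lit 1) (nat_lit 4) (nat_lit 2) (nat_lit 5) (nat_lit 2) (nat_lit 4) (nat_lit 505) (nat_lit 380) (nat_lit 315)) (XT.lf (nat_lit 0) (nat_lit 805388578086) (nat_lit 76) (nat_lit 312588259698) (nat_lit 76) (nat_lit 311431022774) (nat_lit 1) (nat_lit 4) (nat_lit 2) (nat_lit 5) (nat_lit 2) (nat_lit 4) (nat_lit 506) (nat_lit 380) (nat_lit 314)))))) (XT.nd (nat_lit 546) (nat_lit 0) (nat_lit 0) (XT.nd (nat_lit 234) (nat_lit 0) (nat_lit 0) (XT.nd (nat_lit 78) (nat_lit 0) (nat_lit 0) (XT.lf (nat_lit 0) (nat_lit 899133051716)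 (nat_lit 76) (nat_lit 322327066469) (nat_lit 76) (nat_lit 321169292721) (nat_lit 1) (nat_lit 4) (nat_lit 2) (nat_lit 5) (nat_lit 2) (nat_lit 4) (nat_lit 507) (nat_lit 380) (nat_lit 313)) (XT.nd (nat_lit 78) (nat_lit 0) (nat_lit 0) (XT.lf (nat_lit 0) (nat_lit 1000351365692) (nat_lit 76) (nat_lit 332858291364) (nat_lit 76) (nat_lit 331700020556) (nat_lit 1) (nat_lit 4) (nat_lit 2) (nat_lit 5) (nat_lit 2) (nat_lit 4) (nat_lit 508) (nat_lit 380) (nat_lit 312)) (XT.lf (nat_lit 0) (nat_lit 1109643332246) (nat_lit 76) (nat_lit 344244341640) (nat_lit 76) (nat_lit 343085610592) (nat_lit 1) (nat_lit 4) (nat_lit 2) (nat_lit 5) (nat_lit 2) (nat_lit 4) (nat_lit 509) (nat_lit 380) (nat_lit 311)))) (XT.nd (nat_lit 156) (nat_lit 0) (nat_lit 0) (XT.nd (nat_lit 78) (nat_lit 0) (nat_lit 0) (XT.lf (nat_lit 0) (nat_lit 1227656607476) (nat_lit 76) (nat_lit 356552690188) (nat_lit 76) (nat_lit 355393532992) (nat_lit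 1) (nat_lit 4) (nat_lit 2) (nat_lit 5) (nat_lit 2) (nat_lit 4) (nat_lit 510) (nat_lit 380) (nat_lit 310)) (XT.lf (nat_lit 0) (nat_lit 1355090529310) (nat_lit 76) (nat_lit 369856275370) (nat_lit 76) (nat_lit 368696723593) (nat_lit 1) (nat_lit 4) (nat_lit 2) (nat_lit 5) (nat_lit 2) (nat_lit 4) (nat_lit 511) (nat_lit 380) (nat_lit 309))) (XT.nd (nat_lit 78) (nat_lit 0) (nat_lit 0) (XT.lf (nat_lit 0) (nat_lit 1492700261728) (nat_lit 76) (nat_lit 384233933247) (nat_lit 76) (nat_lit 383074016117) (nat_lit 1) (nat_lit 4) (nat_lit 2) (nat_lit 5) (nat_lit 2) (nat_lit 4) (nat_lit 512) (nat_lit 380) (nat_lit 308)) (XT.lf (nat_lit 0) (nat_lit 1641301269811) (nat_lit 76) (nat_lit 399770864754) (nat_lit 76) (nat_lit 398610609333) (nat_lit 1) (nat_lit 4) (nat_lit 2) (nat_lit 5) (nat_lit 2) (nat_lit 4) (nat_lit 513) (nat_lit 380) (nat_lit 307))))) (XT.nd (nat_lit 312) (nat_lit 0) (nat_lit 0) (XT.nd (nat_lit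 156) (nat_lit 0) (nat_lit 0) (XT.nd (nat_lit 78) (nat_lit 0) (nat_lit 0) (XT.lf (nat_lit 0) (nat_lit 1801774152126) (nat_lit 76) (nat_lit 416559140596) (nat_lit 76) (nat_lit 415398571944) (nat_lit 1) (nat_lit 4) (nat_lit 2) (nat_lit 5) (nat_lit 2) (nat_lit 4) (nat_lit 514) (nat_lit 380) (nat_lit 306)) (XT.lf (nat_lit 0) (nat_lit 1975069859087) (nat_lit 76) (nat_lit 434698246853) (nat_lit 76) (nat_lit 433537388171) (nat_lit 1) (nat_lit 4) (nat_lit 2) (nat_lit 5) (nat_lit 2) (nat_lit 4) (nat_lit 515) (nat_lit 380) (nat_lit 305))) (XT.nd (nat_lit 78) (nat_lit 0) (nat_lit 0) (XT.lf (nat_lit 0) (nat_lit 2162215328217) (nat_lit 76) (nat_lit 454295674523) (nat_lit 76) (nat_lit 453134547296) (nat_lit 1) (nat_lit 4) (nat_lit 2) (nat_lit 5) (nat_lit 2) (nat_lit 4) (nat_lit 516) (nat_lit 380) (nat_lit 304)) (XT.lf (nat_lit 0) (nat_lit 2364319569702) (nat_lit 76) (nat_lit 475467556513) (nat_lit 76)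 (nat_lit 474306180633) (nat_lit 1) (nat_lit 4) (nat_lit 2) (nat_lit 5) (nat_lit 2) (nat_lit 4) (nat_lit 517) (nat_lit 380) (nat_lit 303)))) (XT.nd (nat_lit 156) (nat_lit 0) (nat_lit 0) (XT.nd (nat_lit 78) (nat_lit 0) (nat_lit 0) (XT.lf (nat_lit 0) (nat_lit 2582580238307) (nat_lit 76) (nat_lit 498339355826) (nat_lit 76) (nat_lit 497177749711) (nat_lit 1) (nat_lit 4) (nat_lit 2) (nat_lit 5) (nat_lit 2) (nat_lit 4) (nat_lit 518) (nat_lit 380) (nat_lit 302)) (XT.lf (nat_lit 0) (nat_lit 2818290730587) (nat_lit 76) (nat_lit 523046609052) (nat_lit 76) (nat_lit 521884789756) (nat_lit 1) (nat_lit 4) (nat_lit 2) (nat_lit 5) (nat_lit 2) (nat_lit 4) (nat_lit 519) (nat_lit 380) (nat_lit 301))) (XT.nd (nat_lit 78) (nat_lit 0) (nat_lit 0) (XT.lf (nat_lit 0) (nat_lit 3072847849459) (nat_lit 76) (nat_lit 549735729541) (nat_lit 76) (nat_lit 548573712857) (nat_lit 1) (nat_lit 4) (nat_lit 2) (nat_lit 5) (nat_lit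 2) (nat_lit 4) (nat_lit 520) (nat_lit 380) (nat_lit 300)) (XT.lf (nat_lit 0) (nat_lit 3347760081554) (nat_lit 76) (nat_lit 578564875046) (nat_lit 76) (nat_lit 577402675594) (nat_lit 1) (nat_lit 4) (nat_lit 2) (nat_lit 5) (nat_lit 2) (nat_lit 4) (nat_lit 521) (nat_lit 380) (nat_lit 299))))))))
noncomputable def xc50 : XT := (XT.nd (nat_lit 56238) (nat_lit 0) (nat_lit 456) (XT.nd (nat_lit 1092) (nat_lit 0) (nat_lit 0) (XT.nd (nat_lit 546) (nat_lit 0) (nat_lit 0) (XT.nd (nat_lit 234) (nat_lit 0) (nat_lit 0) (XT.nd (nat_lit 78) (nat_lit 0) (nat_lit 0) (XT.lf (nat_lit 0) (nat_lit 3644656536395) (nat_lit 76) (nat_lit 609704884948) (nat_lit 76) (nat_lit 608542516266) (nat_lit 1) (nat_lit 4) (nat_lit 2) (nat_lit 5) (nat_lit 2) (nat_lit 4) (nat_lit 522) (nat_lit 380) (nat_lit 298)) (XT.nd (nat_lit 78) (nat_lit 0) (nat_lit 0) (XT.lf (nat_lit 0) (nat_lit 3965296600380) (nat_lit 76) (nat_lit 643340292637)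 (nat_lit 76) (nat_lit 642177767262) (nat_lit 1) (nat_lit 4) (nat_lit 2) (nat_lit 5) (nat_lit 2) (nat_lit 4) (nat_lit 523) (nat_lit 380) (nat_lit 297)) (XT.lf (nat_lit 0) (nat_lit 4311580362779) (nat_lit 76) (nat_lit 679670419050) (nat_lit 76) (nat_lit 678507748587) (nat_lit 1) (nat_lit 4) (nat_lit 2) (nat_lit 5) (nat_lit 2) (nat_lit 4) (nat_lit 524) (nat_lit 380) (nat_lit 296)))) (XT.nd (nat_lit 156) (nat_lit 0) (nat_lit 0) (XT.nd (nat_lit 78) (nat_lit 0) (nat_lit 0) (XT.lf (nat_lit 0) (nat_lit 4685559875516) (nat_lit 76) (nat_lit 718910553823) (nat_lit 76) (nat_lit 717747749021) (nat_lit 1) (nat_lit 4) (nat_lit 2) (nat_lit 5) (nat_lit 2) (nat_lit 4) (nat_lit 525) (nat_lit 380) (nat_lit 295)) (XT.lf (nat_lit 0) (nat_lit 5089451313482) (nat_lit 76) (nat_lit 761293231088) (nat_lit 76) (nat_lit 760130301898) (nat_lit 1) (nat_lit 4) (nat_lit 2) (nat_lit 5) (nat_lit 2) (nat_lit 4) (nat_lit 526)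 (nat_lit 380) (nat_lit 294))) (XT.nd (nat_lit 78) (nat_lit 0) (nat_lit 0) (XT.lf (nat_lit 0) (nat_lit 5525648107420) (nat_lit 76) (nat_lit 807069607453) (nat_lit 76) (nat_lit 805906563087) (nat_lit 1) (nat_lit 4) (nat_lit 2) (nat_lit 5) (nat_lit 2) (nat_lit 4) (nat_lit 527) (nat_lit 380) (nat_lit 293)) (XT.lf (nat_lit 0) (nat_lit 5996735127220) (nat_lit 76) (nat_lit 856510950331) (nat_lit 76) (nat_lit 855347799323) (nat_lit 1) (nat_lit 4) (nat_lit 2) (nat_lit 5) (nat_lit 2) (nat_lit 4) (nat_lit 528) (nat_lit 380) (nat_lit 292))))) (XT.nd (nat_lit 234) (nat_lit 0) (nat_lit 0) (XT.nd (nat_lit 78) (nat_lit 0) (nat_lit 0) (XT.lf (nat_lit 0) (nat_lit 6505503999666) (nat_lit 76) (nat_lit 909910245459) (nat_lit 76) (nat_lit 908746995707) (nat_lit 1) (nat_lit 4) (nat_lit 2) (nat_lit 5) (nat_lit 2) (nat_lit 4) (nat_lit 529) (nat_lit 380) (nat_lit 291)) (XT.nd (nat_lit 78) (nat_lit 0) (nat_lit 0)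 (XT.lf (nat_lit 0) (nat_lit 7054969651410) (nat_lit 76) (nat_lit 967583933105) (nat_lit 76) (nat_lit 966420591924) (nat_lit 1) (nat_lit 4) (nat_lit 2) (nat_lit 5) (nat_lit 2) (nat_lit 4) (nat_lit 530) (nat_lit 380) (nat_lit 290)) (XT.lf (nat_lit 0) (nat_lit 7648388175203) (nat_lit 76) (nat_lit 1029873783268) (nat_lit 76) (nat_lit 1028710357430) (nat_lit 1) (nat_lit 4) (nat_lit 2) (nat_lit 5) (nat_lit 2) (nat_lit 4) (nat_lit 531) (nat_lit 380) (nat_lit 289)))) (XT.nd (nat_lit 156) (nat_lit 0) (nat_lit 0) (XT.nd (nat_lit 78) (nat_lit 0) (nat_lit 0) (XT.lf (nat_lit 0) (nat_lit 8289276125260) (nat_lit 76) (nat_lit 1097148920988) (nat_lit 76) (nat_lit 1095985416764) (nat_lit 1) (nat_lit 4) (nat_lit 2) (nat_lit 5) (nat_lit 2) (nat_lit 4) (nat_lit 532) (nat_lit 380) (nat_lit 288)) (XT.lf (nat_lit 0) (nat_lit 8981431356099) (nat_lit 76) (nat_lit 1169808013746) (nat_lit 76) (nat_lit 1168644436943)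 (nat_lit 1) (nat_lit 4) (nat_lit 2) (nat_lit 5) (nat_lit 2) (nat_lit 4) (nat_lit 533) (nat_lit 380) (nat_lit 287))) (XT.nd (nat_lit 78) (nat_lit 0) (nat_lit 0) (XT.lf (nat_lit 0) (nat_lit 9728955528349) (nat_lit 76) (nat_lit 1248281633945) (nat_lit 76) (nat_lit 1247117989938) (nat_lit 1) (nat_lit 4) (nat_lit 2) (nat_lit 5) (nat_lit 2) (nat_lit 4) (nat_lit 534) (nat_lit 380) (nat_lit 286)) (XT.lf (nat_lit 0) (nat_lit 10536278414881) (nat_lit 76) (nat_lit 1333034810445) (nat_lit 76) (nat_lit 1331871104213) (nat_lit 1) (nat_lit 4) (nat_lit 2) (nat_lit 5) (nat_lit 2) (nat_lit 4) (nat_lit 535) (nat_lit 380) (nat_lit 285)))))) (XT.nd (nat_lit 546) (nat_lit 0) (nat_lit 0) (XT.nd (nat_lit 234) (nat_lit 0) (nat_lit 0) (XT.nd (nat_lit 78) (nat_lit 0) (nat_lit 0) (XT.lf (nat_lit 0) (nat_lit 11408184151319) (nat_lit 76) (nat_lit 1424569784291) (nat_lit 76) (nat_lit 1423406020443) (nat_lit 1) (nat_lit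 4) (nat_lit 2) (nat_lit 5) (nat_lit 2) (nat_lit 4) (nat_lit 536) (nat_lit 380) (nat_lit 284)) (XT.nd (nat_lit 78) (nat_lit 0) (nat_lit 0) (XT.lf (nat_lit 0) (nat_lit 12349839586472) (nat_lit 76) (nat_lit 1523428984959) (nat_lit 76) (nat_lit 1522265167763) (nat_lit 1) (nat_lit 4) (nat_lit 2) (nat_lit 5) (nat_lit 2) (nat_lit 4) (nat_lit 537) (nat_lit 380) (nat_lit 283)) (XT.lf (nat_lit 0) (nat_lit 13366824900697) (nat_lit 76) (nat_lit 1630198244749) (nat_lit 76) (nat_lit 1629034378156) (nat_lit 1) (nat_lit 4) (nat_lit 2) (nat_lit 5) (nat_lit 2) (nat_lit 4) (nat_lit 538) (nat_lit 380) (nat_lit 282)))) (XT.nd (nat_lit 156) (nat_lit 0) (nat_lit 0) (XT.nd (nat_lit 78) (nat_lit 0) (nat_lit 0) (XT.lf (nat_lit 0) (nat_lit 14465166673633) (nat_lit 76) (nat_lit 1745510270384) (nat_lit 76) (nat_lit 1744346358054) (nat_lit 1) (nat_lit 4) (nat_lit 2) (nat_lit 5) (nat_lit 2) (nat_lit 4) (nat_lit 539) (nat_lit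 380) (nat_lit 281)) (XT.lf (nat_lit 0) (nat_lit 15651373597268) (nat_lit 76) (nat_lit 1870048392389) (nat_lit 76) (nat_lit 1868884437709) (nat_lit 1) (nat_lit 4) (nat_lit 2) (nat_lit 5) (nat_lit 2) (nat_lit 4) (nat_lit 540) (nat_lit 380) (nat_lit 280))) (XT.nd (nat_lit 78) (nat_lit 0) (nat_lit 0) (XT.lf (nat_lit 0) (nat_lit 16932475045964) (nat_lit 76) (nat_lit 2004550614447) (nat_lit 76) (nat_lit 2003386620556) (nat_lit 1) (nat_lit 4) (nat_lit 2) (nat_lit 5) (nat_lit 2) (nat_lit 4) (nat_lit 541) (nat_lit 380) (nat_lit 279)) (XT.lf (nat_lit 0) (nat_lit 18316062732010) (nat_lit 76) (nat_lit 2149813986766) (nat_lit 76) (nat_lit 2148649956566) (nat_lit 1) (nat_lit 4) (nat_lit 2) (nat_lit 5) (nat_lit 2) (nat_lit 4) (nat_lit 542) (nat_lit 380) (nat_lit 278))))) (XT.nd (nat_lit 54288) (nat_lit 0) (nat_lit 2128) (XT.nd (nat_lit 78) (nat_lit 0) (nat_lit 0) (XT.lf (nat_lit 0) (nat_lit 19810335693545)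 (nat_lit 76) (nat_lit 2306699329327) (nat_lit 76) (nat_lit 2305535265509) (nat_lit 1) (nat_lit 4) (nat_lit 2) (nat_lit 5) (nat_lit 2) (nat_lit 4) (nat_lit 543) (nat_lit 380) (nat_lit 277)) (XT.nd (nat_lit 78) (nat_lit 0) (nat_lit 0) (XT.lf (nat_lit 0) (nat_lit 21424148881453) (nat_lit 76) (nat_lit 2476136333051) (nat_lit 76) (nat_lit 2474972238105) (nat_lit 1) (nat_lit 4) (nat_lit 2) (nat_lit 5) (nat_lit 2) (nat_lit 4) (nat_lit 544) (nat_lit 380) (nat_lit 276)) (XT.lf (nat_lit 0) (nat_lit 23167065633144) (nat_lit 76) (nat_lit 2659129069071) (nat_lit 76) (nat_lit 2657964945302) (nat_lit 1) (nat_lit 4) (nat_lit 2) (nat_lit 5) (nat_lit 2) (nat_lit 4) (nat_lit 545) (nat_lit 380) (nat_lit 275)))) (XT.nd (nat_lit 156) (nat_lit 228) (nat_lit 0) (XT.nd (nat_lit 78) (nat_lit 152) (nat_lit 0) (XT.lf (nat_lit 0) (nat_lit 3923900113) (nat_lit 76) (nat_lit 2561130142) (nat_lit 76) (nat_lit 2561130142)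 (nat_lit 34) (nat_lit 4) (nat_lit 35) (nat_lit 5) (nat_lit 35) (nat_lit 4) (nat_lit 438) (nat_lit 381) (nat_lit 381)) (XT.lf (nat_lit 0) (nat_lit 3292035771) (nat_lit 152) (nat_lit 12466134938) (nat_lit 0) (nat_lit 3090913073) (nat_lit 32) (nat_lit 5) (nat_lit 34) (nat_lit 4) (nat_lit 32) (nat_lit 4) (nat_lit 439) (nat_lit 381) (nat_lit 380))) (XT.nd (nat_lit 78) (nat_lit 152) (nat_lit 0) (XT.lf (nat_lit 0) (nat_lit 4321546044) (nat_lit 76) (nat_lit 7857714444) (nat_lit 76) (nat_lit 7470367027) (nat_lit 31) (nat_lit 4) (nat_lit 32) (nat_lit 5) (nat_lit 32) (nat_lit 4) (nat_lit 440) (nat_lit 381) (nat_lit 379)) (XT.lf (nat_lit 0) (nat_lit 1162868375) (nat_lit 152) (nat_lit 18707339447) (nat_lit 0) (nat_lit 644555677) (nat_lit 29) (nat_lit 5) (nat_lit 31) (nat_lit 4) (nat_lit 29) (nat_lit 4) (nat_lit 441) (nat_lit 381) (nat_lit 378))))))) (XT.nd (nat_lit 1092) (nat_lit 684) (nat_lit 0) (XT.nd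 (nat_lit 546) (nat_lit 456) (nat_lit 0) (XT.nd (nat_lit 234) (nat_lit 304) (nat_lit 0) (XT.nd (nat_lit 78) (nat_lit 228) (nat_lit 0) (XT.lf (nat_lit 0) (nat_lit 10271479843) (nat_lit 152) (nat_lit 1541710779) (nat_lit 0) (nat_lit 9605335958) (nat_lit 29) (nat_lit 5) (nat_lit 31) (nat_lit 4) (nat_lit 29) (nat_lit 4) (nat_lit 442) (nat_lit 381) (nat_lit 377)) (XT.nd (nat_lit 78) (nat_lit 152) (nat_lit 0) (XT.lf (nat_lit 0) (nat_lit 17012457479) (nat_lit 76) (nat_lit 3092724672) (nat_lit 76) (nat_lit 2289700059) (nat_lit 28) (nat_lit 4) (nat_lit 29) (nat_lit 5) (nat_lit 29) (nat_lit 4) (nat_lit 443) (nat_lit 381) (nat_lit 376)) (XT.lf (nat_lit 0) (nat_lit 7020244728) (nat_lit 152) (nat_lit 10247115183) (nat_lit 0) (nat_lit 6159350257) (nat_lit 26) (nat_lit 5) (nat_lit 28) (nat_lit 4) (nat_lit 26) (nat_lit 4) (nat_lit 444) (nat_lit 381) (nat_lit 375)))) (XT.nd (nat_lit 156) (nat_lit 76) (nat_lit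 0) (XT.nd (nat_lit 78) (nat_lit 152) (nat_lit 0) (XT.lf (nat_lit 0) (nat_lit 8444918207) (nat_lit 76) (nat_lit 8529555353) (nat_lit 76) (nat_lit 7560000547) (nat_lit 25) (nat_lit 4) (nat_lit 26) (nat_lit 5) (nat_lit 26) (nat_lit 4) (nat_lit 445) (nat_lit 381) (nat_lit 374)) (XT.lf (nat_lit 0) (nat_lit 1859233986) (nat_lit 152) (nat_lit 23002266763) (nat_lit 0) (nat_lit 868339331) (nat_lit 23) (nat_lit 5) (nat_lit 25) (nat_lit 4) (nat_lit 23) (nat_lit 4) (nat_lit 446) (nat_lit 381) (nat_lit 373))) (XT.nd (nat_lit 78) (nat_lit 76) (nat_lit 0) (XT.lf (nat_lit 0) (nat_lit 11886442093) (nat_lit 152) (nat_lit 4288367395) (nat_lit 0) (nat_lit 10809289360) (nat_lit 23) (nat_lit 5) (nat_lit 25) (nat_lit 4) (nat_lit 23) (nat_lit 4) (nat_lit 447) (nat_lit 381) (nat_lit 372)) (XT.lf (nat_lit 0) (nat_lit 15943841057) (nat_lit 76) (nat_lit 6775788259) (nat_lit 76) (nat_lit 5618766935) (nat_lit 22) (nat_lit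 4) (nat_lit 23) (nat_lit 5) (nat_lit 23) (nat_lit 4) (nat_lit 448) (nat_lit 381) (nat_lit 371))))) (XT.nd (nat_lit 234) (nat_lit 228) (nat_lit 0) (XT.nd (nat_lit 78) (nat_lit 76) (nat_lit 0) (XT.lf (nat_lit 0) (nat_lit 4397059970) (nat_lit 152) (nat_lit 22137051249) (nat_lit 0) (nat_lit 3257269486) (nat_lit 20) (nat_lit 5) (nat_lit 22) (nat_lit 4) (nat_lit 20) (nat_lit 4) (nat_lit 449) (nat_lit 381) (nat_lit 370)) (XT.nd (nat_lit 78) (nat_lit 76) (nat_lit 0) (XT.lf (nat_lit 0) (nat_lit 15055519980) (nat_lit 152) (nat_lit 2429488930) (nat_lit 0) (nat_lit 13852327234) (nat_lit 20) (nat_lit 5) (nat_lit 22) (nat_lit 4) (nat_lit 20) (nat_lit 4) (nat_lit 450) (nat_lit 381) (nat_lit 369)) (XT.lf (nat_lit 0) (nat_lit 19089938539) (nat_lit 76) (nat_lit 7585128390) (nat_lit 76) (nat_lit 6323229846) (nat_lit 19) (nat_lit 4) (nat_lit 20) (nat_lit 5) (nat_lit 20) (nat_lit 4) (nat_lit 451) (nat_lit 381)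 (nat_lit 368)))) (XT.nd (nat_lit 156) (nat_lit 76) (nat_lit 0) (XT.nd (nat_lit 78) (nat_lit 0) (nat_lit 0) (XT.lf (nat_lit 0) (nat_lit 4176413582) (nat_lit 152) (nat_lit 27652250197) (nat_lit 0) (nat_lit 2957658244) (nat_lit 17) (nat_lit 5) (nat_lit 19) (nat_lit 4) (nat_lit 17) (nat_lit 4) (nat_lit 452) (nat_lit 381) (nat_lit 367)) (XT.lf (nat_lit 0) (nat_lit 15411531828) (nat_lit 152) (nat_lit 7127575833) (nat_lit 0) (nat_lit 14146173936) (nat_lit 17) (nat_lit 5) (nat_lit 19) (nat_lit 4) (nat_lit 17) (nat_lit 4) (nat_lit 453) (nat_lit 381) (nat_lit 366))) (XT.nd (nat_lit 78) (nat_lit 0) (nat_lit 0) (XT.lf (nat_lit 0) (nat_lit 15128887764) (nat_lit 76) (nat_lit 12456300709) (nat_lit 76) (nat_lit 11147792302) (nat_lit 16) (nat_lit 4) (nat_lit 17) (nat_lit 5) (nat_lit 17) (nat_lit 4) (nat_lit 454) (nat_lit 381) (nat_lit 365)) (XT.lf (nat_lit 0) (nat_lit 38921112948) (nat_lit 76) (nat_lit 1690757965)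 (nat_lit 76) (nat_lit 342295378) (nat_lit 16) (nat_lit 4) (nat_lit 17) (nat_lit 5) (nat_lit 17) (nat_lit 4) (nat_lit 455) (nat_lit 381) (nat_lit 364)))))) (XT.nd (nat_lit 546) (nat_lit 228) (nat_lit 0) (XT.nd (nat_lit 234) (nat_lit 228) (nat_lit 0) (XT.nd (nat_lit 78) (nat_lit 76) (nat_lit 0) (XT.lf (nat_lit 0) (nat_lit 11228610035) (nat_lit 152) (nat_lit 22119453972) (nat_lit 0) (nat_lit 9945779296) (nat_lit 14) (nat_lit 5) (nat_lit 16) (nat_lit 4) (nat_lit 14) (nat_lit 4) (nat_lit 456) (nat_lit 381) (nat_lit 363)) (XT.nd (nat_lit 78) (nat_lit 76) (nat_lit 0) (XT.lf (nat_lit 0) (nat_lit 23507973801) (nat_lit 152) (nat_lit 134481811) (nat_lit 0) (nat_lit 22193426146) (nat_lit 14) (nat_lit 5) (nat_lit 16) (nat_lit 4) (nat_lit 14) (nat_lit 4) (nat_lit 457) (nat_lit 381) (nat_lit 362)) (XT.lf (nat_lit 0) (nat_lit 24250124919) (nat_lit 76) (nat_lit 12825307339) (nat_lit 76) (nat_lit 11481392169)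 (nat_lit 13) (nat_lit 4) (nat_lit 14) (nat_lit 5) (nat_lit 14) (nat_lit 4) (nat_lit 458) (nat_lit 381) (nat_lit 361)))) (XT.nd (nat_lit 156) (nat_lit 76) (nat_lit 0) (XT.nd (nat_lit 78) (nat_lit 152) (nat_lit 0) (XT.lf (nat_lit 0) (nat_lit 50035383032) (nat_lit 76) (nat_lit 1426249935) (nat_lit 76) (nat_lit 55142622) (nat_lit 13) (nat_lit 4) (nat_lit 14) (nat_lit 5) (nat_lit 14) (nat_lit 4) (nat_lit 459) (nat_lit 381) (nat_lit 360)) (XT.lf (nat_lit 0) (nat_lit 12257101649) (nat_lit 152) (nat_lit 31421624051) (nat_lit 0) (nat_lit 10964244960) (nat_lit 11) (nat_lit 5) (nat_lit 13) (nat_lit 4) (nat_lit 11) (nat_lit 4) (nat_lit 460) (nat_lit 381) (nat_lit 359))) (XT.nd (nat_lit 78) (nat_lit 76) (nat_lit 0) (XT.lf (nat_lit 0) (nat_lit 25373332821) (nat_lit 152) (nat_lit 8601165457) (nat_lit 0) (nat_lit 24058890132) (nat_lit 11) (nat_lit 5) (nat_lit 13) (nat_lit 4) (nat_lit 11) (nat_lit 4) (nat_lit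 461) (nat_lit 381) (nat_lit 358)) (XT.lf (nat_lit 0) (nat_lit 16373081687) (nat_lit 76) (nat_lit 23321947413) (nat_lit 76) (nat_lit 21987517687) (nat_lit 10) (nat_lit 4) (nat_lit 11) (nat_lit 5) (nat_lit 11) (nat_lit 4) (nat_lit 462) (nat_lit 381) (nat_lit 357))))) (XT.nd (nat_lit 312) (nat_lit 76) (nat_lit 0) (XT.nd (nat_lit 156) (nat_lit 0) (nat_lit 0) (XT.nd (nat_lit 78) (nat_lit 152) (nat_lit 0) (XT.lf (nat_lit 0) (nat_lit 43355956260) (nat_lit 76) (nat_lit 11810162834) (nat_lit 76) (nat_lit 10457226592) (nat_lit 10) (nat_lit 4) (nat_lit 11) (nat_lit 5) (nat_lit 11) (nat_lit 4) (nat_lit 463) (nat_lit 381) (nat_lit 356)) (XT.lf (nat_lit 0) (nat_lit 1741255204) (nat_lit 152) (nat_lit 67673997104) (nat_lit 0) (nat_lit 472670107) (nat_lit 8) (nat_lit 5) (nat_lit 10) (nat_lit 4) (nat_lit 8) (nat_lit 4) (nat_lit 464) (nat_lit 381) (nat_lit 355))) (XT.nd (nat_lit 78) (nat_lit 0) (nat_lit 0)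 (XT.lf (nat_lit 0) (nat_lit 15062254586) (nat_lit 152) (nat_lit 45573775295) (nat_lit 0) (nat_lit 13778978420) (nat_lit 8) (nat_lit 5) (nat_lit 10) (nat_lit 4) (nat_lit 8) (nat_lit 4) (nat_lit 465) (nat_lit 381) (nat_lit 354)) (XT.lf (nat_lit 0) (nat_lit 29245415183) (nat_lit 152) (nat_lit 22126591563) (nat_lit 0) (nat_lit 27948536175) (nat_lit 8) (nat_lit 5) (nat_lit 10) (nat_lit 4) (nat_lit 8) (nat_lit 4) (nat_lit 466) (nat_lit 381) (nat_lit 353)))) (XT.nd (nat_lit 156) (nat_lit 0) (nat_lit 0) (XT.nd (nat_lit 78) (nat_lit 0) (nat_lit 0) (XT.lf (nat_lit 0) (nat_lit 2954285702) (nat_lit 76) (nat_lit 41491550293) (nat_lit 76) (nat_lit 40182076061) (nat_lit 7) (nat_lit 4) (nat_lit 8) (nat_lit 5) (nat_lit 8) (nat_lit 4) (nat_lit 467) (nat_lit 381) (nat_lit 352)) (XT.lf (nat_lit 0) (nat_lit 30919995554) (nat_lit 76) (nat_lit 30363651706) (nat_lit 76) (nat_lit 29042515230) (nat_lit 7) (nat_lit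 4) (nat_lit 8) (nat_lit 5) (nat_lit 8) (nat_lit 4) (nat_lit 468) (nat_lit 381) (nat_lit 351))) (XT.nd (nat_lit 78) (nat_lit 0) (nat_lit 0) (XT.lf (nat_lit 0) (nat_lit 60771113618) (nat_lit 76) (nat_lit 18527348109) (nat_lit 76) (nat_lit 17195413258) (nat_lit 7) (nat_lit 4) (nat_lit 8) (nat_lit 5) (nat_lit 8) (nat_lit 4) (nat_lit 469) (nat_lit 381) (nat_lit 350)) (XT.lf (nat_lit 0) (nat_lit 92684535407) (nat_lit 76) (nat_lit 5912498442) (nat_lit 76) (nat_lit 4570565097) (nat_lit 7) (nat_lit 4) (nat_lit 8) (nat_lit 5) (nat_lit 8) (nat_lit 4) (nat_lit 470) (nat_lit 381) (nat_lit 349))))))))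
noncomputable def xc51 : XT := (XT.nd (nat_lit 2184) (nat_lit 0) (nat_lit 0) (XT.nd (nat_lit 1092) (nat_lit 76) (nat_lit 0) (XT.nd (nat_lit 546) (nat_lit 152) (nat_lit 0) (XT.nd (nat_lit 234) (nat_lit 76) (nat_lit 0) (XT.nd (nat_lit 78) (nat_lit 0) (nat_lit 0) (XT.lf (nat_lit 0) (nat_lit 9070597688) (nat_lit 152) (nat_lit 93430908309) (nat_lit 0) (nat_lit 7819494715) (nat_lit 5) (nat_lit 5) (nat_lit 7) (nat_lit 4) (nat_lit 5) (nat_lit 4) (nat_lit 471) (nat_lit 381) (nat_lit 348)) (XT.nd (nat_lit 78) (nat_lit 0) (nat_lit 0) (XT.lf (nat_lit 0) (nat_lit 23854284787) (nat_lit 152) (nat_lit 71563795239) (nat_lit 0) (nat_lit 22595244687) (nat_lit 5) (nat_lit 5) (nat_lit 7) (nat_lit 4) (nat_lit 5) (nat_lit 4) (nat_lit 472) (nat_lit 381) (nat_lit 347)) (XT.lf (nat_lit 0) (nat_lit 39682258316) (nat_lit 152) (nat_lit 48233980171) (nat_lit 0) (nat_lit 38415869024) (nat_lit 5) (nat_lit 5) (nat_lit 7)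 (nat_lit 4) (nat_lit 5) (nat_lit 4) (nat_lit 473) (nat_lit 381) (nat_lit 346)))) (XT.nd (nat_lit 156) (nat_lit 0) (nat_lit 0) (XT.nd (nat_lit 78) (nat_lit 76) (nat_lit 0) (XT.lf (nat_lit 0) (nat_lit 56648313675) (nat_lit 152) (nat_lit 23303212351) (nat_lit 0) (nat_lit 55375119575) (nat_lit 5) (nat_lit 5) (nat_lit 7) (nat_lit 4) (nat_lit 5) (nat_lit 4) (nat_lit 474) (nat_lit 381) (nat_lit 345)) (XT.lf (nat_lit 0) (nat_lit 3554033242) (nat_lit 76) (nat_lit 71384431793) (nat_lit 76) (nat_lit 70104936945) (nat_lit 4) (nat_lit 4) (nat_lit 5) (nat_lit 5) (nat_lit 5) (nat_lit 4) (nat_lit 475) (nat_lit 381) (nat_lit 344))) (XT.nd (nat_lit 78) (nat_lit 0) (nat_lit 0) (XT.lf (nat_lit 0) (nat_lit 33645584074) (nat_lit 76) (nat_lit 61567761240) (nat_lit 76) (nat_lit 60282432367) (nat_lit 4) (nat_lit 4) (nat_lit 5) (nat_lit 5) (nat_lit 5) (nat_lit 4) (nat_lit 476) (nat_lit 381) (nat_lit 343)) (XT.lf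 (nat_lit 0) (nat_lit 65922654581) (nat_lit 76) (nat_lit 51080492627) (nat_lit 76) (nat_lit 49789761878) (nat_lit 4) (nat_lit 4) (nat_lit 5) (nat_lit 5) (nat_lit 5) (nat_lit 4) (nat_lit 477) (nat_lit 381) (nat_lit 342))))) (XT.nd (nat_lit 234) (nat_lit 152) (nat_lit 0) (XT.nd (nat_lit 78) (nat_lit 0) (nat_lit 0) (XT.lf (nat_lit 0) (nat_lit 100576516290) (nat_lit 76) (nat_lit 39860479177) (nat_lit 76) (nat_lit 38564746692) (nat_lit 4) (nat_lit 4) (nat_lit 5) (nat_lit 5) (nat_lit 5) (nat_lit 4) (nat_lit 478) (nat_lit 381) (nat_lit 341)) (XT.nd (nat_lit 78) (nat_lit 0) (nat_lit 0) (XT.lf (nat_lit 0) (nat_lit 137812525421) (nat_lit 76) (nat_lit 27841231922) (nat_lit 76) (nat_lit 26540868200) (nat_lit 4) (nat_lit 4) (nat_lit 5) (nat_lit 5) (nat_lit 5) (nat_lit 4) (nat_lit 479) (nat_lit 381) (nat_lit 340)) (XT.lf (nat_lit 0) (nat_lit 177851339803) (nat_lit 76) (nat_lit 14951525694) (nat_lit 76)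 (nat_lit 13646873788) (nat_lit 4) (nat_lit 4) (nat_lit 5) (nat_lit 5) (nat_lit 5) (nat_lit 4) (nat_lit 480) (nat_lit 381) (nat_lit 339)))) (XT.nd (nat_lit 156) (nat_lit 0) (nat_lit 0) (XT.nd (nat_lit 78) (nat_lit 76) (nat_lit 0) (XT.lf (nat_lit 0) (nat_lit 183958471) (nat_lit 152) (nat_lit 925988824) (nat_lit 76) (nat_lit 220741238264) (nat_lit 3) (nat_lit 5) (nat_lit 5) (nat_lit 5) (nat_lit 4) (nat_lit 4) (nat_lit 481) (nat_lit 381) (nat_lit 338)) (XT.lf (nat_lit 0) (nat_lit 15388299897) (nat_lit 152) (nat_lit 208814535981) (nat_lit 0) (nat_lit 14173208350) (nat_lit 2) (nat_lit 5) (nat_lit 4) (nat_lit 4) (nat_lit 2) (nat_lit 4) (nat_lit 482) (nat_lit 381) (nat_lit 337))) (XT.nd (nat_lit 78) (nat_lit 0) (nat_lit 0) (XT.lf (nat_lit 0) (nat_lit 31789060531) (nat_lit 152) (nat_lit 193864608350) (nat_lit 0) (nat_lit 30570817041) (nat_lit 2) (nat_lit 5) (nat_lit 4) (nat_lit 4) (nat_lit 2) (nat_lit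 4) (nat_lit 483) (nat_lit 381) (nat_lit 336)) (XT.lf (nat_lit 0) (nat_lit 49432684149) (nat_lit 152) (nat_lit 177862132518) (nat_lit 0) (nat_lit 48211522194) (nat_lit 2) (nat_lit 5) (nat_lit 4) (nat_lit 4) (nat_lit 2) (nat_lit 4) (nat_lit 484) (nat_lit 381) (nat_lit 335)))))) (XT.nd (nat_lit 546) (nat_lit 76) (nat_lit 0) (XT.nd (nat_lit 234) (nat_lit 0) (nat_lit 0) (XT.nd (nat_lit 78) (nat_lit 0) (nat_lit 0) (XT.lf (nat_lit 0) (nat_lit 68423725557) (nat_lit 152) (nat_lit 160712278998) (nat_lit 0) (nat_lit 67199861319) (nat_lit 2) (nat_lit 5) (nat_lit 4) (nat_lit 4) (nat_lit 2) (nat_lit 4) (nat_lit 485) (nat_lit 381) (nat_lit 334)) (XT.nd (nat_lit 78) (nat_lit 0) (nat_lit 0) (XT.lf (nat_lit 0) (nat_lit 88874724260) (nat_lit 152) (nat_lit 142313419027) (nat_lit 0) (nat_lit 87648357908) (nat_lit 2) (nat_lit 5) (nat_lit 4) (nat_lit 4) (nat_lit 2) (nat_lit 4) (nat_lit 486) (nat_lit 381) (nat_lit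 333)) (XT.lf (nat_lit 0) (nat_lit 110906871361) (nat_lit 152) (nat_lit 122556522326) (nat_lit 0) (nat_lit 109678188238) (nat_lit 2) (nat_lit 5) (nat_lit 4) (nat_lit 4) (nat_lit 2) (nat_lit 4) (nat_lit 487) (nat_lit 381) (nat_lit 332)))) (XT.nd (nat_lit 156) (nat_lit 0) (nat_lit 0) (XT.nd (nat_lit 78) (nat_lit 0) (nat_lit 0) (XT.lf (nat_lit 0) (nat_lit 134650727733) (nat_lit 152) (nat_lit 101324510987) (nat_lit 0) (nat_lit 133419899450) (nat_lit 2) (nat_lit 5) (nat_lit 4) (nat_lit 4) (nat_lit 2) (nat_lit 4) (nat_lit 488) (nat_lit 381) (nat_lit 331)) (XT.lf (nat_lit 0) (nat_lit 160246997708) (nat_lit 152) (nat_lit 78491565685) (nat_lit 0) (nat_lit 159014183167) (nat_lit 2) (nat_lit 5) (nat_lit 4) (nat_lit 4) (nat_lit 2) (nat_lit 4) (nat_lit 489) (nat_lit 381) (nat_lit 330))) (XT.nd (nat_lit 78) (nat_lit 0) (nat_lit 0) (XT.lf (nat_lit 0) (nat_lit 187847362888) (nat_lit 152) (nat_lit 53922380076)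 (nat_lit 0) (nat_lit 186612709219) (nat_lit 2) (nat_lit 5) (nat_lit 4) (nat_lit 4) (nat_lit 2) (nat_lit 4) (nat_lit 490) (nat_lit 381) (nat_lit 329)) (XT.lf (nat_lit 0) (nat_lit 217615380991) (nat_lit 152) (nat_lit 27471358986) (nat_lit 0) (nat_lit 216379024425) (nat_lit 2) (nat_lit 5) (nat_lit 4) (nat_lit 4) (nat_lit 2) (nat_lit 4) (nat_lit 491) (nat_lit 381) (nat_lit 328))))) (XT.nd (nat_lit 234) (nat_lit 0) (nat_lit 0) (XT.nd (nat_lit 78) (nat_lit 0) (nat_lit 0) (XT.lf (nat_lit 0) (nat_lit 1071863318) (nat_lit 76) (nat_lit 248681370108) (nat_lit 76) (nat_lit 247443436786) (nat_lit 1) (nat_lit 4) (nat_lit 2) (nat_lit 5) (nat_lit 2) (nat_lit 4) (nat_lit 492) (nat_lit 381) (nat_lit 327)) (XT.nd (nat_lit 78) (nat_lit 0) (nat_lit 0) (XT.lf (nat_lit 0) (nat_lit 33385326531) (nat_lit 76) (nat_lit 251791470326) (nat_lit 76) (nat_lit 250552077045) (nat_lit 1) (nat_lit 4) (nat_lit 2) (nat_lit 5)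 (nat_lit 2) (nat_lit 4) (nat_lit 493) (nat_lit 381) (nat_lit 326)) (XT.lf (nat_lit 0) (nat_lit 68213924760) (nat_lit 76) (nat_lit 255186586493) (nat_lit 76) (nat_lit 253945841398) (nat_lit 1) (nat_lit 4) (nat_lit 2) (nat_lit 5) (nat_lit 2) (nat_lit 4) (nat_lit 494) (nat_lit 381) (nat_lit 325)))) (XT.nd (nat_lit 156) (nat_lit 0) (nat_lit 0) (XT.nd (nat_lit 78) (nat_lit 0) (nat_lit 0) (XT.lf (nat_lit 0) (nat_lit 105764049697) (nat_lit 76) (nat_lit 258886837817) (nat_lit 76) (nat_lit 257644841042) (nat_lit 1) (nat_lit 4) (nat_lit 2) (nat_lit 5) (nat_lit 2) (nat_lit 4) (nat_lit 495) (nat_lit 381) (nat_lit 324)) (XT.lf (nat_lit 0) (nat_lit 146258220602) (nat_lit 76) (nat_lit 262914151713) (nat_lit 76) (nat_lit 261670995975) (nat_lit 1) (nat_lit 4) (nat_lit 2) (nat_lit 5) (nat_lit 2) (nat_lit 4) (nat_lit 496) (nat_lit 381) (nat_lit 323))) (XT.nd (nat_lit 78) (nat_lit 0) (nat_lit 0) (XT.lf (nat_lit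 0) (nat_lit 189936402933) (nat_lit 76) (nat_lit 267292393744) (nat_lit 76) (nat_lit 266048164893) (nat_lit 1) (nat_lit 4) (nat_lit 2) (nat_lit 5) (nat_lit 2) (nat_lit 4) (nat_lit 497) (nat_lit 381) (nat_lit 322)) (XT.lf (nat_lit 0) (nat_lit 237057430361) (nat_lit 76) (nat_lit 272047509049) (nat_lit 76) (nat_lit 270802286574) (nat_lit 1) (nat_lit 4) (nat_lit 2) (nat_lit 5) (nat_lit 2) (nat_lit 4) (nat_lit 498) (nat_lit 381) (nat_lit 321))))))) (XT.nd (nat_lit 1092) (nat_lit 0) (nat_lit 0) (XT.nd (nat_lit 546) (nat_lit 0) (nat_lit 0) (XT.nd (nat_lit 234) (nat_lit 0) (nat_lit 0) (XT.nd (nat_lit 78) (nat_lit 0) (nat_lit 0) (XT.lf (nat_lit 0) (nat_lit 287900538606) (nat_lit 76) (nat_lit 277207676088) (nat_lit 76) (nat_lit 275961533591) (nat_lit 1) (nat_lit 4) (nat_lit 2) (nat_lit 5) (nat_lit 2) (nat_lit 4) (nat_lit 499) (nat_lit 381) (nat_lit 320)) (XT.nd (nat_lit 78) (nat_lit 0) (nat_lit 0)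 (XT.lf (nat_lit 0) (nat_lit 342767020160) (nat_lit 76) (nat_lit 282803473630) (nat_lit 76) (nat_lit 281556479261) (nat_lit 1) (nat_lit 4) (nat_lit 2) (nat_lit 5) (nat_lit 2) (nat_lit 4) (nat_lit 500) (nat_lit 381) (nat_lit 319)) (XT.lf (nat_lit 0) (nat_lit 401982009729) (nat_lit 76) (nat_lit 288868061955) (nat_lit 76) (nat_lit 287620278816) (nat_lit 1) (nat_lit 4) (nat_lit 2) (nat_lit 5) (nat_lit 2) (nat_lit 4) (nat_lit 501) (nat_lit 381) (nat_lit 318)))) (XT.nd (nat_lit 156) (nat_lit 0) (nat_lit 0) (XT.nd (nat_lit 78) (nat_lit 0) (nat_lit 0) (XT.lf (nat_lit 0) (nat_lit 465896410955) (nat_lit 76) (nat_lit 295437379366) (nat_lit 76) (nat_lit 294188865883) (nat_lit 1) (nat_lit 4) (nat_lit 2) (nat_lit 5) (nat_lit 2) (nat_lit 4) (nat_lit 502) (nat_lit 381) (nat_lit 317)) (XT.lf (nat_lit 0) (nat_lit 534888975845) (nat_lit 76) (nat_lit 302550355150) (nat_lit 76) (nat_lit 301301165424) (nat_lit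 1) (nat_lit 4) (nat_lit 2) (nat_lit 5) (nat_lit 2) (nat_lit 4) (nat_lit 503) (nat_lit 381) (nat_lit 316))) (XT.nd (nat_lit 78) (nat_lit 0) (nat_lit 0) (XT.lf (nat_lit 0) (nat_lit 609368549228) (nat_lit 76) (nat_lit 310249140275) (nat_lit 76) (nat_lit 308999324397) (nat_lit 1) (nat_lit 4) (nat_lit 2) (nat_lit 5) (nat_lit 2) (nat_lit 4) (nat_lit 504) (nat_lit 381) (nat_lit 315)) (XT.lf (nat_lit 0) (nat_lit 689776491539) (nat_lit 76) (nat_lit 318579357172) (nat_lit 76) (nat_lit 317328961524) (nat_lit 1) (nat_lit 4) (nat_lit 2) (nat_lit 5) (nat_lit 2) (nat_lit 4) (nat_lit 505) (nat_lit 381) (nat_lit 314))))) (XT.nd (nat_lit 234) (nat_lit 0) (nat_lit 0) (XT.nd (nat_lit 78) (nat_lit 0) (nat_lit 0) (XT.lf (nat_lit 0) (nat_lit 776589294289) (nat_lit 76) (nat_lit 327590370089) (nat_lit 76) (nat_lit 326339437617) (nat_lit 1) (nat_lit 4) (nat_lit 2) (nat_lit 5) (nat_lit 2) (nat_lit 4) (nat_lit 506)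 (nat_lit 381) (nat_lit 313)) (XT.nd (nat_lit 78) (nat_lit 0) (nat_lit 0) (XT.lf (nat_lit 0) (nat_lit 870321403714) (nat_lit 76) (nat_lit 337335577620) (nat_lit 76) (nat_lit 336084148089) (nat_lit 1) (nat_lit 4) (nat_lit 2) (nat_lit 5) (nat_lit 2) (nat_lit 4) (nat_lit 507) (nat_lit 381) (nat_lit 312)) (XT.lf (nat_lit 0) (nat_lit 971528269354) (nat_lit 76) (nat_lit 347872729144) (nat_lit 76) (nat_lit 346620839373) (nat_lit 1) (nat_lit 4) (nat_lit 2) (nat_lit 5) (nat_lit 2) (nat_lit 4) (nat_lit 508) (nat_lit 381) (nat_lit 311)))) (XT.nd (nat_lit 156) (nat_lit 0) (nat_lit 0) (XT.nd (nat_lit 78) (nat_lit 0) (nat_lit 0) (XT.lf (nat_lit 0) (nat_lit 1080809635596) (nat_lit 76) (nat_lit 359264267040) (nat_lit 76) (nat_lit 358011951121) (nat_lit 1) (nat_lit 4) (nat_lit 2) (nat_lit 5) (nat_lit 2) (nat_lit 4) (nat_lit 509) (nat_lit 381) (nat_lit 310)) (XT.lf (nat_lit 0) (nat_lit 1198813095723) (nat_lit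 76) (nat_lit 371577696719) (nat_lit 76) (nat_lit 370324986218) (nat_lit 1) (nat_lit 4) (nat_lit 2) (nat_lit 5) (nat_lit 2) (nat_lit 4) (nat_lit 510) (nat_lit 381) (nat_lit 309))) (XT.nd (nat_lit 78) (nat_lit 0) (nat_lit 0) (XT.lf (nat_lit 0) (nat_lit 1326237929498) (nat_lit 76) (nat_lit 384885986651) (nat_lit 76) (nat_lit 383632910796) (nat_lit 1) (nat_lit 4) (nat_lit 2) (nat_lit 5) (nat_lit 2) (nat_lit 4) (nat_lit 511) (nat_lit 381) (nat_lit 308)) (XT.lf (nat_lit 0) (nat_lit 1463839247047) (nat_lit 76) (nat_lit 399268000778) (nat_lit 76) (nat_lit 398014586633) (nat_lit 1) (nat_lit 4) (nat_lit 2) (nat_lit 5) (nat_lit 2) (nat_lit 4) (nat_lit 512) (nat_lit 381) (nat_lit 307)))))) (XT.nd (nat_lit 546) (nat_lit 0) (nat_lit 0) (XT.nd (nat_lit 234) (nat_lit 0) (nat_lit 0) (XT.nd (nat_lit 78) (nat_lit 0) (nat_lit 0) (XT.lf (nat_lit 0) (nat_lit 1612432463584) (nat_lit 76) (nat_lit 414808965849)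 (nat_lit 76) (nat_lit 413555238473) (nat_lit 1) (nat_lit 4) (nat_lit 2) (nat_lit 5) (nat_lit 2) (nat_lit 4) (nat_lit 513) (nat_lit 381) (nat_lit 306)) (XT.nd (nat_lit 78) (nat_lit 0) (nat_lit 0) (XT.lf (nat_lit 0) (nat_lit 1772898131506) (nat_lit 76) (nat_lit 431600976474) (nat_lit 76) (nat_lit 430346959068) (nat_lit 1) (nat_lit 4) (nat_lit 2) (nat_lit 5) (nat_lit 2) (nat_lit 4) (nat_lit 514) (nat_lit 381) (nat_lit 305)) (XT.lf (nat_lit 0) (nat_lit 1946187158472) (nat_lit 76) (nat_lit 449743540862) (nat_lit 76) (nat_lit 448489254911) (nat_lit 1) (nat_lit 4) (nat_lit 2) (nat_lit 5) (nat_lit 2) (nat_lit 4) (nat_lit 515) (nat_lit 381) (nat_lit 304)))) (XT.nd (nat_lit 156) (nat_lit 0) (nat_lit 0) (XT.nd (nat_lit 78) (nat_lit 0) (nat_lit 0) (XT.lf (nat_lit 0) (nat_lit 2133326442421) (nat_lit 76) (nat_lit 469344170506) (nat_lit 76) (nat_lit 468089635902) (nat_lit 1) (nat_lit 4) (nat_lit 2) (nat_lit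 5) (nat_lit 2) (nat_lit 4) (nat_lit 516) (nat_lit 381) (nat_lit 303)) (XT.lf (nat_lit 0) (nat_lit 2335424956888) (nat_lit 76) (nat_lit 490519017287) (nat_lit 76) (nat_lit 489264252447) (nat_lit 1) (nat_lit 4) (nat_lit 2) (nat_lit 5) (nat_lit 2) (nat_lit 4) (nat_lit 517) (nat_lit 381) (nat_lit 302))) (XT.nd (nat_lit 78) (nat_lit 0) (nat_lit 0) (XT.lf (nat_lit 0) (nat_lit 2553680322698) (nat_lit 76) (nat_lit 513393561776) (nat_lit 76) (nat_lit 512138583757) (nat_lit 1) (nat_lit 4) (nat_lit 2) (nat_lit 5) (nat_lit 2) (nat_lit 4) (nat_lit 518) (nat_lit 381) (nat_lit 301)) (XT.lf (nat_lit 0) (nat_lit 2789385904983) (nat_lit 76) (nat_lit 538103356831) (nat_lit 76) (nat_lit 536848181423) (nat_lit 1) (nat_lit 4) (nat_lit 2) (nat_lit 5) (nat_lit 2) (nat_lit 4) (nat_lit 519) (nat_lit 381) (nat_lit 300))))) (XT.nd (nat_lit 312) (nat_lit 0) (nat_lit 0) (XT.nd (nat_lit 156) (nat_lit 0) (nat_lit 0) (XT.nd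 (nat_lit 78) (nat_lit 0) (nat_lit 0) (XT.lf (nat_lit 0) (nat_lit 3043938477563) (nat_lit 76) (nat_lit 564794830867) (nat_lit 76) (nat_lit 563539472691) (nat_lit 1) (nat_lit 4) (nat_lit 2) (nat_lit 5) (nat_lit 2) (nat_lit 4) (nat_lit 520) (nat_lit 381) (nat_lit 299)) (XT.lf (nat_lit 0) (nat_lit 3318846500128) (nat_lit 76) (nat_lit 593626155582) (nat_lit 76) (nat_lit 592370628177) (nat_lit 1) (nat_lit 4) (nat_lit 2) (nat_lit 5) (nat_lit 2) (nat_lit 4) (nat_lit 521) (nat_lit 381) (nat_lit 298))) (XT.nd (nat_lit 78) (nat_lit 0) (nat_lit 0) (XT.lf (nat_lit 0) (nat_lit 3615739057256) (nat_lit 76) (nat_lit 624768183270) (nat_lit 76) (nat_lit 623512499171) (nat_lit 1) (nat_lit 4) (nat_lit 2) (nat_lit 5) (nat_lit 2) (nat_lit 4) (nat_lit 522) (nat_lit 381) (nat_lit 297)) (XT.lf (nat_lit 0) (nat_lit 3936375512249) (nat_lit 76) (nat_lit 658405459280) (nat_lit 76) (nat_lit 657149630094) (nat_lit 1) (nat_lit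 4) (nat_lit 2) (nat_lit 5) (nat_lit 2) (nat_lit 4) (nat_lit 523) (nat_lit 381) (nat_lit 296)))) (XT.nd (nat_lit 156) (nat_lit 0) (nat_lit 0) (XT.nd (nat_lit 78) (nat_lit 0) (nat_lit 0) (XT.lf (nat_lit 0) (nat_lit 4282655932987) (nat_lit 76) (nat_lit 694737315619) (nat_lit 76) (nat_lit 693481352094) (nat_lit 1) (nat_lit 4) (nat_lit 2) (nat_lit 5) (nat_lit 2) (nat_lit 4) (nat_lit 524) (nat_lit 381) (nat_lit 295)) (XT.lf (nat_lit 0) (nat_lit 4656632351594) (nat_lit 76) (nat_lit 733979052176) (nat_lit 76) (nat_lit 732722964262) (nat_lit 1) (nat_lit 4) (nat_lit 2) (nat_lit 5) (nat_lit 2) (nat_lit 4) (nat_lit 525) (nat_lit 381) (nat_lit 294))) (XT.nd (nat_lit 78) (nat_lit 0) (nat_lit 0) (XT.lf (nat_lit 0) (nat_lit 5060520924625) (nat_lit 76) (nat_lit 776363212575) (nat_lit 76) (nat_lit 775107009487) (nat_lit 1) (nat_lit 4) (nat_lit 2) (nat_lit 5) (nat_lit 2) (nat_lit 4) (nat_lit 526) (nat_lit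 381) (nat_lit 293)) (XT.lf (nat_lit 0) (nat_lit 5496715065845) (nat_lit 76) (nat_lit 822140962211) (nat_lit 76) (nat_lit 820884652479) (nat_lit 1) (nat_lit 4) (nat_lit 2) (nat_lit 5) (nat_lit 2) (nat_lit 4) (nat_lit 527) (nat_lit 381) (nat_lit 292))))))))
noncomputable def xc52 : XT := (XT.nd (nat_lit 56082) (nat_lit 0) (nat_lit 304) (XT.nd (nat_lit 1092) (nat_lit 0) (nat_lit 0) (XT.nd (nat_lit 546) (nat_lit 0) (nat_lit 0) (XT.nd (nat_lit 234) (nat_lit 0) (nat_lit 0) (XT.nd (nat_lit 78) (nat_lit 0) (nat_lit 0) (XT.lf (nat_lit 0) (nat_lit 5967799629425) (nat_lit 76) (nat_lit 871583576638) (nat_lit 76) (nat_lit 870327168162) (nat_lit 1) (nat_lit 4) (nat_lit 2) (nat_lit 5) (nat_lit 2) (nat_lit 4) (nat_lit 528) (nat_lit 381) (nat_lit 291)) (XT.nd (nat_lit 78) (nat_lit 0) (nat_lit 0) (XT.lf (nat_lit 0) (nat_lit 6476566227594) (nat_lit 76) (nat_lit 924984049125) (nat_lit 76) (nat_lit 923727549220)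 (nat_lit 1) (nat_lit 4) (nat_lit 2) (nat_lit 5) (nat_lit 2) (nat_lit 4) (nat_lit 529) (nat_lit 381) (nat_lit 290)) (XT.lf (nat_lit 0) (nat_lit 7026029773525) (nat_lit 76) (nat_lit 982658826918) (nat_lit 76) (nat_lit 981402242356) (nat_lit 1) (nat_lit 4) (nat_lit 2) (nat_lit 5) (nat_lit 2) (nat_lit 4) (nat_lit 530) (nat_lit 381) (nat_lit 289)))) (XT.nd (nat_lit 156) (nat_lit 0) (nat_lit 0) (XT.nd (nat_lit 78) (nat_lit 0) (nat_lit 0) (XT.lf (nat_lit 0) (nat_lit 7619446347491) (nat_lit 76) (nat_lit 1044949686477) (nat_lit 76) (nat_lit 1043693023529) (nat_lit 1) (nat_lit 4) (nat_lit 2) (nat_lit 5) (nat_lit 2) (nat_lit 4) (nat_lit 531) (nat_lit 381) (nat_lit 288)) (XT.lf (nat_lit 0) (nat_lit 8260332492153) (nat_lit 76) (nat_lit 1112225758822) (nat_lit 76) (nat_lit 1110969023295) (nat_lit 1) (nat_lit 4) (nat_lit 2) (nat_lit 5) (nat_lit 2) (nat_lit 4) (nat_lit 532) (nat_lit 381) (nat_lit 287)))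 (XT.nd (nat_lit 78) (nat_lit 0) (nat_lit 0) (XT.lf (nat_lit 0) (nat_lit 8952486051330) (nat_lit 76) (nat_lit 1184885716975) (nat_lit 76) (nat_lit 1183628914244) (nat_lit 1) (nat_lit 4) (nat_lit 2) (nat_lit 5) (nat_lit 2) (nat_lit 4) (nat_lit 533) (nat_lit 381) (nat_lit 286)) (XT.lf (nat_lit 0) (nat_lit 9700008675744) (nat_lit 76) (nat_lit 1263360138465) (nat_lit 76) (nat_lit 1262103273509) (nat_lit 1) (nat_lit 4) (nat_lit 2) (nat_lit 5) (nat_lit 2) (nat_lit 4) (nat_lit 534) (nat_lit 381) (nat_lit 285))))) (XT.nd (nat_lit 234) (nat_lit 0) (nat_lit 0) (XT.nd (nat_lit 78) (nat_lit 0) (nat_lit 0) (XT.lf (nat_lit 0) (nat_lit 10507330129095) (nat_lit 76) (nat_lit 1348114056900) (nat_lit 76) (nat_lit 1346857134328) (nat_lit 1) (nat_lit 4) (nat_lit 2) (nat_lit 5) (nat_lit 2) (nat_lit 4) (nat_lit 535) (nat_lit 381) (nat_lit 284)) (XT.nd (nat_lit 78) (nat_lit 0) (nat_lit 0) (XT.lf (nat_lit 0) (nat_lit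 11379234538514) (nat_lit 76) (nat_lit 1439649717724) (nat_lit 76) (nat_lit 1438392741804) (nat_lit 1) (nat_lit 4) (nat_lit 2) (nat_lit 5) (nat_lit 2) (nat_lit 4) (nat_lit 536) (nat_lit 381) (nat_lit 283)) (XT.lf (nat_lit 0) (nat_lit 12320888744946) (nat_lit 76) (nat_lit 1538509554483) (nat_lit 76) (nat_lit 1537252529166) (nat_lit 1) (nat_lit 4) (nat_lit 2) (nat_lit 5) (nat_lit 2) (nat_lit 4) (nat_lit 537) (nat_lit 381) (nat_lit 282)))) (XT.nd (nat_lit 156) (nat_lit 0) (nat_lit 0) (XT.nd (nat_lit 78) (nat_lit 0) (nat_lit 0) (XT.lf (nat_lit 0) (nat_lit 13337872921465) (nat_lit 76) (nat_lit 1645279403245) (nat_lit 76) (nat_lit 1644022332191) (nat_lit 1) (nat_lit 4) (nat_lit 2) (nat_lit 5) (nat_lit 2) (nat_lit 4) (nat_lit 538) (nat_lit 381) (nat_lit 281)) (XT.lf (nat_lit 0) (nat_lit 14436213640970) (nat_lit 76) (nat_lit 1760591974226) (nat_lit 76) (nat_lit 1759334860822) (nat_lit 1) (nat_lit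 4) (nat_lit 2) (nat_lit 5) (nat_lit 2) (nat_lit 4) (nat_lit 539) (nat_lit 381) (nat_lit 280))) (XT.nd (nat_lit 78) (nat_lit 0) (nat_lit 0) (XT.lf (nat_lit 0) (nat_lit 15622419589207) (nat_lit 76) (nat_lit 1885130601179) (nat_lit 76) (nat_lit 1883873448563) (nat_lit 1) (nat_lit 4) (nat_lit 2) (nat_lit 5) (nat_lit 2) (nat_lit 4) (nat_lit 540) (nat_lit 381) (nat_lit 279)) (XT.lf (nat_lit 0) (nat_lit 16903520134756) (nat_lit 76) (nat_lit 2019633290783) (nat_lit 76) (nat_lit 2018376101860) (nat_lit 1) (nat_lit 4) (nat_lit 2) (nat_lit 5) (nat_lit 2) (nat_lit 4) (nat_lit 541) (nat_lit 381) (nat_lit 278)))))) (XT.nd (nat_lit 54444) (nat_lit 0) (nat_lit 1824) (XT.nd (nat_lit 234) (nat_lit 0) (nat_lit 0) (XT.nd (nat_lit 78) (nat_lit 0) (nat_lit 0) (XT.lf (nat_lit 0) (nat_lit 18287106984554) (nat_lit 76) (nat_lit 2164897096014) (nat_lit 76) (nat_lit 2163639873472) (nat_lit 1) (nat_lit 4) (nat_lit 2)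 (nat_lit 5) (nat_lit 2) (nat_lit 4) (nat_lit 542) (nat_lit 381) (nat_lit 277)) (XT.nd (nat_lit 78) (nat_lit 0) (nat_lit 0) (XT.lf (nat_lit 0) (nat_lit 19781379171787) (nat_lit 76) (nat_lit 2321782839421) (nat_lit 76) (nat_lit 2320525585751) (nat_lit 1) (nat_lit 4) (nat_lit 2) (nat_lit 5) (nat_lit 2) (nat_lit 4) (nat_lit 543) (nat_lit 381) (nat_lit 276)) (XT.lf (nat_lit 0) (nat_lit 21395191642748) (nat_lit 76) (nat_lit 2491220214297) (nat_lit 76) (nat_lit 2489962931805) (nat_lit 1) (nat_lit 4) (nat_lit 2) (nat_lit 5) (nat_lit 2) (nat_lit 4) (nat_lit 544) (nat_lit 381) (nat_lit 275)))) (XT.nd (nat_lit 54054) (nat_lit 0) (nat_lit 2508) (XT.nd (nat_lit 53976) (nat_lit 0) (nat_lit 2736) (XT.lf (nat_lit 0) (nat_lit 23138107730598) (nat_lit 76) (nat_lit 2674213293977) (nat_lit 76) (nat_lit 2672955984797) (nat_lit 1) (nat_lit 4) (nat_lit 2) (nat_lit 5) (nat_lit 2) (nat_lit 4) (nat_lit 545) (nat_lit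 381) (nat_lit 274)) (XT.lf (nat_lit 0) (nat_lit 4981242290) (nat_lit 76) (nat_lit 1685108122) (nat_lit 76) (nat_lit 1685108122) (nat_lit 37) (nat_lit 4) (nat_lit 38) (nat_lit 5) (nat_lit 38) (nat_lit 4) (nat_lit 436) (nat_lit 382) (nat_lit 382))) (XT.nd (nat_lit 78) (nat_lit 76) (nat_lit 0) (XT.lf (nat_lit 0) (nat_lit 4566392142) (nat_lit 152) (nat_lit 8485639496) (nat_lit 0) (nat_lit 4331802627) (nat_lit 35) (nat_lit 5) (nat_lit 37) (nat_lit 4) (nat_lit 35) (nat_lit 4) (nat_lit 437) (nat_lit 382) (nat_lit 381)) (XT.lf (nat_lit 0) (nat_lit 7427048021) (nat_lit 76) (nat_lit 5566964305) (nat_lit 76) (nat_lit 5115162277) (nat_lit 34) (nat_lit 4) (nat_lit 35) (nat_lit 5) (nat_lit 35) (nat_lit 4) (nat_lit 438) (nat_lit 382) (nat_lit 380))))) (XT.nd (nat_lit 234) (nat_lit 380) (nat_lit 0) (XT.nd (nat_lit 78) (nat_lit 152) (nat_lit 0) (XT.lf (nat_lit 0) (nat_lit 3061410595) (nat_lit 152) (nat_lit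 13366654513) (nat_lit 0) (nat_lit 2456850664) (nat_lit 32) (nat_lit 5) (nat_lit 34) (nat_lit 4) (nat_lit 32) (nat_lit 4) (nat_lit 439) (nat_lit 382) (nat_lit 379)) (XT.nd (nat_lit 78) (nat_lit 76) (nat_lit 0) (XT.lf (nat_lit 0) (nat_lit 2951625161) (nat_lit 76) (nat_lit 8764705575) (nat_lit 76) (nat_lit 7987715347) (nat_lit 31) (nat_lit 4) (nat_lit 32) (nat_lit 5) (nat_lit 32) (nat_lit 4) (nat_lit 440) (nat_lit 382) (nat_lit 378)) (XT.lf (nat_lit 0) (nat_lit 412161424) (nat_lit 152) (nat_lit 79352145) (nat_lit 76) (nat_lit 20099404853) (nat_lit 30) (nat_lit 5) (nat_lit 32) (nat_lit 5) (nat_lit 31) (nat_lit 4) (nat_lit 441) (nat_lit 382) (nat_lit 377)))) (XT.nd (nat_lit 156) (nat_lit 228) (nat_lit 0) (XT.nd (nat_lit 78) (nat_lit 76) (nat_lit 0) (XT.lf (nat_lit 0) (nat_lit 9308454303) (nat_lit 152) (nat_lit 3898907452) (nat_lit 0) (nat_lit 8304306993) (nat_lit 29) (nat_lit 5) (nat_lit 31)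 (nat_lit 4) (nat_lit 29) (nat_lit 4) (nat_lit 442) (nat_lit 382) (nat_lit 376)) (XT.lf (nat_lit 0) (nat_lit 14139507755) (nat_lit 76) (nat_lit 4749816772) (nat_lit 76) (nat_lit 3618928045) (nat_lit 28) (nat_lit 4) (nat_lit 29) (nat_lit 5) (nat_lit 29) (nat_lit 4) (nat_lit 443) (nat_lit 382) (nat_lit 375))) (XT.nd (nat_lit 78) (nat_lit 76) (nat_lit 0) (XT.lf (nat_lit 0) (nat_lit 5442385076) (nat_lit 152) (nat_lit 13838858740) (nat_lit 0) (nat_lit 4286605549) (nat_lit 26) (nat_lit 5) (nat_lit 28) (nat_lit 4) (nat_lit 26) (nat_lit 4) (nat_lit 444) (nat_lit 382) (nat_lit 374)) (XT.lf (nat_lit 0) (nat_lit 4271695242) (nat_lit 76) (nat_lit 10841492209) (nat_lit 76) (nat_lit 9585101261) (nat_lit 25) (nat_lit 4) (nat_lit 26) (nat_lit 5) (nat_lit 26) (nat_lit 4) (nat_lit 445) (nat_lit 382) (nat_lit 373))))))) (XT.nd (nat_lit 1092) (nat_lit 608) (nat_lit 0) (XT.nd (nat_lit 546) (nat_lit 456) (nat_lit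 0) (XT.nd (nat_lit 234) (nat_lit 228) (nat_lit 0) (XT.nd (nat_lit 78) (nat_lit 228) (nat_lit 0) (XT.lf (nat_lit 0) (nat_lit 23862495146) (nat_lit 76) (nat_lit 1702804294) (nat_lit 76) (nat_lit 353254622) (nat_lit 25) (nat_lit 4) (nat_lit 26) (nat_lit 5) (nat_lit 26) (nat_lit 4) (nat_lit 446) (nat_lit 382) (nat_lit 372)) (XT.nd (nat_lit 78) (nat_lit 76) (nat_lit 0) (XT.lf (nat_lit 0) (nat_lit 9414745362) (nat_lit 152) (nat_lit 9695604760) (nat_lit 0) (nat_lit 8085293742) (nat_lit 23) (nat_lit 5) (nat_lit 25) (nat_lit 4) (nat_lit 23) (nat_lit 4) (nat_lit 447) (nat_lit 382) (nat_lit 371)) (XT.lf (nat_lit 0) (nat_lit 9888058915) (nat_lit 76) (nat_lit 10045229430) (nat_lit 76) (nat_lit 8641825411) (nat_lit 22) (nat_lit 4) (nat_lit 23) (nat_lit 5) (nat_lit 23) (nat_lit 4) (nat_lit 448) (nat_lit 382) (nat_lit 370)))) (XT.nd (nat_lit 156) (nat_lit 76) (nat_lit 0) (XT.nd (nat_lit 78) (nat_lit 0)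 (nat_lit 0) (XT.lf (nat_lit 0) (nat_lit 832110679) (nat_lit 76) (nat_lit 275576407) (nat_lit 152) (nat_lit 28959631511) (nat_lit 20) (nat_lit 5) (nat_lit 21) (nat_lit 5) (nat_lit 22) (nat_lit 4) (nat_lit 449) (nat_lit 382) (nat_lit 369)) (XT.lf (nat_lit 0) (nat_lit 11590912101) (nat_lit 152) (nat_lit 9867025613) (nat_lit 0) (nat_lit 10169355876) (nat_lit 20) (nat_lit 5) (nat_lit 22) (nat_lit 4) (nat_lit 20) (nat_lit 4) (nat_lit 450) (nat_lit 382) (nat_lit 368))) (XT.nd (nat_lit 78) (nat_lit 0) (nat_lit 0) (XT.lf (nat_lit 0) (nat_lit 10923506408) (nat_lit 76) (nat_lit 11934431812) (nat_lit 76) (nat_lit 10458518365) (nat_lit 19) (nat_lit 4) (nat_lit 20) (nat_lit 5) (nat_lit 20) (nat_lit 4) (nat_lit 451) (nat_lit 382) (nat_lit 367)) (XT.lf (nat_lit 0) (nat_lit 33288912919) (nat_lit 76) (nat_lit 1690903044) (nat_lit 76) (nat_lit 164658838) (nat_lit 19) (nat_lit 4) (nat_lit 20) (nat_lit 5) (nat_lit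 20) (nat_lit 4) (nat_lit 452) (nat_lit 382) (nat_lit 366))))) (XT.nd (nat_lit 234) (nat_lit 228) (nat_lit 0) (XT.nd (nat_lit 78) (nat_lit 76) (nat_lit 0) (XT.lf (nat_lit 0) (nat_lit 10834006150) (nat_lit 152) (nat_lit 16851654240) (nat_lit 0) (nat_lit 9377666556) (nat_lit 17) (nat_lit 5) (nat_lit 19) (nat_lit 4) (nat_lit 17) (nat_lit 4) (nat_lit 453) (nat_lit 382) (nat_lit 365)) (XT.nd (nat_lit 78) (nat_lit 0) (nat_lit 0) (XT.lf (nat_lit 0) (nat_lit 4580205152) (nat_lit 76) (nat_lit 18029476860) (nat_lit 76) (nat_lit 16533183087) (nat_lit 16) (nat_lit 4) (nat_lit 17) (nat_lit 5) (nat_lit 17) (nat_lit 4) (nat_lit 454) (nat_lit 382) (nat_lit 364)) (XT.lf (nat_lit 0) (nat_lit 28083030828) (nat_lit 76) (nat_lit 7412776605) (nat_lit 76) (nat_lit 5879488220) (nat_lit 16) (nat_lit 4) (nat_lit 17) (nat_lit 5) (nat_lit 17) (nat_lit 4) (nat_lit 455) (nat_lit 382) (nat_lit 363)))) (XT.nd (nat_lit 156)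 (nat_lit 76) (nat_lit 0) (XT.nd (nat_lit 78) (nat_lit 0) (nat_lit 0) (XT.lf (nat_lit 0) (nat_lit 5394277047) (nat_lit 152) (nat_lit 34434431566) (nat_lit 0) (nat_lit 3942848664) (nat_lit 14) (nat_lit 5) (nat_lit 16) (nat_lit 4) (nat_lit 14) (nat_lit 4) (nat_lit 456) (nat_lit 382) (nat_lit 362)) (XT.lf (nat_lit 0) (nat_lit 17540241536) (nat_lit 152) (nat_lit 12724580878) (nat_lit 0) (nat_lit 16059445637) (nat_lit 14) (nat_lit 5) (nat_lit 16) (nat_lit 4) (nat_lit 14) (nat_lit 4) (nat_lit 457) (nat_lit 382) (nat_lit 361))) (XT.nd (nat_lit 78) (nat_lit 0) (nat_lit 0) (XT.lf (nat_lit 0) (nat_lit 10728897173) (nat_lit 76) (nat_lit 19930099117) (nat_lit 76) (nat_lit 18422111075) (nat_lit 13) (nat_lit 4) (nat_lit 14) (nat_lit 5) (nat_lit 14) (nat_lit 4) (nat_lit 458) (nat_lit 382) (nat_lit 360)) (XT.lf (nat_lit 0) (nat_lit 36265862347) (nat_lit 76) (nat_lit 8658994821) (nat_lit 76) (nat_lit 7125828869)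 (nat_lit 13) (nat_lit 4) (nat_lit 14) (nat_lit 5) (nat_lit 14) (nat_lit 4) (nat_lit 459) (nat_lit 382) (nat_lit 359)))))) (XT.nd (nat_lit 546) (nat_lit 228) (nat_lit 0) (XT.nd (nat_lit 234) (nat_lit 228) (nat_lit 0) (XT.nd (nat_lit 78) (nat_lit 0) (nat_lit 0) (XT.lf (nat_lit 0) (nat_lit 4871281833) (nat_lit 152) (nat_lit 46942612872) (nat_lit 0) (nat_lit 3430097729) (nat_lit 11) (nat_lit 5) (nat_lit 13) (nat_lit 4) (nat_lit 11) (nat_lit 4) (nat_lit 460) (nat_lit 382) (nat_lit 358)) (XT.nd (nat_lit 78) (nat_lit 0) (nat_lit 0) (XT.lf (nat_lit 0) (nat_lit 17873279161) (nat_lit 152) (nat_lit 24358161967) (nat_lit 0) (nat_lit 16412108020) (nat_lit 11) (nat_lit 5) (nat_lit 13) (nat_lit 4) (nat_lit 11) (nat_lit 4) (nat_lit 461) (nat_lit 382) (nat_lit 357)) (XT.lf (nat_lit 0) (nat_lit 31695430355) (nat_lit 152) (nat_lit 421488316) (nat_lit 0) (nat_lit 30215752698) (nat_lit 11) (nat_lit 5) (nat_lit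 13) (nat_lit 4) (nat_lit 11) (nat_lit 4) (nat_lit 462) (nat_lit 382) (nat_lit 356)))) (XT.nd (nat_lit 156) (nat_lit 152) (nat_lit 0) (XT.nd (nat_lit 78) (nat_lit 0) (nat_lit 0) (XT.lf (nat_lit 0) (nat_lit 26326198084) (nat_lit 76) (nat_lit 20726592070) (nat_lit 76) (nat_lit 19229778750) (nat_lit 10) (nat_lit 4) (nat_lit 11) (nat_lit 5) (nat_lit 11) (nat_lit 4) (nat_lit 463) (nat_lit 382) (nat_lit 355)) (XT.lf (nat_lit 0) (nat_lit 54827460410) (nat_lit 76) (nat_lit 8624317402) (nat_lit 76) (nat_lit 7111637727) (nat_lit 10) (nat_lit 4) (nat_lit 11) (nat_lit 5) (nat_lit 11) (nat_lit 4) (nat_lit 464) (nat_lit 382) (nat_lit 354))) (XT.nd (nat_lit 78) (nat_lit 0) (nat_lit 0) (XT.lf (nat_lit 0) (nat_lit 5851127881) (nat_lit 152) (nat_lit 64873279749) (nat_lit 0) (nat_lit 4436895711) (nat_lit 8) (nat_lit 5) (nat_lit 10) (nat_lit 4) (nat_lit 8) (nat_lit 4) (nat_lit 465) (nat_lit 382) (nat_lit 353))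 (XT.lf (nat_lit 0) (nat_lit 19943690750) (nat_lit 152) (nat_lit 41613531835) (nat_lit 0) (nat_lit 18516863356) (nat_lit 8) (nat_lit 5) (nat_lit 10) (nat_lit 4) (nat_lit 8) (nat_lit 4) (nat_lit 466) (nat_lit 382) (nat_lit 352))))) (XT.nd (nat_lit 312) (nat_lit 152) (nat_lit 0) (XT.nd (nat_lit 156) (nat_lit 0) (nat_lit 0) (XT.nd (nat_lit 78) (nat_lit 76) (nat_lit 0) (XT.lf (nat_lit 0) (nat_lit 34989174135) (nat_lit 152) (nat_lit 16853991588) (nat_lit 0) (nat_lit 33550684497) (nat_lit 8) (nat_lit 5) (nat_lit 10) (nat_lit 4) (nat_lit 8) (nat_lit 4) (nat_lit 467) (nat_lit 382) (nat_lit 351)) (XT.lf (nat_lit 0) (nat_lit 10055058965) (nat_lit 76) (nat_lit 41263501902) (nat_lit 76) (nat_lit 39814213889) (nat_lit 7) (nat_lit 4) (nat_lit 8) (nat_lit 5) (nat_lit 8) (nat_lit 4) (nat_lit 468) (nat_lit 382) (nat_lit 350))) (XT.nd (nat_lit 78) (nat_lit 0) (nat_lit 0) (XT.lf (nat_lit 0) (nat_lit 39749549278)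 (nat_lit 76) (nat_lit 29508139755) (nat_lit 76) (nat_lit 28048853248) (nat_lit 7) (nat_lit 4) (nat_lit 8) (nat_lit 5) (nat_lit 8) (nat_lit 4) (nat_lit 469) (nat_lit 382) (nat_lit 349)) (XT.lf (nat_lit 0) (nat_lit 71517945374) (nat_lit 76) (nat_lit 16968235876) (nat_lit 76) (nat_lit 15499691504) (nat_lit 7) (nat_lit 4) (nat_lit 8) (nat_lit 5) (nat_lit 8) (nat_lit 4) (nat_lit 470) (nat_lit 382) (nat_lit 348)))) (XT.nd (nat_lit 156) (nat_lit 0) (nat_lit 0) (XT.nd (nat_lit 78) (nat_lit 152) (nat_lit 0) (XT.lf (nat_lit 0) (nat_lit 105548504413) (nat_lit 76) (nat_lit 3569479723) (nat_lit 76) (nat_lit 2092363253) (nat_lit 7) (nat_lit 4) (nat_lit 8) (nat_lit 5) (nat_lit 8) (nat_lit 4) (nat_lit 471) (nat_lit 382) (nat_lit 347)) (XT.lf (nat_lit 0) (nat_lit 12496542833) (nat_lit 152) (nat_lit 95312617116) (nat_lit 0) (nat_lit 11121493205) (nat_lit 5) (nat_lit 5) (nat_lit 7) (nat_lit 4) (nat_lit 5)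 (nat_lit 4) (nat_lit 472) (nat_lit 382) (nat_lit 346))) (XT.nd (nat_lit 78) (nat_lit 0) (nat_lit 0) (XT.lf (nat_lit 0) (nat_lit 28262902875) (nat_lit 152) (nat_lit 72110413804) (nat_lit 0) (nat_lit 26881048440) (nat_lit 5) (nat_lit 5) (nat_lit 7) (nat_lit 4) (nat_lit 5) (nat_lit 4) (nat_lit 473) (nat_lit 382) (nat_lit 345)) (XT.lf (nat_lit 0) (nat_lit 45171908709) (nat_lit 152) (nat_lit 47297805017) (nat_lit 0) (nat_lit 43783753526) (nat_lit 5) (nat_lit 5) (nat_lit 7) (nat_lit 4) (nat_lit 5) (nat_lit 4) (nat_lit 474) (nat_lit 382) (nat_lit 344))))))))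
noncomputable def xc53 : XT := (XT.nd (nat_lit 2184) (nat_lit 0) (nat_lit 0) (XT.nd (nat_lit 1092) (nat_lit 76) (nat_lit 0) (XT.nd (nat_lit 546) (nat_lit 152) (nat_lit 0) (XT.nd (nat_lit 234) (nat_lit 0) (nat_lit 0) (XT.nd (nat_lit 78) (nat_lit 76) (nat_lit 0) (XT.lf (nat_lit 0) (nat_lit 63323761850) (nat_lit 152) (nat_lit 20727753072) (nat_lit 0) (nat_lit 61929772642) (nat_lit 5) (nat_lit 5) (nat_lit 7) (nat_lit 4) (nat_lit 5) (nat_lit 4) (nat_lit 475) (nat_lit 382) (nat_lit 343)) (XT.nd (nat_lit 78) (nat_lit 0) (nat_lit 0) (XT.lf (nat_lit 0) (nat_lit 8165674288) (nat_lit 76) (nat_lit 74856739210) (nat_lit 76) (nat_lit 73457348126) (nat_lit 4) (nat_lit 4) (nat_lit 5) (nat_lit 5) (nat_lit 5) (nat_lit 4) (nat_lit 476) (nat_lit 382) (nat_lit 342)) (XT.lf (nat_lit 0) (nat_lit 40344007084) (nat_lit 76) (nat_lit 64420545910) (nat_lit 76) (nat_lit 63016153090) (nat_lit 4) (nat_lit 4) (nat_lit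 5) (nat_lit 5) (nat_lit 5) (nat_lit 4) (nat_lit 477) (nat_lit 382) (nat_lit 341)))) (XT.nd (nat_lit 156) (nat_lit 0) (nat_lit 0) (XT.nd (nat_lit 78) (nat_lit 0) (nat_lit 0) (XT.lf (nat_lit 0) (nat_lit 74906444988) (nat_lit 76) (nat_lit 53247824418) (nat_lit 76) (nat_lit 51838800360) (nat_lit 4) (nat_lit 4) (nat_lit 5) (nat_lit 5) (nat_lit 5) (nat_lit 4) (nat_lit 478) (nat_lit 382) (nat_lit 340)) (XT.lf (nat_lit 0) (nat_lit 112057802446) (nat_lit 76) (nat_lit 41272366012) (nat_lit 76) (nat_lit 39859053771) (nat_lit 4) (nat_lit 4) (nat_lit 5) (nat_lit 5) (nat_lit 5) (nat_lit 4) (nat_lit 479) (nat_lit 382) (nat_lit 339))) (XT.nd (nat_lit 78) (nat_lit 0) (nat_lit 0) (XT.lf (nat_lit 0) (nat_lit 152018235651) (nat_lit 76) (nat_lit 28423205014) (nat_lit 76) (nat_lit 27005922233) (nat_lit 4) (nat_lit 4) (nat_lit 5) (nat_lit 5) (nat_lit 5) (nat_lit 4) (nat_lit 480) (nat_lit 382) (nat_lit 338)) (XT.lf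 (nat_lit 0) (nat_lit 195024547170) (nat_lit 76) (nat_lit 14624198247) (nat_lit 76) (nat_lit 13203239040) (nat_lit 4) (nat_lit 4) (nat_lit 5) (nat_lit 5) (nat_lit 5) (nat_lit 4) (nat_lit 481) (nat_lit 382) (nat_lit 337))))) (XT.nd (nat_lit 234) (nat_lit 0) (nat_lit 0) (XT.nd (nat_lit 78) (nat_lit 0) (nat_lit 0) (XT.lf (nat_lit 0) (nat_lit 1601895232) (nat_lit 152) (nat_lit 237602085604) (nat_lit 0) (nat_lit 283040320) (nat_lit 2) (nat_lit 5) (nat_lit 4) (nat_lit 4) (nat_lit 2) (nat_lit 4) (nat_lit 482) (nat_lit 382) (nat_lit 336)) (XT.nd (nat_lit 78) (nat_lit 0) (nat_lit 0) (XT.lf (nat_lit 0) (nat_lit 17969387660) (nat_lit 152) (nat_lit 222721122401) (nat_lit 0) (nat_lit 16647614283) (nat_lit 2) (nat_lit 5) (nat_lit 4) (nat_lit 4) (nat_lit 2) (nat_lit 4) (nat_lit 483) (nat_lit 382) (nat_lit 335)) (XT.lf (nat_lit 0) (nat_lit 35582207384) (nat_lit 152) (nat_lit 206782502520) (nat_lit 0) (nat_lit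 34257731724) (nat_lit 2) (nat_lit 5) (nat_lit 4) (nat_lit 4) (nat_lit 2) (nat_lit 4) (nat_lit 484) (nat_lit 382) (nat_lit 334)))) (XT.nd (nat_lit 156) (nat_lit 0) (nat_lit 0) (XT.nd (nat_lit 78) (nat_lit 0) (nat_lit 0) (XT.lf (nat_lit 0) (nat_lit 54544726668) (nat_lit 152) (nat_lit 189691774880) (nat_lit 0) (nat_lit 53217748895) (nat_lit 2) (nat_lit 5) (nat_lit 4) (nat_lit 4) (nat_lit 2) (nat_lit 4) (nat_lit 485) (nat_lit 382) (nat_lit 333)) (XT.lf (nat_lit 0) (nat_lit 74969315997) (nat_lit 152) (nat_lit 171347661096) (nat_lit 0) (nat_lit 73640021452) (nat_lit 2) (nat_lit 5) (nat_lit 4) (nat_lit 4) (nat_lit 2) (nat_lit 4) (nat_lit 486) (nat_lit 382) (nat_lit 332))) (XT.nd (nat_lit 78) (nat_lit 0) (nat_lit 0) (XT.lf (nat_lit 0) (nat_lit 96977009975) (nat_lit 152) (nat_lit 151641455307) (nat_lit 0) (nat_lit 95645570270) (nat_lit 2) (nat_lit 5) (nat_lit 4) (nat_lit 4) (nat_lit 2) (nat_lit 4)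 (nat_lit 487) (nat_lit 382) (nat_lit 331)) (XT.lf (nat_lit 0) (nat_lit 120698224565) (nat_lit 152) (nat_lit 130456379999) (nat_lit 0) (nat_lit 119364798602) (nat_lit 2) (nat_lit 5) (nat_lit 4) (nat_lit 4) (nat_lit 2) (nat_lit 4) (nat_lit 488) (nat_lit 382) (nat_lit 330)))))) (XT.nd (nat_lit 546) (nat_lit 0) (nat_lit 0) (XT.nd (nat_lit 234) (nat_lit 76) (nat_lit 0) (XT.nd (nat_lit 78) (nat_lit 0) (nat_lit 0) (XT.lf (nat_lit 0) (nat_lit 146273529928) (nat_lit 152) (nat_lit 107666893984) (nat_lit 0) (nat_lit 144938264837) (nat_lit 2) (nat_lit 5) (nat_lit 4) (nat_lit 4) (nat_lit 2) (nat_lit 4) (nat_lit 489) (nat_lit 382) (nat_lit 329)) (XT.nd (nat_lit 78) (nat_lit 0) (nat_lit 0) (XT.lf (nat_lit 0) (nat_lit 173854483429) (nat_lit 152) (nat_lit 83137948456) (nat_lit 0) (nat_lit 172517515442) (nat_lit 2) (nat_lit 5) (nat_lit 4) (nat_lit 4) (nat_lit 2) (nat_lit 4) (nat_lit 490) (nat_lit 382) (nat_lit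 328)) (XT.lf (nat_lit 0) (nat_lit 203604527756) (nat_lit 152) (nat_lit 56724186700) (nat_lit 0) (nat_lit 202265983013) (nat_lit 2) (nat_lit 5) (nat_lit 4) (nat_lit 4) (nat_lit 2) (nat_lit 4) (nat_lit 491) (nat_lit 382) (nat_lit 327)))) (XT.nd (nat_lit 156) (nat_lit 0) (nat_lit 0) (XT.nd (nat_lit 78) (nat_lit 76) (nat_lit 0) (XT.lf (nat_lit 0) (nat_lit 235699959468) (nat_lit 152) (nat_lit 28269082723) (nat_lit 0) (nat_lit 234359954765) (nat_lit 2) (nat_lit 5) (nat_lit 4) (nat_lit 4) (nat_lit 2) (nat_lit 4) (nat_lit 492) (nat_lit 382) (nat_lit 326)) (XT.lf (nat_lit 0) (nat_lit 2522154709) (nat_lit 76) (nat_lit 267869476887) (nat_lit 76) (nat_lit 266528120370) (nat_lit 1) (nat_lit 4) (nat_lit 2) (nat_lit 5) (nat_lit 2) (nat_lit 4) (nat_lit 493) (nat_lit 382) (nat_lit 325))) (XT.nd (nat_lit 78) (nat_lit 0) (nat_lit 0) (XT.lf (nat_lit 0) (nat_lit 37319617769) (nat_lit 76) (nat_lit 271280711258)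 (nat_lit 76) (nat_lit 269938103061) (nat_lit 1) (nat_lit 4) (nat_lit 2) (nat_lit 5) (nat_lit 2) (nat_lit 4) (nat_lit 494) (nat_lit 382) (nat_lit 324)) (XT.lf (nat_lit 0) (nat_lit 74840913848) (nat_lit 76) (nat_lit 274995886844) (nat_lit 76) (nat_lit 273652119685) (nat_lit 1) (nat_lit 4) (nat_lit 2) (nat_lit 5) (nat_lit 2) (nat_lit 4) (nat_lit 495) (nat_lit 382) (nat_lit 323))))) (XT.nd (nat_lit 234) (nat_lit 0) (nat_lit 0) (XT.nd (nat_lit 78) (nat_lit 0) (nat_lit 0) (XT.lf (nat_lit 0) (nat_lit 115308391365) (nat_lit 76) (nat_lit 279037019501) (nat_lit 76) (nat_lit 277692179228) (nat_lit 1) (nat_lit 4) (nat_lit 2) (nat_lit 5) (nat_lit 2) (nat_lit 4) (nat_lit 496) (nat_lit 382) (nat_lit 322)) (XT.nd (nat_lit 78) (nat_lit 0) (nat_lit 0) (XT.lf (nat_lit 0) (nat_lit 158961857595) (nat_lit 76) (nat_lit 283428056682) (nat_lit 76) (nat_lit 282082222785) (nat_lit 1) (nat_lit 4) (nat_lit 2) (nat_lit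 5) (nat_lit 2) (nat_lit 4) (nat_lit 497) (nat_lit 382) (nat_lit 321)) (XT.lf (nat_lit 0) (nat_lit 206059999745) (nat_lit 76) (nat_lit 288195019347) (nat_lit 76) (nat_lit 286848265429) (nat_lit 1) (nat_lit 4) (nat_lit 2) (nat_lit 5) (nat_lit 2) (nat_lit 4) (nat_lit 498) (nat_lit 382) (nat_lit 320)))) (XT.nd (nat_lit 156) (nat_lit 0) (nat_lit 0) (XT.nd (nat_lit 78) (nat_lit 0) (nat_lit 0) (XT.lf (nat_lit 0) (nat_lit 256881917918) (nat_lit 76) (nat_lit 293366156165) (nat_lit 76) (nat_lit 292018550374) (nat_lit 1) (nat_lit 4) (nat_lit 2) (nat_lit 5) (nat_lit 2) (nat_lit 4) (nat_lit 499) (nat_lit 382) (nat_lit 319)) (XT.lf (nat_lit 0) (nat_lit 311728779035) (nat_lit 76) (nat_lit 298972110909) (nat_lit 76) (nat_lit 297623716347) (nat_lit 1) (nat_lit 4) (nat_lit 2) (nat_lit 5) (nat_lit 2) (nat_lit 4) (nat_lit 500) (nat_lit 382) (nat_lit 318))) (XT.nd (nat_lit 78) (nat_lit 0) (nat_lit 0) (XT.lf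 (nat_lit 0) (nat_lit 370925601532) (nat_lit 76) (nat_lit 305046104051) (nat_lit 76) (nat_lit 303696979147) (nat_lit 1) (nat_lit 4) (nat_lit 2) (nat_lit 5) (nat_lit 2) (nat_lit 4) (nat_lit 501) (nat_lit 382) (nat_lit 317)) (XT.lf (nat_lit 0) (nat_lit 434823181396) (nat_lit 76) (nat_lit 311624129626) (nat_lit 76) (nat_lit 310274328478) (nat_lit 1) (nat_lit 4) (nat_lit 2) (nat_lit 5) (nat_lit 2) (nat_lit 4) (nat_lit 502) (nat_lit 382) (nat_lit 316))))))) (XT.nd (nat_lit 1092) (nat_lit 0) (nat_lit 0) (XT.nd (nat_lit 546) (nat_lit 0) (nat_lit 0) (XT.nd (nat_lit 234) (nat_lit 0) (nat_lit 0) (XT.nd (nat_lit 78) (nat_lit 0) (nat_lit 0) (XT.lf (nat_lit 0) (nat_lit 503800170950) (nat_lit 76) (nat_lit 318745168524) (nat_lit 76) (nat_lit 317394741225) (nat_lit 1) (nat_lit 4) (nat_lit 2) (nat_lit 5) (nat_lit 2) (nat_lit 4) (nat_lit 503) (nat_lit 382) (nat_lit 315)) (XT.nd (nat_lit 78) (nat_lit 0) (nat_lit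 0) (XT.lf (nat_lit 0) (nat_lit 578265322727) (nat_lit 76) (nat_lit 326451419497) (nat_lit 76) (nat_lit 325100412427) (nat_lit 1) (nat_lit 4) (nat_lit 2) (nat_lit 5) (nat_lit 2) (nat_lit 4) (nat_lit 504) (nat_lit 382) (nat_lit 314)) (XT.lf (nat_lit 0) (nat_lit 658659911698) (nat_lit 76) (nat_lit 334788549214) (nat_lit 76) (nat_lit 333437005321) (nat_lit 1) (nat_lit 4) (nat_lit 2) (nat_lit 5) (nat_lit 2) (nat_lit 4) (nat_lit 505) (nat_lit 382) (nat_lit 313)))) (XT.nd (nat_lit 156) (nat_lit 0) (nat_lit 0) (XT.nd (nat_lit 78) (nat_lit 0) (nat_lit 0) (XT.lf (nat_lit 0) (nat_lit 745460350244) (nat_lit 76) (nat_lit 343805962891) (nat_lit 76) (nat_lit 342453921939) (nat_lit 1) (nat_lit 4) (nat_lit 2) (nat_lit 5) (nat_lit 2) (nat_lit 4) (nat_lit 506) (nat_lit 382) (nat_lit 312)) (XT.lf (nat_lit 0) (nat_lit 839181011333) (nat_lit 76) (nat_lit 353557097053) (nat_lit 76) (nat_lit 352204595860) (nat_lit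 1) (nat_lit 4) (nat_lit 2) (nat_lit 5) (nat_lit 2) (nat_lit 4) (nat_lit 507) (nat_lit 382) (nat_lit 311))) (XT.nd (nat_lit 78) (nat_lit 0) (nat_lit 0) (XT.lf (nat_lit 0) (nat_lit 940377276661) (nat_lit 76) (nat_lit 364099736197) (nat_lit 76) (nat_lit 362746808856) (nat_lit 1) (nat_lit 4) (nat_lit 2) (nat_lit 5) (nat_lit 2) (nat_lit 4) (nat_lit 508) (nat_lit 382) (nat_lit 310)) (XT.lf (nat_lit 0) (nat_lit 1049648827800) (nat_lit 76) (nat_lit 375496355223) (nat_lit 76) (nat_lit 374143033301) (nat_lit 1) (nat_lit 4) (nat_lit 2) (nat_lit 5) (nat_lit 2) (nat_lit 4) (nat_lit 509) (nat_lit 382) (nat_lit 309))))) (XT.nd (nat_lit 234) (nat_lit 0) (nat_lit 0) (XT.nd (nat_lit 78) (nat_lit 0) (nat_lit 0) (XT.lf (nat_lit 0) (nat_lit 1167643199868) (nat_lit 76) (nat_lit 387814489651) (nat_lit 76) (nat_lit 386460802375) (nat_lit 1) (nat_lit 4) (nat_lit 2) (nat_lit 5) (nat_lit 2) (nat_lit 4) (nat_lit 510)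 (nat_lit 382) (nat_lit 308)) (XT.nd (nat_lit 78) (nat_lit 0) (nat_lit 0) (XT.lf (nat_lit 0) (nat_lit 1295059618773) (nat_lit 76) (nat_lit 401127135834) (nat_lit 76) (nat_lit 399773110267) (nat_lit 1) (nat_lit 4) (nat_lit 2) (nat_lit 5) (nat_lit 2) (nat_lit 4) (nat_lit 511) (nat_lit 382) (nat_lit 307)) (XT.lf (nat_lit 0) (nat_lit 1432653144776) (nat_lit 76) (nat_lit 415513183525) (nat_lit 76) (nat_lit 414158844727) (nat_lit 1) (nat_lit 4) (nat_lit 2) (nat_lit 5) (nat_lit 2) (nat_lit 4) (nat_lit 512) (nat_lit 382) (nat_lit 306)))) (XT.nd (nat_lit 156) (nat_lit 0) (nat_lit 0) (XT.nd (nat_lit 78) (nat_lit 0) (nat_lit 0) (XT.lf (nat_lit 0) (nat_lit 1581239146920) (nat_lit 76) (nat_lit 431057883379) (nat_lit 76) (nat_lit 429703254552) (nat_lit 1) (nat_lit 4) (nat_lit 2) (nat_lit 5) (nat_lit 2) (nat_lit 4) (nat_lit 513) (nat_lit 382) (nat_lit 305)) (XT.lf (nat_lit 0) (nat_lit 1741698134847) (nat_lit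 76) (nat_lit 447853352135) (nat_lit 76) (nat_lit 446498454762) (nat_lit 1) (nat_lit 4) (nat_lit 2) (nat_lit 5) (nat_lit 2) (nat_lit 4) (nat_lit 514) (nat_lit 382) (nat_lit 304))) (XT.nd (nat_lit 78) (nat_lit 0) (nat_lit 0) (XT.lf (nat_lit 0) (nat_lit 1914980976633) (nat_lit 76) (nat_lit 465999118497) (nat_lit 76) (nat_lit 464643972471) (nat_lit 1) (nat_lit 4) (nat_lit 2) (nat_lit 5) (nat_lit 2) (nat_lit 4) (nat_lit 515) (nat_lit 382) (nat_lit 303)) (XT.lf (nat_lit 0) (nat_lit 2102114533564) (nat_lit 76) (nat_lit 485602712932) (nat_lit 76) (nat_lit 484247336671) (nat_lit 1) (nat_lit 4) (nat_lit 2) (nat_lit 5) (nat_lit 2) (nat_lit 4) (nat_lit 516) (nat_lit 382) (nat_lit 302)))))) (XT.nd (nat_lit 546) (nat_lit 0) (nat_lit 0) (XT.nd (nat_lit 234) (nat_lit 0) (nat_lit 0) (XT.nd (nat_lit 78) (nat_lit 0) (nat_lit 0) (XT.lf (nat_lit 0) (nat_lit 2304207745236) (nat_lit 76) (nat_lit 506780304889)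 (nat_lit 76) (nat_lit 505424715448) (nat_lit 1) (nat_lit 4) (nat_lit 2) (nat_lit 5) (nat_lit 2) (nat_lit 4) (nat_lit 517) (nat_lit 382) (nat_lit 301)) (XT.nd (nat_lit 78) (nat_lit 0) (nat_lit 0) (XT.lf (nat_lit 0) (nat_lit 2522458201050) (nat_lit 76) (nat_lit 529657391208) (nat_lit 76) (nat_lit 528301604378) (nat_lit 1) (nat_lit 4) (nat_lit 2) (nat_lit 5) (nat_lit 2) (nat_lit 4) (nat_lit 518) (nat_lit 382) (nat_lit 300)) (XT.lf (nat_lit 0) (nat_lit 2758159237043) (nat_lit 76) (nat_lit 554369539810) (nat_lit 76) (nat_lit 553013570212) (nat_lit 1) (nat_lit 4) (nat_lit 2) (nat_lit 5) (nat_lit 2) (nat_lit 4) (nat_lit 519) (nat_lit 382) (nat_lit 299)))) (XT.nd (nat_lit 156) (nat_lit 0) (nat_lit 0) (XT.nd (nat_lit 78) (nat_lit 0) (nat_lit 0) (XT.lf (nat_lit 0) (nat_lit 3012707600094) (nat_lit 76) (nat_lit 581063193055) (nat_lit 76) (nat_lit 579707054228) (nat_lit 1) (nat_lit 4) (nat_lit 2) (nat_lit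 5) (nat_lit 2) (nat_lit 4) (nat_lit 520) (nat_lit 382) (nat_lit 298)) (XT.lf (nat_lit 0) (nat_lit 3287611724946) (nat_lit 76) (nat_lit 609896535556) (nat_lit 76) (nat_lit 608540240036) (nat_lit 1) (nat_lit 4) (nat_lit 2) (nat_lit 5) (nat_lit 2) (nat_lit 4) (nat_lit 521) (nat_lit 382) (nat_lit 297))) (XT.nd (nat_lit 78) (nat_lit 0) (nat_lit 0) (XT.lf (nat_lit 0) (nat_lit 3584500673081) (nat_lit 76) (nat_lit 641040431565) (nat_lit 76) (nat_lit 639683990958) (nat_lit 1) (nat_lit 4) (nat_lit 2) (nat_lit 5) (nat_lit 2) (nat_lit 4) (nat_lit 522) (nat_lit 382) (nat_lit 296)) (XT.lf (nat_lit 0) (nat_lit 3905133786413) (nat_lit 76) (nat_lit 674679437503) (nat_lit 76) (nat_lit 673322862555) (nat_lit 1) (nat_lit 4) (nat_lit 2) (nat_lit 5) (nat_lit 2) (nat_lit 4) (nat_lit 523) (nat_lit 382) (nat_lit 295))))) (XT.nd (nat_lit 312) (nat_lit 0) (nat_lit 0) (XT.nd (nat_lit 156) (nat_lit 0) (nat_lit 0) (XT.nd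 (nat_lit 78) (nat_lit 0) (nat_lit 0) (XT.lf (nat_lit 0) (nat_lit 4251411113022) (nat_lit 76) (nat_lit 711012895626) (nat_lit 76) (nat_lit 709656196290) (nat_lit 1) (nat_lit 4) (nat_lit 2) (nat_lit 5) (nat_lit 2) (nat_lit 4) (nat_lit 524) (nat_lit 382) (nat_lit 294)) (XT.lf (nat_lit 0) (nat_lit 4625384666694) (nat_lit 76) (nat_lit 750256115316) (nat_lit 76) (nat_lit 748899300805) (nat_lit 1) (nat_lit 4) (nat_lit 2) (nat_lit 5) (nat_lit 2) (nat_lit 4) (nat_lit 525) (nat_lit 382) (nat_lit 293))) (XT.nd (nat_lit 78) (nat_lit 0) (nat_lit 0) (XT.lf (nat_lit 0) (nat_lit 5029270587006) (nat_lit 76) (nat_lit 792641648987) (nat_lit 76) (nat_lit 791284727833) (nat_lit 1) (nat_lit 4) (nat_lit 2) (nat_lit 5) (nat_lit 2) (nat_lit 4) (nat_lit 526) (nat_lit 382) (nat_lit 292)) (XT.lf (nat_lit 0) (nat_lit 5465462272007) (nat_lit 76) (nat_lit 838420670171) (nat_lit 76) (nat_lit 837063650273) (nat_lit 1) (nat_lit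 4) (nat_lit 2) (nat_lit 5) (nat_lit 2) (nat_lit 4) (nat_lit 527) (nat_lit 382) (nat_lit 291)))) (XT.nd (nat_lit 156) (nat_lit 0) (nat_lit 0) (XT.nd (nat_lit 78) (nat_lit 0) (nat_lit 0) (XT.lf (nat_lit 0) (nat_lit 5936544561309) (nat_lit 76) (nat_lit 887864461956) (nat_lit 76) (nat_lit 886507350629) (nat_lit 1) (nat_lit 4) (nat_lit 2) (nat_lit 5) (nat_lit 2) (nat_lit 4) (nat_lit 528) (nat_lit 382) (nat_lit 290)) (XT.lf (nat_lit 0) (nat_lit 6445309053664) (nat_lit 76) (nat_lit 941266024591) (nat_lit 76) (nat_lit 939908828607) (nat_lit 1) (nat_lit 4) (nat_lit 2) (nat_lit 5) (nat_lit 2) (nat_lit 4) (nat_lit 529) (nat_lit 382) (nat_lit 289))) (XT.nd (nat_lit 78) (nat_lit 0) (nat_lit 0) (XT.lf (nat_lit 0) (nat_lit 6994770649769) (nat_lit 76) (nat_lit 998941811779) (nat_lit 76) (nat_lit 997584537410) (nat_lit 1) (nat_lit 4) (nat_lit 2) (nat_lit 5) (nat_lit 2) (nat_lit 4) (nat_lit 530) (nat_lit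 382) (nat_lit 288)) (XT.lf (nat_lit 0) (nat_lit 7588185418340) (nat_lit 76) (nat_lit 1061233605964) (nat_lit 76) (nat_lit 1059876259015) (nat_lit 1) (nat_lit 4) (nat_lit 2) (nat_lit 5) (nat_lit 2) (nat_lit 4) (nat_lit 531) (nat_lit 382) (nat_lit 287))))))))
noncomputable def xc54 : XT := (XT.nd (nat_lit 55926) (nat_lit 0) (nat_lit 304) (XT.nd (nat_lit 54834) (nat_lit 0) (nat_lit 1672) (XT.nd (nat_lit 546) (nat_lit 0) (nat_lit 0) (XT.nd (nat_lit 234) (nat_lit 0) (nat_lit 0) (XT.nd (nat_lit 78) (nat_lit 0) (nat_lit 0) (XT.lf (nat_lit 0) (nat_lit 8229069891340) (nat_lit 76) (nat_lit 1128510543703) (nat_lit 76) (nat_lit 1127153129551) (nat_lit 1) (nat_lit 4) (nat_lit 2) (nat_lit 5) (nat_lit 2) (nat_lit 4) (nat_lit 532) (nat_lit 382) (nat_lit 286)) (XT.nd (nat_lit 78) (nat_lit 0) (nat_lit 0) (XT.lf (nat_lit 0) (nat_lit 8921221902682) (nat_lit 76) (nat_lit 1201171303147) (nat_lit 76) (nat_lit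 1199813826769) (nat_lit 1) (nat_lit 4) (nat_lit 2) (nat_lit 5) (nat_lit 2) (nat_lit 4) (nat_lit 533) (nat_lit 382) (nat_lit 285)) (XT.lf (nat_lit 0) (nat_lit 9668743093915) (nat_lit 76) (nat_lit 1279646466572) (nat_lit 76) (nat_lit 1278288932579) (nat_lit 1) (nat_lit 4) (nat_lit 2) (nat_lit 5) (nat_lit 2) (nat_lit 4) (nat_lit 534) (nat_lit 382) (nat_lit 284)))) (XT.nd (nat_lit 156) (nat_lit 0) (nat_lit 0) (XT.nd (nat_lit 78) (nat_lit 0) (nat_lit 0) (XT.lf (nat_lit 0) (nat_lit 10476063220247) (nat_lit 76) (nat_lit 1364401071986) (nat_lit 76) (nat_lit 1363043484644) (nat_lit 1) (nat_lit 4) (nat_lit 2) (nat_lit 5) (nat_lit 2) (nat_lit 4) (nat_lit 535) (nat_lit 382) (nat_lit 283)) (XT.lf (nat_lit 0) (nat_lit 11347966400944) (nat_lit 76) (nat_lit 1455937368900) (nat_lit 76) (nat_lit 1454579732162) (nat_lit 1) (nat_lit 4) (nat_lit 2) (nat_lit 5) (nat_lit 2) (nat_lit 4) (nat_lit 536) (nat_lit 382)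 (nat_lit 282))) (XT.nd (nat_lit 78) (nat_lit 0) (nat_lit 0) (XT.lf (nat_lit 0) (nat_lit 12289619469671) (nat_lit 76) (nat_lit 1554797794631) (nat_lit 76) (nat_lit 1553440112156) (nat_lit 1) (nat_lit 4) (nat_lit 2) (nat_lit 5) (nat_lit 2) (nat_lit 4) (nat_lit 537) (nat_lit 382) (nat_lit 281)) (XT.lf (nat_lit 0) (nat_lit 13306602592759) (nat_lit 76) (nat_lit 1661568188738) (nat_lit 76) (nat_lit 1660210463913) (nat_lit 1) (nat_lit 4) (nat_lit 2) (nat_lit 5) (nat_lit 2) (nat_lit 4) (nat_lit 538) (nat_lit 382) (nat_lit 280))))) (XT.nd (nat_lit 234) (nat_lit 0) (nat_lit 0) (XT.nd (nat_lit 78) (nat_lit 0) (nat_lit 0) (XT.lf (nat_lit 0) (nat_lit 14404942336866) (nat_lit 76) (nat_lit 1776881264668) (nat_lit 76) (nat_lit 1775523500631) (nat_lit 1) (nat_lit 4) (nat_lit 2) (nat_lit 5) (nat_lit 2) (nat_lit 4) (nat_lit 539) (nat_lit 382) (nat_lit 279)) (XT.nd (nat_lit 78) (nat_lit 0) (nat_lit 0) (XT.lf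 (nat_lit 0) (nat_lit 15591147381955) (nat_lit 76) (nat_lit 1901420359167) (nat_lit 76) (nat_lit 1900062558822) (nat_lit 1) (nat_lit 4) (nat_lit 2) (nat_lit 5) (nat_lit 2) (nat_lit 4) (nat_lit 540) (nat_lit 382) (nat_lit 278)) (XT.lf (nat_lit 0) (nat_lit 16872247091257) (nat_lit 76) (nat_lit 2035923481684) (nat_lit 76) (nat_lit 2034565647720) (nat_lit 1) (nat_lit 4) (nat_lit 2) (nat_lit 5) (nat_lit 2) (nat_lit 4) (nat_lit 541) (nat_lit 382) (nat_lit 277)))) (XT.nd (nat_lit 156) (nat_lit 0) (nat_lit 0) (XT.nd (nat_lit 78) (nat_lit 0) (nat_lit 0) (XT.lf (nat_lit 0) (nat_lit 18255833166752) (nat_lit 76) (nat_lit 2181187687760) (nat_lit 76) (nat_lit 2179829822668) (nat_lit 1) (nat_lit 4) (nat_lit 2) (nat_lit 5) (nat_lit 2) (nat_lit 4) (nat_lit 542) (nat_lit 382) (nat_lit 276)) (XT.lf (nat_lit 0) (nat_lit 19750104637038) (nat_lit 76) (nat_lit 2338073802319) (nat_lit 76) (nat_lit 2336715908405)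 (nat_lit 1) (nat_lit 4) (nat_lit 2) (nat_lit 5) (nat_lit 2) (nat_lit 4) (nat_lit 543) (nat_lit 382) (nat_lit 275))) (XT.nd (nat_lit 78) (nat_lit 0) (nat_lit 0) (XT.lf (nat_lit 0) (nat_lit 21363916444158) (nat_lit 76) (nat_lit 2507511520856) (nat_lit 76) (nat_lit 2506153600254) (nat_lit 1) (nat_lit 4) (nat_lit 2) (nat_lit 5) (nat_lit 2) (nat_lit 4) (nat_lit 544) (nat_lit 382) (nat_lit 274)) (XT.lf (nat_lit 0) (nat_lit 23106831917342) (nat_lit 76) (nat_lit 2690504918739) (nat_lit 76) (nat_lit 2689146973427) (nat_lit 1) (nat_lit 4) (nat_lit 2) (nat_lit 5) (nat_lit 2) (nat_lit 4) (nat_lit 545) (nat_lit 382) (nat_lit 273)))))) (XT.nd (nat_lit 546) (nat_lit 608) (nat_lit 0) (XT.nd (nat_lit 234) (nat_lit 456) (nat_lit 0) (XT.nd (nat_lit 78) (nat_lit 228) (nat_lit 0) (XT.lf (nat_lit 0) (nat_lit 5707461543) (nat_lit 76) (nat_lit 1007504387) (nat_lit 76) (nat_lit 1007504387) (nat_lit 40) (nat_lit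 4) (nat_lit 41) (nat_lit 5) (nat_lit 41) (nat_lit 4) (nat_lit 434) (nat_lit 383) (nat_lit 383)) (XT.nd (nat_lit 78) (nat_lit 76) (nat_lit 0) (XT.lf (nat_lit 0) (nat_lit 5449987661) (nat_lit 152) (nat_lit 5433206079) (nat_lit 0) (nat_lit 5176362451) (nat_lit 38) (nat_lit 5) (nat_lit 40) (nat_lit 4) (nat_lit 38) (nat_lit 4) (nat_lit 435) (nat_lit 383) (nat_lit 382)) (XT.lf (nat_lit 0) (nat_lit 9574333104) (nat_lit 76) (nat_lit 3835638721) (nat_lit 76) (nat_lit 3308656835) (nat_lit 37) (nat_lit 4) (nat_lit 38) (nat_lit 5) (nat_lit 38) (nat_lit 4) (nat_lit 436) (nat_lit 383) (nat_lit 381)))) (XT.nd (nat_lit 156) (nat_lit 228) (nat_lit 0) (XT.nd (nat_lit 78) (nat_lit 76) (nat_lit 0) (XT.lf (nat_lit 0) (nat_lit 4402670129) (nat_lit 152) (nat_lit 9317024807) (nat_lit 0) (nat_lit 3697511425) (nat_lit 35) (nat_lit 5) (nat_lit 37) (nat_lit 4) (nat_lit 35) (nat_lit 4) (nat_lit 437) (nat_lit 383) (nat_lit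 380)) (XT.lf (nat_lit 0) (nat_lit 6162298057) (nat_lit 76) (nat_lit 6451909618) (nat_lit 76) (nat_lit 5545628217) (nat_lit 34) (nat_lit 4) (nat_lit 35) (nat_lit 5) (nat_lit 35) (nat_lit 4) (nat_lit 438) (nat_lit 383) (nat_lit 379))) (XT.nd (nat_lit 78) (nat_lit 76) (nat_lit 0) (XT.lf (nat_lit 0) (nat_lit 2397670876) (nat_lit 152) (nat_lit 15173030074) (nat_lit 0) (nat_lit 1386091135) (nat_lit 32) (nat_lit 5) (nat_lit 34) (nat_lit 4) (nat_lit 32) (nat_lit 4) (nat_lit 439) (nat_lit 383) (nat_lit 378)) (XT.lf (nat_lit 0) (nat_lit 659405413) (nat_lit 76) (nat_lit 10153466974) (nat_lit 76) (nat_lit 8982229551) (nat_lit 31) (nat_lit 4) (nat_lit 32) (nat_lit 5) (nat_lit 32) (nat_lit 4) (nat_lit 440) (nat_lit 383) (nat_lit 377))))) (XT.nd (nat_lit 234) (nat_lit 380) (nat_lit 0) (XT.nd (nat_lit 78) (nat_lit 228) (nat_lit 0) (XT.lf (nat_lit 0) (nat_lit 17868834594) (nat_lit 76) (nat_lit 2073707200)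 (nat_lit 76) (nat_lit 754638590) (nat_lit 31) (nat_lit 4) (nat_lit 32) (nat_lit 5) (nat_lit 32) (nat_lit 4) (nat_lit 441) (nat_lit 383) (nat_lit 376)) (XT.nd (nat_lit 78) (nat_lit 76) (nat_lit 0) (XT.lf (nat_lit 0) (nat_lit 7886212565) (nat_lit 152) (nat_lit 7218515717) (nat_lit 0) (nat_lit 6538111325) (nat_lit 29) (nat_lit 5) (nat_lit 31) (nat_lit 4) (nat_lit 29) (nat_lit 4) (nat_lit 442) (nat_lit 383) (nat_lit 375)) (XT.lf (nat_lit 0) (nat_lit 10282476976) (nat_lit 76) (nat_lit 6921716744) (nat_lit 76) (nat_lit 5456262342) (nat_lit 28) (nat_lit 4) (nat_lit 29) (nat_lit 5) (nat_lit 29) (nat_lit 4) (nat_lit 443) (nat_lit 383) (nat_lit 374)))) (XT.nd (nat_lit 156) (nat_lit 228) (nat_lit 0) (XT.nd (nat_lit 78) (nat_lit 0) (nat_lit 0) (XT.lf (nat_lit 0) (nat_lit 3357531136) (nat_lit 152) (nat_lit 18493195000) (nat_lit 0) (nat_lit 1900017490) (nat_lit 26) (nat_lit 5) (nat_lit 28) (nat_lit 4)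 (nat_lit 26) (nat_lit 4) (nat_lit 444) (nat_lit 383) (nat_lit 373)) (XT.lf (nat_lit 0) (nat_lit 12756098819) (nat_lit 152) (nat_lit 941437676) (nat_lit 0) (nat_lit 11205426450) (nat_lit 26) (nat_lit 5) (nat_lit 28) (nat_lit 4) (nat_lit 26) (nat_lit 4) (nat_lit 445) (nat_lit 383) (nat_lit 372))) (XT.nd (nat_lit 78) (nat_lit 152) (nat_lit 0) (XT.lf (nat_lit 0) (nat_lit 18263415567) (nat_lit 76) (nat_lit 4755926875) (nat_lit 76) (nat_lit 3118996428) (nat_lit 25) (nat_lit 4) (nat_lit 26) (nat_lit 5) (nat_lit 26) (nat_lit 4) (nat_lit 446) (nat_lit 383) (nat_lit 371)) (XT.lf (nat_lit 0) (nat_lit 6393787622) (nat_lit 152) (nat_lit 16254289973) (nat_lit 0) (nat_lit 4804158883) (nat_lit 23) (nat_lit 5) (nat_lit 25) (nat_lit 4) (nat_lit 23) (nat_lit 4) (nat_lit 447) (nat_lit 383) (nat_lit 370))))))) (XT.nd (nat_lit 1092) (nat_lit 456) (nat_lit 0) (XT.nd (nat_lit 546) (nat_lit 456) (nat_lit 0) (XT.nd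 (nat_lit 234) (nat_lit 228) (nat_lit 0) (XT.nd (nat_lit 78) (nat_lit 152) (nat_lit 0) (XT.lf (nat_lit 0) (nat_lit 2647144554) (nat_lit 76) (nat_lit 13934558058) (nat_lit 76) (nat_lit 12276454877) (nat_lit 22) (nat_lit 4) (nat_lit 23) (nat_lit 5) (nat_lit 23) (nat_lit 4) (nat_lit 448) (nat_lit 383) (nat_lit 369)) (XT.nd (nat_lit 78) (nat_lit 152) (nat_lit 0) (XT.lf (nat_lit 0) (nat_lit 23336321526) (nat_lit 76) (nat_lit 4375771218) (nat_lit 76) (nat_lit 2654265774) (nat_lit 22) (nat_lit 4) (nat_lit 23) (nat_lit 5) (nat_lit 23) (nat_lit 4) (nat_lit 449) (nat_lit 383) (nat_lit 368)) (XT.lf (nat_lit 0) (nat_lit 7524410275) (nat_lit 152) (nat_lit 18565950301) (nat_lit 0) (nat_lit 5876066532) (nat_lit 20) (nat_lit 5) (nat_lit 22) (nat_lit 4) (nat_lit 20) (nat_lit 4) (nat_lit 450) (nat_lit 383) (nat_lit 367)))) (XT.nd (nat_lit 156) (nat_lit 152) (nat_lit 0) (XT.nd (nat_lit 78) (nat_lit 0) (nat_lit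 0) (XT.lf (nat_lit 0) (nat_lit 1454245145) (nat_lit 76) (nat_lit 16964901638) (nat_lit 76) (nat_lit 15266227136) (nat_lit 19) (nat_lit 4) (nat_lit 20) (nat_lit 5) (nat_lit 20) (nat_lit 4) (nat_lit 451) (nat_lit 383) (nat_lit 366)) (XT.lf (nat_lit 0) (nat_lit 23530515900) (nat_lit 76) (nat_lit 6869708933) (nat_lit 76) (nat_lit 5124431875) (nat_lit 19) (nat_lit 4) (nat_lit 20) (nat_lit 5) (nat_lit 20) (nat_lit 4) (nat_lit 452) (nat_lit 383) (nat_lit 365))) (XT.nd (nat_lit 78) (nat_lit 0) (nat_lit 0) (XT.lf (nat_lit 0) (nat_lit 5590166217) (nat_lit 152) (nat_lit 27971244987) (nat_lit 0) (nat_lit 3934214761) (nat_lit 17) (nat_lit 5) (nat_lit 19) (nat_lit 4) (nat_lit 17) (nat_lit 4) (nat_lit 453) (nat_lit 383) (nat_lit 364)) (XT.lf (nat_lit 0) (nat_lit 17122091080) (nat_lit 152) (nat_lit 7043428578) (nat_lit 0) (nat_lit 15429145014) (nat_lit 17) (nat_lit 5) (nat_lit 19) (nat_lit 4) (nat_lit 17)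 (nat_lit 4) (nat_lit 454) (nat_lit 383) (nat_lit 363))))) (XT.nd (nat_lit 234) (nat_lit 228) (nat_lit 0) (XT.nd (nat_lit 78) (nat_lit 152) (nat_lit 0) (XT.lf (nat_lit 0) (nat_lit 15820540122) (nat_lit 76) (nat_lit 13879216342) (nat_lit 76) (nat_lit 12152016006) (nat_lit 16) (nat_lit 4) (nat_lit 17) (nat_lit 5) (nat_lit 17) (nat_lit 4) (nat_lit 455) (nat_lit 383) (nat_lit 362)) (XT.nd (nat_lit 78) (nat_lit 152) (nat_lit 0) (XT.lf (nat_lit 0) (nat_lit 40398116403) (nat_lit 76) (nat_lit 2827448115) (nat_lit 76) (nat_lit 1068530863) (nat_lit 16) (nat_lit 4) (nat_lit 17) (nat_lit 5) (nat_lit 17) (nat_lit 4) (nat_lit 456) (nat_lit 383) (nat_lit 361)) (XT.lf (nat_lit 0) (nat_lit 10838173561) (nat_lit 152) (nat_lit 26851751450) (nat_lit 0) (nat_lit 9182354333) (nat_lit 14) (nat_lit 5) (nat_lit 16) (nat_lit 4) (nat_lit 14) (nat_lit 4) (nat_lit 457) (nat_lit 383) (nat_lit 360)))) (XT.nd (nat_lit 156)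 (nat_lit 152) (nat_lit 0) (XT.nd (nat_lit 78) (nat_lit 76) (nat_lit 0) (XT.lf (nat_lit 0) (nat_lit 23584529701) (nat_lit 152) (nat_lit 4170848607) (nat_lit 0) (nat_lit 21903532562) (nat_lit 14) (nat_lit 5) (nat_lit 16) (nat_lit 4) (nat_lit 14) (nat_lit 4) (nat_lit 458) (nat_lit 383) (nat_lit 359)) (XT.lf (nat_lit 0) (nat_lit 20916586201) (nat_lit 76) (nat_lit 16716787505) (nat_lit 76) (nat_lit 15012477486) (nat_lit 13) (nat_lit 4) (nat_lit 14) (nat_lit 5) (nat_lit 14) (nat_lit 4) (nat_lit 459) (nat_lit 383) (nat_lit 358))) (XT.nd (nat_lit 78) (nat_lit 152) (nat_lit 0) (XT.lf (nat_lit 0) (nat_lit 47805443607) (nat_lit 76) (nat_lit 4900122239) (nat_lit 76) (nat_lit 3174226219) (nat_lit 13) (nat_lit 4) (nat_lit 14) (nat_lit 5) (nat_lit 14) (nat_lit 4) (nat_lit 460) (nat_lit 383) (nat_lit 357)) (XT.lf (nat_lit 0) (nat_lit 9553215288) (nat_lit 152) (nat_lit 41830251524) (nat_lit 0) (nat_lit 7936656902)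 (nat_lit 11) (nat_lit 5) (nat_lit 13) (nat_lit 4) (nat_lit 11) (nat_lit 4) (nat_lit 461) (nat_lit 383) (nat_lit 356)))))) (XT.nd (nat_lit 546) (nat_lit 228) (nat_lit 0) (XT.nd (nat_lit 234) (nat_lit 152) (nat_lit 0) (XT.nd (nat_lit 78) (nat_lit 76) (nat_lit 0) (XT.lf (nat_lit 0) (nat_lit 23277429372) (nat_lit 152) (nat_lit 18095916427) (nat_lit 0) (nat_lit 21643735324) (nat_lit 11) (nat_lit 5) (nat_lit 13) (nat_lit 4) (nat_lit 11) (nat_lit 4) (nat_lit 462) (nat_lit 383) (nat_lit 355)) (XT.nd (nat_lit 78) (nat_lit 0) (nat_lit 0) (XT.lf (nat_lit 0) (nat_lit 7523849853) (nat_lit 76) (nat_lit 30568059883) (nat_lit 76) (nat_lit 28918499480) (nat_lit 10) (nat_lit 4) (nat_lit 11) (nat_lit 5) (nat_lit 11) (nat_lit 4) (nat_lit 463) (nat_lit 383) (nat_lit 354)) (XT.lf (nat_lit 0) (nat_lit 35842504718) (nat_lit 76) (nat_lit 18560035678) (nat_lit 76) (nat_lit 16895784205) (nat_lit 10) (nat_lit 4) (nat_lit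 11) (nat_lit 5) (nat_lit 11) (nat_lit 4) (nat_lit 464) (nat_lit 383) (nat_lit 353)))) (XT.nd (nat_lit 156) (nat_lit 0) (nat_lit 0) (XT.nd (nat_lit 78) (nat_lit 152) (nat_lit 0) (XT.lf (nat_lit 0) (nat_lit 66074963527) (nat_lit 76) (nat_lit 5772888944) (nat_lit 76) (nat_lit 4095034630) (nat_lit 10) (nat_lit 4) (nat_lit 11) (nat_lit 5) (nat_lit 11) (nat_lit 4) (nat_lit 465) (nat_lit 383) (nat_lit 352)) (XT.lf (nat_lit 0) (nat_lit 9723343849) (nat_lit 152) (nat_lit 63020414829) (nat_lit 0) (nat_lit 8158112795) (nat_lit 8) (nat_lit 5) (nat_lit 10) (nat_lit 4) (nat_lit 8) (nat_lit 4) (nat_lit 466) (nat_lit 383) (nat_lit 351))) (XT.nd (nat_lit 78) (nat_lit 0) (nat_lit 0) (XT.lf (nat_lit 0) (nat_lit 24691154285) (nat_lit 152) (nat_lit 38421570585) (nat_lit 0) (nat_lit 23115124857) (nat_lit 8) (nat_lit 5) (nat_lit 10) (nat_lit 4) (nat_lit 8) (nat_lit 4) (nat_lit 467) (nat_lit 383) (nat_lit 350))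 (XT.lf (nat_lit 0) (nat_lit 40706797210) (nat_lit 152) (nat_lit 12164307400) (nat_lit 0) (nat_lit 39120769287) (nat_lit 8) (nat_lit 5) (nat_lit 10) (nat_lit 4) (nat_lit 8) (nat_lit 4) (nat_lit 468) (nat_lit 383) (nat_lit 349))))) (XT.nd (nat_lit 312) (nat_lit 76) (nat_lit 0) (XT.nd (nat_lit 156) (nat_lit 76) (nat_lit 0) (XT.nd (nat_lit 78) (nat_lit 0) (nat_lit 0) (XT.lf (nat_lit 0) (nat_lit 16744606348) (nat_lit 76) (nat_lit 41523281973) (nat_lit 76) (nat_lit 39927996185) (nat_lit 7) (nat_lit 4) (nat_lit 8) (nat_lit 5) (nat_lit 8) (nat_lit 4) (nat_lit 469) (nat_lit 383) (nat_lit 348)) (XT.lf (nat_lit 0) (nat_lit 48378719394) (nat_lit 76) (nat_lit 29052772342) (nat_lit 76) (nat_lit 27448914456) (nat_lit 7) (nat_lit 4) (nat_lit 8) (nat_lit 5) (nat_lit 8) (nat_lit 4) (nat_lit 470) (nat_lit 383) (nat_lit 347))) (XT.nd (nat_lit 78) (nat_lit 76) (nat_lit 0) (XT.lf (nat_lit 0) (nat_lit 82284942275)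 (nat_lit 76) (nat_lit 15718270123) (nat_lit 76) (nat_lit 14106475110) (nat_lit 7) (nat_lit 4) (nat_lit 8) (nat_lit 5) (nat_lit 8) (nat_lit 4) (nat_lit 471) (nat_lit 383) (nat_lit 346)) (XT.lf (nat_lit 0) (nat_lit 169464463) (nat_lit 152) (nat_lit 1266658120) (nat_lit 76) (nat_lit 118490102835) (nat_lit 6) (nat_lit 5) (nat_lit 8) (nat_lit 5) (nat_lit 7) (nat_lit 4) (nat_lit 472) (nat_lit 383) (nat_lit 345)))) (XT.nd (nat_lit 156) (nat_lit 0) (nat_lit 0) (XT.nd (nat_lit 78) (nat_lit 0) (nat_lit 0) (XT.lf (nat_lit 0) (nat_lit 15811335987) (nat_lit 152) (nat_lit 98142732917) (nat_lit 0) (nat_lit 14305827642) (nat_lit 5) (nat_lit 5) (nat_lit 7) (nat_lit 4) (nat_lit 5) (nat_lit 4) (nat_lit 473) (nat_lit 383) (nat_lit 344)) (XT.lf (nat_lit 0) (nat_lit 32667518187) (nat_lit 152) (nat_lit 73439530642) (nat_lit 0) (nat_lit 31156175816) (nat_lit 5) (nat_lit 5) (nat_lit 7) (nat_lit 4) (nat_lit 5) (nat_lit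 4) (nat_lit 474) (nat_lit 383) (nat_lit 343))) (XT.nd (nat_lit 78) (nat_lit 0) (nat_lit 0) (XT.lf (nat_lit 0) (nat_lit 50770460555) (nat_lit 152) (nat_lit 46970781023) (nat_lit 0) (nat_lit 49253716309) (nat_lit 5) (nat_lit 5) (nat_lit 7) (nat_lit 4) (nat_lit 5) (nat_lit 4) (nat_lit 475) (nat_lit 383) (nat_lit 342)) (XT.lf (nat_lit 0) (nat_lit 70227439788) (nat_lit 152) (nat_lit 18579632211) (nat_lit 0) (nat_lit 68705693805) (nat_lit 5) (nat_lit 5) (nat_lit 7) (nat_lit 4) (nat_lit 5) (nat_lit 4) (nat_lit 476) (nat_lit 383) (nat_lit 341))))))))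
noncomputable def xc55 : XT := (XT.nd (nat_lit 2184) (nat_lit 0) (nat_lit 0) (XT.nd (nat_lit 1092) (nat_lit 76) (nat_lit 0) (XT.nd (nat_lit 546) (nat_lit 0) (nat_lit 0) (XT.nd (nat_lit 234) (nat_lit 152) (nat_lit 0) (XT.nd (nat_lit 78) (nat_lit 0) (nat_lit 0) (XT.lf (nat_lit 0) (nat_lit 12528906272) (nat_lit 76) (nat_lit 78926170728) (nat_lit 76) (nat_lit 77399793507) (nat_lit 4) (nat_lit 4) (nat_lit 5) (nat_lit 5) (nat_lit 5) (nat_lit 4) (nat_lit 477) (nat_lit 383) (nat_lit 340)) (XT.nd (nat_lit 78) (nat_lit 0) (nat_lit 0) (XT.lf (nat_lit 0) (nat_lit 47006692504) (nat_lit 76) (nat_lit 67797238085) (nat_lit 76) (nat_lit 66266572681) (nat_lit 4) (nat_lit 4) (nat_lit 5) (nat_lit 5) (nat_lit 5) (nat_lit 4) (nat_lit 478) (nat_lit 383) (nat_lit 339)) (XT.lf (nat_lit 0) (nat_lit 84079668784) (nat_lit 76) (nat_lit 55862324910) (nat_lit 76) (nat_lit 54327688966) (nat_lit 4) (nat_lit 4) (nat_lit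 5) (nat_lit 5) (nat_lit 5) (nat_lit 4) (nat_lit 479) (nat_lit 383) (nat_lit 338)))) (XT.nd (nat_lit 156) (nat_lit 152) (nat_lit 0) (XT.nd (nat_lit 78) (nat_lit 0) (nat_lit 0) (XT.lf (nat_lit 0) (nat_lit 123967526824) (nat_lit 76) (nat_lit 43050705792) (nat_lit 76) (nat_lit 41512393423) (nat_lit 4) (nat_lit 4) (nat_lit 5) (nat_lit 5) (nat_lit 5) (nat_lit 4) (nat_lit 480) (nat_lit 383) (nat_lit 337)) (XT.lf (nat_lit 0) (nat_lit 166906639117) (nat_lit 76) (nat_lit 29286460025) (nat_lit 76) (nat_lit 27744743558) (nat_lit 4) (nat_lit 4) (nat_lit 5) (nat_lit 5) (nat_lit 5) (nat_lit 4) (nat_lit 481) (nat_lit 383) (nat_lit 336))) (XT.nd (nat_lit 78) (nat_lit 152) (nat_lit 0) (XT.lf (nat_lit 0) (nat_lit 213151459660) (nat_lit 76) (nat_lit 14488021708) (nat_lit 76) (nat_lit 12943153299) (nat_lit 4) (nat_lit 4) (nat_lit 5) (nat_lit 5) (nat_lit 5) (nat_lit 4) (nat_lit 482) (nat_lit 383) (nat_lit 335))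 (XT.lf (nat_lit 0) (nat_lit 2980068861) (nat_lit 152) (nat_lit 254018977954) (nat_lit 0) (nat_lit 1546932865) (nat_lit 2) (nat_lit 5) (nat_lit 4) (nat_lit 4) (nat_lit 2) (nat_lit 4) (nat_lit 483) (nat_lit 383) (nat_lit 334))))) (XT.nd (nat_lit 234) (nat_lit 0) (nat_lit 0) (XT.nd (nat_lit 78) (nat_lit 0) (nat_lit 0) (XT.lf (nat_lit 0) (nat_lit 20564366461) (nat_lit 152) (nat_lit 238139483953) (nat_lit 0) (nat_lit 19128728352) (nat_lit 2) (nat_lit 5) (nat_lit 4) (nat_lit 4) (nat_lit 2) (nat_lit 4) (nat_lit 484) (nat_lit 383) (nat_lit 333)) (XT.nd (nat_lit 78) (nat_lit 0) (nat_lit 0) (XT.lf (nat_lit 0) (nat_lit 39500476371) (nat_lit 152) (nat_lit 221103502499) (nat_lit 0) (nat_lit 38062521490) (nat_lit 2) (nat_lit 5) (nat_lit 4) (nat_lit 4) (nat_lit 2) (nat_lit 4) (nat_lit 485) (nat_lit 383) (nat_lit 332)) (XT.lf (nat_lit 0) (nat_lit 59900612576) (nat_lit 152) (nat_lit 202810079628) (nat_lit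 0) (nat_lit 58460512536) (nat_lit 2) (nat_lit 5) (nat_lit 4) (nat_lit 4) (nat_lit 2) (nat_lit 4) (nat_lit 486) (nat_lit 383) (nat_lit 331)))) (XT.nd (nat_lit 156) (nat_lit 0) (nat_lit 0) (XT.nd (nat_lit 78) (nat_lit 0) (nat_lit 0) (XT.lf (nat_lit 0) (nat_lit 81885664771) (nat_lit 152) (nat_lit 183150809870) (nat_lit 0) (nat_lit 80443578473) (nat_lit 2) (nat_lit 5) (nat_lit 4) (nat_lit 4) (nat_lit 2) (nat_lit 4) (nat_lit 487) (nat_lit 383) (nat_lit 330)) (XT.lf (nat_lit 0) (nat_lit 105585914749) (nat_lit 152) (nat_lit 162009193849) (nat_lit 0) (nat_lit 104141989322) (nat_lit 2) (nat_lit 5) (nat_lit 4) (nat_lit 4) (nat_lit 2) (nat_lit 4) (nat_lit 488) (nat_lit 383) (nat_lit 329))) (XT.nd (nat_lit 78) (nat_lit 0) (nat_lit 0) (XT.lf (nat_lit 0) (nat_lit 131141808434) (nat_lit 152) (nat_lit 139259947915) (nat_lit 0) (nat_lit 129696180111) (nat_lit 2) (nat_lit 5) (nat_lit 4) (nat_lit 4) (nat_lit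 2) (nat_lit 4) (nat_lit 489) (nat_lit 383) (nat_lit 328)) (XT.lf (nat_lit 0) (nat_lit 158704788159) (nat_lit 152) (nat_lit 114768261721) (nat_lit 0) (nat_lit 157257583080) (nat_lit 2) (nat_lit 5) (nat_lit 4) (nat_lit 4) (nat_lit 2) (nat_lit 4) (nat_lit 490) (nat_lit 383) (nat_lit 327)))))) (XT.nd (nat_lit 546) (nat_lit 0) (nat_lit 0) (XT.nd (nat_lit 234) (nat_lit 76) (nat_lit 0) (XT.nd (nat_lit 78) (nat_lit 0) (nat_lit 0) (XT.lf (nat_lit 0) (nat_lit 188438190101) (nat_lit 152) (nat_lit 88388999349) (nat_lit 0) (nat_lit 186989525062) (nat_lit 2) (nat_lit 5) (nat_lit 4) (nat_lit 4) (nat_lit 2) (nat_lit 4) (nat_lit 491) (nat_lit 383) (nat_lit 326)) (XT.nd (nat_lit 78) (nat_lit 0) (nat_lit 0) (XT.lf (nat_lit 0) (nat_lit 220518212196) (nat_lit 152) (nat_lit 59965839245) (nat_lit 0) (nat_lit 219068195344) (nat_lit 2) (nat_lit 5) (nat_lit 4) (nat_lit 4) (nat_lit 2) (nat_lit 4) (nat_lit 492) (nat_lit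 383) (nat_lit 325)) (XT.lf (nat_lit 0) (nat_lit 255134958280) (nat_lit 152) (nat_lit 29330347867) (nat_lit 0) (nat_lit 253683689748) (nat_lit 2) (nat_lit 5) (nat_lit 4) (nat_lit 4) (nat_lit 2) (nat_lit 4) (nat_lit 493) (nat_lit 383) (nat_lit 324)))) (XT.nd (nat_lit 156) (nat_lit 0) (nat_lit 0) (XT.nd (nat_lit 78) (nat_lit 0) (nat_lit 0) (XT.lf (nat_lit 0) (nat_lit 3893802193) (nat_lit 76) (nat_lit 288693408469) (nat_lit 76) (nat_lit 287240980974) (nat_lit 1) (nat_lit 4) (nat_lit 2) (nat_lit 5) (nat_lit 2) (nat_lit 4) (nat_lit 494) (nat_lit 383) (nat_lit 323)) (XT.lf (nat_lit 0) (nat_lit 41388404883) (nat_lit 76) (nat_lit 292422402817) (nat_lit 76) (nat_lit 290968902209) (nat_lit 1) (nat_lit 4) (nat_lit 2) (nat_lit 5) (nat_lit 2) (nat_lit 4) (nat_lit 495) (nat_lit 383) (nat_lit 322))) (XT.nd (nat_lit 78) (nat_lit 0) (nat_lit 0) (XT.lf (nat_lit 0) (nat_lit 81831166300) (nat_lit 76) (nat_lit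 296476330624) (nat_lit 76) (nat_lit 295021836392) (nat_lit 1) (nat_lit 4) (nat_lit 2) (nat_lit 5) (nat_lit 2) (nat_lit 4) (nat_lit 496) (nat_lit 383) (nat_lit 321)) (XT.lf (nat_lit 0) (nat_lit 125461747252) (nat_lit 76) (nat_lit 300879215165) (nat_lit 76) (nat_lit 299423800911) (nat_lit 1) (nat_lit 4) (nat_lit 2) (nat_lit 5) (nat_lit 2) (nat_lit 4) (nat_lit 497) (nat_lit 383) (nat_lit 320))))) (XT.nd (nat_lit 234) (nat_lit 0) (nat_lit 0) (XT.nd (nat_lit 78) (nat_lit 0) (nat_lit 0) (XT.lf (nat_lit 0) (nat_lit 172538699330) (nat_lit 76) (nat_lit 305657147609) (nat_lit 76) (nat_lit 304200881483) (nat_lit 1) (nat_lit 4) (nat_lit 2) (nat_lit 5) (nat_lit 2) (nat_lit 4) (nat_lit 498) (nat_lit 383) (nat_lit 319)) (XT.nd (nat_lit 78) (nat_lit 0) (nat_lit 0) (XT.lf (nat_lit 0) (nat_lit 223340997066) (nat_lit 76) (nat_lit 310838441629) (nat_lit 76) (nat_lit 309381386732) (nat_lit 1) (nat_lit 4) (nat_lit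 2) (nat_lit 5) (nat_lit 2) (nat_lit 4) (nat_lit 499) (nat_lit 383) (nat_lit 318)) (XT.lf (nat_lit 0) (nat_lit 278169691111) (nat_lit 76) (nat_lit 316453801190) (nat_lit 76) (nat_lit 314996015950) (nat_lit 1) (nat_lit 4) (nat_lit 2) (nat_lit 5) (nat_lit 2) (nat_lit 4) (nat_lit 500) (nat_lit 383) (nat_lit 317)))) (XT.nd (nat_lit 156) (nat_lit 0) (nat_lit 0) (XT.nd (nat_lit 78) (nat_lit 0) (nat_lit 0) (XT.lf (nat_lit 0) (nat_lit 337349692246) (nat_lit 76) (nat_lit 322536502496) (nat_lit 76) (nat_lit 321078041012) (nat_lit 1) (nat_lit 4) (nat_lit 2) (nat_lit 5) (nat_lit 2) (nat_lit 4) (nat_lit 501) (nat_lit 383) (nat_lit 316)) (XT.lf (nat_lit 0) (nat_lit 401231696774) (nat_lit 76) (nat_lit 329122591185) (nat_lit 76) (nat_lit 327663503550) (nat_lit 1) (nat_lit 4) (nat_lit 2) (nat_lit 5) (nat_lit 2) (nat_lit 4) (nat_lit 502) (nat_lit 383) (nat_lit 315))) (XT.nd (nat_lit 78) (nat_lit 0) (nat_lit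 0) (XT.lf (nat_lit 0) (nat_lit 470194264722) (nat_lit 76) (nat_lit 336251095930) (nat_lit 76) (nat_lit 334791428525) (nat_lit 1) (nat_lit 4) (nat_lit 2) (nat_lit 5) (nat_lit 2) (nat_lit 4) (nat_lit 503) (nat_lit 383) (nat_lit 314)) (XT.lf (nat_lit 0) (nat_lit 544646063158) (nat_lit 76) (nat_lit 343964259724) (nat_lit 76) (nat_lit 342504055495) (nat_lit 1) (nat_lit 4) (nat_lit 2) (nat_lit 5) (nat_lit 2) (nat_lit 4) (nat_lit 504) (nat_lit 383) (nat_lit 313))))))) (XT.nd (nat_lit 1092) (nat_lit 0) (nat_lit 0) (XT.nd (nat_lit 546) (nat_lit 0) (nat_lit 0) (XT.nd (nat_lit 234) (nat_lit 0) (nat_lit 0) (XT.nd (nat_lit 78) (nat_lit 0) (nat_lit 0) (XT.lf (nat_lit 0) (nat_lit 625028287926) (nat_lit 76) (nat_lit 352307790202) (nat_lit 76) (nat_lit 350847088914) (nat_lit 1) (nat_lit 4) (nat_lit 2) (nat_lit 5) (nat_lit 2) (nat_lit 4) (nat_lit 505) (nat_lit 383) (nat_lit 312)) (XT.nd (nat_lit 78) (nat_lit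 0) (nat_lit 0) (XT.lf (nat_lit 0) (nat_lit 711817278135) (nat_lit 76) (nat_lit 361331130509) (nat_lit 76) (nat_lit 359869968980) (nat_lit 1) (nat_lit 4) (nat_lit 2) (nat_lit 5) (nat_lit 2) (nat_lit 4) (nat_lit 506) (nat_lit 383) (nat_lit 311)) (XT.lf (nat_lit 0) (nat_lit 805527338912) (nat_lit 76) (nat_lit 371087752290) (nat_lit 76) (nat_lit 369626164614) (nat_lit 1) (nat_lit 4) (nat_lit 2) (nat_lit 5) (nat_lit 2) (nat_lit 4) (nat_lit 507) (nat_lit 383) (nat_lit 310)))) (XT.nd (nat_lit 156) (nat_lit 0) (nat_lit 0) (XT.nd (nat_lit 78) (nat_lit 0) (nat_lit 0) (XT.lf (nat_lit 0) (nat_lit 906713789137) (nat_lit 76) (nat_lit 381635472565) (nat_lit 76) (nat_lit 380173490306) (nat_lit 1) (nat_lit 4) (nat_lit 2) (nat_lit 5) (nat_lit 2) (nat_lit 4) (nat_lit 508) (nat_lit 383) (nat_lit 309)) (XT.lf (nat_lit 0) (nat_lit 1015976252217) (nat_lit 76) (nat_lit 393036796341) (nat_lit 76) (nat_lit 391574448729)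 (nat_lit 1) (nat_lit 4) (nat_lit 2) (nat_lit 5) (nat_lit 2) (nat_lit 4) (nat_lit 509) (nat_lit 383) (nat_lit 308))) (XT.nd (nat_lit 78) (nat_lit 0) (nat_lit 0) (XT.lf (nat_lit 0) (nat_lit 1133962209416) (nat_lit 76) (nat_lit 405359287019) (nat_lit 76) (nat_lit 403896601117) (nat_lit 1) (nat_lit 4) (nat_lit 2) (nat_lit 5) (nat_lit 2) (nat_lit 4) (nat_lit 510) (nat_lit 383) (nat_lit 307)) (XT.lf (nat_lit 0) (nat_lit 1261370836776) (nat_lit 76) (nat_lit 418675966766) (nat_lit 76) (nat_lit 417212967632) (nat_lit 1) (nat_lit 4) (nat_lit 2) (nat_lit 5) (nat_lit 2) (nat_lit 4) (nat_lit 511) (nat_lit 383) (nat_lit 306))))) (XT.nd (nat_lit 234) (nat_lit 0) (nat_lit 0) (XT.nd (nat_lit 78) (nat_lit 0) (nat_lit 0) (XT.lf (nat_lit 0) (nat_lit 1398957148385) (nat_lit 76) (nat_lit 433065749240) (nat_lit 76) (nat_lit 431602460077) (nat_lit 1) (nat_lit 4) (nat_lit 2) (nat_lit 5) (nat_lit 2) (nat_lit 4) (nat_lit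 512) (nat_lit 383) (nat_lit 305)) (XT.nd (nat_lit 78) (nat_lit 0) (nat_lit 0) (XT.lf (nat_lit 0) (nat_lit 1547536470534) (nat_lit 76) (nat_lit 448613907225) (nat_lit 76) (nat_lit 447150349517) (nat_lit 1) (nat_lit 4) (nat_lit 2) (nat_lit 5) (nat_lit 2) (nat_lit 4) (nat_lit 513) (nat_lit 383) (nat_lit 304)) (XT.lf (nat_lit 0) (nat_lit 1707989273281) (nat_lit 76) (nat_lit 465412577955) (nat_lit 76) (nat_lit 463948771593) (nat_lit 1) (nat_lit 4) (nat_lit 2) (nat_lit 5) (nat_lit 2) (nat_lit 4) (nat_lit 514) (nat_lit 383) (nat_lit 303)))) (XT.nd (nat_lit 156) (nat_lit 0) (nat_lit 0) (XT.nd (nat_lit 78) (nat_lit 0) (nat_lit 0) (XT.lf (nat_lit 0) (nat_lit 1881266388049) (nat_lit 76) (nat_lit 483561309107) (nat_lit 76) (nat_lit 482097272511) (nat_lit 1) (nat_lit 4) (nat_lit 2) (nat_lit 5) (nat_lit 2) (nat_lit 4) (nat_lit 515) (nat_lit 383) (nat_lit 302)) (XT.lf (nat_lit 0) (nat_lit 2068394642184)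 (nat_lit 76) (nat_lit 503167648718) (nat_lit 76) (nat_lit 501703398942) (nat_lit 1) (nat_lit 4) (nat_lit 2) (nat_lit 5) (nat_lit 2) (nat_lit 4) (nat_lit 516) (nat_lit 383) (nat_lit 301))) (XT.nd (nat_lit 78) (nat_lit 0) (nat_lit 0) (XT.lf (nat_lit 0) (nat_lit 2270482943861) (nat_lit 76) (nat_lit 524347782505) (nat_lit 76) (nat_lit 522883335340) (nat_lit 1) (nat_lit 4) (nat_lit 2) (nat_lit 5) (nat_lit 2) (nat_lit 4) (nat_lit 517) (nat_lit 383) (nat_lit 300)) (XT.lf (nat_lit 0) (nat_lit 2488728853384) (nat_lit 76) (nat_lit 547227222371) (nat_lit 76) (nat_lit 545762592438) (nat_lit 1) (nat_lit 4) (nat_lit 2) (nat_lit 5) (nat_lit 2) (nat_lit 4) (nat_lit 518) (nat_lit 383) (nat_lit 299)))))) (XT.nd (nat_lit 546) (nat_lit 0) (nat_lit 0) (XT.nd (nat_lit 234) (nat_lit 0) (nat_lit 0) (XT.nd (nat_lit 78) (nat_lit 0) (nat_lit 0) (XT.lf (nat_lit 0) (nat_lit 2724425679847) (nat_lit 76) (nat_lit 571941550182)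 (nat_lit 76) (nat_lit 570476751020) (nat_lit 1) (nat_lit 4) (nat_lit 2) (nat_lit 5) (nat_lit 2) (nat_lit 4) (nat_lit 519) (nat_lit 383) (nat_lit 298)) (XT.nd (nat_lit 78) (nat_lit 0) (nat_lit 0) (XT.lf (nat_lit 0) (nat_lit 2978970145185) (nat_lit 76) (nat_lit 598637221214) (nat_lit 76) (nat_lit 597172265358) (nat_lit 1) (nat_lit 4) (nat_lit 2) (nat_lit 5) (nat_lit 2) (nat_lit 4) (nat_lit 520) (nat_lit 383) (nat_lit 297)) (XT.lf (nat_lit 0) (nat_lit 3253870661044) (nat_lit 76) (nat_lit 627472432036) (nat_lit 76) (nat_lit 626007331093) (nat_lit 1) (nat_lit 4) (nat_lit 2) (nat_lit 5) (nat_lit 2) (nat_lit 4) (nat_lit 521) (nat_lit 383) (nat_lit 296)))) (XT.nd (nat_lit 156) (nat_lit 0) (nat_lit 0) (XT.nd (nat_lit 78) (nat_lit 0) (nat_lit 0) (XT.lf (nat_lit 0) (nat_lit 3550756267518) (nat_lit 76) (nat_lit 658618057972) (nat_lit 76) (nat_lit 657152822689) (nat_lit 1) (nat_lit 4) (nat_lit 2) (nat_lit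 5) (nat_lit 2) (nat_lit 4) (nat_lit 522) (nat_lit 383) (nat_lit 295)) (XT.lf (nat_lit 0) (nat_lit 3871386286721) (nat_lit 76) (nat_lit 692258665693) (nat_lit 76) (nat_lit 690793306022) (nat_lit 1) (nat_lit 4) (nat_lit 2) (nat_lit 5) (nat_lit 2) (nat_lit 4) (nat_lit 523) (nat_lit 383) (nat_lit 294))) (XT.nd (nat_lit 78) (nat_lit 0) (nat_lit 0) (XT.lf (nat_lit 0) (nat_lit 4217660748394) (nat_lit 76) (nat_lit 728593606950) (nat_lit 76) (nat_lit 727128132104) (nat_lit 1) (nat_lit 4) (nat_lit 2) (nat_lit 5) (nat_lit 2) (nat_lit 4) (nat_lit 524) (nat_lit 383) (nat_lit 293)) (XT.lf (nat_lit 0) (nat_lit 4591631649348) (nat_lit 76) (nat_lit 767838199912) (nat_lit 76) (nat_lit 766372618423) (nat_lit 1) (nat_lit 4) (nat_lit 2) (nat_lit 5) (nat_lit 2) (nat_lit 4) (nat_lit 525) (nat_lit 383) (nat_lit 292))))) (XT.nd (nat_lit 312) (nat_lit 0) (nat_lit 0) (XT.nd (nat_lit 156) (nat_lit 0) (nat_lit 0) (XT.nd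 (nat_lit 78) (nat_lit 0) (nat_lit 0) (XT.lf (nat_lit 0) (nat_lit 4995515113441) (nat_lit 76) (nat_lit 810225005130) (nat_lit 76) (nat_lit 808759324898) (nat_lit 1) (nat_lit 4) (nat_lit 2) (nat_lit 5) (nat_lit 2) (nat_lit 4) (nat_lit 526) (nat_lit 383) (nat_lit 291)) (XT.lf (nat_lit 0) (nat_lit 5431704524163) (nat_lit 76) (nat_lit 856005203673) (nat_lit 76) (nat_lit 854539432011) (nat_lit 1) (nat_lit 4) (nat_lit 2) (nat_lit 5) (nat_lit 2) (nat_lit 4) (nat_lit 527) (nat_lit 383) (nat_lit 290))) (XT.nd (nat_lit 78) (nat_lit 0) (nat_lit 0) (XT.lf (nat_lit 0) (nat_lit 5902784707653) (nat_lit 76) (nat_lit 905450085606) (nat_lit 76) (nat_lit 903984229287) (nat_lit 1) (nat_lit 4) (nat_lit 2) (nat_lit 5) (nat_lit 2) (nat_lit 4) (nat_lit 528) (nat_lit 383) (nat_lit 289)) (XT.lf (nat_lit 0) (nat_lit 6411547250181) (nat_lit 76) (nat_lit 958852657637) (nat_lit 76) (nat_lit 957386722932) (nat_lit 1) (nat_lit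 4) (nat_lit 2) (nat_lit 5) (nat_lit 2) (nat_lit 4) (nat_lit 529) (nat_lit 383) (nat_lit 288)))) (XT.nd (nat_lit 156) (nat_lit 0) (nat_lit 0) (XT.nd (nat_lit 78) (nat_lit 0) (nat_lit 0) (XT.lf (nat_lit 0) (nat_lit 6961007040891) (nat_lit 76) (nat_lit 1016529379451) (nat_lit 76) (nat_lit 1015063372166) (nat_lit 1) (nat_lit 4) (nat_lit 2) (nat_lit 5) (nat_lit 2) (nat_lit 4) (nat_lit 530) (nat_lit 383) (nat_lit 287)) (XT.lf (nat_lit 0) (nat_lit 7554420137800) (nat_lit 76) (nat_lit 1078822039030) (nat_lit 76) (nat_lit 1077355964542) (nat_lit 1) (nat_lit 4) (nat_lit 2) (nat_lit 5) (nat_lit 2) (nat_lit 4) (nat_lit 531) (nat_lit 383) (nat_lit 286))) (XT.nd (nat_lit 78) (nat_lit 0) (nat_lit 0) (XT.lf (nat_lit 0) (nat_lit 8195303062964) (nat_lit 76) (nat_lit 1146099778060) (nat_lit 76) (nat_lit 1144633641347) (nat_lit 1) (nat_lit 4) (nat_lit 2) (nat_lit 5) (nat_lit 2) (nat_lit 4) (nat_lit 532) (nat_lit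 383) (nat_lit 285)) (XT.lf (nat_lit 0) (nat_lit 8887453641125) (nat_lit 76) (nat_lit 1218761279439) (nat_lit 76) (nat_lit 1217295085110) (nat_lit 1) (nat_lit 4) (nat_lit 2) (nat_lit 5) (nat_lit 2) (nat_lit 4) (nat_lit 533) (nat_lit 383) (nat_lit 284))))))))
noncomputable def xc56 : XT := (XT.nd (nat_lit 55770) (nat_lit 0) (nat_lit 304) (XT.nd (nat_lit 54678) (nat_lit 0) (nat_lit 1672) (XT.nd (nat_lit 546) (nat_lit 0) (nat_lit 0) (XT.nd (nat_lit 234) (nat_lit 0) (nat_lit 0) (XT.nd (nat_lit 78) (nat_lit 0) (nat_lit 0) (XT.lf (nat_lit 0) (nat_lit 9634973505339) (nat_lit 76) (nat_lit 1297237129842) (nat_lit 76) (nat_lit 1295770882165) (nat_lit 1) (nat_lit 4) (nat_lit 2) (nat_lit 5) (nat_lit 2) (nat_lit 4) (nat_lit 534) (nat_lit 383) (nat_lit 283)) (XT.nd (nat_lit 78) (nat_lit 0) (nat_lit 0) (XT.lf (nat_lit 0) (nat_lit 10442292402949) (nat_lit 76) (nat_lit 1381992371346) (nat_lit 76) (nat_lit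 1380526074273) (nat_lit 1) (nat_lit 4) (nat_lit 2) (nat_lit 5) (nat_lit 2) (nat_lit 4) (nat_lit 535) (nat_lit 383) (nat_lit 282)) (XT.lf (nat_lit 0) (nat_lit 11314194445942) (nat_lit 76) (nat_lit 1473529257233) (nat_lit 76) (nat_lit 1472062914422) (nat_lit 1) (nat_lit 4) (nat_lit 2) (nat_lit 5) (nat_lit 2) (nat_lit 4) (nat_lit 536) (nat_lit 383) (nat_lit 281)))) (XT.nd (nat_lit 156) (nat_lit 0) (nat_lit 0) (XT.nd (nat_lit 78) (nat_lit 0) (nat_lit 0) (XT.lf (nat_lit 0) (nat_lit 12255846461237) (nat_lit 76) (nat_lit 1572390228309) (nat_lit 76) (nat_lit 1570923843149) (nat_lit 1) (nat_lit 4) (nat_lit 2) (nat_lit 5) (nat_lit 2) (nat_lit 4) (nat_lit 537) (nat_lit 383) (nat_lit 280)) (XT.lf (nat_lit 0) (nat_lit 13272828608927) (nat_lit 76) (nat_lit 1679161127366) (nat_lit 76) (nat_lit 1677694702993) (nat_lit 1) (nat_lit 4) (nat_lit 2) (nat_lit 5) (nat_lit 2) (nat_lit 4) (nat_lit 538) (nat_lit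 383) (nat_lit 279))) (XT.nd (nat_lit 78) (nat_lit 0) (nat_lit 0) (XT.lf (nat_lit 0) (nat_lit 14371167449887) (nat_lit 76) (nat_lit 1794474670841) (nat_lit 76) (nat_lit 1793008210160) (nat_lit 1) (nat_lit 4) (nat_lit 2) (nat_lit 5) (nat_lit 2) (nat_lit 4) (nat_lit 539) (nat_lit 383) (nat_lit 278)) (XT.lf (nat_lit 0) (nat_lit 15557371658729) (nat_lit 76) (nat_lit 1919014198253) (nat_lit 76) (nat_lit 1917547703953) (nat_lit 1) (nat_lit 4) (nat_lit 2) (nat_lit 5) (nat_lit 2) (nat_lit 4) (nat_lit 540) (nat_lit 383) (nat_lit 277))))) (XT.nd (nat_lit 234) (nat_lit 0) (nat_lit 0) (XT.nd (nat_lit 78) (nat_lit 0) (nat_lit 0) (XT.lf (nat_lit 0) (nat_lit 16838470593728) (nat_lit 76) (nat_lit 2053517721614) (nat_lit 76) (nat_lit 2052051196187) (nat_lit 1) (nat_lit 4) (nat_lit 2) (nat_lit 5) (nat_lit 2) (nat_lit 4) (nat_lit 541) (nat_lit 383) (nat_lit 276)) (XT.nd (nat_lit 78) (nat_lit 0) (nat_lit 0)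 (XT.lf (nat_lit 0) (nat_lit 18222055952276) (nat_lit 76) (nat_lit 2198782298843) (nat_lit 76) (nat_lit 2197315744593) (nat_lit 1) (nat_lit 4) (nat_lit 2) (nat_lit 5) (nat_lit 2) (nat_lit 4) (nat_lit 542) (nat_lit 383) (nat_lit 275)) (XT.lf (nat_lit 0) (nat_lit 19716326758721) (nat_lit 76) (nat_lit 2355668757062) (nat_lit 76) (nat_lit 2354202176125) (nat_lit 1) (nat_lit 4) (nat_lit 2) (nat_lit 5) (nat_lit 2) (nat_lit 4) (nat_lit 543) (nat_lit 383) (nat_lit 274)))) (XT.nd (nat_lit 53742) (nat_lit 0) (nat_lit 3040) (XT.nd (nat_lit 78) (nat_lit 0) (nat_lit 0) (XT.lf (nat_lit 0) (nat_lit 21330137951175) (nat_lit 76) (nat_lit 2525106793802) (nat_lit 76) (nat_lit 2523640188155) (nat_lit 1) (nat_lit 4) (nat_lit 2) (nat_lit 5) (nat_lit 2) (nat_lit 4) (nat_lit 544) (nat_lit 383) (nat_lit 273)) (XT.lf (nat_lit 0) (nat_lit 23073052855223) (nat_lit 76) (nat_lit 2708100486318) (nat_lit 76) (nat_lit 2706633857791)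 (nat_lit 1) (nat_lit 4) (nat_lit 2) (nat_lit 5) (nat_lit 2) (nat_lit 4) (nat_lit 545) (nat_lit 383) (nat_lit 272))) (XT.nd (nat_lit 78) (nat_lit 152) (nat_lit 0) (XT.lf (nat_lit 0) (nat_lit 6211438931) (nat_lit 76) (nat_lit 470199376) (nat_lit 76) (nat_lit 470199376) (nat_lit 43) (nat_lit 4) (nat_lit 44) (nat_lit 5) (nat_lit 44) (nat_lit 4) (nat_lit 432) (nat_lit 384) (nat_lit 384)) (XT.lf (nat_lit 0) (nat_lit 6067919712) (nat_lit 152) (nat_lit 3042883970) (nat_lit 0) (nat_lit 5748763267) (nat_lit 41) (nat_lit 5) (nat_lit 43) (nat_lit 4) (nat_lit 41) (nat_lit 4) (nat_lit 433) (nat_lit 384) (nat_lit 383)))))) (XT.nd (nat_lit 546) (nat_lit 684) (nat_lit 0) (XT.nd (nat_lit 234) (nat_lit 380) (nat_lit 0) (XT.nd (nat_lit 78) (nat_lit 228) (nat_lit 0) (XT.lf (nat_lit 0) (nat_lit 11057196071) (nat_lit 76) (nat_lit 2508543945) (nat_lit 76) (nat_lit 1893872274) (nat_lit 40) (nat_lit 4) (nat_lit 41)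 (nat_lit 5) (nat_lit 41) (nat_lit 4) (nat_lit 434) (nat_lit 384) (nat_lit 382)) (XT.nd (nat_lit 78) (nat_lit 76) (nat_lit 0) (XT.lf (nat_lit 0) (nat_lit 5356503038) (nat_lit 152) (nat_lit 6200173979) (nat_lit 0) (nat_lit 4534005926) (nat_lit 38) (nat_lit 5) (nat_lit 40) (nat_lit 4) (nat_lit 38) (nat_lit 4) (nat_lit 435) (nat_lit 384) (nat_lit 381)) (XT.lf (nat_lit 0) (nat_lit 8407578518) (nat_lit 76) (nat_lit 4707682321) (nat_lit 76) (nat_lit 3650595695) (nat_lit 37) (nat_lit 4) (nat_lit 38) (nat_lit 5) (nat_lit 38) (nat_lit 4) (nat_lit 436) (nat_lit 384) (nat_lit 380)))) (XT.nd (nat_lit 156) (nat_lit 152) (nat_lit 0) (XT.nd (nat_lit 78) (nat_lit 76) (nat_lit 0) (XT.lf (nat_lit 0) (nat_lit 3839666383) (nat_lit 152) (nat_lit 10984722157) (nat_lit 0) (nat_lit 2659759772) (nat_lit 35) (nat_lit 5) (nat_lit 37) (nat_lit 4) (nat_lit 35) (nat_lit 4) (nat_lit 437) (nat_lit 384) (nat_lit 379)) (XT.lf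 (nat_lit 0) (nat_lit 4046055520) (nat_lit 76) (nat_lit 7782340345) (nat_lit 76) (nat_lit 6416209014) (nat_lit 34) (nat_lit 4) (nat_lit 35) (nat_lit 5) (nat_lit 35) (nat_lit 4) (nat_lit 438) (nat_lit 384) (nat_lit 378))) (XT.nd (nat_lit 78) (nat_lit 0) (nat_lit 0) (XT.lf (nat_lit 0) (nat_lit 1165680751) (nat_lit 76) (nat_lit 134435776) (nat_lit 152) (nat_lit 17764763477) (nat_lit 32) (nat_lit 5) (nat_lit 33) (nat_lit 5) (nat_lit 34) (nat_lit 4) (nat_lit 439) (nat_lit 384) (nat_lit 377)) (XT.lf (nat_lit 0) (nat_lit 9525308833) (nat_lit 152) (nat_lit 2440200111) (nat_lit 0) (nat_lit 7952883547) (nat_lit 32) (nat_lit 5) (nat_lit 34) (nat_lit 4) (nat_lit 32) (nat_lit 4) (nat_lit 440) (nat_lit 384) (nat_lit 376))))) (XT.nd (nat_lit 234) (nat_lit 380) (nat_lit 0) (XT.nd (nat_lit 78) (nat_lit 228) (nat_lit 0) (XT.lf (nat_lit 0) (nat_lit 14305749902) (nat_lit 76) (nat_lit 4121138017) (nat_lit 76)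 (nat_lit 2411832002) (nat_lit 31) (nat_lit 4) (nat_lit 32) (nat_lit 5) (nat_lit 32) (nat_lit 4) (nat_lit 441) (nat_lit 384) (nat_lit 375)) (XT.nd (nat_lit 78) (nat_lit 76) (nat_lit 0) (XT.lf (nat_lit 0) (nat_lit 5996326528) (nat_lit 152) (nat_lit 11520207326) (nat_lit 0) (nat_lit 4296282612) (nat_lit 29) (nat_lit 5) (nat_lit 31) (nat_lit 4) (nat_lit 29) (nat_lit 4) (nat_lit 442) (nat_lit 384) (nat_lit 374)) (XT.lf (nat_lit 0) (nat_lit 5418508665) (nat_lit 76) (nat_lit 9621295108) (nat_lit 76) (nat_lit 7812590856) (nat_lit 28) (nat_lit 4) (nat_lit 29) (nat_lit 5) (nat_lit 29) (nat_lit 4) (nat_lit 443) (nat_lit 384) (nat_lit 373)))) (XT.nd (nat_lit 156) (nat_lit 228) (nat_lit 0) (XT.nd (nat_lit 78) (nat_lit 76) (nat_lit 0) (XT.lf (nat_lit 0) (nat_lit 785962889) (nat_lit 152) (nat_lit 274512863) (nat_lit 76) (nat_lit 22913390243) (nat_lit 27) (nat_lit 5) (nat_lit 29) (nat_lit 5) (nat_lit 28)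 (nat_lit 4) (nat_lit 444) (nat_lit 384) (nat_lit 372)) (XT.lf (nat_lit 0) (nat_lit 9994951161) (nat_lit 152) (nat_lit 7005493412) (nat_lit 0) (nat_lit 8140808201) (nat_lit 26) (nat_lit 5) (nat_lit 28) (nat_lit 4) (nat_lit 26) (nat_lit 4) (nat_lit 445) (nat_lit 384) (nat_lit 371))) (XT.nd (nat_lit 78) (nat_lit 152) (nat_lit 0) (XT.lf (nat_lit 0) (nat_lit 11568581642) (nat_lit 76) (nat_lit 8383283022) (nat_lit 76) (nat_lit 6449271471) (nat_lit 25) (nat_lit 4) (nat_lit 26) (nat_lit 5) (nat_lit 26) (nat_lit 4) (nat_lit 446) (nat_lit 384) (nat_lit 370)) (XT.lf (nat_lit 0) (nat_lit 2805666901) (nat_lit 152) (nat_lit 24003289317) (nat_lit 0) (nat_lit 946441022) (nat_lit 23) (nat_lit 5) (nat_lit 25) (nat_lit 4) (nat_lit 23) (nat_lit 4) (nat_lit 447) (nat_lit 384) (nat_lit 369))))))) (XT.nd (nat_lit 1092) (nat_lit 532) (nat_lit 0) (XT.nd (nat_lit 546) (nat_lit 380) (nat_lit 0) (XT.nd (nat_lit 234)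 (nat_lit 228) (nat_lit 0) (XT.nd (nat_lit 78) (nat_lit 228) (nat_lit 0) (XT.lf (nat_lit 0) (nat_lit 12785025568) (nat_lit 152) (nat_lit 5530580574) (nat_lit 0) (nat_lit 10862397427) (nat_lit 23) (nat_lit 5) (nat_lit 25) (nat_lit 4) (nat_lit 23) (nat_lit 4) (nat_lit 448) (nat_lit 384) (nat_lit 368)) (XT.nd (nat_lit 78) (nat_lit 152) (nat_lit 0) (XT.lf (nat_lit 0) (nat_lit 14578562320) (nat_lit 76) (nat_lit 9055733290) (nat_lit 76) (nat_lit 7074399350) (nat_lit 22) (nat_lit 4) (nat_lit 23) (nat_lit 5) (nat_lit 23) (nat_lit 4) (nat_lit 449) (nat_lit 384) (nat_lit 367)) (XT.lf (nat_lit 0) (nat_lit 2831916712) (nat_lit 152) (nat_lit 28577812178) (nat_lit 0) (nat_lit 947017489) (nat_lit 20) (nat_lit 5) (nat_lit 22) (nat_lit 4) (nat_lit 20) (nat_lit 4) (nat_lit 450) (nat_lit 384) (nat_lit 366)))) (XT.nd (nat_lit 156) (nat_lit 152) (nat_lit 0) (XT.nd (nat_lit 78) (nat_lit 76) (nat_lit 0) (XT.lf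 (nat_lit 0) (nat_lit 13557832618) (nat_lit 152) (nat_lit 8905035977) (nat_lit 0) (nat_lit 11626330841) (nat_lit 20) (nat_lit 5) (nat_lit 22) (nat_lit 4) (nat_lit 20) (nat_lit 4) (nat_lit 451) (nat_lit 384) (nat_lit 365)) (XT.lf (nat_lit 0) (nat_lit 12434593071) (nat_lit 76) (nat_lit 12748503562) (nat_lit 76) (nat_lit 10773851270) (nat_lit 19) (nat_lit 4) (nat_lit 20) (nat_lit 5) (nat_lit 20) (nat_lit 4) (nat_lit 452) (nat_lit 384) (nat_lit 364))) (XT.nd (nat_lit 78) (nat_lit 152) (nat_lit 0) (XT.lf (nat_lit 0) (nat_lit 35472224130) (nat_lit 76) (nat_lit 2258553974) (nat_lit 76) (nat_lit 243947503) (nat_lit 19) (nat_lit 4) (nat_lit 20) (nat_lit 5) (nat_lit 20) (nat_lit 4) (nat_lit 453) (nat_lit 384) (nat_lit 363)) (XT.lf (nat_lit 0) (nat_lit 11057161402) (nat_lit 152) (nat_lit 19878983474) (nat_lit 0) (nat_lit 9157530770) (nat_lit 17) (nat_lit 5) (nat_lit 19) (nat_lit 4) (nat_lit 17) (nat_lit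 4) (nat_lit 454) (nat_lit 384) (nat_lit 362))))) (XT.nd (nat_lit 234) (nat_lit 152) (nat_lit 0) (XT.nd (nat_lit 78) (nat_lit 152) (nat_lit 0) (XT.lf (nat_lit 0) (nat_lit 2060974219) (nat_lit 76) (nat_lit 21128396819) (nat_lit 76) (nat_lit 19197049271) (nat_lit 16) (nat_lit 4) (nat_lit 17) (nat_lit 5) (nat_lit 17) (nat_lit 4) (nat_lit 455) (nat_lit 384) (nat_lit 361)) (XT.nd (nat_lit 78) (nat_lit 152) (nat_lit 0) (XT.lf (nat_lit 0) (nat_lit 26408815840) (nat_lit 76) (nat_lit 10194784558) (nat_lit 76) (nat_lit 8234069495) (nat_lit 16) (nat_lit 4) (nat_lit 17) (nat_lit 5) (nat_lit 17) (nat_lit 4) (nat_lit 456) (nat_lit 384) (nat_lit 360)) (XT.lf (nat_lit 0) (nat_lit 3362053920) (nat_lit 152) (nat_lit 42599710094) (nat_lit 0) (nat_lit 1521399099) (nat_lit 14) (nat_lit 5) (nat_lit 16) (nat_lit 4) (nat_lit 14) (nat_lit 4) (nat_lit 457) (nat_lit 384) (nat_lit 359)))) (XT.nd (nat_lit 156) (nat_lit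 76) (nat_lit 0) (XT.nd (nat_lit 78) (nat_lit 76) (nat_lit 0) (XT.lf (nat_lit 0) (nat_lit 16002513412) (nat_lit 152) (nat_lit 20137207546) (nat_lit 0) (nat_lit 14138545711) (nat_lit 14) (nat_lit 5) (nat_lit 16) (nat_lit 4) (nat_lit 14) (nat_lit 4) (nat_lit 458) (nat_lit 384) (nat_lit 358)) (XT.lf (nat_lit 0) (nat_lit 3896595920) (nat_lit 76) (nat_lit 25647377869) (nat_lit 76) (nat_lit 23761824168) (nat_lit 13) (nat_lit 4) (nat_lit 14) (nat_lit 5) (nat_lit 14) (nat_lit 4) (nat_lit 459) (nat_lit 384) (nat_lit 357))) (XT.nd (nat_lit 78) (nat_lit 76) (nat_lit 0) (XT.lf (nat_lit 0) (nat_lit 30588350387) (nat_lit 76) (nat_lit 13932285905) (nat_lit 76) (nat_lit 12026745167) (nat_lit 13) (nat_lit 4) (nat_lit 14) (nat_lit 5) (nat_lit 14) (nat_lit 4) (nat_lit 460) (nat_lit 384) (nat_lit 356)) (XT.lf (nat_lit 0) (nat_lit 426005328) (nat_lit 152) (nat_lit 1037956172) (nat_lit 76) (nat_lit 58598186480)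 (nat_lit 12) (nat_lit 5) (nat_lit 14) (nat_lit 5) (nat_lit 13) (nat_lit 4) (nat_lit 461) (nat_lit 384) (nat_lit 355)))))) (XT.nd (nat_lit 546) (nat_lit 228) (nat_lit 0) (XT.nd (nat_lit 234) (nat_lit 152) (nat_lit 0) (XT.nd (nat_lit 78) (nat_lit 76) (nat_lit 0) (XT.lf (nat_lit 0) (nat_lit 13997368694) (nat_lit 152) (nat_lit 37573987852) (nat_lit 0) (nat_lit 12199977104) (nat_lit 11) (nat_lit 5) (nat_lit 13) (nat_lit 4) (nat_lit 11) (nat_lit 4) (nat_lit 462) (nat_lit 384) (nat_lit 354)) (XT.nd (nat_lit 78) (nat_lit 76) (nat_lit 0) (XT.lf (nat_lit 0) (nat_lit 28546935003) (nat_lit 152) (nat_lit 12504067709) (nat_lit 0) (nat_lit 26734852344) (nat_lit 11) (nat_lit 5) (nat_lit 13) (nat_lit 4) (nat_lit 11) (nat_lit 4) (nat_lit 463) (nat_lit 384) (nat_lit 353)) (XT.lf (nat_lit 0) (nat_lit 14987064125) (nat_lit 76) (nat_lit 29472130824) (nat_lit 76) (nat_lit 27646445323) (nat_lit 10) (nat_lit 4)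 (nat_lit 11) (nat_lit 5) (nat_lit 11) (nat_lit 4) (nat_lit 464) (nat_lit 384) (nat_lit 352)))) (XT.nd (nat_lit 156) (nat_lit 152) (nat_lit 0) (XT.nd (nat_lit 78) (nat_lit 0) (nat_lit 0) (XT.lf (nat_lit 0) (nat_lit 45062966469) (nat_lit 76) (nat_lit 16765788670) (nat_lit 76) (nat_lit 14927507946) (nat_lit 10) (nat_lit 4) (nat_lit 11) (nat_lit 5) (nat_lit 11) (nat_lit 4) (nat_lit 465) (nat_lit 384) (nat_lit 351)) (XT.lf (nat_lit 0) (nat_lit 77243424845) (nat_lit 76) (nat_lit 3198562781) (nat_lit 76) (nat_lit 1348619812) (nat_lit 10) (nat_lit 4) (nat_lit 11) (nat_lit 5) (nat_lit 11) (nat_lit 4) (nat_lit 466) (nat_lit 384) (nat_lit 350))) (XT.nd (nat_lit 78) (nat_lit 0) (nat_lit 0) (XT.lf (nat_lit 0) (nat_lit 13419700501) (nat_lit 152) (nat_lit 62024044500) (nat_lit 0) (nat_lit 11696791849) (nat_lit 8) (nat_lit 5) (nat_lit 10) (nat_lit 4) (nat_lit 8) (nat_lit 4) (nat_lit 467) (nat_lit 384) (nat_lit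 349)) (XT.lf (nat_lit 0) (nat_lit 29368751391) (nat_lit 152) (nat_lit 35904552237) (nat_lit 0) (nat_lit 27636584874) (nat_lit 8) (nat_lit 5) (nat_lit 10) (nat_lit 4) (nat_lit 8) (nat_lit 4) (nat_lit 468) (nat_lit 384) (nat_lit 348))))) (XT.nd (nat_lit 234) (nat_lit 152) (nat_lit 0) (XT.nd (nat_lit 78) (nat_lit 76) (nat_lit 0) (XT.lf (nat_lit 0) (nat_lit 46465475026) (nat_lit 152) (nat_lit 7960837181) (nat_lit 0) (nat_lit 44724736412) (nat_lit 8) (nat_lit 5) (nat_lit 10) (nat_lit 4) (nat_lit 8) (nat_lit 4) (nat_lit 469) (nat_lit 384) (nat_lit 347)) (XT.nd (nat_lit 78) (nat_lit 0) (nat_lit 0) (XT.lf (nat_lit 0) (nat_lit 23129736127) (nat_lit 76) (nat_lit 42237719907) (nat_lit 76) (nat_lit 40489044165) (nat_lit 7) (nat_lit 4) (nat_lit 8) (nat_lit 5) (nat_lit 8) (nat_lit 4) (nat_lit 470) (nat_lit 384) (nat_lit 346)) (XT.lf (nat_lit 0) (nat_lit 56920832937) (nat_lit 76) (nat_lit 28962712071)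 (nat_lit 76) (nat_lit 27206687137) (nat_lit 7) (nat_lit 4) (nat_lit 8) (nat_lit 5) (nat_lit 8) (nat_lit 4) (nat_lit 471) (nat_lit 384) (nat_lit 345)))) (XT.nd (nat_lit 156) (nat_lit 0) (nat_lit 0) (XT.nd (nat_lit 78) (nat_lit 152) (nat_lit 0) (XT.lf (nat_lit 0) (nat_lit 93193493205) (nat_lit 76) (nat_lit 14740285382) (nat_lit 76) (nat_lit 12977455640) (nat_lit 7) (nat_lit 4) (nat_lit 8) (nat_lit 5) (nat_lit 8) (nat_lit 4) (nat_lit 472) (nat_lit 384) (nat_lit 344)) (XT.lf (nat_lit 0) (nat_lit 2253770588) (nat_lit 152) (nat_lit 126485203104) (nat_lit 0) (nat_lit 615686802) (nat_lit 5) (nat_lit 5) (nat_lit 7) (nat_lit 4) (nat_lit 5) (nat_lit 4) (nat_lit 473) (nat_lit 384) (nat_lit 343))) (XT.nd (nat_lit 78) (nat_lit 0) (nat_lit 0) (XT.lf (nat_lit 0) (nat_lit 19061042015) (nat_lit 152) (nat_lit 101883303155) (nat_lit 0) (nat_lit 17417556354) (nat_lit 5) (nat_lit 5) (nat_lit 7) (nat_lit 4) (nat_lit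 5) (nat_lit 4) (nat_lit 474) (nat_lit 384) (nat_lit 342)) (XT.lf (nat_lit 0) (nat_lit 37118696631) (nat_lit 152) (nat_lit 75508351986) (nat_lit 0) (nat_lit 35470209233) (nat_lit 5) (nat_lit 5) (nat_lit 7) (nat_lit 4) (nat_lit 5) (nat_lit 4) (nat_lit 475) (nat_lit 384) (nat_lit 341))))))))
noncomputable def xc57 : XT := (XT.nd (nat_lit 2184) (nat_lit 0) (nat_lit 0) (XT.nd (nat_lit 1092) (nat_lit 76) (nat_lit 0) (XT.nd (nat_lit 546) (nat_lit 152) (nat_lit 0) (XT.nd (nat_lit 234) (nat_lit 0) (nat_lit 0) (XT.nd (nat_lit 78) (nat_lit 76) (nat_lit 0) (XT.lf (nat_lit 0) (nat_lit 56533742760) (nat_lit 152) (nat_lit 47204053591) (nat_lit 0) (nat_lit 54880624124) (nat_lit 5) (nat_lit 5) (nat_lit 7) (nat_lit 4) (nat_lit 5) (nat_lit 4) (nat_lit 476) (nat_lit 384) (nat_lit 340)) (XT.nd (nat_lit 78) (nat_lit 76) (nat_lit 0) (XT.lf (nat_lit 0) (nat_lit 77421232527) (nat_lit 152) (nat_lit 16802678794) (nat_lit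 0) (nat_lit 75763825708) (nat_lit 5) (nat_lit 5) (nat_lit 7) (nat_lit 4) (nat_lit 5) (nat_lit 4) (nat_lit 477) (nat_lit 384) (nat_lit 339)) (XT.lf (nat_lit 0) (nat_lit 16711926971) (nat_lit 76) (nat_lit 83594938924) (nat_lit 76) (nat_lit 81933561565) (nat_lit 4) (nat_lit 4) (nat_lit 5) (nat_lit 5) (nat_lit 5) (nat_lit 4) (nat_lit 478) (nat_lit 384) (nat_lit 338)))) (XT.nd (nat_lit 156) (nat_lit 0) (nat_lit 0) (XT.nd (nat_lit 78) (nat_lit 0) (nat_lit 0) (XT.lf (nat_lit 0) (nat_lit 53712328086) (nat_lit 76) (nat_lit 71697567630) (nat_lit 76) (nat_lit 70032513845) (nat_lit 4) (nat_lit 4) (nat_lit 5) (nat_lit 5) (nat_lit 5) (nat_lit 4) (nat_lit 479) (nat_lit 384) (nat_lit 337)) (XT.lf (nat_lit 0) (nat_lit 93532986900) (nat_lit 76) (nat_lit 58920709512) (nat_lit 76) (nat_lit 57252251629) (nat_lit 4) (nat_lit 4) (nat_lit 5) (nat_lit 5) (nat_lit 5) (nat_lit 4) (nat_lit 480) (nat_lit 384) (nat_lit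 336))) (XT.nd (nat_lit 78) (nat_lit 0) (nat_lit 0) (XT.lf (nat_lit 0) (nat_lit 136409877686) (nat_lit 76) (nat_lit 45188649857) (nat_lit 76) (nat_lit 43517040032) (nat_lit 4) (nat_lit 4) (nat_lit 5) (nat_lit 5) (nat_lit 5) (nat_lit 4) (nat_lit 481) (nat_lit 384) (nat_lit 335)) (XT.lf (nat_lit 0) (nat_lit 182597085724) (nat_lit 76) (nat_lit 30420013495) (nat_lit 76) (nat_lit 28745485205) (nat_lit 4) (nat_lit 4) (nat_lit 5) (nat_lit 5) (nat_lit 5) (nat_lit 4) (nat_lit 482) (nat_lit 384) (nat_lit 334))))) (XT.nd (nat_lit 234) (nat_lit 0) (nat_lit 0) (XT.nd (nat_lit 78) (nat_lit 152) (nat_lit 0) (XT.lf (nat_lit 0) (nat_lit 232368312986) (nat_lit 76) (nat_lit 14527282582) (nat_lit 76) (nat_lit 12850052009) (nat_lit 4) (nat_lit 4) (nat_lit 5) (nat_lit 5) (nat_lit 5) (nat_lit 4) (nat_lit 483) (nat_lit 384) (nat_lit 333)) (XT.nd (nat_lit 78) (nat_lit 0) (nat_lit 0) (XT.lf (nat_lit 0) (nat_lit 4290166765)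 (nat_lit 152) (nat_lit 272118895968) (nat_lit 0) (nat_lit 2734858722) (nat_lit 2) (nat_lit 5) (nat_lit 4) (nat_lit 4) (nat_lit 2) (nat_lit 4) (nat_lit 484) (nat_lit 384) (nat_lit 332)) (XT.lf (nat_lit 0) (nat_lit 23201823551) (nat_lit 152) (nat_lit 255133605427) (nat_lit 0) (nat_lit 21644370349) (nat_lit 2) (nat_lit 5) (nat_lit 4) (nat_lit 4) (nat_lit 2) (nat_lit 4) (nat_lit 485) (nat_lit 384) (nat_lit 331)))) (XT.nd (nat_lit 156) (nat_lit 0) (nat_lit 0) (XT.nd (nat_lit 78) (nat_lit 0) (nat_lit 0) (XT.lf (nat_lit 0) (nat_lit 43579317975) (nat_lit 152) (nat_lit 236887118586) (nat_lit 0) (nat_lit 42019878514) (nat_lit 2) (nat_lit 5) (nat_lit 4) (nat_lit 4) (nat_lit 2) (nat_lit 4) (nat_lit 486) (nat_lit 384) (nat_lit 330)) (XT.lf (nat_lit 0) (nat_lit 65543405558) (nat_lit 152) (nat_lit 217271308115) (nat_lit 0) (nat_lit 63982126969) (nat_lit 2) (nat_lit 5) (nat_lit 4) (nat_lit 4) (nat_lit 2)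 (nat_lit 4) (nat_lit 487) (nat_lit 384) (nat_lit 329))) (XT.nd (nat_lit 78) (nat_lit 0) (nat_lit 0) (XT.lf (nat_lit 0) (nat_lit 89224243857) (nat_lit 152) (nat_lit 196169932175) (nat_lit 0) (nat_lit 87661262372) (nat_lit 2) (nat_lit 5) (nat_lit 4) (nat_lit 4) (nat_lit 2) (nat_lit 4) (nat_lit 488) (nat_lit 384) (nat_lit 328)) (XT.lf (nat_lit 0) (nat_lit 114762163766) (nat_lit 152) (nat_lit 173457945575) (nat_lit 0) (nat_lit 113197605524) (nat_lit 2) (nat_lit 5) (nat_lit 4) (nat_lit 4) (nat_lit 2) (nat_lit 4) (nat_lit 489) (nat_lit 384) (nat_lit 327)))))) (XT.nd (nat_lit 546) (nat_lit 0) (nat_lit 0) (XT.nd (nat_lit 234) (nat_lit 76) (nat_lit 0) (XT.nd (nat_lit 78) (nat_lit 0) (nat_lit 0) (XT.lf (nat_lit 0) (nat_lit 142308501106) (nat_lit 152) (nat_lit 149000758765) (nat_lit 0) (nat_lit 140742482905) (nat_lit 2) (nat_lit 5) (nat_lit 4) (nat_lit 4) (nat_lit 2) (nat_lit 4) (nat_lit 490) (nat_lit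 384) (nat_lit 326)) (XT.nd (nat_lit 78) (nat_lit 0) (nat_lit 0) (XT.lf (nat_lit 0) (nat_lit 172026493431) (nat_lit 152) (nat_lit 122653440267) (nat_lit 0) (nat_lit 170459123416) (nat_lit 2) (nat_lit 5) (nat_lit 4) (nat_lit 4) (nat_lit 2) (nat_lit 4) (nat_lit 491) (nat_lit 384) (nat_lit 325)) (XT.lf (nat_lit 0) (nat_lit 204092247364) (nat_lit 152) (nat_lit 94259857823) (nat_lit 0) (nat_lit 202523625669) (nat_lit 2) (nat_lit 5) (nat_lit 4) (nat_lit 4) (nat_lit 2) (nat_lit 4) (nat_lit 492) (nat_lit 384) (nat_lit 324)))) (XT.nd (nat_lit 156) (nat_lit 76) (nat_lit 0) (XT.nd (nat_lit 78) (nat_lit 0) (nat_lit 0) (XT.lf (nat_lit 0) (nat_lit 238695782186) (nat_lit 152) (nat_lit 63651753168) (nat_lit 0) (nat_lit 237126001529) (nat_lit 2) (nat_lit 5) (nat_lit 4) (nat_lit 4) (nat_lit 2) (nat_lit 4) (nat_lit 493) (nat_lit 384) (nat_lit 323)) (XT.lf (nat_lit 0) (nat_lit 276042155882) (nat_lit 152) (nat_lit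 30647744940) (nat_lit 0) (nat_lit 274471302111) (nat_lit 2) (nat_lit 5) (nat_lit 4) (nat_lit 4) (nat_lit 2) (nat_lit 4) (nat_lit 494) (nat_lit 384) (nat_lit 322))) (XT.nd (nat_lit 78) (nat_lit 0) (nat_lit 0) (XT.lf (nat_lit 0) (nat_lit 5208285713) (nat_lit 76) (nat_lit 311269653979) (nat_lit 76) (nat_lit 309697806584) (nat_lit 1) (nat_lit 4) (nat_lit 2) (nat_lit 5) (nat_lit 2) (nat_lit 4) (nat_lit 495) (nat_lit 384) (nat_lit 321)) (XT.lf (nat_lit 0) (nat_lit 45628161852) (nat_lit 76) (nat_lit 315335429146) (nat_lit 76) (nat_lit 313762661730) (nat_lit 1) (nat_lit 4) (nat_lit 2) (nat_lit 5) (nat_lit 2) (nat_lit 4) (nat_lit 496) (nat_lit 384) (nat_lit 320))))) (XT.nd (nat_lit 234) (nat_lit 0) (nat_lit 0) (XT.nd (nat_lit 78) (nat_lit 0) (nat_lit 0) (XT.lf (nat_lit 0) (nat_lit 89237552732) (nat_lit 76) (nat_lit 319749283466) (nat_lit 76) (nat_lit 318175664177) (nat_lit 1) (nat_lit 4) (nat_lit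 2) (nat_lit 5) (nat_lit 2) (nat_lit 4) (nat_lit 497) (nat_lit 384) (nat_lit 319)) (XT.nd (nat_lit 78) (nat_lit 0) (nat_lit 0) (XT.lf (nat_lit 0) (nat_lit 136294884373) (nat_lit 76) (nat_lit 324537373112) (nat_lit 76) (nat_lit 322962965053) (nat_lit 1) (nat_lit 4) (nat_lit 2) (nat_lit 5) (nat_lit 2) (nat_lit 4) (nat_lit 498) (nat_lit 384) (nat_lit 318)) (XT.lf (nat_lit 0) (nat_lit 187079015037) (nat_lit 76) (nat_lit 329728071949) (nat_lit 76) (nat_lit 328152933547) (nat_lit 1) (nat_lit 4) (nat_lit 2) (nat_lit 5) (nat_lit 2) (nat_lit 4) (nat_lit 499) (nat_lit 384) (nat_lit 317)))) (XT.nd (nat_lit 156) (nat_lit 0) (nat_lit 0) (XT.nd (nat_lit 78) (nat_lit 0) (nat_lit 0) (XT.lf (nat_lit 0) (nat_lit 241890887720) (nat_lit 76) (nat_lit 335352139673) (nat_lit 76) (nat_lit 333776325027) (nat_lit 1) (nat_lit 4) (nat_lit 2) (nat_lit 5) (nat_lit 2) (nat_lit 4) (nat_lit 500) (nat_lit 384) (nat_lit 316))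 (XT.lf (nat_lit 0) (nat_lit 301055313519) (nat_lit 76) (nat_lit 341442904094) (nat_lit 76) (nat_lit 339866463297) (nat_lit 1) (nat_lit 4) (nat_lit 2) (nat_lit 5) (nat_lit 2) (nat_lit 4) (nat_lit 501) (nat_lit 384) (nat_lit 315))) (XT.nd (nat_lit 78) (nat_lit 0) (nat_lit 0) (XT.lf (nat_lit 0) (nat_lit 364922896440) (nat_lit 76) (nat_lit 348036458630) (nat_lit 76) (nat_lit 346459438063) (nat_lit 1) (nat_lit 4) (nat_lit 2) (nat_lit 5) (nat_lit 2) (nat_lit 4) (nat_lit 502) (nat_lit 384) (nat_lit 314)) (XT.lf (nat_lit 0) (nat_lit 433872111048) (nat_lit 76) (nat_lit 355171876197) (nat_lit 76) (nat_lit 353594318805) (nat_lit 1) (nat_lit 4) (nat_lit 2) (nat_lit 5) (nat_lit 2) (nat_lit 4) (nat_lit 503) (nat_lit 384) (nat_lit 313))))))) (XT.nd (nat_lit 1092) (nat_lit 0) (nat_lit 0) (XT.nd (nat_lit 546) (nat_lit 0) (nat_lit 0) (XT.nd (nat_lit 234) (nat_lit 0) (nat_lit 0) (XT.nd (nat_lit 78) (nat_lit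 0) (nat_lit 0) (XT.lf (nat_lit 0) (nat_lit 508311545281) (nat_lit 76) (nat_lit 362891440750) (nat_lit 76) (nat_lit 361313386300) (nat_lit 1) (nat_lit 4) (nat_lit 2) (nat_lit 5) (nat_lit 2) (nat_lit 4) (nat_lit 504) (nat_lit 384) (nat_lit 312)) (XT.nd (nat_lit 78) (nat_lit 0) (nat_lit 0) (XT.lf (nat_lit 0) (nat_lit 588682321712) (nat_lit 76) (nat_lit 371240897858) (nat_lit 76) (nat_lit 369662383168) (nat_lit 1) (nat_lit 4) (nat_lit 2) (nat_lit 5) (nat_lit 2) (nat_lit 4) (nat_lit 505) (nat_lit 384) (nat_lit 311)) (XT.lf (nat_lit 0) (nat_lit 675460711609) (nat_lit 76) (nat_lit 380269725786) (nat_lit 76) (nat_lit 378690784947) (nat_lit 1) (nat_lit 4) (nat_lit 2) (nat_lit 5) (nat_lit 2) (nat_lit 4) (nat_lit 506) (nat_lit 384) (nat_lit 310)))) (XT.nd (nat_lit 156) (nat_lit 0) (nat_lit 0) (XT.nd (nat_lit 78) (nat_lit 0) (nat_lit 0) (XT.lf (nat_lit 0) (nat_lit 769160957283) (nat_lit 76) (nat_lit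 390031428697) (nat_lit 76) (nat_lit 388452093277) (nat_lit 1) (nat_lit 4) (nat_lit 2) (nat_lit 5) (nat_lit 2) (nat_lit 4) (nat_lit 507) (nat_lit 384) (nat_lit 309)) (XT.lf (nat_lit 0) (nat_lit 870338319449) (nat_lit 76) (nat_lit 400583853721) (nat_lit 76) (nat_lit 399004152947) (nat_lit 1) (nat_lit 4) (nat_lit 2) (nat_lit 5) (nat_lit 2) (nat_lit 4) (nat_lit 508) (nat_lit 384) (nat_lit 308))) (XT.nd (nat_lit 78) (nat_lit 0) (nat_lit 0) (XT.lf (nat_lit 0) (nat_lit 979592367660) (nat_lit 76) (nat_lit 411989533747) (nat_lit 76) (nat_lit 410409494683) (nat_lit 1) (nat_lit 4) (nat_lit 2) (nat_lit 5) (nat_lit 2) (nat_lit 4) (nat_lit 509) (nat_lit 384) (nat_lit 307)) (XT.lf (nat_lit 0) (nat_lit 1097570533313) (nat_lit 76) (nat_lit 424316057990) (nat_lit 76) (nat_lit 422735705695) (nat_lit 1) (nat_lit 4) (nat_lit 2) (nat_lit 5) (nat_lit 2) (nat_lit 4) (nat_lit 510) (nat_lit 384) (nat_lit 306)))))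 (XT.nd (nat_lit 234) (nat_lit 0) (nat_lit 0) (XT.nd (nat_lit 78) (nat_lit 0) (nat_lit 0) (XT.lf (nat_lit 0) (nat_lit 1224971946279) (nat_lit 76) (nat_lit 437636472520) (nat_lit 76) (nat_lit 436055830195) (nat_lit 1) (nat_lit 4) (nat_lit 2) (nat_lit 5) (nat_lit 2) (nat_lit 4) (nat_lit 511) (nat_lit 384) (nat_lit 305)) (XT.nd (nat_lit 78) (nat_lit 0) (nat_lit 0) (XT.lf (nat_lit 0) (nat_lit 1362551577893) (nat_lit 76) (nat_lit 452029713125) (nat_lit 76) (nat_lit 450448802254) (nat_lit 1) (nat_lit 4) (nat_lit 2) (nat_lit 5) (nat_lit 2) (nat_lit 4) (nat_lit 512) (nat_lit 384) (nat_lit 304)) (XT.lf (nat_lit 0) (nat_lit 1511124714863) (nat_lit 76) (nat_lit 467581073084) (nat_lit 76) (nat_lit 465999913560) (nat_lit 1) (nat_lit 4) (nat_lit 2) (nat_lit 5) (nat_lit 2) (nat_lit 4) (nat_lit 513) (nat_lit 384) (nat_lit 303)))) (XT.nd (nat_lit 156) (nat_lit 0) (nat_lit 0) (XT.nd (nat_lit 78) (nat_lit 0)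 (nat_lit 0) (XT.lf (nat_lit 0) (nat_lit 1671571790591) (nat_lit 76) (nat_lit 484382708604) (nat_lit 76) (nat_lit 482801318846) (nat_lit 1) (nat_lit 4) (nat_lit 2) (nat_lit 5) (nat_lit 2) (nat_lit 4) (nat_lit 514) (nat_lit 384) (nat_lit 302)) (XT.lf (nat_lit 0) (nat_lit 1844843602564) (nat_lit 76) (nat_lit 502534184933) (nat_lit 76) (nat_lit 500952581994) (nat_lit 1) (nat_lit 4) (nat_lit 2) (nat_lit 5) (nat_lit 2) (nat_lit 4) (nat_lit 515) (nat_lit 384) (nat_lit 301))) (XT.nd (nat_lit 78) (nat_lit 0) (nat_lit 0) (XT.lf (nat_lit 0) (nat_lit 2031966946704) (nat_lit 76) (nat_lit 522143066374) (nat_lit 76) (nat_lit 520561266047) (nat_lit 1) (nat_lit 4) (nat_lit 2) (nat_lit 5) (nat_lit 2) (nat_lit 4) (nat_lit 516) (nat_lit 384) (nat_lit 300)) (XT.lf (nat_lit 0) (nat_lit 2234050702088) (nat_lit 76) (nat_lit 543325553707) (nat_lit 76) (nat_lit 541743570612) (nat_lit 1) (nat_lit 4) (nat_lit 2) (nat_lit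 5) (nat_lit 2) (nat_lit 4) (nat_lit 517) (nat_lit 384) (nat_lit 299)))))) (XT.nd (nat_lit 546) (nat_lit 0) (nat_lit 0) (XT.nd (nat_lit 234) (nat_lit 0) (nat_lit 0) (XT.nd (nat_lit 78) (nat_lit 0) (nat_lit 0) (XT.lf (nat_lit 0) (nat_lit 2452292402082) (nat_lit 76) (nat_lit 566207172783) (nat_lit 76) (nat_lit 564625020458) (nat_lit 1) (nat_lit 4) (nat_lit 2) (nat_lit 5) (nat_lit 2) (nat_lit 4) (nat_lit 518) (nat_lit 384) (nat_lit 298)) (XT.nd (nat_lit 78) (nat_lit 0) (nat_lit 0) (XT.lf (nat_lit 0) (nat_lit 2687985330832) (nat_lit 76) (nat_lit 590923518381) (nat_lit 76) (nat_lit 589341209362) (nat_lit 1) (nat_lit 4) (nat_lit 2) (nat_lit 5) (nat_lit 2) (nat_lit 4) (nat_lit 519) (nat_lit 384) (nat_lit 297)) (XT.lf (nat_lit 0) (nat_lit 2942526187177) (nat_lit 76) (nat_lit 617621057734) (nat_lit 76) (nat_lit 616038603628) (nat_lit 1) (nat_lit 4) (nat_lit 2) (nat_lit 5) (nat_lit 2) (nat_lit 4) (nat_lit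 520) (nat_lit 384) (nat_lit 296)))) (XT.nd (nat_lit 156) (nat_lit 0) (nat_lit 0) (XT.nd (nat_lit 78) (nat_lit 0) (nat_lit 0) (XT.lf (nat_lit 0) (nat_lit 3217423361376) (nat_lit 76) (nat_lit 646457998483) (nat_lit 76) (nat_lit 644875410037) (nat_lit 1) (nat_lit 4) (nat_lit 2) (nat_lit 5) (nat_lit 2) (nat_lit 4) (nat_lit 521) (nat_lit 384) (nat_lit 295)) (XT.lf (nat_lit 0) (nat_lit 3514305873720) (nat_lit 76) (nat_lit 677605226202) (nat_lit 76) (nat_lit 676022513368) (nat_lit 1) (nat_lit 4) (nat_lit 2) (nat_lit 5) (nat_lit 2) (nat_lit 4) (nat_lit 522) (nat_lit 384) (nat_lit 294))) (XT.nd (nat_lit 78) (nat_lit 0) (nat_lit 0) (XT.lf (nat_lit 0) (nat_lit 3834933027987) (nat_lit 76) (nat_lit 711247317057) (nat_lit 76) (nat_lit 709664489049) (nat_lit 1) (nat_lit 4) (nat_lit 2) (nat_lit 5) (nat_lit 2) (nat_lit 4) (nat_lit 523) (nat_lit 384) (nat_lit 293)) (XT.lf (nat_lit 0) (nat_lit 4181204836943)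 (nat_lit 76) (nat_lit 747583631585) (nat_lit 76) (nat_lit 746000696934) (nat_lit 1) (nat_lit 4) (nat_lit 2) (nat_lit 5) (nat_lit 2) (nat_lit 4) (nat_lit 524) (nat_lit 384) (nat_lit 292))))) (XT.nd (nat_lit 312) (nat_lit 0) (nat_lit 0) (XT.nd (nat_lit 156) (nat_lit 0) (nat_lit 0) (XT.nd (nat_lit 78) (nat_lit 0) (nat_lit 0) (XT.lf (nat_lit 0) (nat_lit 4555173281677) (nat_lit 76) (nat_lit 786829496095) (nat_lit 76) (nat_lit 785246462700) (nat_lit 1) (nat_lit 4) (nat_lit 2) (nat_lit 5) (nat_lit 2) (nat_lit 4) (nat_lit 525) (nat_lit 384) (nat_lit 291)) (XT.lf (nat_lit 0) (nat_lit 4959054471492) (nat_lit 76) (nat_lit 829217478673) (nat_lit 76) (nat_lit 827634353848) (nat_lit 1) (nat_lit 4) (nat_lit 2) (nat_lit 5) (nat_lit 2) (nat_lit 4) (nat_lit 526) (nat_lit 384) (nat_lit 290))) (XT.nd (nat_lit 78) (nat_lit 0) (nat_lit 0) (XT.lf (nat_lit 0) (nat_lit 5395241776402) (nat_lit 76) (nat_lit 874998767363)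 (nat_lit 76) (nat_lit 873415557881) (nat_lit 1) (nat_lit 4) (nat_lit 2) (nat_lit 5) (nat_lit 2) (nat_lit 4) (nat_lit 527) (nat_lit 384) (nat_lit 289)) (XT.lf (nat_lit 0) (nat_lit 5866320010064) (nat_lit 76) (nat_lit 924444658691) (nat_lit 76) (nat_lit 922861370824) (nat_lit 1) (nat_lit 4) (nat_lit 2) (nat_lit 5) (nat_lit 2) (nat_lit 4) (nat_lit 528) (nat_lit 384) (nat_lit 288)))) (XT.nd (nat_lit 156) (nat_lit 0) (nat_lit 0) (XT.nd (nat_lit 78) (nat_lit 0) (nat_lit 0) (XT.lf (nat_lit 0) (nat_lit 6375080747198) (nat_lit 76) (nat_lit 977848165347) (nat_lit 76) (nat_lit 976264804900) (nat_lit 1) (nat_lit 4) (nat_lit 2) (nat_lit 5) (nat_lit 2) (nat_lit 4) (nat_lit 529) (nat_lit 384) (nat_lit 287)) (XT.lf (nat_lit 0) (nat_lit 6924538866245) (nat_lit 76) (nat_lit 1035525752555) (nat_lit 76) (nat_lit 1033942324905) (nat_lit 1) (nat_lit 4) (nat_lit 2) (nat_lit 5) (nat_lit 2) (nat_lit 4) (nat_lit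 530) (nat_lit 384) (nat_lit 286))) (XT.nd (nat_lit 78) (nat_lit 0) (nat_lit 0) (XT.lf (nat_lit 0) (nat_lit 7517950415319) (nat_lit 76) (nat_lit 1097819213425) (nat_lit 76) (nat_lit 1096235723550) (nat_lit 1) (nat_lit 4) (nat_lit 2) (nat_lit 5) (nat_lit 2) (nat_lit 4) (nat_lit 531) (nat_lit 384) (nat_lit 285)) (XT.lf (nat_lit 0) (nat_lit 8158831907302) (nat_lit 76) (nat_lit 1165097694391) (nat_lit 76) (nat_lit 1163514146900) (nat_lit 1) (nat_lit 4) (nat_lit 2) (nat_lit 5) (nat_lit 2) (nat_lit 4) (nat_lit 532) (nat_lit 384) (nat_lit 284))))))))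
noncomputable def xc58 : XT := (XT.nd (nat_lit 55614) (nat_lit 0) (nat_lit 456) (XT.nd (nat_lit 54522) (nat_lit 0) (nat_lit 2052) (XT.nd (nat_lit 546) (nat_lit 0) (nat_lit 0) (XT.nd (nat_lit 234) (nat_lit 0) (nat_lit 0) (XT.nd (nat_lit 78) (nat_lit 0) (nat_lit 0) (XT.lf (nat_lit 0) (nat_lit 8850981158444) (nat_lit 76) (nat_lit 1237759882748) (nat_lit 76) (nat_lit 1236176281909) (nat_lit 1) (nat_lit 4) (nat_lit 2) (nat_lit 5) (nat_lit 2) (nat_lit 4) (nat_lit 533) (nat_lit 384) (nat_lit 283)) (XT.nd (nat_lit 78) (nat_lit 0) (nat_lit 0) (XT.lf (nat_lit 0) (nat_lit 9598499793937) (nat_lit 76) (nat_lit 1316236369242) (nat_lit 76) (nat_lit 1314652719006) (nat_lit 1) (nat_lit 4) (nat_lit 2) (nat_lit 5) (nat_lit 2) (nat_lit 4) (nat_lit 534) (nat_lit 384) (nat_lit 282)) (XT.lf (nat_lit 0) (nat_lit 10405817553842) (nat_lit 76) (nat_lit 1400992199719) (nat_lit 76) (nat_lit 1399408503745) (nat_lit 1)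 (nat_lit 4) (nat_lit 2) (nat_lit 5) (nat_lit 2) (nat_lit 4) (nat_lit 535) (nat_lit 384) (nat_lit 281)))) (XT.nd (nat_lit 156) (nat_lit 0) (nat_lit 0) (XT.nd (nat_lit 78) (nat_lit 0) (nat_lit 0) (XT.lf (nat_lit 0) (nat_lit 11277718543403) (nat_lit 76) (nat_lit 1492529630951) (nat_lit 76) (nat_lit 1490945892628) (nat_lit 1) (nat_lit 4) (nat_lit 2) (nat_lit 5) (nat_lit 2) (nat_lit 4) (nat_lit 536) (nat_lit 384) (nat_lit 280)) (XT.lf (nat_lit 0) (nat_lit 12219369583300) (nat_lit 76) (nat_lit 1591391106976) (nat_lit 76) (nat_lit 1589807329441) (nat_lit 1) (nat_lit 4) (nat_lit 2) (nat_lit 5) (nat_lit 2) (nat_lit 4) (nat_lit 537) (nat_lit 384) (nat_lit 279))) (XT.nd (nat_lit 78) (nat_lit 0) (nat_lit 0) (XT.lf (nat_lit 0) (nat_lit 13236350827843) (nat_lit 76) (nat_lit 1698162473578) (nat_lit 76) (nat_lit 1696578659735) (nat_lit 1) (nat_lit 4) (nat_lit 2) (nat_lit 5) (nat_lit 2) (nat_lit 4) (nat_lit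 538) (nat_lit 384) (nat_lit 278)) (XT.lf (nat_lit 0) (nat_lit 14334688832555) (nat_lit 76) (nat_lit 1813476449966) (nat_lit 76) (nat_lit 1811892602504) (nat_lit 1) (nat_lit 4) (nat_lit 2) (nat_lit 5) (nat_lit 2) (nat_lit 4) (nat_lit 539) (nat_lit 384) (nat_lit 277))))) (XT.nd (nat_lit 234) (nat_lit 0) (nat_lit 0) (XT.nd (nat_lit 78) (nat_lit 0) (nat_lit 0) (XT.lf (nat_lit 0) (nat_lit 15520892267094) (nat_lit 76) (nat_lit 1938016378222) (nat_lit 76) (nat_lit 1936432499633) (nat_lit 1) (nat_lit 4) (nat_lit 2) (nat_lit 5) (nat_lit 2) (nat_lit 4) (nat_lit 540) (nat_lit 384) (nat_lit 276)) (XT.nd (nat_lit 78) (nat_lit 0) (nat_lit 0) (XT.lf (nat_lit 0) (nat_lit 16801990485146) (nat_lit 76) (nat_lit 2072520272737) (nat_lit 76) (nat_lit 2070936365325) (nat_lit 1) (nat_lit 4) (nat_lit 2) (nat_lit 5) (nat_lit 2) (nat_lit 4) (nat_lit 541) (nat_lit 384) (nat_lit 275)) (XT.lf (nat_lit 0) (nat_lit 18185575179854)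 (nat_lit 76) (nat_lit 2217785193625) (nat_lit 76) (nat_lit 2216201259526) (nat_lit 1) (nat_lit 4) (nat_lit 2) (nat_lit 5) (nat_lit 2) (nat_lit 4) (nat_lit 542) (nat_lit 384) (nat_lit 274)))) (XT.nd (nat_lit 156) (nat_lit 0) (nat_lit 0) (XT.nd (nat_lit 78) (nat_lit 0) (nat_lit 0) (XT.lf (nat_lit 0) (nat_lit 19679845371633) (nat_lit 76) (nat_lit 2374671970048) (nat_lit 76) (nat_lit 2373088011238) (nat_lit 1) (nat_lit 4) (nat_lit 2) (nat_lit 5) (nat_lit 2) (nat_lit 4) (nat_lit 543) (nat_lit 384) (nat_lit 273)) (XT.lf (nat_lit 0) (nat_lit 21293655994951) (nat_lit 76) (nat_lit 2544110301421) (nat_lit 76) (nat_lit 2542526319731) (nat_lit 1) (nat_lit 4) (nat_lit 2) (nat_lit 5) (nat_lit 2) (nat_lit 4) (nat_lit 544) (nat_lit 384) (nat_lit 272))) (XT.nd (nat_lit 53508) (nat_lit 0) (nat_lit 3420) (XT.lf (nat_lit 0) (nat_lit 23036570372021) (nat_lit 76) (nat_lit 2727104266745) (nat_lit 76) (nat_lit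 2725520263870) (nat_lit 1) (nat_lit 4) (nat_lit 2) (nat_lit 5) (nat_lit 2) (nat_lit 4) (nat_lit 545) (nat_lit 384) (nat_lit 271)) (XT.lf (nat_lit 0) (nat_lit 6574529249) (nat_lit 76) (nat_lit 29546162) (nat_lit 76) (nat_lit 29546162) (nat_lit 46) (nat_lit 4) (nat_lit 47) (nat_lit 5) (nat_lit 47) (nat_lit 4) (nat_lit 430) (nat_lit 385) (nat_lit 385)))))) (XT.nd (nat_lit 546) (nat_lit 532) (nat_lit 0) (XT.nd (nat_lit 234) (nat_lit 456) (nat_lit 0) (XT.nd (nat_lit 78) (nat_lit 228) (nat_lit 0) (XT.lf (nat_lit 0) (nat_lit 6513474478) (nat_lit 152) (nat_lit 1115779977) (nat_lit 0) (nat_lit 6141210401) (nat_lit 44) (nat_lit 5) (nat_lit 46) (nat_lit 4) (nat_lit 44) (nat_lit 4) (nat_lit 431) (nat_lit 385) (nat_lit 384)) (XT.nd (nat_lit 78) (nat_lit 152) (nat_lit 0) (XT.lf (nat_lit 0) (nat_lit 12093599948) (nat_lit 76) (nat_lit 1470378913) (nat_lit 76) (nat_lit 753425876) (nat_lit 43) (nat_lit 4)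 (nat_lit 44) (nat_lit 5) (nat_lit 44) (nat_lit 4) (nat_lit 432) (nat_lit 385) (nat_lit 383)) (XT.lf (nat_lit 0) (nat_lit 6049139187) (nat_lit 152) (nat_lit 3749734657) (nat_lit 0) (nat_lit 5089778556) (nat_lit 41) (nat_lit 5) (nat_lit 43) (nat_lit 4) (nat_lit 41) (nat_lit 4) (nat_lit 433) (nat_lit 385) (nat_lit 382)))) (XT.nd (nat_lit 156) (nat_lit 228) (nat_lit 0) (XT.nd (nat_lit 78) (nat_lit 152) (nat_lit 0) (XT.lf (nat_lit 0) (nat_lit 9981895162) (nat_lit 76) (nat_lit 3377402442) (nat_lit 76) (nat_lit 2144416601) (nat_lit 40) (nat_lit 4) (nat_lit 41) (nat_lit 5) (nat_lit 41) (nat_lit 4) (nat_lit 434) (nat_lit 385) (nat_lit 381)) (XT.lf (nat_lit 0) (nat_lit 4895354601) (nat_lit 152) (nat_lit 7738654775) (nat_lit 0) (nat_lit 3519111530) (nat_lit 38) (nat_lit 5) (nat_lit 40) (nat_lit 4) (nat_lit 38) (nat_lit 4) (nat_lit 435) (nat_lit 385) (nat_lit 380))) (XT.nd (nat_lit 78) (nat_lit 152)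 (nat_lit 0) (XT.lf (nat_lit 0) (nat_lit 6455306720) (nat_lit 76) (nat_lit 5991514713) (nat_lit 76) (nat_lit 4398059129) (nat_lit 37) (nat_lit 4) (nat_lit 38) (nat_lit 5) (nat_lit 38) (nat_lit 4) (nat_lit 436) (nat_lit 385) (nat_lit 379)) (XT.lf (nat_lit 0) (nat_lit 2874044587) (nat_lit 152) (nat_lit 13498614197) (nat_lit 0) (nat_lit 1212398030) (nat_lit 35) (nat_lit 5) (nat_lit 37) (nat_lit 4) (nat_lit 35) (nat_lit 4) (nat_lit 437) (nat_lit 385) (nat_lit 378))))) (XT.nd (nat_lit 234) (nat_lit 304) (nat_lit 0) (XT.nd (nat_lit 78) (nat_lit 152) (nat_lit 0) (XT.lf (nat_lit 0) (nat_lit 1065779714) (nat_lit 76) (nat_lit 9566140520) (nat_lit 76) (nat_lit 7732063667) (nat_lit 34) (nat_lit 4) (nat_lit 35) (nat_lit 5) (nat_lit 35) (nat_lit 4) (nat_lit 438) (nat_lit 385) (nat_lit 377)) (XT.nd (nat_lit 78) (nat_lit 152) (nat_lit 0) (XT.lf (nat_lit 0) (nat_lit 16919731191) (nat_lit 76) (nat_lit 2137734780)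 (nat_lit 76) (nat_lit 144000245) (nat_lit 34) (nat_lit 4) (nat_lit 35) (nat_lit 5) (nat_lit 35) (nat_lit 4) (nat_lit 439) (nat_lit 385) (nat_lit 376)) (XT.lf (nat_lit 0) (nat_lit 7822693536) (nat_lit 152) (nat_lit 6414057828) (nat_lit 0) (nat_lit 5839762312) (nat_lit 32) (nat_lit 5) (nat_lit 34) (nat_lit 4) (nat_lit 32) (nat_lit 4) (nat_lit 440) (nat_lit 385) (nat_lit 375)))) (XT.nd (nat_lit 156) (nat_lit 76) (nat_lit 0) (XT.nd (nat_lit 78) (nat_lit 152) (nat_lit 0) (XT.lf (nat_lit 0) (nat_lit 9812466847) (nat_lit 76) (nat_lit 6657208167) (nat_lit 76) (nat_lit 4547535527) (nat_lit 31) (nat_lit 4) (nat_lit 32) (nat_lit 5) (nat_lit 32) (nat_lit 4) (nat_lit 441) (nat_lit 385) (nat_lit 374)) (XT.lf (nat_lit 0) (nat_lit 3627596868) (nat_lit 152) (nat_lit 16829473785) (nat_lit 0) (nat_lit 1565535941) (nat_lit 29) (nat_lit 5) (nat_lit 31) (nat_lit 4) (nat_lit 29) (nat_lit 4) (nat_lit 442) (nat_lit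 385) (nat_lit 373))) (XT.nd (nat_lit 78) (nat_lit 76) (nat_lit 0) (XT.lf (nat_lit 0) (nat_lit 12394902039) (nat_lit 152) (nat_lit 457148086) (nat_lit 0) (nat_lit 10232229690) (nat_lit 29) (nat_lit 5) (nat_lit 31) (nat_lit 4) (nat_lit 29) (nat_lit 4) (nat_lit 443) (nat_lit 385) (nat_lit 372)) (XT.lf (nat_lit 0) (nat_lit 17533255670) (nat_lit 76) (nat_lit 4471101760) (nat_lit 76) (nat_lit 2215270687) (nat_lit 28) (nat_lit 4) (nat_lit 29) (nat_lit 5) (nat_lit 29) (nat_lit 4) (nat_lit 444) (nat_lit 385) (nat_lit 371))))))) (XT.nd (nat_lit 1092) (nat_lit 532) (nat_lit 0) (XT.nd (nat_lit 546) (nat_lit 456) (nat_lit 0) (XT.nd (nat_lit 234) (nat_lit 380) (nat_lit 0) (XT.nd (nat_lit 78) (nat_lit 76) (nat_lit 0) (XT.lf (nat_lit 0) (nat_lit 6710647748) (nat_lit 152) (nat_lit 14170094608) (nat_lit 0) (nat_lit 4542046682) (nat_lit 26) (nat_lit 5) (nat_lit 28) (nat_lit 4) (nat_lit 26) (nat_lit 4) (nat_lit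 445) (nat_lit 385) (nat_lit 370)) (XT.nd (nat_lit 78) (nat_lit 0) (nat_lit 0) (XT.lf (nat_lit 0) (nat_lit 3738320281) (nat_lit 76) (nat_lit 12606368177) (nat_lit 76) (nat_lit 10363814713) (nat_lit 25) (nat_lit 4) (nat_lit 26) (nat_lit 5) (nat_lit 26) (nat_lit 4) (nat_lit 446) (nat_lit 385) (nat_lit 369)) (XT.lf (nat_lit 0) (nat_lit 23329866123) (nat_lit 76) (nat_lit 3534521612) (nat_lit 76) (nat_lit 1223493705) (nat_lit 25) (nat_lit 4) (nat_lit 26) (nat_lit 5) (nat_lit 26) (nat_lit 4) (nat_lit 447) (nat_lit 385) (nat_lit 368)))) (XT.nd (nat_lit 156) (nat_lit 152) (nat_lit 0) (XT.nd (nat_lit 78) (nat_lit 76) (nat_lit 0) (XT.lf (nat_lit 0) (nat_lit 8474319268) (nat_lit 152) (nat_lit 14790170428) (nat_lit 0) (nat_lit 6275772816) (nat_lit 23) (nat_lit 5) (nat_lit 25) (nat_lit 4) (nat_lit 23) (nat_lit 4) (nat_lit 448) (nat_lit 385) (nat_lit 367)) (XT.lf (nat_lit 0) (nat_lit 4563968222) (nat_lit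 76) (nat_lit 14394547952) (nat_lit 76) (nat_lit 12141644278) (nat_lit 22) (nat_lit 4) (nat_lit 23) (nat_lit 5) (nat_lit 23) (nat_lit 4) (nat_lit 449) (nat_lit 385) (nat_lit 366))) (XT.nd (nat_lit 78) (nat_lit 152) (nat_lit 0) (XT.lf (nat_lit 0) (nat_lit 25792554955) (nat_lit 76) (nat_lit 4641655076) (nat_lit 76) (nat_lit 2338420643) (nat_lit 22) (nat_lit 4) (nat_lit 23) (nat_lit 5) (nat_lit 23) (nat_lit 4) (nat_lit 450) (nat_lit 385) (nat_lit 365)) (XT.lf (nat_lit 0) (nat_lit 8087608495) (nat_lit 152) (nat_lit 20543490534) (nat_lit 0) (nat_lit 5911833505) (nat_lit 20) (nat_lit 5) (nat_lit 22) (nat_lit 4) (nat_lit 20) (nat_lit 4) (nat_lit 451) (nat_lit 385) (nat_lit 364))))) (XT.nd (nat_lit 234) (nat_lit 228) (nat_lit 0) (XT.nd (nat_lit 78) (nat_lit 228) (nat_lit 0) (XT.lf (nat_lit 0) (nat_lit 19299068900) (nat_lit 152) (nat_lit 61377171) (nat_lit 0) (nat_lit 17083339730) (nat_lit 20) (nat_lit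 5) (nat_lit 22) (nat_lit 4) (nat_lit 20) (nat_lit 4) (nat_lit 452) (nat_lit 385) (nat_lit 363)) (XT.nd (nat_lit 78) (nat_lit 152) (nat_lit 0) (XT.lf (nat_lit 0) (nat_lit 22743496588) (nat_lit 76) (nat_lit 8989928594) (nat_lit 76) (nat_lit 6737204814) (nat_lit 19) (nat_lit 4) (nat_lit 20) (nat_lit 5) (nat_lit 20) (nat_lit 4) (nat_lit 453) (nat_lit 385) (nat_lit 362)) (XT.lf (nat_lit 0) (nat_lit 4268798609) (nat_lit 152) (nat_lit 34231642493) (nat_lit 0) (nat_lit 2151226341) (nat_lit 17) (nat_lit 5) (nat_lit 19) (nat_lit 4) (nat_lit 17) (nat_lit 4) (nat_lit 454) (nat_lit 385) (nat_lit 361)))) (XT.nd (nat_lit 156) (nat_lit 152) (nat_lit 0) (XT.nd (nat_lit 78) (nat_lit 76) (nat_lit 0) (XT.lf (nat_lit 0) (nat_lit 16245388196) (nat_lit 152) (nat_lit 12613025478) (nat_lit 0) (nat_lit 14098448413) (nat_lit 17) (nat_lit 5) (nat_lit 19) (nat_lit 4) (nat_lit 17) (nat_lit 4) (nat_lit 455) (nat_lit 385)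 (nat_lit 360)) (XT.lf (nat_lit 0) (nat_lit 10857919295) (nat_lit 76) (nat_lit 18379067554) (nat_lit 76) (nat_lit 16204935628) (nat_lit 16) (nat_lit 4) (nat_lit 17) (nat_lit 5) (nat_lit 17) (nat_lit 4) (nat_lit 456) (nat_lit 385) (nat_lit 359))) (XT.nd (nat_lit 78) (nat_lit 152) (nat_lit 0) (XT.lf (nat_lit 0) (nat_lit 36514175865) (nat_lit 76) (nat_lit 6899625647) (nat_lit 76) (nat_lit 4700315810) (nat_lit 16) (nat_lit 4) (nat_lit 17) (nat_lit 5) (nat_lit 17) (nat_lit 4) (nat_lit 457) (nat_lit 385) (nat_lit 358)) (XT.lf (nat_lit 0) (nat_lit 7609986720) (nat_lit 152) (nat_lit 37801497994) (nat_lit 0) (nat_lit 5552002722) (nat_lit 14) (nat_lit 5) (nat_lit 16) (nat_lit 4) (nat_lit 14) (nat_lit 4) (nat_lit 458) (nat_lit 385) (nat_lit 357)))))) (XT.nd (nat_lit 546) (nat_lit 228) (nat_lit 0) (XT.nd (nat_lit 234) (nat_lit 228) (nat_lit 0) (XT.nd (nat_lit 78) (nat_lit 76) (nat_lit 0) (XT.lf (nat_lit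 0) (nat_lit 20966944565) (nat_lit 152) (nat_lit 14149861088) (nat_lit 0) (nat_lit 18888973530) (nat_lit 14) (nat_lit 5) (nat_lit 16) (nat_lit 4) (nat_lit 14) (nat_lit 4) (nat_lit 459) (nat_lit 385) (nat_lit 356)) (XT.nd (nat_lit 78) (nat_lit 0) (nat_lit 0) (XT.lf (nat_lit 0) (nat_lit 11614284047) (nat_lit 76) (nat_lit 23882645321) (nat_lit 76) (nat_lit 21786167771) (nat_lit 13) (nat_lit 4) (nat_lit 14) (nat_lit 5) (nat_lit 14) (nat_lit 4) (nat_lit 460) (nat_lit 385) (nat_lit 355)) (XT.lf (nat_lit 0) (nat_lit 39892789207) (nat_lit 76) (nat_lit 11513051391) (nat_lit 76) (nat_lit 9399438178) (nat_lit 13) (nat_lit 4) (nat_lit 14) (nat_lit 5) (nat_lit 14) (nat_lit 4) (nat_lit 461) (nat_lit 385) (nat_lit 354)))) (XT.nd (nat_lit 156) (nat_lit 76) (nat_lit 0) (XT.nd (nat_lit 78) (nat_lit 0) (nat_lit 0) (XT.lf (nat_lit 0) (nat_lit 3800255368) (nat_lit 152) (nat_lit 58971128200) (nat_lit 0) (nat_lit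 1828515027) (nat_lit 11) (nat_lit 5) (nat_lit 13) (nat_lit 4) (nat_lit 11) (nat_lit 4) (nat_lit 462) (nat_lit 385) (nat_lit 353)) (XT.lf (nat_lit 0) (nat_lit 18272076042) (nat_lit 152) (nat_lit 34061830925) (nat_lit 0) (nat_lit 16286732860) (nat_lit 11) (nat_lit 5) (nat_lit 13) (nat_lit 4) (nat_lit 11) (nat_lit 4) (nat_lit 463) (nat_lit 385) (nat_lit 352))) (XT.nd (nat_lit 78) (nat_lit 76) (nat_lit 0) (XT.lf (nat_lit 0) (nat_lit 33751910037) (nat_lit 152) (nat_lit 7469137612) (nat_lit 0) (nat_lit 31753971631) (nat_lit 11) (nat_lit 5) (nat_lit 13) (nat_lit 4) (nat_lit 11) (nat_lit 4) (nat_lit 464) (nat_lit 385) (nat_lit 351)) (XT.lf (nat_lit 0) (nat_lit 22068493491) (nat_lit 76) (nat_lit 28793744011) (nat_lit 76) (nat_lit 26784143360) (nat_lit 10) (nat_lit 4) (nat_lit 11) (nat_lit 5) (nat_lit 11) (nat_lit 4) (nat_lit 465) (nat_lit 385) (nat_lit 350))))) (XT.nd (nat_lit 312) (nat_lit 76) (nat_lit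 0) (XT.nd (nat_lit 156) (nat_lit 0) (nat_lit 0) (XT.nd (nat_lit 78) (nat_lit 152) (nat_lit 0) (XT.lf (nat_lit 0) (nat_lit 54114729931) (nat_lit 76) (nat_lit 15295795024) (nat_lit 76) (nat_lit 13275395999) (nat_lit 10) (nat_lit 4) (nat_lit 11) (nat_lit 5) (nat_lit 11) (nat_lit 4) (nat_lit 466) (nat_lit 385) (nat_lit 349)) (XT.lf (nat_lit 0) (nat_lit 314932994) (nat_lit 76) (nat_lit 812629752) (nat_lit 152) (nat_lit 87008193858) (nat_lit 8) (nat_lit 5) (nat_lit 9) (nat_lit 5) (nat_lit 10) (nat_lit 4) (nat_lit 467) (nat_lit 385) (nat_lit 348))) (XT.nd (nat_lit 78) (nat_lit 0) (nat_lit 0) (XT.lf (nat_lit 0) (nat_lit 16995410580) (nat_lit 152) (nat_lit 61809353250) (nat_lit 0) (nat_lit 15106840779) (nat_lit 8) (nat_lit 5) (nat_lit 10) (nat_lit 4) (nat_lit 8) (nat_lit 4) (nat_lit 468) (nat_lit 385) (nat_lit 347)) (XT.lf (nat_lit 0) (nat_lit 34035042279) (nat_lit 152) (nat_lit 33983754554) (nat_lit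 0) (nat_lit 32138535351) (nat_lit 8) (nat_lit 5) (nat_lit 10) (nat_lit 4) (nat_lit 8) (nat_lit 4) (nat_lit 469) (nat_lit 385) (nat_lit 346)))) (XT.nd (nat_lit 156) (nat_lit 0) (nat_lit 0) (XT.nd (nat_lit 78) (nat_lit 76) (nat_lit 0) (XT.lf (nat_lit 0) (nat_lit 52327889674) (nat_lit 152) (nat_lit 4159591321) (nat_lit 0) (nat_lit 50424033553) (nat_lit 8) (nat_lit 5) (nat_lit 10) (nat_lit 4) (nat_lit 8) (nat_lit 4) (nat_lit 470) (nat_lit 385) (nat_lit 345)) (XT.lf (nat_lit 0) (nat_lit 29305870565) (nat_lit 76) (nat_lit 43381291149) (nat_lit 76) (nat_lit 41470630221) (nat_lit 7) (nat_lit 4) (nat_lit 8) (nat_lit 5) (nat_lit 8) (nat_lit 4) (nat_lit 471) (nat_lit 385) (nat_lit 344))) (XT.nd (nat_lit 78) (nat_lit 0) (nat_lit 0) (XT.lf (nat_lit 0) (nat_lit 65479828783) (nat_lit 76) (nat_lit 29209871304) (nat_lit 76) (nat_lit 27292909628) (nat_lit 7) (nat_lit 4) (nat_lit 8) (nat_lit 5) (nat_lit 8)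 (nat_lit 4) (nat_lit 472) (nat_lit 385) (nat_lit 343)) (XT.lf (nat_lit 0) (nat_lit 104357610819) (nat_lit 76) (nat_lit 14002973275) (nat_lit 76) (nat_lit 12080177574) (nat_lit 7) (nat_lit 4) (nat_lit 8) (nat_lit 5) (nat_lit 8) (nat_lit 4) (nat_lit 473) (nat_lit 385) (nat_lit 342))))))))
noncomputable def xc59 : XT := (XT.nd (nat_lit 2184) (nat_lit 0) (nat_lit 0) (XT.nd (nat_lit 1092) (nat_lit 76) (nat_lit 0) (XT.nd (nat_lit 546) (nat_lit 152) (nat_lit 0) (XT.nd (nat_lit 234) (nat_lit 76) (nat_lit 0) (XT.nd (nat_lit 78) (nat_lit 0) (nat_lit 0) (XT.lf (nat_lit 0) (nat_lit 4271849225) (nat_lit 152) (nat_lit 132797678245) (nat_lit 0) (nat_lit 2486481099) (nat_lit 5) (nat_lit 5) (nat_lit 7) (nat_lit 4) (nat_lit 5) (nat_lit 4) (nat_lit 474) (nat_lit 385) (nat_lit 341)) (XT.nd (nat_lit 78) (nat_lit 0) (nat_lit 0) (XT.lf (nat_lit 0) (nat_lit 22287570737) (nat_lit 152) (nat_lit 106509577493) (nat_lit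 0) (nat_lit 20497571373) (nat_lit 5) (nat_lit 5) (nat_lit 7) (nat_lit 4) (nat_lit 5) (nat_lit 4) (nat_lit 475) (nat_lit 385) (nat_lit 340)) (XT.lf (nat_lit 0) (nat_lit 41663789918) (nat_lit 152) (nat_lit 78285696151) (nat_lit 0) (nat_lit 39869502371) (nat_lit 5) (nat_lit 5) (nat_lit 7) (nat_lit 4) (nat_lit 5) (nat_lit 4) (nat_lit 476) (nat_lit 385) (nat_lit 339)))) (XT.nd (nat_lit 156) (nat_lit 76) (nat_lit 0) (XT.nd (nat_lit 78) (nat_lit 0) (nat_lit 0) (XT.lf (nat_lit 0) (nat_lit 62515328807) (nat_lit 152) (nat_lit 47958781587) (nat_lit 0) (nat_lit 60717070720) (nat_lit 5) (nat_lit 5) (nat_lit 7) (nat_lit 4) (nat_lit 5) (nat_lit 4) (nat_lit 477) (nat_lit 385) (nat_lit 338)) (XT.lf (nat_lit 0) (nat_lit 84965752080) (nat_lit 152) (nat_lit 15349118754) (nat_lit 0) (nat_lit 83163817567) (nat_lit 5) (nat_lit 5) (nat_lit 7) (nat_lit 4) (nat_lit 5) (nat_lit 4) (nat_lit 478) (nat_lit 385) (nat_lit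 337))) (XT.nd (nat_lit 78) (nat_lit 0) (nat_lit 0) (XT.lf (nat_lit 0) (nat_lit 20775825742) (nat_lit 76) (nat_lit 88871932648) (nat_lit 76) (nat_lit 87066594037) (nat_lit 4) (nat_lit 4) (nat_lit 5) (nat_lit 5) (nat_lit 5) (nat_lit 4) (nat_lit 479) (nat_lit 385) (nat_lit 336)) (XT.lf (nat_lit 0) (nat_lit 60534263049) (nat_lit 76) (nat_lit 76127260641) (nat_lit 76) (nat_lit 74318770088) (nat_lit 4) (nat_lit 4) (nat_lit 5) (nat_lit 5) (nat_lit 5) (nat_lit 4) (nat_lit 480) (nat_lit 385) (nat_lit 335))))) (XT.nd (nat_lit 234) (nat_lit 152) (nat_lit 0) (XT.nd (nat_lit 78) (nat_lit 0) (nat_lit 0) (XT.lf (nat_lit 0) (nat_lit 103353541330) (nat_lit 76) (nat_lit 62425002941) (nat_lit 76) (nat_lit 60613593922) (nat_lit 4) (nat_lit 4) (nat_lit 5) (nat_lit 5) (nat_lit 5) (nat_lit 4) (nat_lit 481) (nat_lit 385) (nat_lit 334)) (XT.nd (nat_lit 78) (nat_lit 0) (nat_lit 0) (XT.lf (nat_lit 0) (nat_lit 149487404455)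 (nat_lit 76) (nat_lit 47683960982) (nat_lit 76) (nat_lit 45869849681) (nat_lit 4) (nat_lit 4) (nat_lit 5) (nat_lit 5) (nat_lit 5) (nat_lit 4) (nat_lit 482) (nat_lit 385) (nat_lit 333)) (XT.lf (nat_lit 0) (nat_lit 199209238279) (nat_lit 76) (nat_lit 31816780442) (nat_lit 76) (nat_lit 30000167027) (nat_lit 4) (nat_lit 4) (nat_lit 5) (nat_lit 5) (nat_lit 5) (nat_lit 4) (nat_lit 483) (nat_lit 385) (nat_lit 332)))) (XT.nd (nat_lit 156) (nat_lit 0) (nat_lit 0) (XT.nd (nat_lit 78) (nat_lit 152) (nat_lit 0) (XT.lf (nat_lit 0) (nat_lit 252813690708) (nat_lit 76) (nat_lit 14729433585) (nat_lit 76) (nat_lit 12910503398) (nat_lit 4) (nat_lit 4) (nat_lit 5) (nat_lit 5) (nat_lit 5) (nat_lit 4) (nat_lit 484) (nat_lit 385) (nat_lit 331)) (XT.lf (nat_lit 0) (nat_lit 5552183601) (nat_lit 152) (nat_lit 291983743532) (nat_lit 0) (nat_lit 3866002725) (nat_lit 2) (nat_lit 5) (nat_lit 4) (nat_lit 4) (nat_lit 2)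 (nat_lit 4) (nat_lit 485) (nat_lit 385) (nat_lit 330))) (XT.nd (nat_lit 78) (nat_lit 0) (nat_lit 0) (XT.lf (nat_lit 0) (nat_lit 25908713411) (nat_lit 152) (nat_lit 273780715979) (nat_lit 0) (nat_lit 24220693407) (nat_lit 2) (nat_lit 5) (nat_lit 4) (nat_lit 4) (nat_lit 2) (nat_lit 4) (nat_lit 486) (nat_lit 385) (nat_lit 329)) (XT.lf (nat_lit 0) (nat_lit 47853389316) (nat_lit 152) (nat_lit 254205145589) (nat_lit 0) (nat_lit 46163666416) (nat_lit 2) (nat_lit 5) (nat_lit 4) (nat_lit 4) (nat_lit 2) (nat_lit 4) (nat_lit 487) (nat_lit 385) (nat_lit 328)))))) (XT.nd (nat_lit 546) (nat_lit 76) (nat_lit 0) (XT.nd (nat_lit 234) (nat_lit 0) (nat_lit 0) (XT.nd (nat_lit 78) (nat_lit 0) (nat_lit 0) (XT.lf (nat_lit 0) (nat_lit 71516253839) (nat_lit 152) (nat_lit 233141028983) (nat_lit 0) (nat_lit 69824954183) (nat_lit 2) (nat_lit 5) (nat_lit 4) (nat_lit 4) (nat_lit 2) (nat_lit 4) (nat_lit 488) (nat_lit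 385) (nat_lit 327)) (XT.nd (nat_lit 78) (nat_lit 0) (nat_lit 0) (XT.lf (nat_lit 0) (nat_lit 97037531363) (nat_lit 152) (nat_lit 210463541767) (nat_lit 0) (nat_lit 95344771747) (nat_lit 2) (nat_lit 5) (nat_lit 4) (nat_lit 4) (nat_lit 2) (nat_lit 4) (nat_lit 489) (nat_lit 385) (nat_lit 326)) (XT.lf (nat_lit 0) (nat_lit 124568459087) (nat_lit 152) (nat_lit 186038298830) (nat_lit 0) (nat_lit 122874347657) (nat_lit 2) (nat_lit 5) (nat_lit 4) (nat_lit 4) (nat_lit 2) (nat_lit 4) (nat_lit 490) (nat_lit 385) (nat_lit 325)))) (XT.nd (nat_lit 156) (nat_lit 0) (nat_lit 0) (XT.nd (nat_lit 78) (nat_lit 0) (nat_lit 0) (XT.lf (nat_lit 0) (nat_lit 154272183249) (nat_lit 152) (nat_lit 159720557993) (nat_lit 0) (nat_lit 152576820139) (nat_lit 2) (nat_lit 5) (nat_lit 4) (nat_lit 4) (nat_lit 2) (nat_lit 4) (nat_lit 491) (nat_lit 385) (nat_lit 324)) (XT.lf (nat_lit 0) (nat_lit 186324725920) (nat_lit 152) (nat_lit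 131354362272) (nat_lit 0) (nat_lit 184628203847) (nat_lit 2) (nat_lit 5) (nat_lit 4) (nat_lit 4) (nat_lit 2) (nat_lit 4) (nat_lit 492) (nat_lit 385) (nat_lit 323))) (XT.nd (nat_lit 78) (nat_lit 0) (nat_lit 0) (XT.lf (nat_lit 0) (nat_lit 220916028092) (nat_lit 152) (nat_lit 100771615693) (nat_lit 0) (nat_lit 219218432906) (nat_lit 2) (nat_lit 5) (nat_lit 4) (nat_lit 4) (nat_lit 2) (nat_lit 4) (nat_lit 493) (nat_lit 385) (nat_lit 322)) (XT.lf (nat_lit 0) (nat_lit 258251075260) (nat_lit 152) (nat_lit 67791087166) (nat_lit 0) (nat_lit 256552486450) (nat_lit 2) (nat_lit 5) (nat_lit 4) (nat_lit 4) (nat_lit 2) (nat_lit 4) (nat_lit 494) (nat_lit 385) (nat_lit 321))))) (XT.nd (nat_lit 234) (nat_lit 0) (nat_lit 0) (XT.nd (nat_lit 78) (nat_lit 76) (nat_lit 0) (XT.lf (nat_lit 0) (nat_lit 298551112148) (nat_lit 152) (nat_lit 32217336521) (nat_lit 0) (nat_lit 296851603316) (nat_lit 2) (nat_lit 5) (nat_lit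 4) (nat_lit 4) (nat_lit 2) (nat_lit 4) (nat_lit 495) (nat_lit 385) (nat_lit 320)) (XT.nd (nat_lit 78) (nat_lit 0) (nat_lit 0) (XT.lf (nat_lit 0) (nat_lit 6484841698) (nat_lit 76) (nat_lit 335726072690) (nat_lit 76) (nat_lit 334025711986) (nat_lit 1) (nat_lit 4) (nat_lit 2) (nat_lit 5) (nat_lit 2) (nat_lit 4) (nat_lit 496) (nat_lit 385) (nat_lit 319)) (XT.lf (nat_lit 0) (nat_lit 50074612140) (nat_lit 76) (nat_lit 340150084212) (nat_lit 76) (nat_lit 338448934737) (nat_lit 1) (nat_lit 4) (nat_lit 2) (nat_lit 5) (nat_lit 2) (nat_lit 4) (nat_lit 497) (nat_lit 385) (nat_lit 318)))) (XT.nd (nat_lit 156) (nat_lit 0) (nat_lit 0) (XT.nd (nat_lit 78) (nat_lit 0) (nat_lit 0) (XT.lf (nat_lit 0) (nat_lit 97113776710) (nat_lit 76) (nat_lit 344947578674) (nat_lit 76) (nat_lit 343245698857) (nat_lit 1) (nat_lit 4) (nat_lit 2) (nat_lit 5) (nat_lit 2) (nat_lit 4) (nat_lit 498) (nat_lit 385) (nat_lit 317))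 (XT.lf (nat_lit 0) (nat_lit 147881086012) (nat_lit 76) (nat_lit 350146985675) (nat_lit 76) (nat_lit 348444429614) (nat_lit 1) (nat_lit 4) (nat_lit 2) (nat_lit 5) (nat_lit 2) (nat_lit 4) (nat_lit 499) (nat_lit 385) (nat_lit 316))) (XT.nd (nat_lit 78) (nat_lit 0) (nat_lit 0) (XT.lf (nat_lit 0) (nat_lit 202677383359) (nat_lit 76) (nat_lit 355779116514) (nat_lit 76) (nat_lit 354075934301) (nat_lit 1) (nat_lit 4) (nat_lit 2) (nat_lit 5) (nat_lit 2) (nat_lit 4) (nat_lit 500) (nat_lit 385) (nat_lit 315)) (XT.lf (nat_lit 0) (nat_lit 261827387551) (nat_lit 76) (nat_lit 361877346782) (nat_lit 76) (nat_lit 360173584799) (nat_lit 1) (nat_lit 4) (nat_lit 2) (nat_lit 5) (nat_lit 2) (nat_lit 4) (nat_lit 501) (nat_lit 385) (nat_lit 314))))))) (XT.nd (nat_lit 1092) (nat_lit 0) (nat_lit 0) (XT.nd (nat_lit 546) (nat_lit 0) (nat_lit 0) (XT.nd (nat_lit 234) (nat_lit 0) (nat_lit 0) (XT.nd (nat_lit 78) (nat_lit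 0) (nat_lit 0) (XT.lf (nat_lit 0) (nat_lit 325681617132) (nat_lit 76) (nat_lit 368477814139) (nat_lit 76) (nat_lit 366773515332) (nat_lit 1) (nat_lit 4) (nat_lit 2) (nat_lit 5) (nat_lit 2) (nat_lit 4) (nat_lit 502) (nat_lit 385) (nat_lit 313)) (XT.nd (nat_lit 78) (nat_lit 0) (nat_lit 0) (XT.lf (nat_lit 0) (nat_lit 394618467536) (nat_lit 76) (nat_lit 375619632466) (nat_lit 76) (nat_lit 373914836600) (nat_lit 1) (nat_lit 4) (nat_lit 2) (nat_lit 5) (nat_lit 2) (nat_lit 4) (nat_lit 503) (nat_lit 385) (nat_lit 312)) (XT.lf (nat_lit 0) (nat_lit 469046453433) (nat_lit 76) (nat_lit 383345123649) (nat_lit 76) (nat_lit 381639867543) (nat_lit 1) (nat_lit 4) (nat_lit 2) (nat_lit 5) (nat_lit 2) (nat_lit 4) (nat_lit 504) (nat_lit 385) (nat_lit 311)))) (XT.nd (nat_lit 156) (nat_lit 0) (nat_lit 0) (XT.nd (nat_lit 78) (nat_lit 0) (nat_lit 0) (XT.lf (nat_lit 0) (nat_lit 549406629552) (nat_lit 76) (nat_lit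 391700068378) (nat_lit 76) (nat_lit 389994386124) (nat_lit 1) (nat_lit 4) (nat_lit 2) (nat_lit 5) (nat_lit 2) (nat_lit 4) (nat_lit 505) (nat_lit 385) (nat_lit 310)) (XT.lf (nat_lit 0) (nat_lit 636175204346) (nat_lit 76) (nat_lit 400733977435) (nat_lit 76) (nat_lit 399027900599) (nat_lit 1) (nat_lit 4) (nat_lit 2) (nat_lit 5) (nat_lit 2) (nat_lit 4) (nat_lit 506) (nat_lit 385) (nat_lit 309))) (XT.nd (nat_lit 78) (nat_lit 0) (nat_lit 0) (XT.lf (nat_lit 0) (nat_lit 729866361961) (nat_lit 76) (nat_lit 410500385096) (nat_lit 76) (nat_lit 408793942907) (nat_lit 1) (nat_lit 4) (nat_lit 2) (nat_lit 5) (nat_lit 2) (nat_lit 4) (nat_lit 507) (nat_lit 385) (nat_lit 308)) (XT.lf (nat_lit 0) (nat_lit 831035309258) (nat_lit 76) (nat_lit 421057166371) (nat_lit 76) (nat_lit 419350385891) (nat_lit 1) (nat_lit 4) (nat_lit 2) (nat_lit 5) (nat_lit 2) (nat_lit 4) (nat_lit 508) (nat_lit 385) (nat_lit 307)))))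 (XT.nd (nat_lit 234) (nat_lit 0) (nat_lit 0) (XT.nd (nat_lit 78) (nat_lit 0) (nat_lit 0) (XT.lf (nat_lit 0) (nat_lit 940281565923) (nat_lit 76) (nat_lit 432466879961) (nat_lit 76) (nat_lit 430759786250) (nat_lit 1) (nat_lit 4) (nat_lit 2) (nat_lit 5) (nat_lit 2) (nat_lit 4) (nat_lit 509) (nat_lit 385) (nat_lit 306)) (XT.nd (nat_lit 78) (nat_lit 0) (nat_lit 0) (XT.lf (nat_lit 0) (nat_lit 1058252517182) (nat_lit 76) (nat_lit 444797138986) (nat_lit 76) (nat_lit 443089755246) (nat_lit 1) (nat_lit 4) (nat_lit 2) (nat_lit 5) (nat_lit 2) (nat_lit 4) (nat_lit 510) (nat_lit 385) (nat_lit 305)) (XT.lf (nat_lit 0) (nat_lit 1185647250154) (nat_lit 76) (nat_lit 458121011647) (nat_lit 76) (nat_lit 456413359361) (nat_lit 1) (nat_lit 4) (nat_lit 2) (nat_lit 5) (nat_lit 2) (nat_lit 4) (nat_lit 511) (nat_lit 385) (nat_lit 304)))) (XT.nd (nat_lit 156) (nat_lit 0) (nat_lit 0) (XT.nd (nat_lit 78) (nat_lit 0)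 (nat_lit 0) (XT.lf (nat_lit 0) (nat_lit 1323220696588) (nat_lit 76) (nat_lit 472517454226) (nat_lit 76) (nat_lit 470809553287) (nat_lit 1) (nat_lit 4) (nat_lit 2) (nat_lit 5) (nat_lit 2) (nat_lit 4) (nat_lit 512) (nat_lit 385) (nat_lit 303)) (XT.lf (nat_lit 0) (nat_lit 1471788106539) (nat_lit 76) (nat_lit 488071778976) (nat_lit 76) (nat_lit 486363647802) (nat_lit 1) (nat_lit 4) (nat_lit 2) (nat_lit 5) (nat_lit 2) (nat_lit 4) (nat_lit 513) (nat_lit 385) (nat_lit 302))) (XT.nd (nat_lit 78) (nat_lit 0) (nat_lit 0) (XT.lf (nat_lit 0) (nat_lit 1632229879472) (nat_lit 76) (nat_lit 504876159673) (nat_lit 76) (nat_lit 503167815319) (nat_lit 1) (nat_lit 4) (nat_lit 2) (nat_lit 5) (nat_lit 2) (nat_lit 4) (nat_lit 514) (nat_lit 385) (nat_lit 301)) (XT.lf (nat_lit 0) (nat_lit 1805496781450) (nat_lit 76) (nat_lit 523030177831) (nat_lit 76) (nat_lit 521321636088) (nat_lit 1) (nat_lit 4) (nat_lit 2) (nat_lit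 5) (nat_lit 2) (nat_lit 4) (nat_lit 515) (nat_lit 385) (nat_lit 300)))))) (XT.nd (nat_lit 546) (nat_lit 0) (nat_lit 0) (XT.nd (nat_lit 234) (nat_lit 0) (nat_lit 0) (XT.nd (nat_lit 78) (nat_lit 0) (nat_lit 0) (XT.lf (nat_lit 0) (nat_lit 1992615579298) (nat_lit 76) (nat_lit 542641412819) (nat_lit 76) (nat_lit 540932688308) (nat_lit 1) (nat_lit 4) (nat_lit 2) (nat_lit 5) (nat_lit 2) (nat_lit 4) (nat_lit 516) (nat_lit 385) (nat_lit 299)) (XT.nd (nat_lit 78) (nat_lit 0) (nat_lit 0) (XT.lf (nat_lit 0) (nat_lit 2194695125153) (nat_lit 76) (nat_lit 563826079362) (nat_lit 76) (nat_lit 562117185622) (nat_lit 1) (nat_lit 4) (nat_lit 2) (nat_lit 5) (nat_lit 2) (nat_lit 4) (nat_lit 517) (nat_lit 385) (nat_lit 298)) (XT.lf (nat_lit 0) (nat_lit 2412932927433) (nat_lit 76) (nat_lit 586709716224) (nat_lit 76) (nat_lit 585000665790) (nat_lit 1) (nat_lit 4) (nat_lit 2) (nat_lit 5) (nat_lit 2) (nat_lit 4) (nat_lit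 518) (nat_lit 385) (nat_lit 297)))) (XT.nd (nat_lit 156) (nat_lit 0) (nat_lit 0) (XT.nd (nat_lit 78) (nat_lit 0) (nat_lit 0) (XT.lf (nat_lit 0) (nat_lit 2648622247191) (nat_lit 76) (nat_lit 611427930142) (nat_lit 76) (nat_lit 609718734622) (nat_lit 1) (nat_lit 4) (nat_lit 2) (nat_lit 5) (nat_lit 2) (nat_lit 4) (nat_lit 519) (nat_lit 385) (nat_lit 296)) (XT.lf (nat_lit 0) (nat_lit 2903159761875) (nat_lit 76) (nat_lit 638127199422) (nat_lit 76) (nat_lit 636417869562) (nat_lit 1) (nat_lit 4) (nat_lit 2) (nat_lit 5) (nat_lit 2) (nat_lit 4) (nat_lit 520) (nat_lit 385) (nat_lit 295))) (XT.nd (nat_lit 78) (nat_lit 0) (nat_lit 0) (XT.lf (nat_lit 0) (nat_lit 3178053841944) (nat_lit 76) (nat_lit 666965741955) (nat_lit 76) (nat_lit 665256287706) (nat_lit 1) (nat_lit 4) (nat_lit 2) (nat_lit 5) (nat_lit 2) (nat_lit 4) (nat_lit 521) (nat_lit 385) (nat_lit 294)) (XT.lf (nat_lit 0) (nat_lit 3474933489354)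 (nat_lit 76) (nat_lit 698114452808) (nat_lit 76) (nat_lit 696404883385) (nat_lit 1) (nat_lit 4) (nat_lit 2) (nat_lit 5) (nat_lit 2) (nat_lit 4) (nat_lit 522) (nat_lit 385) (nat_lit 293))))) (XT.nd (nat_lit 312) (nat_lit 0) (nat_lit 0) (XT.nd (nat_lit 156) (nat_lit 0) (nat_lit 0) (XT.nd (nat_lit 78) (nat_lit 0) (nat_lit 0) (XT.lf (nat_lit 0) (nat_lit 3795557990903) (nat_lit 76) (nat_lit 731757916935) (nat_lit 76) (nat_lit 730048240868) (nat_lit 1) (nat_lit 4) (nat_lit 2) (nat_lit 5) (nat_lit 2) (nat_lit 4) (nat_lit 523) (nat_lit 385) (nat_lit 292)) (XT.lf (nat_lit 0) (nat_lit 4141827343638) (nat_lit 76) (nat_lit 768095503011) (nat_lit 76) (nat_lit 766385728200) (nat_lit 1) (nat_lit 4) (nat_lit 2) (nat_lit 5) (nat_lit 2) (nat_lit 4) (nat_lit 524) (nat_lit 385) (nat_lit 291))) (XT.nd (nat_lit 78) (nat_lit 0) (nat_lit 0) (XT.lf (nat_lit 0) (nat_lit 4515793514095) (nat_lit 76) (nat_lit 807342544880)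 (nat_lit 76) (nat_lit 805632678640) (nat_lit 1) (nat_lit 4) (nat_lit 2) (nat_lit 5) (nat_lit 2) (nat_lit 4) (nat_lit 525) (nat_lit 385) (nat_lit 290)) (XT.lf (nat_lit 0) (nat_lit 4919672598097) (nat_lit 76) (nat_lit 849731617605) (nat_lit 76) (nat_lit 848021666708) (nat_lit 1) (nat_lit 4) (nat_lit 2) (nat_lit 5) (nat_lit 2) (nat_lit 4) (nat_lit 526) (nat_lit 385) (nat_lit 289)))) (XT.nd (nat_lit 156) (nat_lit 0) (nat_lit 0) (XT.nd (nat_lit 78) (nat_lit 0) (nat_lit 0) (XT.lf (nat_lit 0) (nat_lit 5355857953179) (nat_lit 76) (nat_lit 895513915690) (nat_lit 76) (nat_lit 893803886408) (nat_lit 1) (nat_lit 4) (nat_lit 2) (nat_lit 5) (nat_lit 2) (nat_lit 4) (nat_lit 527) (nat_lit 385) (nat_lit 288)) (XT.lf (nat_lit 0) (nat_lit 5826934381447) (nat_lit 76) (nat_lit 944960741644) (nat_lit 76) (nat_lit 943250639782) (nat_lit 1) (nat_lit 4) (nat_lit 2) (nat_lit 5) (nat_lit 2) (nat_lit 4) (nat_lit 528)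 (nat_lit 385) (nat_lit 287))) (XT.nd (nat_lit 78) (nat_lit 0) (nat_lit 0) (XT.lf (nat_lit 0) (nat_lit 6335693446919) (nat_lit 76) (nat_lit 998365113695) (nat_lit 76) (nat_lit 996654944629) (nat_lit 1) (nat_lit 4) (nat_lit 2) (nat_lit 5) (nat_lit 2) (nat_lit 4) (nat_lit 529) (nat_lit 385) (nat_lit 286)) (XT.lf (nat_lit 0) (nat_lit 6885150018131) (nat_lit 76) (nat_lit 1056043502194) (nat_lit 76) (nat_lit 1054333270903) (nat_lit 1) (nat_lit 4) (nat_lit 2) (nat_lit 5) (nat_lit 2) (nat_lit 4) (nat_lit 530) (nat_lit 385) (nat_lit 285))))))))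
noncomputable def xc60 : XT := (XT.nd (nat_lit 55458) (nat_lit 0) (nat_lit 532) (XT.nd (nat_lit 1092) (nat_lit 0) (nat_lit 0) (XT.nd (nat_lit 546) (nat_lit 0) (nat_lit 0) (XT.nd (nat_lit 234) (nat_lit 0) (nat_lit 0) (XT.nd (nat_lit 78) (nat_lit 0) (nat_lit 0) (XT.lf (nat_lit 0) (nat_lit 7478560134023) (nat_lit 76) (nat_lit 1118337704999) (nat_lit 76) (nat_lit 1116627416093) (nat_lit 1) (nat_lit 4) (nat_lit 2) (nat_lit 5) (nat_lit 2) (nat_lit 4) (nat_lit 531) (nat_lit 385) (nat_lit 284)) (XT.nd (nat_lit 78) (nat_lit 0) (nat_lit 0) (XT.lf (nat_lit 0) (nat_lit 8119440298988) (nat_lit 76) (nat_lit 1185616872943) (nat_lit 76) (nat_lit 1183906530688) (nat_lit 1) (nat_lit 4) (nat_lit 2) (nat_lit 5) (nat_lit 2) (nat_lit 4) (nat_lit 532) (nat_lit 385) (nat_lit 283)) (XT.lf (nat_lit 0) (nat_lit 8811588321408) (nat_lit 76) (nat_lit 1258279697391) (nat_lit 76) (nat_lit 1256569305739) (nat_lit 1) (nat_lit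 4) (nat_lit 2) (nat_lit 5) (nat_lit 2) (nat_lit 4) (nat_lit 533) (nat_lit 385) (nat_lit 282)))) (XT.nd (nat_lit 156) (nat_lit 0) (nat_lit 0) (XT.nd (nat_lit 78) (nat_lit 0) (nat_lit 0) (XT.lf (nat_lit 0) (nat_lit 9559105819195) (nat_lit 76) (nat_lit 1336756772857) (nat_lit 76) (nat_lit 1335046335468) (nat_lit 1) (nat_lit 4) (nat_lit 2) (nat_lit 5) (nat_lit 2) (nat_lit 4) (nat_lit 534) (nat_lit 385) (nat_lit 281)) (XT.lf (nat_lit 0) (nat_lit 10366422525669) (nat_lit 76) (nat_lit 1421513148679) (nat_lit 76) (nat_lit 1419802668941) (nat_lit 1) (nat_lit 4) (nat_lit 2) (nat_lit 5) (nat_lit 2) (nat_lit 4) (nat_lit 535) (nat_lit 385) (nat_lit 280))) (XT.nd (nat_lit 78) (nat_lit 0) (nat_lit 0) (XT.lf (nat_lit 0) (nat_lit 11238322539832) (nat_lit 76) (nat_lit 1513051084860) (nat_lit 76) (nat_lit 1511340565910) (nat_lit 1) (nat_lit 4) (nat_lit 2) (nat_lit 5) (nat_lit 2) (nat_lit 4) (nat_lit 536) (nat_lit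 385) (nat_lit 279)) (XT.lf (nat_lit 0) (nat_lit 12179972676582) (nat_lit 76) (nat_lit 1611913028431) (nat_lit 76) (nat_lit 1610202473172) (nat_lit 1) (nat_lit 4) (nat_lit 2) (nat_lit 5) (nat_lit 2) (nat_lit 4) (nat_lit 537) (nat_lit 385) (nat_lit 278))))) (XT.nd (nat_lit 234) (nat_lit 0) (nat_lit 0) (XT.nd (nat_lit 78) (nat_lit 0) (nat_lit 0) (XT.lf (nat_lit 0) (nat_lit 13196953084878) (nat_lit 76) (nat_lit 1718684827945) (nat_lit 76) (nat_lit 1716974239068) (nat_lit 1) (nat_lit 4) (nat_lit 2) (nat_lit 5) (nat_lit 2) (nat_lit 4) (nat_lit 538) (nat_lit 385) (nat_lit 277)) (XT.nd (nat_lit 78) (nat_lit 0) (nat_lit 0) (XT.lf (nat_lit 0) (nat_lit 14295290315287) (nat_lit 76) (nat_lit 1833999205178) (nat_lit 76) (nat_lit 1832288585173) (nat_lit 1) (nat_lit 4) (nat_lit 2) (nat_lit 5) (nat_lit 2) (nat_lit 4) (nat_lit 539) (nat_lit 385) (nat_lit 276)) (XT.lf (nat_lit 0) (nat_lit 15481493032879) (nat_lit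 76) (nat_lit 1958539504587) (nat_lit 76) (nat_lit 1956828855760) (nat_lit 1) (nat_lit 4) (nat_lit 2) (nat_lit 5) (nat_lit 2) (nat_lit 4) (nat_lit 540) (nat_lit 385) (nat_lit 275)))) (XT.nd (nat_lit 156) (nat_lit 0) (nat_lit 0) (XT.nd (nat_lit 78) (nat_lit 0) (nat_lit 0) (XT.lf (nat_lit 0) (nat_lit 16762590587090) (nat_lit 76) (nat_lit 2093043742761) (nat_lit 76) (nat_lit 2091333067247) (nat_lit 1) (nat_lit 4) (nat_lit 2) (nat_lit 5) (nat_lit 2) (nat_lit 4) (nat_lit 541) (nat_lit 385) (nat_lit 274)) (XT.lf (nat_lit 0) (nat_lit 18146174667132) (nat_lit 76) (nat_lit 2238308981853) (nat_lit 76) (nat_lit 2236598281628) (nat_lit 1) (nat_lit 4) (nat_lit 2) (nat_lit 5) (nat_lit 2) (nat_lit 4) (nat_lit 542) (nat_lit 385) (nat_lit 273))) (XT.nd (nat_lit 78) (nat_lit 0) (nat_lit 0) (XT.lf (nat_lit 0) (nat_lit 19640444289775) (nat_lit 76) (nat_lit 2395196052909) (nat_lit 76) (nat_lit 2393485329804)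 (nat_lit 1) (nat_lit 4) (nat_lit 2) (nat_lit 5) (nat_lit 2) (nat_lit 4) (nat_lit 543) (nat_lit 385) (nat_lit 272)) (XT.lf (nat_lit 0) (nat_lit 21254254386115) (nat_lit 76) (nat_lit 2564634657091) (nat_lit 76) (nat_lit 2562923912800) (nat_lit 1) (nat_lit 4) (nat_lit 2) (nat_lit 5) (nat_lit 2) (nat_lit 4) (nat_lit 544) (nat_lit 385) (nat_lit 271)))))) (XT.nd (nat_lit 53820) (nat_lit 0) (nat_lit 2356) (XT.nd (nat_lit 53508) (nat_lit 0) (nat_lit 3040) (XT.nd (nat_lit 53352) (nat_lit 0) (nat_lit 3420) (XT.lf (nat_lit 0) (nat_lit 22997168275243) (nat_lit 76) (nat_lit 2747628875015) (nat_lit 76) (nat_lit 2745918111109) (nat_lit 1) (nat_lit 4) (nat_lit 2) (nat_lit 5) (nat_lit 2) (nat_lit 4) (nat_lit 545) (nat_lit 385) (nat_lit 270)) (XT.nd (nat_lit 78) (nat_lit 76) (nat_lit 0) (XT.lf (nat_lit 0) (nat_lit 356647366) (nat_lit 152) (nat_lit 5446923858) (nat_lit 0) (nat_lit 356647366) (nat_lit 47) (nat_lit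 5) (nat_lit 49) (nat_lit 4) (nat_lit 47) (nat_lit 4) (nat_lit 428) (nat_lit 386) (nat_lit 386)) (XT.lf (nat_lit 0) (nat_lit 524509929) (nat_lit 76) (nat_lit 6345049558) (nat_lit 76) (nat_lit 5910840739) (nat_lit 46) (nat_lit 4) (nat_lit 47) (nat_lit 5) (nat_lit 47) (nat_lit 4) (nat_lit 429) (nat_lit 386) (nat_lit 385)))) (XT.nd (nat_lit 156) (nat_lit 228) (nat_lit 0) (XT.nd (nat_lit 78) (nat_lit 76) (nat_lit 0) (XT.lf (nat_lit 0) (nat_lit 191219187) (nat_lit 152) (nat_lit 438518112) (nat_lit 76) (nat_lit 12649999501) (nat_lit 45) (nat_lit 5) (nat_lit 47) (nat_lit 5) (nat_lit 46) (nat_lit 4) (nat_lit 430) (nat_lit 386) (nat_lit 384)) (XT.lf (nat_lit 0) (nat_lit 6575142891) (nat_lit 152) (nat_lit 1766416662) (nat_lit 0) (nat_lit 5456144651) (nat_lit 44) (nat_lit 5) (nat_lit 46) (nat_lit 4) (nat_lit 44) (nat_lit 4) (nat_lit 431) (nat_lit 386) (nat_lit 383))) (XT.nd (nat_lit 78) (nat_lit 152)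 (nat_lit 0) (XT.lf (nat_lit 0) (nat_lit 11103814932) (nat_lit 76) (nat_lit 2346506982) (nat_lit 76) (nat_lit 908352297) (nat_lit 43) (nat_lit 4) (nat_lit 44) (nat_lit 5) (nat_lit 44) (nat_lit 4) (nat_lit 432) (nat_lit 386) (nat_lit 382)) (XT.lf (nat_lit 0) (nat_lit 5692310401) (nat_lit 152) (nat_lit 5167624775) (nat_lit 0) (nat_lit 4087060483) (nat_lit 41) (nat_lit 5) (nat_lit 43) (nat_lit 4) (nat_lit 41) (nat_lit 4) (nat_lit 433) (nat_lit 386) (nat_lit 381))))) (XT.nd (nat_lit 234) (nat_lit 380) (nat_lit 0) (XT.nd (nat_lit 78) (nat_lit 228) (nat_lit 0) (XT.lf (nat_lit 0) (nat_lit 8182648206) (nat_lit 76) (nat_lit 4626733054) (nat_lit 76) (nat_lit 2768126461) (nat_lit 40) (nat_lit 4) (nat_lit 41) (nat_lit 5) (nat_lit 41) (nat_lit 4) (nat_lit 434) (nat_lit 386) (nat_lit 380)) (XT.nd (nat_lit 78) (nat_lit 76) (nat_lit 0) (XT.lf (nat_lit 0) (nat_lit 4063809617) (nat_lit 152) (nat_lit 10057765390)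 (nat_lit 0) (nat_lit 2125665072) (nat_lit 38) (nat_lit 5) (nat_lit 40) (nat_lit 4) (nat_lit 38) (nat_lit 4) (nat_lit 435) (nat_lit 386) (nat_lit 379)) (XT.lf (nat_lit 0) (nat_lit 3705948694) (nat_lit 76) (nat_lit 7694743791) (nat_lit 76) (nat_lit 5555476549) (nat_lit 37) (nat_lit 4) (nat_lit 38) (nat_lit 5) (nat_lit 38) (nat_lit 4) (nat_lit 436) (nat_lit 386) (nat_lit 378)))) (XT.nd (nat_lit 156) (nat_lit 228) (nat_lit 0) (XT.nd (nat_lit 78) (nat_lit 0) (nat_lit 0) (XT.lf (nat_lit 0) (nat_lit 829073477) (nat_lit 76) (nat_lit 687544522) (nat_lit 152) (nat_lit 16202589005) (nat_lit 35) (nat_lit 5) (nat_lit 36) (nat_lit 5) (nat_lit 37) (nat_lit 4) (nat_lit 437) (nat_lit 386) (nat_lit 377)) (XT.lf (nat_lit 0) (nat_lit 9084938999) (nat_lit 152) (nat_lit 2656313493) (nat_lit 0) (nat_lit 6772048020) (nat_lit 35) (nat_lit 5) (nat_lit 37) (nat_lit 4) (nat_lit 35) (nat_lit 4) (nat_lit 438) (nat_lit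 386) (nat_lit 376))) (XT.nd (nat_lit 78) (nat_lit 152) (nat_lit 0) (XT.lf (nat_lit 0) (nat_lit 12771404340) (nat_lit 76) (nat_lit 4528475472) (nat_lit 76) (nat_lit 2067753306) (nat_lit 34) (nat_lit 4) (nat_lit 35) (nat_lit 5) (nat_lit 35) (nat_lit 4) (nat_lit 439) (nat_lit 386) (nat_lit 375)) (XT.lf (nat_lit 0) (nat_lit 5679078209) (nat_lit 152) (nat_lit 11318702654) (nat_lit 0) (nat_lit 3273890343) (nat_lit 32) (nat_lit 5) (nat_lit 34) (nat_lit 4) (nat_lit 32) (nat_lit 4) (nat_lit 440) (nat_lit 386) (nat_lit 374))))))) (XT.nd (nat_lit 1092) (nat_lit 836) (nat_lit 0) (XT.nd (nat_lit 546) (nat_lit 456) (nat_lit 0) (XT.nd (nat_lit 234) (nat_lit 304) (nat_lit 0) (XT.nd (nat_lit 78) (nat_lit 152) (nat_lit 0) (XT.lf (nat_lit 0) (nat_lit 4362358569) (nat_lit 76) (nat_lit 9696946215) (nat_lit 76) (nat_lit 7174405186) (nat_lit 31) (nat_lit 4) (nat_lit 32) (nat_lit 5) (nat_lit 32) (nat_lit 4) (nat_lit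 441) (nat_lit 386) (nat_lit 373)) (XT.nd (nat_lit 78) (nat_lit 76) (nat_lit 0) (XT.lf (nat_lit 0) (nat_lit 831120386) (nat_lit 152) (nat_lit 902470959) (nat_lit 76) (nat_lit 20534651150) (nat_lit 30) (nat_lit 5) (nat_lit 32) (nat_lit 5) (nat_lit 31) (nat_lit 4) (nat_lit 442) (nat_lit 386) (nat_lit 372)) (XT.lf (nat_lit 0) (nat_lit 9398239237) (nat_lit 152) (nat_lit 7078909627) (nat_lit 0) (nat_lit 6868782954) (nat_lit 29) (nat_lit 5) (nat_lit 31) (nat_lit 4) (nat_lit 29) (nat_lit 4) (nat_lit 443) (nat_lit 386) (nat_lit 371)))) (XT.nd (nat_lit 156) (nat_lit 76) (nat_lit 0) (XT.nd (nat_lit 78) (nat_lit 152) (nat_lit 0) (XT.lf (nat_lit 0) (nat_lit 10296268974) (nat_lit 76) (nat_lit 8412327243) (nat_lit 76) (nat_lit 5796612883) (nat_lit 28) (nat_lit 4) (nat_lit 29) (nat_lit 5) (nat_lit 29) (nat_lit 4) (nat_lit 444) (nat_lit 386) (nat_lit 370)) (XT.lf (nat_lit 0) (nat_lit 2883726039) (nat_lit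 152) (nat_lit 22477698161) (nat_lit 0) (nat_lit 387815900) (nat_lit 26) (nat_lit 5) (nat_lit 28) (nat_lit 4) (nat_lit 26) (nat_lit 4) (nat_lit 445) (nat_lit 386) (nat_lit 369))) (XT.nd (nat_lit 78) (nat_lit 76) (nat_lit 0) (XT.lf (nat_lit 0) (nat_lit 12303272264) (nat_lit 152) (nat_lit 5009954727) (nat_lit 0) (nat_lit 9738887681) (nat_lit 26) (nat_lit 5) (nat_lit 28) (nat_lit 4) (nat_lit 26) (nat_lit 4) (nat_lit 446) (nat_lit 386) (nat_lit 368)) (XT.lf (nat_lit 0) (nat_lit 14070532153) (nat_lit 76) (nat_lit 8504299806) (nat_lit 76) (nat_lit 5876512961) (nat_lit 25) (nat_lit 4) (nat_lit 26) (nat_lit 5) (nat_lit 26) (nat_lit 4) (nat_lit 447) (nat_lit 386) (nat_lit 367))))) (XT.nd (nat_lit 234) (nat_lit 228) (nat_lit 0) (XT.nd (nat_lit 78) (nat_lit 76) (nat_lit 0) (XT.lf (nat_lit 0) (nat_lit 3560374896) (nat_lit 152) (nat_lit 25318917542) (nat_lit 0) (nat_lit 1072881709) (nat_lit 23) (nat_lit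 5) (nat_lit 25) (nat_lit 4) (nat_lit 23) (nat_lit 4) (nat_lit 448) (nat_lit 386) (nat_lit 366)) (XT.nd (nat_lit 78) (nat_lit 76) (nat_lit 0) (XT.lf (nat_lit 0) (nat_lit 13819787971) (nat_lit 152) (nat_lit 6428303444) (nat_lit 0) (nat_lit 11281964024) (nat_lit 23) (nat_lit 5) (nat_lit 25) (nat_lit 4) (nat_lit 23) (nat_lit 4) (nat_lit 449) (nat_lit 386) (nat_lit 365)) (XT.lf (nat_lit 0) (nat_lit 14232518688) (nat_lit 76) (nat_lit 10788207272) (nat_lit 76) (nat_lit 8203780769) (nat_lit 22) (nat_lit 4) (nat_lit 23) (nat_lit 5) (nat_lit 23) (nat_lit 4) (nat_lit 450) (nat_lit 386) (nat_lit 364)))) (XT.nd (nat_lit 156) (nat_lit 76) (nat_lit 0) (XT.nd (nat_lit 78) (nat_lit 0) (nat_lit 0) (XT.lf (nat_lit 0) (nat_lit 1435777324) (nat_lit 76) (nat_lit 517758416) (nat_lit 152) (nat_lit 33097528061) (nat_lit 20) (nat_lit 5) (nat_lit 21) (nat_lit 5) (nat_lit 22) (nat_lit 4) (nat_lit 451) (nat_lit 386)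 (nat_lit 363)) (XT.lf (nat_lit 0) (nat_lit 13046292796) (nat_lit 152) (nat_lit 13338764514) (nat_lit 0) (nat_lit 10576356503) (nat_lit 20) (nat_lit 5) (nat_lit 22) (nat_lit 4) (nat_lit 20) (nat_lit 4) (nat_lit 452) (nat_lit 386) (nat_lit 362))) (XT.nd (nat_lit 78) (nat_lit 0) (nat_lit 0) (XT.lf (nat_lit 0) (nat_lit 8554422146) (nat_lit 76) (nat_lit 16486598566) (nat_lit 76) (nat_lit 13982408003) (nat_lit 19) (nat_lit 4) (nat_lit 20) (nat_lit 5) (nat_lit 20) (nat_lit 4) (nat_lit 453) (nat_lit 386) (nat_lit 361)) (XT.lf (nat_lit 0) (nat_lit 32548346747) (nat_lit 76) (nat_lit 5612367692) (nat_lit 76) (nat_lit 3076460213) (nat_lit 19) (nat_lit 4) (nat_lit 20) (nat_lit 5) (nat_lit 20) (nat_lit 4) (nat_lit 454) (nat_lit 386) (nat_lit 360)))))) (XT.nd (nat_lit 546) (nat_lit 380) (nat_lit 0) (XT.nd (nat_lit 234) (nat_lit 228) (nat_lit 0) (XT.nd (nat_lit 78) (nat_lit 76) (nat_lit 0) (XT.lf (nat_lit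 0) (nat_lit 8595167203) (nat_lit 152) (nat_lit 28769917713) (nat_lit 0) (nat_lit 6219912579) (nat_lit 17) (nat_lit 5) (nat_lit 19) (nat_lit 4) (nat_lit 17) (nat_lit 4) (nat_lit 455) (nat_lit 386) (nat_lit 359)) (XT.nd (nat_lit 78) (nat_lit 76) (nat_lit 0) (XT.lf (nat_lit 0) (nat_lit 21234708794) (nat_lit 152) (nat_lit 6029237721) (nat_lit 0) (nat_lit 18834276259) (nat_lit 17) (nat_lit 5) (nat_lit 19) (nat_lit 4) (nat_lit 17) (nat_lit 4) (nat_lit 456) (nat_lit 386) (nat_lit 358)) (XT.lf (nat_lit 0) (nat_lit 19127159095) (nat_lit 76) (nat_lit 16043150666) (nat_lit 76) (nat_lit 13619405251) (nat_lit 16) (nat_lit 4) (nat_lit 17) (nat_lit 5) (nat_lit 17) (nat_lit 4) (nat_lit 457) (nat_lit 386) (nat_lit 357)))) (XT.nd (nat_lit 156) (nat_lit 76) (nat_lit 0) (XT.nd (nat_lit 78) (nat_lit 152) (nat_lit 0) (XT.lf (nat_lit 0) (nat_lit 46287723135) (nat_lit 76) (nat_lit 3927297280) (nat_lit 76) (nat_lit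 1481965864) (nat_lit 16) (nat_lit 4) (nat_lit 17) (nat_lit 5) (nat_lit 17) (nat_lit 4) (nat_lit 458) (nat_lit 386) (nat_lit 356)) (XT.lf (nat_lit 0) (nat_lit 11630109806) (nat_lit 152) (nat_lit 33790133517) (nat_lit 0) (nat_lit 9347407535) (nat_lit 14) (nat_lit 5) (nat_lit 16) (nat_lit 4) (nat_lit 14) (nat_lit 4) (nat_lit 459) (nat_lit 386) (nat_lit 355))) (XT.nd (nat_lit 78) (nat_lit 76) (nat_lit 0) (XT.lf (nat_lit 0) (nat_lit 25802933601) (nat_lit 152) (nat_lit 8767512645) (nat_lit 0) (nat_lit 23503095667) (nat_lit 14) (nat_lit 5) (nat_lit 16) (nat_lit 4) (nat_lit 14) (nat_lit 4) (nat_lit 460) (nat_lit 386) (nat_lit 354)) (XT.lf (nat_lit 0) (nat_lit 18892844168) (nat_lit 76) (nat_lit 22521203811) (nat_lit 76) (nat_lit 20205499523) (nat_lit 13) (nat_lit 4) (nat_lit 14) (nat_lit 5) (nat_lit 14) (nat_lit 4) (nat_lit 461) (nat_lit 386) (nat_lit 353))))) (XT.nd (nat_lit 312) (nat_lit 228) (nat_lit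 0) (XT.nd (nat_lit 156) (nat_lit 0) (nat_lit 0) (XT.nd (nat_lit 78) (nat_lit 152) (nat_lit 0) (XT.lf (nat_lit 0) (nat_lit 48963302527) (nat_lit 76) (nat_lit 9404416673) (nat_lit 76) (nat_lit 7074021316) (nat_lit 13) (nat_lit 4) (nat_lit 14) (nat_lit 5) (nat_lit 14) (nat_lit 4) (nat_lit 462) (nat_lit 386) (nat_lit 352)) (XT.lf (nat_lit 0) (nat_lit 7025496032) (nat_lit 152) (nat_lit 57653562942) (nat_lit 0) (nat_lit 4855127329) (nat_lit 11) (nat_lit 5) (nat_lit 13) (nat_lit 4) (nat_lit 11) (nat_lit 4) (nat_lit 463) (nat_lit 386) (nat_lit 351))) (XT.nd (nat_lit 78) (nat_lit 0) (nat_lit 0) (XT.lf (nat_lit 0) (nat_lit 22438675676) (nat_lit 152) (nat_lit 31198577848) (nat_lit 0) (nat_lit 20256644729) (nat_lit 11) (nat_lit 5) (nat_lit 13) (nat_lit 4) (nat_lit 11) (nat_lit 4) (nat_lit 464) (nat_lit 386) (nat_lit 350)) (XT.lf (nat_lit 0) (nat_lit 38956538350) (nat_lit 152) (nat_lit 2892409778) (nat_lit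 0) (nat_lit 36763709029) (nat_lit 11) (nat_lit 5) (nat_lit 13) (nat_lit 4) (nat_lit 11) (nat_lit 4) (nat_lit 465) (nat_lit 386) (nat_lit 349)))) (XT.nd (nat_lit 156) (nat_lit 152) (nat_lit 0) (XT.nd (nat_lit 78) (nat_lit 0) (nat_lit 0) (XT.lf (nat_lit 0) (nat_lit 28877237918) (nat_lit 76) (nat_lit 28494228032) (nat_lit 76) (nat_lit 26291400216) (nat_lit 10) (nat_lit 4) (nat_lit 11) (nat_lit 5) (nat_lit 11) (nat_lit 4) (nat_lit 466) (nat_lit 386) (nat_lit 348)) (XT.lf (nat_lit 0) (nat_lit 63113598092) (nat_lit 76) (nat_lit 14109259089) (nat_lit 76) (nat_lit 11897173408) (nat_lit 10) (nat_lit 4) (nat_lit 11) (nat_lit 5) (nat_lit 11) (nat_lit 4) (nat_lit 467) (nat_lit 386) (nat_lit 347))) (XT.nd (nat_lit 78) (nat_lit 0) (nat_lit 0) (XT.lf (nat_lit 0) (nat_lit 3513451277) (nat_lit 152) (nat_lit 90032220372) (nat_lit 0) (nat_lit 1457286667) (nat_lit 8) (nat_lit 5) (nat_lit 10) (nat_lit 4) (nat_lit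 8) (nat_lit 4) (nat_lit 468) (nat_lit 386) (nat_lit 346)) (XT.lf (nat_lit 0) (nat_lit 20500220072) (nat_lit 152) (nat_lit 62315988675) (nat_lit 0) (nat_lit 18436706270) (nat_lit 8) (nat_lit 5) (nat_lit 10) (nat_lit 4) (nat_lit 8) (nat_lit 4) (nat_lit 469) (nat_lit 386) (nat_lit 345))))))))
noncomputable def xc61 : XT := (XT.nd (nat_lit 2184) (nat_lit 0) (nat_lit 0) (XT.nd (nat_lit 1092) (nat_lit 228) (nat_lit 0) (XT.nd (nat_lit 546) (nat_lit 76) (nat_lit 0) (XT.nd (nat_lit 234) (nat_lit 152) (nat_lit 0) (XT.nd (nat_lit 78) (nat_lit 76) (nat_lit 0) (XT.lf (nat_lit 0) (nat_lit 38744120334) (nat_lit 152) (nat_lit 32593091182) (nat_lit 0) (nat_lit 36673801724) (nat_lit 8) (nat_lit 5) (nat_lit 10) (nat_lit 4) (nat_lit 8) (nat_lit 4) (nat_lit 470) (nat_lit 386) (nat_lit 344)) (XT.nd (nat_lit 78) (nat_lit 76) (nat_lit 0) (XT.lf (nat_lit 0) (nat_lit 58353264063) (nat_lit 152) (nat_lit 687392204)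 (nat_lit 0) (nat_lit 56276644705) (nat_lit 8) (nat_lit 5) (nat_lit 10) (nat_lit 4) (nat_lit 8) (nat_lit 4) (nat_lit 471) (nat_lit 386) (nat_lit 343)) (XT.lf (nat_lit 0) (nat_lit 35358978369) (nat_lit 76) (nat_lit 44935259503) (nat_lit 76) (nat_lit 42852806120) (nat_lit 7) (nat_lit 4) (nat_lit 8) (nat_lit 5) (nat_lit 8) (nat_lit 4) (nat_lit 472) (nat_lit 386) (nat_lit 342)))) (XT.nd (nat_lit 156) (nat_lit 152) (nat_lit 0) (XT.nd (nat_lit 78) (nat_lit 0) (nat_lit 0) (XT.lf (nat_lit 0) (nat_lit 74152139306) (nat_lit 76) (nat_lit 29772091622) (nat_lit 76) (nat_lit 27684236363) (nat_lit 7) (nat_lit 4) (nat_lit 8) (nat_lit 5) (nat_lit 8) (nat_lit 4) (nat_lit 473) (nat_lit 386) (nat_lit 341)) (XT.lf (nat_lit 0) (nat_lit 115885779149) (nat_lit 76) (nat_lit 13480091335) (nat_lit 76) (nat_lit 11387234339) (nat_lit 7) (nat_lit 4) (nat_lit 8) (nat_lit 5) (nat_lit 8) (nat_lit 4) (nat_lit 474) (nat_lit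 386) (nat_lit 340))) (XT.nd (nat_lit 78) (nat_lit 0) (nat_lit 0) (XT.lf (nat_lit 0) (nat_lit 6189194720) (nat_lit 152) (nat_lit 140158168511) (nat_lit 0) (nat_lit 4247075986) (nat_lit 5) (nat_lit 5) (nat_lit 7) (nat_lit 4) (nat_lit 5) (nat_lit 4) (nat_lit 475) (nat_lit 386) (nat_lit 339)) (XT.lf (nat_lit 0) (nat_lit 25529463023) (nat_lit 152) (nat_lit 112008747402) (nat_lit 0) (nat_lit 23583373749) (nat_lit 5) (nat_lit 5) (nat_lit 7) (nat_lit 4) (nat_lit 5) (nat_lit 4) (nat_lit 476) (nat_lit 386) (nat_lit 338))))) (XT.nd (nat_lit 234) (nat_lit 76) (nat_lit 0) (XT.nd (nat_lit 78) (nat_lit 0) (nat_lit 0) (XT.lf (nat_lit 0) (nat_lit 46347714062) (nat_lit 152) (nat_lit 81750777499) (nat_lit 0) (nat_lit 44397948362) (nat_lit 5) (nat_lit 5) (nat_lit 7) (nat_lit 4) (nat_lit 5) (nat_lit 4) (nat_lit 477) (nat_lit 386) (nat_lit 337)) (XT.nd (nat_lit 78) (nat_lit 0) (nat_lit 0) (XT.lf (nat_lit 0) (nat_lit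 68767315251) (nat_lit 152) (nat_lit 49204952315) (nat_lit 0) (nat_lit 66814145454) (nat_lit 5) (nat_lit 5) (nat_lit 7) (nat_lit 4) (nat_lit 5) (nat_lit 4) (nat_lit 478) (nat_lit 386) (nat_lit 336)) (XT.lf (nat_lit 0) (nat_lit 92921123486) (nat_lit 152) (nat_lit 14178407699) (nat_lit 0) (nat_lit 90964801746) (nat_lit 5) (nat_lit 5) (nat_lit 7) (nat_lit 4) (nat_lit 5) (nat_lit 4) (nat_lit 479) (nat_lit 386) (nat_lit 335)))) (XT.nd (nat_lit 156) (nat_lit 0) (nat_lit 0) (XT.nd (nat_lit 78) (nat_lit 0) (nat_lit 0) (XT.lf (nat_lit 0) (nat_lit 24775807279) (nat_lit 76) (nat_lit 94772323927) (nat_lit 76) (nat_lit 92813083722) (nat_lit 4) (nat_lit 4) (nat_lit 5) (nat_lit 5) (nat_lit 5) (nat_lit 4) (nat_lit 480) (nat_lit 386) (nat_lit 334)) (XT.lf (nat_lit 0) (nat_lit 67541740647) (nat_lit 76) (nat_lit 81097660630) (nat_lit 76) (nat_lit 79135718141) (nat_lit 4) (nat_lit 4) (nat_lit 5) (nat_lit 5)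 (nat_lit 5) (nat_lit 4) (nat_lit 481) (nat_lit 386) (nat_lit 333))) (XT.nd (nat_lit 78) (nat_lit 0) (nat_lit 0) (XT.lf (nat_lit 0) (nat_lit 113626210334) (nat_lit 76) (nat_lit 66382169044) (nat_lit 76) (nat_lit 64417724442) (nat_lit 4) (nat_lit 4) (nat_lit 5) (nat_lit 5) (nat_lit 5) (nat_lit 4) (nat_lit 482) (nat_lit 386) (nat_lit 332)) (XT.lf (nat_lit 0) (nat_lit 163302309494) (nat_lit 76) (nat_lit 50538646257) (nat_lit 76) (nat_lit 48571884883) (nat_lit 4) (nat_lit 4) (nat_lit 5) (nat_lit 5) (nat_lit 5) (nat_lit 4) (nat_lit 483) (nat_lit 386) (nat_lit 331)))))) (XT.nd (nat_lit 546) (nat_lit 76) (nat_lit 0) (XT.nd (nat_lit 234) (nat_lit 0) (nat_lit 0) (XT.nd (nat_lit 78) (nat_lit 152) (nat_lit 0) (XT.lf (nat_lit 0) (nat_lit 216864415011) (nat_lit 76) (nat_lit 33473204726) (nat_lit 76) (nat_lit 31504298193) (nat_lit 4) (nat_lit 4) (nat_lit 5) (nat_lit 5) (nat_lit 5) (nat_lit 4) (nat_lit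 484) (nat_lit 386) (nat_lit 330)) (XT.nd (nat_lit 78) (nat_lit 152) (nat_lit 0) (XT.lf (nat_lit 0) (nat_lit 274629931955) (nat_lit 76) (nat_lit 15084715909) (nat_lit 76) (nat_lit 13113823117) (nat_lit 4) (nat_lit 4) (nat_lit 5) (nat_lit 5) (nat_lit 5) (nat_lit 4) (nat_lit 485) (nat_lit 386) (nat_lit 329)) (XT.lf (nat_lit 0) (nat_lit 6784084192) (nat_lit 152) (nat_lit 313709500531) (nat_lit 0) (nat_lit 4957480563) (nat_lit 2) (nat_lit 5) (nat_lit 4) (nat_lit 4) (nat_lit 2) (nat_lit 4) (nat_lit 486) (nat_lit 386) (nat_lit 328)))) (XT.nd (nat_lit 156) (nat_lit 0) (nat_lit 0) (XT.nd (nat_lit 78) (nat_lit 0) (nat_lit 0) (XT.lf (nat_lit 0) (nat_lit 28710786321) (nat_lit 152) (nat_lit 294171189475) (nat_lit 0) (nat_lit 26882605936) (nat_lit 2) (nat_lit 5) (nat_lit 4) (nat_lit 4) (nat_lit 2) (nat_lit 4) (nat_lit 487) (nat_lit 386) (nat_lit 327)) (XT.lf (nat_lit 0) (nat_lit 52357008459) (nat_lit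 152) (nat_lit 273141572253) (nat_lit 0) (nat_lit 50527368115) (nat_lit 2) (nat_lit 5) (nat_lit 4) (nat_lit 4) (nat_lit 2) (nat_lit 4) (nat_lit 488) (nat_lit 386) (nat_lit 326))) (XT.nd (nat_lit 78) (nat_lit 0) (nat_lit 0) (XT.lf (nat_lit 0) (nat_lit 77862876366) (nat_lit 152) (nat_lit 250496028910) (nat_lit 0) (nat_lit 76031884208) (nat_lit 2) (nat_lit 5) (nat_lit 4) (nat_lit 4) (nat_lit 2) (nat_lit 4) (nat_lit 489) (nat_lit 386) (nat_lit 325)) (XT.lf (nat_lit 0) (nat_lit 105379535927) (nat_lit 152) (nat_lit 226100363634) (nat_lit 0) (nat_lit 103547292089) (nat_lit 2) (nat_lit 5) (nat_lit 4) (nat_lit 4) (nat_lit 2) (nat_lit 4) (nat_lit 490) (nat_lit 386) (nat_lit 324))))) (XT.nd (nat_lit 234) (nat_lit 76) (nat_lit 0) (XT.nd (nat_lit 78) (nat_lit 0) (nat_lit 0) (XT.lf (nat_lit 0) (nat_lit 135070048828) (nat_lit 152) (nat_lit 199810009520) (nat_lit 0) (nat_lit 133236646027) (nat_lit 2) (nat_lit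 5) (nat_lit 4) (nat_lit 4) (nat_lit 2) (nat_lit 4) (nat_lit 491) (nat_lit 386) (nat_lit 323)) (XT.nd (nat_lit 78) (nat_lit 0) (nat_lit 0) (XT.lf (nat_lit 0) (nat_lit 167110358848) (nat_lit 152) (nat_lit 171469171876) (nat_lit 0) (nat_lit 165275882933) (nat_lit 2) (nat_lit 5) (nat_lit 4) (nat_lit 4) (nat_lit 2) (nat_lit 4) (nat_lit 492) (nat_lit 386) (nat_lit 322)) (XT.lf (nat_lit 0) (nat_lit 201690334492) (nat_lit 152) (nat_lit 140909904998) (nat_lit 0) (nat_lit 199854864954) (nat_lit 2) (nat_lit 5) (nat_lit 4) (nat_lit 4) (nat_lit 2) (nat_lit 4) (nat_lit 493) (nat_lit 386) (nat_lit 321)))) (XT.nd (nat_lit 156) (nat_lit 76) (nat_lit 0) (XT.nd (nat_lit 78) (nat_lit 0) (nat_lit 0) (XT.lf (nat_lit 0) (nat_lit 239014894135) (nat_lit 152) (nat_lit 107951116935) (nat_lit 0) (nat_lit 237178504574) (nat_lit 2) (nat_lit 5) (nat_lit 4) (nat_lit 4) (nat_lit 2) (nat_lit 4) (nat_lit 494) (nat_lit 386)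 (nat_lit 320)) (XT.lf (nat_lit 0) (nat_lit 279305220350) (nat_lit 152) (nat_lit 72397496349) (nat_lit 0) (nat_lit 277467978918) (nat_lit 2) (nat_lit 5) (nat_lit 4) (nat_lit 4) (nat_lit 2) (nat_lit 4) (nat_lit 495) (nat_lit 386) (nat_lit 319))) (XT.nd (nat_lit 78) (nat_lit 76) (nat_lit 0) (XT.lf (nat_lit 0) (nat_lit 322800070629) (nat_lit 152) (nat_lit 34038355118) (nat_lit 0) (nat_lit 320962040425) (nat_lit 2) (nat_lit 5) (nat_lit 4) (nat_lit 4) (nat_lit 2) (nat_lit 4) (nat_lit 496) (nat_lit 386) (nat_lit 318)) (XT.lf (nat_lit 0) (nat_lit 7740848793) (nat_lit 76) (nat_lit 362202511036) (nat_lit 76) (nat_lit 360363750490) (nat_lit 1) (nat_lit 4) (nat_lit 2) (nat_lit 5) (nat_lit 2) (nat_lit 4) (nat_lit 497) (nat_lit 386) (nat_lit 317))))))) (XT.nd (nat_lit 1092) (nat_lit 0) (nat_lit 0) (XT.nd (nat_lit 546) (nat_lit 0) (nat_lit 0) (XT.nd (nat_lit 234) (nat_lit 0) (nat_lit 0) (XT.nd (nat_lit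 78) (nat_lit 0) (nat_lit 0) (XT.lf (nat_lit 0) (nat_lit 54763192000) (nat_lit 76) (nat_lit 367008713663) (nat_lit 76) (nat_lit 365169276873) (nat_lit 1) (nat_lit 4) (nat_lit 2) (nat_lit 5) (nat_lit 2) (nat_lit 4) (nat_lit 498) (nat_lit 386) (nat_lit 316)) (XT.nd (nat_lit 78) (nat_lit 0) (nat_lit 0) (XT.lf (nat_lit 0) (nat_lit 105514925966) (nat_lit 76) (nat_lit 372216183778) (nat_lit 76) (nat_lit 370376120836) (nat_lit 1) (nat_lit 4) (nat_lit 2) (nat_lit 5) (nat_lit 2) (nat_lit 4) (nat_lit 499) (nat_lit 386) (nat_lit 315)) (XT.lf (nat_lit 0) (nat_lit 160296801707) (nat_lit 76) (nat_lit 377855780464) (nat_lit 76) (nat_lit 376015137752) (nat_lit 1) (nat_lit 4) (nat_lit 2) (nat_lit 5) (nat_lit 2) (nat_lit 4) (nat_lit 500) (nat_lit 386) (nat_lit 314)))) (XT.nd (nat_lit 156) (nat_lit 0) (nat_lit 0) (XT.nd (nat_lit 78) (nat_lit 0) (nat_lit 0) (XT.lf (nat_lit 0) (nat_lit 219433452559) (nat_lit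 76) (nat_lit 383960923552) (nat_lit 76) (nat_lit 382119744017) (nat_lit 1) (nat_lit 4) (nat_lit 2) (nat_lit 5) (nat_lit 2) (nat_lit 4) (nat_lit 501) (nat_lit 386) (nat_lit 313)) (XT.lf (nat_lit 0) (nat_lit 283275317937) (nat_lit 76) (nat_lit 390567791670) (nat_lit 76) (nat_lit 388726115075) (nat_lit 1) (nat_lit 4) (nat_lit 2) (nat_lit 5) (nat_lit 2) (nat_lit 4) (nat_lit 502) (nat_lit 386) (nat_lit 312))) (XT.nd (nat_lit 78) (nat_lit 0) (nat_lit 0) (XT.lf (nat_lit 0) (nat_lit 352200720004) (nat_lit 76) (nat_lit 397715536627) (nat_lit 76) (nat_lit 395873399792) (nat_lit 1) (nat_lit 4) (nat_lit 2) (nat_lit 5) (nat_lit 2) (nat_lit 4) (nat_lit 503) (nat_lit 386) (nat_lit 311)) (XT.lf (nat_lit 0) (nat_lit 426618105588) (nat_lit 76) (nat_lit 405446515431) (nat_lit 76) (nat_lit 403603952448) (nat_lit 1) (nat_lit 4) (nat_lit 2) (nat_lit 5) (nat_lit 2) (nat_lit 4) (nat_lit 504) (nat_lit 386) (nat_lit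 310))))) (XT.nd (nat_lit 234) (nat_lit 0) (nat_lit 0) (XT.nd (nat_lit 78) (nat_lit 0) (nat_lit 0) (XT.lf (nat_lit 0) (nat_lit 506968466604) (nat_lit 76) (nat_lit 413806541289) (nat_lit 76) (nat_lit 411963583725) (nat_lit 1) (nat_lit 4) (nat_lit 2) (nat_lit 5) (nat_lit 2) (nat_lit 4) (nat_lit 505) (nat_lit 386) (nat_lit 309)) (XT.nd (nat_lit 78) (nat_lit 0) (nat_lit 0) (XT.lf (nat_lit 0) (nat_lit 593727953340) (nat_lit 76) (nat_lit 422845155096) (nat_lit 76) (nat_lit 421001832178) (nat_lit 1) (nat_lit 4) (nat_lit 2) (nat_lit 5) (nat_lit 2) (nat_lit 4) (nat_lit 506) (nat_lit 386) (nat_lit 308)) (XT.lf (nat_lit 0) (nat_lit 687410696086) (nat_lit 76) (nat_lit 432615919007) (nat_lit 76) (nat_lit 430772257800) (nat_lit 1) (nat_lit 4) (nat_lit 2) (nat_lit 5) (nat_lit 2) (nat_lit 4) (nat_lit 507) (nat_lit 386) (nat_lit 307)))) (XT.nd (nat_lit 156) (nat_lit 0) (nat_lit 0) (XT.nd (nat_lit 78) (nat_lit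 0) (nat_lit 0) (XT.lf (nat_lit 0) (nat_lit 788571851837) (nat_lit 76) (nat_lit 443176733846) (nat_lit 76) (nat_lit 441332759407) (nat_lit 1) (nat_lit 4) (nat_lit 2) (nat_lit 5) (nat_lit 2) (nat_lit 4) (nat_lit 508) (nat_lit 386) (nat_lit 306)) (XT.lf (nat_lit 0) (nat_lit 897810894108) (nat_lit 76) (nat_lit 454590182219) (nat_lit 76) (nat_lit 452745917751) (nat_lit 1) (nat_lit 4) (nat_lit 2) (nat_lit 5) (nat_lit 2) (nat_lit 4) (nat_lit 509) (nat_lit 386) (nat_lit 305))) (XT.nd (nat_lit 78) (nat_lit 0) (nat_lit 0) (XT.lf (nat_lit 0) (nat_lit 1015775165373) (nat_lit 76) (nat_lit 466923899376) (nat_lit 76) (nat_lit 465079366362) (nat_lit 1) (nat_lit 4) (nat_lit 2) (nat_lit 5) (nat_lit 2) (nat_lit 4) (nat_lit 510) (nat_lit 386) (nat_lit 304)) (XT.lf (nat_lit 0) (nat_lit 1143163713164) (nat_lit 76) (nat_lit 480250974011) (nat_lit 76) (nat_lit 478406192343) (nat_lit 1) (nat_lit 4) (nat_lit 2) (nat_lit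 5) (nat_lit 2) (nat_lit 4) (nat_lit 511) (nat_lit 386) (nat_lit 303)))))) (XT.nd (nat_lit 546) (nat_lit 0) (nat_lit 0) (XT.nd (nat_lit 234) (nat_lit 0) (nat_lit 0) (XT.nd (nat_lit 78) (nat_lit 0) (nat_lit 0) (XT.lf (nat_lit 0) (nat_lit 1280731432580) (nat_lit 76) (nat_lit 494650381380) (nat_lit 76) (nat_lit 492805369478) (nat_lit 1) (nat_lit 4) (nat_lit 2) (nat_lit 5) (nat_lit 2) (nat_lit 4) (nat_lit 512) (nat_lit 386) (nat_lit 302)) (XT.nd (nat_lit 78) (nat_lit 0) (nat_lit 0) (XT.lf (nat_lit 0) (nat_lit 1429293539736) (nat_lit 76) (nat_lit 510207451306) (nat_lit 76) (nat_lit 508362226224) (nat_lit 1) (nat_lit 4) (nat_lit 2) (nat_lit 5) (nat_lit 2) (nat_lit 4) (nat_lit 513) (nat_lit 386) (nat_lit 301)) (XT.lf (nat_lit 0) (nat_lit 1589730402674) (nat_lit 76) (nat_lit 527014373833) (nat_lit 76) (nat_lit 525168951361) (nat_lit 1) (nat_lit 4) (nat_lit 2) (nat_lit 5) (nat_lit 2) (nat_lit 4) (nat_lit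 514) (nat_lit 386) (nat_lit 300)))) (XT.nd (nat_lit 156) (nat_lit 0) (nat_lit 0) (XT.nd (nat_lit 78) (nat_lit 0) (nat_lit 0) (XT.lf (nat_lit 0) (nat_lit 1762992758359) (nat_lit 76) (nat_lit 545170745538) (nat_lit 76) (nat_lit 543325140299) (nat_lit 1) (nat_lit 4) (nat_lit 2) (nat_lit 5) (nat_lit 2) (nat_lit 4) (nat_lit 515) (nat_lit 386) (nat_lit 299)) (XT.lf (nat_lit 0) (nat_lit 1950107346678) (nat_lit 76) (nat_lit 564784159735) (nat_lit 76) (nat_lit 562938385267) (nat_lit 1) (nat_lit 4) (nat_lit 2) (nat_lit 5) (nat_lit 2) (nat_lit 4) (nat_lit 516) (nat_lit 386) (nat_lit 298))) (XT.nd (nat_lit 78) (nat_lit 0) (nat_lit 0) (XT.lf (nat_lit 0) (nat_lit 2152182994820) (nat_lit 76) (nat_lit 585970844064) (nat_lit 76) (nat_lit 584124912902) (nat_lit 1) (nat_lit 4) (nat_lit 2) (nat_lit 5) (nat_lit 2) (nat_lit 4) (nat_lit 517) (nat_lit 386) (nat_lit 297)) (XT.lf (nat_lit 0) (nat_lit 2370417188107)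 (nat_lit 76) (nat_lit 608856349247) (nat_lit 76) (nat_lit 607010272998) (nat_lit 1) (nat_lit 4) (nat_lit 2) (nat_lit 5) (nat_lit 2) (nat_lit 4) (nat_lit 518) (nat_lit 386) (nat_lit 296))))) (XT.nd (nat_lit 312) (nat_lit 0) (nat_lit 0) (XT.nd (nat_lit 156) (nat_lit 0) (nat_lit 0) (XT.nd (nat_lit 78) (nat_lit 0) (nat_lit 0) (XT.lf (nat_lit 0) (nat_lit 2606103166204) (nat_lit 76) (nat_lit 633576293093) (nat_lit 76) (nat_lit 631730082504) (nat_lit 1) (nat_lit 4) (nat_lit 2) (nat_lit 5) (nat_lit 2) (nat_lit 4) (nat_lit 519) (nat_lit 386) (nat_lit 295)) (XT.lf (nat_lit 0) (nat_lit 2860637586759) (nat_lit 76) (nat_lit 660277164157) (nat_lit 76) (nat_lit 658430829179) (nat_lit 1) (nat_lit 4) (nat_lit 2) (nat_lit 5) (nat_lit 2) (nat_lit 4) (nat_lit 520) (nat_lit 386) (nat_lit 294))) (XT.nd (nat_lit 78) (nat_lit 0) (nat_lit 0) (XT.lf (nat_lit 0) (nat_lit 3135528801893) (nat_lit 76) (nat_lit 689117189823)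 (nat_lit 76) (nat_lit 687270739671) (nat_lit 1) (nat_lit 4) (nat_lit 2) (nat_lit 5) (nat_lit 2) (nat_lit 4) (nat_lit 521) (nat_lit 386) (nat_lit 293)) (XT.lf (nat_lit 0) (nat_lit 3432405796585) (nat_lit 76) (nat_lit 720267273948) (nat_lit 76) (nat_lit 718420717152) (nat_lit 1) (nat_lit 4) (nat_lit 2) (nat_lit 5) (nat_lit 2) (nat_lit 4) (nat_lit 522) (nat_lit 386) (nat_lit 292)))) (XT.nd (nat_lit 156) (nat_lit 0) (nat_lit 0) (XT.nd (nat_lit 78) (nat_lit 0) (nat_lit 0) (XT.lf (nat_lit 0) (nat_lit 3753027841914) (nat_lit 76) (nat_lit 753912009622) (nat_lit 76) (nat_lit 752065354083) (nat_lit 1) (nat_lit 4) (nat_lit 2) (nat_lit 5) (nat_lit 2) (nat_lit 4) (nat_lit 523) (nat_lit 386) (nat_lit 291)) (XT.lf (nat_lit 0) (nat_lit 4099294920371) (nat_lit 76) (nat_lit 790250773057) (nat_lit 76) (nat_lit 788404026089) (nat_lit 1) (nat_lit 4) (nat_lit 2) (nat_lit 5) (nat_lit 2) (nat_lit 4) (nat_lit 524)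 (nat_lit 386) (nat_lit 290))) (XT.nd (nat_lit 78) (nat_lit 0) (nat_lit 0) (XT.lf (nat_lit 0) (nat_lit 4473258985015) (nat_lit 76) (nat_lit 829498905073) (nat_lit 76) (nat_lit 827652073448) (nat_lit 1) (nat_lit 4) (nat_lit 2) (nat_lit 5) (nat_lit 2) (nat_lit 4) (nat_lit 525) (nat_lit 386) (nat_lit 289)) (XT.lf (nat_lit 0) (nat_lit 4877136119190) (nat_lit 76) (nat_lit 871888987194) (nat_lit 76) (nat_lit 870042077183) (nat_lit 1) (nat_lit 4) (nat_lit 2) (nat_lit 5) (nat_lit 2) (nat_lit 4) (nat_lit 526) (nat_lit 386) (nat_lit 288))))))))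
noncomputable def xc62 : XT := (XT.nd (nat_lit 55302) (nat_lit 0) (nat_lit 912) (XT.nd (nat_lit 1092) (nat_lit 0) (nat_lit 0) (XT.nd (nat_lit 546) (nat_lit 0) (nat_lit 0) (XT.nd (nat_lit 234) (nat_lit 0) (nat_lit 0) (XT.nd (nat_lit 78) (nat_lit 0) (nat_lit 0) (XT.lf (nat_lit 0) (nat_lit 5313319668878) (nat_lit 76) (nat_lit 917672219905) (nat_lit 76) (nat_lit 915825237315) (nat_lit 1) (nat_lit 4) (nat_lit 2) (nat_lit 5) (nat_lit 2) (nat_lit 4) (nat_lit 527) (nat_lit 386) (nat_lit 287)) (XT.nd (nat_lit 78) (nat_lit 0) (nat_lit 0) (XT.lf (nat_lit 0) (nat_lit 5784394425483) (nat_lit 76) (nat_lit 967119911254) (nat_lit 76) (nat_lit 965272861460) (nat_lit 1) (nat_lit 4) (nat_lit 2) (nat_lit 5) (nat_lit 2) (nat_lit 4) (nat_lit 528) (nat_lit 386) (nat_lit 286)) (XT.lf (nat_lit 0) (nat_lit 6293151943120) (nat_lit 76) (nat_lit 1020525084595) (nat_lit 76) (nat_lit 1018677972575) (nat_lit 1) (nat_lit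 4) (nat_lit 2) (nat_lit 5) (nat_lit 2) (nat_lit 4) (nat_lit 529) (nat_lit 386) (nat_lit 285)))) (XT.nd (nat_lit 156) (nat_lit 0) (nat_lit 0) (XT.nd (nat_lit 78) (nat_lit 0) (nat_lit 0) (XT.lf (nat_lit 0) (nat_lit 6842607081151) (nat_lit 76) (nat_lit 1078204215029) (nat_lit 76) (nat_lit 1076357045394) (nat_lit 1) (nat_lit 4) (nat_lit 2) (nat_lit 5) (nat_lit 2) (nat_lit 4) (nat_lit 530) (nat_lit 386) (nat_lit 284)) (XT.lf (nat_lit 0) (nat_lit 7436015870024) (nat_lit 76) (nat_lit 1140499104813) (nat_lit 76) (nat_lit 1138651881830) (nat_lit 1) (nat_lit 4) (nat_lit 2) (nat_lit 5) (nat_lit 2) (nat_lit 4) (nat_lit 531) (nat_lit 386) (nat_lit 283))) (XT.nd (nat_lit 78) (nat_lit 0) (nat_lit 0) (XT.lf (nat_lit 0) (nat_lit 8076894806267) (nat_lit 76) (nat_lit 1207778908847) (nat_lit 76) (nat_lit 1205931636467) (nat_lit 1) (nat_lit 4) (nat_lit 2) (nat_lit 5) (nat_lit 2) (nat_lit 4) (nat_lit 532) (nat_lit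 386) (nat_lit 282)) (XT.lf (nat_lit 0) (nat_lit 8769041690982) (nat_lit 76) (nat_lit 1280442322267) (nat_lit 76) (nat_lit 1278595004150) (nat_lit 1) (nat_lit 4) (nat_lit 2) (nat_lit 5) (nat_lit 2) (nat_lit 4) (nat_lit 533) (nat_lit 386) (nat_lit 281))))) (XT.nd (nat_lit 234) (nat_lit 0) (nat_lit 0) (XT.nd (nat_lit 78) (nat_lit 0) (nat_lit 0) (XT.lf (nat_lit 0) (nat_lit 9516558135338) (nat_lit 76) (nat_lit 1358919943079) (nat_lit 76) (nat_lit 1357072582612) (nat_lit 1) (nat_lit 4) (nat_lit 2) (nat_lit 5) (nat_lit 2) (nat_lit 4) (nat_lit 534) (nat_lit 386) (nat_lit 280)) (XT.nd (nat_lit 78) (nat_lit 0) (nat_lit 0) (XT.lf (nat_lit 0) (nat_lit 10323873866414) (nat_lit 76) (nat_lit 1443676823850) (nat_lit 76) (nat_lit 1441829424171) (nat_lit 1) (nat_lit 4) (nat_lit 2) (nat_lit 5) (nat_lit 2) (nat_lit 4) (nat_lit 535) (nat_lit 386) (nat_lit 279)) (XT.lf (nat_lit 0) (nat_lit 11195772977430) (nat_lit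 76) (nat_lit 1535215227577) (nat_lit 76) (nat_lit 1533367791590) (nat_lit 1) (nat_lit 4) (nat_lit 2) (nat_lit 5) (nat_lit 2) (nat_lit 4) (nat_lit 536) (nat_lit 386) (nat_lit 278)))) (XT.nd (nat_lit 156) (nat_lit 0) (nat_lit 0) (XT.nd (nat_lit 78) (nat_lit 0) (nat_lit 0) (XT.lf (nat_lit 0) (nat_lit 12137422277932) (nat_lit 76) (nat_lit 1634077604060) (nat_lit 76) (nat_lit 1632230134454) (nat_lit 1) (nat_lit 4) (nat_lit 2) (nat_lit 5) (nat_lit 2) (nat_lit 4) (nat_lit 537) (nat_lit 386) (nat_lit 277)) (XT.lf (nat_lit 0) (nat_lit 13154401911925) (nat_lit 76) (nat_lit 1740849804419) (nat_lit 76) (nat_lit 1739002303686) (nat_lit 1) (nat_lit 4) (nat_lit 2) (nat_lit 5) (nat_lit 2) (nat_lit 4) (nat_lit 538) (nat_lit 386) (nat_lit 276))) (XT.nd (nat_lit 78) (nat_lit 0) (nat_lit 0) (XT.lf (nat_lit 0) (nat_lit 14252738425387) (nat_lit 76) (nat_lit 1856164552804) (nat_lit 76) (nat_lit 1854317023249)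 (nat_lit 1) (nat_lit 4) (nat_lit 2) (nat_lit 5) (nat_lit 2) (nat_lit 4) (nat_lit 539) (nat_lit 386) (nat_lit 275)) (XT.lf (nat_lit 0) (nat_lit 15438940479138) (nat_lit 76) (nat_lit 1980705195873) (nat_lit 76) (nat_lit 1978857639630) (nat_lit 1) (nat_lit 4) (nat_lit 2) (nat_lit 5) (nat_lit 2) (nat_lit 4) (nat_lit 540) (nat_lit 386) (nat_lit 274)))))) (XT.nd (nat_lit 53664) (nat_lit 0) (nat_lit 2964) (XT.nd (nat_lit 234) (nat_lit 0) (nat_lit 0) (XT.nd (nat_lit 78) (nat_lit 0) (nat_lit 0) (XT.lf (nat_lit 0) (nat_lit 16720037418683) (nat_lit 76) (nat_lit 2115209752251) (nat_lit 76) (nat_lit 2113362171298) (nat_lit 1) (nat_lit 4) (nat_lit 2) (nat_lit 5) (nat_lit 2) (nat_lit 4) (nat_lit 541) (nat_lit 386) (nat_lit 273)) (XT.nd (nat_lit 78) (nat_lit 0) (nat_lit 0) (XT.lf (nat_lit 0) (nat_lit 18103620929589) (nat_lit 76) (nat_lit 2260475285976) (nat_lit 76) (nat_lit 2258627682143) (nat_lit 1) (nat_lit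 4) (nat_lit 2) (nat_lit 5) (nat_lit 2) (nat_lit 4) (nat_lit 542) (nat_lit 386) (nat_lit 272)) (XT.lf (nat_lit 0) (nat_lit 19597890025254) (nat_lit 76) (nat_lit 2417362629840) (nat_lit 76) (nat_lit 2415515004821) (nat_lit 1) (nat_lit 4) (nat_lit 2) (nat_lit 5) (nat_lit 2) (nat_lit 4) (nat_lit 543) (nat_lit 386) (nat_lit 271)))) (XT.nd (nat_lit 53274) (nat_lit 0) (nat_lit 3648) (XT.nd (nat_lit 78) (nat_lit 0) (nat_lit 0) (XT.lf (nat_lit 0) (nat_lit 21211699633653) (nat_lit 76) (nat_lit 2586801486622) (nat_lit 76) (nat_lit 2584953841987) (nat_lit 1) (nat_lit 4) (nat_lit 2) (nat_lit 5) (nat_lit 2) (nat_lit 4) (nat_lit 544) (nat_lit 386) (nat_lit 270)) (XT.lf (nat_lit 0) (nat_lit 22954613070982) (nat_lit 76) (nat_lit 2769795938436) (nat_lit 76) (nat_lit 2767948275638) (nat_lit 1) (nat_lit 4) (nat_lit 2) (nat_lit 5) (nat_lit 2) (nat_lit 4) (nat_lit 545) (nat_lit 386) (nat_lit 269))) (XT.nd (nat_lit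 78) (nat_lit 152) (nat_lit 0) (XT.lf (nat_lit 0) (nat_lit 704773148) (nat_lit 152) (nat_lit 4321007116) (nat_lit 0) (nat_lit 704773148) (nat_lit 51) (nat_lit 5) (nat_lit 53) (nat_lit 4) (nat_lit 51) (nat_lit 4) (nat_lit 426) (nat_lit 387) (nat_lit 387)) (XT.lf (nat_lit 0) (nat_lit 2015079721) (nat_lit 152) (nat_lit 5185548152) (nat_lit 152) (nat_lit 4679086986) (nat_lit 49) (nat_lit 4) (nat_lit 51) (nat_lit 5) (nat_lit 51) (nat_lit 4) (nat_lit 427) (nat_lit 387) (nat_lit 386))))) (XT.nd (nat_lit 234) (nat_lit 380) (nat_lit 0) (XT.nd (nat_lit 78) (nat_lit 152) (nat_lit 0) (XT.lf (nat_lit 0) (nat_lit 1016277417) (nat_lit 152) (nat_lit 11204319295) (nat_lit 0) (nat_lit 113123073) (nat_lit 47) (nat_lit 5) (nat_lit 49) (nat_lit 4) (nat_lit 47) (nat_lit 4) (nat_lit 428) (nat_lit 387) (nat_lit 385)) (XT.nd (nat_lit 78) (nat_lit 152) (nat_lit 0) (XT.lf (nat_lit 0) (nat_lit 7006258398) (nat_lit 152)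 (nat_lit 99673443) (nat_lit 0) (nat_lit 5701058850) (nat_lit 47) (nat_lit 5) (nat_lit 49) (nat_lit 4) (nat_lit 47) (nat_lit 4) (nat_lit 429) (nat_lit 387) (nat_lit 384)) (XT.lf (nat_lit 0) (nat_lit 140330215) (nat_lit 152) (nat_lit 1385576776) (nat_lit 76) (nat_lit 11792651998) (nat_lit 45) (nat_lit 5) (nat_lit 47) (nat_lit 5) (nat_lit 46) (nat_lit 4) (nat_lit 430) (nat_lit 387) (nat_lit 383)))) (XT.nd (nat_lit 156) (nat_lit 228) (nat_lit 0) (XT.nd (nat_lit 78) (nat_lit 76) (nat_lit 0) (XT.lf (nat_lit 0) (nat_lit 6326581083) (nat_lit 152) (nat_lit 3071545656) (nat_lit 0) (nat_lit 4454217579) (nat_lit 44) (nat_lit 5) (nat_lit 46) (nat_lit 4) (nat_lit 44) (nat_lit 4) (nat_lit 431) (nat_lit 387) (nat_lit 382)) (XT.lf (nat_lit 0) (nat_lit 9447657420) (nat_lit 76) (nat_lit 3573974829) (nat_lit 76) (nat_lit 1406096098) (nat_lit 43) (nat_lit 4) (nat_lit 44) (nat_lit 5) (nat_lit 44) (nat_lit 4)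 (nat_lit 432) (nat_lit 387) (nat_lit 381))) (XT.nd (nat_lit 78) (nat_lit 76) (nat_lit 0) (XT.lf (nat_lit 0) (nat_lit 4995318812) (nat_lit 152) (nat_lit 7304956636) (nat_lit 0) (nat_lit 2734667015) (nat_lit 41) (nat_lit 5) (nat_lit 43) (nat_lit 4) (nat_lit 41) (nat_lit 4) (nat_lit 433) (nat_lit 387) (nat_lit 380)) (XT.lf (nat_lit 0) (nat_lit 5648792999) (nat_lit 76) (nat_lit 6263939223) (nat_lit 76) (nat_lit 3768697912) (nat_lit 40) (nat_lit 4) (nat_lit 41) (nat_lit 5) (nat_lit 41) (nat_lit 4) (nat_lit 434) (nat_lit 387) (nat_lit 379))))))) (XT.nd (nat_lit 1092) (nat_lit 912) (nat_lit 0) (XT.nd (nat_lit 546) (nat_lit 532) (nat_lit 0) (XT.nd (nat_lit 234) (nat_lit 380) (nat_lit 0) (XT.nd (nat_lit 78) (nat_lit 76) (nat_lit 0) (XT.lf (nat_lit 0) (nat_lit 2856940412) (nat_lit 152) (nat_lit 13171248701) (nat_lit 0) (nat_lit 345409093) (nat_lit 38) (nat_lit 5) (nat_lit 40) (nat_lit 4) (nat_lit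 38) (nat_lit 4) (nat_lit 435) (nat_lit 387) (nat_lit 378)) (XT.nd (nat_lit 78) (nat_lit 0) (nat_lit 0) (XT.lf (nat_lit 0) (nat_lit 143211947) (nat_lit 76) (nat_lit 9827462765) (nat_lit 76) (nat_lit 7129706727) (nat_lit 37) (nat_lit 4) (nat_lit 38) (nat_lit 5) (nat_lit 38) (nat_lit 4) (nat_lit 436) (nat_lit 387) (nat_lit 377)) (XT.lf (nat_lit 0) (nat_lit 14722417737) (nat_lit 76) (nat_lit 3013253718) (nat_lit 76) (nat_lit 143067383) (nat_lit 37) (nat_lit 4) (nat_lit 38) (nat_lit 5) (nat_lit 38) (nat_lit 4) (nat_lit 437) (nat_lit 387) (nat_lit 376)))) (XT.nd (nat_lit 156) (nat_lit 152) (nat_lit 0) (XT.nd (nat_lit 78) (nat_lit 76) (nat_lit 0) (XT.lf (nat_lit 0) (nat_lit 7158025108) (nat_lit 152) (nat_lit 7184421243) (nat_lit 0) (nat_lit 4352613981) (nat_lit 35) (nat_lit 5) (nat_lit 37) (nat_lit 4) (nat_lit 35) (nat_lit 4) (nat_lit 438) (nat_lit 387) (nat_lit 375)) (XT.lf (nat_lit 0) (nat_lit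 7739709200) (nat_lit 76) (nat_lit 7385883600) (nat_lit 76) (nat_lit 4443591745) (nat_lit 34) (nat_lit 4) (nat_lit 35) (nat_lit 5) (nat_lit 35) (nat_lit 4) (nat_lit 439) (nat_lit 387) (nat_lit 374))) (XT.nd (nat_lit 78) (nat_lit 0) (nat_lit 0) (XT.lf (nat_lit 0) (nat_lit 3081759945) (nat_lit 152) (nat_lit 17183199150) (nat_lit 0) (nat_lit 240062473) (nat_lit 32) (nat_lit 5) (nat_lit 34) (nat_lit 4) (nat_lit 32) (nat_lit 4) (nat_lit 440) (nat_lit 387) (nat_lit 373)) (XT.lf (nat_lit 0) (nat_lit 11231442370) (nat_lit 152) (nat_lit 1972978328) (nat_lit 0) (nat_lit 8281084562) (nat_lit 32) (nat_lit 5) (nat_lit 34) (nat_lit 4) (nat_lit 32) (nat_lit 4) (nat_lit 441) (nat_lit 387) (nat_lit 372))))) (XT.nd (nat_lit 234) (nat_lit 228) (nat_lit 0) (XT.nd (nat_lit 78) (nat_lit 228) (nat_lit 0) (XT.lf (nat_lit 0) (nat_lit 14703043222) (nat_lit 76) (nat_lit 5441711939) (nat_lit 76) (nat_lit 2390742709)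 (nat_lit 31) (nat_lit 4) (nat_lit 32) (nat_lit 5) (nat_lit 32) (nat_lit 4) (nat_lit 442) (nat_lit 387) (nat_lit 371)) (XT.nd (nat_lit 78) (nat_lit 76) (nat_lit 0) (XT.lf (nat_lit 0) (nat_lit 5901742101) (nat_lit 152) (nat_lit 14757071773) (nat_lit 0) (nat_lit 2990512514) (nat_lit 29) (nat_lit 5) (nat_lit 31) (nat_lit 4) (nat_lit 29) (nat_lit 4) (nat_lit 443) (nat_lit 387) (nat_lit 370)) (XT.lf (nat_lit 0) (nat_lit 1966996818) (nat_lit 76) (nat_lit 12928997229) (nat_lit 76) (nat_lit 9937899052) (nat_lit 28) (nat_lit 4) (nat_lit 29) (nat_lit 5) (nat_lit 29) (nat_lit 4) (nat_lit 444) (nat_lit 387) (nat_lit 369)))) (XT.nd (nat_lit 156) (nat_lit 76) (nat_lit 0) (XT.nd (nat_lit 78) (nat_lit 152) (nat_lit 0) (XT.lf (nat_lit 0) (nat_lit 20392936306) (nat_lit 76) (nat_lit 4385908355) (nat_lit 76) (nat_lit 1320857779) (nat_lit 28) (nat_lit 4) (nat_lit 29) (nat_lit 5) (nat_lit 29) (nat_lit 4) (nat_lit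 445) (nat_lit 387) (nat_lit 368)) (XT.lf (nat_lit 0) (nat_lit 7795695138) (nat_lit 152) (nat_lit 14744666374) (nat_lit 0) (nat_lit 4894283083) (nat_lit 26) (nat_lit 5) (nat_lit 28) (nat_lit 4) (nat_lit 26) (nat_lit 4) (nat_lit 446) (nat_lit 387) (nat_lit 367))) (XT.nd (nat_lit 78) (nat_lit 0) (nat_lit 0) (XT.lf (nat_lit 0) (nat_lit 3594278560) (nat_lit 76) (nat_lit 14114208169) (nat_lit 76) (nat_lit 11154090316) (nat_lit 25) (nat_lit 4) (nat_lit 26) (nat_lit 5) (nat_lit 26) (nat_lit 4) (nat_lit 447) (nat_lit 387) (nat_lit 366)) (XT.lf (nat_lit 0) (nat_lit 23797980494) (nat_lit 76) (nat_lit 4803147026) (nat_lit 76) (nat_lit 1788671953) (nat_lit 25) (nat_lit 4) (nat_lit 26) (nat_lit 5) (nat_lit 26) (nat_lit 4) (nat_lit 448) (nat_lit 387) (nat_lit 365)))))) (XT.nd (nat_lit 546) (nat_lit 380) (nat_lit 0) (XT.nd (nat_lit 234) (nat_lit 304) (nat_lit 0) (XT.nd (nat_lit 78) (nat_lit 76) (nat_lit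 0) (XT.lf (nat_lit 0) (nat_lit 8166985593) (nat_lit 152) (nat_lit 18506393336) (nat_lit 0) (nat_lit 5329202415) (nat_lit 23) (nat_lit 5) (nat_lit 25) (nat_lit 4) (nat_lit 23) (nat_lit 4) (nat_lit 449) (nat_lit 387) (nat_lit 364)) (XT.nd (nat_lit 78) (nat_lit 0) (nat_lit 0) (XT.lf (nat_lit 0) (nat_lit 1306138789) (nat_lit 76) (nat_lit 17652293690) (nat_lit 76) (nat_lit 14771359997) (nat_lit 22) (nat_lit 4) (nat_lit 23) (nat_lit 5) (nat_lit 23) (nat_lit 4) (nat_lit 450) (nat_lit 387) (nat_lit 363)) (XT.lf (nat_lit 0) (nat_lit 23347314463) (nat_lit 76) (nat_lit 7572127609) (nat_lit 76) (nat_lit 4651239737) (nat_lit 22) (nat_lit 4) (nat_lit 23) (nat_lit 5) (nat_lit 23) (nat_lit 4) (nat_lit 451) (nat_lit 387) (nat_lit 362)))) (XT.nd (nat_lit 156) (nat_lit 152) (nat_lit 0) (XT.nd (nat_lit 78) (nat_lit 0) (nat_lit 0) (XT.lf (nat_lit 0) (nat_lit 6088662573) (nat_lit 152) (nat_lit 28098278474) (nat_lit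 0) (nat_lit 3349882495) (nat_lit 20) (nat_lit 5) (nat_lit 22) (nat_lit 4) (nat_lit 20) (nat_lit 4) (nat_lit 452) (nat_lit 387) (nat_lit 361)) (XT.lf (nat_lit 0) (nat_lit 17786563112) (nat_lit 152) (nat_lit 6819955813) (nat_lit 0) (nat_lit 15016066118) (nat_lit 20) (nat_lit 5) (nat_lit 22) (nat_lit 4) (nat_lit 20) (nat_lit 4) (nat_lit 453) (nat_lit 387) (nat_lit 360))) (XT.nd (nat_lit 78) (nat_lit 76) (nat_lit 0) (XT.lf (nat_lit 0) (nat_lit 16632637429) (nat_lit 76) (nat_lit 14012234610) (nat_lit 76) (nat_lit 11212370101) (nat_lit 19) (nat_lit 4) (nat_lit 20) (nat_lit 5) (nat_lit 20) (nat_lit 4) (nat_lit 454) (nat_lit 387) (nat_lit 359)) (XT.lf (nat_lit 0) (nat_lit 264099778) (nat_lit 152) (nat_lit 2277729111) (nat_lit 76) (nat_lit 41727061818) (nat_lit 18) (nat_lit 5) (nat_lit 20) (nat_lit 5) (nat_lit 19) (nat_lit 4) (nat_lit 455) (nat_lit 387) (nat_lit 358))))) (XT.nd (nat_lit 312) (nat_lit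 76) (nat_lit 0) (XT.nd (nat_lit 156) (nat_lit 228) (nat_lit 0) (XT.nd (nat_lit 78) (nat_lit 0) (nat_lit 0) (XT.lf (nat_lit 0) (nat_lit 12699159785) (nat_lit 152) (nat_lit 24041113171) (nat_lit 0) (nat_lit 10058201856) (nat_lit 17) (nat_lit 5) (nat_lit 19) (nat_lit 4) (nat_lit 17) (nat_lit 4) (nat_lit 456) (nat_lit 387) (nat_lit 357)) (XT.lf (nat_lit 0) (nat_lit 26096799576) (nat_lit 152) (nat_lit 1948999) (nat_lit 0) (nat_lit 23434255648) (nat_lit 17) (nat_lit 5) (nat_lit 19) (nat_lit 4) (nat_lit 17) (nat_lit 4) (nat_lit 457) (nat_lit 387) (nat_lit 356))) (XT.nd (nat_lit 78) (nat_lit 152) (nat_lit 0) (XT.lf (nat_lit 0) (nat_lit 27002158860) (nat_lit 76) (nat_lit 14063363443) (nat_lit 76) (nat_lit 11380832477) (nat_lit 16) (nat_lit 4) (nat_lit 17) (nat_lit 5) (nat_lit 17) (nat_lit 4) (nat_lit 458) (nat_lit 387) (nat_lit 355)) (XT.lf (nat_lit 0) (nat_lit 237365149) (nat_lit 76) (nat_lit 1175328423)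 (nat_lit 152) (nat_lit 54188469927) (nat_lit 14) (nat_lit 5) (nat_lit 15) (nat_lit 5) (nat_lit 16) (nat_lit 4) (nat_lit 459) (nat_lit 387) (nat_lit 354)))) (XT.nd (nat_lit 156) (nat_lit 76) (nat_lit 0) (XT.nd (nat_lit 78) (nat_lit 0) (nat_lit 0) (XT.lf (nat_lit 0) (nat_lit 15485179211) (nat_lit 152) (nat_lit 30461550373) (nat_lit 0) (nat_lit 12968352226) (nat_lit 14) (nat_lit 5) (nat_lit 16) (nat_lit 4) (nat_lit 14) (nat_lit 4) (nat_lit 460) (nat_lit 387) (nat_lit 353)) (XT.lf (nat_lit 0) (nat_lit 30575187383) (nat_lit 152) (nat_lit 3883919374) (nat_lit 0) (nat_lit 28043669328) (nat_lit 14) (nat_lit 5) (nat_lit 16) (nat_lit 4) (nat_lit 14) (nat_lit 4) (nat_lit 461) (nat_lit 387) (nat_lit 352))) (XT.nd (nat_lit 78) (nat_lit 0) (nat_lit 0) (XT.lf (nat_lit 0) (nat_lit 25847873723) (nat_lit 76) (nat_lit 21517641941) (nat_lit 76) (nat_lit 18972521044) (nat_lit 13) (nat_lit 4) (nat_lit 14) (nat_lit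 5) (nat_lit 14) (nat_lit 4) (nat_lit 462) (nat_lit 387) (nat_lit 351)) (XT.lf (nat_lit 0) (nat_lit 57920738972) (nat_lit 76) (nat_lit 7559308733) (nat_lit 76) (nat_lit 5001592613) (nat_lit 13) (nat_lit 4) (nat_lit 14) (nat_lit 5) (nat_lit 14) (nat_lit 4) (nat_lit 463) (nat_lit 387) (nat_lit 350))))))))
noncomputable def xc63 : XT := (XT.nd (nat_lit 2184) (nat_lit 76) (nat_lit 0) (XT.nd (nat_lit 1092) (nat_lit 228) (nat_lit 0) (XT.nd (nat_lit 546) (nat_lit 228) (nat_lit 0) (XT.nd (nat_lit 234) (nat_lit 152) (nat_lit 0) (XT.nd (nat_lit 78) (nat_lit 76) (nat_lit 0) (XT.lf (nat_lit 0) (nat_lit 10092011223) (nat_lit 152) (nat_lit 57091589134) (nat_lit 0) (nat_lit 7712957182) (nat_lit 11) (nat_lit 5) (nat_lit 13) (nat_lit 4) (nat_lit 11) (nat_lit 4) (nat_lit 464) (nat_lit 387) (nat_lit 349)) (XT.nd (nat_lit 78) (nat_lit 76) (nat_lit 0) (XT.lf (nat_lit 0) (nat_lit 26552728535) (nat_lit 152) (nat_lit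 28903483666) (nat_lit 0) (nat_lit 24163675999) (nat_lit 11) (nat_lit 5) (nat_lit 13) (nat_lit 4) (nat_lit 11) (nat_lit 4) (nat_lit 465) (nat_lit 387) (nat_lit 348)) (XT.lf (nat_lit 0) (nat_lit 1381393298) (nat_lit 76) (nat_lit 42872074740) (nat_lit 76) (nat_lit 40473764338) (nat_lit 10) (nat_lit 4) (nat_lit 11) (nat_lit 5) (nat_lit 11) (nat_lit 4) (nat_lit 466) (nat_lit 387) (nat_lit 347)))) (XT.nd (nat_lit 156) (nat_lit 152) (nat_lit 0) (XT.nd (nat_lit 78) (nat_lit 0) (nat_lit 0) (XT.lf (nat_lit 0) (nat_lit 35511203772) (nat_lit 76) (nat_lit 28542100037) (nat_lit 76) (nat_lit 26135217538) (nat_lit 10) (nat_lit 4) (nat_lit 11) (nat_lit 5) (nat_lit 11) (nat_lit 4) (nat_lit 467) (nat_lit 387) (nat_lit 346)) (XT.lf (nat_lit 0) (nat_lit 72166192255) (nat_lit 76) (nat_lit 13171642189) (nat_lit 76) (nat_lit 10756822563) (nat_lit 10) (nat_lit 4) (nat_lit 11) (nat_lit 5) (nat_lit 11) (nat_lit 4)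 (nat_lit 468) (nat_lit 387) (nat_lit 345))) (XT.nd (nat_lit 78) (nat_lit 0) (nat_lit 0) (XT.lf (nat_lit 0) (nat_lit 5780802052) (nat_lit 152) (nat_lit 93125434266) (nat_lit 0) (nat_lit 3538053146) (nat_lit 8) (nat_lit 5) (nat_lit 10) (nat_lit 4) (nat_lit 8) (nat_lit 4) (nat_lit 469) (nat_lit 387) (nat_lit 344)) (XT.lf (nat_lit 0) (nat_lit 23979380893) (nat_lit 152) (nat_lit 63496301347) (nat_lit 0) (nat_lit 21730331239) (nat_lit 8) (nat_lit 5) (nat_lit 10) (nat_lit 4) (nat_lit 8) (nat_lit 4) (nat_lit 470) (nat_lit 387) (nat_lit 343))))) (XT.nd (nat_lit 234) (nat_lit 152) (nat_lit 0) (XT.nd (nat_lit 78) (nat_lit 76) (nat_lit 0) (XT.lf (nat_lit 0) (nat_lit 43546560345) (nat_lit 152) (nat_lit 31677421419) (nat_lit 0) (nat_lit 41291676665) (nat_lit 8) (nat_lit 5) (nat_lit 10) (nat_lit 4) (nat_lit 8) (nat_lit 4) (nat_lit 471) (nat_lit 387) (nat_lit 342)) (XT.nd (nat_lit 78) (nat_lit 0) (nat_lit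 0) (XT.lf (nat_lit 0) (nat_lit 2652448035) (nat_lit 76) (nat_lit 62009637465) (nat_lit 76) (nat_lit 59749351910) (nat_lit 7) (nat_lit 4) (nat_lit 8) (nat_lit 5) (nat_lit 8) (nat_lit 4) (nat_lit 472) (nat_lit 387) (nat_lit 341)) (XT.lf (nat_lit 0) (nat_lit 41367256102) (nat_lit 76) (nat_lit 46886960461) (nat_lit 76) (nat_lit 44621673170) (nat_lit 7) (nat_lit 4) (nat_lit 8) (nat_lit 5) (nat_lit 8) (nat_lit 4) (nat_lit 473) (nat_lit 387) (nat_lit 340)))) (XT.nd (nat_lit 156) (nat_lit 152) (nat_lit 0) (XT.nd (nat_lit 78) (nat_lit 0) (nat_lit 0) (XT.lf (nat_lit 0) (nat_lit 83028346991) (nat_lit 76) (nat_lit 30632451727) (nat_lit 76) (nat_lit 28362533198) (nat_lit 7) (nat_lit 4) (nat_lit 8) (nat_lit 5) (nat_lit 8) (nat_lit 4) (nat_lit 474) (nat_lit 387) (nat_lit 339)) (XT.lf (nat_lit 0) (nat_lit 127882601240) (nat_lit 76) (nat_lit 13149788249) (nat_lit 76) (nat_lit 10875581536) (nat_lit 7) (nat_lit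 4) (nat_lit 8) (nat_lit 5) (nat_lit 8) (nat_lit 4) (nat_lit 475) (nat_lit 387) (nat_lit 338))) (XT.nd (nat_lit 78) (nat_lit 0) (nat_lit 0) (XT.lf (nat_lit 0) (nat_lit 8035151248) (nat_lit 152) (nat_lit 148573047648) (nat_lit 0) (nat_lit 5925727866) (nat_lit 5) (nat_lit 5) (nat_lit 7) (nat_lit 4) (nat_lit 5) (nat_lit 4) (nat_lit 476) (nat_lit 387) (nat_lit 337)) (XT.lf (nat_lit 0) (nat_lit 28822580204) (nat_lit 152) (nat_lit 118378915395) (nat_lit 0) (nat_lit 26709752724) (nat_lit 5) (nat_lit 5) (nat_lit 7) (nat_lit 4) (nat_lit 5) (nat_lit 4) (nat_lit 477) (nat_lit 387) (nat_lit 336)))))) (XT.nd (nat_lit 546) (nat_lit 152) (nat_lit 0) (XT.nd (nat_lit 234) (nat_lit 76) (nat_lit 0) (XT.nd (nat_lit 78) (nat_lit 0) (nat_lit 0) (XT.lf (nat_lit 0) (nat_lit 51213642427) (nat_lit 152) (nat_lit 85892199144) (nat_lit 0) (nat_lit 49097663005) (nat_lit 5) (nat_lit 5) (nat_lit 7) (nat_lit 4) (nat_lit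 5) (nat_lit 4) (nat_lit 478) (nat_lit 387) (nat_lit 335)) (XT.nd (nat_lit 78) (nat_lit 0) (nat_lit 0) (XT.lf (nat_lit 0) (nat_lit 75341025694) (nat_lit 152) (nat_lit 50920385023) (nat_lit 0) (nat_lit 73222127806) (nat_lit 5) (nat_lit 5) (nat_lit 7) (nat_lit 4) (nat_lit 5) (nat_lit 4) (nat_lit 479) (nat_lit 387) (nat_lit 334)) (XT.lf (nat_lit 0) (nat_lit 101347707090) (nat_lit 152) (nat_lit 13256232651) (nat_lit 0) (nat_lit 99226106920) (nat_lit 5) (nat_lit 5) (nat_lit 7) (nat_lit 4) (nat_lit 5) (nat_lit 4) (nat_lit 480) (nat_lit 387) (nat_lit 333)))) (XT.nd (nat_lit 156) (nat_lit 0) (nat_lit 0) (XT.nd (nat_lit 78) (nat_lit 0) (nat_lit 0) (XT.lf (nat_lit 0) (nat_lit 28762257559) (nat_lit 76) (nat_lit 101317275709) (nat_lit 76) (nat_lit 99193173426) (nat_lit 4) (nat_lit 4) (nat_lit 5) (nat_lit 5) (nat_lit 5) (nat_lit 4) (nat_lit 481) (nat_lit 387) (nat_lit 332)) (XT.lf (nat_lit 0) (nat_lit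 74800992582) (nat_lit 76) (nat_lit 86625441876) (nat_lit 76) (nat_lit 84499022821) (nat_lit 4) (nat_lit 4) (nat_lit 5) (nat_lit 5) (nat_lit 5) (nat_lit 4) (nat_lit 482) (nat_lit 387) (nat_lit 331))) (XT.nd (nat_lit 78) (nat_lit 0) (nat_lit 0) (XT.lf (nat_lit 0) (nat_lit 124434744830) (nat_lit 76) (nat_lit 70803824415) (nat_lit 76) (nat_lit 68675260201) (nat_lit 4) (nat_lit 4) (nat_lit 5) (nat_lit 5) (nat_lit 5) (nat_lit 4) (nat_lit 483) (nat_lit 387) (nat_lit 330)) (XT.lf (nat_lit 0) (nat_lit 177957640244) (nat_lit 76) (nat_lit 53758665594) (nat_lit 76) (nat_lit 51628115121) (nat_lit 4) (nat_lit 4) (nat_lit 5) (nat_lit 5) (nat_lit 5) (nat_lit 4) (nat_lit 484) (nat_lit 387) (nat_lit 329))))) (XT.nd (nat_lit 234) (nat_lit 0) (nat_lit 0) (XT.nd (nat_lit 78) (nat_lit 152) (nat_lit 0) (XT.lf (nat_lit 0) (nat_lit 235686851536) (nat_lit 76) (nat_lit 35388957064) (nat_lit 76) (nat_lit 33256567463)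 (nat_lit 4) (nat_lit 4) (nat_lit 5) (nat_lit 5) (nat_lit 5) (nat_lit 4) (nat_lit 485) (nat_lit 387) (nat_lit 328)) (XT.nd (nat_lit 78) (nat_lit 152) (nat_lit 0) (XT.lf (nat_lit 0) (nat_lit 297964477737) (nat_lit 76) (nat_lit 15585841293) (nat_lit 76) (nat_lit 13451748795) (nat_lit 4) (nat_lit 4) (nat_lit 5) (nat_lit 5) (nat_lit 5) (nat_lit 4) (nat_lit 486) (nat_lit 387) (nat_lit 327)) (XT.lf (nat_lit 0) (nat_lit 8002158925) (nat_lit 152) (nat_lit 337406275591) (nat_lit 0) (nat_lit 6024687394) (nat_lit 2) (nat_lit 5) (nat_lit 4) (nat_lit 4) (nat_lit 2) (nat_lit 4) (nat_lit 487) (nat_lit 387) (nat_lit 326)))) (XT.nd (nat_lit 156) (nat_lit 0) (nat_lit 0) (XT.nd (nat_lit 78) (nat_lit 0) (nat_lit 0) (XT.lf (nat_lit 0) (nat_lit 31632971447) (nat_lit 152) (nat_lit 316408602242) (nat_lit 0) (nat_lit 29654148101) (nat_lit 2) (nat_lit 5) (nat_lit 4) (nat_lit 4) (nat_lit 2) (nat_lit 4) (nat_lit 488)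 (nat_lit 387) (nat_lit 325)) (XT.lf (nat_lit 0) (nat_lit 57124571191) (nat_lit 152) (nat_lit 293792636560) (nat_lit 0) (nat_lit 55144496166) (nat_lit 2) (nat_lit 5) (nat_lit 4) (nat_lit 4) (nat_lit 2) (nat_lit 4) (nat_lit 489) (nat_lit 387) (nat_lit 324))) (XT.nd (nat_lit 78) (nat_lit 0) (nat_lit 0) (XT.lf (nat_lit 0) (nat_lit 84628019490) (nat_lit 152) (nat_lit 269424358007) (nat_lit 0) (nat_lit 82646785502) (nat_lit 2) (nat_lit 5) (nat_lit 4) (nat_lit 4) (nat_lit 2) (nat_lit 4) (nat_lit 490) (nat_lit 387) (nat_lit 323)) (XT.lf (nat_lit 0) (nat_lit 114306299740) (nat_lit 152) (nat_lit 243159361969) (nat_lit 0) (nat_lit 112323992639) (nat_lit 2) (nat_lit 5) (nat_lit 4) (nat_lit 4) (nat_lit 2) (nat_lit 4) (nat_lit 491) (nat_lit 387) (nat_lit 322))))))) (XT.nd (nat_lit 1092) (nat_lit 0) (nat_lit 0) (XT.nd (nat_lit 546) (nat_lit 0) (nat_lit 0) (XT.nd (nat_lit 234) (nat_lit 76) (nat_lit 0) (XT.nd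 (nat_lit 78) (nat_lit 0) (nat_lit 0) (XT.lf (nat_lit 0) (nat_lit 146335283233) (nat_lit 152) (nat_lit 214842004026) (nat_lit 0) (nat_lit 144351982508) (nat_lit 2) (nat_lit 5) (nat_lit 4) (nat_lit 4) (nat_lit 2) (nat_lit 4) (nat_lit 492) (nat_lit 387) (nat_lit 321)) (XT.nd (nat_lit 78) (nat_lit 0) (nat_lit 0) (XT.lf (nat_lit 0) (nat_lit 180904771351) (nat_lit 152) (nat_lit 184304477612) (nat_lit 0) (nat_lit 178920550604) (nat_lit 2) (nat_lit 5) (nat_lit 4) (nat_lit 4) (nat_lit 2) (nat_lit 4) (nat_lit 493) (nat_lit 387) (nat_lit 320)) (XT.lf (nat_lit 0) (nat_lit 218219620321) (nat_lit 152) (nat_lit 151365819607) (nat_lit 0) (nat_lit 216234547702) (nat_lit 2) (nat_lit 5) (nat_lit 4) (nat_lit 4) (nat_lit 2) (nat_lit 4) (nat_lit 494) (nat_lit 387) (nat_lit 319)))) (XT.nd (nat_lit 156) (nat_lit 76) (nat_lit 0) (XT.nd (nat_lit 78) (nat_lit 0) (nat_lit 0) (XT.lf (nat_lit 0) (nat_lit 258500955174)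 (nat_lit 152) (nat_lit 115830837964) (nat_lit 0) (nat_lit 256515093785) (nat_lit 2) (nat_lit 5) (nat_lit 4) (nat_lit 4) (nat_lit 2) (nat_lit 4) (nat_lit 495) (nat_lit 387) (nat_lit 318)) (XT.lf (nat_lit 0) (nat_lit 301987480116) (nat_lit 152) (nat_lit 77488955015) (nat_lit 0) (nat_lit 300000888383) (nat_lit 2) (nat_lit 5) (nat_lit 4) (nat_lit 4) (nat_lit 2) (nat_lit 4) (nat_lit 496) (nat_lit 387) (nat_lit 317))) (XT.nd (nat_lit 78) (nat_lit 76) (nat_lit 0) (XT.lf (nat_lit 0) (nat_lit 348936893073) (nat_lit 152) (nat_lit 36112959600) (nat_lit 0) (nat_lit 346949625097) (nat_lit 2) (nat_lit 5) (nat_lit 4) (nat_lit 4) (nat_lit 2) (nat_lit 4) (nat_lit 497) (nat_lit 387) (nat_lit 316)) (XT.lf (nat_lit 0) (nat_lit 8992163816) (nat_lit 76) (nat_lit 390851510728) (nat_lit 76) (nat_lit 388863616600) (nat_lit 1) (nat_lit 4) (nat_lit 2) (nat_lit 5) (nat_lit 2) (nat_lit 4) (nat_lit 498) (nat_lit 387)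 (nat_lit 315))))) (XT.nd (nat_lit 234) (nat_lit 0) (nat_lit 0) (XT.nd (nat_lit 78) (nat_lit 0) (nat_lit 0) (XT.lf (nat_lit 0) (nat_lit 59729476175) (nat_lit 76) (nat_lit 396066446690) (nat_lit 76) (nat_lit 394077972792) (nat_lit 1) (nat_lit 4) (nat_lit 2) (nat_lit 5) (nat_lit 2) (nat_lit 4) (nat_lit 499) (nat_lit 387) (nat_lit 314)) (XT.nd (nat_lit 78) (nat_lit 0) (nat_lit 0) (XT.lf (nat_lit 0) (nat_lit 114497998575) (nat_lit 76) (nat_lit 401712956197) (nat_lit 76) (nat_lit 399723945475) (nat_lit 1) (nat_lit 4) (nat_lit 2) (nat_lit 5) (nat_lit 2) (nat_lit 4) (nat_lit 500) (nat_lit 387) (nat_lit 313)) (XT.lf (nat_lit 0) (nat_lit 173622285224) (nat_lit 76) (nat_lit 407824500046) (nat_lit 76) (nat_lit 405834992265) (nat_lit 1) (nat_lit 4) (nat_lit 2) (nat_lit 5) (nat_lit 2) (nat_lit 4) (nat_lit 501) (nat_lit 387) (nat_lit 312)))) (XT.nd (nat_lit 156) (nat_lit 0) (nat_lit 0) (XT.nd (nat_lit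 78) (nat_lit 0) (nat_lit 0) (XT.lf (nat_lit 0) (nat_lit 237452702265) (nat_lit 76) (nat_lit 414437294794) (nat_lit 76) (nat_lit 412447326772) (nat_lit 1) (nat_lit 4) (nat_lit 2) (nat_lit 5) (nat_lit 2) (nat_lit 4) (nat_lit 502) (nat_lit 387) (nat_lit 311)) (XT.lf (nat_lit 0) (nat_lit 306367504021) (nat_lit 76) (nat_lit 421590527371) (nat_lit 76) (nat_lit 419600133201) (nat_lit 1) (nat_lit 4) (nat_lit 2) (nat_lit 5) (nat_lit 2) (nat_lit 4) (nat_lit 503) (nat_lit 387) (nat_lit 310))) (XT.nd (nat_lit 78) (nat_lit 0) (nat_lit 0) (XT.lf (nat_lit 0) (nat_lit 380775074502) (nat_lit 76) (nat_lit 429326587305) (nat_lit 76) (nat_lit 427335798554) (nat_lit 1) (nat_lit 4) (nat_lit 2) (nat_lit 5) (nat_lit 2) (nat_lit 4) (nat_lit 504) (nat_lit 387) (nat_lit 309)) (XT.lf (nat_lit 0) (nat_lit 461116347459) (nat_lit 76) (nat_lit 437691317913) (nat_lit 76) (nat_lit 435700163809) (nat_lit 1) (nat_lit 4) (nat_lit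 2) (nat_lit 5) (nat_lit 2) (nat_lit 4) (nat_lit 505) (nat_lit 387) (nat_lit 308)))))) (XT.nd (nat_lit 546) (nat_lit 0) (nat_lit 0) (XT.nd (nat_lit 234) (nat_lit 0) (nat_lit 0) (XT.nd (nat_lit 78) (nat_lit 0) (nat_lit 0) (XT.lf (nat_lit 0) (nat_lit 547867419325) (nat_lit 76) (nat_lit 446734287970) (nat_lit 76) (nat_lit 444742795575) (nat_lit 1) (nat_lit 4) (nat_lit 2) (nat_lit 5) (nat_lit 2) (nat_lit 4) (nat_lit 506) (nat_lit 387) (nat_lit 307)) (XT.nd (nat_lit 78) (nat_lit 0) (nat_lit 0) (XT.lf (nat_lit 0) (nat_lit 641542370525) (nat_lit 76) (nat_lit 456509085446) (nat_lit 76) (nat_lit 454517279820) (nat_lit 1) (nat_lit 4) (nat_lit 2) (nat_lit 5) (nat_lit 2) (nat_lit 4) (nat_lit 507) (nat_lit 387) (nat_lit 306)) (XT.lf (nat_lit 0) (nat_lit 742696311882) (nat_lit 76) (nat_lit 467073635067) (nat_lit 76) (nat_lit 465081539412) (nat_lit 1) (nat_lit 4) (nat_lit 2) (nat_lit 5) (nat_lit 2) (nat_lit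 4) (nat_lit 508) (nat_lit 387) (nat_lit 305)))) (XT.nd (nat_lit 156) (nat_lit 0) (nat_lit 0) (XT.nd (nat_lit 78) (nat_lit 0) (nat_lit 0) (XT.lf (nat_lit 0) (nat_lit 851928674159) (nat_lit 76) (nat_lit 478490541572) (nat_lit 76) (nat_lit 476498177371) (nat_lit 1) (nat_lit 4) (nat_lit 2) (nat_lit 5) (nat_lit 2) (nat_lit 4) (nat_lit 509) (nat_lit 387) (nat_lit 304)) (XT.lf (nat_lit 0) (nat_lit 969886760244) (nat_lit 76) (nat_lit 490827460702) (nat_lit 76) (nat_lit 488834847848) (nat_lit 1) (nat_lit 4) (nat_lit 2) (nat_lit 5) (nat_lit 2) (nat_lit 4) (nat_lit 510) (nat_lit 387) (nat_lit 303))) (XT.nd (nat_lit 78) (nat_lit 0) (nat_lit 0) (XT.lf (nat_lit 0) (nat_lit 1097269581017) (nat_lit 76) (nat_lit 504157500127) (nat_lit 76) (nat_lit 502164657038) (nat_lit 1) (nat_lit 4) (nat_lit 2) (nat_lit 5) (nat_lit 2) (nat_lit 4) (nat_lit 511) (nat_lit 387) (nat_lit 302)) (XT.lf (nat_lit 0) (nat_lit 1234831997638)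 (nat_lit 76) (nat_lit 518559652673) (nat_lit 76) (nat_lit 516566596404) (nat_lit 1) (nat_lit 4) (nat_lit 2) (nat_lit 5) (nat_lit 2) (nat_lit 4) (nat_lit 512) (nat_lit 387) (nat_lit 301))))) (XT.nd (nat_lit 312) (nat_lit 0) (nat_lit 0) (XT.nd (nat_lit 156) (nat_lit 0) (nat_lit 0) (XT.nd (nat_lit 78) (nat_lit 0) (nat_lit 0) (XT.lf (nat_lit 0) (nat_lit 1383389194798) (nat_lit 76) (nat_lit 534119264430) (nat_lit 76) (nat_lit 532126010771) (nat_lit 1) (nat_lit 4) (nat_lit 2) (nat_lit 5) (nat_lit 2) (nat_lit 4) (nat_lit 513) (nat_lit 387) (nat_lit 300)) (XT.lf (nat_lit 0) (nat_lit 1543821511444) (nat_lit 76) (nat_lit 550928540502) (nat_lit 76) (nat_lit 548935104076) (nat_lit 1) (nat_lit 4) (nat_lit 2) (nat_lit 5) (nat_lit 2) (nat_lit 4) (nat_lit 514) (nat_lit 387) (nat_lit 299))) (XT.nd (nat_lit 78) (nat_lit 0) (nat_lit 0) (XT.lf (nat_lit 0) (nat_lit 1717079657600) (nat_lit 76) (nat_lit 569087091417)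 (nat_lit 76) (nat_lit 567093485762) (nat_lit 1) (nat_lit 4) (nat_lit 2) (nat_lit 5) (nat_lit 2) (nat_lit 4) (nat_lit 515) (nat_lit 387) (nat_lit 298)) (XT.lf (nat_lit 0) (nat_lit 1904190348206) (nat_lit 76) (nat_lit 588702523401) (nat_lit 76) (nat_lit 586708761052) (nat_lit 1) (nat_lit 4) (nat_lit 2) (nat_lit 5) (nat_lit 2) (nat_lit 4) (nat_lit 516) (nat_lit 387) (nat_lit 297)))) (XT.nd (nat_lit 156) (nat_lit 0) (nat_lit 0) (XT.nd (nat_lit 78) (nat_lit 0) (nat_lit 0) (XT.lf (nat_lit 0) (nat_lit 2106262387355) (nat_lit 76) (nat_lit 609891076051) (nat_lit 76) (nat_lit 607897168615) (nat_lit 1) (nat_lit 4) (nat_lit 2) (nat_lit 5) (nat_lit 2) (nat_lit 4) (nat_lit 517) (nat_lit 387) (nat_lit 296)) (XT.lf (nat_lit 0) (nat_lit 2324493238982) (nat_lit 76) (nat_lit 632778311161) (nat_lit 76) (nat_lit 630784269385) (nat_lit 1) (nat_lit 4) (nat_lit 2) (nat_lit 5) (nat_lit 2) (nat_lit 4) (nat_lit 518)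 (nat_lit 387) (nat_lit 295))) (XT.nd (nat_lit 78) (nat_lit 0) (nat_lit 0) (XT.lf (nat_lit 0) (nat_lit 2560176122949) (nat_lit 76) (nat_lit 657499856790) (nat_lit 76) (nat_lit 655505690626) (nat_lit 1) (nat_lit 4) (nat_lit 2) (nat_lit 5) (nat_lit 2) (nat_lit 4) (nat_lit 519) (nat_lit 387) (nat_lit 294)) (XT.lf (nat_lit 0) (nat_lit 2814707678568) (nat_lit 76) (nat_lit 684202210987) (nat_lit 76) (nat_lit 682207929648) (nat_lit 1) (nat_lit 4) (nat_lit 2) (nat_lit 5) (nat_lit 2) (nat_lit 4) (nat_lit 520) (nat_lit 387) (nat_lit 293))))))))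
noncomputable def xc64 : XT := (XT.nd (nat_lit 55146) (nat_lit 0) (nat_lit 1444) (XT.nd (nat_lit 1092) (nat_lit 0) (nat_lit 0) (XT.nd (nat_lit 546) (nat_lit 0) (nat_lit 0) (XT.nd (nat_lit 234) (nat_lit 0) (nat_lit 0) (XT.nd (nat_lit 78) (nat_lit 0) (nat_lit 0) (XT.lf (nat_lit 0) (nat_lit 3089596240985) (nat_lit 76) (nat_lit 713043609925) (nat_lit 76) (nat_lit 711049221943) (nat_lit 1) (nat_lit 4) (nat_lit 2) (nat_lit 5) (nat_lit 2) (nat_lit 4) (nat_lit 521) (nat_lit 387) (nat_lit 292)) (XT.nd (nat_lit 78) (nat_lit 0) (nat_lit 0) (XT.lf (nat_lit 0) (nat_lit 3386470779456) (nat_lit 76) (nat_lit 744194965598) (nat_lit 76) (nat_lit 742200478872) (nat_lit 1) (nat_lit 4) (nat_lit 2) (nat_lit 5) (nat_lit 2) (nat_lit 4) (nat_lit 522) (nat_lit 387) (nat_lit 291)) (XT.lf (nat_lit 0) (nat_lit 3707090550508) (nat_lit 76) (nat_lit 777840878631) (nat_lit 76) (nat_lit 775846300476) (nat_lit 1) (nat_lit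 4) (nat_lit 2) (nat_lit 5) (nat_lit 2) (nat_lit 4) (nat_lit 523) (nat_lit 387) (nat_lit 290)))) (XT.nd (nat_lit 156) (nat_lit 0) (nat_lit 0) (XT.nd (nat_lit 78) (nat_lit 0) (nat_lit 0) (XT.lf (nat_lit 0) (nat_lit 4053355523152) (nat_lit 76) (nat_lit 814180732214) (nat_lit 76) (nat_lit 812186069402) (nat_lit 1) (nat_lit 4) (nat_lit 2) (nat_lit 5) (nat_lit 2) (nat_lit 4) (nat_lit 524) (nat_lit 387) (nat_lit 289)) (XT.lf (nat_lit 0) (nat_lit 4427317637969) (nat_lit 76) (nat_lit 853429873626) (nat_lit 76) (nat_lit 851435132428) (nat_lit 1) (nat_lit 4) (nat_lit 2) (nat_lit 5) (nat_lit 2) (nat_lit 4) (nat_lit 525) (nat_lit 387) (nat_lit 288))) (XT.nd (nat_lit 78) (nat_lit 0) (nat_lit 0) (XT.lf (nat_lit 0) (nat_lit 4831192966749) (nat_lit 76) (nat_lit 895820890372) (nat_lit 76) (nat_lit 893826076594) (nat_lit 1) (nat_lit 4) (nat_lit 2) (nat_lit 5) (nat_lit 2) (nat_lit 4) (nat_lit 526) (nat_lit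 387) (nat_lit 287)) (XT.lf (nat_lit 0) (nat_lit 5267374844775) (nat_lit 76) (nat_lit 941604988477) (nat_lit 76) (nat_lit 939610107497) (nat_lit 1) (nat_lit 4) (nat_lit 2) (nat_lit 5) (nat_lit 2) (nat_lit 4) (nat_lit 527) (nat_lit 387) (nat_lit 286))))) (XT.nd (nat_lit 234) (nat_lit 0) (nat_lit 0) (XT.nd (nat_lit 78) (nat_lit 0) (nat_lit 0) (XT.lf (nat_lit 0) (nat_lit 5738448053545) (nat_lit 76) (nat_lit 991053481116) (nat_lit 76) (nat_lit 989058537910) (nat_lit 1) (nat_lit 4) (nat_lit 2) (nat_lit 5) (nat_lit 2) (nat_lit 4) (nat_lit 528) (nat_lit 387) (nat_lit 285)) (XT.nd (nat_lit 78) (nat_lit 0) (nat_lit 0) (XT.lf (nat_lit 0) (nat_lit 6247204138000) (nat_lit 76) (nat_lit 1044459396393) (nat_lit 76) (nat_lit 1042464395571) (nat_lit 1) (nat_lit 4) (nat_lit 2) (nat_lit 5) (nat_lit 2) (nat_lit 4) (nat_lit 529) (nat_lit 387) (nat_lit 284)) (XT.lf (nat_lit 0) (nat_lit 6796657949012) (nat_lit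 76) (nat_lit 1102139213806) (nat_lit 76) (nat_lit 1100144159636) (nat_lit 1) (nat_lit 4) (nat_lit 2) (nat_lit 5) (nat_lit 2) (nat_lit 4) (nat_lit 530) (nat_lit 387) (nat_lit 283)))) (XT.nd (nat_lit 156) (nat_lit 0) (nat_lit 0) (XT.nd (nat_lit 78) (nat_lit 0) (nat_lit 0) (XT.lf (nat_lit 0) (nat_lit 7390065509164) (nat_lit 76) (nat_lit 1164434739680) (nat_lit 76) (nat_lit 1162439636113) (nat_lit 1) (nat_lit 4) (nat_lit 2) (nat_lit 5) (nat_lit 2) (nat_lit 4) (nat_lit 531) (nat_lit 387) (nat_lit 282)) (XT.lf (nat_lit 0) (nat_lit 8030943307701) (nat_lit 76) (nat_lit 1231715132687) (nat_lit 76) (nat_lit 1229719983383) (nat_lit 1) (nat_lit 4) (nat_lit 2) (nat_lit 5) (nat_lit 2) (nat_lit 4) (nat_lit 532) (nat_lit 387) (nat_lit 281))) (XT.nd (nat_lit 78) (nat_lit 0) (nat_lit 0) (XT.lf (nat_lit 0) (nat_lit 8723089138986) (nat_lit 76) (nat_lit 1304379091452) (nat_lit 76) (nat_lit 1302383899799) (nat_lit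 1) (nat_lit 4) (nat_lit 2) (nat_lit 5) (nat_lit 2) (nat_lit 4) (nat_lit 533) (nat_lit 387) (nat_lit 280)) (XT.lf (nat_lit 0) (nat_lit 9470604607944) (nat_lit 76) (nat_lit 1382857217213) (nat_lit 76) (nat_lit 1380861986347) (nat_lit 1) (nat_lit 4) (nat_lit 2) (nat_lit 5) (nat_lit 2) (nat_lit 4) (nat_lit 534) (nat_lit 387) (nat_lit 279)))))) (XT.nd (nat_lit 546) (nat_lit 0) (nat_lit 0) (XT.nd (nat_lit 234) (nat_lit 0) (nat_lit 0) (XT.nd (nat_lit 78) (nat_lit 0) (nat_lit 0) (XT.lf (nat_lit 0) (nat_lit 10277919435872) (nat_lit 76) (nat_lit 1467614565529) (nat_lit 76) (nat_lit 1465619298355) (nat_lit 1) (nat_lit 4) (nat_lit 2) (nat_lit 5) (nat_lit 2) (nat_lit 4) (nat_lit 535) (nat_lit 387) (nat_lit 278)) (XT.nd (nat_lit 78) (nat_lit 0) (nat_lit 0) (XT.lf (nat_lit 0) (nat_lit 11149817710641) (nat_lit 76) (nat_lit 1559153402168) (nat_lit 76) (nat_lit 1557158101376) (nat_lit 1) (nat_lit 4) (nat_lit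 2) (nat_lit 5) (nat_lit 2) (nat_lit 4) (nat_lit 536) (nat_lit 387) (nat_lit 277)) (XT.lf (nat_lit 0) (nat_lit 12091466236840) (nat_lit 76) (nat_lit 1658016179497) (nat_lit 76) (nat_lit 1656020847576) (nat_lit 1) (nat_lit 4) (nat_lit 2) (nat_lit 5) (nat_lit 2) (nat_lit 4) (nat_lit 537) (nat_lit 387) (nat_lit 276)))) (XT.nd (nat_lit 156) (nat_lit 0) (nat_lit 0) (XT.nd (nat_lit 78) (nat_lit 0) (nat_lit 0) (XT.lf (nat_lit 0) (nat_lit 13108445153886) (nat_lit 76) (nat_lit 1764788751008) (nat_lit 76) (nat_lit 1762793390266) (nat_lit 1) (nat_lit 4) (nat_lit 2) (nat_lit 5) (nat_lit 2) (nat_lit 4) (nat_lit 538) (nat_lit 387) (nat_lit 275)) (XT.lf (nat_lit 0) (nat_lit 14206781003508) (nat_lit 76) (nat_lit 1880103843054) (nat_lit 76) (nat_lit 1878108455624) (nat_lit 1) (nat_lit 4) (nat_lit 2) (nat_lit 5) (nat_lit 2) (nat_lit 4) (nat_lit 539) (nat_lit 387) (nat_lit 274))) (XT.nd (nat_lit 78) (nat_lit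 0) (nat_lit 0) (XT.lf (nat_lit 0) (nat_lit 15392982442592) (nat_lit 76) (nat_lit 2004644804326) (nat_lit 76) (nat_lit 2002649392186) (nat_lit 1) (nat_lit 4) (nat_lit 2) (nat_lit 5) (nat_lit 2) (nat_lit 4) (nat_lit 540) (nat_lit 387) (nat_lit 273)) (XT.lf (nat_lit 0) (nat_lit 16674078813002) (nat_lit 76) (nat_lit 2139149655337) (nat_lit 76) (nat_lit 2137154220317) (nat_lit 1) (nat_lit 4) (nat_lit 2) (nat_lit 5) (nat_lit 2) (nat_lit 4) (nat_lit 541) (nat_lit 387) (nat_lit 272))))) (XT.nd (nat_lit 234) (nat_lit 0) (nat_lit 0) (XT.nd (nat_lit 78) (nat_lit 0) (nat_lit 0) (XT.lf (nat_lit 0) (nat_lit 18057661796930) (nat_lit 76) (nat_lit 2284415461870) (nat_lit 76) (nat_lit 2282420005665) (nat_lit 1) (nat_lit 4) (nat_lit 2) (nat_lit 5) (nat_lit 2) (nat_lit 4) (nat_lit 542) (nat_lit 387) (nat_lit 271)) (XT.nd (nat_lit 78) (nat_lit 0) (nat_lit 0) (XT.lf (nat_lit 0) (nat_lit 19551930404653) (nat_lit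 76) (nat_lit 2441303058335) (nat_lit 76) (nat_lit 2439307582513) (nat_lit 1) (nat_lit 4) (nat_lit 2) (nat_lit 5) (nat_lit 2) (nat_lit 4) (nat_lit 543) (nat_lit 387) (nat_lit 270)) (XT.lf (nat_lit 0) (nat_lit 21165739561253) (nat_lit 76) (nat_lit 2610742149006) (nat_lit 76) (nat_lit 2608746655021) (nat_lit 1) (nat_lit 4) (nat_lit 2) (nat_lit 5) (nat_lit 2) (nat_lit 4) (nat_lit 544) (nat_lit 387) (nat_lit 269)))) (XT.nd (nat_lit 53118) (nat_lit 0) (nat_lit 3800) (XT.nd (nat_lit 53040) (nat_lit 0) (nat_lit 4104) (XT.lf (nat_lit 0) (nat_lit 22908652580251) (nat_lit 76) (nat_lit 2793736817384) (nat_lit 76) (nat_lit 2791741306581) (nat_lit 1) (nat_lit 4) (nat_lit 2) (nat_lit 5) (nat_lit 2) (nat_lit 4) (nat_lit 545) (nat_lit 387) (nat_lit 268)) (XT.lf (nat_lit 0) (nat_lit 1034905530) (nat_lit 152) (nat_lit 3271700770) (nat_lit 0) (nat_lit 1034905530) (nat_lit 55) (nat_lit 5) (nat_lit 57) (nat_lit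 4) (nat_lit 55) (nat_lit 4) (nat_lit 424) (nat_lit 388) (nat_lit 388))) (XT.nd (nat_lit 78) (nat_lit 152) (nat_lit 0) (XT.lf (nat_lit 0) (nat_lit 3391837473) (nat_lit 152) (nat_lit 4131110517) (nat_lit 152) (nat_lit 3540374211) (nat_lit 53) (nat_lit 4) (nat_lit 55) (nat_lit 5) (nat_lit 55) (nat_lit 4) (nat_lit 425) (nat_lit 388) (nat_lit 387)) (XT.lf (nat_lit 0) (nat_lit 1800148832) (nat_lit 152) (nat_lit 8926764932) (nat_lit 0) (nat_lit 746709605) (nat_lit 51) (nat_lit 5) (nat_lit 53) (nat_lit 4) (nat_lit 51) (nat_lit 4) (nat_lit 426) (nat_lit 388) (nat_lit 386))))))) (XT.nd (nat_lit 1092) (nat_lit 988) (nat_lit 0) (XT.nd (nat_lit 546) (nat_lit 608) (nat_lit 0) (XT.nd (nat_lit 234) (nat_lit 456) (nat_lit 0) (XT.nd (nat_lit 78) (nat_lit 152) (nat_lit 0) (XT.lf (nat_lit 0) (nat_lit 1437792733) (nat_lit 152) (nat_lit 5994761758) (nat_lit 152) (nat_lit 4472377006) (nat_lit 49) (nat_lit 4) (nat_lit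 51) (nat_lit 5) (nat_lit 51) (nat_lit 4) (nat_lit 427) (nat_lit 388) (nat_lit 385)) (XT.nd (nat_lit 78) (nat_lit 0) (nat_lit 0) (XT.lf (nat_lit 0) (nat_lit 214532753) (nat_lit 76) (nat_lit 829277979) (nat_lit 152) (nat_lit 11328240038) (nat_lit 47) (nat_lit 5) (nat_lit 48) (nat_lit 5) (nat_lit 49) (nat_lit 4) (nat_lit 428) (nat_lit 388) (nat_lit 384)) (XT.lf (nat_lit 0) (nat_lit 6871561171) (nat_lit 152) (nat_lit 1299107348) (nat_lit 0) (nat_lit 4687636380) (nat_lit 47) (nat_lit 5) (nat_lit 49) (nat_lit 4) (nat_lit 47) (nat_lit 4) (nat_lit 429) (nat_lit 388) (nat_lit 383)))) (XT.nd (nat_lit 156) (nat_lit 228) (nat_lit 0) (XT.nd (nat_lit 78) (nat_lit 152) (nat_lit 0) (XT.lf (nat_lit 0) (nat_lit 10414784503) (nat_lit 76) (nat_lit 2748729607) (nat_lit 76) (nat_lit 220115855) (nat_lit 46) (nat_lit 4) (nat_lit 47) (nat_lit 5) (nat_lit 47) (nat_lit 4) (nat_lit 430) (nat_lit 388) (nat_lit 382))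 (XT.lf (nat_lit 0) (nat_lit 5766316095) (nat_lit 152) (nat_lit 5038901058) (nat_lit 0) (nat_lit 3129491839) (nat_lit 44) (nat_lit 5) (nat_lit 46) (nat_lit 4) (nat_lit 44) (nat_lit 4) (nat_lit 431) (nat_lit 388) (nat_lit 381))) (XT.nd (nat_lit 78) (nat_lit 152) (nat_lit 0) (XT.lf (nat_lit 0) (nat_lit 7115313145) (nat_lit 76) (nat_lit 5160056338) (nat_lit 76) (nat_lit 2249606873) (nat_lit 43) (nat_lit 4) (nat_lit 44) (nat_lit 5) (nat_lit 44) (nat_lit 4) (nat_lit 432) (nat_lit 388) (nat_lit 380)) (XT.lf (nat_lit 0) (nat_lit 3954034100) (nat_lit 152) (nat_lit 10174395911) (nat_lit 0) (nat_lit 1024583970) (nat_lit 41) (nat_lit 5) (nat_lit 43) (nat_lit 4) (nat_lit 41) (nat_lit 4) (nat_lit 433) (nat_lit 388) (nat_lit 379))))) (XT.nd (nat_lit 234) (nat_lit 380) (nat_lit 0) (XT.nd (nat_lit 78) (nat_lit 152) (nat_lit 0) (XT.lf (nat_lit 0) (nat_lit 2365314102) (nat_lit 76) (nat_lit 8298722911) (nat_lit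 76) (nat_lit 5152060267) (nat_lit 40) (nat_lit 4) (nat_lit 41) (nat_lit 5) (nat_lit 41) (nat_lit 4) (nat_lit 434) (nat_lit 388) (nat_lit 378)) (XT.nd (nat_lit 78) (nat_lit 76) (nat_lit 0) (XT.lf (nat_lit 0) (nat_lit 1328763843) (nat_lit 152) (nat_lit 583956546) (nat_lit 76) (nat_lit 14615330194) (nat_lit 39) (nat_lit 5) (nat_lit 41) (nat_lit 5) (nat_lit 40) (nat_lit 4) (nat_lit 435) (nat_lit 388) (nat_lit 377)) (XT.lf (nat_lit 0) (nat_lit 8250603123) (nat_lit 152) (nat_lit 4041212924) (nat_lit 0) (nat_lit 4978371584) (nat_lit 38) (nat_lit 5) (nat_lit 40) (nat_lit 4) (nat_lit 38) (nat_lit 4) (nat_lit 436) (nat_lit 388) (nat_lit 376)))) (XT.nd (nat_lit 156) (nat_lit 152) (nat_lit 0) (XT.nd (nat_lit 78) (nat_lit 152) (nat_lit 0) (XT.lf (nat_lit 0) (nat_lit 10080588483) (nat_lit 76) (nat_lit 5708965734) (nat_lit 76) (nat_lit 2277076515) (nat_lit 37) (nat_lit 4) (nat_lit 38) (nat_lit 5) (nat_lit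 38) (nat_lit 4) (nat_lit 437) (nat_lit 388) (nat_lit 375)) (XT.lf (nat_lit 0) (nat_lit 4814127783) (nat_lit 152) (nat_lit 12598691385) (nat_lit 0) (nat_lit 1499571851) (nat_lit 35) (nat_lit 5) (nat_lit 37) (nat_lit 4) (nat_lit 35) (nat_lit 4) (nat_lit 438) (nat_lit 388) (nat_lit 374))) (XT.nd (nat_lit 78) (nat_lit 76) (nat_lit 0) (XT.lf (nat_lit 0) (nat_lit 1794828316) (nat_lit 76) (nat_lit 10726891953) (nat_lit 76) (nat_lit 7285594606) (nat_lit 34) (nat_lit 4) (nat_lit 35) (nat_lit 5) (nat_lit 35) (nat_lit 4) (nat_lit 439) (nat_lit 388) (nat_lit 373)) (XT.lf (nat_lit 0) (nat_lit 179041983) (nat_lit 152) (nat_lit 3186243184) (nat_lit 76) (nat_lit 17399566833) (nat_lit 33) (nat_lit 5) (nat_lit 35) (nat_lit 5) (nat_lit 34) (nat_lit 4) (nat_lit 440) (nat_lit 388) (nat_lit 372)))))) (XT.nd (nat_lit 546) (nat_lit 456) (nat_lit 0) (XT.nd (nat_lit 234) (nat_lit 228) (nat_lit 0) (XT.nd (nat_lit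 78) (nat_lit 228) (nat_lit 0) (XT.lf (nat_lit 0) (nat_lit 8048706208) (nat_lit 152) (nat_lit 9065984213) (nat_lit 0) (nat_lit 4653048018) (nat_lit 32) (nat_lit 5) (nat_lit 34) (nat_lit 4) (nat_lit 32) (nat_lit 4) (nat_lit 441) (nat_lit 388) (nat_lit 371)) (XT.nd (nat_lit 78) (nat_lit 152) (nat_lit 0) (XT.lf (nat_lit 0) (nat_lit 7008548719) (nat_lit 76) (nat_lit 9660710607) (nat_lit 76) (nat_lit 6171893694) (nat_lit 31) (nat_lit 4) (nat_lit 32) (nat_lit 5) (nat_lit 32) (nat_lit 4) (nat_lit 442) (nat_lit 388) (nat_lit 370)) (XT.lf (nat_lit 0) (nat_lit 420149232) (nat_lit 76) (nat_lit 1500631644) (nat_lit 152) (nat_lit 22072593327) (nat_lit 29) (nat_lit 5) (nat_lit 30) (nat_lit 5) (nat_lit 31) (nat_lit 4) (nat_lit 443) (nat_lit 388) (nat_lit 369)))) (XT.nd (nat_lit 156) (nat_lit 152) (nat_lit 0) (XT.nd (nat_lit 78) (nat_lit 76) (nat_lit 0) (XT.lf (nat_lit 0) (nat_lit 10724427165) (nat_lit 152)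 (nat_lit 7128543007) (nat_lit 0) (nat_lit 7340220144) (nat_lit 29) (nat_lit 5) (nat_lit 31) (nat_lit 4) (nat_lit 29) (nat_lit 4) (nat_lit 444) (nat_lit 388) (nat_lit 368)) (XT.lf (nat_lit 0) (nat_lit 10710436021) (nat_lit 76) (nat_lit 9612016019) (nat_lit 76) (nat_lit 6159334556) (nat_lit 28) (nat_lit 4) (nat_lit 29) (nat_lit 5) (nat_lit 29) (nat_lit 4) (nat_lit 445) (nat_lit 388) (nat_lit 367))) (XT.nd (nat_lit 78) (nat_lit 0) (nat_lit 0) (XT.lf (nat_lit 0) (nat_lit 2139998541) (nat_lit 76) (nat_lit 579271778) (nat_lit 152) (nat_lit 25145167482) (nat_lit 26) (nat_lit 5) (nat_lit 27) (nat_lit 5) (nat_lit 28) (nat_lit 4) (nat_lit 446) (nat_lit 388) (nat_lit 366)) (XT.lf (nat_lit 0) (nat_lit 12432786118) (nat_lit 152) (nat_lit 7752731077) (nat_lit 0) (nat_lit 9122795819) (nat_lit 26) (nat_lit 5) (nat_lit 28) (nat_lit 4) (nat_lit 26) (nat_lit 4) (nat_lit 447) (nat_lit 388) (nat_lit 365)))))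 (XT.nd (nat_lit 234) (nat_lit 228) (nat_lit 0) (XT.nd (nat_lit 78) (nat_lit 152) (nat_lit 0) (XT.lf (nat_lit 0) (nat_lit 11846455816) (nat_lit 76) (nat_lit 11186403374) (nat_lit 76) (nat_lit 7826082315) (nat_lit 25) (nat_lit 4) (nat_lit 26) (nat_lit 5) (nat_lit 26) (nat_lit 4) (nat_lit 448) (nat_lit 388) (nat_lit 364)) (XT.nd (nat_lit 78) (nat_lit 0) (nat_lit 0) (XT.lf (nat_lit 0) (nat_lit 523654177) (nat_lit 76) (nat_lit 1366046684) (nat_lit 152) (nat_lit 30636990265) (nat_lit 23) (nat_lit 5) (nat_lit 24) (nat_lit 5) (nat_lit 25) (nat_lit 4) (nat_lit 449) (nat_lit 388) (nat_lit 363)) (XT.lf (nat_lit 0) (nat_lit 12525574812) (nat_lit 152) (nat_lit 12409712064) (nat_lit 0) (nat_lit 9331061730) (nat_lit 23) (nat_lit 5) (nat_lit 25) (nat_lit 4) (nat_lit 23) (nat_lit 4) (nat_lit 450) (nat_lit 388) (nat_lit 362)))) (XT.nd (nat_lit 156) (nat_lit 152) (nat_lit 0) (XT.nd (nat_lit 78) (nat_lit 0)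 (nat_lit 0) (XT.lf (nat_lit 0) (nat_lit 8795994967) (nat_lit 76) (nat_lit 15287499181) (nat_lit 76) (nat_lit 12055991487) (nat_lit 22) (nat_lit 4) (nat_lit 23) (nat_lit 5) (nat_lit 23) (nat_lit 4) (nat_lit 451) (nat_lit 388) (nat_lit 361)) (XT.lf (nat_lit 0) (nat_lit 32053400614) (nat_lit 76) (nat_lit 4680695963) (nat_lit 76) (nat_lit 1414934000) (nat_lit 22) (nat_lit 4) (nat_lit 23) (nat_lit 5) (nat_lit 23) (nat_lit 4) (nat_lit 452) (nat_lit 388) (nat_lit 360))) (XT.nd (nat_lit 78) (nat_lit 0) (nat_lit 0) (XT.lf (nat_lit 0) (nat_lit 9998502700) (nat_lit 152) (nat_lit 23322150139) (nat_lit 0) (nat_lit 6945281516) (nat_lit 20) (nat_lit 5) (nat_lit 22) (nat_lit 4) (nat_lit 20) (nat_lit 4) (nat_lit 453) (nat_lit 388) (nat_lit 359)) (XT.lf (nat_lit 0) (nat_lit 22378698459) (nat_lit 152) (nat_lit 861857266) (nat_lit 0) (nat_lit 19298285131) (nat_lit 20) (nat_lit 5) (nat_lit 22) (nat_lit 4) (nat_lit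 20) (nat_lit 4) (nat_lit 454) (nat_lit 388) (nat_lit 358))))))))
noncomputable def xc65 : XT := (XT.nd (nat_lit 2184) (nat_lit 228) (nat_lit 0) (XT.nd (nat_lit 1092) (nat_lit 456) (nat_lit 0) (XT.nd (nat_lit 546) (nat_lit 304) (nat_lit 0) (XT.nd (nat_lit 234) (nat_lit 228) (nat_lit 0) (XT.nd (nat_lit 78) (nat_lit 152) (nat_lit 0) (XT.lf (nat_lit 0) (nat_lit 24302292928) (nat_lit 76) (nat_lit 11881077026) (nat_lit 76) (nat_lit 8775485787) (nat_lit 19) (nat_lit 4) (nat_lit 20) (nat_lit 5) (nat_lit 20) (nat_lit 4) (nat_lit 455) (nat_lit 388) (nat_lit 357)) (XT.nd (nat_lit 78) (nat_lit 0) (nat_lit 0) (XT.lf (nat_lit 0) (nat_lit 3318625572) (nat_lit 152) (nat_lit 43827601193) (nat_lit 0) (nat_lit 421492129) (nat_lit 17) (nat_lit 5) (nat_lit 19) (nat_lit 4) (nat_lit 17) (nat_lit 4) (nat_lit 456) (nat_lit 388) (nat_lit 356)) (XT.lf (nat_lit 0) (nat_lit 16644087085) (nat_lit 152) (nat_lit 19936969132)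 (nat_lit 0) (nat_lit 13726966605) (nat_lit 17) (nat_lit 5) (nat_lit 19) (nat_lit 4) (nat_lit 17) (nat_lit 4) (nat_lit 457) (nat_lit 388) (nat_lit 355)))) (XT.nd (nat_lit 156) (nat_lit 152) (nat_lit 0) (XT.nd (nat_lit 78) (nat_lit 0) (nat_lit 0) (XT.lf (nat_lit 0) (nat_lit 5872624089) (nat_lit 76) (nat_lit 25165188165) (nat_lit 76) (nat_lit 22229561169) (nat_lit 16) (nat_lit 4) (nat_lit 17) (nat_lit 5) (nat_lit 17) (nat_lit 4) (nat_lit 458) (nat_lit 388) (nat_lit 354)) (XT.lf (nat_lit 0) (nat_lit 34601998096) (nat_lit 76) (nat_lit 12390730806) (nat_lit 76) (nat_lit 9437968147) (nat_lit 16) (nat_lit 4) (nat_lit 17) (nat_lit 5) (nat_lit 17) (nat_lit 4) (nat_lit 459) (nat_lit 388) (nat_lit 353))) (XT.nd (nat_lit 78) (nat_lit 0) (nat_lit 0) (XT.lf (nat_lit 0) (nat_lit 4203200140) (nat_lit 152) (nat_lit 54177379926) (nat_lit 0) (nat_lit 1454469572) (nat_lit 14) (nat_lit 5) (nat_lit 16) (nat_lit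 4) (nat_lit 14) (nat_lit 4) (nat_lit 460) (nat_lit 388) (nat_lit 352)) (XT.lf (nat_lit 0) (nat_lit 19231418635) (nat_lit 152) (nat_lit 27727183402) (nat_lit 0) (nat_lit 16469085225) (nat_lit 14) (nat_lit 5) (nat_lit 16) (nat_lit 4) (nat_lit 14) (nat_lit 4) (nat_lit 461) (nat_lit 388) (nat_lit 351))))) (XT.nd (nat_lit 234) (nat_lit 228) (nat_lit 0) (XT.nd (nat_lit 78) (nat_lit 0) (nat_lit 0) (XT.lf (nat_lit 0) (nat_lit 624857380) (nat_lit 76) (nat_lit 34733062722) (nat_lit 76) (nat_lit 31958134089) (nat_lit 13) (nat_lit 4) (nat_lit 14) (nat_lit 5) (nat_lit 14) (nat_lit 4) (nat_lit 462) (nat_lit 388) (nat_lit 350)) (XT.nd (nat_lit 78) (nat_lit 0) (nat_lit 0) (XT.lf (nat_lit 0) (nat_lit 32582714957) (nat_lit 76) (nat_lit 20833996561) (nat_lit 76) (nat_lit 18047405683) (nat_lit 13) (nat_lit 4) (nat_lit 14) (nat_lit 5) (nat_lit 14) (nat_lit 4) (nat_lit 463) (nat_lit 388) (nat_lit 349)) (XT.lf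 (nat_lit 0) (nat_lit 66875704882) (nat_lit 76) (nat_lit 5937149048) (nat_lit 76) (nat_lit 3139759796) (nat_lit 13) (nat_lit 4) (nat_lit 14) (nat_lit 5) (nat_lit 14) (nat_lit 4) (nat_lit 464) (nat_lit 388) (nat_lit 348)))) (XT.nd (nat_lit 156) (nat_lit 76) (nat_lit 0) (XT.nd (nat_lit 78) (nat_lit 0) (nat_lit 0) (XT.lf (nat_lit 0) (nat_lit 13046556200) (nat_lit 152) (nat_lit 57222823293) (nat_lit 0) (nat_lit 10447123101) (nat_lit 11) (nat_lit 5) (nat_lit 13) (nat_lit 4) (nat_lit 11) (nat_lit 4) (nat_lit 465) (nat_lit 388) (nat_lit 347)) (XT.lf (nat_lit 0) (nat_lit 30665080224) (nat_lit 152) (nat_lit 27108268867) (nat_lit 0) (nat_lit 28057075027) (nat_lit 11) (nat_lit 5) (nat_lit 13) (nat_lit 4) (nat_lit 11) (nat_lit 4) (nat_lit 466) (nat_lit 388) (nat_lit 346))) (XT.nd (nat_lit 78) (nat_lit 0) (nat_lit 0) (XT.lf (nat_lit 0) (nat_lit 5495411078) (nat_lit 76) (nat_lit 44235483091) (nat_lit 76)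 (nat_lit 41619540767) (nat_lit 10) (nat_lit 4) (nat_lit 11) (nat_lit 5) (nat_lit 11) (nat_lit 4) (nat_lit 467) (nat_lit 388) (nat_lit 345)) (XT.lf (nat_lit 0) (nat_lit 42059050366) (nat_lit 76) (nat_lit 28912173940) (nat_lit 76) (nat_lit 26288882424) (nat_lit 10) (nat_lit 4) (nat_lit 11) (nat_lit 5) (nat_lit 11) (nat_lit 4) (nat_lit 468) (nat_lit 388) (nat_lit 344)))))) (XT.nd (nat_lit 546) (nat_lit 228) (nat_lit 0) (XT.nd (nat_lit 234) (nat_lit 76) (nat_lit 0) (XT.nd (nat_lit 78) (nat_lit 152) (nat_lit 0) (XT.lf (nat_lit 0) (nat_lit 81371849017) (nat_lit 76) (nat_lit 12453804953) (nat_lit 76) (nat_lit 9823708630) (nat_lit 10) (nat_lit 4) (nat_lit 11) (nat_lit 5) (nat_lit 11) (nat_lit 4) (nat_lit 469) (nat_lit 388) (nat_lit 343)) (XT.nd (nat_lit 78) (nat_lit 0) (nat_lit 0) (XT.lf (nat_lit 0) (nat_lit 7946176600) (nat_lit 152) (nat_lit 97052351949) (nat_lit 0) (nat_lit 5505068201) (nat_lit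 8) (nat_lit 5) (nat_lit 10) (nat_lit 4) (nat_lit 8) (nat_lit 4) (nat_lit 470) (nat_lit 388) (nat_lit 342)) (XT.lf (nat_lit 0) (nat_lit 27474500239) (nat_lit 152) (nat_lit 65313860031) (nat_lit 0) (nat_lit 25027989964) (nat_lit 8) (nat_lit 5) (nat_lit 10) (nat_lit 4) (nat_lit 8) (nat_lit 4) (nat_lit 471) (nat_lit 388) (nat_lit 341)))) (XT.nd (nat_lit 156) (nat_lit 0) (nat_lit 0) (XT.nd (nat_lit 78) (nat_lit 76) (nat_lit 0) (XT.lf (nat_lit 0) (nat_lit 48490256352) (nat_lit 152) (nat_lit 31191110111) (nat_lit 0) (nat_lit 46038744340) (nat_lit 8) (nat_lit 5) (nat_lit 10) (nat_lit 4) (nat_lit 8) (nat_lit 4) (nat_lit 472) (nat_lit 388) (nat_lit 340)) (XT.lf (nat_lit 0) (nat_lit 5808680418) (nat_lit 76) (nat_lit 65449001238) (nat_lit 76) (nat_lit 62992857989) (nat_lit 7) (nat_lit 4) (nat_lit 8) (nat_lit 5) (nat_lit 8) (nat_lit 4) (nat_lit 473) (nat_lit 388) (nat_lit 339))) (XT.nd (nat_lit 78) (nat_lit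 0) (nat_lit 0) (XT.lf (nat_lit 0) (nat_lit 47402596350) (nat_lit 76) (nat_lit 49229206905) (nat_lit 76) (nat_lit 46768775473) (nat_lit 7) (nat_lit 4) (nat_lit 8) (nat_lit 5) (nat_lit 8) (nat_lit 4) (nat_lit 474) (nat_lit 388) (nat_lit 338)) (XT.lf (nat_lit 0) (nat_lit 92194651565) (nat_lit 76) (nat_lit 31778686391) (nat_lit 76) (nat_lit 29314284419) (nat_lit 7) (nat_lit 4) (nat_lit 8) (nat_lit 5) (nat_lit 8) (nat_lit 4) (nat_lit 475) (nat_lit 388) (nat_lit 337))))) (XT.nd (nat_lit 234) (nat_lit 76) (nat_lit 0) (XT.nd (nat_lit 78) (nat_lit 152) (nat_lit 0) (XT.lf (nat_lit 0) (nat_lit 140450280464) (nat_lit 76) (nat_lit 12994029202) (nat_lit 76) (nat_lit 10525950804) (nat_lit 7) (nat_lit 4) (nat_lit 8) (nat_lit 5) (nat_lit 8) (nat_lit 4) (nat_lit 476) (nat_lit 388) (nat_lit 336)) (XT.nd (nat_lit 78) (nat_lit 0) (nat_lit 0) (XT.lf (nat_lit 0) (nat_lit 9836074588) (nat_lit 152) (nat_lit 158060250905)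 (nat_lit 0) (nat_lit 7547664869) (nat_lit 5) (nat_lit 5) (nat_lit 7) (nat_lit 4) (nat_lit 5) (nat_lit 4) (nat_lit 477) (nat_lit 388) (nat_lit 335)) (XT.lf (nat_lit 0) (nat_lit 32200711842) (nat_lit 152) (nat_lit 125628265149) (nat_lit 0) (nat_lit 29909383659) (nat_lit 5) (nat_lit 5) (nat_lit 7) (nat_lit 4) (nat_lit 5) (nat_lit 4) (nat_lit 478) (nat_lit 388) (nat_lit 334)))) (XT.nd (nat_lit 156) (nat_lit 76) (nat_lit 0) (XT.nd (nat_lit 78) (nat_lit 0) (nat_lit 0) (XT.lf (nat_lit 0) (nat_lit 56303627546) (nat_lit 152) (nat_lit 90707127412) (nat_lit 0) (nat_lit 54009597079) (nat_lit 5) (nat_lit 5) (nat_lit 7) (nat_lit 4) (nat_lit 5) (nat_lit 4) (nat_lit 479) (nat_lit 388) (nat_lit 333)) (XT.lf (nat_lit 0) (nat_lit 82287653790) (nat_lit 152) (nat_lit 53089897618) (nat_lit 0) (nat_lit 79991121210) (nat_lit 5) (nat_lit 5) (nat_lit 7) (nat_lit 4) (nat_lit 5) (nat_lit 4) (nat_lit 480) (nat_lit 388)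 (nat_lit 332))) (XT.nd (nat_lit 78) (nat_lit 76) (nat_lit 0) (XT.lf (nat_lit 0) (nat_lit 110306769991) (nat_lit 152) (nat_lit 12553658849) (nat_lit 0) (nat_lit 108007920639) (nat_lit 5) (nat_lit 5) (nat_lit 7) (nat_lit 4) (nat_lit 5) (nat_lit 4) (nat_lit 481) (nat_lit 388) (nat_lit 331)) (XT.lf (nat_lit 0) (nat_lit 32781675833) (nat_lit 76) (nat_lit 108533739614) (nat_lit 76) (nat_lit 106232745103) (nat_lit 4) (nat_lit 4) (nat_lit 5) (nat_lit 5) (nat_lit 5) (nat_lit 4) (nat_lit 482) (nat_lit 388) (nat_lit 330))))))) (XT.nd (nat_lit 1092) (nat_lit 76) (nat_lit 0) (XT.nd (nat_lit 546) (nat_lit 0) (nat_lit 0) (XT.nd (nat_lit 234) (nat_lit 152) (nat_lit 0) (XT.nd (nat_lit 78) (nat_lit 0) (nat_lit 0) (XT.lf (nat_lit 0) (nat_lit 82376217978) (nat_lit 76) (nat_lit 92732404863) (nat_lit 76) (nat_lit 90429424094) (nat_lit 4) (nat_lit 4) (nat_lit 5) (nat_lit 5) (nat_lit 5) (nat_lit 4) (nat_lit 483)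 (nat_lit 388) (nat_lit 329)) (XT.nd (nat_lit 78) (nat_lit 0) (nat_lit 0) (XT.lf (nat_lit 0) (nat_lit 135862807741) (nat_lit 76) (nat_lit 75706026329) (nat_lit 76) (nat_lit 73401206431) (nat_lit 4) (nat_lit 4) (nat_lit 5) (nat_lit 5) (nat_lit 5) (nat_lit 4) (nat_lit 484) (nat_lit 388) (nat_lit 328)) (XT.lf (nat_lit 0) (nat_lit 193558402690) (nat_lit 76) (nat_lit 57353706953) (nat_lit 76) (nat_lit 55047184159) (nat_lit 4) (nat_lit 4) (nat_lit 5) (nat_lit 5) (nat_lit 5) (nat_lit 4) (nat_lit 485) (nat_lit 388) (nat_lit 327)))) (XT.nd (nat_lit 156) (nat_lit 152) (nat_lit 0) (XT.nd (nat_lit 78) (nat_lit 0) (nat_lit 0) (XT.lf (nat_lit 0) (nat_lit 255804902646) (nat_lit 76) (nat_lit 37566692251) (nat_lit 76) (nat_lit 35258592701) (nat_lit 4) (nat_lit 4) (nat_lit 5) (nat_lit 5) (nat_lit 5) (nat_lit 4) (nat_lit 486) (nat_lit 388) (nat_lit 326)) (XT.lf (nat_lit 0) (nat_lit 322971175759) (nat_lit 76)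 (nat_lit 16227725838) (nat_lit 76) (nat_lit 13918166329) (nat_lit 4) (nat_lit 4) (nat_lit 5) (nat_lit 5) (nat_lit 5) (nat_lit 4) (nat_lit 487) (nat_lit 388) (nat_lit 325))) (XT.nd (nat_lit 78) (nat_lit 0) (nat_lit 0) (XT.lf (nat_lit 0) (nat_lit 9221333694) (nat_lit 152) (nat_lit 363198516164) (nat_lit 0) (nat_lit 7081600987) (nat_lit 2) (nat_lit 5) (nat_lit 4) (nat_lit 4) (nat_lit 2) (nat_lit 4) (nat_lit 488) (nat_lit 388) (nat_lit 324)) (XT.lf (nat_lit 0) (nat_lit 34699722176) (nat_lit 152) (nat_lit 340609937205) (nat_lit 0) (nat_lit 32558830507) (nat_lit 2) (nat_lit 5) (nat_lit 4) (nat_lit 4) (nat_lit 2) (nat_lit 4) (nat_lit 489) (nat_lit 388) (nat_lit 323))))) (XT.nd (nat_lit 234) (nat_lit 0) (nat_lit 0) (XT.nd (nat_lit 78) (nat_lit 0) (nat_lit 0) (XT.lf (nat_lit 0) (nat_lit 62190937825) (nat_lit 152) (nat_lit 316267016729) (nat_lit 0) (nat_lit 60048973042) (nat_lit 2) (nat_lit 5) (nat_lit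 4) (nat_lit 4) (nat_lit 2) (nat_lit 4) (nat_lit 490) (nat_lit 388) (nat_lit 322)) (XT.nd (nat_lit 78) (nat_lit 0) (nat_lit 0) (XT.lf (nat_lit 0) (nat_lit 91857891548) (nat_lit 152) (nat_lit 290025500392) (nat_lit 0) (nat_lit 89714933141) (nat_lit 2) (nat_lit 5) (nat_lit 4) (nat_lit 4) (nat_lit 2) (nat_lit 4) (nat_lit 491) (nat_lit 388) (nat_lit 321)) (XT.lf (nat_lit 0) (nat_lit 123876387515) (nat_lit 152) (nat_lit 261729882912) (nat_lit 0) (nat_lit 121732509086) (nat_lit 2) (nat_lit 5) (nat_lit 4) (nat_lit 4) (nat_lit 2) (nat_lit 4) (nat_lit 492) (nat_lit 388) (nat_lit 320)))) (XT.nd (nat_lit 156) (nat_lit 0) (nat_lit 0) (XT.nd (nat_lit 78) (nat_lit 0) (nat_lit 0) (XT.lf (nat_lit 0) (nat_lit 158436164961) (nat_lit 152) (nat_lit 231212486557) (nat_lit 0) (nat_lit 156291434660) (nat_lit 2) (nat_lit 5) (nat_lit 4) (nat_lit 4) (nat_lit 2) (nat_lit 4) (nat_lit 493) (nat_lit 388) (nat_lit 319))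 (XT.lf (nat_lit 0) (nat_lit 195742022568) (nat_lit 152) (nat_lit 198292467496) (nat_lit 0) (nat_lit 193596503497) (nat_lit 2) (nat_lit 5) (nat_lit 4) (nat_lit 4) (nat_lit 2) (nat_lit 4) (nat_lit 494) (nat_lit 388) (nat_lit 318))) (XT.nd (nat_lit 78) (nat_lit 0) (nat_lit 0) (XT.lf (nat_lit 0) (nat_lit 236015032085) (nat_lit 152) (nat_lit 162774744134) (nat_lit 0) (nat_lit 233868782671) (nat_lit 2) (nat_lit 5) (nat_lit 4) (nat_lit 4) (nat_lit 2) (nat_lit 4) (nat_lit 495) (nat_lit 388) (nat_lit 317)) (XT.lf (nat_lit 0) (nat_lit 279493848383) (nat_lit 152) (nat_lit 124448841074) (nat_lit 0) (nat_lit 277346922724) (nat_lit 2) (nat_lit 5) (nat_lit 4) (nat_lit 4) (nat_lit 2) (nat_lit 4) (nat_lit 496) (nat_lit 388) (nat_lit 316)))))) (XT.nd (nat_lit 546) (nat_lit 0) (nat_lit 0) (XT.nd (nat_lit 234) (nat_lit 0) (nat_lit 0) (XT.nd (nat_lit 78) (nat_lit 76) (nat_lit 0) (XT.lf (nat_lit 0) (nat_lit 326436123706)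 (nat_lit 152) (nat_lit 83087641853) (nat_lit 0) (nat_lit 324288571896) (nat_lit 2) (nat_lit 5) (nat_lit 4) (nat_lit 4) (nat_lit 2) (nat_lit 4) (nat_lit 497) (nat_lit 388) (nat_lit 315)) (XT.nd (nat_lit 78) (nat_lit 76) (nat_lit 0) (XT.lf (nat_lit 0) (nat_lit 377120034501) (nat_lit 152) (nat_lit 38446043069) (nat_lit 0) (nat_lit 374971902921) (nat_lit 2) (nat_lit 5) (nat_lit 4) (nat_lit 4) (nat_lit 2) (nat_lit 4) (nat_lit 498) (nat_lit 388) (nat_lit 314)) (XT.lf (nat_lit 0) (nat_lit 10253415453) (nat_lit 76) (nat_lit 421839109303) (nat_lit 76) (nat_lit 419690440900) (nat_lit 1) (nat_lit 4) (nat_lit 2) (nat_lit 5) (nat_lit 2) (nat_lit 4) (nat_lit 499) (nat_lit 388) (nat_lit 313)))) (XT.nd (nat_lit 156) (nat_lit 0) (nat_lit 0) (XT.nd (nat_lit 78) (nat_lit 0) (nat_lit 0) (XT.lf (nat_lit 0) (nat_lit 65009573650) (nat_lit 76) (nat_lit 427492019571) (nat_lit 76) (nat_lit 425342854108) (nat_lit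 1) (nat_lit 4) (nat_lit 2) (nat_lit 5) (nat_lit 2) (nat_lit 4) (nat_lit 500) (nat_lit 388) (nat_lit 312)) (XT.lf (nat_lit 0) (nat_lit 124122411962) (nat_lit 76) (nat_lit 433609490050) (nat_lit 76) (nat_lit 431459864347) (nat_lit 1) (nat_lit 4) (nat_lit 2) (nat_lit 5) (nat_lit 2) (nat_lit 4) (nat_lit 501) (nat_lit 388) (nat_lit 311))) (XT.nd (nat_lit 78) (nat_lit 0) (nat_lit 0) (XT.lf (nat_lit 0) (nat_lit 187942228691) (nat_lit 76) (nat_lit 440227772417) (nat_lit 76) (nat_lit 438077720566) (nat_lit 1) (nat_lit 4) (nat_lit 2) (nat_lit 5) (nat_lit 2) (nat_lit 4) (nat_lit 502) (nat_lit 388) (nat_lit 310)) (XT.lf (nat_lit 0) (nat_lit 256847215343) (nat_lit 76) (nat_lit 447386086125) (nat_lit 76) (nat_lit 445235639692) (nat_lit 1) (nat_lit 4) (nat_lit 2) (nat_lit 5) (nat_lit 2) (nat_lit 4) (nat_lit 503) (nat_lit 388) (nat_lit 309))))) (XT.nd (nat_lit 312) (nat_lit 0) (nat_lit 0) (XT.nd (nat_lit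 156) (nat_lit 0) (nat_lit 0) (XT.nd (nat_lit 78) (nat_lit 0) (nat_lit 0) (XT.lf (nat_lit 0) (nat_lit 331245697766) (nat_lit 76) (nat_lit 455126850808) (nat_lit 76) (nat_lit 452976039022) (nat_lit 1) (nat_lit 4) (nat_lit 2) (nat_lit 5) (nat_lit 2) (nat_lit 4) (nat_lit 504) (nat_lit 388) (nat_lit 308)) (XT.lf (nat_lit 0) (nat_lit 411578555854) (nat_lit 76) (nat_lit 463495937667) (nat_lit 76) (nat_lit 461344787590) (nat_lit 1) (nat_lit 4) (nat_lit 2) (nat_lit 5) (nat_lit 2) (nat_lit 4) (nat_lit 505) (nat_lit 388) (nat_lit 307))) (XT.nd (nat_lit 78) (nat_lit 0) (nat_lit 0) (XT.lf (nat_lit 0) (nat_lit 498321836174) (nat_lit 76) (nat_lit 472542941288) (nat_lit 76) (nat_lit 470391477980) (nat_lit 1) (nat_lit 4) (nat_lit 2) (nat_lit 5) (nat_lit 2) (nat_lit 4) (nat_lit 506) (nat_lit 388) (nat_lit 306)) (XT.lf (nat_lit 0) (nat_lit 591989572981) (nat_lit 76) (nat_lit 482321473547) (nat_lit 76) (nat_lit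 480169720209) (nat_lit 1) (nat_lit 4) (nat_lit 2) (nat_lit 5) (nat_lit 2) (nat_lit 4) (nat_lit 507) (nat_lit 388) (nat_lit 305)))) (XT.nd (nat_lit 156) (nat_lit 0) (nat_lit 0) (XT.nd (nat_lit 78) (nat_lit 0) (nat_lit 0) (XT.lf (nat_lit 0) (nat_lit 693136834343) (nat_lit 76) (nat_lit 492889481300) (nat_lit 76) (nat_lit 490737459417) (nat_lit 1) (nat_lit 4) (nat_lit 2) (nat_lit 5) (nat_lit 2) (nat_lit 4) (nat_lit 508) (nat_lit 388) (nat_lit 304)) (XT.lf (nat_lit 0) (nat_lit 802363011440) (nat_lit 76) (nat_lit 504309589778) (nat_lit 76) (nat_lit 502157319242) (nat_lit 1) (nat_lit 4) (nat_lit 2) (nat_lit 5) (nat_lit 2) (nat_lit 4) (nat_lit 509) (nat_lit 388) (nat_lit 303))) (XT.nd (nat_lit 78) (nat_lit 0) (nat_lit 0) (XT.lf (nat_lit 0) (nat_lit 920315370506) (nat_lit 76) (nat_lit 516649473699) (nat_lit 76) (nat_lit 514496972928) (nat_lit 1) (nat_lit 4) (nat_lit 2) (nat_lit 5) (nat_lit 2) (nat_lit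 4) (nat_lit 510) (nat_lit 388) (nat_lit 302)) (XT.lf (nat_lit 0) (nat_lit 1047692888484) (nat_lit 76) (nat_lit 529982258300) (nat_lit 76) (nat_lit 527829544349) (nat_lit 1) (nat_lit 4) (nat_lit 2) (nat_lit 5) (nat_lit 2) (nat_lit 4) (nat_lit 511) (nat_lit 388) (nat_lit 301))))))))
noncomputable def xc66 : XT := (XT.nd (nat_lit 2184) (nat_lit 0) (nat_lit 0) (XT.nd (nat_lit 1092) (nat_lit 0) (nat_lit 0) (XT.nd (nat_lit 546) (nat_lit 0) (nat_lit 0) (XT.nd (nat_lit 234) (nat_lit 0) (nat_lit 0) (XT.nd (nat_lit 78) (nat_lit 0) (nat_lit 0) (XT.lf (nat_lit 0) (nat_lit 1185250395110) (nat_lit 76) (nat_lit 544386952676) (nat_lit 76) (nat_lit 542234041336) (nat_lit 1) (nat_lit 4) (nat_lit 2) (nat_lit 5) (nat_lit 2) (nat_lit 4) (nat_lit 512) (nat_lit 388) (nat_lit 300)) (XT.nd (nat_lit 78) (nat_lit 0) (nat_lit 0) (XT.lf (nat_lit 0) (nat_lit 1333803045978) (nat_lit 76) (nat_lit 559948917979) (nat_lit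 76) (nat_lit 557795823871) (nat_lit 1) (nat_lit 4) (nat_lit 2) (nat_lit 5) (nat_lit 2) (nat_lit 4) (nat_lit 513) (nat_lit 388) (nat_lit 299)) (XT.lf (nat_lit 0) (nat_lit 1494231153094) (nat_lit 76) (nat_lit 576760373261) (nat_lit 76) (nat_lit 574607109924) (nat_lit 1) (nat_lit 4) (nat_lit 2) (nat_lit 5) (nat_lit 2) (nat_lit 4) (nat_lit 514) (nat_lit 388) (nat_lit 298)))) (XT.nd (nat_lit 156) (nat_lit 0) (nat_lit 0) (XT.nd (nat_lit 78) (nat_lit 0) (nat_lit 0) (XT.lf (nat_lit 0) (nat_lit 1667485401537) (nat_lit 76) (nat_lit 594920941962) (nat_lit 76) (nat_lit 592767521931) (nat_lit 1) (nat_lit 4) (nat_lit 2) (nat_lit 5) (nat_lit 2) (nat_lit 4) (nat_lit 515) (nat_lit 388) (nat_lit 297)) (XT.lf (nat_lit 0) (nat_lit 1854592483150) (nat_lit 76) (nat_lit 614538242267) (nat_lit 76) (nat_lit 612384677149) (nat_lit 1) (nat_lit 4) (nat_lit 2) (nat_lit 5) (nat_lit 2) (nat_lit 4) (nat_lit 516) (nat_lit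 388) (nat_lit 296))) (XT.nd (nat_lit 78) (nat_lit 0) (nat_lit 0) (XT.lf (nat_lit 0) (nat_lit 2056661180639) (nat_lit 76) (nat_lit 635728524844) (nat_lit 76) (nat_lit 633574825386) (nat_lit 1) (nat_lit 4) (nat_lit 2) (nat_lit 5) (nat_lit 2) (nat_lit 4) (nat_lit 517) (nat_lit 388) (nat_lit 295)) (XT.lf (nat_lit 0) (nat_lit 2274888938136) (nat_lit 76) (nat_lit 658617361738) (nat_lit 76) (nat_lit 656463537892) (nat_lit 1) (nat_lit 4) (nat_lit 2) (nat_lit 5) (nat_lit 2) (nat_lit 4) (nat_lit 518) (nat_lit 388) (nat_lit 294))))) (XT.nd (nat_lit 234) (nat_lit 0) (nat_lit 0) (XT.nd (nat_lit 78) (nat_lit 0) (nat_lit 0) (XT.lf (nat_lit 0) (nat_lit 2510568957168) (nat_lit 76) (nat_lit 683340390501) (nat_lit 76) (nat_lit 681186451480) (nat_lit 1) (nat_lit 4) (nat_lit 2) (nat_lit 5) (nat_lit 2) (nat_lit 4) (nat_lit 519) (nat_lit 388) (nat_lit 293)) (XT.nd (nat_lit 78) (nat_lit 0) (nat_lit 0) (XT.lf (nat_lit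 0) (nat_lit 2765097860070) (nat_lit 76) (nat_lit 710044117970) (nat_lit 76) (nat_lit 707890072306) (nat_lit 1) (nat_lit 4) (nat_lit 2) (nat_lit 5) (nat_lit 2) (nat_lit 4) (nat_lit 520) (nat_lit 388) (nat_lit 292)) (XT.lf (nat_lit 0) (nat_lit 3039983966266) (nat_lit 76) (nat_lit 738886788455) (nat_lit 76) (nat_lit 736732644048) (nat_lit 1) (nat_lit 4) (nat_lit 2) (nat_lit 5) (nat_lit 2) (nat_lit 4) (nat_lit 521) (nat_lit 388) (nat_lit 291)))) (XT.nd (nat_lit 156) (nat_lit 0) (nat_lit 0) (XT.nd (nat_lit 78) (nat_lit 0) (nat_lit 0) (XT.lf (nat_lit 0) (nat_lit 3336856230460) (nat_lit 76) (nat_lit 770039321487) (nat_lit 76) (nat_lit 767885085650) (nat_lit 1) (nat_lit 4) (nat_lit 2) (nat_lit 5) (nat_lit 2) (nat_lit 4) (nat_lit 522) (nat_lit 388) (nat_lit 290)) (XT.lf (nat_lit 0) (nat_lit 3657473895698) (nat_lit 76) (nat_lit 803686324668) (nat_lit 76) (nat_lit 801532004174) (nat_lit 1) (nat_lit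 4) (nat_lit 2) (nat_lit 5) (nat_lit 2) (nat_lit 4) (nat_lit 523) (nat_lit 388) (nat_lit 289))) (XT.nd (nat_lit 78) (nat_lit 0) (nat_lit 0) (XT.lf (nat_lit 0) (nat_lit 4003736918516) (nat_lit 76) (nat_lit 840027187646) (nat_lit 76) (nat_lit 837872788766) (nat_lit 1) (nat_lit 4) (nat_lit 2) (nat_lit 5) (nat_lit 2) (nat_lit 4) (nat_lit 524) (nat_lit 388) (nat_lit 288)) (XT.lf (nat_lit 0) (nat_lit 4377697227938) (nat_lit 76) (nat_lit 879277263683) (nat_lit 76) (nat_lit 877122792224) (nat_lit 1) (nat_lit 4) (nat_lit 2) (nat_lit 5) (nat_lit 2) (nat_lit 4) (nat_lit 525) (nat_lit 388) (nat_lit 287)))))) (XT.nd (nat_lit 546) (nat_lit 0) (nat_lit 0) (XT.nd (nat_lit 234) (nat_lit 0) (nat_lit 0) (XT.nd (nat_lit 78) (nat_lit 0) (nat_lit 0) (XT.lf (nat_lit 0) (nat_lit 4781570885056) (nat_lit 76) (nat_lit 921669145824) (nat_lit 76) (nat_lit 919514607161) (nat_lit 1) (nat_lit 4) (nat_lit 2) (nat_lit 5)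 (nat_lit 2) (nat_lit 4) (nat_lit 526) (nat_lit 388) (nat_lit 286)) (XT.nd (nat_lit 78) (nat_lit 0) (nat_lit 0) (XT.lf (nat_lit 0) (nat_lit 5217751215246) (nat_lit 76) (nat_lit 967454045220) (nat_lit 76) (nat_lit 965299444332) (nat_lit 1) (nat_lit 4) (nat_lit 2) (nat_lit 5) (nat_lit 2) (nat_lit 4) (nat_lit 527) (nat_lit 388) (nat_lit 285)) (XT.lf (nat_lit 0) (nat_lit 5688822990835) (nat_lit 76) (nat_lit 1016903279795) (nat_lit 76) (nat_lit 1014748621291) (nat_lit 1) (nat_lit 4) (nat_lit 2) (nat_lit 5) (nat_lit 2) (nat_lit 4) (nat_lit 528) (nat_lit 388) (nat_lit 284)))) (XT.nd (nat_lit 156) (nat_lit 0) (nat_lit 0) (XT.nd (nat_lit 78) (nat_lit 0) (nat_lit 0) (XT.lf (nat_lit 0) (nat_lit 6197577748271) (nat_lit 76) (nat_lit 1070309882050) (nat_lit 76) (nat_lit 1068155170198) (nat_lit 1) (nat_lit 4) (nat_lit 2) (nat_lit 5) (nat_lit 2) (nat_lit 4) (nat_lit 529) (nat_lit 388) (nat_lit 283)) (XT.lf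 (nat_lit 0) (nat_lit 6747030330562) (nat_lit 76) (nat_lit 1127990335553) (nat_lit 76) (nat_lit 1125835574304) (nat_lit 1) (nat_lit 4) (nat_lit 2) (nat_lit 5) (nat_lit 2) (nat_lit 4) (nat_lit 530) (nat_lit 388) (nat_lit 282))) (XT.nd (nat_lit 78) (nat_lit 0) (nat_lit 0) (XT.lf (nat_lit 0) (nat_lit 7340436753009) (nat_lit 76) (nat_lit 1190286450399) (nat_lit 76) (nat_lit 1188131643414) (nat_lit 1) (nat_lit 4) (nat_lit 2) (nat_lit 5) (nat_lit 2) (nat_lit 4) (nat_lit 531) (nat_lit 388) (nat_lit 281)) (XT.lf (nat_lit 0) (nat_lit 7981313498115) (nat_lit 76) (nat_lit 1257567388751) (nat_lit 76) (nat_lit 1255412539416) (nat_lit 1) (nat_lit 4) (nat_lit 2) (nat_lit 5) (nat_lit 2) (nat_lit 4) (nat_lit 532) (nat_lit 388) (nat_lit 280))))) (XT.nd (nat_lit 234) (nat_lit 0) (nat_lit 0) (XT.nd (nat_lit 78) (nat_lit 0) (nat_lit 0) (XT.lf (nat_lit 0) (nat_lit 8673458354001) (nat_lit 76) (nat_lit 1330231852466)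 (nat_lit 76) (nat_lit 1328076963918) (nat_lit 1) (nat_lit 4) (nat_lit 2) (nat_lit 5) (nat_lit 2) (nat_lit 4) (nat_lit 533) (nat_lit 388) (nat_lit 279)) (XT.nd (nat_lit 78) (nat_lit 0) (nat_lit 0) (XT.lf (nat_lit 0) (nat_lit 9420972919812) (nat_lit 76) (nat_lit 1408710445772) (nat_lit 76) (nat_lit 1406555520916) (nat_lit 1) (nat_lit 4) (nat_lit 2) (nat_lit 5) (nat_lit 2) (nat_lit 4) (nat_lit 534) (nat_lit 388) (nat_lit 278)) (XT.lf (nat_lit 0) (nat_lit 10228286911493) (nat_lit 76) (nat_lit 1493468227001) (nat_lit 76) (nat_lit 1491313268527) (nat_lit 1) (nat_lit 4) (nat_lit 2) (nat_lit 5) (nat_lit 2) (nat_lit 4) (nat_lit 535) (nat_lit 388) (nat_lit 277)))) (XT.nd (nat_lit 156) (nat_lit 0) (nat_lit 0) (XT.nd (nat_lit 78) (nat_lit 0) (nat_lit 0) (XT.lf (nat_lit 0) (nat_lit 11100184411958) (nat_lit 76) (nat_lit 1585007464485) (nat_lit 76) (nat_lit 1582852474883) (nat_lit 1) (nat_lit 4) (nat_lit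 2) (nat_lit 5) (nat_lit 2) (nat_lit 4) (nat_lit 536) (nat_lit 388) (nat_lit 276)) (XT.lf (nat_lit 0) (nat_lit 12041832221211) (nat_lit 76) (nat_lit 1683870612966) (nat_lit 76) (nat_lit 1681715594541) (nat_lit 1) (nat_lit 4) (nat_lit 2) (nat_lit 5) (nat_lit 2) (nat_lit 4) (nat_lit 537) (nat_lit 388) (nat_lit 275))) (XT.nd (nat_lit 78) (nat_lit 0) (nat_lit 0) (XT.lf (nat_lit 0) (nat_lit 13058810474416) (nat_lit 76) (nat_lit 1790643528138) (nat_lit 76) (nat_lit 1788488483026) (nat_lit 1) (nat_lit 4) (nat_lit 2) (nat_lit 5) (nat_lit 2) (nat_lit 4) (nat_lit 538) (nat_lit 388) (nat_lit 274)) (XT.lf (nat_lit 0) (nat_lit 14157145709371) (nat_lit 76) (nat_lit 1905958938387) (nat_lit 76) (nat_lit 1903803868564) (nat_lit 1) (nat_lit 4) (nat_lit 2) (nat_lit 5) (nat_lit 2) (nat_lit 4) (nat_lit 539) (nat_lit 388) (nat_lit 273))))))) (XT.nd (nat_lit 53898) (nat_lit 0) (nat_lit 2128) (XT.nd (nat_lit 53352)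 (nat_lit 0) (nat_lit 3496) (XT.nd (nat_lit 234) (nat_lit 0) (nat_lit 0) (XT.nd (nat_lit 78) (nat_lit 0) (nat_lit 0) (XT.lf (nat_lit 0) (nat_lit 15343346579320) (nat_lit 76) (nat_lit 2030500194292) (nat_lit 76) (nat_lit 2028345101590) (nat_lit 1) (nat_lit 4) (nat_lit 2) (nat_lit 5) (nat_lit 2) (nat_lit 4) (nat_lit 540) (nat_lit 388) (nat_lit 272)) (XT.nd (nat_lit 78) (nat_lit 0) (nat_lit 0) (XT.lf (nat_lit 0) (nat_lit 16624442422752) (nat_lit 76) (nat_lit 2165005318111) (nat_lit 76) (nat_lit 2162850204224) (nat_lit 1) (nat_lit 4) (nat_lit 2) (nat_lit 5) (nat_lit 2) (nat_lit 4) (nat_lit 541) (nat_lit 388) (nat_lit 271)) (XT.lf (nat_lit 0) (nat_lit 18008024918738) (nat_lit 76) (nat_lit 2310271377245) (nat_lit 76) (nat_lit 2308116243741) (nat_lit 1) (nat_lit 4) (nat_lit 2) (nat_lit 5) (nat_lit 2) (nat_lit 4) (nat_lit 542) (nat_lit 388) (nat_lit 270)))) (XT.nd (nat_lit 156) (nat_lit 0) (nat_lit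 0) (XT.nd (nat_lit 78) (nat_lit 0) (nat_lit 0) (XT.lf (nat_lit 0) (nat_lit 19502293074662) (nat_lit 76) (nat_lit 2467159207598) (nat_lit 76) (nat_lit 2465004055932) (nat_lit 1) (nat_lit 4) (nat_lit 2) (nat_lit 5) (nat_lit 2) (nat_lit 4) (nat_lit 543) (nat_lit 388) (nat_lit 269)) (XT.lf (nat_lit 0) (nat_lit 21116101812930) (nat_lit 76) (nat_lit 2636598514833) (nat_lit 76) (nat_lit 2634443346349) (nat_lit 1) (nat_lit 4) (nat_lit 2) (nat_lit 5) (nat_lit 2) (nat_lit 4) (nat_lit 544) (nat_lit 388) (nat_lit 268))) (XT.nd (nat_lit 52884) (nat_lit 0) (nat_lit 4408) (XT.lf (nat_lit 0) (nat_lit 22859014444584) (nat_lit 76) (nat_lit 2819593383733) (nat_lit 76) (nat_lit 2817438199677) (nat_lit 1) (nat_lit 4) (nat_lit 2) (nat_lit 5) (nat_lit 2) (nat_lit 4) (nat_lit 545) (nat_lit 388) (nat_lit 267)) (XT.lf (nat_lit 0) (nat_lit 1364123168) (nat_lit 152) (nat_lit 2262146187) (nat_lit 0) (nat_lit 1364123168)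 (nat_lit 59) (nat_lit 5) (nat_lit 61) (nat_lit 4) (nat_lit 59) (nat_lit 4) (nat_lit 422) (nat_lit 389) (nat_lit 389))))) (XT.nd (nat_lit 234) (nat_lit 456) (nat_lit 0) (XT.nd (nat_lit 78) (nat_lit 304) (nat_lit 0) (XT.lf (nat_lit 0) (nat_lit 4730982602) (nat_lit 152) (nat_lit 3141663421) (nat_lit 152) (nat_lit 2452628595) (nat_lit 57) (nat_lit 4) (nat_lit 59) (nat_lit 5) (nat_lit 59) (nat_lit 4) (nat_lit 423) (nat_lit 389) (nat_lit 388)) (XT.nd (nat_lit 78) (nat_lit 152) (nat_lit 0) (XT.lf (nat_lit 0) (nat_lit 2559857575) (nat_lit 152) (nat_lit 6803883508) (nat_lit 0) (nat_lit 1331126060) (nat_lit 55) (nat_lit 5) (nat_lit 57) (nat_lit 4) (nat_lit 55) (nat_lit 4) (nat_lit 424) (nat_lit 389) (nat_lit 387)) (XT.lf (nat_lit 0) (nat_lit 2863751501) (nat_lit 152) (nat_lit 4999552989) (nat_lit 152) (nat_lit 3223843414) (nat_lit 53) (nat_lit 4) (nat_lit 55) (nat_lit 5) (nat_lit 55) (nat_lit 4) (nat_lit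 425) (nat_lit 389) (nat_lit 386)))) (XT.nd (nat_lit 156) (nat_lit 152) (nat_lit 0) (XT.nd (nat_lit 78) (nat_lit 152) (nat_lit 0) (XT.lf (nat_lit 0) (nat_lit 1723285205) (nat_lit 76) (nat_lit 202414768) (nat_lit 152) (nat_lit 9585157754) (nat_lit 51) (nat_lit 5) (nat_lit 52) (nat_lit 5) (nat_lit 53) (nat_lit 4) (nat_lit 426) (nat_lit 389) (nat_lit 385)) (XT.lf (nat_lit 0) (nat_lit 279797796) (nat_lit 152) (nat_lit 7111523143) (nat_lit 152) (nat_lit 4564193267) (nat_lit 49) (nat_lit 4) (nat_lit 51) (nat_lit 5) (nat_lit 51) (nat_lit 4) (nat_lit 427) (nat_lit 389) (nat_lit 384))) (XT.nd (nat_lit 78) (nat_lit 76) (nat_lit 0) (XT.lf (nat_lit 0) (nat_lit 818191549) (nat_lit 228) (nat_lit 1247536656) (nat_lit 76) (nat_lit 10368158383) (nat_lit 48) (nat_lit 5) (nat_lit 51) (nat_lit 5) (nat_lit 49) (nat_lit 4) (nat_lit 428) (nat_lit 389) (nat_lit 383)) (XT.lf (nat_lit 0) (nat_lit 6452055126) (nat_lit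 152) (nat_lit 3107137650) (nat_lit 0) (nat_lit 3376463315) (nat_lit 47) (nat_lit 5) (nat_lit 49) (nat_lit 4) (nat_lit 47) (nat_lit 4) (nat_lit 429) (nat_lit 389) (nat_lit 382)))))) (XT.nd (nat_lit 546) (nat_lit 684) (nat_lit 0) (XT.nd (nat_lit 234) (nat_lit 380) (nat_lit 0) (XT.nd (nat_lit 78) (nat_lit 228) (nat_lit 0) (XT.lf (nat_lit 0) (nat_lit 8271323733) (nat_lit 76) (nat_lit 4299146406) (nat_lit 76) (nat_lit 904398150) (nat_lit 46) (nat_lit 4) (nat_lit 47) (nat_lit 5) (nat_lit 47) (nat_lit 4) (nat_lit 430) (nat_lit 389) (nat_lit 381)) (XT.nd (nat_lit 78) (nat_lit 76) (nat_lit 0) (XT.lf (nat_lit 0) (nat_lit 4891027837) (nat_lit 152) (nat_lit 7680141269) (nat_lit 0) (nat_lit 1474117205) (nat_lit 44) (nat_lit 5) (nat_lit 46) (nat_lit 4) (nat_lit 44) (nat_lit 4) (nat_lit 431) (nat_lit 389) (nat_lit 380)) (XT.lf (nat_lit 0) (nat_lit 4092960809) (nat_lit 76) (nat_lit 7114150510) (nat_lit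 76) (nat_lit 3443883202) (nat_lit 43) (nat_lit 4) (nat_lit 44) (nat_lit 5) (nat_lit 44) (nat_lit 4) (nat_lit 432) (nat_lit 389) (nat_lit 379)))) (XT.nd (nat_lit 156) (nat_lit 228) (nat_lit 0) (XT.nd (nat_lit 78) (nat_lit 0) (nat_lit 0) (XT.lf (nat_lit 0) (nat_lit 1480163508) (nat_lit 76) (nat_lit 1108788573) (nat_lit 152) (nat_lit 12710824502) (nat_lit 41) (nat_lit 5) (nat_lit 42) (nat_lit 5) (nat_lit 43) (nat_lit 4) (nat_lit 433) (nat_lit 389) (nat_lit 378)) (XT.lf (nat_lit 0) (nat_lit 9096474268) (nat_lit 152) (nat_lit 1602843252) (nat_lit 0) (nat_lit 5279743402) (nat_lit 41) (nat_lit 5) (nat_lit 43) (nat_lit 4) (nat_lit 41) (nat_lit 4) (nat_lit 434) (nat_lit 389) (nat_lit 377))) (XT.nd (nat_lit 78) (nat_lit 152) (nat_lit 0) (XT.lf (nat_lit 0) (nat_lit 11702435858) (nat_lit 76) (nat_lit 4503358509) (nat_lit 76) (nat_lit 500402923) (nat_lit 40) (nat_lit 4) (nat_lit 41) (nat_lit 5) (nat_lit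 41) (nat_lit 4) (nat_lit 435) (nat_lit 389) (nat_lit 376)) (XT.lf (nat_lit 0) (nat_lit 6151509707) (nat_lit 152) (nat_lit 9035974496) (nat_lit 0) (nat_lit 2285411667) (nat_lit 38) (nat_lit 5) (nat_lit 40) (nat_lit 4) (nat_lit 38) (nat_lit 4) (nat_lit 436) (nat_lit 389) (nat_lit 375))))) (XT.nd (nat_lit 312) (nat_lit 380) (nat_lit 0) (XT.nd (nat_lit 156) (nat_lit 76) (nat_lit 0) (XT.nd (nat_lit 78) (nat_lit 152) (nat_lit 0) (XT.lf (nat_lit 0) (nat_lit 4596328960) (nat_lit 76) (nat_lit 8853111386) (nat_lit 76) (nat_lit 4839182160) (nat_lit 37) (nat_lit 4) (nat_lit 38) (nat_lit 5) (nat_lit 38) (nat_lit 4) (nat_lit 437) (nat_lit 389) (nat_lit 374)) (XT.lf (nat_lit 0) (nat_lit 186047821) (nat_lit 76) (nat_lit 1898979955) (nat_lit 152) (nat_lit 17077899041) (nat_lit 35) (nat_lit 5) (nat_lit 36) (nat_lit 5) (nat_lit 37) (nat_lit 4) (nat_lit 438) (nat_lit 389) (nat_lit 373))) (XT.nd (nat_lit 78)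 (nat_lit 76) (nat_lit 0) (XT.lf (nat_lit 0) (nat_lit 9595450126) (nat_lit 152) (nat_lit 4843421253) (nat_lit 0) (nat_lit 5634754413) (nat_lit 35) (nat_lit 5) (nat_lit 37) (nat_lit 4) (nat_lit 35) (nat_lit 4) (nat_lit 439) (nat_lit 389) (nat_lit 372)) (XT.lf (nat_lit 0) (nat_lit 10479727735) (nat_lit 76) (nat_lit 7319697202) (nat_lit 76) (nat_lit 3250341154) (nat_lit 34) (nat_lit 4) (nat_lit 35) (nat_lit 5) (nat_lit 35) (nat_lit 4) (nat_lit 440) (nat_lit 389) (nat_lit 371)))) (XT.nd (nat_lit 156) (nat_lit 228) (nat_lit 0) (XT.nd (nat_lit 78) (nat_lit 0) (nat_lit 0) (XT.lf (nat_lit 0) (nat_lit 4387320811) (nat_lit 152) (nat_lit 17176914556) (nat_lit 0) (nat_lit 526239821) (nat_lit 32) (nat_lit 5) (nat_lit 34) (nat_lit 4) (nat_lit 32) (nat_lit 4) (nat_lit 441) (nat_lit 389) (nat_lit 370)) (XT.lf (nat_lit 0) (nat_lit 12739589559) (nat_lit 152) (nat_lit 1653513577) (nat_lit 0) (nat_lit 8792250490)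 (nat_lit 32) (nat_lit 5) (nat_lit 34) (nat_lit 4) (nat_lit 32) (nat_lit 4) (nat_lit 442) (nat_lit 389) (nat_lit 369))) (XT.nd (nat_lit 78) (nat_lit 152) (nat_lit 0) (XT.lf (nat_lit 0) (nat_lit 15500963018) (nat_lit 76) (nat_lit 6439805412) (nat_lit 76) (nat_lit 2412597753) (nat_lit 31) (nat_lit 4) (nat_lit 32) (nat_lit 5) (nat_lit 32) (nat_lit 4) (nat_lit 443) (nat_lit 389) (nat_lit 368)) (XT.lf (nat_lit 0) (nat_lit 6063748953) (nat_lit 152) (nat_lit 17263536535) (nat_lit 0) (nat_lit 2266378529) (nat_lit 29) (nat_lit 5) (nat_lit 31) (nat_lit 4) (nat_lit 29) (nat_lit 4) (nat_lit 444) (nat_lit 389) (nat_lit 367))))))))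
noncomputable def xc67 : XT := (XT.nd (nat_lit 2184) (nat_lit 532) (nat_lit 0) (XT.nd (nat_lit 1092) (nat_lit 684) (nat_lit 0) (XT.nd (nat_lit 546) (nat_lit 456) (nat_lit 0) (XT.nd (nat_lit 234) (nat_lit 228) (nat_lit 0) (XT.nd (nat_lit 78) (nat_lit 228) (nat_lit 0) (XT.lf (nat_lit 0) (nat_lit 15312273052) (nat_lit 152) (nat_lit 146447754) (nat_lit 0) (nat_lit 11451500366) (nat_lit 29) (nat_lit 5) (nat_lit 31) (nat_lit 4) (nat_lit 29) (nat_lit 4) (nat_lit 445) (nat_lit 389) (nat_lit 366)) (XT.nd (nat_lit 78) (nat_lit 152) (nat_lit 0) (XT.lf (nat_lit 0) (nat_lit 18928450135) (nat_lit 76) (nat_lit 6650438044) (nat_lit 76) (nat_lit 2730959560) (nat_lit 28) (nat_lit 4) (nat_lit 29) (nat_lit 5) (nat_lit 29) (nat_lit 4) (nat_lit 446) (nat_lit 389) (nat_lit 365)) (XT.lf (nat_lit 0) (nat_lit 6637909786) (nat_lit 152) (nat_lit 20201136709) (nat_lit 0) (nat_lit 2958432282) (nat_lit 26) (nat_lit 5)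 (nat_lit 28) (nat_lit 4) (nat_lit 26) (nat_lit 4) (nat_lit 447) (nat_lit 389) (nat_lit 364)))) (XT.nd (nat_lit 156) (nat_lit 152) (nat_lit 0) (XT.nd (nat_lit 78) (nat_lit 76) (nat_lit 0) (XT.lf (nat_lit 0) (nat_lit 16868282953) (nat_lit 152) (nat_lit 1367198014) (nat_lit 0) (nat_lit 13142202893) (nat_lit 26) (nat_lit 5) (nat_lit 28) (nat_lit 4) (nat_lit 26) (nat_lit 4) (nat_lit 448) (nat_lit 389) (nat_lit 363)) (XT.lf (nat_lit 0) (nat_lit 19622563032) (nat_lit 76) (nat_lit 8603142249) (nat_lit 76) (nat_lit 4833911676) (nat_lit 25) (nat_lit 4) (nat_lit 26) (nat_lit 5) (nat_lit 26) (nat_lit 4) (nat_lit 449) (nat_lit 389) (nat_lit 362))) (XT.nd (nat_lit 78) (nat_lit 0) (nat_lit 0) (XT.lf (nat_lit 0) (nat_lit 5436164060) (nat_lit 152) (nat_lit 27511878971) (nat_lit 0) (nat_lit 1909141141) (nat_lit 23) (nat_lit 5) (nat_lit 25) (nat_lit 4) (nat_lit 23) (nat_lit 4) (nat_lit 450) (nat_lit 389) (nat_lit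 361)) (XT.lf (nat_lit 0) (nat_lit 16704258632) (nat_lit 152) (nat_lit 6906267546) (nat_lit 0) (nat_lit 13142981443) (nat_lit 23) (nat_lit 5) (nat_lit 25) (nat_lit 4) (nat_lit 23) (nat_lit 4) (nat_lit 451) (nat_lit 389) (nat_lit 360))))) (XT.nd (nat_lit 234) (nat_lit 228) (nat_lit 0) (XT.nd (nat_lit 78) (nat_lit 152) (nat_lit 0) (XT.lf (nat_lit 0) (nat_lit 15831434744) (nat_lit 76) (nat_lit 13272349249) (nat_lit 76) (nat_lit 9679355143) (nat_lit 22) (nat_lit 4) (nat_lit 23) (nat_lit 5) (nat_lit 23) (nat_lit 4) (nat_lit 452) (nat_lit 389) (nat_lit 359)) (XT.nd (nat_lit 78) (nat_lit 76) (nat_lit 0) (XT.lf (nat_lit 0) (nat_lit 1487184398) (nat_lit 152) (nat_lit 529018071) (nat_lit 76) (nat_lit 38952566915) (nat_lit 21) (nat_lit 5) (nat_lit 23) (nat_lit 5) (nat_lit 22) (nat_lit 4) (nat_lit 453) (nat_lit 389) (nat_lit 358)) (XT.lf (nat_lit 0) (nat_lit 13732836896) (nat_lit 152) (nat_lit 19165982324)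 (nat_lit 0) (nat_lit 10353620448) (nat_lit 20) (nat_lit 5) (nat_lit 22) (nat_lit 4) (nat_lit 20) (nat_lit 4) (nat_lit 454) (nat_lit 389) (nat_lit 357)))) (XT.nd (nat_lit 156) (nat_lit 152) (nat_lit 0) (XT.nd (nat_lit 78) (nat_lit 0) (nat_lit 0) (XT.lf (nat_lit 0) (nat_lit 4889665219) (nat_lit 76) (nat_lit 22114012700) (nat_lit 76) (nat_lit 18711483372) (nat_lit 19) (nat_lit 4) (nat_lit 20) (nat_lit 5) (nat_lit 20) (nat_lit 4) (nat_lit 455) (nat_lit 389) (nat_lit 356)) (XT.lf (nat_lit 0) (nat_lit 31681185301) (nat_lit 76) (nat_lit 10043380443) (nat_lit 76) (nat_lit 6619265115) (nat_lit 19) (nat_lit 4) (nat_lit 20) (nat_lit 5) (nat_lit 20) (nat_lit 4) (nat_lit 456) (nat_lit 389) (nat_lit 355))) (XT.nd (nat_lit 78) (nat_lit 0) (nat_lit 0) (XT.lf (nat_lit 0) (nat_lit 6296147578) (nat_lit 152) (nat_lit 41752852722) (nat_lit 0) (nat_lit 3107163907) (nat_lit 17) (nat_lit 5) (nat_lit 19) (nat_lit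 4) (nat_lit 17) (nat_lit 4) (nat_lit 457) (nat_lit 389) (nat_lit 354)) (XT.lf (nat_lit 0) (nat_lit 20486754757) (nat_lit 152) (nat_lit 16364374286) (nat_lit 0) (nat_lit 17280635422) (nat_lit 17) (nat_lit 5) (nat_lit 19) (nat_lit 4) (nat_lit 17) (nat_lit 4) (nat_lit 458) (nat_lit 389) (nat_lit 353)))))) (XT.nd (nat_lit 546) (nat_lit 380) (nat_lit 0) (XT.nd (nat_lit 234) (nat_lit 76) (nat_lit 0) (XT.nd (nat_lit 78) (nat_lit 152) (nat_lit 0) (XT.lf (nat_lit 0) (nat_lit 11379162282) (nat_lit 76) (nat_lit 24587938670) (nat_lit 76) (nat_lit 21365952981) (nat_lit 16) (nat_lit 4) (nat_lit 17) (nat_lit 5) (nat_lit 17) (nat_lit 4) (nat_lit 459) (nat_lit 389) (nat_lit 352)) (XT.nd (nat_lit 78) (nat_lit 152) (nat_lit 0) (XT.lf (nat_lit 0) (nat_lit 42033795227) (nat_lit 76) (nat_lit 10983410985) (nat_lit 76) (nat_lit 7746734227) (nat_lit 16) (nat_lit 4) (nat_lit 17) (nat_lit 5) (nat_lit 17) (nat_lit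 4) (nat_lit 460) (nat_lit 389) (nat_lit 351)) (XT.lf (nat_lit 0) (nat_lit 6861146047) (nat_lit 152) (nat_lit 53723337911) (nat_lit 0) (nat_lit 3851627898) (nat_lit 14) (nat_lit 5) (nat_lit 16) (nat_lit 4) (nat_lit 14) (nat_lit 4) (nat_lit 461) (nat_lit 389) (nat_lit 350)))) (XT.nd (nat_lit 156) (nat_lit 0) (nat_lit 0) (XT.nd (nat_lit 78) (nat_lit 76) (nat_lit 0) (XT.lf (nat_lit 0) (nat_lit 22919644991) (nat_lit 152) (nat_lit 25511809547) (nat_lit 0) (nat_lit 19898464599) (nat_lit 14) (nat_lit 5) (nat_lit 16) (nat_lit 4) (nat_lit 14) (nat_lit 4) (nat_lit 462) (nat_lit 389) (nat_lit 349)) (XT.lf (nat_lit 0) (nat_lit 4996152763) (nat_lit 76) (nat_lit 35284803356) (nat_lit 76) (nat_lit 32252824589) (nat_lit 13) (nat_lit 4) (nat_lit 14) (nat_lit 5) (nat_lit 14) (nat_lit 4) (nat_lit 463) (nat_lit 389) (nat_lit 348))) (XT.nd (nat_lit 78) (nat_lit 0) (nat_lit 0) (XT.lf (nat_lit 0) (nat_lit 39190542146)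 (nat_lit 76) (nat_lit 20438767782) (nat_lit 76) (nat_lit 17396790521) (nat_lit 13) (nat_lit 4) (nat_lit 14) (nat_lit 5) (nat_lit 14) (nat_lit 4) (nat_lit 464) (nat_lit 389) (nat_lit 347)) (XT.lf (nat_lit 0) (nat_lit 75930585339) (nat_lit 76) (nat_lit 4502909394) (nat_lit 76) (nat_lit 1451674267) (nat_lit 13) (nat_lit 4) (nat_lit 14) (nat_lit 5) (nat_lit 14) (nat_lit 4) (nat_lit 465) (nat_lit 389) (nat_lit 346))))) (XT.nd (nat_lit 234) (nat_lit 152) (nat_lit 0) (XT.nd (nat_lit 78) (nat_lit 76) (nat_lit 0) (XT.lf (nat_lit 0) (nat_lit 15931144961) (nat_lit 152) (nat_lit 57997414441) (nat_lit 0) (nat_lit 13097990123) (nat_lit 11) (nat_lit 5) (nat_lit 13) (nat_lit 4) (nat_lit 11) (nat_lit 4) (nat_lit 466) (nat_lit 389) (nat_lit 345)) (XT.nd (nat_lit 78) (nat_lit 76) (nat_lit 0) (XT.lf (nat_lit 0) (nat_lit 34822790591) (nat_lit 152) (nat_lit 25755416751) (nat_lit 0) (nat_lit 31982286561) (nat_lit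 11) (nat_lit 5) (nat_lit 13) (nat_lit 4) (nat_lit 11) (nat_lit 4) (nat_lit 467) (nat_lit 389) (nat_lit 344)) (XT.lf (nat_lit 0) (nat_lit 9367405346) (nat_lit 76) (nat_lit 46002753128) (nat_lit 76) (nat_lit 43155444291) (nat_lit 10) (nat_lit 4) (nat_lit 11) (nat_lit 5) (nat_lit 11) (nat_lit 4) (nat_lit 468) (nat_lit 389) (nat_lit 343)))) (XT.nd (nat_lit 156) (nat_lit 152) (nat_lit 0) (XT.nd (nat_lit 78) (nat_lit 0) (nat_lit 0) (XT.lf (nat_lit 0) (nat_lit 48601886786) (nat_lit 76) (nat_lit 29584806549) (nat_lit 76) (nat_lit 26731196964) (nat_lit 10) (nat_lit 4) (nat_lit 11) (nat_lit 5) (nat_lit 11) (nat_lit 4) (nat_lit 469) (nat_lit 389) (nat_lit 342)) (XT.lf (nat_lit 0) (nat_lit 90824293596) (nat_lit 76) (nat_lit 11931274807) (nat_lit 76) (nat_lit 9071831196) (nat_lit 10) (nat_lit 4) (nat_lit 11) (nat_lit 5) (nat_lit 11) (nat_lit 4) (nat_lit 470) (nat_lit 389) (nat_lit 341))) (XT.nd (nat_lit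 78) (nat_lit 0) (nat_lit 0) (XT.lf (nat_lit 0) (nat_lit 10041841908) (nat_lit 152) (nat_lit 101796035083) (nat_lit 0) (nat_lit 7389207199) (nat_lit 8) (nat_lit 5) (nat_lit 10) (nat_lit 4) (nat_lit 8) (nat_lit 4) (nat_lit 471) (nat_lit 389) (nat_lit 340)) (XT.lf (nat_lit 0) (nat_lit 31024285424) (nat_lit 152) (nat_lit 67742204924) (nat_lit 0) (nat_lit 28367019478) (nat_lit 8) (nat_lit 5) (nat_lit 10) (nat_lit 4) (nat_lit 8) (nat_lit 4) (nat_lit 472) (nat_lit 389) (nat_lit 339))))))) (XT.nd (nat_lit 1092) (nat_lit 228) (nat_lit 0) (XT.nd (nat_lit 546) (nat_lit 76) (nat_lit 0) (XT.nd (nat_lit 234) (nat_lit 152) (nat_lit 0) (XT.nd (nat_lit 78) (nat_lit 76) (nat_lit 0) (XT.lf (nat_lit 0) (nat_lit 53621166829) (nat_lit 152) (nat_lit 31096802708) (nat_lit 0) (nat_lit 50959612699) (nat_lit 8) (nat_lit 5) (nat_lit 10) (nat_lit 4) (nat_lit 8) (nat_lit 4) (nat_lit 473) (nat_lit 389) (nat_lit 338))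 (XT.nd (nat_lit 78) (nat_lit 0) (nat_lit 0) (XT.lf (nat_lit 0) (nat_lit 8797411666) (nat_lit 76) (nat_lit 69380559863) (nat_lit 76) (nat_lit 66715035193) (nat_lit 7) (nat_lit 4) (nat_lit 8) (nat_lit 5) (nat_lit 8) (nat_lit 4) (nat_lit 474) (nat_lit 389) (nat_lit 337)) (XT.lf (nat_lit 0) (nat_lit 53531875183) (nat_lit 76) (nat_lit 51959801351) (nat_lit 76) (nat_lit 49290600256) (nat_lit 7) (nat_lit 4) (nat_lit 8) (nat_lit 5) (nat_lit 8) (nat_lit 4) (nat_lit 475) (nat_lit 389) (nat_lit 336)))) (XT.nd (nat_lit 156) (nat_lit 152) (nat_lit 0) (XT.nd (nat_lit 78) (nat_lit 0) (nat_lit 0) (XT.lf (nat_lit 0) (nat_lit 101734178435) (nat_lit 76) (nat_lit 33202701574) (nat_lit 76) (nat_lit 30530096381) (nat_lit 7) (nat_lit 4) (nat_lit 8) (nat_lit 5) (nat_lit 8) (nat_lit 4) (nat_lit 476) (nat_lit 389) (nat_lit 335)) (XT.lf (nat_lit 0) (nat_lit 153689964702) (nat_lit 76) (nat_lit 12998107346) (nat_lit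 76) (nat_lit 10322350210) (nat_lit 7) (nat_lit 4) (nat_lit 8) (nat_lit 5) (nat_lit 8) (nat_lit 4) (nat_lit 477) (nat_lit 389) (nat_lit 334))) (XT.nd (nat_lit 78) (nat_lit 0) (nat_lit 0) (XT.lf (nat_lit 0) (nat_lit 11615854279) (nat_lit 152) (nat_lit 168648623313) (nat_lit 0) (nat_lit 9135599093) (nat_lit 5) (nat_lit 5) (nat_lit 7) (nat_lit 4) (nat_lit 5) (nat_lit 4) (nat_lit 478) (nat_lit 389) (nat_lit 333)) (XT.lf (nat_lit 0) (nat_lit 35696114831) (nat_lit 152) (nat_lit 133774408154) (nat_lit 0) (nat_lit 33213357531) (nat_lit 5) (nat_lit 5) (nat_lit 7) (nat_lit 4) (nat_lit 5) (nat_lit 4) (nat_lit 479) (nat_lit 389) (nat_lit 332))))) (XT.nd (nat_lit 234) (nat_lit 76) (nat_lit 0) (XT.nd (nat_lit 78) (nat_lit 0) (nat_lit 0) (XT.lf (nat_lit 0) (nat_lit 61659164083) (nat_lit 152) (nat_lit 96200625191) (nat_lit 0) (nat_lit 59174090012) (nat_lit 5) (nat_lit 5) (nat_lit 7) (nat_lit 4) (nat_lit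 5) (nat_lit 4) (nat_lit 480) (nat_lit 389) (nat_lit 331)) (XT.nd (nat_lit 78) (nat_lit 0) (nat_lit 0) (XT.lf (nat_lit 0) (nat_lit 89658857144) (nat_lit 152) (nat_lit 55704614970) (nat_lit 0) (nat_lit 87171637913) (nat_lit 5) (nat_lit 5) (nat_lit 7) (nat_lit 4) (nat_lit 5) (nat_lit 4) (nat_lit 481) (nat_lit 389) (nat_lit 330)) (XT.lf (nat_lit 0) (nat_lit 119861118118) (nat_lit 152) (nat_lit 12046401134) (nat_lit 0) (nat_lit 117371912629) (nat_lit 5) (nat_lit 5) (nat_lit 7) (nat_lit 4) (nat_lit 5) (nat_lit 4) (nat_lit 482) (nat_lit 389) (nat_lit 329)))) (XT.nd (nat_lit 156) (nat_lit 0) (nat_lit 0) (XT.nd (nat_lit 78) (nat_lit 0) (nat_lit 0) (XT.lf (nat_lit 0) (nat_lit 36877493224) (nat_lit 76) (nat_lit 116454334743) (nat_lit 76) (nat_lit 113963290126) (nat_lit 4) (nat_lit 4) (nat_lit 5) (nat_lit 5) (nat_lit 5) (nat_lit 4) (nat_lit 483) (nat_lit 389) (nat_lit 328)) (XT.lf (nat_lit 0) (nat_lit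 90330466643) (nat_lit 76) (nat_lit 99445345364) (nat_lit 76) (nat_lit 96952597850) (nat_lit 4) (nat_lit 4) (nat_lit 5) (nat_lit 5) (nat_lit 5) (nat_lit 4) (nat_lit 484) (nat_lit 389) (nat_lit 327))) (XT.nd (nat_lit 78) (nat_lit 0) (nat_lit 0) (XT.lf (nat_lit 0) (nat_lit 147994935347) (nat_lit 76) (nat_lit 81109127057) (nat_lit 76) (nat_lit 78614802787) (nat_lit 4) (nat_lit 4) (nat_lit 5) (nat_lit 5) (nat_lit 5) (nat_lit 4) (nat_lit 485) (nat_lit 389) (nat_lit 326)) (XT.lf (nat_lit 0) (nat_lit 210212614708) (nat_lit 76) (nat_lit 61337020752) (nat_lit 76) (nat_lit 58841236523) (nat_lit 4) (nat_lit 4) (nat_lit 5) (nat_lit 5) (nat_lit 5) (nat_lit 4) (nat_lit 486) (nat_lit 389) (nat_lit 325)))))) (XT.nd (nat_lit 546) (nat_lit 76) (nat_lit 0) (XT.nd (nat_lit 234) (nat_lit 0) (nat_lit 0) (XT.nd (nat_lit 78) (nat_lit 152) (nat_lit 0) (XT.lf (nat_lit 0) (nat_lit 277352202083) (nat_lit 76) (nat_lit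 40011858411) (nat_lit 76) (nat_lit 37514722367) (nat_lit 4) (nat_lit 4) (nat_lit 5) (nat_lit 5) (nat_lit 5) (nat_lit 4) (nat_lit 487) (nat_lit 389) (nat_lit 324)) (XT.nd (nat_lit 78) (nat_lit 152) (nat_lit 0) (XT.lf (nat_lit 0) (nat_lit 349811561695) (nat_lit 76) (nat_lit 17007268702) (nat_lit 76) (nat_lit 14508880979) (nat_lit 4) (nat_lit 4) (nat_lit 5) (nat_lit 5) (nat_lit 5) (nat_lit 4) (nat_lit 488) (nat_lit 389) (nat_lit 323)) (XT.lf (nat_lit 0) (nat_lit 10455441329) (nat_lit 152) (nat_lit 391225366701) (nat_lit 0) (nat_lit 8141046249) (nat_lit 2) (nat_lit 5) (nat_lit 4) (nat_lit 4) (nat_lit 2) (nat_lit 4) (nat_lit 489) (nat_lit 389) (nat_lit 322)))) (XT.nd (nat_lit 156) (nat_lit 0) (nat_lit 0) (XT.nd (nat_lit 78) (nat_lit 0) (nat_lit 0) (XT.lf (nat_lit 0) (nat_lit 37935330450) (nat_lit 152) (nat_lit 366905925926) (nat_lit 0) (nat_lit 35619941746) (nat_lit 2) (nat_lit 5) (nat_lit 4)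 (nat_lit 4) (nat_lit 2) (nat_lit 4) (nat_lit 490) (nat_lit 389) (nat_lit 321)) (XT.lf (nat_lit 0) (nat_lit 67591796646) (nat_lit 152) (nat_lit 340686150053) (nat_lit 0) (nat_lit 65275487921) (nat_lit 2) (nat_lit 5) (nat_lit 4) (nat_lit 4) (nat_lit 2) (nat_lit 4) (nat_lit 491) (nat_lit 389) (nat_lit 320))) (XT.nd (nat_lit 78) (nat_lit 0) (nat_lit 0) (XT.lf (nat_lit 0) (nat_lit 99600581941) (nat_lit 152) (nat_lit 312410662632) (nat_lit 0) (nat_lit 97283421344) (nat_lit 2) (nat_lit 5) (nat_lit 4) (nat_lit 4) (nat_lit 2) (nat_lit 4) (nat_lit 492) (nat_lit 389) (nat_lit 319)) (XT.lf (nat_lit 0) (nat_lit 134151368025) (nat_lit 152) (nat_lit 281911905220) (nat_lit 0) (nat_lit 131833418657) (nat_lit 2) (nat_lit 5) (nat_lit 4) (nat_lit 4) (nat_lit 2) (nat_lit 4) (nat_lit 493) (nat_lit 389) (nat_lit 318))))) (XT.nd (nat_lit 312) (nat_lit 76) (nat_lit 0) (XT.nd (nat_lit 156) (nat_lit 0) (nat_lit 0)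 (XT.nd (nat_lit 78) (nat_lit 0) (nat_lit 0) (XT.lf (nat_lit 0) (nat_lit 171448900296) (nat_lit 152) (nat_lit 249009144440) (nat_lit 0) (nat_lit 169130220585) (nat_lit 2) (nat_lit 5) (nat_lit 4) (nat_lit 4) (nat_lit 2) (nat_lit 4) (nat_lit 494) (nat_lit 389) (nat_lit 317)) (XT.lf (nat_lit 0) (nat_lit 211714201168) (nat_lit 152) (nat_lit 213507400968) (nat_lit 0) (nat_lit 209394845214) (nat_lit 2) (nat_lit 5) (nat_lit 4) (nat_lit 4) (nat_lit 2) (nat_lit 4) (nat_lit 495) (nat_lit 389) (nat_lit 316))) (XT.nd (nat_lit 78) (nat_lit 0) (nat_lit 0) (XT.lf (nat_lit 0) (nat_lit 255185879832) (nat_lit 152) (nat_lit 175196294102) (nat_lit 0) (nat_lit 252865897726) (nat_lit 2) (nat_lit 5) (nat_lit 4) (nat_lit 4) (nat_lit 2) (nat_lit 4) (nat_lit 496) (nat_lit 389) (nat_lit 315)) (XT.lf (nat_lit 0) (nat_lit 302121546235) (nat_lit 152) (nat_lit 133848795062) (nat_lit 0) (nat_lit 299800984359) (nat_lit 2)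 (nat_lit 5) (nat_lit 4) (nat_lit 4) (nat_lit 2) (nat_lit 4) (nat_lit 497) (nat_lit 389) (nat_lit 314)))) (XT.nd (nat_lit 156) (nat_lit 76) (nat_lit 0) (XT.nd (nat_lit 78) (nat_lit 0) (nat_lit 0) (XT.lf (nat_lit 0) (nat_lit 352799337659) (nat_lit 152) (nat_lit 89219881629) (nat_lit 0) (nat_lit 350478238959) (nat_lit 2) (nat_lit 5) (nat_lit 4) (nat_lit 4) (nat_lit 2) (nat_lit 4) (nat_lit 498) (nat_lit 389) (nat_lit 313)) (XT.lf (nat_lit 0) (nat_lit 407519566943) (nat_lit 152) (nat_lit 41045086170) (nat_lit 0) (nat_lit 405197971184) (nat_lit 2) (nat_lit 5) (nat_lit 4) (nat_lit 4) (nat_lit 2) (nat_lit 4) (nat_lit 499) (nat_lit 389) (nat_lit 312))) (XT.nd (nat_lit 78) (nat_lit 0) (nat_lit 0) (XT.lf (nat_lit 0) (nat_lit 11538262190) (nat_lit 76) (nat_lit 455345735405) (nat_lit 76) (nat_lit 453023679405) (nat_lit 1) (nat_lit 4) (nat_lit 2) (nat_lit 5) (nat_lit 2) (nat_lit 4) (nat_lit 500) (nat_lit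 389) (nat_lit 311)) (XT.lf (nat_lit 0) (nat_lit 70640500191) (nat_lit 76) (nat_lit 461468693504) (nat_lit 76) (nat_lit 459146211357) (nat_lit 1) (nat_lit 4) (nat_lit 2) (nat_lit 5) (nat_lit 2) (nat_lit 4) (nat_lit 501) (nat_lit 389) (nat_lit 310))))))))
noncomputable def xc68 : XT := (XT.nd (nat_lit 2184) (nat_lit 0) (nat_lit 0) (XT.nd (nat_lit 1092) (nat_lit 0) (nat_lit 0) (XT.nd (nat_lit 546) (nat_lit 0) (nat_lit 0) (XT.nd (nat_lit 234) (nat_lit 0) (nat_lit 0) (XT.nd (nat_lit 78) (nat_lit 0) (nat_lit 0) (XT.lf (nat_lit 0) (nat_lit 134450501816) (nat_lit 76) (nat_lit 468092057002) (nat_lit 76) (nat_lit 465769180272) (nat_lit 1) (nat_lit 4) (nat_lit 2) (nat_lit 5) (nat_lit 2) (nat_lit 4) (nat_lit 502) (nat_lit 389) (nat_lit 309)) (XT.nd (nat_lit 78) (nat_lit 0) (nat_lit 0) (XT.lf (nat_lit 0) (nat_lit 203346400410) (nat_lit 76) (nat_lit 475255075459) (nat_lit 76) (nat_lit 472931833376) (nat_lit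 1) (nat_lit 4) (nat_lit 2) (nat_lit 5) (nat_lit 2) (nat_lit 4) (nat_lit 503) (nat_lit 389) (nat_lit 308)) (XT.lf (nat_lit 0) (nat_lit 277736467963) (nat_lit 76) (nat_lit 483000196392) (nat_lit 76) (nat_lit 480676616020) (nat_lit 1) (nat_lit 4) (nat_lit 2) (nat_lit 5) (nat_lit 2) (nat_lit 4) (nat_lit 504) (nat_lit 389) (nat_lit 307)))) (XT.nd (nat_lit 156) (nat_lit 0) (nat_lit 0) (XT.nd (nat_lit 78) (nat_lit 0) (nat_lit 0) (XT.lf (nat_lit 0) (nat_lit 358061534506) (nat_lit 76) (nat_lit 491373316816) (nat_lit 76) (nat_lit 489049423211) (nat_lit 1) (nat_lit 4) (nat_lit 2) (nat_lit 5) (nat_lit 2) (nat_lit 4) (nat_lit 505) (nat_lit 389) (nat_lit 306)) (XT.lf (nat_lit 0) (nat_lit 444797600432) (nat_lit 76) (nat_lit 500424055219) (nat_lit 76) (nat_lit 498099871586) (nat_lit 1) (nat_lit 4) (nat_lit 2) (nat_lit 5) (nat_lit 2) (nat_lit 4) (nat_lit 506) (nat_lit 389) (nat_lit 305))) (XT.nd (nat_lit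 78) (nat_lit 0) (nat_lit 0) (XT.lf (nat_lit 0) (nat_lit 538458657244) (nat_lit 76) (nat_lit 510206045609) (nat_lit 76) (nat_lit 507881593430) (nat_lit 1) (nat_lit 4) (nat_lit 2) (nat_lit 5) (nat_lit 2) (nat_lit 4) (nat_lit 507) (nat_lit 389) (nat_lit 304)) (XT.lf (nat_lit 0) (nat_lit 639599733426) (nat_lit 76) (nat_lit 520777255336) (nat_lit 76) (nat_lit 518452554503) (nat_lit 1) (nat_lit 4) (nat_lit 2) (nat_lit 5) (nat_lit 2) (nat_lit 4) (nat_lit 508) (nat_lit 389) (nat_lit 303))))) (XT.nd (nat_lit 234) (nat_lit 0) (nat_lit 0) (XT.nd (nat_lit 78) (nat_lit 0) (nat_lit 0) (XT.lf (nat_lit 0) (nat_lit 748820183505) (nat_lit 76) (nat_lit 532200328605) (nat_lit 76) (nat_lit 529875397537) (nat_lit 1) (nat_lit 4) (nat_lit 2) (nat_lit 5) (nat_lit 2) (nat_lit 4) (nat_lit 509) (nat_lit 389) (nat_lit 302)) (XT.nd (nat_lit 78) (nat_lit 0) (nat_lit 0) (XT.lf (nat_lit 0) (nat_lit 866767239776) (nat_lit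 76) (nat_lit 544542957702) (nat_lit 76) (nat_lit 542217813455) (nat_lit 1) (nat_lit 4) (nat_lit 2) (nat_lit 5) (nat_lit 2) (nat_lit 4) (nat_lit 510) (nat_lit 389) (nat_lit 301)) (XT.lf (nat_lit 0) (nat_lit 994139847758) (nat_lit 76) (nat_lit 557878284134) (nat_lit 76) (nat_lit 555552942497) (nat_lit 1) (nat_lit 4) (nat_lit 2) (nat_lit 5) (nat_lit 2) (nat_lit 4) (nat_lit 511) (nat_lit 389) (nat_lit 300)))) (XT.nd (nat_lit 156) (nat_lit 0) (nat_lit 0) (XT.nd (nat_lit 78) (nat_lit 0) (nat_lit 0) (XT.lf (nat_lit 0) (nat_lit 1131692808092) (nat_lit 76) (nat_lit 572285332056) (nat_lit 76) (nat_lit 569959807652) (nat_lit 1) (nat_lit 4) (nat_lit 2) (nat_lit 5) (nat_lit 2) (nat_lit 4) (nat_lit 512) (nat_lit 389) (nat_lit 299)) (XT.lf (nat_lit 0) (nat_lit 1280241249431) (nat_lit 76) (nat_lit 587849476568) (nat_lit 76) (nat_lit 585523782934) (nat_lit 1) (nat_lit 4) (nat_lit 2) (nat_lit 5) (nat_lit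 2) (nat_lit 4) (nat_lit 513) (nat_lit 389) (nat_lit 298))) (XT.nd (nat_lit 78) (nat_lit 0) (nat_lit 0) (XT.lf (nat_lit 0) (nat_lit 1440665458834) (nat_lit 76) (nat_lit 604662949637) (nat_lit 76) (nat_lit 602337099310) (nat_lit 1) (nat_lit 4) (nat_lit 2) (nat_lit 5) (nat_lit 2) (nat_lit 4) (nat_lit 514) (nat_lit 389) (nat_lit 297)) (XT.lf (nat_lit 0) (nat_lit 1613916098284) (nat_lit 76) (nat_lit 622825386659) (nat_lit 76) (nat_lit 620499391245) (nat_lit 1) (nat_lit 4) (nat_lit 2) (nat_lit 5) (nat_lit 2) (nat_lit 4) (nat_lit 515) (nat_lit 389) (nat_lit 296)))))) (XT.nd (nat_lit 546) (nat_lit 0) (nat_lit 0) (XT.nd (nat_lit 234) (nat_lit 0) (nat_lit 0) (XT.nd (nat_lit 78) (nat_lit 0) (nat_lit 0) (XT.lf (nat_lit 0) (nat_lit 1801019838237) (nat_lit 76) (nat_lit 642444416890) (nat_lit 76) (nat_lit 640118287137) (nat_lit 1) (nat_lit 4) (nat_lit 2) (nat_lit 5) (nat_lit 2) (nat_lit 4) (nat_lit 516)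 (nat_lit 389) (nat_lit 295)) (XT.nd (nat_lit 78) (nat_lit 0) (nat_lit 0) (XT.lf (nat_lit 0) (nat_lit 2003085441595) (nat_lit 76) (nat_lit 663636301251) (nat_lit 76) (nat_lit 661310047109) (nat_lit 1) (nat_lit 4) (nat_lit 2) (nat_lit 5) (nat_lit 2) (nat_lit 4) (nat_lit 517) (nat_lit 389) (nat_lit 294)) (XT.lf (nat_lit 0) (nat_lit 2221310334158) (nat_lit 76) (nat_lit 686526621279) (nat_lit 76) (nat_lit 684200251962) (nat_lit 1) (nat_lit 4) (nat_lit 2) (nat_lit 5) (nat_lit 2) (nat_lit 4) (nat_lit 518) (nat_lit 389) (nat_lit 293)))) (XT.nd (nat_lit 156) (nat_lit 0) (nat_lit 0) (XT.nd (nat_lit 78) (nat_lit 0) (nat_lit 0) (XT.lf (nat_lit 0) (nat_lit 2456987700472) (nat_lit 76) (nat_lit 711251023313) (nat_lit 76) (nat_lit 708924547353) (nat_lit 1) (nat_lit 4) (nat_lit 2) (nat_lit 5) (nat_lit 2) (nat_lit 4) (nat_lit 519) (nat_lit 389) (nat_lit 292)) (XT.lf (nat_lit 0) (nat_lit 2711514147153) (nat_lit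 76) (nat_lit 737956022330) (nat_lit 76) (nat_lit 735629447626) (nat_lit 1) (nat_lit 4) (nat_lit 2) (nat_lit 5) (nat_lit 2) (nat_lit 4) (nat_lit 520) (nat_lit 389) (nat_lit 291))) (XT.nd (nat_lit 78) (nat_lit 0) (nat_lit 0) (XT.lf (nat_lit 0) (nat_lit 2986397979072) (nat_lit 76) (nat_lit 766799870175) (nat_lit 76) (nat_lit 764473204042) (nat_lit 1) (nat_lit 4) (nat_lit 2) (nat_lit 5) (nat_lit 2) (nat_lit 4) (nat_lit 521) (nat_lit 389) (nat_lit 290)) (XT.lf (nat_lit 0) (nat_lit 3283268137452) (nat_lit 76) (nat_lit 797953493354) (nat_lit 76) (nat_lit 795626742564) (nat_lit 1) (nat_lit 4) (nat_lit 2) (nat_lit 5) (nat_lit 2) (nat_lit 4) (nat_lit 522) (nat_lit 389) (nat_lit 289))))) (XT.nd (nat_lit 234) (nat_lit 0) (nat_lit 0) (XT.nd (nat_lit 78) (nat_lit 0) (nat_lit 0) (XT.lf (nat_lit 0) (nat_lit 3603883852864) (nat_lit 76) (nat_lit 831601505930) (nat_lit 76) (nat_lit 829274676754) (nat_lit 1)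 (nat_lit 4) (nat_lit 2) (nat_lit 5) (nat_lit 2) (nat_lit 4) (nat_lit 523) (nat_lit 389) (nat_lit 288)) (XT.nd (nat_lit 78) (nat_lit 0) (nat_lit 0) (XT.lf (nat_lit 0) (nat_lit 3950145070287) (nat_lit 76) (nat_lit 867943303534) (nat_lit 76) (nat_lit 865616401778) (nat_lit 1) (nat_lit 4) (nat_lit 2) (nat_lit 5) (nat_lit 2) (nat_lit 4) (nat_lit 524) (nat_lit 389) (nat_lit 287)) (XT.lf (nat_lit 0) (nat_lit 4324103708047) (nat_lit 76) (nat_lit 907194244965) (nat_lit 76) (nat_lit 904867276007) (nat_lit 1) (nat_lit 4) (nat_lit 2) (nat_lit 5) (nat_lit 2) (nat_lit 4) (nat_lit 525) (nat_lit 389) (nat_lit 286)))) (XT.nd (nat_lit 156) (nat_lit 0) (nat_lit 0) (XT.nd (nat_lit 78) (nat_lit 0) (nat_lit 0) (XT.lf (nat_lit 0) (nat_lit 4727975817330) (nat_lit 76) (nat_lit 949586928397) (nat_lit 76) (nat_lit 947259897213) (nat_lit 1) (nat_lit 4) (nat_lit 2) (nat_lit 5) (nat_lit 2) (nat_lit 4) (nat_lit 526) (nat_lit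 389) (nat_lit 285)) (XT.lf (nat_lit 0) (nat_lit 5164154714339) (nat_lit 76) (nat_lit 995372569729) (nat_lit 76) (nat_lit 993045480929) (nat_lit 1) (nat_lit 4) (nat_lit 2) (nat_lit 5) (nat_lit 2) (nat_lit 4) (nat_lit 527) (nat_lit 389) (nat_lit 284))) (XT.nd (nat_lit 78) (nat_lit 0) (nat_lit 0) (XT.lf (nat_lit 0) (nat_lit 5635225162909) (nat_lit 76) (nat_lit 1044822491282) (nat_lit 76) (nat_lit 1042495349133) (nat_lit 1) (nat_lit 4) (nat_lit 2) (nat_lit 5) (nat_lit 2) (nat_lit 4) (nat_lit 528) (nat_lit 389) (nat_lit 283)) (XT.lf (nat_lit 0) (nat_lit 6143978691623) (nat_lit 76) (nat_lit 1098229729627) (nat_lit 76) (nat_lit 1095902538082) (nat_lit 1) (nat_lit 4) (nat_lit 2) (nat_lit 5) (nat_lit 2) (nat_lit 4) (nat_lit 529) (nat_lit 389) (nat_lit 282))))))) (XT.nd (nat_lit 1092) (nat_lit 0) (nat_lit 0) (XT.nd (nat_lit 546) (nat_lit 0) (nat_lit 0) (XT.nd (nat_lit 234) (nat_lit 0) (nat_lit 0)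 (XT.nd (nat_lit 78) (nat_lit 0) (nat_lit 0) (XT.lf (nat_lit 0) (nat_lit 6693430136209) (nat_lit 76) (nat_lit 1155910772102) (nat_lit 76) (nat_lit 1153583534820) (nat_lit 1) (nat_lit 4) (nat_lit 2) (nat_lit 5) (nat_lit 2) (nat_lit 4) (nat_lit 530) (nat_lit 389) (nat_lit 281)) (XT.nd (nat_lit 78) (nat_lit 0) (nat_lit 0) (XT.lf (nat_lit 0) (nat_lit 7286835505225) (nat_lit 76) (nat_lit 1218207432294) (nat_lit 76) (nat_lit 1215880152663) (nat_lit 1) (nat_lit 4) (nat_lit 2) (nat_lit 5) (nat_lit 2) (nat_lit 4) (nat_lit 531) (nat_lit 389) (nat_lit 280)) (XT.lf (nat_lit 0) (nat_lit 7927711274932) (nat_lit 76) (nat_lit 1285488875595) (nat_lit 76) (nat_lit 1283161556751) (nat_lit 1) (nat_lit 4) (nat_lit 2) (nat_lit 5) (nat_lit 2) (nat_lit 4) (nat_lit 532) (nat_lit 389) (nat_lit 279)))) (XT.nd (nat_lit 156) (nat_lit 0) (nat_lit 0) (XT.nd (nat_lit 78) (nat_lit 0) (nat_lit 0) (XT.lf (nat_lit 0) (nat_lit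 8619855227671) (nat_lit 76) (nat_lit 1358153806855) (nat_lit 76) (nat_lit 1355826451703) (nat_lit 1) (nat_lit 4) (nat_lit 2) (nat_lit 5) (nat_lit 2) (nat_lit 4) (nat_lit 533) (nat_lit 389) (nat_lit 278)) (XT.lf (nat_lit 0) (nat_lit 9367368957235) (nat_lit 76) (nat_lit 1436632833074) (nat_lit 76) (nat_lit 1434305444304) (nat_lit 1) (nat_lit 4) (nat_lit 2) (nat_lit 5) (nat_lit 2) (nat_lit 4) (nat_lit 534) (nat_lit 389) (nat_lit 277))) (XT.nd (nat_lit 78) (nat_lit 0) (nat_lit 0) (XT.lf (nat_lit 0) (nat_lit 10174682174613) (nat_lit 76) (nat_lit 1521391015147) (nat_lit 76) (nat_lit 1519063595249) (nat_lit 1) (nat_lit 4) (nat_lit 2) (nat_lit 5) (nat_lit 2) (nat_lit 4) (nat_lit 535) (nat_lit 389) (nat_lit 276)) (XT.lf (nat_lit 0) (nat_lit 11046578958131) (nat_lit 76) (nat_lit 1612930623785) (nat_lit 76) (nat_lit 1610603175064) (nat_lit 1) (nat_lit 4) (nat_lit 2) (nat_lit 5) (nat_lit 2) (nat_lit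 4) (nat_lit 536) (nat_lit 389) (nat_lit 275))))) (XT.nd (nat_lit 234) (nat_lit 0) (nat_lit 0) (XT.nd (nat_lit 78) (nat_lit 0) (nat_lit 0) (XT.lf (nat_lit 0) (nat_lit 11988226103543) (nat_lit 76) (nat_lit 1711794115925) (nat_lit 76) (nat_lit 1709466640517) (nat_lit 1) (nat_lit 4) (nat_lit 2) (nat_lit 5) (nat_lit 2) (nat_lit 4) (nat_lit 537) (nat_lit 389) (nat_lit 274)) (XT.nd (nat_lit 78) (nat_lit 0) (nat_lit 0) (XT.lf (nat_lit 0) (nat_lit 13005203742082) (nat_lit 76) (nat_lit 1818567349301) (nat_lit 76) (nat_lit 1816239849182) (nat_lit 1) (nat_lit 4) (nat_lit 2) (nat_lit 5) (nat_lit 2) (nat_lit 4) (nat_lit 538) (nat_lit 389) (nat_lit 273)) (XT.lf (nat_lit 0) (nat_lit 14103538407901) (nat_lit 76) (nat_lit 1933883054183) (nat_lit 76) (nat_lit 1931555531184) (nat_lit 1) (nat_lit 4) (nat_lit 2) (nat_lit 5) (nat_lit 2) (nat_lit 4) (nat_lit 539) (nat_lit 389) (nat_lit 272)))) (XT.nd (nat_lit 156)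 (nat_lit 0) (nat_lit 0) (XT.nd (nat_lit 78) (nat_lit 0) (nat_lit 0) (XT.lf (nat_lit 0) (nat_lit 15289738750873) (nat_lit 76) (nat_lit 2058424582896) (nat_lit 76) (nat_lit 2056097038713) (nat_lit 1) (nat_lit 4) (nat_lit 2) (nat_lit 5) (nat_lit 2) (nat_lit 4) (nat_lit 540) (nat_lit 389) (nat_lit 271)) (XT.lf (nat_lit 0) (nat_lit 16570834106362) (nat_lit 76) (nat_lit 2192929959316) (nat_lit 76) (nat_lit 2190602395516) (nat_lit 1) (nat_lit 4) (nat_lit 2) (nat_lit 5) (nat_lit 2) (nat_lit 4) (nat_lit 541) (nat_lit 389) (nat_lit 270))) (XT.nd (nat_lit 78) (nat_lit 0) (nat_lit 0) (XT.lf (nat_lit 0) (nat_lit 17954416150550) (nat_lit 76) (nat_lit 2338196252339) (nat_lit 76) (nat_lit 2335868670376) (nat_lit 1) (nat_lit 4) (nat_lit 2) (nat_lit 5) (nat_lit 2) (nat_lit 4) (nat_lit 542) (nat_lit 389) (nat_lit 269)) (XT.lf (nat_lit 0) (nat_lit 19448683888142) (nat_lit 76) (nat_lit 2495084299256) (nat_lit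 76) (nat_lit 2492756700476) (nat_lit 1) (nat_lit 4) (nat_lit 2) (nat_lit 5) (nat_lit 2) (nat_lit 4) (nat_lit 543) (nat_lit 389) (nat_lit 268)))))) (XT.nd (nat_lit 53196) (nat_lit 0) (nat_lit 3192) (XT.nd (nat_lit 52884) (nat_lit 0) (nat_lit 4104) (XT.nd (nat_lit 78) (nat_lit 0) (nat_lit 0) (XT.lf (nat_lit 0) (nat_lit 21062492239066) (nat_lit 76) (nat_lit 2664523807013) (nat_lit 76) (nat_lit 2662196192661) (nat_lit 1) (nat_lit 4) (nat_lit 2) (nat_lit 5) (nat_lit 2) (nat_lit 4) (nat_lit 544) (nat_lit 389) (nat_lit 267)) (XT.nd (nat_lit 52728) (nat_lit 0) (nat_lit 4712) (XT.lf (nat_lit 0) (nat_lit 22805404512068) (nat_lit 76) (nat_lit 2847518861582) (nat_lit 76) (nat_lit 2845191232812) (nat_lit 1) (nat_lit 4) (nat_lit 2) (nat_lit 5) (nat_lit 2) (nat_lit 4) (nat_lit 545) (nat_lit 389) (nat_lit 266)) (XT.lf (nat_lit 0) (nat_lit 1707031195) (nat_lit 228) (nat_lit 1260989376) (nat_lit 0) (nat_lit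 1707031195) (nat_lit 63) (nat_lit 5) (nat_lit 66) (nat_lit 4) (nat_lit 63) (nat_lit 4) (nat_lit 420) (nat_lit 390) (nat_lit 390)))) (XT.nd (nat_lit 156) (nat_lit 304) (nat_lit 0) (XT.nd (nat_lit 78) (nat_lit 152) (nat_lit 0) (XT.lf (nat_lit 0) (nat_lit 6096240252) (nat_lit 152) (nat_lit 2184130363) (nat_lit 152) (nat_lit 1380440141) (nat_lit 61) (nat_lit 4) (nat_lit 63) (nat_lit 5) (nat_lit 63) (nat_lit 4) (nat_lit 421) (nat_lit 390) (nat_lit 389)) (XT.lf (nat_lit 0) (nat_lit 3331732623) (nat_lit 152) (nat_lit 4761774792) (nat_lit 0) (nat_lit 1898540184) (nat_lit 59) (nat_lit 5) (nat_lit 61) (nat_lit 4) (nat_lit 59) (nat_lit 4) (nat_lit 422) (nat_lit 390) (nat_lit 388))) (XT.nd (nat_lit 78) (nat_lit 152) (nat_lit 0) (XT.lf (nat_lit 0) (nat_lit 4249524579) (nat_lit 152) (nat_lit 4084777428) (nat_lit 152) (nat_lit 2013589780) (nat_lit 57) (nat_lit 4) (nat_lit 59) (nat_lit 5) (nat_lit 59) (nat_lit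 4) (nat_lit 423) (nat_lit 390) (nat_lit 387)) (XT.lf (nat_lit 0) (nat_lit 2804169581) (nat_lit 152) (nat_lit 7586873006) (nat_lit 0) (nat_lit 339425180) (nat_lit 55) (nat_lit 5) (nat_lit 57) (nat_lit 4) (nat_lit 55) (nat_lit 4) (nat_lit 424) (nat_lit 390) (nat_lit 386))))) (XT.nd (nat_lit 312) (nat_lit 380) (nat_lit 0) (XT.nd (nat_lit 156) (nat_lit 228) (nat_lit 0) (XT.nd (nat_lit 78) (nat_lit 152) (nat_lit 0) (XT.lf (nat_lit 0) (nat_lit 1804450158) (nat_lit 152) (nat_lit 6150847955) (nat_lit 152) (nat_lit 3179642387) (nat_lit 53) (nat_lit 4) (nat_lit 55) (nat_lit 5) (nat_lit 55) (nat_lit 4) (nat_lit 425) (nat_lit 390) (nat_lit 385)) (XT.lf (nat_lit 0) (nat_lit 320661877) (nat_lit 76) (nat_lit 1487421281) (nat_lit 152) (nat_lit 9763256236) (nat_lit 51) (nat_lit 5) (nat_lit 52) (nat_lit 5) (nat_lit 53) (nat_lit 4) (nat_lit 426) (nat_lit 390) (nat_lit 384))) (XT.nd (nat_lit 78) (nat_lit 228)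 (nat_lit 0) (XT.lf (nat_lit 0) (nat_lit 7111934609) (nat_lit 152) (nat_lit 1392443665) (nat_lit 0) (nat_lit 3524564321) (nat_lit 51) (nat_lit 5) (nat_lit 53) (nat_lit 4) (nat_lit 51) (nat_lit 4) (nat_lit 427) (nat_lit 390) (nat_lit 383)) (XT.lf (nat_lit 0) (nat_lit 323491621) (nat_lit 228) (nat_lit 3286771792) (nat_lit 76) (nat_lit 8910497560) (nat_lit 48) (nat_lit 5) (nat_lit 51) (nat_lit 5) (nat_lit 49) (nat_lit 4) (nat_lit 428) (nat_lit 390) (nat_lit 382)))) (XT.nd (nat_lit 156) (nat_lit 228) (nat_lit 0) (XT.nd (nat_lit 78) (nat_lit 76) (nat_lit 0) (XT.lf (nat_lit 0) (nat_lit 5745254301) (nat_lit 152) (nat_lit 5534478604) (nat_lit 0) (nat_lit 1759769740) (nat_lit 47) (nat_lit 5) (nat_lit 49) (nat_lit 4) (nat_lit 47) (nat_lit 4) (nat_lit 429) (nat_lit 390) (nat_lit 381)) (XT.lf (nat_lit 0) (nat_lit 5493734791) (nat_lit 76) (nat_lit 6190181921) (nat_lit 76) (nat_lit 1909182133) (nat_lit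 46) (nat_lit 4) (nat_lit 47) (nat_lit 5) (nat_lit 47) (nat_lit 4) (nat_lit 430) (nat_lit 390) (nat_lit 380))) (XT.nd (nat_lit 78) (nat_lit 76) (nat_lit 0) (XT.lf (nat_lit 0) (nat_lit 3159548828) (nat_lit 76) (nat_lit 549188587) (nat_lit 152) (nat_lit 10474937496) (nat_lit 44) (nat_lit 5) (nat_lit 45) (nat_lit 5) (nat_lit 46) (nat_lit 4) (nat_lit 431) (nat_lit 390) (nat_lit 379)) (XT.lf (nat_lit 0) (nat_lit 362690174) (nat_lit 76) (nat_lit 9447837162) (nat_lit 76) (nat_lit 4996002280) (nat_lit 43) (nat_lit 4) (nat_lit 44) (nat_lit 5) (nat_lit 44) (nat_lit 4) (nat_lit 432) (nat_lit 390) (nat_lit 378))))))))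
noncomputable def xc69 : XT := (XT.nd (nat_lit 2184) (nat_lit 912) (nat_lit 0) (XT.nd (nat_lit 1092) (nat_lit 912) (nat_lit 0) (XT.nd (nat_lit 546) (nat_lit 532) (nat_lit 0) (XT.nd (nat_lit 234) (nat_lit 380) (nat_lit 0) (XT.nd (nat_lit 78) (nat_lit 152) (nat_lit 0) (XT.lf (nat_lit 0) (nat_lit 967954484) (nat_lit 152) (nat_lit 2655702068) (nat_lit 76) (nat_lit 11846365733) (nat_lit 42) (nat_lit 5) (nat_lit 44) (nat_lit 5) (nat_lit 43) (nat_lit 4) (nat_lit 433) (nat_lit 390) (nat_lit 377)) (XT.nd (nat_lit 78) (nat_lit 76) (nat_lit 0) (XT.lf (nat_lit 0) (nat_lit 7235895804) (nat_lit 152) (nat_lit 6206100630) (nat_lit 0) (nat_lit 2726479051) (nat_lit 41) (nat_lit 5) (nat_lit 43) (nat_lit 4) (nat_lit 41) (nat_lit 4) (nat_lit 434) (nat_lit 390) (nat_lit 376)) (XT.lf (nat_lit 0) (nat_lit 6648048826) (nat_lit 76) (nat_lit 7473646950) (nat_lit 76) (nat_lit 2791799900) (nat_lit 40) (nat_lit 4) (nat_lit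 41) (nat_lit 5) (nat_lit 41) (nat_lit 4) (nat_lit 435) (nat_lit 390) (nat_lit 375)))) (XT.nd (nat_lit 156) (nat_lit 228) (nat_lit 0) (XT.nd (nat_lit 78) (nat_lit 0) (nat_lit 0) (XT.lf (nat_lit 0) (nat_lit 2809580630) (nat_lit 76) (nat_lit 868825793) (nat_lit 152) (nat_lit 14029904885) (nat_lit 38) (nat_lit 5) (nat_lit 39) (nat_lit 5) (nat_lit 40) (nat_lit 4) (nat_lit 436) (nat_lit 390) (nat_lit 374)) (XT.lf (nat_lit 0) (nat_lit 10743859327) (nat_lit 152) (nat_lit 1674674744) (nat_lit 0) (nat_lit 6124103848) (nat_lit 38) (nat_lit 5) (nat_lit 40) (nat_lit 4) (nat_lit 38) (nat_lit 4) (nat_lit 437) (nat_lit 390) (nat_lit 373))) (XT.nd (nat_lit 78) (nat_lit 152) (nat_lit 0) (XT.lf (nat_lit 0) (nat_lit 12843550261) (nat_lit 76) (nat_lit 5667856026) (nat_lit 76) (nat_lit 921359131) (nat_lit 37) (nat_lit 4) (nat_lit 38) (nat_lit 5) (nat_lit 38) (nat_lit 4) (nat_lit 438) (nat_lit 390) (nat_lit 372))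 (XT.lf (nat_lit 0) (nat_lit 6273054103) (nat_lit 152) (nat_lit 12331663084) (nat_lit 0) (nat_lit 1769489236) (nat_lit 35) (nat_lit 5) (nat_lit 37) (nat_lit 4) (nat_lit 35) (nat_lit 4) (nat_lit 439) (nat_lit 390) (nat_lit 371))))) (XT.nd (nat_lit 234) (nat_lit 304) (nat_lit 0) (XT.nd (nat_lit 78) (nat_lit 152) (nat_lit 0) (XT.lf (nat_lit 0) (nat_lit 2402278678) (nat_lit 76) (nat_lit 11787608484) (nat_lit 76) (nat_lit 7183432194) (nat_lit 34) (nat_lit 4) (nat_lit 35) (nat_lit 5) (nat_lit 35) (nat_lit 4) (nat_lit 440) (nat_lit 390) (nat_lit 370)) (XT.nd (nat_lit 78) (nat_lit 76) (nat_lit 0) (XT.lf (nat_lit 0) (nat_lit 426452595) (nat_lit 152) (nat_lit 3810313613) (nat_lit 76) (nat_lit 18202792731) (nat_lit 33) (nat_lit 5) (nat_lit 35) (nat_lit 5) (nat_lit 34) (nat_lit 4) (nat_lit 441) (nat_lit 390) (nat_lit 369)) (XT.lf (nat_lit 0) (nat_lit 8485516527) (nat_lit 152) (nat_lit 11016114598) (nat_lit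 0) (nat_lit 4056263665) (nat_lit 32) (nat_lit 5) (nat_lit 34) (nat_lit 4) (nat_lit 32) (nat_lit 4) (nat_lit 442) (nat_lit 390) (nat_lit 368)))) (XT.nd (nat_lit 156) (nat_lit 152) (nat_lit 0) (XT.nd (nat_lit 78) (nat_lit 76) (nat_lit 0) (XT.lf (nat_lit 0) (nat_lit 5464363370) (nat_lit 76) (nat_lit 11895450359) (nat_lit 76) (nat_lit 7392245099) (nat_lit 31) (nat_lit 4) (nat_lit 32) (nat_lit 5) (nat_lit 32) (nat_lit 4) (nat_lit 443) (nat_lit 390) (nat_lit 367)) (XT.lf (nat_lit 0) (nat_lit 988637214) (nat_lit 152) (nat_lit 2515314297) (nat_lit 76) (nat_lit 22525552138) (nat_lit 30) (nat_lit 5) (nat_lit 32) (nat_lit 5) (nat_lit 31) (nat_lit 4) (nat_lit 444) (nat_lit 390) (nat_lit 366))) (XT.nd (nat_lit 78) (nat_lit 76) (nat_lit 0) (XT.lf (nat_lit 0) (nat_lit 10002452308) (nat_lit 152) (nat_lit 11651676223) (nat_lit 0) (nat_lit 5710709747) (nat_lit 29) (nat_lit 5) (nat_lit 31) (nat_lit 4) (nat_lit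 29) (nat_lit 4) (nat_lit 445) (nat_lit 390) (nat_lit 365)) (XT.lf (nat_lit 0) (nat_lit 6649414509) (nat_lit 76) (nat_lit 13245539928) (nat_lit 76) (nat_lit 8899440147) (nat_lit 28) (nat_lit 4) (nat_lit 29) (nat_lit 5) (nat_lit 29) (nat_lit 4) (nat_lit 446) (nat_lit 390) (nat_lit 364)))))) (XT.nd (nat_lit 546) (nat_lit 456) (nat_lit 0) (XT.nd (nat_lit 234) (nat_lit 228) (nat_lit 0) (XT.nd (nat_lit 78) (nat_lit 152) (nat_lit 0) (XT.lf (nat_lit 0) (nat_lit 391668983) (nat_lit 152) (nat_lit 3581759055) (nat_lit 76) (nat_lit 26351372958) (nat_lit 27) (nat_lit 5) (nat_lit 29) (nat_lit 5) (nat_lit 28) (nat_lit 4) (nat_lit 447) (nat_lit 390) (nat_lit 363)) (XT.nd (nat_lit 78) (nat_lit 76) (nat_lit 0) (XT.lf (nat_lit 0) (nat_lit 10354936963) (nat_lit 152) (nat_lit 15330420656) (nat_lit 0) (nat_lit 6241017429) (nat_lit 26) (nat_lit 5) (nat_lit 28) (nat_lit 4) (nat_lit 26) (nat_lit 4) (nat_lit 448)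 (nat_lit 390) (nat_lit 362)) (XT.lf (nat_lit 0) (nat_lit 4768256409) (nat_lit 76) (nat_lit 16514160669) (nat_lit 76) (nat_lit 12360286956) (nat_lit 25) (nat_lit 4) (nat_lit 26) (nat_lit 5) (nat_lit 26) (nat_lit 4) (nat_lit 449) (nat_lit 390) (nat_lit 361)))) (XT.nd (nat_lit 156) (nat_lit 76) (nat_lit 0) (XT.nd (nat_lit 78) (nat_lit 152) (nat_lit 0) (XT.lf (nat_lit 0) (nat_lit 27046612545) (nat_lit 76) (nat_lit 6309420554) (nat_lit 76) (nat_lit 2118552229) (nat_lit 25) (nat_lit 4) (nat_lit 26) (nat_lit 5) (nat_lit 26) (nat_lit 4) (nat_lit 450) (nat_lit 390) (nat_lit 360)) (XT.lf (nat_lit 0) (nat_lit 8812388514) (nat_lit 152) (nat_lit 23697809396) (nat_lit 0) (nat_lit 4900237964) (nat_lit 23) (nat_lit 5) (nat_lit 25) (nat_lit 4) (nat_lit 23) (nat_lit 4) (nat_lit 451) (nat_lit 390) (nat_lit 359))) (XT.nd (nat_lit 78) (nat_lit 76) (nat_lit 0) (XT.lf (nat_lit 0) (nat_lit 20764054257) (nat_lit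 152) (nat_lit 1889306086) (nat_lit 0) (nat_lit 16822536193) (nat_lit 23) (nat_lit 5) (nat_lit 25) (nat_lit 4) (nat_lit 23) (nat_lit 4) (nat_lit 452) (nat_lit 390) (nat_lit 358)) (XT.lf (nat_lit 0) (nat_lit 22526413327) (nat_lit 76) (nat_lit 11557945602) (nat_lit 76) (nat_lit 7589235394) (nat_lit 22) (nat_lit 4) (nat_lit 23) (nat_lit 5) (nat_lit 23) (nat_lit 4) (nat_lit 453) (nat_lit 390) (nat_lit 357))))) (XT.nd (nat_lit 234) (nat_lit 228) (nat_lit 0) (XT.nd (nat_lit 78) (nat_lit 76) (nat_lit 0) (XT.lf (nat_lit 0) (nat_lit 4256037285) (nat_lit 152) (nat_lit 39220238522) (nat_lit 0) (nat_lit 557992731) (nat_lit 20) (nat_lit 5) (nat_lit 22) (nat_lit 4) (nat_lit 20) (nat_lit 4) (nat_lit 454) (nat_lit 390) (nat_lit 356)) (XT.nd (nat_lit 78) (nat_lit 76) (nat_lit 0) (XT.lf (nat_lit 0) (nat_lit 17347285161) (nat_lit 152) (nat_lit 15536418124) (nat_lit 0) (nat_lit 13627654606) (nat_lit 20) (nat_lit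 5) (nat_lit 22) (nat_lit 4) (nat_lit 20) (nat_lit 4) (nat_lit 455) (nat_lit 390) (nat_lit 355)) (XT.lf (nat_lit 0) (nat_lit 10312976342) (nat_lit 76) (nat_lit 21301483027) (nat_lit 76) (nat_lit 17561865435) (nat_lit 19) (nat_lit 4) (nat_lit 20) (nat_lit 5) (nat_lit 20) (nat_lit 4) (nat_lit 456) (nat_lit 390) (nat_lit 354)))) (XT.nd (nat_lit 156) (nat_lit 76) (nat_lit 0) (XT.nd (nat_lit 78) (nat_lit 152) (nat_lit 0) (XT.lf (nat_lit 0) (nat_lit 38875067074) (nat_lit 76) (nat_lit 8456433574) (nat_lit 76) (nat_lit 4698309466) (nat_lit 19) (nat_lit 4) (nat_lit 20) (nat_lit 5) (nat_lit 20) (nat_lit 4) (nat_lit 457) (nat_lit 390) (nat_lit 353)) (XT.lf (nat_lit 0) (nat_lit 9124969667) (nat_lit 152) (nat_lit 40308310220) (nat_lit 0) (nat_lit 5629358768) (nat_lit 17) (nat_lit 5) (nat_lit 19) (nat_lit 4) (nat_lit 17) (nat_lit 4) (nat_lit 458) (nat_lit 390) (nat_lit 352))) (XT.nd (nat_lit 78) (nat_lit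 76) (nat_lit 0) (XT.lf (nat_lit 0) (nat_lit 24278593547) (nat_lit 152) (nat_lit 13243180970) (nat_lit 0) (nat_lit 20768291579) (nat_lit 17) (nat_lit 5) (nat_lit 19) (nat_lit 4) (nat_lit 17) (nat_lit 4) (nat_lit 459) (nat_lit 390) (nat_lit 351)) (XT.lf (nat_lit 0) (nat_lit 16607677934) (nat_lit 76) (nat_lit 24334067944) (nat_lit 76) (nat_lit 20810163134) (nat_lit 16) (nat_lit 4) (nat_lit 17) (nat_lit 5) (nat_lit 17) (nat_lit 4) (nat_lit 460) (nat_lit 390) (nat_lit 350))))))) (XT.nd (nat_lit 1092) (nat_lit 304) (nat_lit 0) (XT.nd (nat_lit 546) (nat_lit 228) (nat_lit 0) (XT.nd (nat_lit 234) (nat_lit 228) (nat_lit 0) (XT.nd (nat_lit 78) (nat_lit 152) (nat_lit 0) (XT.lf (nat_lit 0) (nat_lit 49394816132) (nat_lit 76) (nat_lit 9805689587) (nat_lit 76) (nat_lit 6269189553) (nat_lit 16) (nat_lit 4) (nat_lit 17) (nat_lit 5) (nat_lit 17) (nat_lit 4) (nat_lit 461) (nat_lit 390) (nat_lit 349)) (XT.nd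 (nat_lit 78) (nat_lit 0) (nat_lit 0) (XT.lf (nat_lit 0) (nat_lit 9400512606) (nat_lit 152) (nat_lit 53916067419) (nat_lit 0) (nat_lit 6115177164) (nat_lit 14) (nat_lit 5) (nat_lit 16) (nat_lit 4) (nat_lit 14) (nat_lit 4) (nat_lit 462) (nat_lit 390) (nat_lit 348)) (XT.lf (nat_lit 0) (nat_lit 26596248883) (nat_lit 152) (nat_lit 23751701047) (nat_lit 0) (nat_lit 23300914946) (nat_lit 14) (nat_lit 5) (nat_lit 16) (nat_lit 4) (nat_lit 14) (nat_lit 4) (nat_lit 463) (nat_lit 390) (nat_lit 347)))) (XT.nd (nat_lit 156) (nat_lit 152) (nat_lit 0) (XT.nd (nat_lit 78) (nat_lit 0) (nat_lit 0) (XT.lf (nat_lit 0) (nat_lit 9100669051) (nat_lit 76) (nat_lit 36198376047) (nat_lit 76) (nat_lit 32893784245) (nat_lit 13) (nat_lit 4) (nat_lit 14) (nat_lit 5) (nat_lit 14) (nat_lit 4) (nat_lit 464) (nat_lit 390) (nat_lit 346)) (XT.lf (nat_lit 0) (nat_lit 45756178172) (nat_lit 76) (nat_lit 20306080707) (nat_lit 76)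 (nat_lit 16992916807) (nat_lit 13) (nat_lit 4) (nat_lit 14) (nat_lit 5) (nat_lit 14) (nat_lit 4) (nat_lit 465) (nat_lit 390) (nat_lit 345))) (XT.nd (nat_lit 78) (nat_lit 76) (nat_lit 0) (XT.lf (nat_lit 0) (nat_lit 90057798) (nat_lit 152) (nat_lit 3133780805) (nat_lit 76) (nat_lit 85088801523) (nat_lit 12) (nat_lit 5) (nat_lit 14) (nat_lit 5) (nat_lit 13) (nat_lit 4) (nat_lit 466) (nat_lit 390) (nat_lit 344)) (XT.lf (nat_lit 0) (nat_lit 18783880955) (nat_lit 152) (nat_lit 59376546832) (nat_lit 0) (nat_lit 15701982603) (nat_lit 11) (nat_lit 5) (nat_lit 13) (nat_lit 4) (nat_lit 11) (nat_lit 4) (nat_lit 467) (nat_lit 390) (nat_lit 343))))) (XT.nd (nat_lit 234) (nat_lit 152) (nat_lit 0) (XT.nd (nat_lit 78) (nat_lit 76) (nat_lit 0) (XT.lf (nat_lit 0) (nat_lit 39069951243) (nat_lit 152) (nat_lit 24796719754) (nat_lit 0) (nat_lit 35981752144) (nat_lit 11) (nat_lit 5) (nat_lit 13) (nat_lit 4) (nat_lit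 11) (nat_lit 4) (nat_lit 468) (nat_lit 390) (nat_lit 342)) (XT.nd (nat_lit 78) (nat_lit 0) (nat_lit 0) (XT.lf (nat_lit 0) (nat_lit 13059494431) (nat_lit 76) (nat_lit 48164138835) (nat_lit 76) (nat_lit 45070105710) (nat_lit 10) (nat_lit 4) (nat_lit 11) (nat_lit 5) (nat_lit 11) (nat_lit 4) (nat_lit 469) (nat_lit 390) (nat_lit 341)) (XT.lf (nat_lit 0) (nat_lit 55214756857) (nat_lit 76) (nat_lit 30545262792) (nat_lit 76) (nat_lit 27445827792) (nat_lit 10) (nat_lit 4) (nat_lit 11) (nat_lit 5) (nat_lit 11) (nat_lit 4) (nat_lit 470) (nat_lit 390) (nat_lit 340)))) (XT.nd (nat_lit 156) (nat_lit 0) (nat_lit 0) (XT.nd (nat_lit 78) (nat_lit 152) (nat_lit 0) (XT.lf (nat_lit 0) (nat_lit 100613125165) (nat_lit 76) (nat_lit 11583620976) (nat_lit 76) (nat_lit 8479184239) (nat_lit 10) (nat_lit 4) (nat_lit 11) (nat_lit 5) (nat_lit 11) (nat_lit 4) (nat_lit 471) (nat_lit 390) (nat_lit 339)) (XT.lf (nat_lit 0)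 (nat_lit 12096879229) (nat_lit 152) (nat_lit 107350121678) (nat_lit 0) (nat_lit 9218112586) (nat_lit 8) (nat_lit 5) (nat_lit 10) (nat_lit 4) (nat_lit 8) (nat_lit 4) (nat_lit 472) (nat_lit 390) (nat_lit 338))) (XT.nd (nat_lit 78) (nat_lit 0) (nat_lit 0) (XT.lf (nat_lit 0) (nat_lit 34665200452) (nat_lit 152) (nat_lit 70763807048) (nat_lit 0) (nat_lit 31782463269) (nat_lit 8) (nat_lit 5) (nat_lit 10) (nat_lit 4) (nat_lit 8) (nat_lit 4) (nat_lit 473) (nat_lit 390) (nat_lit 337)) (XT.lf (nat_lit 0) (nat_lit 58983982577) (nat_lit 152) (nat_lit 31364385563) (nat_lit 0) (nat_lit 56097568968) (nat_lit 8) (nat_lit 5) (nat_lit 10) (nat_lit 4) (nat_lit 8) (nat_lit 4) (nat_lit 474) (nat_lit 390) (nat_lit 336)))))) (XT.nd (nat_lit 546) (nat_lit 76) (nat_lit 0) (XT.nd (nat_lit 234) (nat_lit 152) (nat_lit 0) (XT.nd (nat_lit 78) (nat_lit 0) (nat_lit 0) (XT.lf (nat_lit 0) (nat_lit 11665159345) (nat_lit 76)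 (nat_lit 73812724923) (nat_lit 76) (nat_lit 70922907217) (nat_lit 7) (nat_lit 4) (nat_lit 8) (nat_lit 5) (nat_lit 8) (nat_lit 4) (nat_lit 475) (nat_lit 390) (nat_lit 335)) (XT.nd (nat_lit 78) (nat_lit 0) (nat_lit 0) (XT.lf (nat_lit 0) (nat_lit 59818086998) (nat_lit 76) (nat_lit 55081141267) (nat_lit 76) (nat_lit 52188171618) (nat_lit 7) (nat_lit 4) (nat_lit 8) (nat_lit 5) (nat_lit 8) (nat_lit 4) (nat_lit 476) (nat_lit 390) (nat_lit 334)) (XT.lf (nat_lit 0) (nat_lit 111728155118) (nat_lit 76) (nat_lit 34900173077) (nat_lit 76) (nat_lit 32004284962) (nat_lit 7) (nat_lit 4) (nat_lit 8) (nat_lit 5) (nat_lit 8) (nat_lit 4) (nat_lit 477) (nat_lit 390) (nat_lit 333)))) (XT.nd (nat_lit 156) (nat_lit 0) (nat_lit 0) (XT.nd (nat_lit 78) (nat_lit 152) (nat_lit 0) (XT.lf (nat_lit 0) (nat_lit 167702978923) (nat_lit 76) (nat_lit 13150229431) (nat_lit 76) (nat_lit 10251639034) (nat_lit 7) (nat_lit 4) (nat_lit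 8) (nat_lit 5) (nat_lit 8) (nat_lit 4) (nat_lit 478) (nat_lit 390) (nat_lit 332)) (XT.lf (nat_lit 0) (nat_lit 13396368956) (nat_lit 152) (nat_lit 180377440764) (nat_lit 0) (nat_lit 10710172186) (nat_lit 5) (nat_lit 5) (nat_lit 7) (nat_lit 4) (nat_lit 5) (nat_lit 4) (nat_lit 479) (nat_lit 390) (nat_lit 331))) (XT.nd (nat_lit 78) (nat_lit 0) (nat_lit 0) (XT.lf (nat_lit 0) (nat_lit 39339995068) (nat_lit 152) (nat_lit 142843886349) (nat_lit 0) (nat_lit 36651653139) (nat_lit 5) (nat_lit 5) (nat_lit 7) (nat_lit 4) (nat_lit 5) (nat_lit 4) (nat_lit 480) (nat_lit 390) (nat_lit 330)) (XT.lf (nat_lit 0) (nat_lit 67321703738) (nat_lit 152) (nat_lit 102385124783) (nat_lit 0) (nat_lit 64631375551) (nat_lit 5) (nat_lit 5) (nat_lit 7) (nat_lit 4) (nat_lit 5) (nat_lit 4) (nat_lit 481) (nat_lit 390) (nat_lit 329))))) (XT.nd (nat_lit 312) (nat_lit 0) (nat_lit 0) (XT.nd (nat_lit 156) (nat_lit 76) (nat_lit 0)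 (XT.nd (nat_lit 78) (nat_lit 0) (nat_lit 0) (XT.lf (nat_lit 0) (nat_lit 97507312500) (nat_lit 152) (nat_lit 58761400442) (nat_lit 0) (nat_lit 94815145185) (nat_lit 5) (nat_lit 5) (nat_lit 7) (nat_lit 4) (nat_lit 5) (nat_lit 4) (nat_lit 482) (nat_lit 390) (nat_lit 328)) (XT.lf (nat_lit 0) (nat_lit 130075699036) (nat_lit 152) (nat_lit 11714202367) (nat_lit 0) (nat_lit 127381828824) (nat_lit 5) (nat_lit 5) (nat_lit 7) (nat_lit 4) (nat_lit 5) (nat_lit 4) (nat_lit 483) (nat_lit 390) (nat_lit 327))) (XT.nd (nat_lit 78) (nat_lit 0) (nat_lit 0) (XT.lf (nat_lit 0) (nat_lit 41090795669) (nat_lit 76) (nat_lit 125117300145) (nat_lit 76) (nat_lit 122421853177) (nat_lit 4) (nat_lit 4) (nat_lit 5) (nat_lit 5) (nat_lit 5) (nat_lit 4) (nat_lit 484) (nat_lit 390) (nat_lit 326)) (XT.lf (nat_lit 0) (nat_lit 98726443777) (nat_lit 76) (nat_lit 106795990235) (nat_lit 76) (nat_lit 104099083308) (nat_lit 4) (nat_lit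 4) (nat_lit 5) (nat_lit 5) (nat_lit 5) (nat_lit 4) (nat_lit 485) (nat_lit 390) (nat_lit 325)))) (XT.nd (nat_lit 156) (nat_lit 0) (nat_lit 0) (XT.nd (nat_lit 78) (nat_lit 0) (nat_lit 0) (XT.lf (nat_lit 0) (nat_lit 160917437400) (nat_lit 76) (nat_lit 87037688001) (nat_lit 76) (nat_lit 84339429260) (nat_lit 4) (nat_lit 4) (nat_lit 5) (nat_lit 5) (nat_lit 5) (nat_lit 4) (nat_lit 486) (nat_lit 390) (nat_lit 324)) (XT.lf (nat_lit 0) (nat_lit 228032315759) (nat_lit 76) (nat_lit 65725307208) (nat_lit 76) (nat_lit 63025796787) (nat_lit 4) (nat_lit 4) (nat_lit 5) (nat_lit 5) (nat_lit 5) (nat_lit 4) (nat_lit 487) (nat_lit 390) (nat_lit 323))) (XT.nd (nat_lit 78) (nat_lit 0) (nat_lit 0) (XT.lf (nat_lit 0) (nat_lit 300468796653) (nat_lit 76) (nat_lit 42732552265) (nat_lit 76) (nat_lit 40031882882) (nat_lit 4) (nat_lit 4) (nat_lit 5) (nat_lit 5) (nat_lit 5) (nat_lit 4) (nat_lit 488) (nat_lit 390) (nat_lit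 322)) (XT.lf (nat_lit 0) (nat_lit 378656133300) (nat_lit 76) (nat_lit 17923169811) (nat_lit 76) (nat_lit 15221427314) (nat_lit 4) (nat_lit 4) (nat_lit 5) (nat_lit 5) (nat_lit 5) (nat_lit 4) (nat_lit 489) (nat_lit 390) (nat_lit 321))))))))
noncomputable def xc70 : XT := (XT.nd (nat_lit 2184) (nat_lit 0) (nat_lit 0) (XT.nd (nat_lit 1092) (nat_lit 0) (nat_lit 0) (XT.nd (nat_lit 546) (nat_lit 76) (nat_lit 0) (XT.nd (nat_lit 234) (nat_lit 0) (nat_lit 0) (XT.nd (nat_lit 78) (nat_lit 0) (nat_lit 0) (XT.lf (nat_lit 0) (nat_lit 11717460430) (nat_lit 152) (nat_lit 421641168023) (nat_lit 0) (nat_lit 9214926985) (nat_lit 2) (nat_lit 5) (nat_lit 4) (nat_lit 4) (nat_lit 2) (nat_lit 4) (nat_lit 490) (nat_lit 390) (nat_lit 320)) (XT.nd (nat_lit 78) (nat_lit 0) (nat_lit 0) (XT.lf (nat_lit 0) (nat_lit 41364215955) (nat_lit 152) (nat_lit 395441522209) (nat_lit 0) (nat_lit 38860830638) (nat_lit 2) (nat_lit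 5) (nat_lit 4) (nat_lit 4) (nat_lit 2) (nat_lit 4) (nat_lit 491) (nat_lit 390) (nat_lit 319)) (XT.lf (nat_lit 0) (nat_lit 73364009887) (nat_lit 152) (nat_lit 367184673732) (nat_lit 0) (nat_lit 70859835799) (nat_lit 2) (nat_lit 5) (nat_lit 4) (nat_lit 4) (nat_lit 2) (nat_lit 4) (nat_lit 492) (nat_lit 390) (nat_lit 318)))) (XT.nd (nat_lit 156) (nat_lit 0) (nat_lit 0) (XT.nd (nat_lit 78) (nat_lit 0) (nat_lit 0) (XT.lf (nat_lit 0) (nat_lit 107906470635) (nat_lit 152) (nat_lit 336703174601) (nat_lit 0) (nat_lit 105401566204) (nat_lit 2) (nat_lit 5) (nat_lit 4) (nat_lit 4) (nat_lit 2) (nat_lit 4) (nat_lit 493) (nat_lit 390) (nat_lit 317)) (XT.lf (nat_lit 0) (nat_lit 145196294261) (nat_lit 152) (nat_lit 303816393711) (nat_lit 0) (nat_lit 142690713587) (nat_lit 2) (nat_lit 5) (nat_lit 4) (nat_lit 4) (nat_lit 2) (nat_lit 4) (nat_lit 494) (nat_lit 390) (nat_lit 316))) (XT.nd (nat_lit 78) (nat_lit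 0) (nat_lit 0) (XT.lf (nat_lit 0) (nat_lit 185454457500) (nat_lit 152) (nat_lit 268329446433) (nat_lit 0) (nat_lit 182948250674) (nat_lit 2) (nat_lit 5) (nat_lit 4) (nat_lit 4) (nat_lit 2) (nat_lit 4) (nat_lit 495) (nat_lit 390) (nat_lit 315)) (XT.lf (nat_lit 0) (nat_lit 228919527243) (nat_lit 152) (nat_lit 230032039747) (nat_lit 0) (nat_lit 226412740647) (nat_lit 2) (nat_lit 5) (nat_lit 4) (nat_lit 4) (nat_lit 2) (nat_lit 4) (nat_lit 496) (nat_lit 390) (nat_lit 314))))) (XT.nd (nat_lit 234) (nat_lit 76) (nat_lit 0) (XT.nd (nat_lit 78) (nat_lit 0) (nat_lit 0) (XT.lf (nat_lit 0) (nat_lit 275849074276) (nat_lit 152) (nat_lit 188697226058) (nat_lit 0) (nat_lit 273341750856) (nat_lit 2) (nat_lit 5) (nat_lit 4) (nat_lit 4) (nat_lit 2) (nat_lit 4) (nat_lit 497) (nat_lit 390) (nat_lit 313)) (XT.nd (nat_lit 78) (nat_lit 0) (nat_lit 0) (XT.lf (nat_lit 0) (nat_lit 326521199616) (nat_lit 152) (nat_lit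 144080058321) (nat_lit 0) (nat_lit 324013379137) (nat_lit 2) (nat_lit 5) (nat_lit 4) (nat_lit 4) (nat_lit 2) (nat_lit 4) (nat_lit 498) (nat_lit 390) (nat_lit 312)) (XT.lf (nat_lit 0) (nat_lit 381236182526) (nat_lit 152) (nat_lit 95916138506) (nat_lit 0) (nat_lit 378727901807) (nat_lit 2) (nat_lit 5) (nat_lit 4) (nat_lit 4) (nat_lit 2) (nat_lit 4) (nat_lit 499) (nat_lit 390) (nat_lit 311)))) (XT.nd (nat_lit 156) (nat_lit 0) (nat_lit 0) (XT.nd (nat_lit 78) (nat_lit 76) (nat_lit 0) (XT.lf (nat_lit 0) (nat_lit 440318259941) (nat_lit 152) (nat_lit 43920050792) (nat_lit 0) (nat_lit 437809553074) (nat_lit 2) (nat_lit 5) (nat_lit 4) (nat_lit 4) (nat_lit 2) (nat_lit 4) (nat_lit 500) (nat_lit 390) (nat_lit 310)) (XT.lf (nat_lit 0) (nat_lit 12859620063) (nat_lit 76) (nat_lit 491567201985) (nat_lit 76) (nat_lit 489058100536) (nat_lit 1) (nat_lit 4) (nat_lit 2) (nat_lit 5) (nat_lit 2) (nat_lit 4) (nat_lit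 501) (nat_lit 390) (nat_lit 309))) (XT.nd (nat_lit 78) (nat_lit 0) (nat_lit 0) (XT.lf (nat_lit 0) (nat_lit 76660533630) (nat_lit 76) (nat_lit 498195270232) (nat_lit 76) (nat_lit 495685803430) (nat_lit 1) (nat_lit 4) (nat_lit 2) (nat_lit 5) (nat_lit 2) (nat_lit 4) (nat_lit 502) (nat_lit 390) (nat_lit 308)) (XT.lf (nat_lit 0) (nat_lit 145548017354) (nat_lit 76) (nat_lit 505362644939) (nat_lit 76) (nat_lit 502852839847) (nat_lit 1) (nat_lit 4) (nat_lit 2) (nat_lit 5) (nat_lit 2) (nat_lit 4) (nat_lit 503) (nat_lit 390) (nat_lit 307)))))) (XT.nd (nat_lit 546) (nat_lit 0) (nat_lit 0) (XT.nd (nat_lit 234) (nat_lit 0) (nat_lit 0) (XT.nd (nat_lit 78) (nat_lit 0) (nat_lit 0) (XT.lf (nat_lit 0) (nat_lit 219930293361) (nat_lit 76) (nat_lit 513111799438) (nat_lit 76) (nat_lit 510601681114) (nat_lit 1) (nat_lit 4) (nat_lit 2) (nat_lit 5) (nat_lit 2) (nat_lit 4) (nat_lit 504) (nat_lit 390) (nat_lit 306))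 (XT.nd (nat_lit 78) (nat_lit 0) (nat_lit 0) (XT.lf (nat_lit 0) (nat_lit 300248145510) (nat_lit 76) (nat_lit 521488654643) (nat_lit 76) (nat_lit 518978246289) (nat_lit 1) (nat_lit 4) (nat_lit 2) (nat_lit 5) (nat_lit 2) (nat_lit 4) (nat_lit 505) (nat_lit 390) (nat_lit 305)) (XT.lf (nat_lit 0) (nat_lit 386977531442) (nat_lit 76) (nat_lit 530542851179) (nat_lit 76) (nat_lit 528032174279) (nat_lit 1) (nat_lit 4) (nat_lit 2) (nat_lit 5) (nat_lit 2) (nat_lit 4) (nat_lit 506) (nat_lit 390) (nat_lit 304)))) (XT.nd (nat_lit 156) (nat_lit 0) (nat_lit 0) (XT.nd (nat_lit 78) (nat_lit 0) (nat_lit 0) (XT.lf (nat_lit 0) (nat_lit 480632403074) (nat_lit 76) (nat_lit 540328043542) (nat_lit 76) (nat_lit 537817117990) (nat_lit 1) (nat_lit 4) (nat_lit 2) (nat_lit 5) (nat_lit 2) (nat_lit 4) (nat_lit 507) (nat_lit 390) (nat_lit 303)) (XT.lf (nat_lit 0) (nat_lit 581767752238) (nat_lit 76) (nat_lit 550902218059)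 (nat_lit 76) (nat_lit 548391062272) (nat_lit 1) (nat_lit 4) (nat_lit 2) (nat_lit 5) (nat_lit 2) (nat_lit 4) (nat_lit 508) (nat_lit 390) (nat_lit 302))) (XT.nd (nat_lit 78) (nat_lit 0) (nat_lit 0) (XT.lf (nat_lit 0) (nat_lit 690982899521) (nat_lit 76) (nat_lit 562328036505) (nat_lit 76) (nat_lit 559816667537) (nat_lit 1) (nat_lit 4) (nat_lit 2) (nat_lit 5) (nat_lit 2) (nat_lit 4) (nat_lit 509) (nat_lit 390) (nat_lit 301)) (XT.lf (nat_lit 0) (nat_lit 808925045797) (nat_lit 76) (nat_lit 574673207432) (nat_lit 76) (nat_lit 572161641075) (nat_lit 1) (nat_lit 4) (nat_lit 2) (nat_lit 5) (nat_lit 2) (nat_lit 4) (nat_lit 510) (nat_lit 390) (nat_lit 300))))) (XT.nd (nat_lit 234) (nat_lit 0) (nat_lit 0) (XT.nd (nat_lit 78) (nat_lit 0) (nat_lit 0) (XT.lf (nat_lit 0) (nat_lit 936293107487) (nat_lit 76) (nat_lit 588010887410) (nat_lit 76) (nat_lit 585499138286) (nat_lit 1) (nat_lit 4) (nat_lit 2) (nat_lit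 5) (nat_lit 2) (nat_lit 4) (nat_lit 511) (nat_lit 390) (nat_lit 299)) (XT.nd (nat_lit 78) (nat_lit 0) (nat_lit 0) (XT.lf (nat_lit 0) (nat_lit 1073841858291) (nat_lit 76) (nat_lit 602420114542) (nat_lit 76) (nat_lit 599908196188) (nat_lit 1) (nat_lit 4) (nat_lit 2) (nat_lit 5) (nat_lit 2) (nat_lit 4) (nat_lit 512) (nat_lit 390) (nat_lit 298)) (XT.lf (nat_lit 0) (nat_lit 1222386401917) (nat_lit 76) (nat_lit 617986276840) (nat_lit 76) (nat_lit 615474201793) (nat_lit 1) (nat_lit 4) (nat_lit 2) (nat_lit 5) (nat_lit 2) (nat_lit 4) (nat_lit 513) (nat_lit 390) (nat_lit 297)))) (XT.nd (nat_lit 156) (nat_lit 0) (nat_lit 0) (XT.nd (nat_lit 78) (nat_lit 0) (nat_lit 0) (XT.lf (nat_lit 0) (nat_lit 1382807002328) (nat_lit 76) (nat_lit 634801618230) (nat_lit 76) (nat_lit 632289398096) (nat_lit 1) (nat_lit 4) (nat_lit 2) (nat_lit 5) (nat_lit 2) (nat_lit 4) (nat_lit 514) (nat_lit 390) (nat_lit 296)) (XT.lf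 (nat_lit 0) (nat_lit 1556054300117) (nat_lit 76) (nat_lit 652965785179) (nat_lit 76) (nat_lit 650453430705) (nat_lit 1) (nat_lit 4) (nat_lit 2) (nat_lit 5) (nat_lit 2) (nat_lit 4) (nat_lit 515) (nat_lit 390) (nat_lit 295))) (XT.nd (nat_lit 78) (nat_lit 0) (nat_lit 0) (XT.lf (nat_lit 0) (nat_lit 1743154945940) (nat_lit 76) (nat_lit 672586417195) (nat_lit 76) (nat_lit 670073938332) (nat_lit 1) (nat_lit 4) (nat_lit 2) (nat_lit 5) (nat_lit 2) (nat_lit 4) (nat_lit 516) (nat_lit 390) (nat_lit 294)) (XT.lf (nat_lit 0) (nat_lit 1945217684363) (nat_lit 76) (nat_lit 693779784689) (nat_lit 76) (nat_lit 691267190652) (nat_lit 1) (nat_lit 4) (nat_lit 2) (nat_lit 5) (nat_lit 2) (nat_lit 4) (nat_lit 517) (nat_lit 390) (nat_lit 293))))))) (XT.nd (nat_lit 1092) (nat_lit 0) (nat_lit 0) (XT.nd (nat_lit 546) (nat_lit 0) (nat_lit 0) (XT.nd (nat_lit 234) (nat_lit 0) (nat_lit 0) (XT.nd (nat_lit 78) (nat_lit 0)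 (nat_lit 0) (XT.lf (nat_lit 0) (nat_lit 2163439924208) (nat_lit 76) (nat_lit 716671477988) (nat_lit 76) (nat_lit 714158777308) (nat_lit 1) (nat_lit 4) (nat_lit 2) (nat_lit 5) (nat_lit 2) (nat_lit 4) (nat_lit 518) (nat_lit 390) (nat_lit 292)) (XT.nd (nat_lit 78) (nat_lit 0) (nat_lit 0) (XT.lf (nat_lit 0) (nat_lit 2399114834302) (nat_lit 76) (nat_lit 741397151570) (nat_lit 76) (nat_lit 738884352146) (nat_lit 1) (nat_lit 4) (nat_lit 2) (nat_lit 5) (nat_lit 2) (nat_lit 4) (nat_lit 519) (nat_lit 390) (nat_lit 291)) (XT.lf (nat_lit 0) (nat_lit 2653639006706) (nat_lit 76) (nat_lit 768103327946) (nat_lit 76) (nat_lit 765590437093) (nat_lit 1) (nat_lit 4) (nat_lit 2) (nat_lit 5) (nat_lit 2) (nat_lit 4) (nat_lit 520) (nat_lit 390) (nat_lit 290)))) (XT.nd (nat_lit 156) (nat_lit 0) (nat_lit 0) (XT.nd (nat_lit 78) (nat_lit 0) (nat_lit 0) (XT.lf (nat_lit 0) (nat_lit 2928520732811) (nat_lit 76) (nat_lit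 796948265938) (nat_lit 76) (nat_lit 794435290428) (nat_lit 1) (nat_lit 4) (nat_lit 2) (nat_lit 5) (nat_lit 2) (nat_lit 4) (nat_lit 521) (nat_lit 390) (nat_lit 289)) (XT.lf (nat_lit 0) (nat_lit 3225388941365) (nat_lit 76) (nat_lit 828102898513) (nat_lit 76) (nat_lit 825589844617) (nat_lit 1) (nat_lit 4) (nat_lit 2) (nat_lit 5) (nat_lit 2) (nat_lit 4) (nat_lit 522) (nat_lit 390) (nat_lit 288))) (XT.nd (nat_lit 78) (nat_lit 0) (nat_lit 0) (XT.lf (nat_lit 0) (nat_lit 3546002851382) (nat_lit 76) (nat_lit 861751845715) (nat_lit 76) (nat_lit 859238719239) (nat_lit 1) (nat_lit 4) (nat_lit 2) (nat_lit 5) (nat_lit 2) (nat_lit 4) (nat_lit 523) (nat_lit 390) (nat_lit 287)) (XT.lf (nat_lit 0) (nat_lit 3892262397143) (nat_lit 76) (nat_lit 898094508712) (nat_lit 76) (nat_lit 895581315034) (nat_lit 1) (nat_lit 4) (nat_lit 2) (nat_lit 5) (nat_lit 2) (nat_lit 4) (nat_lit 524) (nat_lit 390) (nat_lit 286)))))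 (XT.nd (nat_lit 234) (nat_lit 0) (nat_lit 0) (XT.nd (nat_lit 78) (nat_lit 0) (nat_lit 0) (XT.lf (nat_lit 0) (nat_lit 4266219487067) (nat_lit 76) (nat_lit 937346251435) (nat_lit 76) (nat_lit 934832995531) (nat_lit 1) (nat_lit 4) (nat_lit 2) (nat_lit 5) (nat_lit 2) (nat_lit 4) (nat_lit 525) (nat_lit 390) (nat_lit 285)) (XT.nd (nat_lit 78) (nat_lit 0) (nat_lit 0) (XT.lf (nat_lit 0) (nat_lit 4670090163169) (nat_lit 76) (nat_lit 979739676802) (nat_lit 76) (nat_lit 977226363282) (nat_lit 1) (nat_lit 4) (nat_lit 2) (nat_lit 5) (nat_lit 2) (nat_lit 4) (nat_lit 526) (nat_lit 390) (nat_lit 284)) (XT.lf (nat_lit 0) (nat_lit 5106267733159) (nat_lit 76) (nat_lit 1025526005112) (nat_lit 76) (nat_lit 1023012638244) (nat_lit 1) (nat_lit 4) (nat_lit 2) (nat_lit 5) (nat_lit 2) (nat_lit 4) (nat_lit 527) (nat_lit 390) (nat_lit 283)))) (XT.nd (nat_lit 156) (nat_lit 0) (nat_lit 0) (XT.nd (nat_lit 78) (nat_lit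 0) (nat_lit 0) (XT.lf (nat_lit 0) (nat_lit 5577336953007) (nat_lit 76) (nat_lit 1074976562755) (nat_lit 76) (nat_lit 1072463146491) (nat_lit 1) (nat_lit 4) (nat_lit 2) (nat_lit 5) (nat_lit 2) (nat_lit 4) (nat_lit 528) (nat_lit 390) (nat_lit 282)) (XT.lf (nat_lit 0) (nat_lit 6086089344017) (nat_lit 76) (nat_lit 1128384390073) (nat_lit 76) (nat_lit 1125870928071) (nat_lit 1) (nat_lit 4) (nat_lit 2) (nat_lit 5) (nat_lit 2) (nat_lit 4) (nat_lit 529) (nat_lit 390) (nat_lit 281))) (XT.nd (nat_lit 78) (nat_lit 0) (nat_lit 0) (XT.lf (nat_lit 0) (nat_lit 6635539735171) (nat_lit 76) (nat_lit 1186065977894) (nat_lit 76) (nat_lit 1183552473542) (nat_lit 1) (nat_lit 4) (nat_lit 2) (nat_lit 5) (nat_lit 2) (nat_lit 4) (nat_lit 530) (nat_lit 390) (nat_lit 280)) (XT.lf (nat_lit 0) (nat_lit 7228944128789) (nat_lit 76) (nat_lit 1248363143035) (nat_lit 76) (nat_lit 1245849599471) (nat_lit 1) (nat_lit 4) (nat_lit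 2) (nat_lit 5) (nat_lit 2) (nat_lit 4) (nat_lit 531) (nat_lit 390) (nat_lit 279)))))) (XT.nd (nat_lit 546) (nat_lit 0) (nat_lit 0) (XT.nd (nat_lit 234) (nat_lit 0) (nat_lit 0) (XT.nd (nat_lit 78) (nat_lit 0) (nat_lit 0) (XT.lf (nat_lit 0) (nat_lit 7869818995349) (nat_lit 76) (nat_lit 1315645053881) (nat_lit 76) (nat_lit 1313131474010) (nat_lit 1) (nat_lit 4) (nat_lit 2) (nat_lit 5) (nat_lit 2) (nat_lit 4) (nat_lit 532) (nat_lit 390) (nat_lit 278)) (XT.nd (nat_lit 78) (nat_lit 0) (nat_lit 0) (XT.lf (nat_lit 0) (nat_lit 8561962111841) (nat_lit 76) (nat_lit 1388310418054) (nat_lit 76) (nat_lit 1385796804564) (nat_lit 1) (nat_lit 4) (nat_lit 2) (nat_lit 5) (nat_lit 2) (nat_lit 4) (nat_lit 533) (nat_lit 390) (nat_lit 277)) (XT.lf (nat_lit 0) (nat_lit 9309475067101) (nat_lit 76) (nat_lit 1466789845117) (nat_lit 76) (nat_lit 1464276200499) (nat_lit 1) (nat_lit 4) (nat_lit 2) (nat_lit 5) (nat_lit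 2) (nat_lit 4) (nat_lit 534) (nat_lit 390) (nat_lit 276)))) (XT.nd (nat_lit 156) (nat_lit 0) (nat_lit 0) (XT.nd (nat_lit 78) (nat_lit 0) (nat_lit 0) (XT.lf (nat_lit 0) (nat_lit 10116787567532) (nat_lit 76) (nat_lit 1551548398344) (nat_lit 76) (nat_lit 1549034724903) (nat_lit 1) (nat_lit 4) (nat_lit 2) (nat_lit 5) (nat_lit 2) (nat_lit 4) (nat_lit 535) (nat_lit 390) (nat_lit 275)) (XT.lf (nat_lit 0) (nat_lit 10988683687210) (nat_lit 76) (nat_lit 1643088350641) (nat_lit 76) (nat_lit 1640574650513) (nat_lit 1) (nat_lit 4) (nat_lit 2) (nat_lit 5) (nat_lit 2) (nat_lit 4) (nat_lit 536) (nat_lit 390) (nat_lit 274))) (XT.nd (nat_lit 78) (nat_lit 0) (nat_lit 0) (XT.lf (nat_lit 0) (nat_lit 11930330217956) (nat_lit 76) (nat_lit 1741952160985) (nat_lit 76) (nat_lit 1739438436146) (nat_lit 1) (nat_lit 4) (nat_lit 2) (nat_lit 5) (nat_lit 2) (nat_lit 4) (nat_lit 537) (nat_lit 390) (nat_lit 273)) (XT.lf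 (nat_lit 0) (nat_lit 12947307287359) (nat_lit 76) (nat_lit 1848725688993) (nat_lit 76) (nat_lit 1846211941275) (nat_lit 1) (nat_lit 4) (nat_lit 2) (nat_lit 5) (nat_lit 2) (nat_lit 4) (nat_lit 538) (nat_lit 390) (nat_lit 272))))) (XT.nd (nat_lit 312) (nat_lit 0) (nat_lit 0) (XT.nd (nat_lit 156) (nat_lit 0) (nat_lit 0) (XT.nd (nat_lit 78) (nat_lit 0) (nat_lit 0) (XT.lf (nat_lit 0) (nat_lit 14045641426201) (nat_lit 76) (nat_lit 1964041666684) (nat_lit 76) (nat_lit 1961527897780) (nat_lit 1) (nat_lit 4) (nat_lit 2) (nat_lit 5) (nat_lit 2) (nat_lit 4) (nat_lit 539) (nat_lit 390) (nat_lit 271)) (XT.lf (nat_lit 0) (nat_lit 15231841281230) (nat_lit 76) (nat_lit 2088583447998) (nat_lit 76) (nat_lit 2086069659478) (nat_lit 1) (nat_lit 4) (nat_lit 2) (nat_lit 5) (nat_lit 2) (nat_lit 4) (nat_lit 540) (nat_lit 390) (nat_lit 270))) (XT.nd (nat_lit 78) (nat_lit 0) (nat_lit 0) (XT.lf (nat_lit 0) (nat_lit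 16512936184921) (nat_lit 76) (nat_lit 2223089058306) (nat_lit 76) (nat_lit 2220575251624) (nat_lit 1) (nat_lit 4) (nat_lit 2) (nat_lit 5) (nat_lit 2) (nat_lit 4) (nat_lit 541) (nat_lit 390) (nat_lit 269)) (XT.lf (nat_lit 0) (nat_lit 17896517810777) (nat_lit 76) (nat_lit 2368355567893) (nat_lit 76) (nat_lit 2365841744393) (nat_lit 1) (nat_lit 4) (nat_lit 2) (nat_lit 5) (nat_lit 2) (nat_lit 4) (nat_lit 542) (nat_lit 390) (nat_lit 268)))) (XT.nd (nat_lit 156) (nat_lit 0) (nat_lit 0) (XT.nd (nat_lit 78) (nat_lit 0) (nat_lit 0) (XT.lf (nat_lit 0) (nat_lit 19390785161025) (nat_lit 76) (nat_lit 2525243815333) (nat_lit 76) (nat_lit 2522729976261) (nat_lit 1) (nat_lit 4) (nat_lit 2) (nat_lit 5) (nat_lit 2) (nat_lit 4) (nat_lit 543) (nat_lit 390) (nat_lit 267)) (XT.lf (nat_lit 0) (nat_lit 21004593153297) (nat_lit 76) (nat_lit 2694683508759) (nat_lit 76) (nat_lit 2692169655268) (nat_lit 1) (nat_lit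 4) (nat_lit 2) (nat_lit 5) (nat_lit 2) (nat_lit 4) (nat_lit 544) (nat_lit 390) (nat_lit 266))) (XT.nd (nat_lit 52572) (nat_lit 0) (nat_lit 5092) (XT.lf (nat_lit 0) (nat_lit 22747505094213) (nat_lit 76) (nat_lit 2877678735243) (nat_lit 76) (nat_lit 2875164868402) (nat_lit 1) (nat_lit 4) (nat_lit 2) (nat_lit 5) (nat_lit 2) (nat_lit 4) (nat_lit 545) (nat_lit 390) (nat_lit 265)) (XT.lf (nat_lit 0) (nat_lit 2076757815) (nat_lit 228) (nat_lit 240324844) (nat_lit 0) (nat_lit 2076757815) (nat_lit 68) (nat_lit 5) (nat_lit 71) (nat_lit 4) (nat_lit 68) (nat_lit 4) (nat_lit 418) (nat_lit 391) (nat_lit 391))))))))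
noncomputable def xc71 : XT := (XT.nd (nat_lit 2184) (nat_lit 1596) (nat_lit 0) (XT.nd (nat_lit 1092) (nat_lit 1140) (nat_lit 0) (XT.nd (nat_lit 546) (nat_lit 684) (nat_lit 0) (XT.nd (nat_lit 234) (nat_lit 608) (nat_lit 0) (XT.nd (nat_lit 78) (nat_lit 380) (nat_lit 0) (XT.lf (nat_lit 0) (nat_lit 7543446528) (nat_lit 152) (nat_lit 1230092480) (nat_lit 152) (nat_lit 292668205) (nat_lit 66) (nat_lit 4) (nat_lit 68) (nat_lit 5) (nat_lit 68) (nat_lit 4) (nat_lit 419) (nat_lit 391) (nat_lit 390)) (XT.nd (nat_lit 78) (nat_lit 152) (nat_lit 0) (XT.lf (nat_lit 0) (nat_lit 4147502160) (nat_lit 228) (nat_lit 2737548846) (nat_lit 0) (nat_lit 2475826500) (nat_lit 63) (nat_lit 5) (nat_lit 66) (nat_lit 4) (nat_lit 63) (nat_lit 4) (nat_lit 420) (nat_lit 391) (nat_lit 389)) (XT.lf (nat_lit 0) (nat_lit 5659205997) (nat_lit 152) (nat_lit 3219514379) (nat_lit 152) (nat_lit 803681106) (nat_lit 61) (nat_lit 4)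 (nat_lit 63) (nat_lit 5) (nat_lit 63) (nat_lit 4) (nat_lit 421) (nat_lit 391) (nat_lit 388)))) (XT.nd (nat_lit 156) (nat_lit 304) (nat_lit 0) (XT.nd (nat_lit 78) (nat_lit 152) (nat_lit 0) (XT.lf (nat_lit 0) (nat_lit 3712575260) (nat_lit 152) (nat_lit 5475629345) (nat_lit 0) (nat_lit 837697391) (nat_lit 59) (nat_lit 5) (nat_lit 61) (nat_lit 4) (nat_lit 59) (nat_lit 4) (nat_lit 422) (nat_lit 391) (nat_lit 387)) (XT.lf (nat_lit 0) (nat_lit 3283755447) (nat_lit 152) (nat_lit 5287559438) (nat_lit 152) (nat_lit 1821945264) (nat_lit 57) (nat_lit 4) (nat_lit 59) (nat_lit 5) (nat_lit 59) (nat_lit 4) (nat_lit 423) (nat_lit 391) (nat_lit 386))) (XT.nd (nat_lit 78) (nat_lit 152) (nat_lit 0) (XT.lf (nat_lit 0) (nat_lit 1868113571) (nat_lit 76) (nat_lit 959148835) (nat_lit 152) (nat_lit 7960928689) (nat_lit 55) (nat_lit 5) (nat_lit 56) (nat_lit 5) (nat_lit 57) (nat_lit 4) (nat_lit 424) (nat_lit 391) (nat_lit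 385)) (XT.lf (nat_lit 0) (nat_lit 207656103) (nat_lit 152) (nat_lit 7591817903) (nat_lit 152) (nat_lit 3407509198) (nat_lit 53) (nat_lit 4) (nat_lit 55) (nat_lit 5) (nat_lit 55) (nat_lit 4) (nat_lit 425) (nat_lit 391) (nat_lit 384))))) (XT.nd (nat_lit 234) (nat_lit 380) (nat_lit 0) (XT.nd (nat_lit 78) (nat_lit 228) (nat_lit 0) (XT.lf (nat_lit 0) (nat_lit 1467353609) (nat_lit 228) (nat_lit 1566422015) (nat_lit 76) (nat_lit 8619990975) (nat_lit 52) (nat_lit 5) (nat_lit 55) (nat_lit 5) (nat_lit 53) (nat_lit 4) (nat_lit 426) (nat_lit 391) (nat_lit 383)) (XT.nd (nat_lit 78) (nat_lit 152) (nat_lit 0) (XT.lf (nat_lit 0) (nat_lit 6578388236) (nat_lit 152) (nat_lit 3618692646) (nat_lit 0) (nat_lit 1929719044) (nat_lit 51) (nat_lit 5) (nat_lit 53) (nat_lit 4) (nat_lit 51) (nat_lit 4) (nat_lit 427) (nat_lit 391) (nat_lit 382)) (XT.lf (nat_lit 0) (nat_lit 6695353184) (nat_lit 152) (nat_lit 5465349177)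 (nat_lit 152) (nat_lit 471991024) (nat_lit 49) (nat_lit 4) (nat_lit 51) (nat_lit 5) (nat_lit 51) (nat_lit 4) (nat_lit 428) (nat_lit 391) (nat_lit 381)))) (XT.nd (nat_lit 156) (nat_lit 152) (nat_lit 0) (XT.nd (nat_lit 78) (nat_lit 76) (nat_lit 0) (XT.lf (nat_lit 0) (nat_lit 4570242034) (nat_lit 76) (nat_lit 181083269) (nat_lit 152) (nat_lit 8418786241) (nat_lit 47) (nat_lit 5) (nat_lit 48) (nat_lit 5) (nat_lit 49) (nat_lit 4) (nat_lit 429) (nat_lit 391) (nat_lit 380)) (XT.lf (nat_lit 0) (nat_lit 2065557891) (nat_lit 76) (nat_lit 8433042287) (nat_lit 76) (nat_lit 3240422081) (nat_lit 46) (nat_lit 4) (nat_lit 47) (nat_lit 5) (nat_lit 47) (nat_lit 4) (nat_lit 430) (nat_lit 391) (nat_lit 379))) (XT.nd (nat_lit 78) (nat_lit 76) (nat_lit 0) (XT.lf (nat_lit 0) (nat_lit 2264042796) (nat_lit 152) (nat_lit 736767865) (nat_lit 76) (nat_lit 11345755879) (nat_lit 45) (nat_lit 5) (nat_lit 47) (nat_lit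 5) (nat_lit 46) (nat_lit 4) (nat_lit 431) (nat_lit 391) (nat_lit 378)) (XT.lf (nat_lit 0) (nat_lit 8175888961) (nat_lit 152) (nat_lit 3892625314) (nat_lit 0) (nat_lit 2916105260) (nat_lit 44) (nat_lit 5) (nat_lit 46) (nat_lit 4) (nat_lit 44) (nat_lit 4) (nat_lit 432) (nat_lit 391) (nat_lit 377)))))) (XT.nd (nat_lit 546) (nat_lit 532) (nat_lit 0) (XT.nd (nat_lit 234) (nat_lit 304) (nat_lit 0) (XT.nd (nat_lit 78) (nat_lit 228) (nat_lit 0) (XT.lf (nat_lit 0) (nat_lit 8188361069) (nat_lit 76) (nat_lit 6469256351) (nat_lit 76) (nat_lit 1008349953) (nat_lit 43) (nat_lit 4) (nat_lit 44) (nat_lit 5) (nat_lit 44) (nat_lit 4) (nat_lit 433) (nat_lit 391) (nat_lit 376)) (XT.nd (nat_lit 78) (nat_lit 76) (nat_lit 0) (XT.lf (nat_lit 0) (nat_lit 4794092076) (nat_lit 76) (nat_lit 225726766) (nat_lit 152) (nat_lit 11369761151) (nat_lit 41) (nat_lit 5) (nat_lit 42) (nat_lit 5) (nat_lit 43) (nat_lit 4) (nat_lit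 434) (nat_lit 391) (nat_lit 375)) (XT.lf (nat_lit 0) (nat_lit 787311780) (nat_lit 76) (nat_lit 10877518178) (nat_lit 76) (nat_lit 5489035387) (nat_lit 40) (nat_lit 4) (nat_lit 41) (nat_lit 5) (nat_lit 41) (nat_lit 4) (nat_lit 435) (nat_lit 391) (nat_lit 374)))) (XT.nd (nat_lit 156) (nat_lit 152) (nat_lit 0) (XT.nd (nat_lit 78) (nat_lit 76) (nat_lit 0) (XT.lf (nat_lit 0) (nat_lit 954423171) (nat_lit 152) (nat_lit 3551113780) (nat_lit 76) (nat_lit 13461269220) (nat_lit 39) (nat_lit 5) (nat_lit 41) (nat_lit 5) (nat_lit 40) (nat_lit 4) (nat_lit 436) (nat_lit 391) (nat_lit 373)) (XT.lf (nat_lit 0) (nat_lit 7746620222) (nat_lit 152) (nat_lit 8582712496) (nat_lit 0) (nat_lit 2493662161) (nat_lit 38) (nat_lit 5) (nat_lit 40) (nat_lit 4) (nat_lit 38) (nat_lit 4) (nat_lit 437) (nat_lit 391) (nat_lit 372))) (XT.nd (nat_lit 78) (nat_lit 76) (nat_lit 0) (XT.lf (nat_lit 0) (nat_lit 5391958247) (nat_lit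 76) (nat_lit 9856371912) (nat_lit 76) (nat_lit 4486060688) (nat_lit 37) (nat_lit 4) (nat_lit 38) (nat_lit 5) (nat_lit 38) (nat_lit 4) (nat_lit 438) (nat_lit 391) (nat_lit 371)) (XT.lf (nat_lit 0) (nat_lit 2560887606) (nat_lit 152) (nat_lit 152325338) (nat_lit 76) (nat_lit 17995541552) (nat_lit 36) (nat_lit 5) (nat_lit 38) (nat_lit 5) (nat_lit 37) (nat_lit 4) (nat_lit 439) (nat_lit 391) (nat_lit 370))))) (XT.nd (nat_lit 234) (nat_lit 228) (nat_lit 0) (XT.nd (nat_lit 78) (nat_lit 228) (nat_lit 0) (XT.lf (nat_lit 0) (nat_lit 10264737474) (nat_lit 152) (nat_lit 6361712868) (nat_lit 0) (nat_lit 5098456936) (nat_lit 35) (nat_lit 5) (nat_lit 37) (nat_lit 4) (nat_lit 35) (nat_lit 4) (nat_lit 440) (nat_lit 391) (nat_lit 369)) (XT.nd (nat_lit 78) (nat_lit 152) (nat_lit 0) (XT.lf (nat_lit 0) (nat_lit 9374830734) (nat_lit 76) (nat_lit 9344647903) (nat_lit 76) (nat_lit 4092109287) (nat_lit 34) (nat_lit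 4) (nat_lit 35) (nat_lit 5) (nat_lit 35) (nat_lit 4) (nat_lit 441) (nat_lit 391) (nat_lit 368)) (XT.lf (nat_lit 0) (nat_lit 2455666080) (nat_lit 76) (nat_lit 1288599922) (nat_lit 152) (nat_lit 20227723349) (nat_lit 32) (nat_lit 5) (nat_lit 33) (nat_lit 5) (nat_lit 34) (nat_lit 4) (nat_lit 442) (nat_lit 391) (nat_lit 367)))) (XT.nd (nat_lit 156) (nat_lit 152) (nat_lit 0) (XT.nd (nat_lit 78) (nat_lit 76) (nat_lit 0) (XT.lf (nat_lit 0) (nat_lit 12376986493) (nat_lit 152) (nat_lit 5437395944) (nat_lit 0) (nat_lit 7371097970) (nat_lit 32) (nat_lit 5) (nat_lit 34) (nat_lit 4) (nat_lit 32) (nat_lit 4) (nat_lit 443) (nat_lit 391) (nat_lit 366)) (XT.lf (nat_lit 0) (nat_lit 12197975759) (nat_lit 76) (nat_lit 9676709314) (nat_lit 76) (nat_lit 4607418530) (nat_lit 31) (nat_lit 4) (nat_lit 32) (nat_lit 5) (nat_lit 32) (nat_lit 4) (nat_lit 444) (nat_lit 391) (nat_lit 365))) (XT.nd (nat_lit 78) (nat_lit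 0) (nat_lit 0) (XT.lf (nat_lit 0) (nat_lit 3442117174) (nat_lit 76) (nat_lit 678129824) (nat_lit 152) (nat_lit 23747387119) (nat_lit 29) (nat_lit 5) (nat_lit 30) (nat_lit 5) (nat_lit 31) (nat_lit 4) (nat_lit 445) (nat_lit 391) (nat_lit 364)) (XT.lf (nat_lit 0) (nat_lit 13763556791) (nat_lit 152) (nat_lit 6588488617) (nat_lit 0) (nat_lit 8965081047) (nat_lit 29) (nat_lit 5) (nat_lit 31) (nat_lit 4) (nat_lit 29) (nat_lit 4) (nat_lit 446) (nat_lit 391) (nat_lit 363))))))) (XT.nd (nat_lit 1092) (nat_lit 684) (nat_lit 0) (XT.nd (nat_lit 546) (nat_lit 380) (nat_lit 0) (XT.nd (nat_lit 234) (nat_lit 304) (nat_lit 0) (XT.nd (nat_lit 78) (nat_lit 152) (nat_lit 0) (XT.lf (nat_lit 0) (nat_lit 13024909076) (nat_lit 76) (nat_lit 11343760784) (nat_lit 76) (nat_lit 6498682485) (nat_lit 28) (nat_lit 4) (nat_lit 29) (nat_lit 5) (nat_lit 29) (nat_lit 4) (nat_lit 447) (nat_lit 391) (nat_lit 362)) (XT.nd (nat_lit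 78) (nat_lit 0) (nat_lit 0) (XT.lf (nat_lit 0) (nat_lit 1775396437) (nat_lit 76) (nat_lit 1428269548) (nat_lit 152) (nat_lit 29324645196) (nat_lit 26) (nat_lit 5) (nat_lit 27) (nat_lit 5) (nat_lit 28) (nat_lit 4) (nat_lit 448) (nat_lit 391) (nat_lit 361)) (XT.lf (nat_lit 0) (nat_lit 13914808595) (nat_lit 152) (nat_lit 10995462856) (nat_lit 0) (nat_lit 9351676193) (nat_lit 26) (nat_lit 5) (nat_lit 28) (nat_lit 4) (nat_lit 26) (nat_lit 4) (nat_lit 449) (nat_lit 391) (nat_lit 360)))) (XT.nd (nat_lit 156) (nat_lit 152) (nat_lit 0) (XT.nd (nat_lit 78) (nat_lit 76) (nat_lit 0) (XT.lf (nat_lit 0) (nat_lit 10570313654) (nat_lit 76) (nat_lit 15074207342) (nat_lit 76) (nat_lit 10476820671) (nat_lit 25) (nat_lit 4) (nat_lit 26) (nat_lit 5) (nat_lit 26) (nat_lit 4) (nat_lit 450) (nat_lit 391) (nat_lit 359)) (XT.lf (nat_lit 0) (nat_lit 352907199) (nat_lit 152) (nat_lit 3895056612) (nat_lit 76) (nat_lit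 33866856290) (nat_lit 24) (nat_lit 5) (nat_lit 26) (nat_lit 5) (nat_lit 25) (nat_lit 4) (nat_lit 451) (nat_lit 391) (nat_lit 358))) (XT.nd (nat_lit 78) (nat_lit 76) (nat_lit 0) (XT.lf (nat_lit 0) (nat_lit 12039097127) (nat_lit 152) (nat_lit 20436724090) (nat_lit 0) (nat_lit 7725697959) (nat_lit 23) (nat_lit 5) (nat_lit 25) (nat_lit 4) (nat_lit 23) (nat_lit 4) (nat_lit 452) (nat_lit 391) (nat_lit 357)) (XT.lf (nat_lit 0) (nat_lit 2878458288) (nat_lit 76) (nat_lit 21950870941) (nat_lit 76) (nat_lit 17612293862) (nat_lit 22) (nat_lit 4) (nat_lit 23) (nat_lit 5) (nat_lit 23) (nat_lit 4) (nat_lit 453) (nat_lit 391) (nat_lit 356))))) (XT.nd (nat_lit 234) (nat_lit 228) (nat_lit 0) (XT.nd (nat_lit 78) (nat_lit 152) (nat_lit 0) (XT.lf (nat_lit 0) (nat_lit 28982559146) (nat_lit 76) (nat_lit 10102444431) (nat_lit 76) (nat_lit 5740554472) (nat_lit 22) (nat_lit 4) (nat_lit 23) (nat_lit 5) (nat_lit 23)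 (nat_lit 4) (nat_lit 454) (nat_lit 391) (nat_lit 355)) (XT.nd (nat_lit 78) (nat_lit 0) (nat_lit 0) (XT.lf (nat_lit 0) (nat_lit 6925984447) (nat_lit 152) (nat_lit 37577447617) (nat_lit 0) (nat_lit 2867210411) (nat_lit 20) (nat_lit 5) (nat_lit 22) (nat_lit 4) (nat_lit 20) (nat_lit 4) (nat_lit 455) (nat_lit 391) (nat_lit 354)) (XT.lf (nat_lit 0) (nat_lit 20891979250) (nat_lit 152) (nat_lit 12353026030) (nat_lit 0) (nat_lit 16814698698) (nat_lit 20) (nat_lit 5) (nat_lit 22) (nat_lit 4) (nat_lit 20) (nat_lit 4) (nat_lit 456) (nat_lit 391) (nat_lit 353)))) (XT.nd (nat_lit 156) (nat_lit 152) (nat_lit 0) (XT.nd (nat_lit 78) (nat_lit 0) (nat_lit 0) (XT.lf (nat_lit 0) (nat_lit 15452261625) (nat_lit 76) (nat_lit 20792252313) (nat_lit 76) (nat_lit 16697836098) (nat_lit 19) (nat_lit 4) (nat_lit 20) (nat_lit 5) (nat_lit 20) (nat_lit 4) (nat_lit 457) (nat_lit 391) (nat_lit 352)) (XT.lf (nat_lit 0) (nat_lit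 45979745751) (nat_lit 76) (nat_lit 7083550708) (nat_lit 76) (nat_lit 2973268138) (nat_lit 19) (nat_lit 4) (nat_lit 20) (nat_lit 5) (nat_lit 20) (nat_lit 4) (nat_lit 458) (nat_lit 391) (nat_lit 351))) (XT.nd (nat_lit 78) (nat_lit 0) (nat_lit 0) (XT.lf (nat_lit 0) (nat_lit 11848391693) (nat_lit 152) (nat_lit 39430805354) (nat_lit 0) (nat_lit 8028971657) (nat_lit 17) (nat_lit 5) (nat_lit 19) (nat_lit 4) (nat_lit 17) (nat_lit 4) (nat_lit 459) (nat_lit 391) (nat_lit 350)) (XT.lf (nat_lit 0) (nat_lit 28066644413) (nat_lit 152) (nat_lit 10504330185) (nat_lit 0) (nat_lit 24234629153) (nat_lit 17) (nat_lit 5) (nat_lit 19) (nat_lit 4) (nat_lit 17) (nat_lit 4) (nat_lit 460) (nat_lit 391) (nat_lit 349)))))) (XT.nd (nat_lit 546) (nat_lit 304) (nat_lit 0) (XT.nd (nat_lit 234) (nat_lit 152) (nat_lit 0) (XT.nd (nat_lit 78) (nat_lit 152) (nat_lit 0) (XT.lf (nat_lit 0) (nat_lit 21638437805) (nat_lit 76) (nat_lit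 24376724604) (nat_lit 76) (nat_lit 20533047100) (nat_lit 16) (nat_lit 4) (nat_lit 17) (nat_lit 5) (nat_lit 17) (nat_lit 4) (nat_lit 461) (nat_lit 391) (nat_lit 348)) (XT.nd (nat_lit 78) (nat_lit 152) (nat_lit 0) (XT.lf (nat_lit 0) (nat_lit 56774314049) (nat_lit 76) (nat_lit 8827118110) (nat_lit 76) (nat_lit 4972642231) (nat_lit 16) (nat_lit 4) (nat_lit 17) (nat_lit 5) (nat_lit 17) (nat_lit 4) (nat_lit 462) (nat_lit 391) (nat_lit 347)) (XT.lf (nat_lit 0) (nat_lit 11859064996) (nat_lit 152) (nat_lit 54709859049) (nat_lit 0) (nat_lit 8280847984) (nat_lit 14) (nat_lit 5) (nat_lit 16) (nat_lit 4) (nat_lit 14) (nat_lit 4) (nat_lit 463) (nat_lit 391) (nat_lit 346)))) (XT.nd (nat_lit 156) (nat_lit 76) (nat_lit 0) (XT.nd (nat_lit 78) (nat_lit 76) (nat_lit 0) (XT.lf (nat_lit 0) (nat_lit 30304051925) (nat_lit 152) (nat_lit 22393046610) (nat_lit 0) (nat_lit 26717262815) (nat_lit 14) (nat_lit 5) (nat_lit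 16) (nat_lit 4) (nat_lit 14) (nat_lit 4) (nat_lit 464) (nat_lit 391) (nat_lit 345)) (XT.lf (nat_lit 0) (nat_lit 13005012071) (nat_lit 76) (nat_lit 37457404929) (nat_lit 76) (nat_lit 33862678692) (nat_lit 13) (nat_lit 4) (nat_lit 14) (nat_lit 5) (nat_lit 14) (nat_lit 4) (nat_lit 465) (nat_lit 391) (nat_lit 344))) (XT.nd (nat_lit 78) (nat_lit 76) (nat_lit 0) (XT.lf (nat_lit 0) (nat_lit 52357681218) (nat_lit 76) (nat_lit 20414973459) (nat_lit 76) (nat_lit 16812898029) (nat_lit 13) (nat_lit 4) (nat_lit 14) (nat_lit 5) (nat_lit 14) (nat_lit 4) (nat_lit 466) (nat_lit 391) (nat_lit 343)) (XT.lf (nat_lit 0) (nat_lit 1451375841) (nat_lit 152) (nat_lit 590018486) (nat_lit 76) (nat_lit 93227924654) (nat_lit 12) (nat_lit 5) (nat_lit 14) (nat_lit 5) (nat_lit 13) (nat_lit 4) (nat_lit 467) (nat_lit 391) (nat_lit 342))))) (XT.nd (nat_lit 312) (nat_lit 152) (nat_lit 0) (XT.nd (nat_lit 156) (nat_lit 76) (nat_lit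 0) (XT.nd (nat_lit 78) (nat_lit 0) (nat_lit 0) (XT.lf (nat_lit 0) (nat_lit 21639681621) (nat_lit 152) (nat_lit 61331179525) (nat_lit 0) (nat_lit 18292291820) (nat_lit 11) (nat_lit 5) (nat_lit 13) (nat_lit 4) (nat_lit 11) (nat_lit 4) (nat_lit 468) (nat_lit 391) (nat_lit 341)) (XT.lf (nat_lit 0) (nat_lit 43448408629) (nat_lit 152) (nat_lit 24192039692) (nat_lit 0) (nat_lit 40095616953) (nat_lit 11) (nat_lit 5) (nat_lit 13) (nat_lit 4) (nat_lit 11) (nat_lit 4) (nat_lit 469) (nat_lit 391) (nat_lit 340))) (XT.nd (nat_lit 78) (nat_lit 0) (nat_lit 0) (XT.lf (nat_lit 0) (nat_lit 16627142067) (nat_lit 76) (nat_lit 50715114127) (nat_lit 76) (nat_lit 47357320714) (nat_lit 10) (nat_lit 4) (nat_lit 11) (nat_lit 5) (nat_lit 11) (nat_lit 4) (nat_lit 470) (nat_lit 391) (nat_lit 339)) (XT.lf (nat_lit 0) (nat_lit 61967944888) (nat_lit 76) (nat_lit 31783183987) (nat_lit 76) (nat_lit 28420759337) (nat_lit 10)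 (nat_lit 4) (nat_lit 11) (nat_lit 5) (nat_lit 11) (nat_lit 4) (nat_lit 471) (nat_lit 391) (nat_lit 338)))) (XT.nd (nat_lit 156) (nat_lit 0) (nat_lit 0) (XT.nd (nat_lit 78) (nat_lit 152) (nat_lit 0) (XT.lf (nat_lit 0) (nat_lit 110825145070) (nat_lit 76) (nat_lit 11393921924) (nat_lit 76) (nat_lit 8027209090) (nat_lit 10) (nat_lit 4) (nat_lit 11) (nat_lit 5) (nat_lit 11) (nat_lit 4) (nat_lit 472) (nat_lit 391) (nat_lit 337)) (XT.lf (nat_lit 0) (nat_lit 14137751969) (nat_lit 152) (nat_lit 113717970051) (nat_lit 0) (nat_lit 11016748846) (nat_lit 8) (nat_lit 5) (nat_lit 10) (nat_lit 4) (nat_lit 8) (nat_lit 4) (nat_lit 473) (nat_lit 391) (nat_lit 336))) (XT.nd (nat_lit 78) (nat_lit 0) (nat_lit 0) (XT.lf (nat_lit 0) (nat_lit 38432048341) (nat_lit 152) (nat_lit 74369206647) (nat_lit 0) (nat_lit 35307641120) (nat_lit 8) (nat_lit 5) (nat_lit 10) (nat_lit 4) (nat_lit 8) (nat_lit 4) (nat_lit 474) (nat_lit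 391) (nat_lit 335)) (XT.lf (nat_lit 0) (nat_lit 64622730677) (nat_lit 152) (nat_lit 31970105885) (nat_lit 0) (nat_lit 61495171513) (nat_lit 8) (nat_lit 5) (nat_lit 10) (nat_lit 4) (nat_lit 8) (nat_lit 4) (nat_lit 475) (nat_lit 391) (nat_lit 334))))))))
noncomputable def xc72 : XT := (XT.nd (nat_lit 2184) (nat_lit 0) (nat_lit 0) (XT.nd (nat_lit 1092) (nat_lit 228) (nat_lit 0) (XT.nd (nat_lit 546) (nat_lit 76) (nat_lit 0) (XT.nd (nat_lit 234) (nat_lit 152) (nat_lit 0) (XT.nd (nat_lit 78) (nat_lit 0) (nat_lit 0) (XT.lf (nat_lit 0) (nat_lit 14453614500) (nat_lit 76) (nat_lit 78758998295) (nat_lit 76) (nat_lit 75628520665) (nat_lit 7) (nat_lit 4) (nat_lit 8) (nat_lit 5) (nat_lit 8) (nat_lit 4) (nat_lit 476) (nat_lit 391) (nat_lit 333)) (XT.nd (nat_lit 78) (nat_lit 0) (nat_lit 0) (XT.lf (nat_lit 0) (nat_lit 66321351003) (nat_lit 76) (nat_lit 58599906066) (nat_lit 76) (nat_lit 55466726154) (nat_lit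 7) (nat_lit 4) (nat_lit 8) (nat_lit 5) (nat_lit 8) (nat_lit 4) (nat_lit 477) (nat_lit 391) (nat_lit 332)) (XT.lf (nat_lit 0) (nat_lit 122256978865) (nat_lit 76) (nat_lit 36870217939) (nat_lit 76) (nat_lit 33734535914) (nat_lit 7) (nat_lit 4) (nat_lit 8) (nat_lit 5) (nat_lit 8) (nat_lit 4) (nat_lit 478) (nat_lit 391) (nat_lit 331)))) (XT.nd (nat_lit 156) (nat_lit 0) (nat_lit 0) (XT.nd (nat_lit 78) (nat_lit 152) (nat_lit 0) (XT.lf (nat_lit 0) (nat_lit 182591968475) (nat_lit 76) (nat_lit 13441165393) (nat_lit 76) (nat_lit 10303166596) (nat_lit 7) (nat_lit 4) (nat_lit 8) (nat_lit 5) (nat_lit 8) (nat_lit 4) (nat_lit 479) (nat_lit 391) (nat_lit 330)) (XT.lf (nat_lit 0) (nat_lit 15197885000) (nat_lit 152) (nat_lit 193296085602) (nat_lit 0) (nat_lit 12290344300) (nat_lit 5) (nat_lit 5) (nat_lit 7) (nat_lit 4) (nat_lit 5) (nat_lit 4) (nat_lit 480) (nat_lit 391) (nat_lit 329))) (XT.nd (nat_lit 78)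 (nat_lit 0) (nat_lit 0) (XT.lf (nat_lit 0) (nat_lit 43162941458) (nat_lit 152) (nat_lit 152871813531) (nat_lit 0) (nat_lit 40253561630) (nat_lit 5) (nat_lit 5) (nat_lit 7) (nat_lit 4) (nat_lit 5) (nat_lit 4) (nat_lit 481) (nat_lit 391) (nat_lit 328)) (XT.lf (nat_lit 0) (nat_lit 73333131505) (nat_lit 152) (nat_lit 109280023908) (nat_lit 0) (nat_lit 70422048780) (nat_lit 5) (nat_lit 5) (nat_lit 7) (nat_lit 4) (nat_lit 5) (nat_lit 4) (nat_lit 482) (nat_lit 391) (nat_lit 327))))) (XT.nd (nat_lit 234) (nat_lit 0) (nat_lit 0) (XT.nd (nat_lit 78) (nat_lit 76) (nat_lit 0) (XT.lf (nat_lit 0) (nat_lit 105887241452) (nat_lit 152) (nat_lit 62262395017) (nat_lit 0) (nat_lit 102974581971) (nat_lit 5) (nat_lit 5) (nat_lit 7) (nat_lit 4) (nat_lit 5) (nat_lit 4) (nat_lit 483) (nat_lit 391) (nat_lit 326)) (XT.nd (nat_lit 78) (nat_lit 76) (nat_lit 0) (XT.lf (nat_lit 0) (nat_lit 141018184543) (nat_lit 152)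 (nat_lit 11540303871) (nat_lit 0) (nat_lit 138104065103) (nat_lit 5) (nat_lit 5) (nat_lit 7) (nat_lit 4) (nat_lit 5) (nat_lit 4) (nat_lit 484) (nat_lit 391) (nat_lit 325)) (XT.lf (nat_lit 0) (nat_lit 45460966548) (nat_lit 76) (nat_lit 134566514936) (nat_lit 76) (nat_lit 131651043682) (nat_lit 4) (nat_lit 4) (nat_lit 5) (nat_lit 5) (nat_lit 5) (nat_lit 4) (nat_lit 485) (nat_lit 391) (nat_lit 324)))) (XT.nd (nat_lit 156) (nat_lit 0) (nat_lit 0) (XT.nd (nat_lit 78) (nat_lit 0) (nat_lit 0) (XT.lf (nat_lit 0) (nat_lit 107627251155) (nat_lit 76) (nat_lit 114820994250) (nat_lit 76) (nat_lit 111904271316) (nat_lit 4) (nat_lit 4) (nat_lit 5) (nat_lit 5) (nat_lit 5) (nat_lit 4) (nat_lit 486) (nat_lit 391) (nat_lit 323)) (XT.lf (nat_lit 0) (nat_lit 174719250795) (nat_lit 76) (nat_lit 93520448223) (nat_lit 76) (nat_lit 90602566326) (nat_lit 4) (nat_lit 4) (nat_lit 5) (nat_lit 5) (nat_lit 5) (nat_lit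 4) (nat_lit 487) (nat_lit 391) (nat_lit 322))) (XT.nd (nat_lit 78) (nat_lit 0) (nat_lit 0) (XT.lf (nat_lit 0) (nat_lit 247134547689) (nat_lit 76) (nat_lit 70538651397) (nat_lit 76) (nat_lit 67619696387) (nat_lit 4) (nat_lit 4) (nat_lit 5) (nat_lit 5) (nat_lit 5) (nat_lit 4) (nat_lit 488) (nat_lit 391) (nat_lit 321)) (XT.lf (nat_lit 0) (nat_lit 325302269523) (nat_lit 76) (nat_lit 45739415347) (nat_lit 76) (nat_lit 42819466713) (nat_lit 4) (nat_lit 4) (nat_lit 5) (nat_lit 5) (nat_lit 5) (nat_lit 4) (nat_lit 489) (nat_lit 391) (nat_lit 320)))))) (XT.nd (nat_lit 546) (nat_lit 76) (nat_lit 0) (XT.nd (nat_lit 234) (nat_lit 0) (nat_lit 0) (XT.nd (nat_lit 78) (nat_lit 152) (nat_lit 0) (XT.lf (nat_lit 0) (nat_lit 409685632425) (nat_lit 76) (nat_lit 18975781637) (nat_lit 76) (nat_lit 16054912981) (nat_lit 4) (nat_lit 4) (nat_lit 5) (nat_lit 5) (nat_lit 5) (nat_lit 4) (nat_lit 490) (nat_lit 391) (nat_lit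 319)) (XT.nd (nat_lit 78) (nat_lit 0) (nat_lit 0) (XT.lf (nat_lit 0) (nat_lit 13019726774) (nat_lit 152) (nat_lit 454616093140) (nat_lit 0) (nat_lit 10314429988) (nat_lit 2) (nat_lit 5) (nat_lit 4) (nat_lit 4) (nat_lit 2) (nat_lit 4) (nat_lit 491) (nat_lit 391) (nat_lit 318)) (XT.lf (nat_lit 0) (nat_lit 45011195370) (nat_lit 152) (nat_lit 426376502944) (nat_lit 0) (nat_lit 42305168241) (nat_lit 2) (nat_lit 5) (nat_lit 4) (nat_lit 4) (nat_lit 2) (nat_lit 4) (nat_lit 492) (nat_lit 391) (nat_lit 317)))) (XT.nd (nat_lit 156) (nat_lit 0) (nat_lit 0) (XT.nd (nat_lit 78) (nat_lit 0) (nat_lit 0) (XT.lf (nat_lit 0) (nat_lit 79545947473) (nat_lit 152) (nat_lit 395910983703) (nat_lit 0) (nat_lit 76839244101) (nat_lit 2) (nat_lit 5) (nat_lit 4) (nat_lit 4) (nat_lit 2) (nat_lit 4) (nat_lit 493) (nat_lit 391) (nat_lit 316)) (XT.lf (nat_lit 0) (nat_lit 116828633466) (nat_lit 152) (nat_lit 363038999007)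 (nat_lit 0) (nat_lit 114121303942) (nat_lit 2) (nat_lit 5) (nat_lit 4) (nat_lit 4) (nat_lit 2) (nat_lit 4) (nat_lit 494) (nat_lit 391) (nat_lit 315))) (XT.nd (nat_lit 78) (nat_lit 0) (nat_lit 0) (XT.lf (nat_lit 0) (nat_lit 157080187784) (nat_lit 152) (nat_lit 327565751909) (nat_lit 0) (nat_lit 154372278490) (nat_lit 2) (nat_lit 5) (nat_lit 4) (nat_lit 4) (nat_lit 2) (nat_lit 4) (nat_lit 495) (nat_lit 391) (nat_lit 314)) (XT.lf (nat_lit 0) (nat_lit 200539138157) (nat_lit 152) (nat_lit 289281030575) (nat_lit 0) (nat_lit 197830692039) (nat_lit 2) (nat_lit 5) (nat_lit 4) (nat_lit 4) (nat_lit 2) (nat_lit 4) (nat_lit 496) (nat_lit 391) (nat_lit 313))))) (XT.nd (nat_lit 234) (nat_lit 76) (nat_lit 0) (XT.nd (nat_lit 78) (nat_lit 0) (nat_lit 0) (XT.lf (nat_lit 0) (nat_lit 247463019105) (nat_lit 152) (nat_lit 247957962582) (nat_lit 0) (nat_lit 244754075929) (nat_lit 2) (nat_lit 5) (nat_lit 4) (nat_lit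 4) (nat_lit 2) (nat_lit 4) (nat_lit 497) (nat_lit 391) (nat_lit 312)) (XT.nd (nat_lit 78) (nat_lit 0) (nat_lit 0) (XT.lf (nat_lit 0) (nat_lit 298129898072) (nat_lit 152) (nat_lit 203351670490) (nat_lit 0) (nat_lit 295420494655) (nat_lit 2) (nat_lit 5) (nat_lit 4) (nat_lit 4) (nat_lit 2) (nat_lit 4) (nat_lit 498) (nat_lit 391) (nat_lit 311)) (XT.lf (nat_lit 0) (nat_lit 352840023228) (nat_lit 152) (nat_lit 155197820716) (nat_lit 0) (nat_lit 350130193663) (nat_lit 2) (nat_lit 5) (nat_lit 4) (nat_lit 4) (nat_lit 2) (nat_lit 4) (nat_lit 499) (nat_lit 391) (nat_lit 310)))) (XT.nd (nat_lit 156) (nat_lit 76) (nat_lit 0) (XT.nd (nat_lit 78) (nat_lit 0) (nat_lit 0) (XT.lf (nat_lit 0) (nat_lit 411917602723) (nat_lit 152) (nat_lit 103211057114) (nat_lit 0) (nat_lit 409207378577) (nat_lit 2) (nat_lit 5) (nat_lit 4) (nat_lit 4) (nat_lit 2) (nat_lit 4) (nat_lit 500) (nat_lit 391) (nat_lit 309)) (XT.lf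 (nat_lit 0) (nat_lit 475712725917) (nat_lit 152) (nat_lit 47083309973) (nat_lit 0) (nat_lit 473002136417) (nat_lit 2) (nat_lit 5) (nat_lit 4) (nat_lit 4) (nat_lit 2) (nat_lit 4) (nat_lit 501) (nat_lit 391) (nat_lit 308))) (XT.nd (nat_lit 78) (nat_lit 0) (nat_lit 0) (XT.lf (nat_lit 0) (nat_lit 14229865060) (nat_lit 76) (nat_lit 530715801521) (nat_lit 76) (nat_lit 528004873731) (nat_lit 1) (nat_lit 4) (nat_lit 2) (nat_lit 5) (nat_lit 2) (nat_lit 4) (nat_lit 502) (nat_lit 391) (nat_lit 307)) (XT.lf (nat_lit 0) (nat_lit 83109557238) (nat_lit 76) (nat_lit 537887209793) (nat_lit 76) (nat_lit 535175968771) (nat_lit 1) (nat_lit 4) (nat_lit 2) (nat_lit 5) (nat_lit 2) (nat_lit 4) (nat_lit 503) (nat_lit 391) (nat_lit 306))))))) (XT.nd (nat_lit 1092) (nat_lit 0) (nat_lit 0) (XT.nd (nat_lit 546) (nat_lit 0) (nat_lit 0) (XT.nd (nat_lit 234) (nat_lit 0) (nat_lit 0) (XT.nd (nat_lit 78) (nat_lit 0) (nat_lit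 0) (XT.lf (nat_lit 0) (nat_lit 157484618852) (nat_lit 76) (nat_lit 545640099074) (nat_lit 76) (nat_lit 542928568023) (nat_lit 1) (nat_lit 4) (nat_lit 2) (nat_lit 5) (nat_lit 2) (nat_lit 4) (nat_lit 504) (nat_lit 391) (nat_lit 305)) (XT.nd (nat_lit 78) (nat_lit 0) (nat_lit 0) (XT.lf (nat_lit 0) (nat_lit 237795791006) (nat_lit 76) (nat_lit 554020412411) (nat_lit 76) (nat_lit 551308612814) (nat_lit 1) (nat_lit 4) (nat_lit 2) (nat_lit 5) (nat_lit 2) (nat_lit 4) (nat_lit 505) (nat_lit 391) (nat_lit 304)) (XT.lf (nat_lit 0) (nat_lit 324518991758) (nat_lit 76) (nat_lit 563077810920) (nat_lit 76) (nat_lit 560365762670) (nat_lit 1) (nat_lit 4) (nat_lit 2) (nat_lit 5) (nat_lit 2) (nat_lit 4) (nat_lit 506) (nat_lit 391) (nat_lit 303)))) (XT.nd (nat_lit 156) (nat_lit 0) (nat_lit 0) (XT.nd (nat_lit 78) (nat_lit 0) (nat_lit 0) (XT.lf (nat_lit 0) (nat_lit 418168136371) (nat_lit 76) (nat_lit 572865968074)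 (nat_lit 76) (nat_lit 570153689589) (nat_lit 1) (nat_lit 4) (nat_lit 2) (nat_lit 5) (nat_lit 2) (nat_lit 4) (nat_lit 507) (nat_lit 391) (nat_lit 302)) (XT.lf (nat_lit 0) (nat_lit 519298182740) (nat_lit 76) (nat_lit 583442887768) (nat_lit 76) (nat_lit 580730396102) (nat_lit 1) (nat_lit 4) (nat_lit 2) (nat_lit 5) (nat_lit 2) (nat_lit 4) (nat_lit 508) (nat_lit 391) (nat_lit 301))) (XT.nd (nat_lit 78) (nat_lit 0) (nat_lit 0) (XT.lf (nat_lit 0) (nat_lit 628508420028) (nat_lit 76) (nat_lit 594871248043) (nat_lit 76) (nat_lit 592158558989) (nat_lit 1) (nat_lit 4) (nat_lit 2) (nat_lit 5) (nat_lit 2) (nat_lit 4) (nat_lit 509) (nat_lit 391) (nat_lit 300)) (XT.lf (nat_lit 0) (nat_lit 746446020012) (nat_lit 76) (nat_lit 607218772516) (nat_lit 76) (nat_lit 604505900695) (nat_lit 1) (nat_lit 4) (nat_lit 2) (nat_lit 5) (nat_lit 2) (nat_lit 4) (nat_lit 510) (nat_lit 391) (nat_lit 299))))) (XT.nd (nat_lit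 234) (nat_lit 0) (nat_lit 0) (XT.nd (nat_lit 78) (nat_lit 0) (nat_lit 0) (XT.lf (nat_lit 0) (nat_lit 873809872173) (nat_lit 76) (nat_lit 620558631704) (nat_lit 76) (nat_lit 617845590653) (nat_lit 1) (nat_lit 4) (nat_lit 2) (nat_lit 5) (nat_lit 2) (nat_lit 4) (nat_lit 511) (nat_lit 391) (nat_lit 298)) (XT.nd (nat_lit 78) (nat_lit 0) (nat_lit 0) (XT.lf (nat_lit 0) (nat_lit 1011354725264) (nat_lit 76) (nat_lit 634969876622) (nat_lit 76) (nat_lit 632256678877) (nat_lit 1) (nat_lit 4) (nat_lit 2) (nat_lit 5) (nat_lit 2) (nat_lit 4) (nat_lit 512) (nat_lit 391) (nat_lit 297)) (XT.lf (nat_lit 0) (nat_lit 1159895659897) (nat_lit 76) (nat_lit 650537907242) (nat_lit 76) (nat_lit 647824564410) (nat_lit 1) (nat_lit 4) (nat_lit 2) (nat_lit 5) (nat_lit 2) (nat_lit 4) (nat_lit 513) (nat_lit 391) (nat_lit 296)))) (XT.nd (nat_lit 156) (nat_lit 0) (nat_lit 0) (XT.nd (nat_lit 78) (nat_lit 0) (nat_lit 0) (XT.lf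 (nat_lit 0) (nat_lit 1320312918647) (nat_lit 76) (nat_lit 667354978558) (nat_lit 76) (nat_lit 664641501387) (nat_lit 1) (nat_lit 4) (nat_lit 2) (nat_lit 5) (nat_lit 2) (nat_lit 4) (nat_lit 514) (nat_lit 391) (nat_lit 295)) (XT.lf (nat_lit 0) (nat_lit 1493557122307) (nat_lit 76) (nat_lit 685520747291) (nat_lit 76) (nat_lit 682807145731) (nat_lit 1) (nat_lit 4) (nat_lit 2) (nat_lit 5) (nat_lit 2) (nat_lit 4) (nat_lit 515) (nat_lit 391) (nat_lit 294))) (XT.nd (nat_lit 78) (nat_lit 0) (nat_lit 0) (XT.lf (nat_lit 0) (nat_lit 1680654903194) (nat_lit 76) (nat_lit 705142862440) (nat_lit 76) (nat_lit 702429145706) (nat_lit 1) (nat_lit 4) (nat_lit 2) (nat_lit 5) (nat_lit 2) (nat_lit 4) (nat_lit 516) (nat_lit 391) (nat_lit 293)) (XT.lf (nat_lit 0) (nat_lit 1882714988900) (nat_lit 76) (nat_lit 726337603206) (nat_lit 76) (nat_lit 723623779829) (nat_lit 1) (nat_lit 4) (nat_lit 2) (nat_lit 5) (nat_lit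 2) (nat_lit 4) (nat_lit 517) (nat_lit 391) (nat_lit 292)))))) (XT.nd (nat_lit 546) (nat_lit 0) (nat_lit 0) (XT.nd (nat_lit 234) (nat_lit 0) (nat_lit 0) (XT.nd (nat_lit 78) (nat_lit 0) (nat_lit 0) (XT.lf (nat_lit 0) (nat_lit 2100934772524) (nat_lit 76) (nat_lit 749230568053) (nat_lit 76) (nat_lit 746516645932) (nat_lit 1) (nat_lit 4) (nat_lit 2) (nat_lit 5) (nat_lit 2) (nat_lit 4) (nat_lit 518) (nat_lit 391) (nat_lit 291)) (XT.nd (nat_lit 78) (nat_lit 0) (nat_lit 0) (XT.lf (nat_lit 0) (nat_lit 2336607408341) (nat_lit 76) (nat_lit 773957418994) (nat_lit 76) (nat_lit 771243405444) (nat_lit 1) (nat_lit 4) (nat_lit 2) (nat_lit 5) (nat_lit 2) (nat_lit 4) (nat_lit 519) (nat_lit 391) (nat_lit 290)) (XT.lf (nat_lit 0) (nat_lit 2591129474932) (nat_lit 76) (nat_lit 800664685518) (nat_lit 76) (nat_lit 797950587310) (nat_lit 1) (nat_lit 4) (nat_lit 2) (nat_lit 5) (nat_lit 2) (nat_lit 4) (nat_lit 520)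 (nat_lit 391) (nat_lit 289)))) (XT.nd (nat_lit 156) (nat_lit 0) (nat_lit 0) (XT.nd (nat_lit 78) (nat_lit 0) (nat_lit 0) (XT.lf (nat_lit 0) (nat_lit 2866009251210) (nat_lit 76) (nat_lit 829510632906) (nat_lit 76) (nat_lit 826796456312) (nat_lit 1) (nat_lit 4) (nat_lit 2) (nat_lit 5) (nat_lit 2) (nat_lit 4) (nat_lit 521) (nat_lit 391) (nat_lit 288)) (XT.lf (nat_lit 0) (nat_lit 3162875654369) (nat_lit 76) (nat_lit 860666200106) (nat_lit 76) (nat_lit 857951950933) (nat_lit 1) (nat_lit 4) (nat_lit 2) (nat_lit 5) (nat_lit 2) (nat_lit 4) (nat_lit 522) (nat_lit 391) (nat_lit 287))) (XT.nd (nat_lit 78) (nat_lit 0) (nat_lit 0) (XT.lf (nat_lit 0) (nat_lit 3483487892724) (nat_lit 76) (nat_lit 894316012702) (nat_lit 76) (nat_lit 891601696325) (nat_lit 1) (nat_lit 4) (nat_lit 2) (nat_lit 5) (nat_lit 2) (nat_lit 4) (nat_lit 523) (nat_lit 391) (nat_lit 286)) (XT.lf (nat_lit 0) (nat_lit 3829745890649) (nat_lit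 76) (nat_lit 930659476990) (nat_lit 76) (nat_lit 927945098389) (nat_lit 1) (nat_lit 4) (nat_lit 2) (nat_lit 5) (nat_lit 2) (nat_lit 4) (nat_lit 524) (nat_lit 391) (nat_lit 285))))) (XT.nd (nat_lit 234) (nat_lit 0) (nat_lit 0) (XT.nd (nat_lit 78) (nat_lit 0) (nat_lit 0) (XT.lf (nat_lit 0) (nat_lit 4203701547393) (nat_lit 76) (nat_lit 969911961649) (nat_lit 76) (nat_lit 967197525431) (nat_lit 1) (nat_lit 4) (nat_lit 2) (nat_lit 5) (nat_lit 2) (nat_lit 4) (nat_lit 525) (nat_lit 391) (nat_lit 284)) (XT.nd (nat_lit 78) (nat_lit 0) (nat_lit 0) (XT.lf (nat_lit 0) (nat_lit 4607570896475) (nat_lit 76) (nat_lit 1012306073994) (nat_lit 76) (nat_lit 1009591584428) (nat_lit 1) (nat_lit 4) (nat_lit 2) (nat_lit 5) (nat_lit 2) (nat_lit 4) (nat_lit 526) (nat_lit 391) (nat_lit 283)) (XT.lf (nat_lit 0) (nat_lit 5043747237744) (nat_lit 76) (nat_lit 1058093038394) (nat_lit 76) (nat_lit 1055378499432) (nat_lit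 1) (nat_lit 4) (nat_lit 2) (nat_lit 5) (nat_lit 2) (nat_lit 4) (nat_lit 527) (nat_lit 391) (nat_lit 282)))) (XT.nd (nat_lit 156) (nat_lit 0) (nat_lit 0) (XT.nd (nat_lit 78) (nat_lit 0) (nat_lit 0) (XT.lf (nat_lit 0) (nat_lit 5514815319887) (nat_lit 76) (nat_lit 1107544185010) (nat_lit 76) (nat_lit 1104829600310) (nat_lit 1) (nat_lit 4) (nat_lit 2) (nat_lit 5) (nat_lit 2) (nat_lit 4) (nat_lit 528) (nat_lit 391) (nat_lit 281)) (XT.lf (nat_lit 0) (nat_lit 6023566657466) (nat_lit 76) (nat_lit 1160952557673) (nat_lit 76) (nat_lit 1158237930624) (nat_lit 1) (nat_lit 4) (nat_lit 2) (nat_lit 5) (nat_lit 2) (nat_lit 4) (nat_lit 529) (nat_lit 391) (nat_lit 280))) (XT.nd (nat_lit 78) (nat_lit 0) (nat_lit 0) (XT.lf (nat_lit 0) (nat_lit 6573016073221) (nat_lit 76) (nat_lit 1218634650443) (nat_lit 76) (nat_lit 1215919984181) (nat_lit 1) (nat_lit 4) (nat_lit 2) (nat_lit 5) (nat_lit 2) (nat_lit 4) (nat_lit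 530) (nat_lit 391) (nat_lit 279)) (XT.lf (nat_lit 0) (nat_lit 7166419563692) (nat_lit 76) (nat_lit 1280932283129) (nat_lit 76) (nat_lit 1278217580560) (nat_lit 1) (nat_lit 4) (nat_lit 2) (nat_lit 5) (nat_lit 2) (nat_lit 4) (nat_lit 531) (nat_lit 391) (nat_lit 278))))))))
noncomputable def xc73 : XT := (XT.nd (nat_lit 54522) (nat_lit 0) (nat_lit 1368) (XT.nd (nat_lit 53430) (nat_lit 0) (nat_lit 3496) (XT.nd (nat_lit 546) (nat_lit 0) (nat_lit 0) (XT.nd (nat_lit 234) (nat_lit 0) (nat_lit 0) (XT.nd (nat_lit 78) (nat_lit 0) (nat_lit 0) (XT.lf (nat_lit 0) (nat_lit 7807293594005) (nat_lit 76) (nat_lit 1348214626888) (nat_lit 76) (nat_lit 1345499890701) (nat_lit 1) (nat_lit 4) (nat_lit 2) (nat_lit 5) (nat_lit 2) (nat_lit 4) (nat_lit 532) (nat_lit 391) (nat_lit 277)) (XT.nd (nat_lit 78) (nat_lit 0) (nat_lit 0) (XT.lf (nat_lit 0) (nat_lit 8499435936194) (nat_lit 76) (nat_lit 1420880391906) (nat_lit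 76) (nat_lit 1418165624590) (nat_lit 1) (nat_lit 4) (nat_lit 2) (nat_lit 5) (nat_lit 2) (nat_lit 4) (nat_lit 533) (nat_lit 391) (nat_lit 276)) (XT.lf (nat_lit 0) (nat_lit 9246948174507) (nat_lit 76) (nat_lit 1499360190122) (nat_lit 76) (nat_lit 1496645393984) (nat_lit 1) (nat_lit 4) (nat_lit 2) (nat_lit 5) (nat_lit 2) (nat_lit 4) (nat_lit 534) (nat_lit 391) (nat_lit 275)))) (XT.nd (nat_lit 156) (nat_lit 0) (nat_lit 0) (XT.nd (nat_lit 78) (nat_lit 0) (nat_lit 0) (XT.lf (nat_lit 0) (nat_lit 10054260011098) (nat_lit 76) (nat_lit 1584119087008) (nat_lit 76) (nat_lit 1581404264183) (nat_lit 1) (nat_lit 4) (nat_lit 2) (nat_lit 5) (nat_lit 2) (nat_lit 4) (nat_lit 535) (nat_lit 391) (nat_lit 274)) (XT.lf (nat_lit 0) (nat_lit 10926155516109) (nat_lit 76) (nat_lit 1675659357509) (nat_lit 76) (nat_lit 1672944509973) (nat_lit 1) (nat_lit 4) (nat_lit 2) (nat_lit 5) (nat_lit 2) (nat_lit 4) (nat_lit 536)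 (nat_lit 391) (nat_lit 273))) (XT.nd (nat_lit 78) (nat_lit 0) (nat_lit 0) (XT.lf (nat_lit 0) (nat_lit 11867801477719) (nat_lit 76) (nat_lit 1774523462486) (nat_lit 76) (nat_lit 1771808592070) (nat_lit 1) (nat_lit 4) (nat_lit 2) (nat_lit 5) (nat_lit 2) (nat_lit 4) (nat_lit 537) (nat_lit 391) (nat_lit 272)) (XT.lf (nat_lit 0) (nat_lit 12884778020144) (nat_lit 76) (nat_lit 1881297263303) (nat_lit 76) (nat_lit 1878582371701) (nat_lit 1) (nat_lit 4) (nat_lit 2) (nat_lit 5) (nat_lit 2) (nat_lit 4) (nat_lit 538) (nat_lit 391) (nat_lit 271))))) (XT.nd (nat_lit 234) (nat_lit 0) (nat_lit 0) (XT.nd (nat_lit 78) (nat_lit 0) (nat_lit 0) (XT.lf (nat_lit 0) (nat_lit 13983111671044) (nat_lit 76) (nat_lit 1996613493593) (nat_lit 76) (nat_lit 1993898582376) (nat_lit 1) (nat_lit 4) (nat_lit 2) (nat_lit 5) (nat_lit 2) (nat_lit 4) (nat_lit 539) (nat_lit 391) (nat_lit 270)) (XT.nd (nat_lit 78) (nat_lit 0) (nat_lit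 0) (XT.lf (nat_lit 0) (nat_lit 15169311074275) (nat_lit 76) (nat_lit 2121155508796) (nat_lit 76) (nat_lit 2118440579416) (nat_lit 1) (nat_lit 4) (nat_lit 2) (nat_lit 5) (nat_lit 2) (nat_lit 4) (nat_lit 540) (nat_lit 391) (nat_lit 269)) (XT.lf (nat_lit 0) (nat_lit 16450405559634) (nat_lit 76) (nat_lit 2255661335669) (nat_lit 76) (nat_lit 2252946389471) (nat_lit 1) (nat_lit 4) (nat_lit 2) (nat_lit 5) (nat_lit 2) (nat_lit 4) (nat_lit 541) (nat_lit 391) (nat_lit 268)))) (XT.nd (nat_lit 156) (nat_lit 0) (nat_lit 0) (XT.nd (nat_lit 78) (nat_lit 0) (nat_lit 0) (XT.lf (nat_lit 0) (nat_lit 17833986798145) (nat_lit 76) (nat_lit 2400928045778) (nat_lit 76) (nat_lit 2398213084008) (nat_lit 1) (nat_lit 4) (nat_lit 2) (nat_lit 5) (nat_lit 2) (nat_lit 4) (nat_lit 542) (nat_lit 391) (nat_lit 267)) (XT.lf (nat_lit 0) (nat_lit 19328253789742) (nat_lit 76) (nat_lit 2557816478887) (nat_lit 76) (nat_lit 2555101502699)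 (nat_lit 1) (nat_lit 4) (nat_lit 2) (nat_lit 5) (nat_lit 2) (nat_lit 4) (nat_lit 543) (nat_lit 391) (nat_lit 266))) (XT.nd (nat_lit 78) (nat_lit 0) (nat_lit 0) (XT.lf (nat_lit 0) (nat_lit 20942061449928) (nat_lit 76) (nat_lit 2727256344228) (nat_lit 76) (nat_lit 2724541354690) (nat_lit 1) (nat_lit 4) (nat_lit 2) (nat_lit 5) (nat_lit 2) (nat_lit 4) (nat_lit 544) (nat_lit 391) (nat_lit 265)) (XT.lf (nat_lit 0) (nat_lit 22684973083358) (nat_lit 76) (nat_lit 2910251729893) (nat_lit 76) (nat_lit 2907536727994) (nat_lit 1) (nat_lit 4) (nat_lit 2) (nat_lit 5) (nat_lit 2) (nat_lit 4) (nat_lit 545) (nat_lit 391) (nat_lit 264)))))) (XT.nd (nat_lit 546) (nat_lit 912) (nat_lit 0) (XT.nd (nat_lit 234) (nat_lit 684) (nat_lit 0) (XT.nd (nat_lit 78) (nat_lit 228) (nat_lit 0) (XT.lf (nat_lit 0) (nat_lit 869415101) (nat_lit 228) (nat_lit 1637237964) (nat_lit 228) (nat_lit 1637237964) (nat_lit 71) (nat_lit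 4) (nat_lit 74) (nat_lit 5) (nat_lit 74) (nat_lit 4) (nat_lit 416) (nat_lit 392) (nat_lit 392)) (XT.nd (nat_lit 78) (nat_lit 0) (nat_lit 0) (XT.lf (nat_lit 0) (nat_lit 595029438) (nat_lit 152) (nat_lit 216721095) (nat_lit 228) (nat_lit 7724169622) (nat_lit 68) (nat_lit 5) (nat_lit 70) (nat_lit 5) (nat_lit 71) (nat_lit 4) (nat_lit 417) (nat_lit 392) (nat_lit 391)) (XT.lf (nat_lit 0) (nat_lit 5036345486) (nat_lit 228) (nat_lit 675211574) (nat_lit 0) (nat_lit 3086502996) (nat_lit 68) (nat_lit 5) (nat_lit 71) (nat_lit 4) (nat_lit 68) (nat_lit 4) (nat_lit 418) (nat_lit 392) (nat_lit 390)))) (XT.nd (nat_lit 156) (nat_lit 304) (nat_lit 0) (XT.nd (nat_lit 78) (nat_lit 152) (nat_lit 0) (XT.lf (nat_lit 0) (nat_lit 417930287) (nat_lit 228) (nat_lit 1948532931) (nat_lit 76) (nat_lit 6719645849) (nat_lit 65) (nat_lit 5) (nat_lit 68) (nat_lit 5) (nat_lit 66) (nat_lit 4) (nat_lit 419) (nat_lit 392) (nat_lit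 389)) (XT.lf (nat_lit 0) (nat_lit 4680492118) (nat_lit 228) (nat_lit 3385536578) (nat_lit 0) (nat_lit 1327234571) (nat_lit 63) (nat_lit 5) (nat_lit 66) (nat_lit 4) (nat_lit 63) (nat_lit 4) (nat_lit 420) (nat_lit 392) (nat_lit 388))) (XT.nd (nat_lit 78) (nat_lit 152) (nat_lit 0) (XT.lf (nat_lit 0) (nat_lit 4782547655) (nat_lit 152) (nat_lit 4492727799) (nat_lit 152) (nat_lit 450435426) (nat_lit 61) (nat_lit 4) (nat_lit 63) (nat_lit 5) (nat_lit 63) (nat_lit 4) (nat_lit 421) (nat_lit 392) (nat_lit 387)) (XT.lf (nat_lit 0) (nat_lit 3399869815) (nat_lit 76) (nat_lit 484821241) (nat_lit 152) (nat_lit 6196925006) (nat_lit 59) (nat_lit 5) (nat_lit 60) (nat_lit 5) (nat_lit 61) (nat_lit 4) (nat_lit 422) (nat_lit 392) (nat_lit 386))))) (XT.nd (nat_lit 234) (nat_lit 608) (nat_lit 0) (XT.nd (nat_lit 78) (nat_lit 152) (nat_lit 0) (XT.lf (nat_lit 0) (nat_lit 1827952132) (nat_lit 152) (nat_lit 6757137049)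 (nat_lit 152) (nat_lit 1876559376) (nat_lit 57) (nat_lit 4) (nat_lit 59) (nat_lit 5) (nat_lit 59) (nat_lit 4) (nat_lit 423) (nat_lit 392) (nat_lit 385)) (XT.nd (nat_lit 78) (nat_lit 0) (nat_lit 0) (XT.lf (nat_lit 0) (nat_lit 65480552) (nat_lit 76) (nat_lit 2555923001) (nat_lit 152) (nat_lit 8247605188) (nat_lit 55) (nat_lit 5) (nat_lit 56) (nat_lit 5) (nat_lit 57) (nat_lit 4) (nat_lit 424) (nat_lit 392) (nat_lit 384)) (XT.lf (nat_lit 0) (nat_lit 7441471854) (nat_lit 152) (nat_lit 1839241926) (nat_lit 0) (nat_lit 2019264109) (nat_lit 55) (nat_lit 5) (nat_lit 57) (nat_lit 4) (nat_lit 55) (nat_lit 4) (nat_lit 425) (nat_lit 392) (nat_lit 383)))) (XT.nd (nat_lit 156) (nat_lit 304) (nat_lit 0) (XT.nd (nat_lit 78) (nat_lit 76) (nat_lit 0) (XT.lf (nat_lit 0) (nat_lit 883228616) (nat_lit 228) (nat_lit 3987137426) (nat_lit 76) (nat_lit 6889722849) (nat_lit 52) (nat_lit 5) (nat_lit 55) (nat_lit 5)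 (nat_lit 53) (nat_lit 4) (nat_lit 426) (nat_lit 392) (nat_lit 382)) (XT.lf (nat_lit 0) (nat_lit 5780790920) (nat_lit 152) (nat_lit 6426138352) (nat_lit 0) (nat_lit 43275156) (nat_lit 51) (nat_lit 5) (nat_lit 53) (nat_lit 4) (nat_lit 51) (nat_lit 4) (nat_lit 427) (nat_lit 392) (nat_lit 381))) (XT.nd (nat_lit 78) (nat_lit 152) (nat_lit 0) (XT.lf (nat_lit 0) (nat_lit 3551182062) (nat_lit 152) (nat_lit 7637762485) (nat_lit 152) (nat_lit 1581090276) (nat_lit 49) (nat_lit 4) (nat_lit 51) (nat_lit 5) (nat_lit 51) (nat_lit 4) (nat_lit 428) (nat_lit 392) (nat_lit 380)) (XT.lf (nat_lit 0) (nat_lit 954468812) (nat_lit 76) (nat_lit 2558346691) (nat_lit 152) (nat_lit 9811566276) (nat_lit 47) (nat_lit 5) (nat_lit 48) (nat_lit 5) (nat_lit 49) (nat_lit 4) (nat_lit 429) (nat_lit 392) (nat_lit 379))))))) (XT.nd (nat_lit 1092) (nat_lit 988) (nat_lit 0) (XT.nd (nat_lit 546) (nat_lit 608) (nat_lit 0) (XT.nd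 (nat_lit 234) (nat_lit 304) (nat_lit 0) (XT.nd (nat_lit 78) (nat_lit 228) (nat_lit 0) (XT.lf (nat_lit 0) (nat_lit 9056402696) (nat_lit 152) (nat_lit 1931797079) (nat_lit 0) (nat_lit 2921390987) (nat_lit 47) (nat_lit 5) (nat_lit 49) (nat_lit 4) (nat_lit 47) (nat_lit 4) (nat_lit 430) (nat_lit 392) (nat_lit 378)) (XT.nd (nat_lit 78) (nat_lit 76) (nat_lit 0) (XT.lf (nat_lit 0) (nat_lit 585424145) (nat_lit 152) (nat_lit 5151919001) (nat_lit 76) (nat_lit 8794620031) (nat_lit 45) (nat_lit 5) (nat_lit 47) (nat_lit 5) (nat_lit 46) (nat_lit 4) (nat_lit 431) (nat_lit 392) (nat_lit 377)) (XT.lf (nat_lit 0) (nat_lit 6221293451) (nat_lit 152) (nat_lit 8848411608) (nat_lit 0) (nat_lit 122391843) (nat_lit 44) (nat_lit 5) (nat_lit 46) (nat_lit 4) (nat_lit 44) (nat_lit 4) (nat_lit 432) (nat_lit 392) (nat_lit 376)))) (XT.nd (nat_lit 156) (nat_lit 152) (nat_lit 0) (XT.nd (nat_lit 78) (nat_lit 76) (nat_lit 0)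 (XT.lf (nat_lit 0) (nat_lit 2793713239) (nat_lit 76) (nat_lit 9691156208) (nat_lit 76) (nat_lit 3406029880) (nat_lit 43) (nat_lit 4) (nat_lit 44) (nat_lit 5) (nat_lit 44) (nat_lit 4) (nat_lit 433) (nat_lit 392) (nat_lit 375)) (XT.lf (nat_lit 0) (nat_lit 2538727631) (nat_lit 152) (nat_lit 1177003151) (nat_lit 76) (nat_lit 12919664594) (nat_lit 42) (nat_lit 5) (nat_lit 44) (nat_lit 5) (nat_lit 43) (nat_lit 4) (nat_lit 434) (nat_lit 392) (nat_lit 374))) (XT.nd (nat_lit 78) (nat_lit 76) (nat_lit 0) (XT.lf (nat_lit 0) (nat_lit 8962881709) (nat_lit 152) (nat_lit 5618638051) (nat_lit 0) (nat_lit 2835831426) (nat_lit 41) (nat_lit 5) (nat_lit 43) (nat_lit 4) (nat_lit 41) (nat_lit 4) (nat_lit 435) (nat_lit 392) (nat_lit 373)) (XT.lf (nat_lit 0) (nat_lit 7574273834) (nat_lit 76) (nat_lit 8470028768) (nat_lit 76) (nat_lit 2206097757) (nat_lit 40) (nat_lit 4) (nat_lit 41) (nat_lit 5) (nat_lit 41) (nat_lit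 4) (nat_lit 436) (nat_lit 392) (nat_lit 372))))) (XT.nd (nat_lit 234) (nat_lit 380) (nat_lit 0) (XT.nd (nat_lit 78) (nat_lit 76) (nat_lit 0) (XT.lf (nat_lit 0) (nat_lit 2698135134) (nat_lit 76) (nat_lit 1671483885) (nat_lit 152) (nat_lit 14767363148) (nat_lit 38) (nat_lit 5) (nat_lit 39) (nat_lit 5) (nat_lit 40) (nat_lit 4) (nat_lit 437) (nat_lit 392) (nat_lit 371)) (XT.nd (nat_lit 78) (nat_lit 76) (nat_lit 0) (XT.lf (nat_lit 0) (nat_lit 11621243692) (nat_lit 152) (nat_lit 2851848586) (nat_lit 0) (nat_lit 5595294072) (nat_lit 38) (nat_lit 5) (nat_lit 40) (nat_lit 4) (nat_lit 38) (nat_lit 4) (nat_lit 438) (nat_lit 392) (nat_lit 370)) (XT.lf (nat_lit 0) (nat_lit 12078327945) (nat_lit 76) (nat_lit 7554092444) (nat_lit 76) (nat_lit 1427531403) (nat_lit 37) (nat_lit 4) (nat_lit 38) (nat_lit 5) (nat_lit 38) (nat_lit 4) (nat_lit 439) (nat_lit 392) (nat_lit 369)))) (XT.nd (nat_lit 156) (nat_lit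 228) (nat_lit 0) (XT.nd (nat_lit 78) (nat_lit 0) (nat_lit 0) (XT.lf (nat_lit 0) (nat_lit 5922344975) (nat_lit 152) (nat_lit 16027192840) (nat_lit 0) (nat_lit 163345193) (nat_lit 35) (nat_lit 5) (nat_lit 37) (nat_lit 4) (nat_lit 35) (nat_lit 4) (nat_lit 440) (nat_lit 392) (nat_lit 368)) (XT.lf (nat_lit 0) (nat_lit 14077890960) (nat_lit 152) (nat_lit 906586745) (nat_lit 0) (nat_lit 8239022587) (nat_lit 35) (nat_lit 5) (nat_lit 37) (nat_lit 4) (nat_lit 35) (nat_lit 4) (nat_lit 441) (nat_lit 392) (nat_lit 367))) (XT.nd (nat_lit 78) (nat_lit 152) (nat_lit 0) (XT.lf (nat_lit 0) (nat_lit 15937891405) (nat_lit 76) (nat_lit 7189296845) (nat_lit 76) (nat_lit 1276476074) (nat_lit 34) (nat_lit 4) (nat_lit 35) (nat_lit 5) (nat_lit 35) (nat_lit 4) (nat_lit 442) (nat_lit 392) (nat_lit 366)) (XT.lf (nat_lit 0) (nat_lit 6984993307) (nat_lit 152) (nat_lit 17222670282) (nat_lit 0) (nat_lit 1446756997) (nat_lit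 32) (nat_lit 5) (nat_lit 34) (nat_lit 4) (nat_lit 32) (nat_lit 4) (nat_lit 443) (nat_lit 392) (nat_lit 365)))))) (XT.nd (nat_lit 546) (nat_lit 532) (nat_lit 0) (XT.nd (nat_lit 234) (nat_lit 228) (nat_lit 0) (XT.nd (nat_lit 78) (nat_lit 228) (nat_lit 0) (XT.lf (nat_lit 0) (nat_lit 16121456664) (nat_lit 152) (nat_lit 333972134) (nat_lit 0) (nat_lit 10524514556) (nat_lit 32) (nat_lit 5) (nat_lit 34) (nat_lit 4) (nat_lit 32) (nat_lit 4) (nat_lit 444) (nat_lit 392) (nat_lit 364)) (XT.nd (nat_lit 78) (nat_lit 152) (nat_lit 0) (XT.lf (nat_lit 0) (nat_lit 18572016254) (nat_lit 76) (nat_lit 7732758719) (nat_lit 76) (nat_lit 2081459391) (nat_lit 31) (nat_lit 4) (nat_lit 32) (nat_lit 5) (nat_lit 32) (nat_lit 4) (nat_lit 445) (nat_lit 392) (nat_lit 363)) (XT.lf (nat_lit 0) (nat_lit 7173834754) (nat_lit 152) (nat_lit 20810720738) (nat_lit 0) (nat_lit 1894547635) (nat_lit 29) (nat_lit 5) (nat_lit 31)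 (nat_lit 4) (nat_lit 29) (nat_lit 4) (nat_lit 446) (nat_lit 392) (nat_lit 362)))) (XT.nd (nat_lit 156) (nat_lit 152) (nat_lit 0) (XT.nd (nat_lit 78) (nat_lit 76) (nat_lit 0) (XT.lf (nat_lit 0) (nat_lit 17403142962) (nat_lit 152) (nat_lit 1975545670) (nat_lit 0) (nat_lit 12080705328) (nat_lit 29) (nat_lit 5) (nat_lit 31) (nat_lit 4) (nat_lit 29) (nat_lit 4) (nat_lit 447) (nat_lit 392) (nat_lit 361)) (XT.lf (nat_lit 0) (nat_lit 19076796699) (nat_lit 76) (nat_lit 9712319313) (nat_lit 76) (nat_lit 4349927500) (nat_lit 28) (nat_lit 4) (nat_lit 29) (nat_lit 5) (nat_lit 29) (nat_lit 4) (nat_lit 448) (nat_lit 392) (nat_lit 360))) (XT.nd (nat_lit 78) (nat_lit 0) (nat_lit 0) (XT.lf (nat_lit 0) (nat_lit 5952006423) (nat_lit 152) (nat_lit 28026613485) (nat_lit 0) (nat_lit 952574549) (nat_lit 26) (nat_lit 5) (nat_lit 28) (nat_lit 4) (nat_lit 26) (nat_lit 4) (nat_lit 449) (nat_lit 392) (nat_lit 359))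 (XT.lf (nat_lit 0) (nat_lit 17369794273) (nat_lit 152) (nat_lit 7107103097) (nat_lit 0) (nat_lit 12338645482) (nat_lit 26) (nat_lit 5) (nat_lit 28) (nat_lit 4) (nat_lit 26) (nat_lit 4) (nat_lit 450) (nat_lit 392) (nat_lit 358))))) (XT.nd (nat_lit 312) (nat_lit 228) (nat_lit 0) (XT.nd (nat_lit 156) (nat_lit 76) (nat_lit 0) (XT.nd (nat_lit 78) (nat_lit 152) (nat_lit 0) (XT.lf (nat_lit 0) (nat_lit 16063226754) (nat_lit 76) (nat_lit 13912957560) (nat_lit 76) (nat_lit 8852441255) (nat_lit 25) (nat_lit 4) (nat_lit 26) (nat_lit 5) (nat_lit 26) (nat_lit 4) (nat_lit 451) (nat_lit 392) (nat_lit 357)) (XT.lf (nat_lit 0) (nat_lit 221539350) (nat_lit 76) (nat_lit 2330983629) (nat_lit 152) (nat_lit 38437758956) (nat_lit 23) (nat_lit 5) (nat_lit 24) (nat_lit 5) (nat_lit 25) (nat_lit 4) (nat_lit 452) (nat_lit 392) (nat_lit 356))) (XT.nd (nat_lit 78) (nat_lit 76) (nat_lit 0) (XT.lf (nat_lit 0) (nat_lit 15164191232)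 (nat_lit 152) (nat_lit 17650442831) (nat_lit 0) (nat_lit 10430037195) (nat_lit 23) (nat_lit 5) (nat_lit 25) (nat_lit 4) (nat_lit 23) (nat_lit 4) (nat_lit 453) (nat_lit 392) (nat_lit 355)) (XT.lf (nat_lit 0) (nat_lit 7418024537) (nat_lit 76) (nat_lit 21503110228) (nat_lit 76) (nat_lit 16747370192) (nat_lit 22) (nat_lit 4) (nat_lit 23) (nat_lit 5) (nat_lit 23) (nat_lit 4) (nat_lit 454) (nat_lit 392) (nat_lit 354)))) (XT.nd (nat_lit 156) (nat_lit 76) (nat_lit 0) (XT.nd (nat_lit 78) (nat_lit 152) (nat_lit 0) (XT.lf (nat_lit 0) (nat_lit 35291246828) (nat_lit 76) (nat_lit 8870056292) (nat_lit 76) (nat_lit 4094329219) (nat_lit 22) (nat_lit 4) (nat_lit 23) (nat_lit 5) (nat_lit 23) (nat_lit 4) (nat_lit 455) (nat_lit 392) (nat_lit 353)) (XT.lf (nat_lit 0) (nat_lit 9477203274) (nat_lit 152) (nat_lit 36485212367) (nat_lit 0) (nat_lit 5038098098) (nat_lit 20) (nat_lit 5) (nat_lit 22) (nat_lit 4) (nat_lit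 20) (nat_lit 4) (nat_lit 456) (nat_lit 392) (nat_lit 352))) (XT.nd (nat_lit 78) (nat_lit 76) (nat_lit 0) (XT.lf (nat_lit 0) (nat_lit 24412541360) (nat_lit 152) (nat_lit 9546424540) (nat_lit 0) (nat_lit 19957569830) (nat_lit 20) (nat_lit 5) (nat_lit 22) (nat_lit 4) (nat_lit 20) (nat_lit 4) (nat_lit 457) (nat_lit 392) (nat_lit 351)) (XT.lf (nat_lit 0) (nat_lit 20387214139) (nat_lit 76) (nat_lit 20558042172) (nat_lit 76) (nat_lit 16088379573) (nat_lit 19) (nat_lit 4) (nat_lit 20) (nat_lit 5) (nat_lit 20) (nat_lit 4) (nat_lit 458) (nat_lit 392) (nat_lit 350))))))))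
noncomputable def xc74 : XT := (XT.nd (nat_lit 2184) (nat_lit 228) (nat_lit 0) (XT.nd (nat_lit 1092) (nat_lit 456) (nat_lit 0) (XT.nd (nat_lit 546) (nat_lit 304) (nat_lit 0) (XT.nd (nat_lit 234) (nat_lit 228) (nat_lit 0) (XT.nd (nat_lit 78) (nat_lit 152) (nat_lit 0) (XT.lf (nat_lit 0) (nat_lit 53082913915) (nat_lit 76) (nat_lit 5893206685) (nat_lit 76) (nat_lit 1409941244) (nat_lit 19) (nat_lit 4) (nat_lit 20) (nat_lit 5) (nat_lit 20) (nat_lit 4) (nat_lit 459) (nat_lit 392) (nat_lit 349)) (XT.nd (nat_lit 78) (nat_lit 0) (nat_lit 0) (XT.lf (nat_lit 0) (nat_lit 14505303197) (nat_lit 152) (nat_lit 39068320465) (nat_lit 0) (nat_lit 10342469249) (nat_lit 17) (nat_lit 5) (nat_lit 19) (nat_lit 4) (nat_lit 17) (nat_lit 4) (nat_lit 460) (nat_lit 392) (nat_lit 348)) (XT.lf (nat_lit 0) (nat_lit 31894420567) (nat_lit 152) (nat_lit 8088242047) (nat_lit 0) (nat_lit 27720788244) (nat_lit 17) (nat_lit 5)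 (nat_lit 19) (nat_lit 4) (nat_lit 17) (nat_lit 4) (nat_lit 461) (nat_lit 392) (nat_lit 347)))) (XT.nd (nat_lit 156) (nat_lit 152) (nat_lit 0) (XT.nd (nat_lit 78) (nat_lit 0) (nat_lit 0) (XT.lf (nat_lit 0) (nat_lit 26543506002) (nat_lit 76) (nat_lit 24694430494) (nat_lit 76) (nat_lit 20510799677) (nat_lit 16) (nat_lit 4) (nat_lit 17) (nat_lit 5) (nat_lit 17) (nat_lit 4) (nat_lit 462) (nat_lit 392) (nat_lit 346)) (XT.lf (nat_lit 0) (nat_lit 64255141740) (nat_lit 76) (nat_lit 8021776375) (nat_lit 76) (nat_lit 3828887692) (nat_lit 16) (nat_lit 4) (nat_lit 17) (nat_lit 5) (nat_lit 17) (nat_lit 4) (nat_lit 463) (nat_lit 392) (nat_lit 345))) (XT.nd (nat_lit 78) (nat_lit 0) (nat_lit 0) (XT.lf (nat_lit 0) (nat_lit 14270848651) (nat_lit 152) (nat_lit 56069249143) (nat_lit 0) (nat_lit 10380607187) (nat_lit 14) (nat_lit 5) (nat_lit 16) (nat_lit 4) (nat_lit 14) (nat_lit 4) (nat_lit 464) (nat_lit 392)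 (nat_lit 344)) (XT.lf (nat_lit 0) (nat_lit 34083059833) (nat_lit 152) (nat_lit 21390602718) (nat_lit 0) (nat_lit 30185469178) (nat_lit 14) (nat_lit 5) (nat_lit 16) (nat_lit 4) (nat_lit 14) (nat_lit 4) (nat_lit 465) (nat_lit 392) (nat_lit 343))))) (XT.nd (nat_lit 234) (nat_lit 76) (nat_lit 0) (XT.nd (nat_lit 78) (nat_lit 152) (nat_lit 0) (XT.lf (nat_lit 0) (nat_lit 16768569325) (nat_lit 76) (nat_lit 39050669819) (nat_lit 76) (nat_lit 35146274355) (nat_lit 13) (nat_lit 4) (nat_lit 14) (nat_lit 5) (nat_lit 14) (nat_lit 4) (nat_lit 466) (nat_lit 392) (nat_lit 342)) (XT.nd (nat_lit 78) (nat_lit 152) (nat_lit 0) (XT.lf (nat_lit 0) (nat_lit 59067736724) (nat_lit 76) (nat_lit 20748794016) (nat_lit 76) (nat_lit 16838097805) (nat_lit 13) (nat_lit 4) (nat_lit 14) (nat_lit 5) (nat_lit 14) (nat_lit 4) (nat_lit 467) (nat_lit 392) (nat_lit 341)) (XT.lf (nat_lit 0) (nat_lit 1851187050) (nat_lit 76) (nat_lit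 921753953) (nat_lit 152) (nat_lit 100021484276) (nat_lit 11) (nat_lit 5) (nat_lit 12) (nat_lit 5) (nat_lit 13) (nat_lit 4) (nat_lit 468) (nat_lit 392) (nat_lit 340)))) (XT.nd (nat_lit 156) (nat_lit 76) (nat_lit 0) (XT.nd (nat_lit 78) (nat_lit 0) (nat_lit 0) (XT.lf (nat_lit 0) (nat_lit 24530912898) (nat_lit 152) (nat_lit 63840990886) (nat_lit 0) (nat_lit 20899494275) (nat_lit 11) (nat_lit 5) (nat_lit 13) (nat_lit 4) (nat_lit 11) (nat_lit 4) (nat_lit 469) (nat_lit 392) (nat_lit 339)) (XT.lf (nat_lit 0) (nat_lit 47998407937) (nat_lit 152) (nat_lit 23908251940) (nat_lit 0) (nat_lit 44362358077) (nat_lit 11) (nat_lit 5) (nat_lit 13) (nat_lit 4) (nat_lit 11) (nat_lit 4) (nat_lit 470) (nat_lit 392) (nat_lit 338))) (XT.nd (nat_lit 78) (nat_lit 0) (nat_lit 0) (XT.lf (nat_lit 0) (nat_lit 20120283324) (nat_lit 76) (nat_lit 53655934527) (nat_lit 76) (nat_lit 50015596483) (nat_lit 10) (nat_lit 4) (nat_lit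 11) (nat_lit 5) (nat_lit 11) (nat_lit 4) (nat_lit 471) (nat_lit 392) (nat_lit 337)) (XT.lf (nat_lit 0) (nat_lit 68928130379) (nat_lit 76) (nat_lit 33292145437) (nat_lit 76) (nat_lit 29647836854) (nat_lit 10) (nat_lit 4) (nat_lit 11) (nat_lit 5) (nat_lit 11) (nat_lit 4) (nat_lit 472) (nat_lit 392) (nat_lit 336)))))) (XT.nd (nat_lit 546) (nat_lit 228) (nat_lit 0) (XT.nd (nat_lit 234) (nat_lit 76) (nat_lit 0) (XT.nd (nat_lit 78) (nat_lit 152) (nat_lit 0) (XT.lf (nat_lit 0) (nat_lit 121545554730) (nat_lit 76) (nat_lit 11348312281) (nat_lit 76) (nat_lit 7700327272) (nat_lit 10) (nat_lit 4) (nat_lit 11) (nat_lit 5) (nat_lit 11) (nat_lit 4) (nat_lit 473) (nat_lit 392) (nat_lit 335)) (XT.nd (nat_lit 78) (nat_lit 0) (nat_lit 0) (XT.lf (nat_lit 0) (nat_lit 16188801620) (nat_lit 152) (nat_lit 120911977132) (nat_lit 0) (nat_lit 12807885781) (nat_lit 8) (nat_lit 5) (nat_lit 10) (nat_lit 4) (nat_lit 8)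 (nat_lit 4) (nat_lit 474) (nat_lit 392) (nat_lit 334)) (XT.lf (nat_lit 0) (nat_lit 42358491369) (nat_lit 152) (nat_lit 78556307510) (nat_lit 0) (nat_lit 38974657065) (nat_lit 8) (nat_lit 5) (nat_lit 10) (nat_lit 4) (nat_lit 8) (nat_lit 4) (nat_lit 475) (nat_lit 392) (nat_lit 333)))) (XT.nd (nat_lit 156) (nat_lit 0) (nat_lit 0) (XT.nd (nat_lit 78) (nat_lit 76) (nat_lit 0) (XT.lf (nat_lit 0) (nat_lit 70581326132) (nat_lit 152) (nat_lit 32895829477) (nat_lit 0) (nat_lit 67194789544) (nat_lit 8) (nat_lit 5) (nat_lit 10) (nat_lit 4) (nat_lit 8) (nat_lit 4) (nat_lit 476) (nat_lit 392) (nat_lit 332)) (XT.lf (nat_lit 0) (nat_lit 17200474998) (nat_lit 76) (nat_lit 84237749174) (nat_lit 76) (nat_lit 80848710473) (nat_lit 7) (nat_lit 4) (nat_lit 8) (nat_lit 5) (nat_lit 8) (nat_lit 4) (nat_lit 477) (nat_lit 392) (nat_lit 331))) (XT.nd (nat_lit 78) (nat_lit 0) (nat_lit 0) (XT.lf (nat_lit 0) (nat_lit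 73099810321) (nat_lit 76) (nat_lit 62526816158) (nat_lit 76) (nat_lit 59135460686) (nat_lit 7) (nat_lit 4) (nat_lit 8) (nat_lit 5) (nat_lit 8) (nat_lit 4) (nat_lit 478) (nat_lit 392) (nat_lit 330)) (XT.lf (nat_lit 0) (nat_lit 133401195729) (nat_lit 76) (nat_lit 39115129455) (nat_lit 76) (nat_lit 35721628823) (nat_lit 7) (nat_lit 4) (nat_lit 8) (nat_lit 5) (nat_lit 8) (nat_lit 4) (nat_lit 479) (nat_lit 392) (nat_lit 329))))) (XT.nd (nat_lit 234) (nat_lit 76) (nat_lit 0) (XT.nd (nat_lit 78) (nat_lit 152) (nat_lit 0) (XT.lf (nat_lit 0) (nat_lit 198461972763) (nat_lit 76) (nat_lit 13863953144) (nat_lit 76) (nat_lit 10468466253) (nat_lit 7) (nat_lit 4) (nat_lit 8) (nat_lit 5) (nat_lit 8) (nat_lit 4) (nat_lit 480) (nat_lit 392) (nat_lit 328)) (XT.nd (nat_lit 78) (nat_lit 0) (nat_lit 0) (XT.lf (nat_lit 0) (nat_lit 17039407268) (nat_lit 152) (nat_lit 207463861593) (nat_lit 0) (nat_lit 13893735028)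 (nat_lit 5) (nat_lit 5) (nat_lit 7) (nat_lit 4) (nat_lit 5) (nat_lit 4) (nat_lit 481) (nat_lit 392) (nat_lit 327)) (XT.lf (nat_lit 0) (nat_lit 47195320726) (nat_lit 152) (nat_lit 163901641154) (nat_lit 0) (nat_lit 44048071731) (nat_lit 5) (nat_lit 5) (nat_lit 7) (nat_lit 4) (nat_lit 5) (nat_lit 4) (nat_lit 482) (nat_lit 392) (nat_lit 326)))) (XT.nd (nat_lit 156) (nat_lit 76) (nat_lit 0) (XT.nd (nat_lit 78) (nat_lit 0) (nat_lit 0) (XT.lf (nat_lit 0) (nat_lit 79736211610) (nat_lit 152) (nat_lit 116911391136) (nat_lit 0) (nat_lit 76587502656) (nat_lit 5) (nat_lit 5) (nat_lit 7) (nat_lit 4) (nat_lit 5) (nat_lit 4) (nat_lit 483) (nat_lit 392) (nat_lit 325)) (XT.lf (nat_lit 0) (nat_lit 114854914828) (nat_lit 152) (nat_lit 66214650799) (nat_lit 0) (nat_lit 111704854060) (nat_lit 5) (nat_lit 5) (nat_lit 7) (nat_lit 4) (nat_lit 5) (nat_lit 4) (nat_lit 484) (nat_lit 392) (nat_lit 324))) (XT.nd (nat_lit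 78) (nat_lit 76) (nat_lit 0) (XT.lf (nat_lit 0) (nat_lit 152759541214) (nat_lit 152) (nat_lit 11510995015) (nat_lit 0) (nat_lit 149608228766) (nat_lit 5) (nat_lit 5) (nat_lit 7) (nat_lit 4) (nat_lit 5) (nat_lit 4) (nat_lit 485) (nat_lit 392) (nat_lit 323)) (XT.lf (nat_lit 0) (nat_lit 50026262274) (nat_lit 76) (nat_lit 144851581313) (nat_lit 76) (nat_lit 141699109901) (nat_lit 4) (nat_lit 4) (nat_lit 5) (nat_lit 5) (nat_lit 5) (nat_lit 4) (nat_lit 486) (nat_lit 392) (nat_lit 322))))))) (XT.nd (nat_lit 1092) (nat_lit 76) (nat_lit 0) (XT.nd (nat_lit 546) (nat_lit 0) (nat_lit 0) (XT.nd (nat_lit 234) (nat_lit 152) (nat_lit 0) (XT.nd (nat_lit 78) (nat_lit 0) (nat_lit 0) (XT.lf (nat_lit 0) (nat_lit 117097077916) (nat_lit 76) (nat_lit 123561993403) (nat_lit 76) (nat_lit 120408448878) (nat_lit 4) (nat_lit 4) (nat_lit 5) (nat_lit 5) (nat_lit 5) (nat_lit 4) (nat_lit 487) (nat_lit 392) (nat_lit 321))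 (XT.nd (nat_lit 78) (nat_lit 0) (nat_lit 0) (XT.lf (nat_lit 0) (nat_lit 189492759997) (nat_lit 76) (nat_lit 100590342982) (nat_lit 76) (nat_lit 97435804833) (nat_lit 4) (nat_lit 4) (nat_lit 5) (nat_lit 5) (nat_lit 5) (nat_lit 4) (nat_lit 488) (nat_lit 392) (nat_lit 320)) (XT.lf (nat_lit 0) (nat_lit 267642319966) (nat_lit 76) (nat_lit 75800501750) (nat_lit 76) (nat_lit 72645043580) (nat_lit 4) (nat_lit 4) (nat_lit 5) (nat_lit 5) (nat_lit 5) (nat_lit 4) (nat_lit 489) (nat_lit 392) (nat_lit 319)))) (XT.nd (nat_lit 156) (nat_lit 152) (nat_lit 0) (XT.nd (nat_lit 78) (nat_lit 0) (nat_lit 0) (XT.lf (nat_lit 0) (nat_lit 352008866327) (nat_lit 76) (nat_lit 49045566947) (nat_lit 76) (nat_lit 45889256904) (nat_lit 4) (nat_lit 4) (nat_lit 5) (nat_lit 5) (nat_lit 5) (nat_lit 4) (nat_lit 490) (nat_lit 392) (nat_lit 318)) (XT.lf (nat_lit 0) (nat_lit 443092348984) (nat_lit 76) (nat_lit 20166990808) (nat_lit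 76) (nat_lit 17009891995) (nat_lit 4) (nat_lit 4) (nat_lit 5) (nat_lit 5) (nat_lit 5) (nat_lit 4) (nat_lit 491) (nat_lit 392) (nat_lit 317))) (XT.nd (nat_lit 78) (nat_lit 0) (nat_lit 0) (XT.lf (nat_lit 0) (nat_lit 14374121710) (nat_lit 152) (nat_lit 490336916664) (nat_lit 0) (nat_lit 11450205825) (nat_lit 2) (nat_lit 5) (nat_lit 4) (nat_lit 4) (nat_lit 2) (nat_lit 4) (nat_lit 492) (nat_lit 392) (nat_lit 316)) (XT.lf (nat_lit 0) (nat_lit 48901736179) (nat_lit 152) (nat_lit 459886193617) (nat_lit 0) (nat_lit 45977194142) (nat_lit 2) (nat_lit 5) (nat_lit 4) (nat_lit 4) (nat_lit 2) (nat_lit 4) (nat_lit 493) (nat_lit 392) (nat_lit 315))))) (XT.nd (nat_lit 234) (nat_lit 0) (nat_lit 0) (XT.nd (nat_lit 78) (nat_lit 0) (nat_lit 0) (XT.lf (nat_lit 0) (nat_lit 86177813252) (nat_lit 152) (nat_lit 427027909101) (nat_lit 0) (nat_lit 83252691445) (nat_lit 2) (nat_lit 5) (nat_lit 4) (nat_lit 4) (nat_lit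 2) (nat_lit 4) (nat_lit 494) (nat_lit 392) (nat_lit 314)) (XT.nd (nat_lit 78) (nat_lit 0) (nat_lit 0) (XT.lf (nat_lit 0) (nat_lit 126423248200) (nat_lit 152) (nat_lit 391567347355) (nat_lit 0) (nat_lit 123497589569) (nat_lit 2) (nat_lit 5) (nat_lit 4) (nat_lit 4) (nat_lit 2) (nat_lit 4) (nat_lit 495) (nat_lit 392) (nat_lit 313)) (XT.lf (nat_lit 0) (nat_lit 169876532489) (nat_lit 152) (nat_lit 353294371716) (nat_lit 0) (nat_lit 166950376799) (nat_lit 2) (nat_lit 5) (nat_lit 4) (nat_lit 4) (nat_lit 2) (nat_lit 4) (nat_lit 496) (nat_lit 392) (nat_lit 312)))) (XT.nd (nat_lit 156) (nat_lit 0) (nat_lit 0) (XT.nd (nat_lit 78) (nat_lit 0) (nat_lit 0) (XT.lf (nat_lit 0) (nat_lit 216795167064) (nat_lit 152) (nat_lit 311982179368) (nat_lit 0) (nat_lit 213868551133) (nat_lit 2) (nat_lit 5) (nat_lit 4) (nat_lit 4) (nat_lit 2) (nat_lit 4) (nat_lit 497) (nat_lit 392) (nat_lit 311)) (XT.lf (nat_lit 0) (nat_lit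 267457188276) (nat_lit 152) (nat_lit 267385957317) (nat_lit 0) (nat_lit 264530146198) (nat_lit 2) (nat_lit 5) (nat_lit 4) (nat_lit 4) (nat_lit 2) (nat_lit 4) (nat_lit 498) (nat_lit 392) (nat_lit 310))) (XT.nd (nat_lit 78) (nat_lit 0) (nat_lit 0) (XT.lf (nat_lit 0) (nat_lit 322162815513) (nat_lit 152) (nat_lit 219241431655) (nat_lit 0) (nat_lit 319235378853) (nat_lit 2) (nat_lit 5) (nat_lit 4) (nat_lit 4) (nat_lit 2) (nat_lit 4) (nat_lit 499) (nat_lit 392) (nat_lit 309)) (XT.lf (nat_lit 0) (nat_lit 381236230267) (nat_lit 152) (nat_lit 167263301490) (nat_lit 0) (nat_lit 378308428254) (nat_lit 2) (nat_lit 5) (nat_lit 4) (nat_lit 4) (nat_lit 2) (nat_lit 4) (nat_lit 500) (nat_lit 392) (nat_lit 308)))))) (XT.nd (nat_lit 546) (nat_lit 0) (nat_lit 0) (XT.nd (nat_lit 234) (nat_lit 0) (nat_lit 0) (XT.nd (nat_lit 78) (nat_lit 76) (nat_lit 0) (XT.lf (nat_lit 0) (nat_lit 445027497220) (nat_lit 152) (nat_lit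 111143548273) (nat_lit 0) (nat_lit 442099356916) (nat_lit 2) (nat_lit 5) (nat_lit 4) (nat_lit 4) (nat_lit 2) (nat_lit 4) (nat_lit 501) (nat_lit 392) (nat_lit 307)) (XT.nd (nat_lit 78) (nat_lit 76) (nat_lit 0) (XT.lf (nat_lit 0) (nat_lit 513914638693) (nat_lit 152) (nat_lit 50549610502) (nat_lit 0) (nat_lit 510986185158) (nat_lit 2) (nat_lit 5) (nat_lit 4) (nat_lit 4) (nat_lit 2) (nat_lit 4) (nat_lit 502) (nat_lit 392) (nat_lit 306)) (XT.lf (nat_lit 0) (nat_lit 15661014374) (nat_lit 76) (nat_lit 573021508182) (nat_lit 76) (nat_lit 570092764618) (nat_lit 1) (nat_lit 4) (nat_lit 2) (nat_lit 5) (nat_lit 2) (nat_lit 4) (nat_lit 503) (nat_lit 392) (nat_lit 305)))) (XT.nd (nat_lit 156) (nat_lit 0) (nat_lit 0) (XT.nd (nat_lit 78) (nat_lit 0) (nat_lit 0) (XT.lf (nat_lit 0) (nat_lit 90029395993) (nat_lit 76) (nat_lit 580777855594) (nat_lit 76) (nat_lit 577848843484) (nat_lit 1) (nat_lit 4) (nat_lit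 2) (nat_lit 5) (nat_lit 2) (nat_lit 4) (nat_lit 504) (nat_lit 392) (nat_lit 304)) (XT.lf (nat_lit 0) (nat_lit 170334382967) (nat_lit 76) (nat_lit 589161370905) (nat_lit 76) (nat_lit 586232110141) (nat_lit 1) (nat_lit 4) (nat_lit 2) (nat_lit 5) (nat_lit 2) (nat_lit 4) (nat_lit 505) (nat_lit 392) (nat_lit 303))) (XT.nd (nat_lit 78) (nat_lit 0) (nat_lit 0) (XT.lf (nat_lit 0) (nat_lit 257051856701) (nat_lit 76) (nat_lit 598221734205) (nat_lit 76) (nat_lit 595292243207) (nat_lit 1) (nat_lit 4) (nat_lit 2) (nat_lit 5) (nat_lit 2) (nat_lit 4) (nat_lit 506) (nat_lit 392) (nat_lit 302)) (XT.lf (nat_lit 0) (nat_lit 350695698519) (nat_lit 76) (nat_lit 608012636535) (nat_lit 76) (nat_lit 605082932357) (nat_lit 1) (nat_lit 4) (nat_lit 2) (nat_lit 5) (nat_lit 2) (nat_lit 4) (nat_lit 507) (nat_lit 392) (nat_lit 301))))) (XT.nd (nat_lit 312) (nat_lit 0) (nat_lit 0) (XT.nd (nat_lit 156) (nat_lit 0) (nat_lit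 0) (XT.nd (nat_lit 78) (nat_lit 0) (nat_lit 0) (XT.lf (nat_lit 0) (nat_lit 451820834892) (nat_lit 76) (nat_lit 618592098059) (nat_lit 76) (nat_lit 615662196491) (nat_lit 1) (nat_lit 4) (nat_lit 2) (nat_lit 5) (nat_lit 2) (nat_lit 4) (nat_lit 508) (nat_lit 392) (nat_lit 300)) (XT.lf (nat_lit 0) (nat_lit 561026525888) (nat_lit 76) (nat_lit 630022811880) (nat_lit 76) (nat_lit 627092727545) (nat_lit 1) (nat_lit 4) (nat_lit 2) (nat_lit 5) (nat_lit 2) (nat_lit 4) (nat_lit 509) (nat_lit 392) (nat_lit 299))) (XT.nd (nat_lit 78) (nat_lit 0) (nat_lit 0) (XT.lf (nat_lit 0) (nat_lit 678959916343) (nat_lit 76) (nat_lit 642372515564) (nat_lit 76) (nat_lit 639442261999) (nat_lit 1) (nat_lit 4) (nat_lit 2) (nat_lit 5) (nat_lit 2) (nat_lit 4) (nat_lit 510) (nat_lit 392) (nat_lit 298)) (XT.lf (nat_lit 0) (nat_lit 806319870791) (nat_lit 76) (nat_lit 655714392537) (nat_lit 76) (nat_lit 652783982279) (nat_lit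 1) (nat_lit 4) (nat_lit 2) (nat_lit 5) (nat_lit 2) (nat_lit 4) (nat_lit 511) (nat_lit 392) (nat_lit 297)))) (XT.nd (nat_lit 156) (nat_lit 0) (nat_lit 0) (XT.nd (nat_lit 78) (nat_lit 0) (nat_lit 0) (XT.lf (nat_lit 0) (nat_lit 943861114889) (nat_lit 76) (nat_lit 670127505777) (nat_lit 76) (nat_lit 667196950432) (nat_lit 1) (nat_lit 4) (nat_lit 2) (nat_lit 5) (nat_lit 2) (nat_lit 4) (nat_lit 512) (nat_lit 392) (nat_lit 296)) (XT.lf (nat_lit 0) (nat_lit 1092398707862) (nat_lit 76) (nat_lit 685697266323) (nat_lit 76) (nat_lit 682766576638) (nat_lit 1) (nat_lit 4) (nat_lit 2) (nat_lit 5) (nat_lit 2) (nat_lit 4) (nat_lit 513) (nat_lit 392) (nat_lit 295))) (XT.nd (nat_lit 78) (nat_lit 0) (nat_lit 0) (XT.lf (nat_lit 0) (nat_lit 1252812872482) (nat_lit 76) (nat_lit 702515939424) (nat_lit 76) (nat_lit 699585125351) (nat_lit 1) (nat_lit 4) (nat_lit 2) (nat_lit 5) (nat_lit 2) (nat_lit 4) (nat_lit 514)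 (nat_lit 392) (nat_lit 294)) (XT.lf (nat_lit 0) (nat_lit 1426054211206) (nat_lit 76) (nat_lit 720683191290) (nat_lit 76) (nat_lit 717752262042) (nat_lit 1) (nat_lit 4) (nat_lit 2) (nat_lit 5) (nat_lit 2) (nat_lit 4) (nat_lit 515) (nat_lit 392) (nat_lit 293))))))))
noncomputable def xc75 : XT := (XT.nd (nat_lit 2184) (nat_lit 0) (nat_lit 0) (XT.nd (nat_lit 1092) (nat_lit 0) (nat_lit 0) (XT.nd (nat_lit 546) (nat_lit 0) (nat_lit 0) (XT.nd (nat_lit 234) (nat_lit 0) (nat_lit 0) (XT.nd (nat_lit 78) (nat_lit 0) (nat_lit 0) (XT.lf (nat_lit 0) (nat_lit 1613149339376) (nat_lit 76) (nat_lit 740306679711) (nat_lit 76) (nat_lit 737375643820) (nat_lit 1) (nat_lit 4) (nat_lit 2) (nat_lit 5) (nat_lit 2) (nat_lit 4) (nat_lit 516) (nat_lit 392) (nat_lit 292)) (XT.nd (nat_lit 78) (nat_lit 0) (nat_lit 0) (XT.lf (nat_lit 0) (nat_lit 1815206968862) (nat_lit 76) (nat_lit 761502692025) (nat_lit 76) (nat_lit 758571557390)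 (nat_lit 1) (nat_lit 4) (nat_lit 2) (nat_lit 5) (nat_lit 2) (nat_lit 4) (nat_lit 517) (nat_lit 392) (nat_lit 291)) (XT.lf (nat_lit 0) (nat_lit 2033424478208) (nat_lit 76) (nat_lit 784396834230) (nat_lit 76) (nat_lit 781465608166) (nat_lit 1) (nat_lit 4) (nat_lit 2) (nat_lit 5) (nat_lit 2) (nat_lit 4) (nat_lit 518) (nat_lit 392) (nat_lit 290)))) (XT.nd (nat_lit 156) (nat_lit 0) (nat_lit 0) (XT.nd (nat_lit 78) (nat_lit 0) (nat_lit 0) (XT.lf (nat_lit 0) (nat_lit 2269095008212) (nat_lit 76) (nat_lit 809124775319) (nat_lit 76) (nat_lit 806193464598) (nat_lit 1) (nat_lit 4) (nat_lit 2) (nat_lit 5) (nat_lit 2) (nat_lit 4) (nat_lit 519) (nat_lit 392) (nat_lit 289)) (XT.lf (nat_lit 0) (nat_lit 2523615124976) (nat_lit 76) (nat_lit 835833051238) (nat_lit 76) (nat_lit 832901662131) (nat_lit 1) (nat_lit 4) (nat_lit 2) (nat_lit 5) (nat_lit 2) (nat_lit 4) (nat_lit 520) (nat_lit 392) (nat_lit 288))) (XT.nd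 (nat_lit 78) (nat_lit 0) (nat_lit 0) (XT.lf (nat_lit 0) (nat_lit 2798493095859) (nat_lit 76) (nat_lit 864679933252) (nat_lit 76) (nat_lit 861748471565) (nat_lit 1) (nat_lit 4) (nat_lit 2) (nat_lit 5) (nat_lit 2) (nat_lit 4) (nat_lit 521) (nat_lit 392) (nat_lit 287)) (XT.lf (nat_lit 0) (nat_lit 3095357827356) (nat_lit 76) (nat_lit 895836365846) (nat_lit 76) (nat_lit 892904836956) (nat_lit 1) (nat_lit 4) (nat_lit 2) (nat_lit 5) (nat_lit 2) (nat_lit 4) (nat_lit 522) (nat_lit 392) (nat_lit 286))))) (XT.nd (nat_lit 234) (nat_lit 0) (nat_lit 0) (XT.nd (nat_lit 78) (nat_lit 0) (nat_lit 0) (XT.lf (nat_lit 0) (nat_lit 3415968517876) (nat_lit 76) (nat_lit 929486979733) (nat_lit 76) (nat_lit 926555388618) (nat_lit 1) (nat_lit 4) (nat_lit 2) (nat_lit 5) (nat_lit 2) (nat_lit 4) (nat_lit 523) (nat_lit 392) (nat_lit 285)) (XT.nd (nat_lit 78) (nat_lit 0) (nat_lit 0) (XT.lf (nat_lit 0) (nat_lit 3762225082620)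 (nat_lit 76) (nat_lit 965831185957) (nat_lit 76) (nat_lit 962899537226) (nat_lit 1) (nat_lit 4) (nat_lit 2) (nat_lit 5) (nat_lit 2) (nat_lit 4) (nat_lit 524) (nat_lit 392) (nat_lit 284)) (XT.lf (nat_lit 0) (nat_lit 4136179412344) (nat_lit 76) (nat_lit 1005084357593) (nat_lit 76) (nat_lit 1002152655514) (nat_lit 1) (nat_lit 4) (nat_lit 2) (nat_lit 5) (nat_lit 2) (nat_lit 4) (nat_lit 525) (nat_lit 392) (nat_lit 283)))) (XT.nd (nat_lit 156) (nat_lit 0) (nat_lit 0) (XT.nd (nat_lit 78) (nat_lit 0) (nat_lit 0) (XT.lf (nat_lit 0) (nat_lit 4540047532705) (nat_lit 76) (nat_lit 1047479106029) (nat_lit 76) (nat_lit 1044547354553) (nat_lit 1) (nat_lit 4) (nat_lit 2) (nat_lit 5) (nat_lit 2) (nat_lit 4) (nat_lit 526) (nat_lit 392) (nat_lit 282)) (XT.lf (nat_lit 0) (nat_lit 4976222736269) (nat_lit 76) (nat_lit 1093266659402) (nat_lit 76) (nat_lit 1090334862189) (nat_lit 1) (nat_lit 4) (nat_lit 2) (nat_lit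 5) (nat_lit 2) (nat_lit 4) (nat_lit 527) (nat_lit 392) (nat_lit 281))) (XT.nd (nat_lit 78) (nat_lit 0) (nat_lit 0) (XT.lf (nat_lit 0) (nat_lit 5447289764981) (nat_lit 76) (nat_lit 1142718351363) (nat_lit 76) (nat_lit 1139786511800) (nat_lit 1) (nat_lit 4) (nat_lit 2) (nat_lit 5) (nat_lit 2) (nat_lit 4) (nat_lit 528) (nat_lit 392) (nat_lit 280)) (XT.lf (nat_lit 0) (nat_lit 5956040127161) (nat_lit 76) (nat_lit 1196127228975) (nat_lit 76) (nat_lit 1193195350200) (nat_lit 1) (nat_lit 4) (nat_lit 2) (nat_lit 5) (nat_lit 2) (nat_lit 4) (nat_lit 529) (nat_lit 392) (nat_lit 279)))))) (XT.nd (nat_lit 546) (nat_lit 0) (nat_lit 0) (XT.nd (nat_lit 234) (nat_lit 0) (nat_lit 0) (XT.nd (nat_lit 78) (nat_lit 0) (nat_lit 0) (XT.lf (nat_lit 0) (nat_lit 6505488639770) (nat_lit 76) (nat_lit 1253809789290) (nat_lit 76) (nat_lit 1250877874208) (nat_lit 1) (nat_lit 4) (nat_lit 2) (nat_lit 5) (nat_lit 2) (nat_lit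 4) (nat_lit 530) (nat_lit 392) (nat_lit 278)) (XT.nd (nat_lit 78) (nat_lit 0) (nat_lit 0) (XT.lf (nat_lit 0) (nat_lit 7098891293993) (nat_lit 76) (nat_lit 1316107854889) (nat_lit 76) (nat_lit 1313175906188) (nat_lit 1) (nat_lit 4) (nat_lit 2) (nat_lit 5) (nat_lit 2) (nat_lit 4) (nat_lit 531) (nat_lit 392) (nat_lit 277)) (XT.lf (nat_lit 0) (nat_lit 7739764550003) (nat_lit 76) (nat_lit 1383390599493) (nat_lit 76) (nat_lit 1380458619664) (nat_lit 1) (nat_lit 4) (nat_lit 2) (nat_lit 5) (nat_lit 2) (nat_lit 4) (nat_lit 532) (nat_lit 392) (nat_lit 276)))) (XT.nd (nat_lit 156) (nat_lit 0) (nat_lit 0) (XT.nd (nat_lit 78) (nat_lit 0) (nat_lit 0) (XT.lf (nat_lit 0) (nat_lit 8431906175244) (nat_lit 76) (nat_lit 1456056735663) (nat_lit 76) (nat_lit 1453124727012) (nat_lit 1) (nat_lit 4) (nat_lit 2) (nat_lit 5) (nat_lit 2) (nat_lit 4) (nat_lit 533) (nat_lit 392) (nat_lit 275)) (XT.lf (nat_lit 0) (nat_lit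 9179417749718) (nat_lit 76) (nat_lit 1534536877539) (nat_lit 76) (nat_lit 1531604842200) (nat_lit 1) (nat_lit 4) (nat_lit 2) (nat_lit 5) (nat_lit 2) (nat_lit 4) (nat_lit 534) (nat_lit 392) (nat_lit 274))) (XT.nd (nat_lit 78) (nat_lit 0) (nat_lit 0) (XT.lf (nat_lit 0) (nat_lit 9986728971642) (nat_lit 76) (nat_lit 1619296092629) (nat_lit 76) (nat_lit 1616364032580) (nat_lit 1) (nat_lit 4) (nat_lit 2) (nat_lit 5) (nat_lit 2) (nat_lit 4) (nat_lit 535) (nat_lit 392) (nat_lit 273)) (XT.lf (nat_lit 0) (nat_lit 10858623907518) (nat_lit 76) (nat_lit 1710836657763) (nat_lit 76) (nat_lit 1707904574833) (nat_lit 1) (nat_lit 4) (nat_lit 2) (nat_lit 5) (nat_lit 2) (nat_lit 4) (nat_lit 536) (nat_lit 392) (nat_lit 272))))) (XT.nd (nat_lit 234) (nat_lit 0) (nat_lit 0) (XT.nd (nat_lit 78) (nat_lit 0) (nat_lit 0) (XT.lf (nat_lit 0) (nat_lit 11800269342150) (nat_lit 76) (nat_lit 1809701035548) (nat_lit 76)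 (nat_lit 1806768931433) (nat_lit 1) (nat_lit 4) (nat_lit 2) (nat_lit 5) (nat_lit 2) (nat_lit 4) (nat_lit 537) (nat_lit 392) (nat_lit 271)) (XT.nd (nat_lit 78) (nat_lit 0) (nat_lit 0) (XT.lf (nat_lit 0) (nat_lit 12817245396633) (nat_lit 76) (nat_lit 1916475088965) (nat_lit 76) (nat_lit 1913542965234) (nat_lit 1) (nat_lit 4) (nat_lit 2) (nat_lit 5) (nat_lit 2) (nat_lit 4) (nat_lit 538) (nat_lit 392) (nat_lit 270)) (XT.lf (nat_lit 0) (nat_lit 13915578595734) (nat_lit 76) (nat_lit 2031791553145) (nat_lit 76) (nat_lit 2028859411251) (nat_lit 1) (nat_lit 4) (nat_lit 2) (nat_lit 5) (nat_lit 2) (nat_lit 4) (nat_lit 539) (nat_lit 392) (nat_lit 269)))) (XT.nd (nat_lit 156) (nat_lit 0) (nat_lit 0) (XT.nd (nat_lit 78) (nat_lit 0) (nat_lit 0) (XT.lf (nat_lit 0) (nat_lit 15101777580633) (nat_lit 76) (nat_lit 2156333784912) (nat_lit 76) (nat_lit 2153401626201) (nat_lit 1) (nat_lit 4) (nat_lit 2) (nat_lit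 5) (nat_lit 2) (nat_lit 4) (nat_lit 540) (nat_lit 392) (nat_lit 268)) (XT.lf (nat_lit 0) (nat_lit 16382871678648) (nat_lit 76) (nat_lit 2290839812307) (nat_lit 76) (nat_lit 2287907638024) (nat_lit 1) (nat_lit 4) (nat_lit 2) (nat_lit 5) (nat_lit 2) (nat_lit 4) (nat_lit 541) (nat_lit 392) (nat_lit 267))) (XT.nd (nat_lit 78) (nat_lit 0) (nat_lit 0) (XT.lf (nat_lit 0) (nat_lit 17766452558507) (nat_lit 76) (nat_lit 2436106708085) (nat_lit 76) (nat_lit 2433174519383) (nat_lit 1) (nat_lit 4) (nat_lit 2) (nat_lit 5) (nat_lit 2) (nat_lit 4) (nat_lit 542) (nat_lit 392) (nat_lit 266)) (XT.lf (nat_lit 0) (nat_lit 19260719218018) (nat_lit 76) (nat_lit 2592995313109) (nat_lit 76) (nat_lit 2590063111057) (nat_lit 1) (nat_lit 4) (nat_lit 2) (nat_lit 5) (nat_lit 2) (nat_lit 4) (nat_lit 543) (nat_lit 392) (nat_lit 265))))))) (XT.nd (nat_lit 53274) (nat_lit 0) (nat_lit 2660) (XT.nd (nat_lit 52728) (nat_lit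 0) (nat_lit 4104) (XT.nd (nat_lit 52416) (nat_lit 0) (nat_lit 5092) (XT.nd (nat_lit 78) (nat_lit 0) (nat_lit 0) (XT.lf (nat_lit 0) (nat_lit 20874526570718) (nat_lit 76) (nat_lit 2762435337631) (nat_lit 76) (nat_lit 2759503123218) (nat_lit 1) (nat_lit 4) (nat_lit 2) (nat_lit 5) (nat_lit 2) (nat_lit 4) (nat_lit 544) (nat_lit 392) (nat_lit 264)) (XT.nd (nat_lit 52260) (nat_lit 0) (nat_lit 5852) (XT.lf (nat_lit 0) (nat_lit 22617437919438) (nat_lit 76) (nat_lit 2945430870687) (nat_lit 76) (nat_lit 2942498644828) (nat_lit 1) (nat_lit 4) (nat_lit 2) (nat_lit 5) (nat_lit 2) (nat_lit 4) (nat_lit 545) (nat_lit 392) (nat_lit 263)) (XT.lf (nat_lit 0) (nat_lit 2066701879) (nat_lit 228) (nat_lit 929390304) (nat_lit 228) (nat_lit 929390304) (nat_lit 78) (nat_lit 4) (nat_lit 81) (nat_lit 5) (nat_lit 81) (nat_lit 4) (nat_lit 414) (nat_lit 393) (nat_lit 393)))) (XT.nd (nat_lit 156) (nat_lit 228) (nat_lit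 0) (XT.nd (nat_lit 78) (nat_lit 228) (nat_lit 0) (XT.lf (nat_lit 0) (nat_lit 2033002241) (nat_lit 304) (nat_lit 5179952392) (nat_lit 0) (nat_lit 852117633) (nat_lit 74) (nat_lit 5) (nat_lit 78) (nat_lit 4) (nat_lit 74) (nat_lit 4) (nat_lit 415) (nat_lit 393) (nat_lit 392)) (XT.lf (nat_lit 0) (nat_lit 1555382216) (nat_lit 228) (nat_lit 4508564829) (nat_lit 228) (nat_lit 2234268549) (nat_lit 71) (nat_lit 4) (nat_lit 74) (nat_lit 5) (nat_lit 74) (nat_lit 4) (nat_lit 416) (nat_lit 393) (nat_lit 391))) (XT.nd (nat_lit 78) (nat_lit 0) (nat_lit 0) (XT.lf (nat_lit 0) (nat_lit 178928609) (nat_lit 152) (nat_lit 1487245960) (nat_lit 228) (nat_lit 6888889631) (nat_lit 68) (nat_lit 5) (nat_lit 70) (nat_lit 5) (nat_lit 71) (nat_lit 4) (nat_lit 417) (nat_lit 393) (nat_lit 390)) (XT.lf (nat_lit 0) (nat_lit 5740224144) (nat_lit 228) (nat_lit 1260050187) (nat_lit 0) (nat_lit 1828984542) (nat_lit 68) (nat_lit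 5) (nat_lit 71) (nat_lit 4) (nat_lit 68) (nat_lit 4) (nat_lit 418) (nat_lit 393) (nat_lit 389))))) (XT.nd (nat_lit 234) (nat_lit 456) (nat_lit 0) (XT.nd (nat_lit 78) (nat_lit 304) (nat_lit 0) (XT.lf (nat_lit 0) (nat_lit 923440056) (nat_lit 228) (nat_lit 2794174505) (nat_lit 76) (nat_lit 5409090232) (nat_lit 65) (nat_lit 5) (nat_lit 68) (nat_lit 5) (nat_lit 66) (nat_lit 4) (nat_lit 419) (nat_lit 393) (nat_lit 388)) (XT.nd (nat_lit 78) (nat_lit 152) (nat_lit 0) (XT.lf (nat_lit 0) (nat_lit 4976617657) (nat_lit 152) (nat_lit 40548253) (nat_lit 228) (nat_lit 4430208809) (nat_lit 63) (nat_lit 5) (nat_lit 65) (nat_lit 5) (nat_lit 66) (nat_lit 4) (nat_lit 420) (nat_lit 393) (nat_lit 387)) (XT.lf (nat_lit 0) (nat_lit 3461070214) (nat_lit 152) (nat_lit 6011315591) (nat_lit 152) (nat_lit 318609792) (nat_lit 61) (nat_lit 4) (nat_lit 63) (nat_lit 5) (nat_lit 63) (nat_lit 4) (nat_lit 421) (nat_lit 393)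 (nat_lit 386)))) (XT.nd (nat_lit 156) (nat_lit 304) (nat_lit 0) (XT.nd (nat_lit 78) (nat_lit 0) (nat_lit 0) (XT.lf (nat_lit 0) (nat_lit 1755308427) (nat_lit 76) (nat_lit 2109475481) (nat_lit 152) (nat_lit 6293481327) (nat_lit 59) (nat_lit 5) (nat_lit 60) (nat_lit 5) (nat_lit 61) (nat_lit 4) (nat_lit 422) (nat_lit 393) (nat_lit 385)) (XT.lf (nat_lit 0) (nat_lit 8378749143) (nat_lit 152) (nat_lit 120183690) (nat_lit 0) (nat_lit 2054286029) (nat_lit 59) (nat_lit 5) (nat_lit 61) (nat_lit 4) (nat_lit 59) (nat_lit 4) (nat_lit 423) (nat_lit 393) (nat_lit 384))) (XT.nd (nat_lit 78) (nat_lit 76) (nat_lit 0) (XT.lf (nat_lit 0) (nat_lit 2231270361) (nat_lit 228) (nat_lit 2152366286) (nat_lit 76) (nat_lit 6586091197) (nat_lit 56) (nat_lit 5) (nat_lit 59) (nat_lit 5) (nat_lit 57) (nat_lit 4) (nat_lit 424) (nat_lit 393) (nat_lit 383)) (XT.lf (nat_lit 0) (nat_lit 6850785090) (nat_lit 152) (nat_lit 4407414647)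 (nat_lit 0) (nat_lit 158546703) (nat_lit 55) (nat_lit 5) (nat_lit 57) (nat_lit 4) (nat_lit 55) (nat_lit 4) (nat_lit 425) (nat_lit 393) (nat_lit 382)))))) (XT.nd (nat_lit 546) (nat_lit 608) (nat_lit 0) (XT.nd (nat_lit 234) (nat_lit 532) (nat_lit 0) (XT.nd (nat_lit 78) (nat_lit 76) (nat_lit 0) (XT.lf (nat_lit 0) (nat_lit 44534772) (nat_lit 228) (nat_lit 6971870138) (nat_lit 76) (nat_lit 4875148367) (nat_lit 52) (nat_lit 5) (nat_lit 55) (nat_lit 5) (nat_lit 53) (nat_lit 4) (nat_lit 426) (nat_lit 393) (nat_lit 381)) (XT.nd (nat_lit 78) (nat_lit 0) (nat_lit 0) (XT.lf (nat_lit 0) (nat_lit 2509795913) (nat_lit 76) (nat_lit 2258947999) (nat_lit 152) (nat_lit 7626797253) (nat_lit 51) (nat_lit 5) (nat_lit 52) (nat_lit 5) (nat_lit 53) (nat_lit 4) (nat_lit 427) (nat_lit 393) (nat_lit 380)) (XT.lf (nat_lit 0) (nat_lit 9945920156) (nat_lit 152) (nat_lit 197890891) (nat_lit 0) (nat_lit 2790042499) (nat_lit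 51) (nat_lit 5) (nat_lit 53) (nat_lit 4) (nat_lit 51) (nat_lit 4) (nat_lit 428) (nat_lit 393) (nat_lit 379)))) (XT.nd (nat_lit 156) (nat_lit 228) (nat_lit 0) (XT.nd (nat_lit 78) (nat_lit 76) (nat_lit 0) (XT.lf (nat_lit 0) (nat_lit 2057574885) (nat_lit 228) (nat_lit 3149747104) (nat_lit 76) (nat_lit 8293090412) (nat_lit 48) (nat_lit 5) (nat_lit 51) (nat_lit 5) (nat_lit 49) (nat_lit 4) (nat_lit 429) (nat_lit 393) (nat_lit 378)) (XT.lf (nat_lit 0) (nat_lit 7365977986) (nat_lit 152) (nat_lit 6486241987) (nat_lit 0) (nat_lit 252219150) (nat_lit 47) (nat_lit 5) (nat_lit 49) (nat_lit 4) (nat_lit 47) (nat_lit 4) (nat_lit 430) (nat_lit 393) (nat_lit 377))) (XT.nd (nat_lit 78) (nat_lit 152) (nat_lit 0) (XT.lf (nat_lit 0) (nat_lit 4438285205) (nat_lit 76) (nat_lit 8818433355) (nat_lit 76) (nat_lit 1487462006) (nat_lit 46) (nat_lit 4) (nat_lit 47) (nat_lit 5) (nat_lit 47) (nat_lit 4) (nat_lit 431) (nat_lit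 393) (nat_lit 376)) (XT.lf (nat_lit 0) (nat_lit 795379244) (nat_lit 76) (nat_lit 3208213683) (nat_lit 152) (nat_lit 11421123495) (nat_lit 44) (nat_lit 5) (nat_lit 45) (nat_lit 5) (nat_lit 46) (nat_lit 4) (nat_lit 432) (nat_lit 393) (nat_lit 375))))) (XT.nd (nat_lit 312) (nat_lit 380) (nat_lit 0) (XT.nd (nat_lit 156) (nat_lit 152) (nat_lit 0) (XT.nd (nat_lit 78) (nat_lit 76) (nat_lit 0) (XT.lf (nat_lit 0) (nat_lit 10040960352) (nat_lit 152) (nat_lit 3206288492) (nat_lit 0) (nat_lit 2894368902) (nat_lit 44) (nat_lit 5) (nat_lit 46) (nat_lit 4) (nat_lit 44) (nat_lit 4) (nat_lit 433) (nat_lit 393) (nat_lit 374)) (XT.lf (nat_lit 0) (nat_lit 9206446950) (nat_lit 76) (nat_lit 7501955404) (nat_lit 76) (nat_lit 195706272) (nat_lit 43) (nat_lit 4) (nat_lit 44) (nat_lit 5) (nat_lit 44) (nat_lit 4) (nat_lit 434) (nat_lit 393) (nat_lit 373))) (XT.nd (nat_lit 78) (nat_lit 0) (nat_lit 0) (XT.lf (nat_lit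 0) (nat_lit 4864334894) (nat_lit 76) (nat_lit 1057980112) (nat_lit 152) (nat_lit 11789401555) (nat_lit 41) (nat_lit 5) (nat_lit 42) (nat_lit 5) (nat_lit 43) (nat_lit 4) (nat_lit 435) (nat_lit 393) (nat_lit 372)) (XT.lf (nat_lit 0) (nat_lit 12721184873) (nat_lit 152) (nat_lit 153669332) (nat_lit 0) (nat_lit 5692517236) (nat_lit 41) (nat_lit 5) (nat_lit 43) (nat_lit 4) (nat_lit 41) (nat_lit 4) (nat_lit 436) (nat_lit 393) (nat_lit 371)))) (XT.nd (nat_lit 156) (nat_lit 152) (nat_lit 0) (XT.nd (nat_lit 78) (nat_lit 76) (nat_lit 0) (XT.lf (nat_lit 0) (nat_lit 768037835) (nat_lit 152) (nat_lit 5548502101) (nat_lit 76) (nat_lit 13155904995) (nat_lit 39) (nat_lit 5) (nat_lit 41) (nat_lit 5) (nat_lit 40) (nat_lit 4) (nat_lit 437) (nat_lit 393) (nat_lit 370)) (XT.lf (nat_lit 0) (nat_lit 7689563979) (nat_lit 152) (nat_lit 11768427676) (nat_lit 0) (nat_lit 972266633) (nat_lit 38) (nat_lit 5) (nat_lit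 40) (nat_lit 4) (nat_lit 38) (nat_lit 4) (nat_lit 438) (nat_lit 393) (nat_lit 369))) (XT.nd (nat_lit 78) (nat_lit 76) (nat_lit 0) (XT.lf (nat_lit 0) (nat_lit 2549495109) (nat_lit 76) (nat_lit 12853310352) (nat_lit 76) (nat_lit 6042854282) (nat_lit 37) (nat_lit 4) (nat_lit 38) (nat_lit 5) (nat_lit 38) (nat_lit 4) (nat_lit 439) (nat_lit 393) (nat_lit 368)) (XT.lf (nat_lit 0) (nat_lit 1318707112) (nat_lit 152) (nat_lit 4153803353) (nat_lit 76) (nat_lit 17052496778) (nat_lit 36) (nat_lit 5) (nat_lit 38) (nat_lit 5) (nat_lit 37) (nat_lit 4) (nat_lit 440) (nat_lit 393) (nat_lit 367))))))))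
noncomputable def xc76 : XT := (XT.nd (nat_lit 2184) (nat_lit 836) (nat_lit 0) (XT.nd (nat_lit 1092) (nat_lit 760) (nat_lit 0) (XT.nd (nat_lit 546) (nat_lit 456) (nat_lit 0) (XT.nd (nat_lit 234) (nat_lit 304) (nat_lit 0) (XT.nd (nat_lit 78) (nat_lit 152) (nat_lit 0) (XT.lf (nat_lit 0) (nat_lit 9166479321) (nat_lit 152) (nat_lit 11787087569) (nat_lit 0) (nat_lit 2706680489) (nat_lit 35) (nat_lit 5) (nat_lit 37) (nat_lit 4) (nat_lit 35) (nat_lit 4) (nat_lit 441) (nat_lit 393) (nat_lit 366)) (XT.nd (nat_lit 78) (nat_lit 76) (nat_lit 0) (XT.lf (nat_lit 0) (nat_lit 4351804046) (nat_lit 76) (nat_lit 13522115060) (nat_lit 76) (nat_lit 6993841785) (nat_lit 34) (nat_lit 4) (nat_lit 35) (nat_lit 5) (nat_lit 35) (nat_lit 4) (nat_lit 442) (nat_lit 393) (nat_lit 365)) (XT.lf (nat_lit 0) (nat_lit 1250190607) (nat_lit 152) (nat_lit 3991279072) (nat_lit 76) (nat_lit 20912323871) (nat_lit 33) (nat_lit 5)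 (nat_lit 35) (nat_lit 5) (nat_lit 34) (nat_lit 4) (nat_lit 443) (nat_lit 393) (nat_lit 364)))) (XT.nd (nat_lit 156) (nat_lit 152) (nat_lit 0) (XT.nd (nat_lit 78) (nat_lit 76) (nat_lit 0) (XT.lf (nat_lit 0) (nat_lit 10094080967) (nat_lit 152) (nat_lit 13472321418) (nat_lit 0) (nat_lit 3936320472) (nat_lit 32) (nat_lit 5) (nat_lit 34) (nat_lit 4) (nat_lit 32) (nat_lit 4) (nat_lit 444) (nat_lit 393) (nat_lit 363)) (XT.lf (nat_lit 0) (nat_lit 4618652391) (nat_lit 76) (nat_lit 15264977466) (nat_lit 76) (nat_lit 9056886211) (nat_lit 31) (nat_lit 4) (nat_lit 32) (nat_lit 5) (nat_lit 32) (nat_lit 4) (nat_lit 445) (nat_lit 393) (nat_lit 362))) (XT.nd (nat_lit 78) (nat_lit 76) (nat_lit 0) (XT.lf (nat_lit 0) (nat_lit 221948758) (nat_lit 152) (nat_lit 5793040392) (nat_lit 76) (nat_lit 24457848831) (nat_lit 30) (nat_lit 5) (nat_lit 32) (nat_lit 5) (nat_lit 31) (nat_lit 4) (nat_lit 446) (nat_lit 393)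 (nat_lit 361)) (XT.lf (nat_lit 0) (nat_lit 10098206004) (nat_lit 152) (nat_lit 17716298734) (nat_lit 0) (nat_lit 4266868666) (nat_lit 29) (nat_lit 5) (nat_lit 31) (nat_lit 4) (nat_lit 29) (nat_lit 4) (nat_lit 447) (nat_lit 393) (nat_lit 360))))) (XT.nd (nat_lit 234) (nat_lit 228) (nat_lit 0) (XT.nd (nat_lit 78) (nat_lit 152) (nat_lit 0) (XT.lf (nat_lit 0) (nat_lit 2392851213) (nat_lit 76) (nat_lit 18636447305) (nat_lit 76) (nat_lit 12768115356) (nat_lit 28) (nat_lit 4) (nat_lit 29) (nat_lit 5) (nat_lit 29) (nat_lit 4) (nat_lit 448) (nat_lit 393) (nat_lit 359)) (XT.nd (nat_lit 78) (nat_lit 152) (nat_lit 0) (XT.lf (nat_lit 0) (nat_lit 24898117815) (nat_lit 76) (nat_lit 8312571033) (nat_lit 76) (nat_lit 2409984815) (nat_lit 28) (nat_lit 4) (nat_lit 29) (nat_lit 5) (nat_lit 29) (nat_lit 4) (nat_lit 449) (nat_lit 393) (nat_lit 358)) (XT.lf (nat_lit 0) (nat_lit 8596501187) (nat_lit 152) (nat_lit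 25853930724) (nat_lit 0) (nat_lit 3101776063) (nat_lit 26) (nat_lit 5) (nat_lit 28) (nat_lit 4) (nat_lit 26) (nat_lit 4) (nat_lit 450) (nat_lit 393) (nat_lit 357)))) (XT.nd (nat_lit 156) (nat_lit 152) (nat_lit 0) (XT.nd (nat_lit 78) (nat_lit 76) (nat_lit 0) (XT.lf (nat_lit 0) (nat_lit 20767094713) (nat_lit 152) (nat_lit 3587882604) (nat_lit 0) (nat_lit 15245177445) (nat_lit 26) (nat_lit 5) (nat_lit 28) (nat_lit 4) (nat_lit 26) (nat_lit 4) (nat_lit 451) (nat_lit 393) (nat_lit 356)) (XT.lf (nat_lit 0) (nat_lit 21332585313) (nat_lit 76) (nat_lit 12996513396) (nat_lit 76) (nat_lit 7449418217) (nat_lit 25) (nat_lit 4) (nat_lit 26) (nat_lit 5) (nat_lit 26) (nat_lit 4) (nat_lit 452) (nat_lit 393) (nat_lit 355))) (XT.nd (nat_lit 78) (nat_lit 0) (nat_lit 0) (XT.lf (nat_lit 0) (nat_lit 4225644367) (nat_lit 76) (nat_lit 483996222) (nat_lit 152) (nat_lit 39403619394) (nat_lit 23) (nat_lit 5) (nat_lit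 24) (nat_lit 5) (nat_lit 25) (nat_lit 4) (nat_lit 453) (nat_lit 393) (nat_lit 354)) (XT.lf (nat_lit 0) (nat_lit 18230864196) (nat_lit 152) (nat_lit 15271995416) (nat_lit 0) (nat_lit 13053091920) (nat_lit 23) (nat_lit 5) (nat_lit 25) (nat_lit 4) (nat_lit 23) (nat_lit 4) (nat_lit 454) (nat_lit 393) (nat_lit 353)))))) (XT.nd (nat_lit 546) (nat_lit 304) (nat_lit 0) (XT.nd (nat_lit 234) (nat_lit 228) (nat_lit 0) (XT.nd (nat_lit 78) (nat_lit 152) (nat_lit 0) (XT.lf (nat_lit 0) (nat_lit 11705987750) (nat_lit 76) (nat_lit 21333929701) (nat_lit 76) (nat_lit 16137650908) (nat_lit 22) (nat_lit 4) (nat_lit 23) (nat_lit 5) (nat_lit 23) (nat_lit 4) (nat_lit 455) (nat_lit 393) (nat_lit 352)) (XT.nd (nat_lit 78) (nat_lit 152) (nat_lit 0) (XT.lf (nat_lit 0) (nat_lit 41535399584) (nat_lit 76) (nat_lit 7830189180) (nat_lit 76) (nat_lit 2616774724) (nat_lit 22) (nat_lit 4) (nat_lit 23) (nat_lit 5) (nat_lit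 23) (nat_lit 4) (nat_lit 456) (nat_lit 393) (nat_lit 351)) (XT.lf (nat_lit 0) (nat_lit 11947605248) (nat_lit 152) (nat_lit 35890285307) (nat_lit 0) (nat_lit 7105678572) (nat_lit 20) (nat_lit 5) (nat_lit 22) (nat_lit 4) (nat_lit 20) (nat_lit 4) (nat_lit 457) (nat_lit 393) (nat_lit 350)))) (XT.nd (nat_lit 156) (nat_lit 152) (nat_lit 0) (XT.nd (nat_lit 78) (nat_lit 76) (nat_lit 0) (XT.lf (nat_lit 0) (nat_lit 27950938847) (nat_lit 152) (nat_lit 7056671791) (nat_lit 0) (nat_lit 23095409329) (nat_lit 20) (nat_lit 5) (nat_lit 22) (nat_lit 4) (nat_lit 20) (nat_lit 4) (nat_lit 458) (nat_lit 393) (nat_lit 349)) (XT.lf (nat_lit 0) (nat_lit 25189291736) (nat_lit 76) (nat_lit 20575807695) (nat_lit 76) (nat_lit 15707682953) (nat_lit 19) (nat_lit 4) (nat_lit 20) (nat_lit 5) (nat_lit 20) (nat_lit 4) (nat_lit 459) (nat_lit 393) (nat_lit 348))) (XT.nd (nat_lit 78) (nat_lit 76) (nat_lit 0) (XT.lf (nat_lit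 0) (nat_lit 20417022) (nat_lit 152) (nat_lit 4837319579) (nat_lit 76) (nat_lit 60244775904) (nat_lit 18) (nat_lit 5) (nat_lit 20) (nat_lit 5) (nat_lit 19) (nat_lit 4) (nat_lit 460) (nat_lit 393) (nat_lit 347)) (XT.lf (nat_lit 0) (nat_lit 17130953935) (nat_lit 152) (nat_lit 39178568923) (nat_lit 0) (nat_lit 12602634158) (nat_lit 17) (nat_lit 5) (nat_lit 19) (nat_lit 4) (nat_lit 17) (nat_lit 4) (nat_lit 461) (nat_lit 393) (nat_lit 346))))) (XT.nd (nat_lit 234) (nat_lit 228) (nat_lit 0) (XT.nd (nat_lit 78) (nat_lit 76) (nat_lit 0) (XT.lf (nat_lit 0) (nat_lit 35802665399) (nat_lit 152) (nat_lit 5943433652) (nat_lit 0) (nat_lit 31265087756) (nat_lit 17) (nat_lit 5) (nat_lit 19) (nat_lit 4) (nat_lit 17) (nat_lit 4) (nat_lit 462) (nat_lit 393) (nat_lit 345)) (XT.nd (nat_lit 78) (nat_lit 0) (nat_lit 0) (XT.lf (nat_lit 0) (nat_lit 31388174044) (nat_lit 76) (nat_lit 25270437542) (nat_lit 76) (nat_lit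 20724287801) (nat_lit 16) (nat_lit 4) (nat_lit 17) (nat_lit 5) (nat_lit 17) (nat_lit 4) (nat_lit 463) (nat_lit 393) (nat_lit 344)) (XT.lf (nat_lit 0) (nat_lit 71915171192) (nat_lit 76) (nat_lit 7367641271) (nat_lit 76) (nat_lit 2813554402) (nat_lit 16) (nat_lit 4) (nat_lit 17) (nat_lit 5) (nat_lit 17) (nat_lit 4) (nat_lit 464) (nat_lit 393) (nat_lit 343)))) (XT.nd (nat_lit 156) (nat_lit 76) (nat_lit 0) (XT.nd (nat_lit 78) (nat_lit 0) (nat_lit 0) (XT.lf (nat_lit 0) (nat_lit 16666853353) (nat_lit 152) (nat_lit 57967856092) (nat_lit 0) (nat_lit 12443301445) (nat_lit 14) (nat_lit 5) (nat_lit 16) (nat_lit 4) (nat_lit 14) (nat_lit 4) (nat_lit 465) (nat_lit 393) (nat_lit 342)) (XT.lf (nat_lit 0) (nat_lit 37971127592) (nat_lit 152) (nat_lit 20706542618) (nat_lit 0) (nat_lit 33741274937) (nat_lit 14) (nat_lit 5) (nat_lit 16) (nat_lit 4) (nat_lit 14) (nat_lit 4) (nat_lit 466) (nat_lit 393) (nat_lit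 341))) (XT.nd (nat_lit 78) (nat_lit 0) (nat_lit 0) (XT.lf (nat_lit 0) (nat_lit 20444722471) (nat_lit 76) (nat_lit 40971596257) (nat_lit 76) (nat_lit 36735909576) (nat_lit 13) (nat_lit 4) (nat_lit 14) (nat_lit 5) (nat_lit 14) (nat_lit 4) (nat_lit 467) (nat_lit 393) (nat_lit 340)) (XT.lf (nat_lit 0) (nat_lit 65954884921) (nat_lit 76) (nat_lit 21294690919) (nat_lit 76) (nat_lit 17053602363) (nat_lit 13) (nat_lit 4) (nat_lit 14) (nat_lit 5) (nat_lit 14) (nat_lit 4) (nat_lit 468) (nat_lit 393) (nat_lit 339))))))) (XT.nd (nat_lit 1092) (nat_lit 228) (nat_lit 0) (XT.nd (nat_lit 546) (nat_lit 228) (nat_lit 0) (XT.nd (nat_lit 234) (nat_lit 228) (nat_lit 0) (XT.nd (nat_lit 78) (nat_lit 0) (nat_lit 0) (XT.lf (nat_lit 0) (nat_lit 4044961239) (nat_lit 152) (nat_lit 106775604698) (nat_lit 0) (nat_lit 113396153) (nat_lit 11) (nat_lit 5) (nat_lit 13) (nat_lit 4) (nat_lit 11) (nat_lit 4) (nat_lit 469) (nat_lit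 393) (nat_lit 338)) (XT.nd (nat_lit 78) (nat_lit 0) (nat_lit 0) (XT.lf (nat_lit 0) (nat_lit 27487947612) (nat_lit 152) (nat_lit 66893500780) (nat_lit 0) (nat_lit 23552094343) (nat_lit 11) (nat_lit 5) (nat_lit 13) (nat_lit 4) (nat_lit 11) (nat_lit 4) (nat_lit 470) (nat_lit 393) (nat_lit 337)) (XT.lf (nat_lit 0) (nat_lit 52759171019) (nat_lit 152) (nat_lit 23918347858) (nat_lit 0) (nat_lit 48819347210) (nat_lit 11) (nat_lit 5) (nat_lit 13) (nat_lit 4) (nat_lit 11) (nat_lit 4) (nat_lit 471) (nat_lit 393) (nat_lit 336)))) (XT.nd (nat_lit 156) (nat_lit 152) (nat_lit 0) (XT.nd (nat_lit 78) (nat_lit 0) (nat_lit 0) (XT.lf (nat_lit 0) (nat_lit 23584304045) (nat_lit 76) (nat_lit 56991285892) (nat_lit 76) (nat_lit 53047785656) (nat_lit 10) (nat_lit 4) (nat_lit 11) (nat_lit 5) (nat_lit 11) (nat_lit 4) (nat_lit 472) (nat_lit 393) (nat_lit 335)) (XT.lf (nat_lit 0) (nat_lit 76159416045) (nat_lit 76) (nat_lit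 35069291704) (nat_lit 76) (nat_lit 31122387371) (nat_lit 10) (nat_lit 4) (nat_lit 11) (nat_lit 5) (nat_lit 11) (nat_lit 4) (nat_lit 473) (nat_lit 393) (nat_lit 334))) (XT.nd (nat_lit 78) (nat_lit 152) (nat_lit 0) (XT.lf (nat_lit 0) (nat_lit 132859046550) (nat_lit 76) (nat_lit 11435598219) (nat_lit 76) (nat_lit 7485541943) (nat_lit 10) (nat_lit 4) (nat_lit 11) (nat_lit 5) (nat_lit 11) (nat_lit 4) (nat_lit 474) (nat_lit 393) (nat_lit 333)) (XT.lf (nat_lit 0) (nat_lit 18272682751) (nat_lit 152) (nat_lit 128953050424) (nat_lit 0) (nat_lit 14612520954) (nat_lit 8) (nat_lit 5) (nat_lit 10) (nat_lit 4) (nat_lit 8) (nat_lit 4) (nat_lit 475) (nat_lit 393) (nat_lit 332))))) (XT.nd (nat_lit 234) (nat_lit 152) (nat_lit 0) (XT.nd (nat_lit 78) (nat_lit 76) (nat_lit 0) (XT.lf (nat_lit 0) (nat_lit 46477519754) (nat_lit 152) (nat_lit 83329807593) (nat_lit 0) (nat_lit 42814855843) (nat_lit 8) (nat_lit 5)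 (nat_lit 10) (nat_lit 4) (nat_lit 8) (nat_lit 4) (nat_lit 476) (nat_lit 393) (nat_lit 331)) (XT.nd (nat_lit 78) (nat_lit 76) (nat_lit 0) (XT.lf (nat_lit 0) (nat_lit 76904081365) (nat_lit 152) (nat_lit 34128417578) (nat_lit 0) (nat_lit 73239100683) (nat_lit 8) (nat_lit 5) (nat_lit 10) (nat_lit 4) (nat_lit 8) (nat_lit 4) (nat_lit 477) (nat_lit 393) (nat_lit 330)) (XT.lf (nat_lit 0) (nat_lit 19940171552) (nat_lit 76) (nat_lit 90272063189) (nat_lit 76) (nat_lit 86604937348) (nat_lit 7) (nat_lit 4) (nat_lit 8) (nat_lit 5) (nat_lit 8) (nat_lit 4) (nat_lit 478) (nat_lit 393) (nat_lit 329)))) (XT.nd (nat_lit 156) (nat_lit 152) (nat_lit 0) (XT.nd (nat_lit 78) (nat_lit 0) (nat_lit 0) (XT.lf (nat_lit 0) (nat_lit 80210441957) (nat_lit 76) (nat_lit 66876455971) (nat_lit 76) (nat_lit 63207343871) (nat_lit 7) (nat_lit 4) (nat_lit 8) (nat_lit 5) (nat_lit 8) (nat_lit 4) (nat_lit 479) (nat_lit 393) (nat_lit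 328)) (XT.lf (nat_lit 0) (nat_lit 145242408803) (nat_lit 76) (nat_lit 41640168071) (nat_lit 76) (nat_lit 37969216842) (nat_lit 7) (nat_lit 4) (nat_lit 8) (nat_lit 5) (nat_lit 8) (nat_lit 4) (nat_lit 480) (nat_lit 393) (nat_lit 327))) (XT.nd (nat_lit 78) (nat_lit 152) (nat_lit 0) (XT.lf (nat_lit 0) (nat_lit 215421446710) (nat_lit 76) (nat_lit 14413651116) (nat_lit 76) (nat_lit 10740996992) (nat_lit 7) (nat_lit 4) (nat_lit 8) (nat_lit 5) (nat_lit 8) (nat_lit 4) (nat_lit 481) (nat_lit 393) (nat_lit 326)) (XT.lf (nat_lit 0) (nat_lit 18938989434) (nat_lit 152) (nat_lit 222949935835) (nat_lit 0) (nat_lit 15536923804) (nat_lit 5) (nat_lit 5) (nat_lit 7) (nat_lit 4) (nat_lit 5) (nat_lit 4) (nat_lit 482) (nat_lit 393) (nat_lit 325)))))) (XT.nd (nat_lit 546) (nat_lit 152) (nat_lit 0) (XT.nd (nat_lit 234) (nat_lit 76) (nat_lit 0) (XT.nd (nat_lit 78) (nat_lit 0) (nat_lit 0) (XT.lf (nat_lit 0) (nat_lit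 51467640445) (nat_lit 152) (nat_lit 175985036626) (nat_lit 0) (nat_lit 48064223000) (nat_lit 5) (nat_lit 5) (nat_lit 7) (nat_lit 4) (nat_lit 5) (nat_lit 4) (nat_lit 483) (nat_lit 393) (nat_lit 324)) (XT.nd (nat_lit 78) (nat_lit 0) (nat_lit 0) (XT.lf (nat_lit 0) (nat_lit 86575010447) (nat_lit 152) (nat_lit 125311769260) (nat_lit 0) (nat_lit 83170341322) (nat_lit 5) (nat_lit 5) (nat_lit 7) (nat_lit 4) (nat_lit 5) (nat_lit 4) (nat_lit 484) (nat_lit 393) (nat_lit 323)) (XT.lf (nat_lit 0) (nat_lit 124469143114) (nat_lit 152) (nat_lit 70629847709) (nat_lit 0) (nat_lit 121063315027) (nat_lit 5) (nat_lit 5) (nat_lit 7) (nat_lit 4) (nat_lit 5) (nat_lit 4) (nat_lit 485) (nat_lit 393) (nat_lit 322)))) (XT.nd (nat_lit 156) (nat_lit 0) (nat_lit 0) (XT.nd (nat_lit 78) (nat_lit 76) (nat_lit 0) (XT.lf (nat_lit 0) (nat_lit 165374596270) (nat_lit 152) (nat_lit 11615230955) (nat_lit 0) (nat_lit 161967695070)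 (nat_lit 5) (nat_lit 5) (nat_lit 7) (nat_lit 4) (nat_lit 5) (nat_lit 4) (nat_lit 486) (nat_lit 393) (nat_lit 321)) (XT.lf (nat_lit 0) (nat_lit 54824332394) (nat_lit 76) (nat_lit 156027966718) (nat_lit 76) (nat_lit 152620071894) (nat_lit 4) (nat_lit 4) (nat_lit 5) (nat_lit 5) (nat_lit 5) (nat_lit 4) (nat_lit 487) (nat_lit 393) (nat_lit 320))) (XT.nd (nat_lit 78) (nat_lit 0) (nat_lit 0) (XT.lf (nat_lit 0) (nat_lit 127201852611) (nat_lit 76) (nat_lit 133065711116) (nat_lit 76) (nat_lit 129656896270) (nat_lit 4) (nat_lit 4) (nat_lit 5) (nat_lit 5) (nat_lit 5) (nat_lit 4) (nat_lit 488) (nat_lit 393) (nat_lit 319)) (XT.lf (nat_lit 0) (nat_lit 205334596039) (nat_lit 76) (nat_lit 108284568792) (nat_lit 76) (nat_lit 104874902073) (nat_lit 4) (nat_lit 4) (nat_lit 5) (nat_lit 5) (nat_lit 5) (nat_lit 4) (nat_lit 489) (nat_lit 393) (nat_lit 318))))) (XT.nd (nat_lit 312) (nat_lit 0) (nat_lit 0) (XT.nd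 (nat_lit 156) (nat_lit 152) (nat_lit 0) (XT.nd (nat_lit 78) (nat_lit 0) (nat_lit 0) (XT.lf (nat_lit 0) (nat_lit 289685571528) (nat_lit 76) (nat_lit 81537688531) (nat_lit 76) (nat_lit 78127233042) (nat_lit 4) (nat_lit 4) (nat_lit 5) (nat_lit 5) (nat_lit 5) (nat_lit 4) (nat_lit 490) (nat_lit 393) (nat_lit 317)) (XT.lf (nat_lit 0) (nat_lit 380754636711) (nat_lit 76) (nat_lit 52666570303) (nat_lit 76) (nat_lit 49255384471) (nat_lit 4) (nat_lit 4) (nat_lit 5) (nat_lit 5) (nat_lit 5) (nat_lit 4) (nat_lit 491) (nat_lit 393) (nat_lit 316))) (XT.nd (nat_lit 78) (nat_lit 152) (nat_lit 0) (XT.lf (nat_lit 0) (nat_lit 479081460123) (nat_lit 76) (nat_lit 21500125999) (nat_lit 76) (nat_lit 18088263923) (nat_lit 4) (nat_lit 4) (nat_lit 5) (nat_lit 5) (nat_lit 5) (nat_lit 4) (nat_lit 492) (nat_lit 393) (nat_lit 315)) (XT.lf (nat_lit 0) (nat_lit 15792241429) (nat_lit 152) (nat_lit 529007916698) (nat_lit 0)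 (nat_lit 12632530107) (nat_lit 2) (nat_lit 5) (nat_lit 4) (nat_lit 4) (nat_lit 2) (nat_lit 4) (nat_lit 493) (nat_lit 393) (nat_lit 314)))) (XT.nd (nat_lit 156) (nat_lit 0) (nat_lit 0) (XT.nd (nat_lit 78) (nat_lit 0) (nat_lit 0) (XT.lf (nat_lit 0) (nat_lit 53062199131) (nat_lit 152) (nat_lit 496162317534) (nat_lit 0) (nat_lit 49901950985) (nat_lit 2) (nat_lit 5) (nat_lit 4) (nat_lit 4) (nat_lit 2) (nat_lit 4) (nat_lit 494) (nat_lit 393) (nat_lit 313)) (XT.lf (nat_lit 0) (nat_lit 93301967995) (nat_lit 152) (nat_lit 460713501484) (nat_lit 0) (nat_lit 90141222790) (nat_lit 2) (nat_lit 5) (nat_lit 4) (nat_lit 4) (nat_lit 2) (nat_lit 4) (nat_lit 495) (nat_lit 393) (nat_lit 312))) (XT.nd (nat_lit 78) (nat_lit 0) (nat_lit 0) (XT.lf (nat_lit 0) (nat_lit 136750005910) (nat_lit 152) (nat_lit 422451401490) (nat_lit 0) (nat_lit 133588800465) (nat_lit 2) (nat_lit 5) (nat_lit 4) (nat_lit 4) (nat_lit 2)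 (nat_lit 4) (nat_lit 496) (nat_lit 393) (nat_lit 311)) (XT.lf (nat_lit 0) (nat_lit 183663782731) (nat_lit 152) (nat_lit 381149279183) (nat_lit 0) (nat_lit 180502151138) (nat_lit 2) (nat_lit 5) (nat_lit 4) (nat_lit 4) (nat_lit 2) (nat_lit 4) (nat_lit 497) (nat_lit 393) (nat_lit 310))))))))
noncomputable def xc77 : XT := (XT.nd (nat_lit 2184) (nat_lit 0) (nat_lit 0) (XT.nd (nat_lit 1092) (nat_lit 0) (nat_lit 0) (XT.nd (nat_lit 546) (nat_lit 0) (nat_lit 0) (XT.nd (nat_lit 234) (nat_lit 76) (nat_lit 0) (XT.nd (nat_lit 78) (nat_lit 0) (nat_lit 0) (XT.lf (nat_lit 0) (nat_lit 234321306024) (nat_lit 152) (nat_lit 336562381244) (nat_lit 0) (nat_lit 231159279849) (nat_lit 2) (nat_lit 5) (nat_lit 4) (nat_lit 4) (nat_lit 2) (nat_lit 4) (nat_lit 498) (nat_lit 393) (nat_lit 309)) (XT.nd (nat_lit 78) (nat_lit 0) (nat_lit 0) (XT.lf (nat_lit 0) (nat_lit 289022768519) (nat_lit 152) (nat_lit 288426489020)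 (nat_lit 0) (nat_lit 285860376991) (nat_lit 2) (nat_lit 5) (nat_lit 4) (nat_lit 4) (nat_lit 2) (nat_lit 4) (nat_lit 499) (nat_lit 393) (nat_lit 308)) (XT.lf (nat_lit 0) (nat_lit 348092327032) (nat_lit 152) (nat_lit 236456352778) (nat_lit 0) (nat_lit 344929597214) (nat_lit 2) (nat_lit 5) (nat_lit 4) (nat_lit 4) (nat_lit 2) (nat_lit 4) (nat_lit 500) (nat_lit 393) (nat_lit 307)))) (XT.nd (nat_lit 156) (nat_lit 76) (nat_lit 0) (XT.nd (nat_lit 78) (nat_lit 0) (nat_lit 0) (XT.lf (nat_lit 0) (nat_lit 411880023391) (nat_lit 152) (nat_lit 180344001341) (nat_lit 0) (nat_lit 408716980341) (nat_lit 2) (nat_lit 5) (nat_lit 4) (nat_lit 4) (nat_lit 2) (nat_lit 4) (nat_lit 501) (nat_lit 393) (nat_lit 306)) (XT.lf (nat_lit 0) (nat_lit 480763858758) (nat_lit 152) (nat_lit 119756917071) (nat_lit 0) (nat_lit 477600525679) (nat_lit 2) (nat_lit 5) (nat_lit 4) (nat_lit 4) (nat_lit 2) (nat_lit 4) (nat_lit 502)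 (nat_lit 393) (nat_lit 305))) (XT.nd (nat_lit 78) (nat_lit 76) (nat_lit 0) (XT.lf (nat_lit 0) (nat_lit 555152033641) (nat_lit 152) (nat_lit 54336065395) (nat_lit 0) (nat_lit 551988432017) (nat_lit 2) (nat_lit 5) (nat_lit 4) (nat_lit 4) (nat_lit 2) (nat_lit 4) (nat_lit 503) (nat_lit 393) (nat_lit 304)) (XT.lf (nat_lit 0) (nat_lit 17164890131) (nat_lit 76) (nat_lit 618733292742) (nat_lit 76) (nat_lit 615569442464) (nat_lit 1) (nat_lit 4) (nat_lit 2) (nat_lit 5) (nat_lit 2) (nat_lit 4) (nat_lit 504) (nat_lit 393) (nat_lit 303))))) (XT.nd (nat_lit 234) (nat_lit 0) (nat_lit 0) (XT.nd (nat_lit 78) (nat_lit 0) (nat_lit 0) (XT.lf (nat_lit 0) (nat_lit 97464150087) (nat_lit 76) (nat_lit 627119772843) (nat_lit 76) (nat_lit 623955692331) (nat_lit 1) (nat_lit 4) (nat_lit 2) (nat_lit 5) (nat_lit 2) (nat_lit 4) (nat_lit 505) (nat_lit 393) (nat_lit 302)) (XT.nd (nat_lit 78) (nat_lit 0) (nat_lit 0) (XT.lf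 (nat_lit 0) (nat_lit 184176321025) (nat_lit 76) (nat_lit 636182881319) (nat_lit 76) (nat_lit 633018587626) (nat_lit 1) (nat_lit 4) (nat_lit 2) (nat_lit 5) (nat_lit 2) (nat_lit 4) (nat_lit 506) (nat_lit 393) (nat_lit 301)) (XT.lf (nat_lit 0) (nat_lit 277815252848) (nat_lit 76) (nat_lit 645976325480) (nat_lit 76) (nat_lit 642811834398) (nat_lit 1) (nat_lit 4) (nat_lit 2) (nat_lit 5) (nat_lit 2) (nat_lit 4) (nat_lit 507) (nat_lit 393) (nat_lit 300)))) (XT.nd (nat_lit 156) (nat_lit 0) (nat_lit 0) (XT.nd (nat_lit 78) (nat_lit 0) (nat_lit 0) (XT.lf (nat_lit 0) (nat_lit 378935842930) (nat_lit 76) (nat_lit 656558140550) (nat_lit 76) (nat_lit 653393466700) (nat_lit 1) (nat_lit 4) (nat_lit 2) (nat_lit 5) (nat_lit 2) (nat_lit 4) (nat_lit 508) (nat_lit 393) (nat_lit 299)) (XT.lf (nat_lit 0) (nat_lit 488137324396) (nat_lit 76) (nat_lit 667991033581) (nat_lit 76) (nat_lit 664826190502) (nat_lit 1) (nat_lit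 4) (nat_lit 2) (nat_lit 5) (nat_lit 2) (nat_lit 4) (nat_lit 509) (nat_lit 393) (nat_lit 298))) (XT.nd (nat_lit 78) (nat_lit 0) (nat_lit 0) (XT.lf (nat_lit 0) (nat_lit 606066817138) (nat_lit 76) (nat_lit 680342755051) (nat_lit 76) (nat_lit 677177755278) (nat_lit 1) (nat_lit 4) (nat_lit 2) (nat_lit 5) (nat_lit 2) (nat_lit 4) (nat_lit 510) (nat_lit 393) (nat_lit 297)) (XT.lf (nat_lit 0) (nat_lit 733423162593) (nat_lit 76) (nat_lit 693686500345) (nat_lit 76) (nat_lit 690521355486) (nat_lit 1) (nat_lit 4) (nat_lit 2) (nat_lit 5) (nat_lit 2) (nat_lit 4) (nat_lit 511) (nat_lit 393) (nat_lit 296)))))) (XT.nd (nat_lit 546) (nat_lit 0) (nat_lit 0) (XT.nd (nat_lit 234) (nat_lit 0) (nat_lit 0) (XT.nd (nat_lit 78) (nat_lit 0) (nat_lit 0) (XT.lf (nat_lit 0) (nat_lit 870961065030) (nat_lit 76) (nat_lit 708101343512) (nat_lit 76) (nat_lit 704936064312) (nat_lit 1) (nat_lit 4) (nat_lit 2) (nat_lit 5) (nat_lit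 2) (nat_lit 4) (nat_lit 512) (nat_lit 393) (nat_lit 295)) (XT.nd (nat_lit 78) (nat_lit 0) (nat_lit 0) (XT.lf (nat_lit 0) (nat_lit 1019495563873) (nat_lit 76) (nat_lit 723672705842) (nat_lit 76) (nat_lit 720507302254) (nat_lit 1) (nat_lit 4) (nat_lit 2) (nat_lit 5) (nat_lit 2) (nat_lit 4) (nat_lit 513) (nat_lit 393) (nat_lit 294)) (XT.lf (nat_lit 0) (nat_lit 1179906863558) (nat_lit 76) (nat_lit 740492862076) (nat_lit 76) (nat_lit 737327343314) (nat_lit 1) (nat_lit 4) (nat_lit 2) (nat_lit 5) (nat_lit 2) (nat_lit 4) (nat_lit 514) (nat_lit 393) (nat_lit 293)))) (XT.nd (nat_lit 156) (nat_lit 0) (nat_lit 0) (XT.nd (nat_lit 78) (nat_lit 0) (nat_lit 0) (XT.lf (nat_lit 0) (nat_lit 1353145549565) (nat_lit 76) (nat_lit 758661487214) (nat_lit 76) (nat_lit 755495861808) (nat_lit 1) (nat_lit 4) (nat_lit 2) (nat_lit 5) (nat_lit 2) (nat_lit 4) (nat_lit 515) (nat_lit 393) (nat_lit 292)) (XT.lf (nat_lit 0)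 (nat_lit 1540238221515) (nat_lit 76) (nat_lit 778286247183) (nat_lit 76) (nat_lit 775120523033) (nat_lit 1) (nat_lit 4) (nat_lit 2) (nat_lit 5) (nat_lit 2) (nat_lit 4) (nat_lit 516) (nat_lit 393) (nat_lit 291))) (XT.nd (nat_lit 78) (nat_lit 0) (nat_lit 0) (XT.lf (nat_lit 0) (nat_lit 1742293576723) (nat_lit 76) (nat_lit 799483436855) (nat_lit 76) (nat_lit 796317621277) (nat_lit 1) (nat_lit 4) (nat_lit 2) (nat_lit 5) (nat_lit 2) (nat_lit 4) (nat_lit 517) (nat_lit 393) (nat_lit 290)) (XT.lf (nat_lit 0) (nat_lit 1960508980256) (nat_lit 76) (nat_lit 822378669209) (nat_lit 76) (nat_lit 819212768973) (nat_lit 1) (nat_lit 4) (nat_lit 2) (nat_lit 5) (nat_lit 2) (nat_lit 4) (nat_lit 518) (nat_lit 393) (nat_lit 289))))) (XT.nd (nat_lit 234) (nat_lit 0) (nat_lit 0) (XT.nd (nat_lit 78) (nat_lit 0) (nat_lit 0) (XT.lf (nat_lit 0) (nat_lit 2196177560433) (nat_lit 76) (nat_lit 847107619693) (nat_lit 76)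 (nat_lit 843941641072) (nat_lit 1) (nat_lit 4) (nat_lit 2) (nat_lit 5) (nat_lit 2) (nat_lit 4) (nat_lit 519) (nat_lit 393) (nat_lit 288)) (XT.nd (nat_lit 78) (nat_lit 0) (nat_lit 0) (XT.lf (nat_lit 0) (nat_lit 2450695871802) (nat_lit 76) (nat_lit 873816830237) (nat_lit 76) (nat_lit 870650779036) (nat_lit 1) (nat_lit 4) (nat_lit 2) (nat_lit 5) (nat_lit 2) (nat_lit 4) (nat_lit 520) (nat_lit 393) (nat_lit 287)) (XT.lf (nat_lit 0) (nat_lit 2725572171023) (nat_lit 76) (nat_lit 902664577645) (nat_lit 76) (nat_lit 899498459241) (nat_lit 1) (nat_lit 4) (nat_lit 2) (nat_lit 5) (nat_lit 2) (nat_lit 4) (nat_lit 521) (nat_lit 393) (nat_lit 286)))) (XT.nd (nat_lit 156) (nat_lit 0) (nat_lit 0) (XT.nd (nat_lit 78) (nat_lit 0) (nat_lit 0) (XT.lf (nat_lit 0) (nat_lit 3022435354685) (nat_lit 76) (nat_lit 933821811530) (nat_lit 76) (nat_lit 930655630901) (nat_lit 1) (nat_lit 4) (nat_lit 2) (nat_lit 5) (nat_lit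 2) (nat_lit 4) (nat_lit 522) (nat_lit 393) (nat_lit 285)) (XT.lf (nat_lit 0) (nat_lit 3343044612023) (nat_lit 76) (nat_lit 967473167353) (nat_lit 76) (nat_lit 964306929108) (nat_lit 1) (nat_lit 4) (nat_lit 2) (nat_lit 5) (nat_lit 2) (nat_lit 4) (nat_lit 523) (nat_lit 393) (nat_lit 284))) (XT.nd (nat_lit 78) (nat_lit 0) (nat_lit 0) (XT.lf (nat_lit 0) (nat_lit 3689299849749) (nat_lit 76) (nat_lit 1003818060555) (nat_lit 76) (nat_lit 1000651768962) (nat_lit 1) (nat_lit 4) (nat_lit 2) (nat_lit 5) (nat_lit 2) (nat_lit 4) (nat_lit 524) (nat_lit 393) (nat_lit 283)) (XT.lf (nat_lit 0) (nat_lit 4063252950751) (nat_lit 76) (nat_lit 1043071868282) (nat_lit 76) (nat_lit 1039905527292) (nat_lit 1) (nat_lit 4) (nat_lit 2) (nat_lit 5) (nat_lit 2) (nat_lit 4) (nat_lit 525) (nat_lit 393) (nat_lit 282))))))) (XT.nd (nat_lit 1092) (nat_lit 0) (nat_lit 0) (XT.nd (nat_lit 546) (nat_lit 0) (nat_lit 0) (XT.nd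 (nat_lit 234) (nat_lit 0) (nat_lit 0) (XT.nd (nat_lit 78) (nat_lit 0) (nat_lit 0) (XT.lf (nat_lit 0) (nat_lit 4467119933407) (nat_lit 76) (nat_lit 1085467205690) (nat_lit 76) (nat_lit 1082300818962) (nat_lit 1) (nat_lit 4) (nat_lit 2) (nat_lit 5) (nat_lit 2) (nat_lit 4) (nat_lit 526) (nat_lit 393) (nat_lit 281)) (XT.nd (nat_lit 78) (nat_lit 0) (nat_lit 0) (XT.lf (nat_lit 0) (nat_lit 4903294083540) (nat_lit 76) (nat_lit 1131255304408) (nat_lit 76) (nat_lit 1128088875331) (nat_lit 1) (nat_lit 4) (nat_lit 2) (nat_lit 5) (nat_lit 2) (nat_lit 4) (nat_lit 527) (nat_lit 393) (nat_lit 280)) (XT.lf (nat_lit 0) (nat_lit 5374360136853) (nat_lit 76) (nat_lit 1180707501318) (nat_lit 76) (nat_lit 1177541033029) (nat_lit 1) (nat_lit 4) (nat_lit 2) (nat_lit 5) (nat_lit 2) (nat_lit 4) (nat_lit 528) (nat_lit 393) (nat_lit 279)))) (XT.nd (nat_lit 156) (nat_lit 0) (nat_lit 0) (XT.nd (nat_lit 78) (nat_lit 0)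 (nat_lit 0) (XT.lf (nat_lit 0) (nat_lit 5883109595886) (nat_lit 76) (nat_lit 1234116846476) (nat_lit 76) (nat_lit 1230950341878) (nat_lit 1) (nat_lit 4) (nat_lit 2) (nat_lit 5) (nat_lit 2) (nat_lit 4) (nat_lit 529) (nat_lit 393) (nat_lit 278)) (XT.lf (nat_lit 0) (nat_lit 6432557272248) (nat_lit 76) (nat_lit 1291799839704) (nat_lit 76) (nat_lit 1288633301488) (nat_lit 1) (nat_lit 4) (nat_lit 2) (nat_lit 5) (nat_lit 2) (nat_lit 4) (nat_lit 530) (nat_lit 393) (nat_lit 277))) (XT.nd (nat_lit 78) (nat_lit 0) (nat_lit 0) (XT.lf (nat_lit 0) (nat_lit 7025959152168) (nat_lit 76) (nat_lit 1354098306147) (nat_lit 76) (nat_lit 1350931736804) (nat_lit 1) (nat_lit 4) (nat_lit 2) (nat_lit 5) (nat_lit 2) (nat_lit 4) (nat_lit 531) (nat_lit 393) (nat_lit 276)) (XT.lf (nat_lit 0) (nat_lit 7666831691231) (nat_lit 76) (nat_lit 1421381421904) (nat_lit 76) (nat_lit 1418214823738) (nat_lit 1) (nat_lit 4) (nat_lit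 2) (nat_lit 5) (nat_lit 2) (nat_lit 4) (nat_lit 532) (nat_lit 393) (nat_lit 275))))) (XT.nd (nat_lit 234) (nat_lit 0) (nat_lit 0) (XT.nd (nat_lit 78) (nat_lit 0) (nat_lit 0) (XT.lf (nat_lit 0) (nat_lit 8358972652632) (nat_lit 76) (nat_lit 1494047901734) (nat_lit 76) (nat_lit 1490881276881) (nat_lit 1) (nat_lit 4) (nat_lit 2) (nat_lit 5) (nat_lit 2) (nat_lit 4) (nat_lit 533) (nat_lit 393) (nat_lit 274)) (XT.nd (nat_lit 78) (nat_lit 0) (nat_lit 0) (XT.lf (nat_lit 0) (nat_lit 9106483612439) (nat_lit 76) (nat_lit 1572528361814) (nat_lit 76) (nat_lit 1569361712250) (nat_lit 1) (nat_lit 4) (nat_lit 2) (nat_lit 5) (nat_lit 2) (nat_lit 4) (nat_lit 534) (nat_lit 393) (nat_lit 273)) (XT.lf (nat_lit 0) (nat_lit 9913794265227) (nat_lit 76) (nat_lit 1657287871537) (nat_lit 76) (nat_lit 1654121199093) (nat_lit 1) (nat_lit 4) (nat_lit 2) (nat_lit 5) (nat_lit 2) (nat_lit 4) (nat_lit 535) (nat_lit 393) (nat_lit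 272)))) (XT.nd (nat_lit 156) (nat_lit 0) (nat_lit 0) (XT.nd (nat_lit 78) (nat_lit 0) (nat_lit 0) (XT.lf (nat_lit 0) (nat_lit 10785688674125) (nat_lit 76) (nat_lit 1748828709478) (nat_lit 76) (nat_lit 1745662015849) (nat_lit 1) (nat_lit 4) (nat_lit 2) (nat_lit 5) (nat_lit 2) (nat_lit 4) (nat_lit 536) (nat_lit 393) (nat_lit 271)) (XT.lf (nat_lit 0) (nat_lit 11727333620815) (nat_lit 76) (nat_lit 1847693339864) (nat_lit 76) (nat_lit 1844526626619) (nat_lit 1) (nat_lit 4) (nat_lit 2) (nat_lit 5) (nat_lit 2) (nat_lit 4) (nat_lit 537) (nat_lit 393) (nat_lit 270))) (XT.nd (nat_lit 78) (nat_lit 0) (nat_lit 0) (XT.lf (nat_lit 0) (nat_lit 12744309223500) (nat_lit 76) (nat_lit 1954467627170) (nat_lit 76) (nat_lit 1951300895762) (nat_lit 1) (nat_lit 4) (nat_lit 2) (nat_lit 5) (nat_lit 2) (nat_lit 4) (nat_lit 538) (nat_lit 393) (nat_lit 269)) (XT.lf (nat_lit 0) (nat_lit 13842642004269) (nat_lit 76) (nat_lit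 2069784307914) (nat_lit 76) (nat_lit 2066617559688) (nat_lit 1) (nat_lit 4) (nat_lit 2) (nat_lit 5) (nat_lit 2) (nat_lit 4) (nat_lit 539) (nat_lit 393) (nat_lit 268)))))) (XT.nd (nat_lit 52572) (nat_lit 0) (nat_lit 4712) (XT.nd (nat_lit 234) (nat_lit 0) (nat_lit 0) (XT.nd (nat_lit 78) (nat_lit 0) (nat_lit 0) (XT.lf (nat_lit 0) (nat_lit 15028840601824) (nat_lit 76) (nat_lit 2194326740204) (nat_lit 76) (nat_lit 2191159976406) (nat_lit 1) (nat_lit 4) (nat_lit 2) (nat_lit 5) (nat_lit 2) (nat_lit 4) (nat_lit 540) (nat_lit 393) (nat_lit 267)) (XT.nd (nat_lit 78) (nat_lit 0) (nat_lit 0) (XT.lf (nat_lit 0) (nat_lit 16309934341186) (nat_lit 76) (nat_lit 2328832953267) (nat_lit 76) (nat_lit 2325666175052) (nat_lit 1) (nat_lit 4) (nat_lit 2) (nat_lit 5) (nat_lit 2) (nat_lit 4) (nat_lit 541) (nat_lit 393) (nat_lit 266)) (XT.lf (nat_lit 0) (nat_lit 17693514888961) (nat_lit 76) (nat_lit 2474100020961)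 (nat_lit 76) (nat_lit 2470933229394) (nat_lit 1) (nat_lit 4) (nat_lit 2) (nat_lit 5) (nat_lit 2) (nat_lit 4) (nat_lit 542) (nat_lit 393) (nat_lit 265)))) (XT.nd (nat_lit 156) (nat_lit 0) (nat_lit 0) (XT.nd (nat_lit 78) (nat_lit 0) (nat_lit 0) (XT.lf (nat_lit 0) (nat_lit 19187781240985) (nat_lit 76) (nat_lit 2630988785166) (nat_lit 76) (nat_lit 2627821981238) (nat_lit 1) (nat_lit 4) (nat_lit 2) (nat_lit 5) (nat_lit 2) (nat_lit 4) (nat_lit 543) (nat_lit 393) (nat_lit 264)) (XT.lf (nat_lit 0) (nat_lit 20801588308976) (nat_lit 76) (nat_lit 2800428957078) (nat_lit 76) (nat_lit 2797262141705) (nat_lit 1) (nat_lit 4) (nat_lit 2) (nat_lit 5) (nat_lit 2) (nat_lit 4) (nat_lit 544) (nat_lit 393) (nat_lit 263))) (XT.nd (nat_lit 52104) (nat_lit 0) (nat_lit 6384) (XT.lf (nat_lit 0) (nat_lit 22544499394076) (nat_lit 76) (nat_lit 2983424626605) (nat_lit 76) (nat_lit 2980257800634) (nat_lit 1) (nat_lit 4)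 (nat_lit 2) (nat_lit 5) (nat_lit 2) (nat_lit 4) (nat_lit 545) (nat_lit 393) (nat_lit 262)) (XT.lf (nat_lit 0) (nat_lit 3366416945) (nat_lit 532) (nat_lit 186146852) (nat_lit 532) (nat_lit 186146852) (nat_lit 85) (nat_lit 4) (nat_lit 92) (nat_lit 5) (nat_lit 92) (nat_lit 4) (nat_lit 412) (nat_lit 394) (nat_lit 394))))) (XT.nd (nat_lit 312) (nat_lit 608) (nat_lit 0) (XT.nd (nat_lit 156) (nat_lit 532) (nat_lit 0) (XT.nd (nat_lit 78) (nat_lit 228) (nat_lit 0) (XT.lf (nat_lit 0) (nat_lit 3360976266) (nat_lit 304) (nat_lit 2312680219) (nat_lit 0) (nat_lit 1983592460) (nat_lit 81) (nat_lit 5) (nat_lit 85) (nat_lit 4) (nat_lit 81) (nat_lit 4) (nat_lit 413) (nat_lit 394) (nat_lit 393)) (XT.lf (nat_lit 0) (nat_lit 3970762523) (nat_lit 228) (nat_lit 3271568491) (nat_lit 228) (nat_lit 618829310) (nat_lit 78) (nat_lit 4) (nat_lit 81) (nat_lit 5) (nat_lit 81) (nat_lit 4) (nat_lit 414) (nat_lit 394) (nat_lit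 392))) (XT.nd (nat_lit 78) (nat_lit 228) (nat_lit 0) (XT.lf (nat_lit 0) (nat_lit 2529849864) (nat_lit 228) (nat_lit 529512468) (nat_lit 304) (nat_lit 5025658755) (nat_lit 74) (nat_lit 5) (nat_lit 77) (nat_lit 5) (nat_lit 78) (nat_lit 4) (nat_lit 415) (nat_lit 394) (nat_lit 391)) (XT.lf (nat_lit 0) (nat_lit 1003951158) (nat_lit 228) (nat_lit 5943848368) (nat_lit 228) (nat_lit 1381778496) (nat_lit 71) (nat_lit 4) (nat_lit 74) (nat_lit 5) (nat_lit 74) (nat_lit 4) (nat_lit 416) (nat_lit 394) (nat_lit 390)))) (XT.nd (nat_lit 156) (nat_lit 380) (nat_lit 0) (XT.nd (nat_lit 78) (nat_lit 152) (nat_lit 0) (XT.lf (nat_lit 0) (nat_lit 2357141635) (nat_lit 304) (nat_lit 596639543) (nat_lit 76) (nat_lit 5640526639) (nat_lit 70) (nat_lit 5) (nat_lit 74) (nat_lit 5) (nat_lit 71) (nat_lit 4) (nat_lit 417) (nat_lit 394) (nat_lit 389)) (XT.lf (nat_lit 0) (nat_lit 6269322739) (nat_lit 228) (nat_lit 2238631240)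 (nat_lit 0) (nat_lit 373508308) (nat_lit 68) (nat_lit 5) (nat_lit 71) (nat_lit 4) (nat_lit 68) (nat_lit 4) (nat_lit 418) (nat_lit 394) (nat_lit 388))) (XT.nd (nat_lit 78) (nat_lit 152) (nat_lit 0) (XT.lf (nat_lit 0) (nat_lit 1241497164) (nat_lit 228) (nat_lit 4057657941) (nat_lit 76) (nat_lit 3889642949) (nat_lit 65) (nat_lit 5) (nat_lit 68) (nat_lit 5) (nat_lit 66) (nat_lit 4) (nat_lit 419) (nat_lit 394) (nat_lit 387)) (XT.lf (nat_lit 0) (nat_lit 3482502888) (nat_lit 152) (nat_lit 1715338341) (nat_lit 228) (nat_lit 4322625484) (nat_lit 63) (nat_lit 5) (nat_lit 65) (nat_lit 5) (nat_lit 66) (nat_lit 4) (nat_lit 420) (nat_lit 394) (nat_lit 386))))))))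
noncomputable def xc78 : XT := (XT.nd (nat_lit 2184) (nat_lit 1596) (nat_lit 0) (XT.nd (nat_lit 1092) (nat_lit 1064) (nat_lit 0) (XT.nd (nat_lit 546) (nat_lit 684) (nat_lit 0) (XT.nd (nat_lit 234) (nat_lit 532) (nat_lit 0) (XT.nd (nat_lit 78) (nat_lit 152) (nat_lit 0) (XT.lf (nat_lit 0) (nat_lit 1686942695) (nat_lit 152) (nat_lit 7784276794) (nat_lit 152) (nat_lit 407423017) (nat_lit 61) (nat_lit 4) (nat_lit 63) (nat_lit 5) (nat_lit 63) (nat_lit 4) (nat_lit 421) (nat_lit 394) (nat_lit 385)) (XT.nd (nat_lit 78) (nat_lit 76) (nat_lit 0) (XT.lf (nat_lit 0) (nat_lit 3640432912) (nat_lit 228) (nat_lit 351731379) (nat_lit 76) (nat_lit 6265123677) (nat_lit 60) (nat_lit 5) (nat_lit 63) (nat_lit 5) (nat_lit 61) (nat_lit 4) (nat_lit 422) (nat_lit 394) (nat_lit 384)) (XT.lf (nat_lit 0) (nat_lit 8004245015) (nat_lit 152) (nat_lit 2461596692) (nat_lit 0) (nat_lit 198418160) (nat_lit 59) (nat_lit 5) (nat_lit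 61) (nat_lit 4) (nat_lit 59) (nat_lit 4) (nat_lit 423) (nat_lit 394) (nat_lit 383)))) (XT.nd (nat_lit 156) (nat_lit 228) (nat_lit 0) (XT.nd (nat_lit 78) (nat_lit 76) (nat_lit 0) (XT.lf (nat_lit 0) (nat_lit 1614356511) (nat_lit 228) (nat_lit 4882174130) (nat_lit 76) (nat_lit 4597630172) (nat_lit 56) (nat_lit 5) (nat_lit 59) (nat_lit 5) (nat_lit 57) (nat_lit 4) (nat_lit 424) (nat_lit 394) (nat_lit 382)) (XT.lf (nat_lit 0) (nat_lit 3981692752) (nat_lit 76) (nat_lit 2087429185) (nat_lit 152) (nat_lit 5485242195) (nat_lit 55) (nat_lit 5) (nat_lit 56) (nat_lit 5) (nat_lit 57) (nat_lit 4) (nat_lit 425) (nat_lit 394) (nat_lit 381))) (XT.nd (nat_lit 78) (nat_lit 76) (nat_lit 0) (XT.lf (nat_lit 0) (nat_lit 1481821381) (nat_lit 152) (nat_lit 9455799527) (nat_lit 152) (nat_lit 1109183828) (nat_lit 53) (nat_lit 4) (nat_lit 55) (nat_lit 5) (nat_lit 55) (nat_lit 4) (nat_lit 426) (nat_lit 394) (nat_lit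 380)) (XT.lf (nat_lit 0) (nat_lit 3524483067) (nat_lit 228) (nat_lit 1334847363) (nat_lit 76) (nat_lit 7705282309) (nat_lit 52) (nat_lit 5) (nat_lit 55) (nat_lit 5) (nat_lit 53) (nat_lit 4) (nat_lit 427) (nat_lit 394) (nat_lit 379))))) (XT.nd (nat_lit 234) (nat_lit 304) (nat_lit 0) (XT.nd (nat_lit 78) (nat_lit 304) (nat_lit 0) (XT.lf (nat_lit 0) (nat_lit 8519963860) (nat_lit 152) (nat_lit 4375024853) (nat_lit 0) (nat_lit 222475555) (nat_lit 51) (nat_lit 5) (nat_lit 53) (nat_lit 4) (nat_lit 51) (nat_lit 4) (nat_lit 428) (nat_lit 394) (nat_lit 378)) (XT.nd (nat_lit 78) (nat_lit 76) (nat_lit 0) (XT.lf (nat_lit 0) (nat_lit 336066393) (nat_lit 228) (nat_lit 7851826883) (nat_lit 76) (nat_lit 5514626353) (nat_lit 48) (nat_lit 5) (nat_lit 51) (nat_lit 5) (nat_lit 49) (nat_lit 4) (nat_lit 429) (nat_lit 394) (nat_lit 377)) (XT.lf (nat_lit 0) (nat_lit 2524946939) (nat_lit 76) (nat_lit 2912736442) (nat_lit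 152) (nat_lit 8885408647) (nat_lit 47) (nat_lit 5) (nat_lit 48) (nat_lit 5) (nat_lit 49) (nat_lit 4) (nat_lit 430) (nat_lit 394) (nat_lit 376)))) (XT.nd (nat_lit 156) (nat_lit 152) (nat_lit 0) (XT.nd (nat_lit 78) (nat_lit 152) (nat_lit 0) (XT.lf (nat_lit 0) (nat_lit 11074758802) (nat_lit 152) (nat_lit 1169395930) (nat_lit 0) (nat_lit 2738974534) (nat_lit 47) (nat_lit 5) (nat_lit 49) (nat_lit 4) (nat_lit 47) (nat_lit 4) (nat_lit 431) (nat_lit 394) (nat_lit 375)) (XT.lf (nat_lit 0) (nat_lit 1577797025) (nat_lit 152) (nat_lit 5240191174) (nat_lit 76) (nat_lit 8860416256) (nat_lit 45) (nat_lit 5) (nat_lit 47) (nat_lit 5) (nat_lit 46) (nat_lit 4) (nat_lit 432) (nat_lit 394) (nat_lit 374))) (XT.nd (nat_lit 78) (nat_lit 76) (nat_lit 0) (XT.lf (nat_lit 0) (nat_lit 6562409759) (nat_lit 76) (nat_lit 772613819) (nat_lit 152) (nat_lit 9082695522) (nat_lit 44) (nat_lit 5) (nat_lit 45) (nat_lit 5) (nat_lit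 46) (nat_lit 4) (nat_lit 433) (nat_lit 394) (nat_lit 373)) (XT.lf (nat_lit 0) (nat_lit 2085638637) (nat_lit 76) (nat_lit 11656806407) (nat_lit 76) (nat_lit 3458568476) (nat_lit 43) (nat_lit 4) (nat_lit 44) (nat_lit 5) (nat_lit 44) (nat_lit 4) (nat_lit 434) (nat_lit 394) (nat_lit 372)))))) (XT.nd (nat_lit 546) (nat_lit 456) (nat_lit 0) (XT.nd (nat_lit 234) (nat_lit 380) (nat_lit 0) (XT.nd (nat_lit 78) (nat_lit 152) (nat_lit 0) (XT.lf (nat_lit 0) (nat_lit 2635786182) (nat_lit 152) (nat_lit 2852683400) (nat_lit 76) (nat_lit 12541382308) (nat_lit 42) (nat_lit 5) (nat_lit 44) (nat_lit 5) (nat_lit 43) (nat_lit 4) (nat_lit 435) (nat_lit 394) (nat_lit 371)) (XT.nd (nat_lit 78) (nat_lit 76) (nat_lit 0) (XT.lf (nat_lit 0) (nat_lit 9184613376) (nat_lit 152) (nat_lit 8371340564) (nat_lit 0) (nat_lit 1349557751) (nat_lit 41) (nat_lit 5) (nat_lit 43) (nat_lit 4) (nat_lit 41) (nat_lit 4) (nat_lit 436)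 (nat_lit 394) (nat_lit 370)) (XT.lf (nat_lit 0) (nat_lit 5163007628) (nat_lit 76) (nat_lit 11307443577) (nat_lit 76) (nat_lit 3363727617) (nat_lit 40) (nat_lit 4) (nat_lit 41) (nat_lit 5) (nat_lit 41) (nat_lit 4) (nat_lit 437) (nat_lit 394) (nat_lit 369)))) (XT.nd (nat_lit 156) (nat_lit 228) (nat_lit 0) (XT.nd (nat_lit 78) (nat_lit 76) (nat_lit 0) (XT.lf (nat_lit 0) (nat_lit 3428449340) (nat_lit 152) (nat_lit 913152754) (nat_lit 76) (nat_lit 16480672419) (nat_lit 39) (nat_lit 5) (nat_lit 41) (nat_lit 5) (nat_lit 40) (nat_lit 4) (nat_lit 438) (nat_lit 394) (nat_lit 368)) (XT.lf (nat_lit 0) (nat_lit 10888568778) (nat_lit 152) (nat_lit 7615498638) (nat_lit 0) (nat_lit 3353859421) (nat_lit 38) (nat_lit 5) (nat_lit 40) (nat_lit 4) (nat_lit 38) (nat_lit 4) (nat_lit 439) (nat_lit 394) (nat_lit 367))) (XT.nd (nat_lit 78) (nat_lit 152) (nat_lit 0) (XT.lf (nat_lit 0) (nat_lit 7718885736) (nat_lit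 76) (nat_lit 11428007046) (nat_lit 76) (nat_lit 3813429099) (nat_lit 37) (nat_lit 4) (nat_lit 38) (nat_lit 5) (nat_lit 38) (nat_lit 4) (nat_lit 440) (nat_lit 394) (nat_lit 366)) (XT.lf (nat_lit 0) (nat_lit 249695633) (nat_lit 76) (nat_lit 3566759164) (nat_lit 152) (nat_lit 20319137262) (nat_lit 35) (nat_lit 5) (nat_lit 36) (nat_lit 5) (nat_lit 37) (nat_lit 4) (nat_lit 441) (nat_lit 394) (nat_lit 365))))) (XT.nd (nat_lit 234) (nat_lit 228) (nat_lit 0) (XT.nd (nat_lit 78) (nat_lit 228) (nat_lit 0) (XT.lf (nat_lit 0) (nat_lit 12274923480) (nat_lit 152) (nat_lit 7995588956) (nat_lit 0) (nat_lit 5092511638) (nat_lit 35) (nat_lit 5) (nat_lit 37) (nat_lit 4) (nat_lit 35) (nat_lit 4) (nat_lit 442) (nat_lit 394) (nat_lit 364)) (XT.nd (nat_lit 78) (nat_lit 152) (nat_lit 0) (XT.lf (nat_lit 0) (nat_lit 9314554100) (nat_lit 76) (nat_lit 12299450481) (nat_lit 76) (nat_lit 5058332841) (nat_lit 34) (nat_lit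 4) (nat_lit 35) (nat_lit 5) (nat_lit 35) (nat_lit 4) (nat_lit 443) (nat_lit 394) (nat_lit 363)) (XT.lf (nat_lit 0) (nat_lit 81889946) (nat_lit 76) (nat_lit 3464920057) (nat_lit 152) (nat_lit 24523532479) (nat_lit 32) (nat_lit 5) (nat_lit 33) (nat_lit 5) (nat_lit 34) (nat_lit 4) (nat_lit 444) (nat_lit 394) (nat_lit 362)))) (XT.nd (nat_lit 156) (nat_lit 152) (nat_lit 0) (XT.nd (nat_lit 78) (nat_lit 76) (nat_lit 0) (XT.lf (nat_lit 0) (nat_lit 13088068518) (nat_lit 152) (nat_lit 10153534355) (nat_lit 0) (nat_lit 6286396647) (nat_lit 32) (nat_lit 5) (nat_lit 34) (nat_lit 4) (nat_lit 32) (nat_lit 4) (nat_lit 445) (nat_lit 394) (nat_lit 361)) (XT.lf (nat_lit 0) (nat_lit 9273411718) (nat_lit 76) (nat_lit 14328470299) (nat_lit 76) (nat_lit 7483647914) (nat_lit 31) (nat_lit 4) (nat_lit 32) (nat_lit 5) (nat_lit 32) (nat_lit 4) (nat_lit 446) (nat_lit 394) (nat_lit 360))) (XT.nd (nat_lit 78) (nat_lit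 76) (nat_lit 0) (XT.lf (nat_lit 0) (nat_lit 2260856948) (nat_lit 152) (nat_lit 2182194111) (nat_lit 76) (nat_lit 28305902504) (nat_lit 30) (nat_lit 5) (nat_lit 32) (nat_lit 5) (nat_lit 31) (nat_lit 4) (nat_lit 447) (nat_lit 394) (nat_lit 359)) (XT.lf (nat_lit 0) (nat_lit 12921206920) (nat_lit 152) (nat_lit 15053287420) (nat_lit 0) (nat_lit 6512159535) (nat_lit 29) (nat_lit 5) (nat_lit 31) (nat_lit 4) (nat_lit 29) (nat_lit 4) (nat_lit 448) (nat_lit 394) (nat_lit 358))))))) (XT.nd (nat_lit 1092) (nat_lit 684) (nat_lit 0) (XT.nd (nat_lit 546) (nat_lit 456) (nat_lit 0) (XT.nd (nat_lit 234) (nat_lit 228) (nat_lit 0) (XT.nd (nat_lit 78) (nat_lit 152) (nat_lit 0) (XT.lf (nat_lit 0) (nat_lit 6561295403) (nat_lit 76) (nat_lit 18111868807) (nat_lit 76) (nat_lit 11671104506) (nat_lit 28) (nat_lit 4) (nat_lit 29) (nat_lit 5) (nat_lit 29) (nat_lit 4) (nat_lit 449) (nat_lit 394) (nat_lit 357)) (XT.nd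 (nat_lit 78) (nat_lit 152) (nat_lit 0) (XT.lf (nat_lit 0) (nat_lit 30572389549) (nat_lit 76) (nat_lit 7111378306) (nat_lit 76) (nat_lit 641246490) (nat_lit 28) (nat_lit 4) (nat_lit 29) (nat_lit 5) (nat_lit 29) (nat_lit 4) (nat_lit 450) (nat_lit 394) (nat_lit 356)) (XT.lf (nat_lit 0) (nat_lit 11143218410) (nat_lit 152) (nat_lit 24137255607) (nat_lit 0) (nat_lit 5127177707) (nat_lit 26) (nat_lit 5) (nat_lit 28) (nat_lit 4) (nat_lit 26) (nat_lit 4) (nat_lit 451) (nat_lit 394) (nat_lit 355)))) (XT.nd (nat_lit 156) (nat_lit 152) (nat_lit 0) (XT.nd (nat_lit 78) (nat_lit 76) (nat_lit 0) (XT.lf (nat_lit 0) (nat_lit 24149755927) (nat_lit 152) (nat_lit 370293236) (nat_lit 0) (nat_lit 18110402343) (nat_lit 26) (nat_lit 5) (nat_lit 28) (nat_lit 4) (nat_lit 26) (nat_lit 4) (nat_lit 452) (nat_lit 394) (nat_lit 354)) (XT.lf (nat_lit 0) (nat_lit 26455087558) (nat_lit 76) (nat_lit 12296281819) (nat_lit 76)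 (nat_lit 6235342235) (nat_lit 25) (nat_lit 4) (nat_lit 26) (nat_lit 5) (nat_lit 26) (nat_lit 4) (nat_lit 453) (nat_lit 394) (nat_lit 353))) (XT.nd (nat_lit 78) (nat_lit 0) (nat_lit 0) (XT.lf (nat_lit 0) (nat_lit 6790079086) (nat_lit 152) (nat_lit 39556347200) (nat_lit 0) (nat_lit 1159591474) (nat_lit 23) (nat_lit 5) (nat_lit 25) (nat_lit 4) (nat_lit 23) (nat_lit 4) (nat_lit 454) (nat_lit 394) (nat_lit 352)) (XT.lf (nat_lit 0) (nat_lit 21278443128) (nat_lit 152) (nat_lit 13244026962) (nat_lit 0) (nat_lit 15630819853) (nat_lit 23) (nat_lit 5) (nat_lit 25) (nat_lit 4) (nat_lit 23) (nat_lit 4) (nat_lit 455) (nat_lit 394) (nat_lit 351))))) (XT.nd (nat_lit 234) (nat_lit 228) (nat_lit 0) (XT.nd (nat_lit 78) (nat_lit 152) (nat_lit 0) (XT.lf (nat_lit 0) (nat_lit 15809923261) (nat_lit 76) (nat_lit 21420762951) (nat_lit 76) (nat_lit 15757273322) (nat_lit 22) (nat_lit 4) (nat_lit 23) (nat_lit 5) (nat_lit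 23) (nat_lit 4) (nat_lit 456) (nat_lit 394) (nat_lit 350)) (XT.nd (nat_lit 78) (nat_lit 152) (nat_lit 0) (XT.lf (nat_lit 0) (nat_lit 47791061634) (nat_lit 76) (nat_lit 6956714382) (nat_lit 76) (nat_lit 1278533684) (nat_lit 22) (nat_lit 4) (nat_lit 23) (nat_lit 5) (nat_lit 23) (nat_lit 4) (nat_lit 457) (nat_lit 394) (nat_lit 349)) (XT.lf (nat_lit 0) (nat_lit 14371371241) (nat_lit 152) (nat_lit 35749038954) (nat_lit 0) (nat_lit 9101201296) (nat_lit 20) (nat_lit 5) (nat_lit 22) (nat_lit 4) (nat_lit 20) (nat_lit 4) (nat_lit 458) (nat_lit 394) (nat_lit 348)))) (XT.nd (nat_lit 156) (nat_lit 152) (nat_lit 0) (XT.nd (nat_lit 78) (nat_lit 76) (nat_lit 0) (XT.lf (nat_lit 0) (nat_lit 31546233929) (nat_lit 152) (nat_lit 4831882221) (nat_lit 0) (nat_lit 26264401740) (nat_lit 20) (nat_lit 5) (nat_lit 22) (nat_lit 4) (nat_lit 20) (nat_lit 4) (nat_lit 459) (nat_lit 394) (nat_lit 347)) (XT.lf (nat_lit 0)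 (nat_lit 29923142608) (nat_lit 76) (nat_lit 20827086772) (nat_lit 76) (nat_lit 15534456209) (nat_lit 19) (nat_lit 4) (nat_lit 20) (nat_lit 5) (nat_lit 20) (nat_lit 4) (nat_lit 460) (nat_lit 394) (nat_lit 346))) (XT.nd (nat_lit 78) (nat_lit 76) (nat_lit 0) (XT.lf (nat_lit 0) (nat_lit 1279749387) (nat_lit 152) (nat_lit 2640750332) (nat_lit 76) (nat_lit 66289593043) (nat_lit 18) (nat_lit 5) (nat_lit 20) (nat_lit 5) (nat_lit 19) (nat_lit 4) (nat_lit 461) (nat_lit 394) (nat_lit 345)) (XT.lf (nat_lit 0) (nat_lit 19757625794) (nat_lit 152) (nat_lit 39727791698) (nat_lit 0) (nat_lit 14839211976) (nat_lit 17) (nat_lit 5) (nat_lit 19) (nat_lit 4) (nat_lit 17) (nat_lit 4) (nat_lit 462) (nat_lit 394) (nat_lit 344)))))) (XT.nd (nat_lit 546) (nat_lit 380) (nat_lit 0) (XT.nd (nat_lit 234) (nat_lit 228) (nat_lit 0) (XT.nd (nat_lit 78) (nat_lit 76) (nat_lit 0) (XT.lf (nat_lit 0) (nat_lit 39830022653) (nat_lit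 152) (nat_lit 4025331734) (nat_lit 0) (nat_lit 34903671708) (nat_lit 17) (nat_lit 5) (nat_lit 19) (nat_lit 4) (nat_lit 17) (nat_lit 4) (nat_lit 463) (nat_lit 394) (nat_lit 343)) (XT.nd (nat_lit 78) (nat_lit 0) (nat_lit 0) (XT.lf (nat_lit 0) (nat_lit 36232207701) (nat_lit 76) (nat_lit 26092186236) (nat_lit 76) (nat_lit 21158486098) (nat_lit 16) (nat_lit 4) (nat_lit 17) (nat_lit 5) (nat_lit 17) (nat_lit 4) (nat_lit 464) (nat_lit 394) (nat_lit 342)) (XT.lf (nat_lit 0) (nat_lit 79828551307) (nat_lit 76) (nat_lit 6846046730) (nat_lit 76) (nat_lit 1905541785) (nat_lit 16) (nat_lit 4) (nat_lit 17) (nat_lit 5) (nat_lit 17) (nat_lit 4) (nat_lit 465) (nat_lit 394) (nat_lit 341)))) (XT.nd (nat_lit 156) (nat_lit 76) (nat_lit 0) (XT.nd (nat_lit 78) (nat_lit 0) (nat_lit 0) (XT.lf (nat_lit 0) (nat_lit 19075593262) (nat_lit 152) (nat_lit 60387406508) (nat_lit 0) (nat_lit 14495217620) (nat_lit 14) (nat_lit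 5) (nat_lit 16) (nat_lit 4) (nat_lit 14) (nat_lit 4) (nat_lit 466) (nat_lit 394) (nat_lit 340)) (XT.lf (nat_lit 0) (nat_lit 42004550800) (nat_lit 152) (nat_lit 20309475221) (nat_lit 0) (nat_lit 37418773283) (nat_lit 14) (nat_lit 5) (nat_lit 16) (nat_lit 4) (nat_lit 14) (nat_lit 4) (nat_lit 467) (nat_lit 394) (nat_lit 339))) (XT.nd (nat_lit 78) (nat_lit 0) (nat_lit 0) (XT.lf (nat_lit 0) (nat_lit 24081901435) (nat_lit 76) (nat_lit 43217836348) (nat_lit 76) (nat_lit 38627057095) (nat_lit 13) (nat_lit 4) (nat_lit 14) (nat_lit 5) (nat_lit 14) (nat_lit 4) (nat_lit 468) (nat_lit 394) (nat_lit 338)) (XT.lf (nat_lit 0) (nat_lit 73084610128) (nat_lit 76) (nat_lit 22043185073) (nat_lit 76) (nat_lit 17447774582) (nat_lit 13) (nat_lit 4) (nat_lit 14) (nat_lit 5) (nat_lit 14) (nat_lit 4) (nat_lit 469) (nat_lit 394) (nat_lit 337))))) (XT.nd (nat_lit 312) (nat_lit 152) (nat_lit 0) (XT.nd (nat_lit 156) (nat_lit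 76) (nat_lit 0) (XT.nd (nat_lit 78) (nat_lit 0) (nat_lit 0) (XT.lf (nat_lit 0) (nat_lit 5289448586) (nat_lit 152) (nat_lit 113415088836) (nat_lit 0) (nat_lit 1030468332) (nat_lit 11) (nat_lit 5) (nat_lit 13) (nat_lit 4) (nat_lit 11) (nat_lit 4) (nat_lit 470) (nat_lit 394) (nat_lit 336)) (XT.lf (nat_lit 0) (nat_lit 30539659761) (nat_lit 152) (nat_lit 70483347288) (nat_lit 0) (nat_lit 26277003082) (nat_lit 11) (nat_lit 5) (nat_lit 13) (nat_lit 4) (nat_lit 11) (nat_lit 4) (nat_lit 471) (nat_lit 394) (nat_lit 335))) (XT.nd (nat_lit 78) (nat_lit 76) (nat_lit 0) (XT.lf (nat_lit 0) (nat_lit 57769419830) (nat_lit 152) (nat_lit 24200673507) (nat_lit 0) (nat_lit 53503359053) (nat_lit 11) (nat_lit 5) (nat_lit 13) (nat_lit 4) (nat_lit 11) (nat_lit 4) (nat_lit 472) (nat_lit 394) (nat_lit 334)) (XT.lf (nat_lit 0) (nat_lit 27060895809) (nat_lit 76) (nat_lit 60730009719) (nat_lit 76) (nat_lit 56460796999)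 (nat_lit 10) (nat_lit 4) (nat_lit 11) (nat_lit 5) (nat_lit 11) (nat_lit 4) (nat_lit 473) (nat_lit 394) (nat_lit 333)))) (XT.nd (nat_lit 156) (nat_lit 152) (nat_lit 0) (XT.nd (nat_lit 78) (nat_lit 0) (nat_lit 0) (XT.lf (nat_lit 0) (nat_lit 83724250292) (nat_lit 76) (nat_lit 37115039629) (nat_lit 76) (nat_lit 32842908444) (nat_lit 10) (nat_lit 4) (nat_lit 11) (nat_lit 5) (nat_lit 11) (nat_lit 4) (nat_lit 474) (nat_lit 394) (nat_lit 332)) (XT.lf (nat_lit 0) (nat_lit 144850808203) (nat_lit 76) (nat_lit 11646931807) (nat_lit 76) (nat_lit 7372098339) (nat_lit 10) (nat_lit 4) (nat_lit 11) (nat_lit 5) (nat_lit 11) (nat_lit 4) (nat_lit 475) (nat_lit 394) (nat_lit 331))) (XT.nd (nat_lit 78) (nat_lit 0) (nat_lit 0) (XT.lf (nat_lit 0) (nat_lit 20410746514) (nat_lit 152) (nat_lit 137870216201) (nat_lit 0) (nat_lit 16450250605) (nat_lit 8) (nat_lit 5) (nat_lit 10) (nat_lit 4) (nat_lit 8) (nat_lit 4) (nat_lit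 476) (nat_lit 394) (nat_lit 330)) (XT.lf (nat_lit 0) (nat_lit 50821877948) (nat_lit 152) (nat_lit 88700749370) (nat_lit 0) (nat_lit 46859236880) (nat_lit 8) (nat_lit 5) (nat_lit 10) (nat_lit 4) (nat_lit 8) (nat_lit 4) (nat_lit 477) (nat_lit 394) (nat_lit 329))))))))
noncomputable def xc79 : XT := (XT.nd (nat_lit 2184) (nat_lit 0) (nat_lit 0) (XT.nd (nat_lit 1092) (nat_lit 228) (nat_lit 0) (XT.nd (nat_lit 546) (nat_lit 76) (nat_lit 0) (XT.nd (nat_lit 234) (nat_lit 152) (nat_lit 0) (XT.nd (nat_lit 78) (nat_lit 76) (nat_lit 0) (XT.lf (nat_lit 0) (nat_lit 83636182517) (nat_lit 152) (nat_lit 35659206882) (nat_lit 0) (nat_lit 79671555191) (nat_lit 8) (nat_lit 5) (nat_lit 10) (nat_lit 4) (nat_lit 8) (nat_lit 4) (nat_lit 478) (nat_lit 394) (nat_lit 328)) (XT.nd (nat_lit 78) (nat_lit 0) (nat_lit 0) (XT.lf (nat_lit 0) (nat_lit 22704502692) (nat_lit 76) (nat_lit 96889656503) (nat_lit 76) (nat_lit 92923190048)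 (nat_lit 7) (nat_lit 4) (nat_lit 8) (nat_lit 5) (nat_lit 8) (nat_lit 4) (nat_lit 479) (nat_lit 394) (nat_lit 327)) (XT.lf (nat_lit 0) (nat_lit 87709793439) (nat_lit 76) (nat_lit 71667154169) (nat_lit 76) (nat_lit 67698984818) (nat_lit 7) (nat_lit 4) (nat_lit 8) (nat_lit 5) (nat_lit 8) (nat_lit 4) (nat_lit 480) (nat_lit 394) (nat_lit 326)))) (XT.nd (nat_lit 156) (nat_lit 152) (nat_lit 0) (XT.nd (nat_lit 78) (nat_lit 0) (nat_lit 0) (XT.lf (nat_lit 0) (nat_lit 157864131254) (nat_lit 76) (nat_lit 44453401628) (nat_lit 76) (nat_lit 40483655521) (nat_lit 7) (nat_lit 4) (nat_lit 8) (nat_lit 5) (nat_lit 8) (nat_lit 4) (nat_lit 481) (nat_lit 394) (nat_lit 325)) (XT.lf (nat_lit 0) (nat_lit 233583245545) (nat_lit 76) (nat_lit 15087132198) (nat_lit 76) (nat_lit 11115926132) (nat_lit 7) (nat_lit 4) (nat_lit 8) (nat_lit 5) (nat_lit 8) (nat_lit 4) (nat_lit 482) (nat_lit 394) (nat_lit 324))) (XT.nd (nat_lit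 78) (nat_lit 0) (nat_lit 0) (XT.lf (nat_lit 0) (nat_lit 20914010496) (nat_lit 152) (nat_lit 239833397536) (nat_lit 0) (nat_lit 17235716163) (nat_lit 5) (nat_lit 5) (nat_lit 7) (nat_lit 4) (nat_lit 5) (nat_lit 4) (nat_lit 483) (nat_lit 394) (nat_lit 323)) (XT.lf (nat_lit 0) (nat_lit 56010886780) (nat_lit 152) (nat_lit 189181864402) (nat_lit 0) (nat_lit 52331433483) (nat_lit 5) (nat_lit 5) (nat_lit 7) (nat_lit 4) (nat_lit 5) (nat_lit 4) (nat_lit 484) (nat_lit 394) (nat_lit 322))))) (XT.nd (nat_lit 234) (nat_lit 76) (nat_lit 0) (XT.nd (nat_lit 78) (nat_lit 0) (nat_lit 0) (XT.lf (nat_lit 0) (nat_lit 93895303041) (nat_lit 152) (nat_lit 134520067140) (nat_lit 0) (nat_lit 90214776631) (nat_lit 5) (nat_lit 5) (nat_lit 7) (nat_lit 4) (nat_lit 5) (nat_lit 4) (nat_lit 485) (nat_lit 394) (nat_lit 321)) (XT.nd (nat_lit 78) (nat_lit 0) (nat_lit 0) (XT.lf (nat_lit 0) (nat_lit 134791759525) (nat_lit 152)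 (nat_lit 75524083987) (nat_lit 0) (nat_lit 131110239491) (nat_lit 5) (nat_lit 5) (nat_lit 7) (nat_lit 4) (nat_lit 5) (nat_lit 4) (nat_lit 486) (nat_lit 394) (nat_lit 320)) (XT.lf (nat_lit 0) (nat_lit 178942605603) (nat_lit 152) (nat_lit 11844309118) (nat_lit 0) (nat_lit 175260165547) (nat_lit 5) (nat_lit 5) (nat_lit 7) (nat_lit 4) (nat_lit 5) (nat_lit 4) (nat_lit 487) (nat_lit 394) (nat_lit 319)))) (XT.nd (nat_lit 156) (nat_lit 0) (nat_lit 0) (XT.nd (nat_lit 78) (nat_lit 0) (nat_lit 0) (XT.lf (nat_lit 0) (nat_lit 59892694228) (nat_lit 76) (nat_lit 168157202427) (nat_lit 76) (nat_lit 164473910499) (nat_lit 4) (nat_lit 4) (nat_lit 5) (nat_lit 5) (nat_lit 5) (nat_lit 4) (nat_lit 488) (nat_lit 394) (nat_lit 318)) (XT.lf (nat_lit 0) (nat_lit 138009866784) (nat_lit 76) (nat_lit 143384114646) (nat_lit 76) (nat_lit 139700033947) (nat_lit 4) (nat_lit 4) (nat_lit 5) (nat_lit 5) (nat_lit 5) (nat_lit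 4) (nat_lit 489) (nat_lit 394) (nat_lit 317))) (XT.nd (nat_lit 78) (nat_lit 0) (nat_lit 0) (XT.lf (nat_lit 0) (nat_lit 222346424800) (nat_lit 76) (nat_lit 116644692295) (nat_lit 76) (nat_lit 112959881254) (nat_lit 4) (nat_lit 4) (nat_lit 5) (nat_lit 5) (nat_lit 5) (nat_lit 4) (nat_lit 490) (nat_lit 394) (nat_lit 316)) (XT.lf (nat_lit 0) (nat_lit 313402140471) (nat_lit 76) (nat_lit 87780479540) (nat_lit 76) (nat_lit 84094992254) (nat_lit 4) (nat_lit 4) (nat_lit 5) (nat_lit 5) (nat_lit 5) (nat_lit 4) (nat_lit 491) (nat_lit 394) (nat_lit 315)))))) (XT.nd (nat_lit 546) (nat_lit 76) (nat_lit 0) (XT.nd (nat_lit 234) (nat_lit 0) (nat_lit 0) (XT.nd (nat_lit 78) (nat_lit 152) (nat_lit 0) (XT.lf (nat_lit 0) (nat_lit 411716603223) (nat_lit 76) (nat_lit 56620429192) (nat_lit 76) (nat_lit 52934315755) (nat_lit 4) (nat_lit 4) (nat_lit 5) (nat_lit 5) (nat_lit 5) (nat_lit 4) (nat_lit 492) (nat_lit 394)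 (nat_lit 314)) (XT.nd (nat_lit 78) (nat_lit 152) (nat_lit 0) (XT.lf (nat_lit 0) (nat_lit 517872417280) (nat_lit 76) (nat_lit 22979889102) (nat_lit 76) (nat_lit 19293195895) (nat_lit 4) (nat_lit 4) (nat_lit 5) (nat_lit 5) (nat_lit 5) (nat_lit 4) (nat_lit 493) (nat_lit 394) (nat_lit 313)) (XT.lf (nat_lit 0) (nat_lit 17285550425) (nat_lit 152) (nat_lit 570851909689) (nat_lit 0) (nat_lit 13871448545) (nat_lit 2) (nat_lit 5) (nat_lit 4) (nat_lit 4) (nat_lit 2) (nat_lit 4) (nat_lit 494) (nat_lit 394) (nat_lit 312)))) (XT.nd (nat_lit 156) (nat_lit 0) (nat_lit 0) (XT.nd (nat_lit 78) (nat_lit 0) (nat_lit 0) (XT.lf (nat_lit 0) (nat_lit 57520072915) (nat_lit 152) (nat_lit 535413969284) (nat_lit 0) (nat_lit 54105510795) (nat_lit 2) (nat_lit 5) (nat_lit 4) (nat_lit 4) (nat_lit 2) (nat_lit 4) (nat_lit 495) (nat_lit 394) (nat_lit 311)) (XT.lf (nat_lit 0) (nat_lit 100963253077) (nat_lit 152) (nat_lit 497161939331)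 (nat_lit 0) (nat_lit 97548264808) (nat_lit 2) (nat_lit 5) (nat_lit 4) (nat_lit 4) (nat_lit 2) (nat_lit 4) (nat_lit 496) (nat_lit 394) (nat_lit 310))) (XT.nd (nat_lit 78) (nat_lit 0) (nat_lit 0) (XT.lf (nat_lit 0) (nat_lit 147872531978) (nat_lit 152) (nat_lit 455869141136) (nat_lit 0) (nat_lit 144457149128) (nat_lit 2) (nat_lit 5) (nat_lit 4) (nat_lit 4) (nat_lit 2) (nat_lit 4) (nat_lit 497) (nat_lit 394) (nat_lit 309)) (XT.lf (nat_lit 0) (nat_lit 198525890530) (nat_lit 152) (nat_lit 411290876634) (nat_lit 0) (nat_lit 195110142326) (nat_lit 2) (nat_lit 5) (nat_lit 4) (nat_lit 4) (nat_lit 2) (nat_lit 4) (nat_lit 498) (nat_lit 394) (nat_lit 308))))) (XT.nd (nat_lit 234) (nat_lit 76) (nat_lit 0) (XT.nd (nat_lit 78) (nat_lit 0) (nat_lit 0) (XT.lf (nat_lit 0) (nat_lit 253223496784) (nat_lit 152) (nat_lit 363162978334) (nat_lit 0) (nat_lit 249807410290) (nat_lit 2) (nat_lit 5) (nat_lit 4) (nat_lit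 4) (nat_lit 2) (nat_lit 4) (nat_lit 499) (nat_lit 394) (nat_lit 307)) (XT.nd (nat_lit 78) (nat_lit 0) (nat_lit 0) (XT.lf (nat_lit 0) (nat_lit 312289484703) (nat_lit 152) (nat_lit 311200243873) (nat_lit 0) (nat_lit 308873084978) (nat_lit 2) (nat_lit 5) (nat_lit 4) (nat_lit 4) (nat_lit 2) (nat_lit 4) (nat_lit 500) (nat_lit 394) (nat_lit 306)) (XT.lf (nat_lit 0) (nat_lit 376073874956) (nat_lit 152) (nat_lit 255094745937) (nat_lit 0) (nat_lit 372657185201) (nat_lit 2) (nat_lit 5) (nat_lit 4) (nat_lit 4) (nat_lit 2) (nat_lit 4) (nat_lit 501) (nat_lit 394) (nat_lit 305)))) (XT.nd (nat_lit 156) (nat_lit 76) (nat_lit 0) (XT.nd (nat_lit 78) (nat_lit 0) (nat_lit 0) (XT.lf (nat_lit 0) (nat_lit 444954649115) (nat_lit 152) (nat_lit 194514007501) (nat_lit 0) (nat_lit 441537690815) (nat_lit 2) (nat_lit 5) (nat_lit 4) (nat_lit 4) (nat_lit 2) (nat_lit 4) (nat_lit 502) (nat_lit 394) (nat_lit 304)) (XT.lf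 (nat_lit 0) (nat_lit 519339989545) (nat_lit 152) (nat_lit 129099031597) (nat_lit 0) (nat_lit 515922782592) (nat_lit 2) (nat_lit 5) (nat_lit 4) (nat_lit 4) (nat_lit 2) (nat_lit 4) (nat_lit 503) (nat_lit 394) (nat_lit 303))) (XT.nd (nat_lit 78) (nat_lit 76) (nat_lit 0) (XT.lf (nat_lit 0) (nat_lit 599670698264) (nat_lit 152) (nat_lit 58462173922) (nat_lit 0) (nat_lit 596253261076) (nat_lit 2) (nat_lit 5) (nat_lit 4) (nat_lit 4) (nat_lit 2) (nat_lit 4) (nat_lit 504) (nat_lit 394) (nat_lit 302)) (XT.lf (nat_lit 0) (nat_lit 18753268762) (nat_lit 76) (nat_lit 668120556903) (nat_lit 76) (nat_lit 664702906535) (nat_lit 1) (nat_lit 4) (nat_lit 2) (nat_lit 5) (nat_lit 2) (nat_lit 4) (nat_lit 505) (nat_lit 394) (nat_lit 301))))))) (XT.nd (nat_lit 1092) (nat_lit 0) (nat_lit 0) (XT.nd (nat_lit 546) (nat_lit 0) (nat_lit 0) (XT.nd (nat_lit 234) (nat_lit 0) (nat_lit 0) (XT.nd (nat_lit 78) (nat_lit 0) (nat_lit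 0) (XT.lf (nat_lit 0) (nat_lit 105460529705) (nat_lit 76) (nat_lit 677186207209) (nat_lit 76) (nat_lit 673768359452) (nat_lit 1) (nat_lit 4) (nat_lit 2) (nat_lit 5) (nat_lit 2) (nat_lit 4) (nat_lit 506) (nat_lit 394) (nat_lit 300)) (XT.nd (nat_lit 78) (nat_lit 0) (nat_lit 0) (XT.lf (nat_lit 0) (nat_lit 199094915236) (nat_lit 76) (nat_lit 686982004916) (nat_lit 76) (nat_lit 683563974391) (nat_lit 1) (nat_lit 4) (nat_lit 2) (nat_lit 5) (nat_lit 2) (nat_lit 4) (nat_lit 507) (nat_lit 394) (nat_lit 299)) (XT.lf (nat_lit 0) (nat_lit 300211295788) (nat_lit 76) (nat_lit 697565999196) (nat_lit 76) (nat_lit 694147799441) (nat_lit 1) (nat_lit 4) (nat_lit 2) (nat_lit 5) (nat_lit 2) (nat_lit 4) (nat_lit 508) (nat_lit 394) (nat_lit 298)))) (XT.nd (nat_lit 156) (nat_lit 0) (nat_lit 0) (XT.nd (nat_lit 78) (nat_lit 0) (nat_lit 0) (XT.lf (nat_lit 0) (nat_lit 409408879542) (nat_lit 76) (nat_lit 709000910013)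 (nat_lit 76) (nat_lit 705582553565) (nat_lit 1) (nat_lit 4) (nat_lit 2) (nat_lit 5) (nat_lit 2) (nat_lit 4) (nat_lit 509) (nat_lit 394) (nat_lit 297)) (XT.lf (nat_lit 0) (nat_lit 527334763290) (nat_lit 76) (nat_lit 721354499804) (nat_lit 76) (nat_lit 717935998269) (nat_lit 1) (nat_lit 4) (nat_lit 2) (nat_lit 5) (nat_lit 2) (nat_lit 4) (nat_lit 510) (nat_lit 394) (nat_lit 296))) (XT.nd (nat_lit 78) (nat_lit 0) (nat_lit 0) (XT.lf (nat_lit 0) (nat_lit 654687767085) (nat_lit 76) (nat_lit 734699975026) (nat_lit 76) (nat_lit 731281339151) (nat_lit 1) (nat_lit 4) (nat_lit 2) (nat_lit 5) (nat_lit 2) (nat_lit 4) (nat_lit 511) (nat_lit 394) (nat_lit 295)) (XT.lf (nat_lit 0) (nat_lit 792222575393) (nat_lit 76) (nat_lit 749116419976) (nat_lit 76) (nat_lit 745697659712) (nat_lit 1) (nat_lit 4) (nat_lit 2) (nat_lit 5) (nat_lit 2) (nat_lit 4) (nat_lit 512) (nat_lit 394) (nat_lit 294))))) (XT.nd (nat_lit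 234) (nat_lit 0) (nat_lit 0) (XT.nd (nat_lit 78) (nat_lit 0) (nat_lit 0) (XT.lf (nat_lit 0) (nat_lit 940754209300) (nat_lit 76) (nat_lit 764689265440) (nat_lit 76) (nat_lit 761270390002) (nat_lit 1) (nat_lit 4) (nat_lit 2) (nat_lit 5) (nat_lit 2) (nat_lit 4) (nat_lit 513) (nat_lit 394) (nat_lit 293)) (XT.nd (nat_lit 78) (nat_lit 0) (nat_lit 0) (XT.lf (nat_lit 0) (nat_lit 1101162856268) (nat_lit 76) (nat_lit 781510794945) (nat_lit 76) (nat_lit 778091812864) (nat_lit 1) (nat_lit 4) (nat_lit 2) (nat_lit 5) (nat_lit 2) (nat_lit 4) (nat_lit 514) (nat_lit 394) (nat_lit 292)) (XT.lf (nat_lit 0) (nat_lit 1274399086055) (nat_lit 76) (nat_lit 799680691631) (nat_lit 76) (nat_lit 796261610806) (nat_lit 1) (nat_lit 4) (nat_lit 2) (nat_lit 5) (nat_lit 2) (nat_lit 4) (nat_lit 515) (nat_lit 394) (nat_lit 291)))) (XT.nd (nat_lit 156) (nat_lit 0) (nat_lit 0) (XT.nd (nat_lit 78) (nat_lit 0) (nat_lit 0) (XT.lf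 (nat_lit 0) (nat_lit 1461489483727) (nat_lit 76) (nat_lit 819306628959) (nat_lit 76) (nat_lit 815887456705) (nat_lit 1) (nat_lit 4) (nat_lit 2) (nat_lit 5) (nat_lit 2) (nat_lit 4) (nat_lit 516) (nat_lit 394) (nat_lit 290)) (XT.lf (nat_lit 0) (nat_lit 1663542733121) (nat_lit 76) (nat_lit 840504908779) (nat_lit 76) (nat_lit 837085651868) (nat_lit 1) (nat_lit 4) (nat_lit 2) (nat_lit 5) (nat_lit 2) (nat_lit 4) (nat_lit 517) (nat_lit 394) (nat_lit 289))) (XT.nd (nat_lit 78) (nat_lit 0) (nat_lit 0) (XT.lf (nat_lit 0) (nat_lit 1881756186828) (nat_lit 76) (nat_lit 863401150528) (nat_lit 76) (nat_lit 859981815231) (nat_lit 1) (nat_lit 4) (nat_lit 2) (nat_lit 5) (nat_lit 2) (nat_lit 4) (nat_lit 518) (nat_lit 394) (nat_lit 288)) (XT.lf (nat_lit 0) (nat_lit 2117422961610) (nat_lit 76) (nat_lit 888131035638) (nat_lit 76) (nat_lit 884711627761) (nat_lit 1) (nat_lit 4) (nat_lit 2) (nat_lit 5) (nat_lit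 2) (nat_lit 4) (nat_lit 519) (nat_lit 394) (nat_lit 287)))))) (XT.nd (nat_lit 546) (nat_lit 0) (nat_lit 0) (XT.nd (nat_lit 234) (nat_lit 0) (nat_lit 0) (XT.nd (nat_lit 78) (nat_lit 0) (nat_lit 0) (XT.lf (nat_lit 0) (nat_lit 2371939601317) (nat_lit 76) (nat_lit 914841111576) (nat_lit 76) (nat_lit 911421636497) (nat_lit 1) (nat_lit 4) (nat_lit 2) (nat_lit 5) (nat_lit 2) (nat_lit 4) (nat_lit 520) (nat_lit 394) (nat_lit 286)) (XT.nd (nat_lit 78) (nat_lit 0) (nat_lit 0) (XT.lf (nat_lit 0) (nat_lit 2646814352703) (nat_lit 76) (nat_lit 943689660275) (nat_lit 76) (nat_lit 940270122970) (nat_lit 1) (nat_lit 4) (nat_lit 2) (nat_lit 5) (nat_lit 2) (nat_lit 4) (nat_lit 521) (nat_lit 394) (nat_lit 285)) (XT.lf (nat_lit 0) (nat_lit 2943676103184) (nat_lit 76) (nat_lit 974847636096) (nat_lit 76) (nat_lit 971428041175) (nat_lit 1) (nat_lit 4) (nat_lit 2) (nat_lit 5) (nat_lit 2) (nat_lit 4) (nat_lit 522)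 (nat_lit 394) (nat_lit 284)))) (XT.nd (nat_lit 156) (nat_lit 0) (nat_lit 0) (XT.nd (nat_lit 78) (nat_lit 0) (nat_lit 0) (XT.lf (nat_lit 0) (nat_lit 3264284033503) (nat_lit 76) (nat_lit 1008499678896) (nat_lit 76) (nat_lit 1005080030627) (nat_lit 1) (nat_lit 4) (nat_lit 2) (nat_lit 5) (nat_lit 2) (nat_lit 4) (nat_lit 523) (nat_lit 394) (nat_lit 283)) (XT.lf (nat_lit 0) (nat_lit 3610538042507) (nat_lit 76) (nat_lit 1044845208189) (nat_lit 76) (nat_lit 1041425510524) (nat_lit 1) (nat_lit 4) (nat_lit 2) (nat_lit 5) (nat_lit 2) (nat_lit 4) (nat_lit 524) (nat_lit 394) (nat_lit 282))) (XT.nd (nat_lit 78) (nat_lit 0) (nat_lit 0) (XT.lf (nat_lit 0) (nat_lit 3984490005804) (nat_lit 76) (nat_lit 1084099604889) (nat_lit 76) (nat_lit 1080679861485) (nat_lit 1) (nat_lit 4) (nat_lit 2) (nat_lit 5) (nat_lit 2) (nat_lit 4) (nat_lit 525) (nat_lit 394) (nat_lit 281)) (XT.lf (nat_lit 0) (nat_lit 4388355935029)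 (nat_lit 76) (nat_lit 1126495487642) (nat_lit 76) (nat_lit 1123075701889) (nat_lit 1) (nat_lit 4) (nat_lit 2) (nat_lit 5) (nat_lit 2) (nat_lit 4) (nat_lit 526) (nat_lit 394) (nat_lit 280))))) (XT.nd (nat_lit 312) (nat_lit 0) (nat_lit 0) (XT.nd (nat_lit 156) (nat_lit 0) (nat_lit 0) (XT.nd (nat_lit 78) (nat_lit 0) (nat_lit 0) (XT.lf (nat_lit 0) (nat_lit 4824529109763) (nat_lit 76) (nat_lit 1172284091309) (nat_lit 76) (nat_lit 1168864266344) (nat_lit 1) (nat_lit 4) (nat_lit 2) (nat_lit 5) (nat_lit 2) (nat_lit 4) (nat_lit 527) (nat_lit 394) (nat_lit 279)) (XT.lf (nat_lit 0) (nat_lit 5295594259930) (nat_lit 76) (nat_lit 1221736755765) (nat_lit 76) (nat_lit 1218316894492) (nat_lit 1) (nat_lit 4) (nat_lit 2) (nat_lit 5) (nat_lit 2) (nat_lit 4) (nat_lit 528) (nat_lit 394) (nat_lit 278))) (XT.nd (nat_lit 78) (nat_lit 0) (nat_lit 0) (XT.lf (nat_lit 0) (nat_lit 5804342882715) (nat_lit 76) (nat_lit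 1275146533834) (nat_lit 76) (nat_lit 1271726638943) (nat_lit 1) (nat_lit 4) (nat_lit 2) (nat_lit 5) (nat_lit 2) (nat_lit 4) (nat_lit 529) (nat_lit 394) (nat_lit 277)) (XT.lf (nat_lit 0) (nat_lit 6353789784774) (nat_lit 76) (nat_lit 1332829927907) (nat_lit 76) (nat_lit 1329410001888) (nat_lit 1) (nat_lit 4) (nat_lit 2) (nat_lit 5) (nat_lit 2) (nat_lit 4) (nat_lit 530) (nat_lit 394) (nat_lit 276)))) (XT.nd (nat_lit 156) (nat_lit 0) (nat_lit 0) (XT.nd (nat_lit 78) (nat_lit 0) (nat_lit 0) (XT.lf (nat_lit 0) (nat_lit 6947190947746) (nat_lit 76) (nat_lit 1395128765504) (nat_lit 76) (nat_lit 1391708810662) (nat_lit 1) (nat_lit 4) (nat_lit 2) (nat_lit 5) (nat_lit 2) (nat_lit 4) (nat_lit 531) (nat_lit 394) (nat_lit 275)) (XT.lf (nat_lit 0) (nat_lit 7588062822970) (nat_lit 76) (nat_lit 1462412224920) (nat_lit 76) (nat_lit 1458992243391) (nat_lit 1) (nat_lit 4) (nat_lit 2) (nat_lit 5) (nat_lit 2) (nat_lit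 4) (nat_lit 532) (nat_lit 394) (nat_lit 274))) (XT.nd (nat_lit 78) (nat_lit 0) (nat_lit 0) (XT.lf (nat_lit 0) (nat_lit 8280203169704) (nat_lit 76) (nat_lit 1535079022954) (nat_lit 76) (nat_lit 1531659016714) (nat_lit 1) (nat_lit 4) (nat_lit 2) (nat_lit 5) (nat_lit 2) (nat_lit 4) (nat_lit 533) (nat_lit 394) (nat_lit 273)) (XT.lf (nat_lit 0) (nat_lit 9027713560375) (nat_lit 76) (nat_lit 1613559777667) (nat_lit 76) (nat_lit 1610139748547) (nat_lit 1) (nat_lit 4) (nat_lit 2) (nat_lit 5) (nat_lit 2) (nat_lit 4) (nat_lit 534) (nat_lit 394) (nat_lit 272))))))))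
noncomputable def xc80 : XT := (XT.nd (nat_lit 54132) (nat_lit 0) (nat_lit 1672) (XT.nd (nat_lit 53040) (nat_lit 0) (nat_lit 3876) (XT.nd (nat_lit 546) (nat_lit 0) (nat_lit 0) (XT.nd (nat_lit 234) (nat_lit 0) (nat_lit 0) (XT.nd (nat_lit 78) (nat_lit 0) (nat_lit 0) (XT.lf (nat_lit 0) (nat_lit 9835023686186) (nat_lit 76) (nat_lit 1698319560198) (nat_lit 76) (nat_lit 1694899509893) (nat_lit 1) (nat_lit 4) (nat_lit 2) (nat_lit 5) (nat_lit 2) (nat_lit 4) (nat_lit 535) (nat_lit 394) (nat_lit 271)) (XT.nd (nat_lit 78) (nat_lit 0) (nat_lit 0) (XT.lf (nat_lit 0) (nat_lit 10706917607141) (nat_lit 76) (nat_lit 1789860650740) (nat_lit 76) (nat_lit 1786440580819) (nat_lit 1) (nat_lit 4) (nat_lit 2) (nat_lit 5) (nat_lit 2) (nat_lit 4) (nat_lit 536) (nat_lit 394) (nat_lit 270)) (XT.lf (nat_lit 0) (nat_lit 11648562102033) (nat_lit 76) (nat_lit 1888725515015) (nat_lit 76) (nat_lit 1885305426931) (nat_lit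 1) (nat_lit 4) (nat_lit 2) (nat_lit 5) (nat_lit 2) (nat_lit 4) (nat_lit 537) (nat_lit 394) (nat_lit 269)))) (XT.nd (nat_lit 156) (nat_lit 0) (nat_lit 0) (XT.nd (nat_lit 78) (nat_lit 0) (nat_lit 0) (XT.lf (nat_lit 0) (nat_lit 12665537286386) (nat_lit 76) (nat_lit 1995500018885) (nat_lit 76) (nat_lit 1992079913984) (nat_lit 1) (nat_lit 4) (nat_lit 2) (nat_lit 5) (nat_lit 2) (nat_lit 4) (nat_lit 538) (nat_lit 394) (nat_lit 268)) (XT.lf (nat_lit 0) (nat_lit 13763869679811) (nat_lit 76) (nat_lit 2110816900151) (nat_lit 76) (nat_lit 2107396779678) (nat_lit 1) (nat_lit 4) (nat_lit 2) (nat_lit 5) (nat_lit 2) (nat_lit 4) (nat_lit 539) (nat_lit 394) (nat_lit 267))) (XT.nd (nat_lit 78) (nat_lit 0) (nat_lit 0) (XT.lf (nat_lit 0) (nat_lit 14950067918713) (nat_lit 76) (nat_lit 2235359518109) (nat_lit 76) (nat_lit 2231939383218) (nat_lit 1) (nat_lit 4) (nat_lit 2) (nat_lit 5) (nat_lit 2) (nat_lit 4) (nat_lit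 540) (nat_lit 394) (nat_lit 266)) (XT.lf (nat_lit 0) (nat_lit 16231161325991) (nat_lit 76) (nat_lit 2369865903089) (nat_lit 76) (nat_lit 2366445754847) (nat_lit 1) (nat_lit 4) (nat_lit 2) (nat_lit 5) (nat_lit 2) (nat_lit 4) (nat_lit 541) (nat_lit 394) (nat_lit 265))))) (XT.nd (nat_lit 52182) (nat_lit 0) (nat_lit 6080) (XT.nd (nat_lit 78) (nat_lit 0) (nat_lit 0) (XT.lf (nat_lit 0) (nat_lit 17614741566279) (nat_lit 76) (nat_lit 2515133129963) (nat_lit 76) (nat_lit 2511712969360) (nat_lit 1) (nat_lit 4) (nat_lit 2) (nat_lit 5) (nat_lit 2) (nat_lit 4) (nat_lit 542) (nat_lit 394) (nat_lit 264)) (XT.nd (nat_lit 78) (nat_lit 0) (nat_lit 0) (XT.lf (nat_lit 0) (nat_lit 19109007633593) (nat_lit 76) (nat_lit 2672022041558) (nat_lit 76) (nat_lit 2668601869509) (nat_lit 1) (nat_lit 4) (nat_lit 2) (nat_lit 5) (nat_lit 2) (nat_lit 4) (nat_lit 543) (nat_lit 394) (nat_lit 263)) (XT.lf (nat_lit 0) (nat_lit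 20722814437964) (nat_lit 76) (nat_lit 2841462349942) (nat_lit 76) (nat_lit 2838042167295) (nat_lit 1) (nat_lit 4) (nat_lit 2) (nat_lit 5) (nat_lit 2) (nat_lit 4) (nat_lit 544) (nat_lit 394) (nat_lit 262)))) (XT.nd (nat_lit 156) (nat_lit 304) (nat_lit 0) (XT.nd (nat_lit 78) (nat_lit 532) (nat_lit 0) (XT.lf (nat_lit 0) (nat_lit 622843879) (nat_lit 532) (nat_lit 2333065729) (nat_lit 0) (nat_lit 622843879) (nat_lit 92) (nat_lit 5) (nat_lit 99) (nat_lit 4) (nat_lit 92) (nat_lit 4) (nat_lit 410) (nat_lit 395) (nat_lit 395)) (XT.lf (nat_lit 0) (nat_lit 760381492) (nat_lit 532) (nat_lit 4078596216) (nat_lit 532) (nat_lit 2472015745) (nat_lit 85) (nat_lit 4) (nat_lit 92) (nat_lit 5) (nat_lit 92) (nat_lit 4) (nat_lit 411) (nat_lit 395) (nat_lit 394))) (XT.nd (nat_lit 78) (nat_lit 228) (nat_lit 0) (XT.lf (nat_lit 0) (nat_lit 1043704923) (nat_lit 608) (nat_lit 923248740) (nat_lit 76) (nat_lit 5518417576)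 (nat_lit 84) (nat_lit 5) (nat_lit 92) (nat_lit 5) (nat_lit 85) (nat_lit 4) (nat_lit 412) (nat_lit 395) (nat_lit 393)) (XT.lf (nat_lit 0) (nat_lit 4592033458) (nat_lit 304) (nat_lit 2634051164) (nat_lit 0) (nat_lit 451719766) (nat_lit 81) (nat_lit 5) (nat_lit 85) (nat_lit 4) (nat_lit 81) (nat_lit 4) (nat_lit 413) (nat_lit 395) (nat_lit 392)))))) (XT.nd (nat_lit 546) (nat_lit 836) (nat_lit 0) (XT.nd (nat_lit 234) (nat_lit 608) (nat_lit 0) (XT.nd (nat_lit 78) (nat_lit 456) (nat_lit 0) (XT.lf (nat_lit 0) (nat_lit 432840646) (nat_lit 304) (nat_lit 4420889755) (nat_lit 76) (nat_lit 3037199740) (nat_lit 77) (nat_lit 5) (nat_lit 81) (nat_lit 5) (nat_lit 78) (nat_lit 4) (nat_lit 414) (nat_lit 395) (nat_lit 391)) (XT.nd (nat_lit 78) (nat_lit 228) (nat_lit 0) (XT.lf (nat_lit 0) (nat_lit 1802757141) (nat_lit 228) (nat_lit 2147900125) (nat_lit 304) (nat_lit 4173309502) (nat_lit 74) (nat_lit 5) (nat_lit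 77) (nat_lit 5) (nat_lit 78) (nat_lit 4) (nat_lit 415) (nat_lit 395) (nat_lit 390)) (XT.lf (nat_lit 0) (nat_lit 81269289) (nat_lit 228) (nat_lit 7588831930) (nat_lit 228) (nat_lit 711953978) (nat_lit 71) (nat_lit 4) (nat_lit 74) (nat_lit 5) (nat_lit 74) (nat_lit 4) (nat_lit 416) (nat_lit 395) (nat_lit 389)))) (XT.nd (nat_lit 156) (nat_lit 380) (nat_lit 0) (XT.nd (nat_lit 78) (nat_lit 152) (nat_lit 0) (XT.lf (nat_lit 0) (nat_lit 2887371092) (nat_lit 304) (nat_lit 1739131518) (nat_lit 76) (nat_lit 4027490974) (nat_lit 70) (nat_lit 5) (nat_lit 74) (nat_lit 5) (nat_lit 71) (nat_lit 4) (nat_lit 417) (nat_lit 395) (nat_lit 388)) (XT.lf (nat_lit 0) (nat_lit 5302994660) (nat_lit 152) (nat_lit 1356403547) (nat_lit 228) (nat_lit 2292971720) (nat_lit 68) (nat_lit 5) (nat_lit 70) (nat_lit 5) (nat_lit 71) (nat_lit 4) (nat_lit 418) (nat_lit 395) (nat_lit 387))) (XT.nd (nat_lit 78) (nat_lit 152) (nat_lit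 0) (XT.lf (nat_lit 0) (nat_lit 1373986393) (nat_lit 228) (nat_lit 5746470547) (nat_lit 76) (nat_lit 2152299868) (nat_lit 65) (nat_lit 5) (nat_lit 68) (nat_lit 5) (nat_lit 66) (nat_lit 4) (nat_lit 419) (nat_lit 395) (nat_lit 386)) (XT.lf (nat_lit 0) (nat_lit 1552817315) (nat_lit 152) (nat_lit 3637170554) (nat_lit 228) (nat_lit 4425672589) (nat_lit 63) (nat_lit 5) (nat_lit 65) (nat_lit 5) (nat_lit 66) (nat_lit 4) (nat_lit 420) (nat_lit 395) (nat_lit 385))))) (XT.nd (nat_lit 234) (nat_lit 532) (nat_lit 0) (XT.nd (nat_lit 78) (nat_lit 304) (nat_lit 0) (XT.lf (nat_lit 0) (nat_lit 9285005485) (nat_lit 228) (nat_lit 522817600) (nat_lit 0) (nat_lit 180289040) (nat_lit 63) (nat_lit 5) (nat_lit 66) (nat_lit 4) (nat_lit 63) (nat_lit 4) (nat_lit 421) (nat_lit 395) (nat_lit 384)) (XT.nd (nat_lit 78) (nat_lit 76) (nat_lit 0) (XT.lf (nat_lit 0) (nat_lit 3255437421) (nat_lit 228) (nat_lit 2839867773) (nat_lit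 76) (nat_lit 4280355562) (nat_lit 60) (nat_lit 5) (nat_lit 63) (nat_lit 5) (nat_lit 61) (nat_lit 4) (nat_lit 422) (nat_lit 395) (nat_lit 383)) (XT.lf (nat_lit 0) (nat_lit 5444900148) (nat_lit 76) (nat_lit 2019053353) (nat_lit 152) (nat_lit 3331108411) (nat_lit 59) (nat_lit 5) (nat_lit 60) (nat_lit 5) (nat_lit 61) (nat_lit 4) (nat_lit 423) (nat_lit 395) (nat_lit 382)))) (XT.nd (nat_lit 156) (nat_lit 228) (nat_lit 0) (XT.nd (nat_lit 78) (nat_lit 76) (nat_lit 0) (XT.lf (nat_lit 0) (nat_lit 765431409) (nat_lit 228) (nat_lit 8143395218) (nat_lit 76) (nat_lit 2334344384) (nat_lit 56) (nat_lit 5) (nat_lit 59) (nat_lit 5) (nat_lit 57) (nat_lit 4) (nat_lit 424) (nat_lit 395) (nat_lit 381)) (XT.lf (nat_lit 0) (nat_lit 402057000) (nat_lit 76) (nat_lit 4650738013) (nat_lit 152) (nat_lit 6663975888) (nat_lit 55) (nat_lit 5) (nat_lit 56) (nat_lit 5) (nat_lit 57) (nat_lit 4) (nat_lit 425) (nat_lit 395)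 (nat_lit 380))) (XT.nd (nat_lit 78) (nat_lit 228) (nat_lit 0) (XT.lf (nat_lit 0) (nat_lit 9744076429) (nat_lit 152) (nat_lit 2413430509) (nat_lit 0) (nat_lit 65886069) (nat_lit 55) (nat_lit 5) (nat_lit 57) (nat_lit 4) (nat_lit 55) (nat_lit 4) (nat_lit 426) (nat_lit 395) (nat_lit 379)) (XT.lf (nat_lit 0) (nat_lit 2080881677) (nat_lit 228) (nat_lit 5645471697) (nat_lit 76) (nat_lit 5028847946) (nat_lit 52) (nat_lit 5) (nat_lit 55) (nat_lit 5) (nat_lit 53) (nat_lit 4) (nat_lit 427) (nat_lit 395) (nat_lit 378))))))) (XT.nd (nat_lit 1092) (nat_lit 1064) (nat_lit 0) (XT.nd (nat_lit 546) (nat_lit 532) (nat_lit 0) (XT.nd (nat_lit 234) (nat_lit 304) (nat_lit 0) (XT.nd (nat_lit 78) (nat_lit 228) (nat_lit 0) (XT.lf (nat_lit 0) (nat_lit 4073138585) (nat_lit 76) (nat_lit 2811702463) (nat_lit 152) (nat_lit 6438536768) (nat_lit 51) (nat_lit 5) (nat_lit 52) (nat_lit 5) (nat_lit 53) (nat_lit 4) (nat_lit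 428) (nat_lit 395) (nat_lit 377)) (XT.nd (nat_lit 78) (nat_lit 76) (nat_lit 0) (XT.lf (nat_lit 0) (nat_lit 660289202) (nat_lit 152) (nat_lit 11496447356) (nat_lit 152) (nat_lit 1773588587) (nat_lit 49) (nat_lit 4) (nat_lit 51) (nat_lit 5) (nat_lit 51) (nat_lit 4) (nat_lit 429) (nat_lit 395) (nat_lit 376)) (XT.lf (nat_lit 0) (nat_lit 3284041955) (nat_lit 228) (nat_lit 3109264015) (nat_lit 76) (nat_lit 8171623227) (nat_lit 48) (nat_lit 5) (nat_lit 51) (nat_lit 5) (nat_lit 49) (nat_lit 4) (nat_lit 430) (nat_lit 395) (nat_lit 375)))) (XT.nd (nat_lit 156) (nat_lit 152) (nat_lit 0) (XT.nd (nat_lit 78) (nat_lit 76) (nat_lit 0) (XT.lf (nat_lit 0) (nat_lit 7961684396) (nat_lit 76) (nat_lit 741622515) (nat_lit 152) (nat_lit 6539086750) (nat_lit 47) (nat_lit 5) (nat_lit 48) (nat_lit 5) (nat_lit 49) (nat_lit 4) (nat_lit 431) (nat_lit 395) (nat_lit 374)) (XT.lf (nat_lit 0) (nat_lit 3937219133) (nat_lit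 76) (nat_lit 10792681246) (nat_lit 76) (nat_lit 1230256523) (nat_lit 46) (nat_lit 4) (nat_lit 47) (nat_lit 5) (nat_lit 47) (nat_lit 4) (nat_lit 432) (nat_lit 395) (nat_lit 373))) (XT.nd (nat_lit 78) (nat_lit 76) (nat_lit 0) (XT.lf (nat_lit 0) (nat_lit 4365109958) (nat_lit 152) (nat_lit 642653691) (nat_lit 76) (nat_lit 11711949011) (nat_lit 45) (nat_lit 5) (nat_lit 47) (nat_lit 5) (nat_lit 46) (nat_lit 4) (nat_lit 433) (nat_lit 395) (nat_lit 372)) (XT.lf (nat_lit 0) (nat_lit 10538839243) (nat_lit 152) (nat_lit 5582834606) (nat_lit 0) (nat_lit 1400030362) (nat_lit 44) (nat_lit 5) (nat_lit 46) (nat_lit 4) (nat_lit 44) (nat_lit 4) (nat_lit 434) (nat_lit 395) (nat_lit 371))))) (XT.nd (nat_lit 234) (nat_lit 304) (nat_lit 0) (XT.nd (nat_lit 78) (nat_lit 152) (nat_lit 0) (XT.lf (nat_lit 0) (nat_lit 7165705329) (nat_lit 76) (nat_lit 10236040559) (nat_lit 76) (nat_lit 970490263) (nat_lit 43) (nat_lit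 4) (nat_lit 44) (nat_lit 5) (nat_lit 44) (nat_lit 4) (nat_lit 435) (nat_lit 395) (nat_lit 370)) (XT.nd (nat_lit 78) (nat_lit 0) (nat_lit 0) (XT.lf (nat_lit 0) (nat_lit 1680560575) (nat_lit 76) (nat_lit 3638412517) (nat_lit 152) (nat_lit 13955424417) (nat_lit 41) (nat_lit 5) (nat_lit 42) (nat_lit 5) (nat_lit 43) (nat_lit 4) (nat_lit 436) (nat_lit 395) (nat_lit 369)) (XT.lf (nat_lit 0) (nat_lit 12333642711) (nat_lit 152) (nat_lit 4345958961) (nat_lit 0) (nat_lit 3545157716) (nat_lit 41) (nat_lit 5) (nat_lit 43) (nat_lit 4) (nat_lit 41) (nat_lit 4) (nat_lit 437) (nat_lit 395) (nat_lit 368)))) (XT.nd (nat_lit 156) (nat_lit 76) (nat_lit 0) (XT.nd (nat_lit 78) (nat_lit 152) (nat_lit 0) (XT.lf (nat_lit 0) (nat_lit 10152274078) (nat_lit 76) (nat_lit 9981297737) (nat_lit 76) (nat_lit 1099654019) (nat_lit 40) (nat_lit 4) (nat_lit 41) (nat_lit 5) (nat_lit 41) (nat_lit 4) (nat_lit 438) (nat_lit 395)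 (nat_lit 367)) (XT.lf (nat_lit 0) (nat_lit 3545790466) (nat_lit 76) (nat_lit 2470407736) (nat_lit 152) (nat_lit 16286738828) (nat_lit 38) (nat_lit 5) (nat_lit 39) (nat_lit 5) (nat_lit 40) (nat_lit 4) (nat_lit 439) (nat_lit 395) (nat_lit 366))) (XT.nd (nat_lit 78) (nat_lit 76) (nat_lit 0) (XT.lf (nat_lit 0) (nat_lit 13974880344) (nat_lit 152) (nat_lit 3857108855) (nat_lit 0) (nat_lit 5597315172) (nat_lit 38) (nat_lit 5) (nat_lit 40) (nat_lit 4) (nat_lit 38) (nat_lit 4) (nat_lit 440) (nat_lit 395) (nat_lit 365)) (XT.lf (nat_lit 0) (nat_lit 12593453366) (nat_lit 76) (nat_lit 10238708401) (nat_lit 76) (nat_lit 1792668785) (nat_lit 37) (nat_lit 4) (nat_lit 38) (nat_lit 5) (nat_lit 38) (nat_lit 4) (nat_lit 441) (nat_lit 395) (nat_lit 364)))))) (XT.nd (nat_lit 546) (nat_lit 456) (nat_lit 0) (XT.nd (nat_lit 234) (nat_lit 380) (nat_lit 0) (XT.nd (nat_lit 78) (nat_lit 76) (nat_lit 0) (XT.lf (nat_lit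 0) (nat_lit 4532388820) (nat_lit 76) (nat_lit 1737722092) (nat_lit 152) (nat_lit 19624430750) (nat_lit 35) (nat_lit 5) (nat_lit 36) (nat_lit 5) (nat_lit 37) (nat_lit 4) (nat_lit 442) (nat_lit 395) (nat_lit 363)) (XT.nd (nat_lit 78) (nat_lit 76) (nat_lit 0) (XT.lf (nat_lit 0) (nat_lit 15293204921) (nat_lit 152) (nat_lit 4576194904) (nat_lit 0) (nat_lit 7359734850) (nat_lit 35) (nat_lit 5) (nat_lit 37) (nat_lit 4) (nat_lit 35) (nat_lit 4) (nat_lit 443) (nat_lit 395) (nat_lit 362)) (XT.lf (nat_lit 0) (nat_lit 14015999060) (nat_lit 76) (nat_lit 11307725979) (nat_lit 76) (nat_lit 3323925149) (nat_lit 34) (nat_lit 4) (nat_lit 35) (nat_lit 5) (nat_lit 35) (nat_lit 4) (nat_lit 444) (nat_lit 395) (nat_lit 361)))) (XT.nd (nat_lit 156) (nat_lit 228) (nat_lit 0) (XT.nd (nat_lit 78) (nat_lit 0) (nat_lit 0) (XT.lf (nat_lit 0) (nat_lit 4048882605) (nat_lit 76) (nat_lit 1758466428) (nat_lit 152) (nat_lit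 24350454828) (nat_lit 32) (nat_lit 5) (nat_lit 33) (nat_lit 5) (nat_lit 34) (nat_lit 4) (nat_lit 445) (nat_lit 395) (nat_lit 360)) (XT.lf (nat_lit 0) (nat_lit 16009651957) (nat_lit 152) (nat_lit 7196464587) (nat_lit 0) (nat_lit 8534139087) (nat_lit 32) (nat_lit 5) (nat_lit 34) (nat_lit 4) (nat_lit 32) (nat_lit 4) (nat_lit 446) (nat_lit 395) (nat_lit 359))) (XT.nd (nat_lit 78) (nat_lit 152) (nat_lit 0) (XT.lf (nat_lit 0) (nat_lit 13689210527) (nat_lit 76) (nat_lit 13624863351) (nat_lit 76) (nat_lit 6112355870) (nat_lit 31) (nat_lit 4) (nat_lit 32) (nat_lit 5) (nat_lit 32) (nat_lit 4) (nat_lit 447) (nat_lit 395) (nat_lit 358)) (XT.lf (nat_lit 0) (nat_lit 1196111253) (nat_lit 76) (nat_lit 3007193075) (nat_lit 152) (nat_lit 31024622690) (nat_lit 29) (nat_lit 5) (nat_lit 30) (nat_lit 5) (nat_lit 31) (nat_lit 4) (nat_lit 448) (nat_lit 395) (nat_lit 357))))) (XT.nd (nat_lit 234) (nat_lit 304) (nat_lit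 0) (XT.nd (nat_lit 78) (nat_lit 152) (nat_lit 0) (XT.lf (nat_lit 0) (nat_lit 15682565027) (nat_lit 152) (nat_lit 12759337783) (nat_lit 0) (nat_lit 8665455151) (nat_lit 29) (nat_lit 5) (nat_lit 31) (nat_lit 4) (nat_lit 29) (nat_lit 4) (nat_lit 449) (nat_lit 395) (nat_lit 356)) (XT.nd (nat_lit 78) (nat_lit 76) (nat_lit 0) (XT.lf (nat_lit 0) (nat_lit 10495849320) (nat_lit 76) (nat_lit 17832856821) (nat_lit 76) (nat_lit 10788554801) (nat_lit 28) (nat_lit 4) (nat_lit 29) (nat_lit 5) (nat_lit 29) (nat_lit 4) (nat_lit 450) (nat_lit 395) (nat_lit 355)) (XT.lf (nat_lit 0) (nat_lit 939674128) (nat_lit 152) (nat_lit 5114957743) (nat_lit 76) (nat_lit 35209897826) (nat_lit 27) (nat_lit 5) (nat_lit 29) (nat_lit 5) (nat_lit 28) (nat_lit 4) (nat_lit 451) (nat_lit 395) (nat_lit 354)))) (XT.nd (nat_lit 156) (nat_lit 152) (nat_lit 0) (XT.nd (nat_lit 78) (nat_lit 76) (nat_lit 0) (XT.lf (nat_lit 0) (nat_lit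 13628466288) (nat_lit 152) (nat_lit 22823217559) (nat_lit 0) (nat_lit 7061065537) (nat_lit 26) (nat_lit 5) (nat_lit 28) (nat_lit 4) (nat_lit 26) (nat_lit 4) (nat_lit 452) (nat_lit 395) (nat_lit 353)) (XT.lf (nat_lit 0) (nat_lit 2741890529) (nat_lit 76) (nat_lit 24881520261) (nat_lit 76) (nat_lit 18294132473) (nat_lit 25) (nat_lit 4) (nat_lit 26) (nat_lit 5) (nat_lit 26) (nat_lit 4) (nat_lit 453) (nat_lit 395) (nat_lit 352))) (XT.nd (nat_lit 78) (nat_lit 152) (nat_lit 0) (XT.lf (nat_lit 0) (nat_lit 31500074312) (nat_lit 76) (nat_lit 11788255414) (nat_lit 76) (nat_lit 5182361110) (nat_lit 25) (nat_lit 4) (nat_lit 26) (nat_lit 5) (nat_lit 26) (nat_lit 4) (nat_lit 454) (nat_lit 395) (nat_lit 351)) (XT.lf (nat_lit 0) (nat_lit 8804683372) (nat_lit 152) (nat_lit 39711847488) (nat_lit 0) (nat_lit 2672248217) (nat_lit 23) (nat_lit 5) (nat_lit 25) (nat_lit 4) (nat_lit 23) (nat_lit 4) (nat_lit 455)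 (nat_lit 395) (nat_lit 350))))))))
noncomputable def xc81 : XT := (XT.nd (nat_lit 2184) (nat_lit 456) (nat_lit 0) (XT.nd (nat_lit 1092) (nat_lit 456) (nat_lit 0) (XT.nd (nat_lit 546) (nat_lit 380) (nat_lit 0) (XT.nd (nat_lit 234) (nat_lit 304) (nat_lit 0) (XT.nd (nat_lit 78) (nat_lit 76) (nat_lit 0) (XT.lf (nat_lit 0) (nat_lit 24343124096) (nat_lit 152) (nat_lit 11517431075) (nat_lit 0) (nat_lit 18195997873) (nat_lit 23) (nat_lit 5) (nat_lit 25) (nat_lit 4) (nat_lit 23) (nat_lit 4) (nat_lit 456) (nat_lit 395) (nat_lit 349)) (XT.nd (nat_lit 78) (nat_lit 0) (nat_lit 0) (XT.lf (nat_lit 0) (nat_lit 19790300532) (nat_lit 76) (nat_lit 21745637014) (nat_lit 76) (nat_lit 15584907949) (nat_lit 22) (nat_lit 4) (nat_lit 23) (nat_lit 5) (nat_lit 23) (nat_lit 4) (nat_lit 457) (nat_lit 395) (nat_lit 348)) (XT.lf (nat_lit 0) (nat_lit 54128775649) (nat_lit 76) (nat_lit 6227337669) (nat_lit 76) (nat_lit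 54013380) (nat_lit 22) (nat_lit 4) (nat_lit 23) (nat_lit 5) (nat_lit 23) (nat_lit 4) (nat_lit 458) (nat_lit 395) (nat_lit 347)))) (XT.nd (nat_lit 156) (nat_lit 152) (nat_lit 0) (XT.nd (nat_lit 78) (nat_lit 0) (nat_lit 0) (XT.lf (nat_lit 0) (nat_lit 16779617953) (nat_lit 152) (nat_lit 36026255299) (nat_lit 0) (nat_lit 11052778571) (nat_lit 20) (nat_lit 5) (nat_lit 22) (nat_lit 4) (nat_lit 20) (nat_lit 4) (nat_lit 459) (nat_lit 395) (nat_lit 346)) (XT.lf (nat_lit 0) (nat_lit 35235244693) (nat_lit 152) (nat_lit 2827037640) (nat_lit 0) (nat_lit 29498406815) (nat_lit 20) (nat_lit 5) (nat_lit 22) (nat_lit 4) (nat_lit 20) (nat_lit 4) (nat_lit 460) (nat_lit 395) (nat_lit 345))) (XT.nd (nat_lit 78) (nat_lit 76) (nat_lit 0) (XT.lf (nat_lit 0) (nat_lit 34647847526) (nat_lit 76) (nat_lit 21297449926) (nat_lit 76) (nat_lit 15551354184) (nat_lit 19) (nat_lit 4) (nat_lit 20) (nat_lit 5) (nat_lit 20) (nat_lit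 4) (nat_lit 461) (nat_lit 395) (nat_lit 344)) (XT.lf (nat_lit 0) (nat_lit 2460403518) (nat_lit 152) (nat_lit 637028522) (nat_lit 76) (nat_lit 72643202074) (nat_lit 18) (nat_lit 5) (nat_lit 20) (nat_lit 5) (nat_lit 19) (nat_lit 4) (nat_lit 462) (nat_lit 395) (nat_lit 343))))) (XT.nd (nat_lit 234) (nat_lit 228) (nat_lit 0) (XT.nd (nat_lit 78) (nat_lit 76) (nat_lit 0) (XT.lf (nat_lit 0) (nat_lit 22415221063) (nat_lit 152) (nat_lit 40689740394) (nat_lit 0) (nat_lit 17079475723) (nat_lit 17) (nat_lit 5) (nat_lit 19) (nat_lit 4) (nat_lit 17) (nat_lit 4) (nat_lit 463) (nat_lit 395) (nat_lit 342)) (XT.nd (nat_lit 78) (nat_lit 76) (nat_lit 0) (XT.lf (nat_lit 0) (nat_lit 44013632989) (nat_lit 152) (nat_lit 2295252126) (nat_lit 0) (nat_lit 38671082841) (nat_lit 17) (nat_lit 5) (nat_lit 19) (nat_lit 4) (nat_lit 17) (nat_lit 4) (nat_lit 464) (nat_lit 395) (nat_lit 341)) (XT.lf (nat_lit 0) (nat_lit 41130938410)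 (nat_lit 76) (nat_lit 27150852021) (nat_lit 76) (nat_lit 21802001125) (nat_lit 16) (nat_lit 4) (nat_lit 17) (nat_lit 5) (nat_lit 17) (nat_lit 4) (nat_lit 465) (nat_lit 395) (nat_lit 340)))) (XT.nd (nat_lit 156) (nat_lit 76) (nat_lit 0) (XT.nd (nat_lit 78) (nat_lit 152) (nat_lit 0) (XT.lf (nat_lit 0) (nat_lit 88066829943) (nat_lit 76) (nat_lit 6441222030) (nat_lit 76) (nat_lit 1086537109) (nat_lit 16) (nat_lit 4) (nat_lit 17) (nat_lit 5) (nat_lit 17) (nat_lit 4) (nat_lit 466) (nat_lit 395) (nat_lit 339)) (XT.lf (nat_lit 0) (nat_lit 21523615723) (nat_lit 152) (nat_lit 63316926059) (nat_lit 0) (nat_lit 16560572393) (nat_lit 14) (nat_lit 5) (nat_lit 16) (nat_lit 4) (nat_lit 14) (nat_lit 4) (nat_lit 467) (nat_lit 395) (nat_lit 338))) (XT.nd (nat_lit 78) (nat_lit 76) (nat_lit 0) (XT.lf (nat_lit 0) (nat_lit 46218595420) (nat_lit 152) (nat_lit 20173610119) (nat_lit 0) (nat_lit 41250920852) (nat_lit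 14) (nat_lit 5) (nat_lit 16) (nat_lit 4) (nat_lit 14) (nat_lit 4) (nat_lit 468) (nat_lit 395) (nat_lit 337)) (XT.lf (nat_lit 0) (nat_lit 27724503932) (nat_lit 76) (nat_lit 45790928886) (nat_lit 76) (nat_lit 40818966135) (nat_lit 13) (nat_lit 4) (nat_lit 14) (nat_lit 5) (nat_lit 14) (nat_lit 4) (nat_lit 469) (nat_lit 395) (nat_lit 336)))))) (XT.nd (nat_lit 546) (nat_lit 228) (nat_lit 0) (XT.nd (nat_lit 234) (nat_lit 76) (nat_lit 0) (XT.nd (nat_lit 78) (nat_lit 152) (nat_lit 0) (XT.lf (nat_lit 0) (nat_lit 80520314477) (nat_lit 76) (nat_lit 22987811759) (nat_lit 76) (nat_lit 18011878468) (nat_lit 13) (nat_lit 4) (nat_lit 14) (nat_lit 5) (nat_lit 14) (nat_lit 4) (nat_lit 470) (nat_lit 395) (nat_lit 335)) (XT.nd (nat_lit 78) (nat_lit 0) (nat_lit 0) (XT.lf (nat_lit 0) (nat_lit 6502119602) (nat_lit 152) (nat_lit 120857153764) (nat_lit 0) (nat_lit 1891369865) (nat_lit 11) (nat_lit 5) (nat_lit 13)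 (nat_lit 4) (nat_lit 11) (nat_lit 4) (nat_lit 471) (nat_lit 395) (nat_lit 334)) (XT.lf (nat_lit 0) (nat_lit 33713865070) (nat_lit 152) (nat_lit 74611698238) (nat_lit 0) (nat_lit 29099963389) (nat_lit 11) (nat_lit 5) (nat_lit 13) (nat_lit 4) (nat_lit 11) (nat_lit 4) (nat_lit 472) (nat_lit 395) (nat_lit 333)))) (XT.nd (nat_lit 156) (nat_lit 0) (nat_lit 0) (XT.nd (nat_lit 78) (nat_lit 76) (nat_lit 0) (XT.lf (nat_lit 0) (nat_lit 63067855386) (nat_lit 152) (nat_lit 24738285875) (nat_lit 0) (nat_lit 58451035241) (nat_lit 11) (nat_lit 5) (nat_lit 13) (nat_lit 4) (nat_lit 11) (nat_lit 4) (nat_lit 473) (nat_lit 395) (nat_lit 332)) (XT.lf (nat_lit 0) (nat_lit 30588805403) (nat_lit 76) (nat_lit 64884896226) (nat_lit 76) (nat_lit 60265373798) (nat_lit 10) (nat_lit 4) (nat_lit 11) (nat_lit 5) (nat_lit 11) (nat_lit 4) (nat_lit 474) (nat_lit 395) (nat_lit 331))) (XT.nd (nat_lit 78) (nat_lit 0) (nat_lit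 0) (XT.lf (nat_lit 0) (nat_lit 91684262472) (nat_lit 76) (nat_lit 39432840698) (nat_lit 76) (nat_lit 34810816156) (nat_lit 10) (nat_lit 4) (nat_lit 11) (nat_lit 5) (nat_lit 11) (nat_lit 4) (nat_lit 475) (nat_lit 395) (nat_lit 330)) (XT.lf (nat_lit 0) (nat_lit 157607458190) (nat_lit 76) (nat_lit 11975536257) (nat_lit 76) (nat_lit 7351194944) (nat_lit 10) (nat_lit 4) (nat_lit 11) (nat_lit 5) (nat_lit 11) (nat_lit 4) (nat_lit 476) (nat_lit 395) (nat_lit 329))))) (XT.nd (nat_lit 234) (nat_lit 76) (nat_lit 0) (XT.nd (nat_lit 78) (nat_lit 0) (nat_lit 0) (XT.lf (nat_lit 0) (nat_lit 22623380878) (nat_lit 152) (nat_lit 147700349395) (nat_lit 0) (nat_lit 18339597107) (nat_lit 8) (nat_lit 5) (nat_lit 10) (nat_lit 4) (nat_lit 8) (nat_lit 4) (nat_lit 477) (nat_lit 395) (nat_lit 328)) (XT.nd (nat_lit 78) (nat_lit 0) (nat_lit 0) (XT.lf (nat_lit 0) (nat_lit 55424456557) (nat_lit 152) (nat_lit 94686175892)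 (nat_lit 0) (nat_lit 51138833658) (nat_lit 8) (nat_lit 5) (nat_lit 10) (nat_lit 4) (nat_lit 8) (nat_lit 4) (nat_lit 478) (nat_lit 395) (nat_lit 327)) (XT.lf (nat_lit 0) (nat_lit 90824140427) (nat_lit 152) (nat_lit 37483579148) (nat_lit 0) (nat_lit 86536814631) (nat_lit 8) (nat_lit 5) (nat_lit 10) (nat_lit 4) (nat_lit 8) (nat_lit 4) (nat_lit 479) (nat_lit 395) (nat_lit 326)))) (XT.nd (nat_lit 156) (nat_lit 0) (nat_lit 0) (XT.nd (nat_lit 78) (nat_lit 0) (nat_lit 0) (XT.lf (nat_lit 0) (nat_lit 25523192654) (nat_lit 76) (nat_lit 104122849135) (nat_lit 76) (nat_lit 99833946584) (nat_lit 7) (nat_lit 4) (nat_lit 8) (nat_lit 5) (nat_lit 8) (nat_lit 4) (nat_lit 480) (nat_lit 395) (nat_lit 325)) (XT.lf (nat_lit 0) (nat_lit 95654660013) (nat_lit 76) (nat_lit 76920915496) (nat_lit 76) (nat_lit 72630552985) (nat_lit 7) (nat_lit 4) (nat_lit 8) (nat_lit 5) (nat_lit 8) (nat_lit 4) (nat_lit 481) (nat_lit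 395) (nat_lit 324))) (XT.nd (nat_lit 78) (nat_lit 0) (nat_lit 0) (XT.lf (nat_lit 0) (nat_lit 171352597956) (nat_lit 76) (nat_lit 47565589493) (nat_lit 76) (nat_lit 43273875168) (nat_lit 7) (nat_lit 4) (nat_lit 8) (nat_lit 5) (nat_lit 8) (nat_lit 4) (nat_lit 482) (nat_lit 395) (nat_lit 323)) (XT.lf (nat_lit 0) (nat_lit 253065586858) (nat_lit 76) (nat_lit 15882913639) (nat_lit 76) (nat_lit 11589947634) (nat_lit 7) (nat_lit 4) (nat_lit 8) (nat_lit 5) (nat_lit 8) (nat_lit 4) (nat_lit 483) (nat_lit 395) (nat_lit 322))))))) (XT.nd (nat_lit 1092) (nat_lit 76) (nat_lit 0) (XT.nd (nat_lit 546) (nat_lit 152) (nat_lit 0) (XT.nd (nat_lit 234) (nat_lit 76) (nat_lit 0) (XT.nd (nat_lit 78) (nat_lit 0) (nat_lit 0) (XT.lf (nat_lit 0) (nat_lit 22981423095) (nat_lit 152) (nat_lit 258203425677) (nat_lit 0) (nat_lit 19005381458) (nat_lit 5) (nat_lit 5) (nat_lit 7) (nat_lit 4) (nat_lit 5) (nat_lit 4) (nat_lit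 484) (nat_lit 395) (nat_lit 321)) (XT.nd (nat_lit 78) (nat_lit 0) (nat_lit 0) (XT.lf (nat_lit 0) (nat_lit 60856842684) (nat_lit 152) (nat_lit 203560262016) (nat_lit 0) (nat_lit 56879807424) (nat_lit 5) (nat_lit 5) (nat_lit 7) (nat_lit 4) (nat_lit 5) (nat_lit 4) (nat_lit 485) (nat_lit 395) (nat_lit 320)) (XT.lf (nat_lit 0) (nat_lit 101744968916) (nat_lit 152) (nat_lit 144581532198) (nat_lit 0) (nat_lit 97767013633) (nat_lit 5) (nat_lit 5) (nat_lit 7) (nat_lit 4) (nat_lit 5) (nat_lit 4) (nat_lit 486) (nat_lit 395) (nat_lit 319)))) (XT.nd (nat_lit 156) (nat_lit 76) (nat_lit 0) (XT.nd (nat_lit 78) (nat_lit 0) (nat_lit 0) (XT.lf (nat_lit 0) (nat_lit 145888101798) (nat_lit 152) (nat_lit 80917732638) (nat_lit 0) (nat_lit 141909294643) (nat_lit 5) (nat_lit 5) (nat_lit 7) (nat_lit 4) (nat_lit 5) (nat_lit 4) (nat_lit 487) (nat_lit 395) (nat_lit 318)) (XT.lf (nat_lit 0) (nat_lit 193547830265) (nat_lit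 152) (nat_lit 12191596377) (nat_lit 0) (nat_lit 189568234340) (nat_lit 5) (nat_lit 5) (nat_lit 7) (nat_lit 4) (nat_lit 5) (nat_lit 4) (nat_lit 488) (nat_lit 395) (nat_lit 317))) (XT.nd (nat_lit 78) (nat_lit 0) (nat_lit 0) (XT.lf (nat_lit 0) (nat_lit 65269170845) (nat_lit 76) (nat_lit 181307136622) (nat_lit 76) (nat_lit 177326810354) (nat_lit 4) (nat_lit 4) (nat_lit 5) (nat_lit 5) (nat_lit 5) (nat_lit 4) (nat_lit 489) (nat_lit 395) (nat_lit 316)) (XT.lf (nat_lit 0) (nat_lit 149592379348) (nat_lit 76) (nat_lit 154574619744) (nat_lit 76) (nat_lit 150593617232) (nat_lit 4) (nat_lit 4) (nat_lit 5) (nat_lit 5) (nat_lit 5) (nat_lit 4) (nat_lit 490) (nat_lit 395) (nat_lit 315))))) (XT.nd (nat_lit 234) (nat_lit 152) (nat_lit 0) (XT.nd (nat_lit 78) (nat_lit 0) (nat_lit 0) (XT.lf (nat_lit 0) (nat_lit 240635734359) (nat_lit 76) (nat_lit 125716800944) (nat_lit 76) (nat_lit 121735172281) (nat_lit 4) (nat_lit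 4) (nat_lit 5) (nat_lit 5) (nat_lit 5) (nat_lit 4) (nat_lit 491) (nat_lit 395) (nat_lit 314)) (XT.nd (nat_lit 78) (nat_lit 0) (nat_lit 0) (XT.lf (nat_lit 0) (nat_lit 338938752056) (nat_lit 76) (nat_lit 94562670926) (nat_lit 76) (nat_lit 90580462493) (nat_lit 4) (nat_lit 4) (nat_lit 5) (nat_lit 5) (nat_lit 5) (nat_lit 4) (nat_lit 492) (nat_lit 395) (nat_lit 313)) (XT.lf (nat_lit 0) (nat_lit 445083968839) (nat_lit 76) (nat_lit 60927612623) (nat_lit 76) (nat_lit 56944867366) (nat_lit 4) (nat_lit 4) (nat_lit 5) (nat_lit 5) (nat_lit 5) (nat_lit 4) (nat_lit 493) (nat_lit 395) (nat_lit 312)))) (XT.nd (nat_lit 156) (nat_lit 0) (nat_lit 0) (XT.nd (nat_lit 78) (nat_lit 152) (nat_lit 0) (XT.lf (nat_lit 0) (nat_lit 559700393402) (nat_lit 76) (nat_lit 24612307170) (nat_lit 76) (nat_lit 20629064854) (nat_lit 4) (nat_lit 4) (nat_lit 5) (nat_lit 5) (nat_lit 5) (nat_lit 4) (nat_lit 494) (nat_lit 395) (nat_lit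 311)) (XT.lf (nat_lit 0) (nat_lit 18865522102) (nat_lit 152) (nat_lit 616111420193) (nat_lit 0) (nat_lit 15176908624) (nat_lit 2) (nat_lit 5) (nat_lit 4) (nat_lit 4) (nat_lit 2) (nat_lit 4) (nat_lit 495) (nat_lit 395) (nat_lit 310))) (XT.nd (nat_lit 78) (nat_lit 0) (nat_lit 0) (XT.lf (nat_lit 0) (nat_lit 62304204344) (nat_lit 152) (nat_lit 577868714353) (nat_lit 0) (nat_lit 58615196284) (nat_lit 2) (nat_lit 5) (nat_lit 4) (nat_lit 4) (nat_lit 2) (nat_lit 4) (nat_lit 496) (nat_lit 395) (nat_lit 309)) (XT.lf (nat_lit 0) (nat_lit 109209318504) (nat_lit 152) (nat_lit 536584549595) (nat_lit 0) (nat_lit 105519945090) (nat_lit 2) (nat_lit 5) (nat_lit 4) (nat_lit 4) (nat_lit 2) (nat_lit 4) (nat_lit 497) (nat_lit 395) (nat_lit 308)))))) (XT.nd (nat_lit 546) (nat_lit 76) (nat_lit 0) (XT.nd (nat_lit 234) (nat_lit 0) (nat_lit 0) (XT.nd (nat_lit 78) (nat_lit 0) (nat_lit 0) (XT.lf (nat_lit 0) (nat_lit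 159858820814) (nat_lit 152) (nat_lit 492014279017) (nat_lit 0) (nat_lit 156169109111) (nat_lit 2) (nat_lit 5) (nat_lit 4) (nat_lit 4) (nat_lit 2) (nat_lit 4) (nat_lit 498) (nat_lit 395) (nat_lit 307)) (XT.nd (nat_lit 78) (nat_lit 0) (nat_lit 0) (XT.lf (nat_lit 0) (nat_lit 214552856474) (nat_lit 152) (nat_lit 443893782497) (nat_lit 0) (nat_lit 210862831539) (nat_lit 2) (nat_lit 5) (nat_lit 4) (nat_lit 4) (nat_lit 2) (nat_lit 4) (nat_lit 499) (nat_lit 395) (nat_lit 306)) (XT.lf (nat_lit 0) (nat_lit 273615538288) (nat_lit 152) (nat_lit 391937901537) (nat_lit 0) (nat_lit 269925223324) (nat_lit 2) (nat_lit 5) (nat_lit 4) (nat_lit 4) (nat_lit 2) (nat_lit 4) (nat_lit 500) (nat_lit 395) (nat_lit 305)))) (XT.nd (nat_lit 156) (nat_lit 0) (nat_lit 0) (XT.nd (nat_lit 78) (nat_lit 0) (nat_lit 0) (XT.lf (nat_lit 0) (nat_lit 337396867332) (nat_lit 152) (nat_lit 335838749435) (nat_lit 0) (nat_lit 333706283822)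 (nat_lit 2) (nat_lit 5) (nat_lit 4) (nat_lit 4) (nat_lit 2) (nat_lit 4) (nat_lit 501) (nat_lit 395) (nat_lit 304)) (XT.lf (nat_lit 0) (nat_lit 406274807039) (nat_lit 152) (nat_lit 275263886771) (nat_lit 0) (nat_lit 402583974875) (nat_lit 2) (nat_lit 5) (nat_lit 4) (nat_lit 4) (nat_lit 2) (nat_lit 4) (nat_lit 502) (nat_lit 395) (nat_lit 303))) (XT.nd (nat_lit 78) (nat_lit 0) (nat_lit 0) (XT.lf (nat_lit 0) (nat_lit 480657522976) (nat_lit 152) (nat_lit 209854351397) (nat_lit 0) (nat_lit 476966460578) (nat_lit 2) (nat_lit 5) (nat_lit 4) (nat_lit 4) (nat_lit 2) (nat_lit 4) (nat_lit 503) (nat_lit 395) (nat_lit 302)) (XT.lf (nat_lit 0) (nat_lit 560985801609) (nat_lit 152) (nat_lit 139222531250) (nat_lit 0) (nat_lit 557294526030) (nat_lit 2) (nat_lit 5) (nat_lit 4) (nat_lit 4) (nat_lit 2) (nat_lit 4) (nat_lit 504) (nat_lit 395) (nat_lit 301))))) (XT.nd (nat_lit 312) (nat_lit 0) (nat_lit 0) (XT.nd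 (nat_lit 156) (nat_lit 0) (nat_lit 0) (XT.nd (nat_lit 78) (nat_lit 76) (nat_lit 0) (XT.lf (nat_lit 0) (nat_lit 647735662366) (nat_lit 152) (nat_lit 62949867397) (nat_lit 0) (nat_lit 644044189399) (nat_lit 2) (nat_lit 5) (nat_lit 4) (nat_lit 4) (nat_lit 2) (nat_lit 4) (nat_lit 505) (nat_lit 395) (nat_lit 300)) (XT.lf (nat_lit 0) (nat_lit 20438018793) (nat_lit 76) (nat_lit 721474694547) (nat_lit 76) (nat_lit 717783038812) (nat_lit 1) (nat_lit 4) (nat_lit 2) (nat_lit 5) (nat_lit 2) (nat_lit 4) (nat_lit 506) (nat_lit 395) (nat_lit 299))) (XT.nd (nat_lit 78) (nat_lit 0) (nat_lit 0) (XT.lf (nat_lit 0) (nat_lit 114068194794) (nat_lit 76) (nat_lit 731272671464) (nat_lit 76) (nat_lit 727580846499) (nat_lit 1) (nat_lit 4) (nat_lit 2) (nat_lit 5) (nat_lit 2) (nat_lit 4) (nat_lit 507) (nat_lit 395) (nat_lit 298)) (XT.lf (nat_lit 0) (nat_lit 215180677633) (nat_lit 76) (nat_lit 741858683529) (nat_lit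 76) (nat_lit 738166701871) (nat_lit 1) (nat_lit 4) (nat_lit 2) (nat_lit 5) (nat_lit 2) (nat_lit 4) (nat_lit 508) (nat_lit 395) (nat_lit 297)))) (XT.nd (nat_lit 156) (nat_lit 0) (nat_lit 0) (XT.nd (nat_lit 78) (nat_lit 0) (nat_lit 0) (XT.lf (nat_lit 0) (nat_lit 324374652394) (nat_lit 76) (nat_lit 753295462668) (nat_lit 76) (nat_lit 749603335923) (nat_lit 1) (nat_lit 4) (nat_lit 2) (nat_lit 5) (nat_lit 2) (nat_lit 4) (nat_lit 509) (nat_lit 395) (nat_lit 296)) (XT.lf (nat_lit 0) (nat_lit 442297194482) (nat_lit 76) (nat_lit 765650782386) (nat_lit 76) (nat_lit 761958521301) (nat_lit 1) (nat_lit 4) (nat_lit 2) (nat_lit 5) (nat_lit 2) (nat_lit 4) (nat_lit 510) (nat_lit 395) (nat_lit 295))) (XT.nd (nat_lit 78) (nat_lit 0) (nat_lit 0) (XT.lf (nat_lit 0) (nat_lit 569647104147) (nat_lit 76) (nat_lit 778997859391) (nat_lit 76) (nat_lit 775305473918) (nat_lit 1) (nat_lit 4) (nat_lit 2) (nat_lit 5) (nat_lit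 2) (nat_lit 4) (nat_lit 511) (nat_lit 395) (nat_lit 294)) (XT.lf (nat_lit 0) (nat_lit 707179047519) (nat_lit 76) (nat_lit 793415787475) (nat_lit 76) (nat_lit 789723286827) (nat_lit 1) (nat_lit 4) (nat_lit 2) (nat_lit 5) (nat_lit 2) (nat_lit 4) (nat_lit 512) (nat_lit 395) (nat_lit 293))))))))
noncomputable def xc82 : XT := (XT.nd (nat_lit 2184) (nat_lit 0) (nat_lit 0) (XT.nd (nat_lit 1092) (nat_lit 0) (nat_lit 0) (XT.nd (nat_lit 546) (nat_lit 0) (nat_lit 0) (XT.nd (nat_lit 234) (nat_lit 0) (nat_lit 0) (XT.nd (nat_lit 78) (nat_lit 0) (nat_lit 0) (XT.lf (nat_lit 0) (nat_lit 855708028709) (nat_lit 76) (nat_lit 808990006210) (nat_lit 76) (nat_lit 805297398919) (nat_lit 1) (nat_lit 4) (nat_lit 2) (nat_lit 5) (nat_lit 2) (nat_lit 4) (nat_lit 513) (nat_lit 395) (nat_lit 292)) (XT.nd (nat_lit 78) (nat_lit 0) (nat_lit 0) (XT.lf (nat_lit 0) (nat_lit 1016114219456) (nat_lit 76) (nat_lit 825812807264)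 (nat_lit 76) (nat_lit 822120101229) (nat_lit 1) (nat_lit 4) (nat_lit 2) (nat_lit 5) (nat_lit 2) (nat_lit 4) (nat_lit 514) (nat_lit 395) (nat_lit 291)) (XT.lf (nat_lit 0) (nat_lit 1189348174965) (nat_lit 76) (nat_lit 843983881309) (nat_lit 76) (nat_lit 840291083845) (nat_lit 1) (nat_lit 4) (nat_lit 2) (nat_lit 5) (nat_lit 2) (nat_lit 4) (nat_lit 515) (nat_lit 395) (nat_lit 290)))) (XT.nd (nat_lit 156) (nat_lit 0) (nat_lit 0) (XT.nd (nat_lit 78) (nat_lit 0) (nat_lit 0) (XT.lf (nat_lit 0) (nat_lit 1376436466824) (nat_lit 76) (nat_lit 863610908784) (nat_lit 76) (nat_lit 859918026663) (nat_lit 1) (nat_lit 4) (nat_lit 2) (nat_lit 5) (nat_lit 2) (nat_lit 4) (nat_lit 516) (nat_lit 395) (nat_lit 289)) (XT.lf (nat_lit 0) (nat_lit 1578487766393) (nat_lit 76) (nat_lit 884810198000) (nat_lit 76) (nat_lit 881117237493) (nat_lit 1) (nat_lit 4) (nat_lit 2) (nat_lit 5) (nat_lit 2) (nat_lit 4) (nat_lit 517)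 (nat_lit 395) (nat_lit 288))) (XT.nd (nat_lit 78) (nat_lit 0) (nat_lit 0) (XT.lf (nat_lit 0) (nat_lit 1796699414704) (nat_lit 76) (nat_lit 907707374374) (nat_lit 76) (nat_lit 904014341288) (nat_lit 1) (nat_lit 4) (nat_lit 2) (nat_lit 5) (nat_lit 2) (nat_lit 4) (nat_lit 518) (nat_lit 395) (nat_lit 287)) (XT.lf (nat_lit 0) (nat_lit 2032364517824) (nat_lit 76) (nat_lit 932438124878) (nat_lit 76) (nat_lit 928745024589) (nat_lit 1) (nat_lit 4) (nat_lit 2) (nat_lit 5) (nat_lit 2) (nat_lit 4) (nat_lit 519) (nat_lit 395) (nat_lit 286))))) (XT.nd (nat_lit 234) (nat_lit 0) (nat_lit 0) (XT.nd (nat_lit 78) (nat_lit 0) (nat_lit 0) (XT.lf (nat_lit 0) (nat_lit 2286879609695) (nat_lit 76) (nat_lit 959149002107) (nat_lit 76) (nat_lit 955455839593) (nat_lit 1) (nat_lit 4) (nat_lit 2) (nat_lit 5) (nat_lit 2) (nat_lit 4) (nat_lit 520) (nat_lit 395) (nat_lit 285)) (XT.nd (nat_lit 78) (nat_lit 0) (nat_lit 0)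 (XT.lf (nat_lit 0) (nat_lit 2561752927901) (nat_lit 76) (nat_lit 987998292742) (nat_lit 76) (nat_lit 984305072611) (nat_lit 1) (nat_lit 4) (nat_lit 2) (nat_lit 5) (nat_lit 2) (nat_lit 4) (nat_lit 521) (nat_lit 395) (nat_lit 284)) (XT.lf (nat_lit 0) (nat_lit 2858613351362) (nat_lit 76) (nat_lit 1019156955541) (nat_lit 76) (nat_lit 1015463682062) (nat_lit 1) (nat_lit 4) (nat_lit 2) (nat_lit 5) (nat_lit 2) (nat_lit 4) (nat_lit 522) (nat_lit 395) (nat_lit 283)))) (XT.nd (nat_lit 156) (nat_lit 0) (nat_lit 0) (XT.nd (nat_lit 78) (nat_lit 0) (nat_lit 0) (XT.lf (nat_lit 0) (nat_lit 3179220052960) (nat_lit 76) (nat_lit 1052809634432) (nat_lit 76) (nat_lit 1049116311556) (nat_lit 1) (nat_lit 4) (nat_lit 2) (nat_lit 5) (nat_lit 2) (nat_lit 4) (nat_lit 523) (nat_lit 395) (nat_lit 282)) (XT.lf (nat_lit 0) (nat_lit 3525472924258) (nat_lit 76) (nat_lit 1089155752697) (nat_lit 76) (nat_lit 1085462384084)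 (nat_lit 1) (nat_lit 4) (nat_lit 2) (nat_lit 5) (nat_lit 2) (nat_lit 4) (nat_lit 524) (nat_lit 395) (nat_lit 281))) (XT.nd (nat_lit 78) (nat_lit 0) (nat_lit 0) (XT.lf (nat_lit 0) (nat_lit 3899423834125) (nat_lit 76) (nat_lit 1128410694741) (nat_lit 76) (nat_lit 1124717283779) (nat_lit 1) (nat_lit 4) (nat_lit 2) (nat_lit 5) (nat_lit 2) (nat_lit 4) (nat_lit 525) (nat_lit 395) (nat_lit 280)) (XT.lf (nat_lit 0) (nat_lit 4303288787951) (nat_lit 76) (nat_lit 1170807082444) (nat_lit 76) (nat_lit 1167113632269) (nat_lit 1) (nat_lit 4) (nat_lit 2) (nat_lit 5) (nat_lit 2) (nat_lit 4) (nat_lit 526) (nat_lit 395) (nat_lit 279)))))) (XT.nd (nat_lit 546) (nat_lit 0) (nat_lit 0) (XT.nd (nat_lit 234) (nat_lit 0) (nat_lit 0) (XT.nd (nat_lit 78) (nat_lit 0) (nat_lit 0) (XT.lf (nat_lit 0) (nat_lit 4739461059538) (nat_lit 76) (nat_lit 1216596153657) (nat_lit 76) (nat_lit 1212902667174) (nat_lit 1) (nat_lit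 4) (nat_lit 2) (nat_lit 5) (nat_lit 2) (nat_lit 4) (nat_lit 527) (nat_lit 395) (nat_lit 278)) (XT.nd (nat_lit 78) (nat_lit 0) (nat_lit 0) (XT.lf (nat_lit 0) (nat_lit 5210525373458) (nat_lit 76) (nat_lit 1266049251025) (nat_lit 76) (nat_lit 1262355730924) (nat_lit 1) (nat_lit 4) (nat_lit 2) (nat_lit 5) (nat_lit 2) (nat_lit 4) (nat_lit 528) (nat_lit 395) (nat_lit 277)) (XT.lf (nat_lit 0) (nat_lit 5719273221940) (nat_lit 76) (nat_lit 1319459429939) (nat_lit 76) (nat_lit 1315765878710) (nat_lit 1) (nat_lit 4) (nat_lit 2) (nat_lit 5) (nat_lit 2) (nat_lit 4) (nat_lit 529) (nat_lit 395) (nat_lit 276)))) (XT.nd (nat_lit 156) (nat_lit 0) (nat_lit 0) (XT.nd (nat_lit 78) (nat_lit 0) (nat_lit 0) (XT.lf (nat_lit 0) (nat_lit 6268719407051) (nat_lit 76) (nat_lit 1377143195165) (nat_lit 76) (nat_lit 1373449615114) (nat_lit 1) (nat_lit 4) (nat_lit 2) (nat_lit 5) (nat_lit 2) (nat_lit 4) (nat_lit 530) (nat_lit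 395) (nat_lit 275)) (XT.lf (nat_lit 0) (nat_lit 6862119906184) (nat_lit 76) (nat_lit 1439442376421) (nat_lit 76) (nat_lit 1435748769683) (nat_lit 1) (nat_lit 4) (nat_lit 2) (nat_lit 5) (nat_lit 2) (nat_lit 4) (nat_lit 531) (nat_lit 395) (nat_lit 274))) (XT.nd (nat_lit 78) (nat_lit 0) (nat_lit 0) (XT.lf (nat_lit 0) (nat_lit 7502991166741) (nat_lit 76) (nat_lit 1506726154042) (nat_lit 76) (nat_lit 1503032522592) (nat_lit 1) (nat_lit 4) (nat_lit 2) (nat_lit 5) (nat_lit 2) (nat_lit 4) (nat_lit 532) (nat_lit 395) (nat_lit 273)) (XT.lf (nat_lit 0) (nat_lit 8195130944339) (nat_lit 76) (nat_lit 1579393246708) (nat_lit 76) (nat_lit 1575699592379) (nat_lit 1) (nat_lit 4) (nat_lit 2) (nat_lit 5) (nat_lit 2) (nat_lit 4) (nat_lit 533) (nat_lit 395) (nat_lit 272))))) (XT.nd (nat_lit 234) (nat_lit 0) (nat_lit 0) (XT.nd (nat_lit 78) (nat_lit 0) (nat_lit 0) (XT.lf (nat_lit 0) (nat_lit 8942640808032) (nat_lit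 76) (nat_lit 1657874274229) (nat_lit 76) (nat_lit 1654180598715) (nat_lit 1) (nat_lit 4) (nat_lit 2) (nat_lit 5) (nat_lit 2) (nat_lit 4) (nat_lit 534) (nat_lit 395) (nat_lit 271)) (XT.nd (nat_lit 78) (nat_lit 0) (nat_lit 0) (XT.lf (nat_lit 0) (nat_lit 9749950445901) (nat_lit 76) (nat_lit 1742634309361) (nat_lit 76) (nat_lit 1738940614230) (nat_lit 1) (nat_lit 4) (nat_lit 2) (nat_lit 5) (nat_lit 2) (nat_lit 4) (nat_lit 535) (nat_lit 395) (nat_lit 270)) (XT.lf (nat_lit 0) (nat_lit 10621843915058) (nat_lit 76) (nat_lit 1834175633792) (nat_lit 76) (nat_lit 1830481920498) (nat_lit 1) (nat_lit 4) (nat_lit 2) (nat_lit 5) (nat_lit 2) (nat_lit 4) (nat_lit 536) (nat_lit 395) (nat_lit 269)))) (XT.nd (nat_lit 156) (nat_lit 0) (nat_lit 0) (XT.nd (nat_lit 78) (nat_lit 0) (nat_lit 0) (XT.lf (nat_lit 0) (nat_lit 11563487991618) (nat_lit 76) (nat_lit 1933040714631) (nat_lit 76) (nat_lit 1929346984520) (nat_lit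 1) (nat_lit 4) (nat_lit 2) (nat_lit 5) (nat_lit 2) (nat_lit 4) (nat_lit 537) (nat_lit 395) (nat_lit 268)) (XT.lf (nat_lit 0) (nat_lit 12580462788627) (nat_lit 76) (nat_lit 2039815419023) (nat_lit 76) (nat_lit 2036121673340) (nat_lit 1) (nat_lit 4) (nat_lit 2) (nat_lit 5) (nat_lit 2) (nat_lit 4) (nat_lit 538) (nat_lit 395) (nat_lit 267))) (XT.nd (nat_lit 78) (nat_lit 0) (nat_lit 0) (XT.lf (nat_lit 0) (nat_lit 13678794823400) (nat_lit 76) (nat_lit 2155132485958) (nat_lit 76) (nat_lit 2151438725857) (nat_lit 1) (nat_lit 4) (nat_lit 2) (nat_lit 5) (nat_lit 2) (nat_lit 4) (nat_lit 539) (nat_lit 395) (nat_lit 266)) (XT.lf (nat_lit 0) (nat_lit 14864992730217) (nat_lit 76) (nat_lit 2279675275832) (nat_lit 76) (nat_lit 2275981502380) (nat_lit 1) (nat_lit 4) (nat_lit 2) (nat_lit 5) (nat_lit 2) (nat_lit 4) (nat_lit 540) (nat_lit 395) (nat_lit 265))))))) (XT.nd (nat_lit 52884) (nat_lit 0) (nat_lit 3496)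 (XT.nd (nat_lit 52338) (nat_lit 0) (nat_lit 5244) (XT.nd (nat_lit 234) (nat_lit 0) (nat_lit 0) (XT.nd (nat_lit 78) (nat_lit 0) (nat_lit 0) (XT.lf (nat_lit 0) (nat_lit 16146085830008) (nat_lit 76) (nat_lit 2414181819992) (nat_lit 76) (nat_lit 2410488034179) (nat_lit 1) (nat_lit 4) (nat_lit 2) (nat_lit 5) (nat_lit 2) (nat_lit 4) (nat_lit 541) (nat_lit 395) (nat_lit 264)) (XT.nd (nat_lit 78) (nat_lit 0) (nat_lit 0) (XT.lf (nat_lit 0) (nat_lit 17529665785586) (nat_lit 76) (nat_lit 2559449194256) (nat_lit 76) (nat_lit 2555755396997) (nat_lit 1) (nat_lit 4) (nat_lit 2) (nat_lit 5) (nat_lit 2) (nat_lit 4) (nat_lit 542) (nat_lit 395) (nat_lit 263)) (XT.lf (nat_lit 0) (nat_lit 19023931589281) (nat_lit 76) (nat_lit 2716338242323) (nat_lit 76) (nat_lit 2712644434466) (nat_lit 1) (nat_lit 4) (nat_lit 2) (nat_lit 5) (nat_lit 2) (nat_lit 4) (nat_lit 543) (nat_lit 395) (nat_lit 262)))) (XT.nd (nat_lit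 51948) (nat_lit 0) (nat_lit 6916) (XT.nd (nat_lit 51870) (nat_lit 0) (nat_lit 7828) (XT.lf (nat_lit 0) (nat_lit 20637738149559) (nat_lit 76) (nat_lit 2885778677071) (nat_lit 76) (nat_lit 2882084859401) (nat_lit 1) (nat_lit 4) (nat_lit 2) (nat_lit 5) (nat_lit 2) (nat_lit 4) (nat_lit 544) (nat_lit 395) (nat_lit 261)) (XT.lf (nat_lit 0) (nat_lit 1504033688) (nat_lit 380) (nat_lit 440868268) (nat_lit 0) (nat_lit 1504033688) (nat_lit 104) (nat_lit 5) (nat_lit 109) (nat_lit 4) (nat_lit 104) (nat_lit 4) (nat_lit 408) (nat_lit 396) (nat_lit 396))) (XT.nd (nat_lit 78) (nat_lit 532) (nat_lit 0) (XT.lf (nat_lit 0) (nat_lit 4194555769) (nat_lit 380) (nat_lit 2351219542) (nat_lit 380) (nat_lit 477304081) (nat_lit 99) (nat_lit 4) (nat_lit 104) (nat_lit 5) (nat_lit 104) (nat_lit 4) (nat_lit 409) (nat_lit 396) (nat_lit 395)) (XT.lf (nat_lit 0) (nat_lit 2342607359) (nat_lit 456) (nat_lit 518753087) (nat_lit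 532) (nat_lit 4305721891) (nat_lit 92) (nat_lit 5) (nat_lit 98) (nat_lit 5) (nat_lit 99) (nat_lit 4) (nat_lit 410) (nat_lit 396) (nat_lit 394))))) (XT.nd (nat_lit 234) (nat_lit 836) (nat_lit 0) (XT.nd (nat_lit 78) (nat_lit 304) (nat_lit 0) (XT.lf (nat_lit 0) (nat_lit 464658224) (nat_lit 532) (nat_lit 5848264882) (nat_lit 532) (nat_lit 1019002992) (nat_lit 85) (nat_lit 4) (nat_lit 92) (nat_lit 5) (nat_lit 92) (nat_lit 4) (nat_lit 411) (nat_lit 396) (nat_lit 393)) (XT.nd (nat_lit 78) (nat_lit 228) (nat_lit 0) (XT.lf (nat_lit 0) (nat_lit 2304737816) (nat_lit 608) (nat_lit 1412791037) (nat_lit 76) (nat_lit 3795539347) (nat_lit 84) (nat_lit 5) (nat_lit 92) (nat_lit 5) (nat_lit 85) (nat_lit 4) (nat_lit 412) (nat_lit 396) (nat_lit 392)) (XT.lf (nat_lit 0) (nat_lit 4406334111) (nat_lit 228) (nat_lit 1309211649) (nat_lit 304) (nat_lit 2000972397) (nat_lit 81) (nat_lit 5) (nat_lit 84) (nat_lit 5)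 (nat_lit 85) (nat_lit 4) (nat_lit 413) (nat_lit 396) (nat_lit 391)))) (XT.nd (nat_lit 156) (nat_lit 304) (nat_lit 0) (XT.nd (nat_lit 78) (nat_lit 228) (nat_lit 0) (XT.lf (nat_lit 0) (nat_lit 1302392620) (nat_lit 304) (nat_lit 5312213791) (nat_lit 76) (nat_lit 1325841786) (nat_lit 77) (nat_lit 5) (nat_lit 81) (nat_lit 5) (nat_lit 78) (nat_lit 4) (nat_lit 414) (nat_lit 396) (nat_lit 390)) (XT.lf (nat_lit 0) (nat_lit 722831412) (nat_lit 228) (nat_lit 3967764775) (nat_lit 304) (nat_lit 3493269716) (nat_lit 74) (nat_lit 5) (nat_lit 77) (nat_lit 5) (nat_lit 78) (nat_lit 4) (nat_lit 415) (nat_lit 396) (nat_lit 389))) (XT.nd (nat_lit 78) (nat_lit 304) (nat_lit 0) (XT.lf (nat_lit 0) (nat_lit 7269952032) (nat_lit 228) (nat_lit 1018983047) (nat_lit 304) (nat_lit 162718802) (nat_lit 74) (nat_lit 5) (nat_lit 77) (nat_lit 5) (nat_lit 78) (nat_lit 4) (nat_lit 416) (nat_lit 396) (nat_lit 388)) (XT.lf (nat_lit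 0) (nat_lit 3255701802) (nat_lit 304) (nat_lit 3264268373) (nat_lit 76) (nat_lit 2214849278) (nat_lit 70) (nat_lit 5) (nat_lit 74) (nat_lit 5) (nat_lit 71) (nat_lit 4) (nat_lit 417) (nat_lit 396) (nat_lit 387)))))) (XT.nd (nat_lit 546) (nat_lit 912) (nat_lit 0) (XT.nd (nat_lit 234) (nat_lit 456) (nat_lit 0) (XT.nd (nat_lit 78) (nat_lit 228) (nat_lit 0) (XT.lf (nat_lit 0) (nat_lit 3561069774) (nat_lit 152) (nat_lit 3333812681) (nat_lit 228) (nat_lit 2148949904) (nat_lit 68) (nat_lit 5) (nat_lit 70) (nat_lit 5) (nat_lit 71) (nat_lit 4) (nat_lit 418) (nat_lit 396) (nat_lit 386)) (XT.nd (nat_lit 78) (nat_lit 0) (nat_lit 0) (XT.lf (nat_lit 0) (nat_lit 1321692864) (nat_lit 228) (nat_lit 7870620101) (nat_lit 76) (nat_lit 186765623) (nat_lit 65) (nat_lit 5) (nat_lit 68) (nat_lit 5) (nat_lit 66) (nat_lit 4) (nat_lit 419) (nat_lit 396) (nat_lit 385)) (XT.lf (nat_lit 0) (nat_lit 5013373488) (nat_lit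 228) (nat_lit 782660708) (nat_lit 76) (nat_lit 3935900733) (nat_lit 65) (nat_lit 5) (nat_lit 68) (nat_lit 5) (nat_lit 66) (nat_lit 4) (nat_lit 420) (nat_lit 396) (nat_lit 384)))) (XT.nd (nat_lit 156) (nat_lit 76) (nat_lit 0) (XT.nd (nat_lit 78) (nat_lit 228) (nat_lit 0) (XT.lf (nat_lit 0) (nat_lit 6963265690) (nat_lit 152) (nat_lit 2037081096) (nat_lit 228) (nat_lit 1112689858) (nat_lit 63) (nat_lit 5) (nat_lit 65) (nat_lit 5) (nat_lit 66) (nat_lit 4) (nat_lit 421) (nat_lit 396) (nat_lit 383)) (XT.lf (nat_lit 0) (nat_lit 2665300773) (nat_lit 228) (nat_lit 5811652902) (nat_lit 76) (nat_lit 2040508610) (nat_lit 60) (nat_lit 5) (nat_lit 63) (nat_lit 5) (nat_lit 61) (nat_lit 4) (nat_lit 422) (nat_lit 396) (nat_lit 382))) (XT.nd (nat_lit 78) (nat_lit 0) (nat_lit 0) (XT.lf (nat_lit 0) (nat_lit 2183264150) (nat_lit 76) (nat_lit 4534500984) (nat_lit 152) (nat_lit 4231587605) (nat_lit 59) (nat_lit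 5) (nat_lit 60) (nat_lit 5) (nat_lit 61) (nat_lit 4) (nat_lit 423) (nat_lit 396) (nat_lit 381)) (XT.lf (nat_lit 0) (nat_lit 10891443217) (nat_lit 76) (nat_lit 206237432) (nat_lit 152) (nat_lit 317863402) (nat_lit 59) (nat_lit 5) (nat_lit 60) (nat_lit 5) (nat_lit 61) (nat_lit 4) (nat_lit 424) (nat_lit 396) (nat_lit 380))))) (XT.nd (nat_lit 312) (nat_lit 380) (nat_lit 0) (XT.nd (nat_lit 156) (nat_lit 228) (nat_lit 0) (XT.nd (nat_lit 78) (nat_lit 76) (nat_lit 0) (XT.lf (nat_lit 0) (nat_lit 3881870089) (nat_lit 228) (nat_lit 3559040409) (nat_lit 76) (nat_lit 4457131585) (nat_lit 56) (nat_lit 5) (nat_lit 59) (nat_lit 5) (nat_lit 57) (nat_lit 4) (nat_lit 425) (nat_lit 396) (nat_lit 379)) (XT.lf (nat_lit 0) (nat_lit 5537495420) (nat_lit 76) (nat_lit 2871149801) (nat_lit 152) (nat_lit 4009183265) (nat_lit 55) (nat_lit 5) (nat_lit 56) (nat_lit 5) (nat_lit 57) (nat_lit 4) (nat_lit 426) (nat_lit 396)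 (nat_lit 378))) (XT.nd (nat_lit 78) (nat_lit 0) (nat_lit 0) (XT.lf (nat_lit 0) (nat_lit 369024415) (nat_lit 228) (nat_lit 10573171685) (nat_lit 76) (nat_lit 2031069073) (nat_lit 52) (nat_lit 5) (nat_lit 55) (nat_lit 5) (nat_lit 53) (nat_lit 4) (nat_lit 427) (nat_lit 396) (nat_lit 377)) (XT.lf (nat_lit 0) (nat_lit 5007019114) (nat_lit 228) (nat_lit 1179499387) (nat_lit 76) (nat_lit 7368203354) (nat_lit 52) (nat_lit 5) (nat_lit 55) (nat_lit 5) (nat_lit 53) (nat_lit 4) (nat_lit 428) (nat_lit 396) (nat_lit 376)))) (XT.nd (nat_lit 156) (nat_lit 76) (nat_lit 0) (XT.nd (nat_lit 78) (nat_lit 228) (nat_lit 0) (XT.lf (nat_lit 0) (nat_lit 9192103261) (nat_lit 76) (nat_lit 914046700) (nat_lit 152) (nat_lit 4069343185) (nat_lit 51) (nat_lit 5) (nat_lit 52) (nat_lit 5) (nat_lit 53) (nat_lit 4) (nat_lit 429) (nat_lit 396) (nat_lit 375)) (XT.lf (nat_lit 0) (nat_lit 885057372) (nat_lit 228) (nat_lit 9312692862)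 (nat_lit 76) (nat_lit 4634212225) (nat_lit 48) (nat_lit 5) (nat_lit 51) (nat_lit 5) (nat_lit 49) (nat_lit 4) (nat_lit 430) (nat_lit 396) (nat_lit 374))) (XT.nd (nat_lit 78) (nat_lit 0) (nat_lit 0) (XT.lf (nat_lit 0) (nat_lit 1312151321) (nat_lit 76) (nat_lit 4770535331) (nat_lit 152) (nat_lit 9444473340) (nat_lit 47) (nat_lit 5) (nat_lit 48) (nat_lit 5) (nat_lit 49) (nat_lit 4) (nat_lit 431) (nat_lit 396) (nat_lit 373)) (XT.lf (nat_lit 0) (nat_lit 11856670263) (nat_lit 152) (nat_lit 3211300223) (nat_lit 0) (nat_lit 1197163585) (nat_lit 47) (nat_lit 5) (nat_lit 49) (nat_lit 4) (nat_lit 47) (nat_lit 4) (nat_lit 432) (nat_lit 396) (nat_lit 372))))))))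
noncomputable def xc83 : XT := (XT.nd (nat_lit 2184) (nat_lit 1140) (nat_lit 0) (XT.nd (nat_lit 1092) (nat_lit 912) (nat_lit 0) (XT.nd (nat_lit 546) (nat_lit 532) (nat_lit 0) (XT.nd (nat_lit 234) (nat_lit 380) (nat_lit 0) (XT.nd (nat_lit 78) (nat_lit 76) (nat_lit 0) (XT.lf (nat_lit 0) (nat_lit 1201760215) (nat_lit 152) (nat_lit 8307676616) (nat_lit 76) (nat_lit 7532899971) (nat_lit 45) (nat_lit 5) (nat_lit 47) (nat_lit 5) (nat_lit 46) (nat_lit 4) (nat_lit 433) (nat_lit 396) (nat_lit 371)) (XT.nd (nat_lit 78) (nat_lit 0) (nat_lit 0) (XT.lf (nat_lit 0) (nat_lit 3796928671) (nat_lit 76) (nat_lit 3290161360) (nat_lit 152) (nat_lit 10780311909) (nat_lit 44) (nat_lit 5) (nat_lit 45) (nat_lit 5) (nat_lit 46) (nat_lit 4) (nat_lit 434) (nat_lit 396) (nat_lit 370)) (XT.lf (nat_lit 0) (nat_lit 13642818871) (nat_lit 152) (nat_lit 1707760765) (nat_lit 0) (nat_lit 3391929974) (nat_lit 44) (nat_lit 5)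 (nat_lit 46) (nat_lit 4) (nat_lit 44) (nat_lit 4) (nat_lit 435) (nat_lit 396) (nat_lit 369)))) (XT.nd (nat_lit 156) (nat_lit 152) (nat_lit 0) (XT.nd (nat_lit 78) (nat_lit 76) (nat_lit 0) (XT.lf (nat_lit 0) (nat_lit 1256067469) (nat_lit 152) (nat_lit 7746928896) (nat_lit 76) (nat_lit 10660841643) (nat_lit 42) (nat_lit 5) (nat_lit 44) (nat_lit 5) (nat_lit 43) (nat_lit 4) (nat_lit 436) (nat_lit 396) (nat_lit 368)) (XT.lf (nat_lit 0) (nat_lit 6036278809) (nat_lit 76) (nat_lit 1894701701) (nat_lit 152) (nat_lit 12710401099) (nat_lit 41) (nat_lit 5) (nat_lit 42) (nat_lit 5) (nat_lit 43) (nat_lit 4) (nat_lit 437) (nat_lit 396) (nat_lit 367))) (XT.nd (nat_lit 78) (nat_lit 152) (nat_lit 0) (XT.lf (nat_lit 0) (nat_lit 15390173175) (nat_lit 152) (nat_lit 668353744) (nat_lit 0) (nat_lit 5618581158) (nat_lit 41) (nat_lit 5) (nat_lit 43) (nat_lit 4) (nat_lit 41) (nat_lit 4) (nat_lit 438) (nat_lit 396)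 (nat_lit 366)) (XT.lf (nat_lit 0) (nat_lit 934928510) (nat_lit 152) (nat_lit 7906809305) (nat_lit 76) (nat_lit 13927340954) (nat_lit 39) (nat_lit 5) (nat_lit 41) (nat_lit 5) (nat_lit 40) (nat_lit 4) (nat_lit 439) (nat_lit 396) (nat_lit 365))))) (XT.nd (nat_lit 234) (nat_lit 304) (nat_lit 0) (XT.nd (nat_lit 78) (nat_lit 152) (nat_lit 0) (XT.lf (nat_lit 0) (nat_lit 7759432481) (nat_lit 76) (nat_lit 742897079) (nat_lit 152) (nat_lit 15424419917) (nat_lit 38) (nat_lit 5) (nat_lit 39) (nat_lit 5) (nat_lit 40) (nat_lit 4) (nat_lit 440) (nat_lit 396) (nat_lit 364)) (XT.nd (nat_lit 78) (nat_lit 152) (nat_lit 0) (XT.lf (nat_lit 0) (nat_lit 16992070072) (nat_lit 152) (nat_lit 421139091) (nat_lit 0) (nat_lit 7738470582) (nat_lit 38) (nat_lit 5) (nat_lit 40) (nat_lit 4) (nat_lit 38) (nat_lit 4) (nat_lit 441) (nat_lit 396) (nat_lit 363)) (XT.lf (nat_lit 0) (nat_lit 55047343) (nat_lit 152) (nat_lit 9197806814)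 (nat_lit 76) (nat_lit 17194117230) (nat_lit 36) (nat_lit 5) (nat_lit 38) (nat_lit 5) (nat_lit 37) (nat_lit 4) (nat_lit 442) (nat_lit 396) (nat_lit 362)))) (XT.nd (nat_lit 156) (nat_lit 228) (nat_lit 0) (XT.nd (nat_lit 78) (nat_lit 0) (nat_lit 0) (XT.lf (nat_lit 0) (nat_lit 8549573148) (nat_lit 76) (nat_lit 64001686) (nat_lit 152) (nat_lit 19205155534) (nat_lit 35) (nat_lit 5) (nat_lit 36) (nat_lit 5) (nat_lit 37) (nat_lit 4) (nat_lit 443) (nat_lit 396) (nat_lit 361)) (XT.lf (nat_lit 0) (nat_lit 18262449691) (nat_lit 152) (nat_lit 1462316930) (nat_lit 0) (nat_lit 9543011479) (nat_lit 35) (nat_lit 5) (nat_lit 37) (nat_lit 4) (nat_lit 35) (nat_lit 4) (nat_lit 444) (nat_lit 396) (nat_lit 360))) (XT.nd (nat_lit 78) (nat_lit 152) (nat_lit 0) (XT.lf (nat_lit 0) (nat_lit 18529151955) (nat_lit 76) (nat_lit 10518516432) (nat_lit 76) (nat_lit 1755927707) (nat_lit 34) (nat_lit 4) (nat_lit 35) (nat_lit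 5) (nat_lit 35) (nat_lit 4) (nat_lit 445) (nat_lit 396) (nat_lit 359)) (XT.lf (nat_lit 0) (nat_lit 7768233425) (nat_lit 76) (nat_lit 198485964) (nat_lit 152) (nat_lit 24468106913) (nat_lit 32) (nat_lit 5) (nat_lit 33) (nat_lit 5) (nat_lit 34) (nat_lit 4) (nat_lit 446) (nat_lit 396) (nat_lit 358)))))) (XT.nd (nat_lit 546) (nat_lit 456) (nat_lit 0) (XT.nd (nat_lit 234) (nat_lit 228) (nat_lit 0) (XT.nd (nat_lit 78) (nat_lit 228) (nat_lit 0) (XT.lf (nat_lit 0) (nat_lit 18897538274) (nat_lit 152) (nat_lit 4540569513) (nat_lit 0) (nat_lit 10712781314) (nat_lit 32) (nat_lit 5) (nat_lit 34) (nat_lit 4) (nat_lit 32) (nat_lit 4) (nat_lit 447) (nat_lit 396) (nat_lit 357)) (XT.nd (nat_lit 78) (nat_lit 152) (nat_lit 0) (XT.lf (nat_lit 0) (nat_lit 17934146641) (nat_lit 76) (nat_lit 13128874562) (nat_lit 76) (nat_lit 4912400686) (nat_lit 31) (nat_lit 4) (nat_lit 32) (nat_lit 5) (nat_lit 32) (nat_lit 4)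 (nat_lit 448) (nat_lit 396) (nat_lit 356)) (XT.lf (nat_lit 0) (nat_lit 4444221455) (nat_lit 76) (nat_lit 1656770297) (nat_lit 152) (nat_lit 31820241414) (nat_lit 29) (nat_lit 5) (nat_lit 30) (nat_lit 5) (nat_lit 31) (nat_lit 4) (nat_lit 449) (nat_lit 396) (nat_lit 355)))) (XT.nd (nat_lit 156) (nat_lit 152) (nat_lit 0) (XT.nd (nat_lit 78) (nat_lit 76) (nat_lit 0) (XT.lf (nat_lit 0) (nat_lit 18418361547) (nat_lit 152) (nat_lit 10780931316) (nat_lit 0) (nat_lit 10758145312) (nat_lit 29) (nat_lit 5) (nat_lit 31) (nat_lit 4) (nat_lit 29) (nat_lit 4) (nat_lit 450) (nat_lit 396) (nat_lit 354)) (XT.lf (nat_lit 0) (nat_lit 14258742819) (nat_lit 76) (nat_lit 17778036901) (nat_lit 76) (nat_lit 10094507785) (nat_lit 28) (nat_lit 4) (nat_lit 29) (nat_lit 5) (nat_lit 29) (nat_lit 4) (nat_lit 451) (nat_lit 396) (nat_lit 353))) (XT.nd (nat_lit 78) (nat_lit 76) (nat_lit 0) (XT.lf (nat_lit 0) (nat_lit 2384512300)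 (nat_lit 152) (nat_lit 2745329531) (nat_lit 76) (nat_lit 39326266690) (nat_lit 27) (nat_lit 5) (nat_lit 29) (nat_lit 5) (nat_lit 28) (nat_lit 4) (nat_lit 452) (nat_lit 396) (nat_lit 352)) (XT.lf (nat_lit 0) (nat_lit 16085161976) (nat_lit 152) (nat_lit 21866994634) (nat_lit 0) (nat_lit 8932289612) (nat_lit 26) (nat_lit 5) (nat_lit 28) (nat_lit 4) (nat_lit 26) (nat_lit 4) (nat_lit 453) (nat_lit 396) (nat_lit 351))))) (XT.nd (nat_lit 234) (nat_lit 228) (nat_lit 0) (XT.nd (nat_lit 78) (nat_lit 152) (nat_lit 0) (XT.lf (nat_lit 0) (nat_lit 5672889688) (nat_lit 76) (nat_lit 25490811371) (nat_lit 76) (nat_lit 18320803345) (nat_lit 25) (nat_lit 4) (nat_lit 26) (nat_lit 5) (nat_lit 26) (nat_lit 4) (nat_lit 454) (nat_lit 396) (nat_lit 350)) (XT.nd (nat_lit 78) (nat_lit 152) (nat_lit 0) (XT.lf (nat_lit 0) (nat_lit 36530865365) (nat_lit 76) (nat_lit 11452398708) (nat_lit 76) (nat_lit 4266524326) (nat_lit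 25) (nat_lit 4) (nat_lit 26) (nat_lit 5) (nat_lit 26) (nat_lit 4) (nat_lit 455) (nat_lit 396) (nat_lit 349)) (XT.lf (nat_lit 0) (nat_lit 10770544632) (nat_lit 152) (nat_lit 40309056357) (nat_lit 0) (nat_lit 4103354400) (nat_lit 23) (nat_lit 5) (nat_lit 25) (nat_lit 4) (nat_lit 23) (nat_lit 4) (nat_lit 456) (nat_lit 396) (nat_lit 348)))) (XT.nd (nat_lit 156) (nat_lit 152) (nat_lit 0) (XT.nd (nat_lit 78) (nat_lit 76) (nat_lit 0) (XT.lf (nat_lit 0) (nat_lit 27458617164) (nat_lit 152) (nat_lit 10050178403) (nat_lit 0) (nat_lit 20778831708) (nat_lit 23) (nat_lit 5) (nat_lit 25) (nat_lit 4) (nat_lit 23) (nat_lit 4) (nat_lit 457) (nat_lit 396) (nat_lit 347)) (XT.lf (nat_lit 0) (nat_lit 23701699652) (nat_lit 76) (nat_lit 22294626989) (nat_lit 76) (nat_lit 15603179289) (nat_lit 22) (nat_lit 4) (nat_lit 23) (nat_lit 5) (nat_lit 23) (nat_lit 4) (nat_lit 458) (nat_lit 396) (nat_lit 346))) (XT.nd (nat_lit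 78) (nat_lit 76) (nat_lit 0) (XT.lf (nat_lit 0) (nat_lit 1025200049) (nat_lit 152) (nat_lit 4569829971) (nat_lit 76) (nat_lit 59561564530) (nat_lit 21) (nat_lit 5) (nat_lit 23) (nat_lit 5) (nat_lit 22) (nat_lit 4) (nat_lit 459) (nat_lit 396) (nat_lit 345)) (XT.lf (nat_lit 0) (nat_lit 19200980028) (nat_lit 152) (nat_lit 36694100947) (nat_lit 0) (nat_lit 12985938760) (nat_lit 20) (nat_lit 5) (nat_lit 22) (nat_lit 4) (nat_lit 20) (nat_lit 4) (nat_lit 460) (nat_lit 396) (nat_lit 344))))))) (XT.nd (nat_lit 1092) (nat_lit 456) (nat_lit 0) (XT.nd (nat_lit 546) (nat_lit 380) (nat_lit 0) (XT.nd (nat_lit 234) (nat_lit 76) (nat_lit 0) (XT.nd (nat_lit 78) (nat_lit 228) (nat_lit 0) (XT.lf (nat_lit 0) (nat_lit 39053131526) (nat_lit 152) (nat_lit 1002964747) (nat_lit 0) (nat_lit 32829518161) (nat_lit 20) (nat_lit 5) (nat_lit 22) (nat_lit 4) (nat_lit 20) (nat_lit 4) (nat_lit 461) (nat_lit 396) (nat_lit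 343)) (XT.nd (nat_lit 78) (nat_lit 152) (nat_lit 0) (XT.lf (nat_lit 0) (nat_lit 39418006525) (nat_lit 76) (nat_lit 21976036912) (nat_lit 76) (nat_lit 15744486419) (nat_lit 19) (nat_lit 4) (nat_lit 20) (nat_lit 5) (nat_lit 20) (nat_lit 4) (nat_lit 462) (nat_lit 396) (nat_lit 342)) (XT.lf (nat_lit 0) (nat_lit 1274768176) (nat_lit 76) (nat_lit 2337572141) (nat_lit 152) (nat_lit 78111132619) (nat_lit 17) (nat_lit 5) (nat_lit 18) (nat_lit 5) (nat_lit 19) (nat_lit 4) (nat_lit 463) (nat_lit 396) (nat_lit 341)))) (XT.nd (nat_lit 156) (nat_lit 76) (nat_lit 0) (XT.nd (nat_lit 78) (nat_lit 0) (nat_lit 0) (XT.lf (nat_lit 0) (nat_lit 25131779974) (nat_lit 152) (nat_lit 42044821341) (nat_lit 0) (nat_lit 19348720259) (nat_lit 17) (nat_lit 5) (nat_lit 19) (nat_lit 4) (nat_lit 17) (nat_lit 4) (nat_lit 464) (nat_lit 396) (nat_lit 340)) (XT.lf (nat_lit 0) (nat_lit 48389669208) (nat_lit 152) (nat_lit 719522032)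 (nat_lit 0) (nat_lit 42600775467) (nat_lit 17) (nat_lit 5) (nat_lit 19) (nat_lit 4) (nat_lit 17) (nat_lit 4) (nat_lit 465) (nat_lit 396) (nat_lit 339))) (XT.nd (nat_lit 78) (nat_lit 0) (nat_lit 0) (XT.lf (nat_lit 0) (nat_lit 46136223234) (nat_lit 76) (nat_lit 28440967925) (nat_lit 76) (nat_lit 22646672309) (nat_lit 16) (nat_lit 4) (nat_lit 17) (nat_lit 5) (nat_lit 17) (nat_lit 4) (nat_lit 466) (nat_lit 396) (nat_lit 338)) (XT.lf (nat_lit 0) (nat_lit 96699963144) (nat_lit 76) (nat_lit 6139897332) (nat_lit 76) (nat_lit 340599979) (nat_lit 16) (nat_lit 4) (nat_lit 17) (nat_lit 5) (nat_lit 17) (nat_lit 4) (nat_lit 467) (nat_lit 396) (nat_lit 337))))) (XT.nd (nat_lit 234) (nat_lit 152) (nat_lit 0) (XT.nd (nat_lit 78) (nat_lit 76) (nat_lit 0) (XT.lf (nat_lit 0) (nat_lit 24035949940) (nat_lit 152) (nat_lit 66752073552) (nat_lit 0) (nat_lit 18661941986) (nat_lit 14) (nat_lit 5) (nat_lit 16) (nat_lit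 4) (nat_lit 14) (nat_lit 4) (nat_lit 468) (nat_lit 396) (nat_lit 336)) (XT.nd (nat_lit 78) (nat_lit 76) (nat_lit 0) (XT.lf (nat_lit 0) (nat_lit 50647976535) (nat_lit 152) (nat_lit 20278048380) (nat_lit 0) (nat_lit 45269998041) (nat_lit 14) (nat_lit 5) (nat_lit 16) (nat_lit 4) (nat_lit 14) (nat_lit 4) (nat_lit 469) (nat_lit 396) (nat_lit 335)) (XT.lf (nat_lit 0) (nat_lit 31413700858) (nat_lit 76) (nat_lit 48696029011) (nat_lit 76) (nat_lit 43314374091) (nat_lit 13) (nat_lit 4) (nat_lit 14) (nat_lit 5) (nat_lit 14) (nat_lit 4) (nat_lit 470) (nat_lit 396) (nat_lit 334)))) (XT.nd (nat_lit 156) (nat_lit 0) (nat_lit 0) (XT.nd (nat_lit 78) (nat_lit 152) (nat_lit 0) (XT.lf (nat_lit 0) (nat_lit 88324195756) (nat_lit 76) (nat_lit 24124823564) (nat_lit 76) (nat_lit 18739764547) (nat_lit 13) (nat_lit 4) (nat_lit 14) (nat_lit 5) (nat_lit 14) (nat_lit 4) (nat_lit 471) (nat_lit 396) (nat_lit 333)) (XT.lf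 (nat_lit 0) (nat_lit 7699171140) (nat_lit 152) (nat_lit 129127284553) (nat_lit 0) (nat_lit 2710086918) (nat_lit 11) (nat_lit 5) (nat_lit 13) (nat_lit 4) (nat_lit 11) (nat_lit 4) (nat_lit 472) (nat_lit 396) (nat_lit 332))) (XT.nd (nat_lit 78) (nat_lit 0) (nat_lit 0) (XT.lf (nat_lit 0) (nat_lit 37037716840) (nat_lit 152) (nat_lit 79285780846) (nat_lit 0) (nat_lit 32045930335) (nat_lit 11) (nat_lit 5) (nat_lit 13) (nat_lit 4) (nat_lit 11) (nat_lit 4) (nat_lit 473) (nat_lit 396) (nat_lit 331)) (XT.lf (nat_lit 0) (nat_lit 68693601007) (nat_lit 152) (nat_lit 25518410549) (nat_lit 0) (nat_lit 63699312388) (nat_lit 11) (nat_lit 5) (nat_lit 13) (nat_lit 4) (nat_lit 11) (nat_lit 4) (nat_lit 474) (nat_lit 396) (nat_lit 330)))))) (XT.nd (nat_lit 546) (nat_lit 152) (nat_lit 0) (XT.nd (nat_lit 234) (nat_lit 228) (nat_lit 0) (XT.nd (nat_lit 78) (nat_lit 0) (nat_lit 0) (XT.lf (nat_lit 0) (nat_lit 34204495166)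 (nat_lit 76) (nat_lit 69472537831) (nat_lit 76) (nat_lit 64475932440) (nat_lit 10) (nat_lit 4) (nat_lit 11) (nat_lit 5) (nat_lit 11) (nat_lit 4) (nat_lit 475) (nat_lit 396) (nat_lit 329)) (XT.nd (nat_lit 78) (nat_lit 0) (nat_lit 0) (XT.lf (nat_lit 0) (nat_lit 100101026924) (nat_lit 76) (nat_lit 42028995645) (nat_lit 76) (nat_lit 37030245095) (nat_lit 10) (nat_lit 4) (nat_lit 11) (nat_lit 5) (nat_lit 11) (nat_lit 4) (nat_lit 476) (nat_lit 396) (nat_lit 328)) (XT.lf (nat_lit 0) (nat_lit 171217928413) (nat_lit 76) (nat_lit 12416475168) (nat_lit 76) (nat_lit 7415738360) (nat_lit 10) (nat_lit 4) (nat_lit 11) (nat_lit 5) (nat_lit 11) (nat_lit 4) (nat_lit 477) (nat_lit 396) (nat_lit 327)))) (XT.nd (nat_lit 156) (nat_lit 76) (nat_lit 0) (XT.nd (nat_lit 78) (nat_lit 0) (nat_lit 0) (XT.lf (nat_lit 0) (nat_lit 24930314657) (nat_lit 152) (nat_lit 158488013061) (nat_lit 0) (nat_lit 20298299901) (nat_lit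 8) (nat_lit 5) (nat_lit 10) (nat_lit 4) (nat_lit 8) (nat_lit 4) (nat_lit 478) (nat_lit 396) (nat_lit 326)) (XT.lf (nat_lit 0) (nat_lit 60318656886) (nat_lit 152) (nat_lit 101308880810) (nat_lit 0) (nat_lit 55685065374) (nat_lit 8) (nat_lit 5) (nat_lit 10) (nat_lit 4) (nat_lit 8) (nat_lit 4) (nat_lit 479) (nat_lit 396) (nat_lit 325))) (XT.nd (nat_lit 78) (nat_lit 76) (nat_lit 0) (XT.lf (nat_lit 0) (nat_lit 98516223332) (nat_lit 152) (nat_lit 39600608857) (nat_lit 0) (nat_lit 93881171861) (nat_lit 8) (nat_lit 5) (nat_lit 10) (nat_lit 4) (nat_lit 8) (nat_lit 4) (nat_lit 480) (nat_lit 396) (nat_lit 324)) (XT.lf (nat_lit 0) (nat_lit 28424384269) (nat_lit 76) (nat_lit 112008592800) (nat_lit 76) (nat_lit 107372189515) (nat_lit 7) (nat_lit 4) (nat_lit 8) (nat_lit 5) (nat_lit 8) (nat_lit 4) (nat_lit 481) (nat_lit 396) (nat_lit 323))))) (XT.nd (nat_lit 312) (nat_lit 0) (nat_lit 0) (XT.nd (nat_lit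 156) (nat_lit 152) (nat_lit 0) (XT.nd (nat_lit 78) (nat_lit 0) (nat_lit 0) (XT.lf (nat_lit 0) (nat_lit 104102714483) (nat_lit 76) (nat_lit 82663399600) (nat_lit 76) (nat_lit 78025744635) (nat_lit 7) (nat_lit 4) (nat_lit 8) (nat_lit 5) (nat_lit 8) (nat_lit 4) (nat_lit 482) (nat_lit 396) (nat_lit 322)) (XT.lf (nat_lit 0) (nat_lit 185797548079) (nat_lit 76) (nat_lit 50990105971) (nat_lit 76) (nat_lit 46351292044) (nat_lit 7) (nat_lit 4) (nat_lit 8) (nat_lit 5) (nat_lit 8) (nat_lit 4) (nat_lit 483) (nat_lit 396) (nat_lit 321))) (XT.nd (nat_lit 78) (nat_lit 152) (nat_lit 0) (XT.lf (nat_lit 0) (nat_lit 273993002589) (nat_lit 76) (nat_lit 16801018322) (nat_lit 76) (nat_lit 12161131281) (nat_lit 7) (nat_lit 4) (nat_lit 8) (nat_lit 5) (nat_lit 8) (nat_lit 4) (nat_lit 484) (nat_lit 396) (nat_lit 320)) (XT.lf (nat_lit 0) (nat_lit 25157978574) (nat_lit 152) (nat_lit 278159559418) (nat_lit 0) (nat_lit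 20860866847) (nat_lit 5) (nat_lit 5) (nat_lit 7) (nat_lit 4) (nat_lit 5) (nat_lit 4) (nat_lit 485) (nat_lit 396) (nat_lit 319)))) (XT.nd (nat_lit 156) (nat_lit 0) (nat_lit 0) (XT.nd (nat_lit 78) (nat_lit 0) (nat_lit 0) (XT.lf (nat_lit 0) (nat_lit 66038391609) (nat_lit 152) (nat_lit 219196804910) (nat_lit 0) (nat_lit 61740428010) (nat_lit 5) (nat_lit 5) (nat_lit 7) (nat_lit 4) (nat_lit 5) (nat_lit 4) (nat_lit 486) (nat_lit 396) (nat_lit 318)) (XT.lf (nat_lit 0) (nat_lit 110174382643) (nat_lit 152) (nat_lit 155547797304) (nat_lit 0) (nat_lit 105875630273) (nat_lit 5) (nat_lit 5) (nat_lit 7) (nat_lit 4) (nat_lit 5) (nat_lit 4) (nat_lit 487) (nat_lit 396) (nat_lit 317))) (XT.nd (nat_lit 78) (nat_lit 0) (nat_lit 0) (XT.lf (nat_lit 0) (nat_lit 157827498287) (nat_lit 152) (nat_lit 86835357296) (nat_lit 0) (nat_lit 153528015574) (nat_lit 5) (nat_lit 5) (nat_lit 7) (nat_lit 4) (nat_lit 5) (nat_lit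 4) (nat_lit 488) (nat_lit 396) (nat_lit 316)) (XT.lf (nat_lit 0) (nat_lit 209280127377) (nat_lit 152) (nat_lit 12652300056) (nat_lit 0) (nat_lit 204979968420) (nat_lit 5) (nat_lit 5) (nat_lit 7) (nat_lit 4) (nat_lit 5) (nat_lit 4) (nat_lit 489) (nat_lit 396) (nat_lit 315))))))))
noncomputable def xc84 : XT := (XT.nd (nat_lit 2184) (nat_lit 0) (nat_lit 0) (XT.nd (nat_lit 1092) (nat_lit 76) (nat_lit 0) (XT.nd (nat_lit 546) (nat_lit 0) (nat_lit 0) (XT.nd (nat_lit 234) (nat_lit 152) (nat_lit 0) (XT.nd (nat_lit 78) (nat_lit 0) (nat_lit 0) (XT.lf (nat_lit 0) (nat_lit 70992300087) (nat_lit 76) (nat_lit 195552240817) (nat_lit 76) (nat_lit 191251455709) (nat_lit 4) (nat_lit 4) (nat_lit 5) (nat_lit 5) (nat_lit 5) (nat_lit 4) (nat_lit 490) (nat_lit 396) (nat_lit 314)) (XT.nd (nat_lit 78) (nat_lit 0) (nat_lit 0) (XT.lf (nat_lit 0) (nat_lit 162024210043) (nat_lit 76) (nat_lit 166700342347) (nat_lit 76)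 (nat_lit 162398977469) (nat_lit 4) (nat_lit 4) (nat_lit 5) (nat_lit 5) (nat_lit 5) (nat_lit 4) (nat_lit 491) (nat_lit 396) (nat_lit 313)) (XT.lf (nat_lit 0) (nat_lit 260316630466) (nat_lit 76) (nat_lit 135551694115) (nat_lit 76) (nat_lit 131249792413) (nat_lit 4) (nat_lit 4) (nat_lit 5) (nat_lit 5) (nat_lit 5) (nat_lit 4) (nat_lit 492) (nat_lit 396) (nat_lit 312)))) (XT.nd (nat_lit 156) (nat_lit 152) (nat_lit 0) (XT.nd (nat_lit 78) (nat_lit 0) (nat_lit 0) (XT.lf (nat_lit 0) (nat_lit 366452034960) (nat_lit 76) (nat_lit 101921711540) (nat_lit 76) (nat_lit 97619312779) (nat_lit 4) (nat_lit 4) (nat_lit 5) (nat_lit 5) (nat_lit 5) (nat_lit 4) (nat_lit 493) (nat_lit 396) (nat_lit 311)) (XT.lf (nat_lit 0) (nat_lit 481059374068) (nat_lit 76) (nat_lit 65611105837) (nat_lit 76) (nat_lit 61308246836) (nat_lit 4) (nat_lit 4) (nat_lit 5) (nat_lit 5) (nat_lit 5) (nat_lit 4) (nat_lit 494) (nat_lit 396)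 (nat_lit 310))) (XT.nd (nat_lit 78) (nat_lit 152) (nat_lit 0) (XT.lf (nat_lit 0) (nat_lit 604817802394) (nat_lit 76) (nat_lit 26404703044) (nat_lit 76) (nat_lit 22101417895) (nat_lit 4) (nat_lit 4) (nat_lit 5) (nat_lit 5) (nat_lit 5) (nat_lit 4) (nat_lit 495) (nat_lit 396) (nat_lit 309)) (XT.lf (nat_lit 0) (nat_lit 20543769051) (nat_lit 152) (nat_lit 665049988926) (nat_lit 0) (nat_lit 16558880411) (nat_lit 2) (nat_lit 5) (nat_lit 4) (nat_lit 4) (nat_lit 2) (nat_lit 4) (nat_lit 496) (nat_lit 396) (nat_lit 308))))) (XT.nd (nat_lit 234) (nat_lit 0) (nat_lit 0) (XT.nd (nat_lit 78) (nat_lit 0) (nat_lit 0) (XT.lf (nat_lit 0) (nat_lit 67445026970) (nat_lit 152) (nat_lit 623773818091) (nat_lit 0) (nat_lit 63459800040) (nat_lit 2) (nat_lit 5) (nat_lit 4) (nat_lit 4) (nat_lit 2) (nat_lit 4) (nat_lit 497) (nat_lit 396) (nat_lit 307)) (XT.nd (nat_lit 78) (nat_lit 0) (nat_lit 0) (XT.lf (nat_lit 0) (nat_lit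 118090958686) (nat_lit 152) (nat_lit 579210949294) (nat_lit 0) (nat_lit 114105418525) (nat_lit 2) (nat_lit 5) (nat_lit 4) (nat_lit 4) (nat_lit 2) (nat_lit 4) (nat_lit 498) (nat_lit 396) (nat_lit 306)) (XT.lf (nat_lit 0) (nat_lit 172781688241) (nat_lit 152) (nat_lit 531097306275) (nat_lit 0) (nat_lit 168795858050) (nat_lit 2) (nat_lit 5) (nat_lit 4) (nat_lit 4) (nat_lit 2) (nat_lit 4) (nat_lit 499) (nat_lit 396) (nat_lit 305)))) (XT.nd (nat_lit 156) (nat_lit 0) (nat_lit 0) (XT.nd (nat_lit 78) (nat_lit 0) (nat_lit 0) (XT.lf (nat_lit 0) (nat_lit 231841308846) (nat_lit 152) (nat_lit 479147771149) (nat_lit 0) (nat_lit 227855210109) (nat_lit 2) (nat_lit 5) (nat_lit 4) (nat_lit 4) (nat_lit 2) (nat_lit 4) (nat_lit 500) (nat_lit 396) (nat_lit 304)) (XT.lf (nat_lit 0) (nat_lit 295619803437) (nat_lit 152) (nat_lit 423054494819) (nat_lit 0) (nat_lit 291633456047) (nat_lit 2) (nat_lit 5) (nat_lit 4)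 (nat_lit 4) (nat_lit 2) (nat_lit 4) (nat_lit 501) (nat_lit 396) (nat_lit 303))) (XT.nd (nat_lit 78) (nat_lit 0) (nat_lit 0) (XT.lf (nat_lit 0) (nat_lit 364495118650) (nat_lit 152) (nat_lit 362485072686) (nat_lit 0) (nat_lit 360508541026) (nat_lit 2) (nat_lit 5) (nat_lit 4) (nat_lit 4) (nat_lit 2) (nat_lit 4) (nat_lit 502) (nat_lit 396) (nat_lit 302)) (XT.lf (nat_lit 0) (nat_lit 438875404501) (nat_lit 152) (nat_lit 297080574839) (nat_lit 0) (nat_lit 434888613697) (nat_lit 2) (nat_lit 5) (nat_lit 4) (nat_lit 4) (nat_lit 2) (nat_lit 4) (nat_lit 503) (nat_lit 396) (nat_lit 301)))))) (XT.nd (nat_lit 546) (nat_lit 0) (nat_lit 0) (XT.nd (nat_lit 234) (nat_lit 76) (nat_lit 0) (XT.nd (nat_lit 78) (nat_lit 0) (nat_lit 0) (XT.lf (nat_lit 0) (nat_lit 519201433054) (nat_lit 152) (nat_lit 226453419070) (nat_lit 0) (nat_lit 515214444861) (nat_lit 2) (nat_lit 5) (nat_lit 4) (nat_lit 4) (nat_lit 2) (nat_lit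 4) (nat_lit 504) (nat_lit 396) (nat_lit 300)) (XT.nd (nat_lit 78) (nat_lit 0) (nat_lit 0) (XT.lf (nat_lit 0) (nat_lit 605949210404) (nat_lit 152) (nat_lit 150185074085) (nat_lit 0) (nat_lit 601962039443) (nat_lit 2) (nat_lit 5) (nat_lit 4) (nat_lit 4) (nat_lit 2) (nat_lit 4) (nat_lit 505) (nat_lit 396) (nat_lit 299)) (XT.lf (nat_lit 0) (nat_lit 699632797454) (nat_lit 152) (nat_lit 67823579320) (nat_lit 0) (nat_lit 695645457264) (nat_lit 2) (nat_lit 5) (nat_lit 4) (nat_lit 4) (nat_lit 2) (nat_lit 4) (nat_lit 506) (nat_lit 396) (nat_lit 298)))) (XT.nd (nat_lit 156) (nat_lit 0) (nat_lit 0) (XT.nd (nat_lit 78) (nat_lit 0) (nat_lit 0) (XT.lf (nat_lit 0) (nat_lit 22231229474) (nat_lit 76) (nat_lit 779110788331) (nat_lit 76) (nat_lit 775123291446) (nat_lit 1) (nat_lit 4) (nat_lit 2) (nat_lit 5) (nat_lit 2) (nat_lit 4) (nat_lit 507) (nat_lit 396) (nat_lit 297)) (XT.lf (nat_lit 0) (nat_lit 123340103320)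 (nat_lit 76) (nat_lit 789698668717) (nat_lit 76) (nat_lit 785711026746) (nat_lit 1) (nat_lit 4) (nat_lit 2) (nat_lit 5) (nat_lit 2) (nat_lit 4) (nat_lit 508) (nat_lit 396) (nat_lit 296))) (XT.nd (nat_lit 78) (nat_lit 0) (nat_lit 0) (XT.lf (nat_lit 0) (nat_lit 232530736420) (nat_lit 76) (nat_lit 801137177783) (nat_lit 76) (nat_lit 797149401472) (nat_lit 1) (nat_lit 4) (nat_lit 2) (nat_lit 5) (nat_lit 2) (nat_lit 4) (nat_lit 509) (nat_lit 396) (nat_lit 295)) (XT.lf (nat_lit 0) (nat_lit 350450184378) (nat_lit 76) (nat_lit 813494099284) (nat_lit 76) (nat_lit 809506198585) (nat_lit 1) (nat_lit 4) (nat_lit 2) (nat_lit 5) (nat_lit 2) (nat_lit 4) (nat_lit 510) (nat_lit 396) (nat_lit 294))))) (XT.nd (nat_lit 234) (nat_lit 0) (nat_lit 0) (XT.nd (nat_lit 78) (nat_lit 0) (nat_lit 0) (XT.lf (nat_lit 0) (nat_lit 477797229108) (nat_lit 76) (nat_lit 826842659424) (nat_lit 76) (nat_lit 822854643549) (nat_lit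 1) (nat_lit 4) (nat_lit 2) (nat_lit 5) (nat_lit 2) (nat_lit 4) (nat_lit 511) (nat_lit 396) (nat_lit 293)) (XT.nd (nat_lit 78) (nat_lit 0) (nat_lit 0) (XT.lf (nat_lit 0) (nat_lit 615326519763) (nat_lit 76) (nat_lit 841261960779) (nat_lit 76) (nat_lit 837273838261) (nat_lit 1) (nat_lit 4) (nat_lit 2) (nat_lit 5) (nat_lit 2) (nat_lit 4) (nat_lit 512) (nat_lit 396) (nat_lit 292)) (XT.lf (nat_lit 0) (nat_lit 763853044733) (nat_lit 76) (nat_lit 856837451062) (nat_lit 76) (nat_lit 852849229801) (nat_lit 1) (nat_lit 4) (nat_lit 2) (nat_lit 5) (nat_lit 2) (nat_lit 4) (nat_lit 513) (nat_lit 396) (nat_lit 291)))) (XT.nd (nat_lit 156) (nat_lit 0) (nat_lit 0) (XT.nd (nat_lit 78) (nat_lit 0) (nat_lit 0) (XT.lf (nat_lit 0) (nat_lit 924256961202) (nat_lit 76) (nat_lit 873661429475) (nat_lit 76) (nat_lit 869673116784) (nat_lit 1) (nat_lit 4) (nat_lit 2) (nat_lit 5) (nat_lit 2) (nat_lit 4) (nat_lit 514) (nat_lit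 396) (nat_lit 290)) (XT.lf (nat_lit 0) (nat_lit 1097488810898) (nat_lit 76) (nat_lit 891833593667) (nat_lit 76) (nat_lit 887845196320) (nat_lit 1) (nat_lit 4) (nat_lit 2) (nat_lit 5) (nat_lit 2) (nat_lit 4) (nat_lit 515) (nat_lit 396) (nat_lit 289))) (XT.nd (nat_lit 78) (nat_lit 0) (nat_lit 0) (XT.lf (nat_lit 0) (nat_lit 1284575152931) (nat_lit 76) (nat_lit 911461630538) (nat_lit 76) (nat_lit 907473154804) (nat_lit 1) (nat_lit 4) (nat_lit 2) (nat_lit 5) (nat_lit 2) (nat_lit 4) (nat_lit 516) (nat_lit 396) (nat_lit 288)) (XT.lf (nat_lit 0) (nat_lit 1486624647104) (nat_lit 76) (nat_lit 932661854379) (nat_lit 76) (nat_lit 928673306066) (nat_lit 1) (nat_lit 4) (nat_lit 2) (nat_lit 5) (nat_lit 2) (nat_lit 4) (nat_lit 517) (nat_lit 396) (nat_lit 287))))))) (XT.nd (nat_lit 1092) (nat_lit 0) (nat_lit 0) (XT.nd (nat_lit 546) (nat_lit 0) (nat_lit 0) (XT.nd (nat_lit 234) (nat_lit 0) (nat_lit 0) (XT.nd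 (nat_lit 78) (nat_lit 0) (nat_lit 0) (XT.lf (nat_lit 0) (nat_lit 1704834623753) (nat_lit 76) (nat_lit 955559896148) (nat_lit 76) (nat_lit 951571280632) (nat_lit 1) (nat_lit 4) (nat_lit 2) (nat_lit 5) (nat_lit 2) (nat_lit 4) (nat_lit 518) (nat_lit 396) (nat_lit 286)) (XT.nd (nat_lit 78) (nat_lit 0) (nat_lit 0) (XT.lf (nat_lit 0) (nat_lit 1940498179037) (nat_lit 76) (nat_lit 980291447942) (nat_lit 76) (nat_lit 976302770201) (nat_lit 1) (nat_lit 4) (nat_lit 2) (nat_lit 5) (nat_lit 2) (nat_lit 4) (nat_lit 519) (nat_lit 396) (nat_lit 285)) (XT.lf (nat_lit 0) (nat_lit 2195011837728) (nat_lit 76) (nat_lit 1007003067108) (nat_lit 76) (nat_lit 1003014331751) (nat_lit 1) (nat_lit 4) (nat_lit 2) (nat_lit 5) (nat_lit 2) (nat_lit 4) (nat_lit 520) (nat_lit 396) (nat_lit 284)))) (XT.nd (nat_lit 156) (nat_lit 0) (nat_lit 0) (XT.nd (nat_lit 78) (nat_lit 0) (nat_lit 0) (XT.lf (nat_lit 0) (nat_lit 2469883828914)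 (nat_lit 76) (nat_lit 1035853044720) (nat_lit 76) (nat_lit 1031864256015) (nat_lit 1) (nat_lit 4) (nat_lit 2) (nat_lit 5) (nat_lit 2) (nat_lit 4) (nat_lit 521) (nat_lit 396) (nat_lit 283)) (XT.lf (nat_lit 0) (nat_lit 2766743023654) (nat_lit 76) (nat_lit 1067012343609) (nat_lit 76) (nat_lit 1063023505507) (nat_lit 1) (nat_lit 4) (nat_lit 2) (nat_lit 5) (nat_lit 2) (nat_lit 4) (nat_lit 522) (nat_lit 396) (nat_lit 282))) (XT.nd (nat_lit 78) (nat_lit 0) (nat_lit 0) (XT.lf (nat_lit 0) (nat_lit 3087348587546) (nat_lit 76) (nat_lit 1100665611473) (nat_lit 76) (nat_lit 1096676727634) (nat_lit 1) (nat_lit 4) (nat_lit 2) (nat_lit 5) (nat_lit 2) (nat_lit 4) (nat_lit 523) (nat_lit 396) (nat_lit 281)) (XT.lf (nat_lit 0) (nat_lit 3433600405414) (nat_lit 76) (nat_lit 1137012275083) (nat_lit 76) (nat_lit 1133023348895) (nat_lit 1) (nat_lit 4) (nat_lit 2) (nat_lit 5) (nat_lit 2) (nat_lit 4) (nat_lit 524)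 (nat_lit 396) (nat_lit 280))))) (XT.nd (nat_lit 234) (nat_lit 0) (nat_lit 0) (XT.nd (nat_lit 78) (nat_lit 0) (nat_lit 0) (XT.lf (nat_lit 0) (nat_lit 3807550339882) (nat_lit 76) (nat_lit 1176267722077) (nat_lit 76) (nat_lit 1172278756676) (nat_lit 1) (nat_lit 4) (nat_lit 2) (nat_lit 5) (nat_lit 2) (nat_lit 4) (nat_lit 525) (nat_lit 396) (nat_lit 279)) (XT.nd (nat_lit 78) (nat_lit 0) (nat_lit 0) (XT.lf (nat_lit 0) (nat_lit 4211414390562) (nat_lit 76) (nat_lit 1218664577325) (nat_lit 76) (nat_lit 1214675575616) (nat_lit 1) (nat_lit 4) (nat_lit 2) (nat_lit 5) (nat_lit 2) (nat_lit 4) (nat_lit 526) (nat_lit 396) (nat_lit 278)) (XT.lf (nat_lit 0) (nat_lit 4647585825901) (nat_lit 76) (nat_lit 1264454081450) (nat_lit 76) (nat_lit 1260465046123) (nat_lit 1) (nat_lit 4) (nat_lit 2) (nat_lit 5) (nat_lit 2) (nat_lit 4) (nat_lit 527) (nat_lit 396) (nat_lit 277)))) (XT.nd (nat_lit 156) (nat_lit 0) (nat_lit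 0) (XT.nd (nat_lit 78) (nat_lit 0) (nat_lit 0) (XT.lf (nat_lit 0) (nat_lit 5118649365518) (nat_lit 76) (nat_lit 1313907579663) (nat_lit 76) (nat_lit 1309918513207) (nat_lit 1) (nat_lit 4) (nat_lit 2) (nat_lit 5) (nat_lit 2) (nat_lit 4) (nat_lit 528) (nat_lit 396) (nat_lit 276)) (XT.lf (nat_lit 0) (nat_lit 5627396497053) (nat_lit 76) (nat_lit 1367318129730) (nat_lit 76) (nat_lit 1363329034453) (nat_lit 1) (nat_lit 4) (nat_lit 2) (nat_lit 5) (nat_lit 2) (nat_lit 4) (nat_lit 529) (nat_lit 396) (nat_lit 275))) (XT.nd (nat_lit 78) (nat_lit 0) (nat_lit 0) (XT.lf (nat_lit 0) (nat_lit 6176842018324) (nat_lit 76) (nat_lit 1425002238616) (nat_lit 76) (nat_lit 1421013116651) (nat_lit 1) (nat_lit 4) (nat_lit 2) (nat_lit 5) (nat_lit 2) (nat_lit 4) (nat_lit 530) (nat_lit 396) (nat_lit 274)) (XT.lf (nat_lit 0) (nat_lit 6770241902790) (nat_lit 76) (nat_lit 1487301738076) (nat_lit 76) (nat_lit 1483312591400)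 (nat_lit 1) (nat_lit 4) (nat_lit 2) (nat_lit 5) (nat_lit 2) (nat_lit 4) (nat_lit 531) (nat_lit 396) (nat_lit 273)))))) (XT.nd (nat_lit 546) (nat_lit 0) (nat_lit 0) (XT.nd (nat_lit 234) (nat_lit 0) (nat_lit 0) (XT.nd (nat_lit 78) (nat_lit 0) (nat_lit 0) (XT.lf (nat_lit 0) (nat_lit 7411112594211) (nat_lit 76) (nat_lit 1554585810329) (nat_lit 76) (nat_lit 1550596640773) (nat_lit 1) (nat_lit 4) (nat_lit 2) (nat_lit 5) (nat_lit 2) (nat_lit 4) (nat_lit 532) (nat_lit 396) (nat_lit 272)) (XT.nd (nat_lit 78) (nat_lit 0) (nat_lit 0) (XT.lf (nat_lit 0) (nat_lit 8103251844832) (nat_lit 76) (nat_lit 1627253175804) (nat_lit 76) (nat_lit 1623263985063) (nat_lit 1) (nat_lit 4) (nat_lit 2) (nat_lit 5) (nat_lit 2) (nat_lit 4) (nat_lit 533) (nat_lit 396) (nat_lit 271)) (XT.lf (nat_lit 0) (nat_lit 8850761220583) (nat_lit 76) (nat_lit 1705734455925) (nat_lit 76) (nat_lit 1701745245568) (nat_lit 1) (nat_lit 4)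 (nat_lit 2) (nat_lit 5) (nat_lit 2) (nat_lit 4) (nat_lit 534) (nat_lit 396) (nat_lit 270)))) (XT.nd (nat_lit 156) (nat_lit 0) (nat_lit 0) (XT.nd (nat_lit 78) (nat_lit 0) (nat_lit 0) (XT.lf (nat_lit 0) (nat_lit 9658070406653) (nat_lit 76) (nat_lit 1790494724946) (nat_lit 76) (nat_lit 1786505496426) (nat_lit 1) (nat_lit 4) (nat_lit 2) (nat_lit 5) (nat_lit 2) (nat_lit 4) (nat_lit 535) (nat_lit 396) (nat_lit 269)) (XT.lf (nat_lit 0) (nat_lit 10529963457478) (nat_lit 76) (nat_lit 1882036265941) (nat_lit 76) (nat_lit 1878047020604) (nat_lit 1) (nat_lit 4) (nat_lit 2) (nat_lit 5) (nat_lit 2) (nat_lit 4) (nat_lit 536) (nat_lit 396) (nat_lit 268))) (XT.nd (nat_lit 78) (nat_lit 0) (nat_lit 0) (XT.lf (nat_lit 0) (nat_lit 11471607146694) (nat_lit 76) (nat_lit 1980901547302) (nat_lit 76) (nat_lit 1976912286393) (nat_lit 1) (nat_lit 4) (nat_lit 2) (nat_lit 5) (nat_lit 2) (nat_lit 4) (nat_lit 537) (nat_lit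 396) (nat_lit 267)) (XT.lf (nat_lit 0) (nat_lit 12488581585050) (nat_lit 76) (nat_lit 2087676437364) (nat_lit 76) (nat_lit 2083687162036) (nat_lit 1) (nat_lit 4) (nat_lit 2) (nat_lit 5) (nat_lit 2) (nat_lit 4) (nat_lit 538) (nat_lit 396) (nat_lit 266))))) (XT.nd (nat_lit 312) (nat_lit 0) (nat_lit 0) (XT.nd (nat_lit 156) (nat_lit 0) (nat_lit 0) (XT.nd (nat_lit 78) (nat_lit 0) (nat_lit 0) (XT.lf (nat_lit 0) (nat_lit 13586913287738) (nat_lit 76) (nat_lit 2202993676214) (nat_lit 76) (nat_lit 2199004387536) (nat_lit 1) (nat_lit 4) (nat_lit 2) (nat_lit 5) (nat_lit 2) (nat_lit 4) (nat_lit 539) (nat_lit 396) (nat_lit 265)) (XT.lf (nat_lit 0) (nat_lit 14773110887069) (nat_lit 76) (nat_lit 2327536625269) (nat_lit 76) (nat_lit 2323547324229) (nat_lit 1) (nat_lit 4) (nat_lit 2) (nat_lit 5) (nat_lit 2) (nat_lit 4) (nat_lit 540) (nat_lit 396) (nat_lit 264))) (XT.nd (nat_lit 78) (nat_lit 0) (nat_lit 0)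 (XT.lf (nat_lit 0) (nat_lit 16054203702150) (nat_lit 76) (nat_lit 2462043316819) (nat_lit 76) (nat_lit 2458054004334) (nat_lit 1) (nat_lit 4) (nat_lit 2) (nat_lit 5) (nat_lit 2) (nat_lit 4) (nat_lit 541) (nat_lit 396) (nat_lit 263)) (XT.lf (nat_lit 0) (nat_lit 17437783394109) (nat_lit 76) (nat_lit 2607310827555) (nat_lit 76) (nat_lit 2603321504472) (nat_lit 1) (nat_lit 4) (nat_lit 2) (nat_lit 5) (nat_lit 2) (nat_lit 4) (nat_lit 542) (nat_lit 396) (nat_lit 262)))) (XT.nd (nat_lit 51792) (nat_lit 0) (nat_lit 7828) (XT.nd (nat_lit 78) (nat_lit 0) (nat_lit 0) (XT.lf (nat_lit 0) (nat_lit 18932048953711) (nat_lit 76) (nat_lit 2764200001985) (nat_lit 76) (nat_lit 2760210669089) (nat_lit 1) (nat_lit 4) (nat_lit 2) (nat_lit 5) (nat_lit 2) (nat_lit 4) (nat_lit 543) (nat_lit 396) (nat_lit 261)) (XT.lf (nat_lit 0) (nat_lit 20545855287977) (nat_lit 76) (nat_lit 2933640553735) (nat_lit 76) (nat_lit 2929651211753)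 (nat_lit 1) (nat_lit 4) (nat_lit 2) (nat_lit 5) (nat_lit 2) (nat_lit 4) (nat_lit 544) (nat_lit 396) (nat_lit 260))) (XT.nd (nat_lit 78) (nat_lit 380) (nat_lit 0) (XT.lf (nat_lit 0) (nat_lit 1672659016) (nat_lit 228) (nat_lit 837842571) (nat_lit 228) (nat_lit 837842571) (nat_lit 109) (nat_lit 4) (nat_lit 112) (nat_lit 5) (nat_lit 112) (nat_lit 4) (nat_lit 406) (nat_lit 397) (nat_lit 397)) (XT.lf (nat_lit 0) (nat_lit 1154713691) (nat_lit 304) (nat_lit 451271253) (nat_lit 380) (nat_lit 5188019704) (nat_lit 104) (nat_lit 5) (nat_lit 108) (nat_lit 5) (nat_lit 109) (nat_lit 4) (nat_lit 407) (nat_lit 397) (nat_lit 396))))))))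
noncomputable def xc85 : XT := (XT.nd (nat_lit 2184) (nat_lit 2052) (nat_lit 0) (XT.nd (nat_lit 1092) (nat_lit 1444) (nat_lit 0) (XT.nd (nat_lit 546) (nat_lit 1064) (nat_lit 0) (XT.nd (nat_lit 234) (nat_lit 1140) (nat_lit 0) (XT.nd (nat_lit 78) (nat_lit 912) (nat_lit 0) (XT.lf (nat_lit 0) (nat_lit 4899743871) (nat_lit 380) (nat_lit 1006723943) (nat_lit 0) (nat_lit 1001999711) (nat_lit 104) (nat_lit 5) (nat_lit 109) (nat_lit 4) (nat_lit 104) (nat_lit 4) (nat_lit 408) (nat_lit 397) (nat_lit 395)) (XT.nd (nat_lit 78) (nat_lit 456) (nat_lit 0) (XT.lf (nat_lit 0) (nat_lit 1201738654) (nat_lit 456) (nat_lit 3133234668) (nat_lit 76) (nat_lit 2706567260) (nat_lit 98) (nat_lit 5) (nat_lit 104) (nat_lit 5) (nat_lit 99) (nat_lit 4) (nat_lit 409) (nat_lit 397) (nat_lit 394)) (XT.lf (nat_lit 0) (nat_lit 1884409189) (nat_lit 456) (nat_lit 2502052699) (nat_lit 532) (nat_lit 2808587571) (nat_lit 92) (nat_lit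 5) (nat_lit 98) (nat_lit 5) (nat_lit 99) (nat_lit 4) (nat_lit 410) (nat_lit 397) (nat_lit 393)))) (XT.nd (nat_lit 156) (nat_lit 532) (nat_lit 0) (XT.nd (nat_lit 78) (nat_lit 532) (nat_lit 0) (XT.lf (nat_lit 0) (nat_lit 288530897) (nat_lit 532) (nat_lit 139908915) (nat_lit 76) (nat_lit 6943804446) (nat_lit 91) (nat_lit 5) (nat_lit 98) (nat_lit 5) (nat_lit 92) (nat_lit 5) (nat_lit 411) (nat_lit 397) (nat_lit 392)) (XT.lf (nat_lit 0) (nat_lit 3436901399) (nat_lit 608) (nat_lit 2207161621) (nat_lit 76) (nat_lit 1917329588) (nat_lit 84) (nat_lit 5) (nat_lit 92) (nat_lit 5) (nat_lit 85) (nat_lit 4) (nat_lit 412) (nat_lit 397) (nat_lit 391))) (XT.nd (nat_lit 78) (nat_lit 304) (nat_lit 0) (XT.lf (nat_lit 0) (nat_lit 3445643376) (nat_lit 228) (nat_lit 3276685718) (nat_lit 304) (nat_lit 1052557929) (nat_lit 81) (nat_lit 5) (nat_lit 84) (nat_lit 5) (nat_lit 85) (nat_lit 4) (nat_lit 413) (nat_lit 397)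 (nat_lit 390)) (XT.lf (nat_lit 0) (nat_lit 1440858281) (nat_lit 228) (nat_lit 599495462) (nat_lit 304) (nat_lit 5969691390) (nat_lit 77) (nat_lit 5) (nat_lit 80) (nat_lit 5) (nat_lit 81) (nat_lit 5) (nat_lit 414) (nat_lit 397) (nat_lit 389))))) (XT.nd (nat_lit 234) (nat_lit 532) (nat_lit 0) (XT.nd (nat_lit 78) (nat_lit 532) (nat_lit 0) (XT.lf (nat_lit 0) (nat_lit 5300791602) (nat_lit 304) (nat_lit 680493308) (nat_lit 76) (nat_lit 2282410328) (nat_lit 77) (nat_lit 5) (nat_lit 81) (nat_lit 5) (nat_lit 78) (nat_lit 4) (nat_lit 415) (nat_lit 397) (nat_lit 388)) (XT.nd (nat_lit 78) (nat_lit 228) (nat_lit 0) (XT.lf (nat_lit 0) (nat_lit 237411008) (nat_lit 304) (nat_lit 2836886408) (nat_lit 76) (nat_lit 5465435605) (nat_lit 73) (nat_lit 5) (nat_lit 77) (nat_lit 5) (nat_lit 74) (nat_lit 5) (nat_lit 416) (nat_lit 397) (nat_lit 387)) (XT.lf (nat_lit 0) (nat_lit 3464316467) (nat_lit 304) (nat_lit 5181087954)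 (nat_lit 76) (nat_lit 191859971) (nat_lit 70) (nat_lit 5) (nat_lit 74) (nat_lit 5) (nat_lit 71) (nat_lit 4) (nat_lit 417) (nat_lit 397) (nat_lit 386)))) (XT.nd (nat_lit 156) (nat_lit 304) (nat_lit 0) (XT.nd (nat_lit 78) (nat_lit 76) (nat_lit 0) (XT.lf (nat_lit 0) (nat_lit 1416946253) (nat_lit 152) (nat_lit 5550768787) (nat_lit 228) (nat_lit 2189433015) (nat_lit 68) (nat_lit 5) (nat_lit 70) (nat_lit 5) (nat_lit 71) (nat_lit 4) (nat_lit 418) (nat_lit 397) (nat_lit 385)) (XT.lf (nat_lit 0) (nat_lit 1159208006) (nat_lit 228) (nat_lit 939994560) (nat_lit 76) (nat_lit 7403198781) (nat_lit 67) (nat_lit 5) (nat_lit 70) (nat_lit 5) (nat_lit 68) (nat_lit 5) (nat_lit 419) (nat_lit 397) (nat_lit 384))) (XT.nd (nat_lit 78) (nat_lit 152) (nat_lit 0) (XT.lf (nat_lit 0) (nat_lit 4695454390) (nat_lit 228) (nat_lit 3478485003) (nat_lit 76) (nat_lit 1693759535) (nat_lit 65) (nat_lit 5) (nat_lit 68) (nat_lit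 5) (nat_lit 66) (nat_lit 4) (nat_lit 420) (nat_lit 397) (nat_lit 383)) (XT.lf (nat_lit 0) (nat_lit 4004866743) (nat_lit 152) (nat_lit 4531843855) (nat_lit 228) (nat_lit 1723753433) (nat_lit 63) (nat_lit 5) (nat_lit 65) (nat_lit 5) (nat_lit 66) (nat_lit 4) (nat_lit 421) (nat_lit 397) (nat_lit 382)))))) (XT.nd (nat_lit 546) (nat_lit 608) (nat_lit 0) (XT.nd (nat_lit 234) (nat_lit 532) (nat_lit 0) (XT.nd (nat_lit 78) (nat_lit 76) (nat_lit 0) (XT.lf (nat_lit 0) (nat_lit 1386048031) (nat_lit 152) (nat_lit 492318092) (nat_lit 228) (nat_lit 8804219514) (nat_lit 60) (nat_lit 5) (nat_lit 62) (nat_lit 5) (nat_lit 63) (nat_lit 5) (nat_lit 422) (nat_lit 397) (nat_lit 381)) (XT.nd (nat_lit 78) (nat_lit 76) (nat_lit 0) (XT.lf (nat_lit 0) (nat_lit 5794622209) (nat_lit 228) (nat_lit 1516302143) (nat_lit 76) (nat_lit 3814453181) (nat_lit 60) (nat_lit 5) (nat_lit 63) (nat_lit 5) (nat_lit 61) (nat_lit 4) (nat_lit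 423) (nat_lit 397) (nat_lit 380)) (XT.lf (nat_lit 0) (nat_lit 6997694780) (nat_lit 76) (nat_lit 3069168295) (nat_lit 152) (nat_lit 1533324167) (nat_lit 59) (nat_lit 5) (nat_lit 60) (nat_lit 5) (nat_lit 61) (nat_lit 4) (nat_lit 424) (nat_lit 397) (nat_lit 379)))) (XT.nd (nat_lit 156) (nat_lit 228) (nat_lit 0) (XT.nd (nat_lit 78) (nat_lit 76) (nat_lit 0) (XT.lf (nat_lit 0) (nat_lit 2482714286) (nat_lit 228) (nat_lit 8063796299) (nat_lit 76) (nat_lit 1558076815) (nat_lit 56) (nat_lit 5) (nat_lit 59) (nat_lit 5) (nat_lit 57) (nat_lit 4) (nat_lit 425) (nat_lit 397) (nat_lit 378)) (XT.lf (nat_lit 0) (nat_lit 679084150) (nat_lit 76) (nat_lit 6149012673) (nat_lit 152) (nat_lit 5810791902) (nat_lit 55) (nat_lit 5) (nat_lit 56) (nat_lit 5) (nat_lit 57) (nat_lit 4) (nat_lit 426) (nat_lit 397) (nat_lit 377))) (XT.nd (nat_lit 78) (nat_lit 228) (nat_lit 0) (XT.lf (nat_lit 0) (nat_lit 10355729843) (nat_lit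 76) (nat_lit 1256151067) (nat_lit 152) (nat_lit 1596798332) (nat_lit 55) (nat_lit 5) (nat_lit 56) (nat_lit 5) (nat_lit 57) (nat_lit 4) (nat_lit 427) (nat_lit 397) (nat_lit 376)) (XT.lf (nat_lit 0) (nat_lit 2953793500) (nat_lit 228) (nat_lit 6865682785) (nat_lit 76) (nat_lit 3987117166) (nat_lit 52) (nat_lit 5) (nat_lit 55) (nat_lit 5) (nat_lit 53) (nat_lit 4) (nat_lit 428) (nat_lit 397) (nat_lit 375))))) (XT.nd (nat_lit 234) (nat_lit 304) (nat_lit 0) (XT.nd (nat_lit 78) (nat_lit 228) (nat_lit 0) (XT.lf (nat_lit 0) (nat_lit 3097129624) (nat_lit 76) (nat_lit 4750906627) (nat_lit 152) (nat_lit 6595722121) (nat_lit 51) (nat_lit 5) (nat_lit 52) (nat_lit 5) (nat_lit 53) (nat_lit 4) (nat_lit 429) (nat_lit 397) (nat_lit 374)) (XT.nd (nat_lit 78) (nat_lit 228) (nat_lit 0) (XT.lf (nat_lit 0) (nat_lit 13224208113) (nat_lit 152) (nat_lit 1109502648) (nat_lit 0) (nat_lit 790959523) (nat_lit 51) (nat_lit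 5) (nat_lit 53) (nat_lit 4) (nat_lit 51) (nat_lit 4) (nat_lit 430) (nat_lit 397) (nat_lit 373)) (XT.lf (nat_lit 0) (nat_lit 3274717582) (nat_lit 228) (nat_lit 5794266315) (nat_lit 76) (nat_lit 6763943930) (nat_lit 48) (nat_lit 5) (nat_lit 51) (nat_lit 5) (nat_lit 49) (nat_lit 4) (nat_lit 431) (nat_lit 397) (nat_lit 372)))) (XT.nd (nat_lit 156) (nat_lit 152) (nat_lit 0) (XT.nd (nat_lit 78) (nat_lit 76) (nat_lit 0) (XT.lf (nat_lit 0) (nat_lit 5572630163) (nat_lit 76) (nat_lit 3243699995) (nat_lit 152) (nat_lit 7773163329) (nat_lit 47) (nat_lit 5) (nat_lit 48) (nat_lit 5) (nat_lit 49) (nat_lit 4) (nat_lit 432) (nat_lit 397) (nat_lit 371)) (XT.lf (nat_lit 0) (nat_lit 530019767) (nat_lit 76) (nat_lit 14411012143) (nat_lit 76) (nat_lit 2454375333) (nat_lit 46) (nat_lit 4) (nat_lit 47) (nat_lit 5) (nat_lit 47) (nat_lit 4) (nat_lit 433) (nat_lit 397) (nat_lit 370))) (XT.nd (nat_lit 78) (nat_lit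 76) (nat_lit 0) (XT.lf (nat_lit 0) (nat_lit 3410359412) (nat_lit 152) (nat_lit 4989830646) (nat_lit 76) (nat_lit 9836475879) (nat_lit 45) (nat_lit 5) (nat_lit 47) (nat_lit 5) (nat_lit 46) (nat_lit 4) (nat_lit 434) (nat_lit 397) (nat_lit 369)) (XT.lf (nat_lit 0) (nat_lit 7982321290) (nat_lit 76) (nat_lit 1721069420) (nat_lit 152) (nat_lit 9429400097) (nat_lit 44) (nat_lit 5) (nat_lit 45) (nat_lit 5) (nat_lit 46) (nat_lit 4) (nat_lit 435) (nat_lit 397) (nat_lit 368))))))) (XT.nd (nat_lit 1092) (nat_lit 1064) (nat_lit 0) (XT.nd (nat_lit 546) (nat_lit 456) (nat_lit 0) (XT.nd (nat_lit 234) (nat_lit 304) (nat_lit 0) (XT.nd (nat_lit 78) (nat_lit 152) (nat_lit 0) (XT.lf (nat_lit 0) (nat_lit 1958765456) (nat_lit 76) (nat_lit 14760921033) (nat_lit 76) (nat_lit 3363336104) (nat_lit 43) (nat_lit 4) (nat_lit 44) (nat_lit 5) (nat_lit 44) (nat_lit 4) (nat_lit 436) (nat_lit 397) (nat_lit 367)) (XT.nd (nat_lit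 78) (nat_lit 76) (nat_lit 0) (XT.lf (nat_lit 0) (nat_lit 3287078649) (nat_lit 152) (nat_lit 4653620062) (nat_lit 76) (nat_lit 13141759336) (nat_lit 42) (nat_lit 5) (nat_lit 44) (nat_lit 5) (nat_lit 43) (nat_lit 4) (nat_lit 437) (nat_lit 397) (nat_lit 366)) (XT.lf (nat_lit 0) (nat_lit 10138242661) (nat_lit 76) (nat_lit 301778680) (nat_lit 152) (nat_lit 11702664195) (nat_lit 41) (nat_lit 5) (nat_lit 42) (nat_lit 5) (nat_lit 43) (nat_lit 4) (nat_lit 438) (nat_lit 397) (nat_lit 365)))) (XT.nd (nat_lit 156) (nat_lit 152) (nat_lit 0) (XT.nd (nat_lit 78) (nat_lit 76) (nat_lit 0) (XT.lf (nat_lit 0) (nat_lit 2872923699) (nat_lit 76) (nat_lit 15592110580) (nat_lit 76) (nat_lit 4798712135) (nat_lit 40) (nat_lit 4) (nat_lit 41) (nat_lit 5) (nat_lit 41) (nat_lit 4) (nat_lit 439) (nat_lit 397) (nat_lit 364)) (XT.lf (nat_lit 0) (nat_lit 2778537067) (nat_lit 152) (nat_lit 5082515788) (nat_lit 76) (nat_lit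 16588014043) (nat_lit 39) (nat_lit 5) (nat_lit 41) (nat_lit 5) (nat_lit 40) (nat_lit 4) (nat_lit 440) (nat_lit 397) (nat_lit 363))) (XT.nd (nat_lit 78) (nat_lit 76) (nat_lit 0) (XT.lf (nat_lit 0) (nat_lit 10921737768) (nat_lit 152) (nat_lit 13974241077) (nat_lit 0) (nat_lit 805742259) (nat_lit 38) (nat_lit 5) (nat_lit 40) (nat_lit 4) (nat_lit 38) (nat_lit 4) (nat_lit 441) (nat_lit 397) (nat_lit 362)) (XT.lf (nat_lit 0) (nat_lit 2900608144) (nat_lit 76) (nat_lit 17148844516) (nat_lit 76) (nat_lit 6978491786) (nat_lit 37) (nat_lit 4) (nat_lit 38) (nat_lit 5) (nat_lit 38) (nat_lit 4) (nat_lit 442) (nat_lit 397) (nat_lit 361))))) (XT.nd (nat_lit 234) (nat_lit 228) (nat_lit 0) (XT.nd (nat_lit 78) (nat_lit 152) (nat_lit 0) (XT.lf (nat_lit 0) (nat_lit 1683490015) (nat_lit 152) (nat_lit 6719024258) (nat_lit 76) (nat_lit 20030267435) (nat_lit 36) (nat_lit 5) (nat_lit 38) (nat_lit 5) (nat_lit 37)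 (nat_lit 4) (nat_lit 443) (nat_lit 397) (nat_lit 360)) (XT.nd (nat_lit 78) (nat_lit 76) (nat_lit 0) (XT.lf (nat_lit 0) (nat_lit 10917469159) (nat_lit 152) (nat_lit 17586829670) (nat_lit 0) (nat_lit 1410722821) (nat_lit 35) (nat_lit 5) (nat_lit 37) (nat_lit 4) (nat_lit 35) (nat_lit 4) (nat_lit 444) (nat_lit 397) (nat_lit 359)) (XT.lf (nat_lit 0) (nat_lit 1478157575) (nat_lit 76) (nat_lit 19777569963) (nat_lit 76) (nat_lit 10230869445) (nat_lit 34) (nat_lit 4) (nat_lit 35) (nat_lit 5) (nat_lit 35) (nat_lit 4) (nat_lit 445) (nat_lit 397) (nat_lit 358)))) (XT.nd (nat_lit 156) (nat_lit 76) (nat_lit 0) (XT.nd (nat_lit 78) (nat_lit 152) (nat_lit 0) (XT.lf (nat_lit 0) (nat_lit 22919468482) (nat_lit 76) (nat_lit 9907813570) (nat_lit 76) (nat_lit 324118441) (nat_lit 34) (nat_lit 4) (nat_lit 35) (nat_lit 5) (nat_lit 35) (nat_lit 4) (nat_lit 446) (nat_lit 397) (nat_lit 357)) (XT.lf (nat_lit 0) (nat_lit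 10086970128) (nat_lit 152) (nat_lit 23642531272) (nat_lit 0) (nat_lit 1181461426) (nat_lit 32) (nat_lit 5) (nat_lit 34) (nat_lit 4) (nat_lit 32) (nat_lit 4) (nat_lit 447) (nat_lit 397) (nat_lit 356))) (XT.nd (nat_lit 78) (nat_lit 76) (nat_lit 0) (XT.lf (nat_lit 0) (nat_lit 21787182695) (nat_lit 152) (nat_lit 2133228448) (nat_lit 0) (nat_lit 12852306478) (nat_lit 32) (nat_lit 5) (nat_lit 34) (nat_lit 4) (nat_lit 32) (nat_lit 4) (nat_lit 448) (nat_lit 397) (nat_lit 355)) (XT.lf (nat_lit 0) (nat_lit 22069323565) (nat_lit 76) (nat_lit 12819464143) (nat_lit 76) (nat_lit 3857395782) (nat_lit 31) (nat_lit 4) (nat_lit 32) (nat_lit 5) (nat_lit 32) (nat_lit 4) (nat_lit 449) (nat_lit 397) (nat_lit 354)))))) (XT.nd (nat_lit 546) (nat_lit 608) (nat_lit 0) (XT.nd (nat_lit 234) (nat_lit 228) (nat_lit 0) (XT.nd (nat_lit 78) (nat_lit 76) (nat_lit 0) (XT.lf (nat_lit 0) (nat_lit 7502452331) (nat_lit 76) (nat_lit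 425287381) (nat_lit 152) (nat_lit 32920086473) (nat_lit 29) (nat_lit 5) (nat_lit 30) (nat_lit 5) (nat_lit 31) (nat_lit 4) (nat_lit 450) (nat_lit 397) (nat_lit 353)) (XT.nd (nat_lit 78) (nat_lit 76) (nat_lit 0) (XT.lf (nat_lit 0) (nat_lit 21161713288) (nat_lit 152) (nat_lit 9072115107) (nat_lit 0) (nat_lit 12818602963) (nat_lit 29) (nat_lit 5) (nat_lit 31) (nat_lit 4) (nat_lit 29) (nat_lit 4) (nat_lit 451) (nat_lit 397) (nat_lit 352)) (XT.lf (nat_lit 0) (nat_lit 17905636992) (nat_lit 76) (nat_lit 17930176573) (nat_lit 76) (nat_lit 9567079210) (nat_lit 28) (nat_lit 4) (nat_lit 29) (nat_lit 5) (nat_lit 29) (nat_lit 4) (nat_lit 452) (nat_lit 397) (nat_lit 351)))) (XT.nd (nat_lit 156) (nat_lit 76) (nat_lit 0) (XT.nd (nat_lit 78) (nat_lit 76) (nat_lit 0) (XT.lf (nat_lit 0) (nat_lit 3749539609) (nat_lit 152) (nat_lit 582561490) (nat_lit 76) (nat_lit 43586545869) (nat_lit 27) (nat_lit 5) (nat_lit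 29) (nat_lit 5) (nat_lit 28) (nat_lit 4) (nat_lit 453) (nat_lit 397) (nat_lit 350)) (XT.lf (nat_lit 0) (nat_lit 18543458461) (nat_lit 152) (nat_lit 21231168736) (nat_lit 0) (nat_lit 10766847775) (nat_lit 26) (nat_lit 5) (nat_lit 28) (nat_lit 4) (nat_lit 26) (nat_lit 4) (nat_lit 454) (nat_lit 397) (nat_lit 349))) (XT.nd (nat_lit 78) (nat_lit 0) (nat_lit 0) (XT.lf (nat_lit 0) (nat_lit 8451521889) (nat_lit 76) (nat_lit 26345893745) (nat_lit 76) (nat_lit 18554591990) (nat_lit 25) (nat_lit 4) (nat_lit 26) (nat_lit 5) (nat_lit 26) (nat_lit 4) (nat_lit 455) (nat_lit 397) (nat_lit 348)) (XT.lf (nat_lit 0) (nat_lit 41605928137) (nat_lit 76) (nat_lit 11272125293) (nat_lit 76) (nat_lit 3467220696) (nat_lit 25) (nat_lit 4) (nat_lit 26) (nat_lit 5) (nat_lit 26) (nat_lit 4) (nat_lit 456) (nat_lit 397) (nat_lit 347))))) (XT.nd (nat_lit 312) (nat_lit 304) (nat_lit 0) (XT.nd (nat_lit 156) (nat_lit 152) (nat_lit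 0) (XT.nd (nat_lit 78) (nat_lit 0) (nat_lit 0) (XT.lf (nat_lit 0) (nat_lit 12713709628) (nat_lit 152) (nat_lit 41322070534) (nat_lit 0) (nat_lit 5475283868) (nat_lit 23) (nat_lit 5) (nat_lit 25) (nat_lit 4) (nat_lit 23) (nat_lit 4) (nat_lit 457) (nat_lit 397) (nat_lit 346)) (XT.lf (nat_lit 0) (nat_lit 30656715264) (nat_lit 152) (nat_lit 8806312739) (nat_lit 0) (nat_lit 23407491130) (nat_lit 23) (nat_lit 5) (nat_lit 25) (nat_lit 4) (nat_lit 23) (nat_lit 4) (nat_lit 458) (nat_lit 397) (nat_lit 345))) (XT.nd (nat_lit 78) (nat_lit 76) (nat_lit 0) (XT.lf (nat_lit 0) (nat_lit 27593870499) (nat_lit 76) (nat_lit 23057397263) (nat_lit 76) (nat_lit 15798174634) (nat_lit 22) (nat_lit 4) (nat_lit 23) (nat_lit 5) (nat_lit 23) (nat_lit 4) (nat_lit 459) (nat_lit 397) (nat_lit 344)) (XT.lf (nat_lit 0) (nat_lit 2033670421) (nat_lit 152) (nat_lit 3038446018) (nat_lit 76) (nat_lit 65222884860) (nat_lit 21)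 (nat_lit 5) (nat_lit 23) (nat_lit 5) (nat_lit 22) (nat_lit 4) (nat_lit 460) (nat_lit 397) (nat_lit 343)))) (XT.nd (nat_lit 156) (nat_lit 152) (nat_lit 0) (XT.nd (nat_lit 78) (nat_lit 76) (nat_lit 0) (XT.lf (nat_lit 0) (nat_lit 21662120706) (nat_lit 152) (nat_lit 37731262444) (nat_lit 0) (nat_lit 14924109046) (nat_lit 20) (nat_lit 5) (nat_lit 22) (nat_lit 4) (nat_lit 20) (nat_lit 4) (nat_lit 461) (nat_lit 397) (nat_lit 342)) (XT.lf (nat_lit 0) (nat_lit 710065243) (nat_lit 76) (nat_lit 42340933035) (nat_lit 76) (nat_lit 35595572183) (nat_lit 19) (nat_lit 4) (nat_lit 20) (nat_lit 5) (nat_lit 20) (nat_lit 4) (nat_lit 462) (nat_lit 397) (nat_lit 341))) (XT.nd (nat_lit 78) (nat_lit 152) (nat_lit 0) (XT.lf (nat_lit 0) (nat_lit 44284693959) (nat_lit 76) (nat_lit 22855168383) (nat_lit 76) (nat_lit 16103002724) (nat_lit 19) (nat_lit 4) (nat_lit 20) (nat_lit 5) (nat_lit 20) (nat_lit 4) (nat_lit 463)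 (nat_lit 397) (nat_lit 340)) (XT.lf (nat_lit 0) (nat_lit 3090559094) (nat_lit 76) (nat_lit 1644549319) (nat_lit 152) (nat_lit 83459536849) (nat_lit 17) (nat_lit 5) (nat_lit 18) (nat_lit 5) (nat_lit 19) (nat_lit 4) (nat_lit 464) (nat_lit 397) (nat_lit 339))))))))
noncomputable def xc86 : XT := (XT.nd (nat_lit 2184) (nat_lit 228) (nat_lit 0) (XT.nd (nat_lit 1092) (nat_lit 456) (nat_lit 0) (XT.nd (nat_lit 546) (nat_lit 228) (nat_lit 0) (XT.nd (nat_lit 234) (nat_lit 228) (nat_lit 0) (XT.nd (nat_lit 78) (nat_lit 76) (nat_lit 0) (XT.lf (nat_lit 0) (nat_lit 27933938649) (nat_lit 152) (nat_lit 43779379027) (nat_lit 0) (nat_lit 21670697508) (nat_lit 17) (nat_lit 5) (nat_lit 19) (nat_lit 4) (nat_lit 17) (nat_lit 4) (nat_lit 465) (nat_lit 397) (nat_lit 338)) (XT.nd (nat_lit 78) (nat_lit 0) (nat_lit 0) (XT.lf (nat_lit 0) (nat_lit 769783155) (nat_lit 76) (nat_lit 52242550927) (nat_lit 76) (nat_lit 45974308049)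 (nat_lit 16) (nat_lit 4) (nat_lit 17) (nat_lit 5) (nat_lit 17) (nat_lit 4) (nat_lit 466) (nat_lit 397) (nat_lit 337)) (XT.lf (nat_lit 0) (nat_lit 51297294061) (nat_lit 76) (nat_lit 29960113451) (nat_lit 76) (nat_lit 23687239336) (nat_lit 16) (nat_lit 4) (nat_lit 17) (nat_lit 5) (nat_lit 17) (nat_lit 4) (nat_lit 467) (nat_lit 397) (nat_lit 336)))) (XT.nd (nat_lit 156) (nat_lit 76) (nat_lit 0) (XT.nd (nat_lit 78) (nat_lit 76) (nat_lit 0) (XT.lf (nat_lit 0) (nat_lit 328877224) (nat_lit 152) (nat_lit 5593097670) (nat_lit 76) (nat_lit 105459362152) (nat_lit 15) (nat_lit 5) (nat_lit 17) (nat_lit 5) (nat_lit 16) (nat_lit 4) (nat_lit 468) (nat_lit 397) (nat_lit 335)) (XT.lf (nat_lit 0) (nat_lit 26636505085) (nat_lit 152) (nat_lit 70694600039) (nat_lit 0) (nat_lit 20820641346) (nat_lit 14) (nat_lit 5) (nat_lit 16) (nat_lit 4) (nat_lit 14) (nat_lit 4) (nat_lit 469) (nat_lit 397) (nat_lit 334))) (XT.nd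 (nat_lit 78) (nat_lit 76) (nat_lit 0) (XT.lf (nat_lit 0) (nat_lit 55327295351) (nat_lit 152) (nat_lit 20606181698) (nat_lit 0) (nat_lit 49508027514) (nat_lit 14) (nat_lit 5) (nat_lit 16) (nat_lit 4) (nat_lit 14) (nat_lit 4) (nat_lit 470) (nat_lit 397) (nat_lit 333)) (XT.lf (nat_lit 0) (nat_lit 35188145186) (nat_lit 76) (nat_lit 51941699170) (nat_lit 76) (nat_lit 46119279391) (nat_lit 13) (nat_lit 4) (nat_lit 14) (nat_lit 5) (nat_lit 14) (nat_lit 4) (nat_lit 471) (nat_lit 397) (nat_lit 332))))) (XT.nd (nat_lit 234) (nat_lit 76) (nat_lit 0) (XT.nd (nat_lit 78) (nat_lit 152) (nat_lit 0) (XT.lf (nat_lit 0) (nat_lit 96558046473) (nat_lit 76) (nat_lit 25452946337) (nat_lit 76) (nat_lit 19627608092) (nat_lit 13) (nat_lit 4) (nat_lit 14) (nat_lit 5) (nat_lit 14) (nat_lit 4) (nat_lit 472) (nat_lit 397) (nat_lit 331)) (XT.nd (nat_lit 78) (nat_lit 0) (nat_lit 0) (XT.lf (nat_lit 0) (nat_lit 8895422021)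 (nat_lit 152) (nat_lit 138258529121) (nat_lit 0) (nat_lit 3499088199) (nat_lit 11) (nat_lit 5) (nat_lit 13) (nat_lit 4) (nat_lit 11) (nat_lit 4) (nat_lit 473) (nat_lit 397) (nat_lit 330)) (XT.lf (nat_lit 0) (nat_lit 40538064918) (nat_lit 152) (nat_lit 84518515354) (nat_lit 0) (nat_lit 35139414324) (nat_lit 11) (nat_lit 5) (nat_lit 13) (nat_lit 4) (nat_lit 11) (nat_lit 4) (nat_lit 474) (nat_lit 397) (nat_lit 329)))) (XT.nd (nat_lit 156) (nat_lit 0) (nat_lit 0) (XT.nd (nat_lit 78) (nat_lit 76) (nat_lit 0) (XT.lf (nat_lit 0) (nat_lit 74686617542) (nat_lit 152) (nat_lit 26531987135) (nat_lit 0) (nat_lit 69285821789) (nat_lit 11) (nat_lit 5) (nat_lit 13) (nat_lit 4) (nat_lit 11) (nat_lit 4) (nat_lit 475) (nat_lit 397) (nat_lit 328)) (XT.lf (nat_lit 0) (nat_lit 37942728348) (nat_lit 76) (nat_lit 74513236867) (nat_lit 76) (nat_lit 69110454856) (nat_lit 10) (nat_lit 4) (nat_lit 11) (nat_lit 5) (nat_lit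 11) (nat_lit 4) (nat_lit 476) (nat_lit 397) (nat_lit 327))) (XT.nd (nat_lit 78) (nat_lit 0) (nat_lit 0) (XT.lf (nat_lit 0) (nat_lit 109036769790) (nat_lit 76) (nat_lit 44912515305) (nat_lit 76) (nat_lit 39507894166) (nat_lit 10) (nat_lit 4) (nat_lit 11) (nat_lit 5) (nat_lit 11) (nat_lit 4) (nat_lit 477) (nat_lit 397) (nat_lit 326)) (XT.lf (nat_lit 0) (nat_lit 185774307790) (nat_lit 76) (nat_lit 12966459856) (nat_lit 76) (nat_lit 7560135820) (nat_lit 10) (nat_lit 4) (nat_lit 11) (nat_lit 5) (nat_lit 11) (nat_lit 4) (nat_lit 478) (nat_lit 397) (nat_lit 325)))))) (XT.nd (nat_lit 546) (nat_lit 228) (nat_lit 0) (XT.nd (nat_lit 234) (nat_lit 76) (nat_lit 0) (XT.nd (nat_lit 78) (nat_lit 0) (nat_lit 0) (XT.lf (nat_lit 0) (nat_lit 27350891500) (nat_lit 152) (nat_lit 170285397483) (nat_lit 0) (nat_lit 22343575952) (nat_lit 8) (nat_lit 5) (nat_lit 10) (nat_lit 4) (nat_lit 8) (nat_lit 4) (nat_lit 479)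 (nat_lit 397) (nat_lit 324)) (XT.nd (nat_lit 78) (nat_lit 0) (nat_lit 0) (XT.lf (nat_lit 0) (nat_lit 65538734316) (nat_lit 152) (nat_lit 108597242550) (nat_lit 0) (nat_lit 60530066954) (nat_lit 8) (nat_lit 5) (nat_lit 10) (nat_lit 4) (nat_lit 8) (nat_lit 4) (nat_lit 480) (nat_lit 397) (nat_lit 323)) (XT.lf (nat_lit 0) (nat_lit 106762877569) (nat_lit 152) (nat_lit 42012779116) (nat_lit 0) (nat_lit 101752958527) (nat_lit 8) (nat_lit 5) (nat_lit 10) (nat_lit 4) (nat_lit 8) (nat_lit 4) (nat_lit 481) (nat_lit 397) (nat_lit 322)))) (XT.nd (nat_lit 156) (nat_lit 0) (nat_lit 0) (XT.nd (nat_lit 78) (nat_lit 0) (nat_lit 0) (XT.lf (nat_lit 0) (nat_lit 31435077296) (nat_lit 76) (nat_lit 120588549544) (nat_lit 76) (nat_lit 115577471539) (nat_lit 7) (nat_lit 4) (nat_lit 8) (nat_lit 5) (nat_lit 8) (nat_lit 4) (nat_lit 482) (nat_lit 397) (nat_lit 321)) (XT.lf (nat_lit 0) (nat_lit 113113100425) (nat_lit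 76) (nat_lit 88923943160) (nat_lit 76) (nat_lit 83911792042) (nat_lit 7) (nat_lit 4) (nat_lit 8) (nat_lit 5) (nat_lit 8) (nat_lit 4) (nat_lit 483) (nat_lit 397) (nat_lit 320))) (XT.nd (nat_lit 78) (nat_lit 0) (nat_lit 0) (XT.lf (nat_lit 0) (nat_lit 201292989687) (nat_lit 76) (nat_lit 54742899256) (nat_lit 76) (nat_lit 49729754514) (nat_lit 7) (nat_lit 4) (nat_lit 8) (nat_lit 5) (nat_lit 8) (nat_lit 4) (nat_lit 484) (nat_lit 397) (nat_lit 319)) (XT.lf (nat_lit 0) (nat_lit 296497292576) (nat_lit 76) (nat_lit 17842863498) (nat_lit 76) (nat_lit 12828798734) (nat_lit 7) (nat_lit 4) (nat_lit 8) (nat_lit 5) (nat_lit 8) (nat_lit 4) (nat_lit 485) (nat_lit 397) (nat_lit 318))))) (XT.nd (nat_lit 234) (nat_lit 76) (nat_lit 0) (XT.nd (nat_lit 78) (nat_lit 0) (nat_lit 0) (XT.lf (nat_lit 0) (nat_lit 27460433073) (nat_lit 152) (nat_lit 299812066702) (nat_lit 0) (nat_lit 22816991743) (nat_lit 5) (nat_lit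 5) (nat_lit 7) (nat_lit 4) (nat_lit 5) (nat_lit 4) (nat_lit 486) (nat_lit 397) (nat_lit 317)) (XT.nd (nat_lit 78) (nat_lit 0) (nat_lit 0) (XT.lf (nat_lit 0) (nat_lit 71589811284) (nat_lit 152) (nat_lit 236176755349) (nat_lit 0) (nat_lit 66945639611) (nat_lit 5) (nat_lit 5) (nat_lit 7) (nat_lit 4) (nat_lit 5) (nat_lit 4) (nat_lit 487) (nat_lit 397) (nat_lit 316)) (XT.lf (nat_lit 0) (nat_lit 119236803944) (nat_lit 152) (nat_lit 167476997057) (nat_lit 0) (nat_lit 114591956028) (nat_lit 5) (nat_lit 5) (nat_lit 7) (nat_lit 4) (nat_lit 5) (nat_lit 4) (nat_lit 488) (nat_lit 397) (nat_lit 315)))) (XT.nd (nat_lit 156) (nat_lit 76) (nat_lit 0) (XT.nd (nat_lit 78) (nat_lit 0) (nat_lit 0) (XT.lf (nat_lit 0) (nat_lit 170683763604) (nat_lit 152) (nat_lit 93305682147) (nat_lit 0) (nat_lit 166038289536) (nat_lit 5) (nat_lit 5) (nat_lit 7) (nat_lit 4) (nat_lit 5) (nat_lit 4) (nat_lit 489) (nat_lit 397) (nat_lit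 314)) (XT.lf (nat_lit 0) (nat_lit 226235561136) (nat_lit 152) (nat_lit 13223276901) (nat_lit 0) (nat_lit 221589507298) (nat_lit 5) (nat_lit 5) (nat_lit 7) (nat_lit 4) (nat_lit 5) (nat_lit 4) (nat_lit 490) (nat_lit 397) (nat_lit 313))) (XT.nd (nat_lit 78) (nat_lit 0) (nat_lit 0) (XT.lf (nat_lit 0) (nat_lit 77101721453) (nat_lit 76) (nat_lit 210973969178) (nat_lit 76) (nat_lit 206327378516) (nat_lit 4) (nat_lit 4) (nat_lit 5) (nat_lit 5) (nat_lit 5) (nat_lit 4) (nat_lit 491) (nat_lit 397) (nat_lit 312)) (XT.lf (nat_lit 0) (nat_lit 175384329586) (nat_lit 76) (nat_lit 179830396675) (nat_lit 76) (nat_lit 175183308953) (nat_lit 4) (nat_lit 4) (nat_lit 5) (nat_lit 5) (nat_lit 5) (nat_lit 4) (nat_lit 492) (nat_lit 397) (nat_lit 311))))))) (XT.nd (nat_lit 1092) (nat_lit 76) (nat_lit 0) (XT.nd (nat_lit 546) (nat_lit 0) (nat_lit 0) (XT.nd (nat_lit 234) (nat_lit 152) (nat_lit 0) (XT.nd (nat_lit 78)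 (nat_lit 0) (nat_lit 0) (XT.lf (nat_lit 0) (nat_lit 281510648625) (nat_lit 76) (nat_lit 146205113848) (nat_lit 76) (nat_lit 141557565887) (nat_lit 4) (nat_lit 4) (nat_lit 5) (nat_lit 5) (nat_lit 5) (nat_lit 4) (nat_lit 493) (nat_lit 397) (nat_lit 310)) (XT.nd (nat_lit 78) (nat_lit 0) (nat_lit 0) (XT.lf (nat_lit 0) (nat_lit 396109575276) (nat_lit 76) (nat_lit 109898859764) (nat_lit 76) (nat_lit 105250885654) (nat_lit 4) (nat_lit 4) (nat_lit 5) (nat_lit 5) (nat_lit 5) (nat_lit 4) (nat_lit 494) (nat_lit 397) (nat_lit 309)) (XT.lf (nat_lit 0) (nat_lit 519860214290) (nat_lit 76) (nat_lit 70696486248) (nat_lit 76) (nat_lit 66048117557) (nat_lit 4) (nat_lit 4) (nat_lit 5) (nat_lit 5) (nat_lit 5) (nat_lit 4) (nat_lit 495) (nat_lit 397) (nat_lit 308)))) (XT.nd (nat_lit 156) (nat_lit 0) (nat_lit 0) (XT.nd (nat_lit 78) (nat_lit 152) (nat_lit 0) (XT.lf (nat_lit 0) (nat_lit 653495902786) (nat_lit 76)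 (nat_lit 28365682940) (nat_lit 76) (nat_lit 23716948896) (nat_lit 4) (nat_lit 4) (nat_lit 5) (nat_lit 5) (nat_lit 5) (nat_lit 4) (nat_lit 496) (nat_lit 397) (nat_lit 307)) (XT.lf (nat_lit 0) (nat_lit 22332165277) (nat_lit 152) (nat_lit 717953623772) (nat_lit 0) (nat_lit 18027468671) (nat_lit 2) (nat_lit 5) (nat_lit 4) (nat_lit 4) (nat_lit 2) (nat_lit 4) (nat_lit 497) (nat_lit 397) (nat_lit 306))) (XT.nd (nat_lit 78) (nat_lit 0) (nat_lit 0) (XT.lf (nat_lit 0) (nat_lit 72974790888) (nat_lit 152) (nat_lit 673397608475) (nat_lit 0) (nat_lit 68669804253) (nat_lit 2) (nat_lit 5) (nat_lit 4) (nat_lit 4) (nat_lit 2) (nat_lit 4) (nat_lit 498) (nat_lit 397) (nat_lit 305)) (XT.lf (nat_lit 0) (nat_lit 127662459234) (nat_lit 152) (nat_lit 625290311290) (nat_lit 0) (nat_lit 123357204053) (nat_lit 2) (nat_lit 5) (nat_lit 4) (nat_lit 4) (nat_lit 2) (nat_lit 4) (nat_lit 499) (nat_lit 397) (nat_lit 304)))))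 (XT.nd (nat_lit 234) (nat_lit 0) (nat_lit 0) (XT.nd (nat_lit 78) (nat_lit 0) (nat_lit 0) (XT.lf (nat_lit 0) (nat_lit 186719245386) (nat_lit 152) (nat_lit 573346651937) (nat_lit 0) (nat_lit 182413741552) (nat_lit 2) (nat_lit 5) (nat_lit 4) (nat_lit 4) (nat_lit 2) (nat_lit 4) (nat_lit 500) (nat_lit 397) (nat_lit 303)) (XT.nd (nat_lit 78) (nat_lit 0) (nat_lit 0) (XT.lf (nat_lit 0) (nat_lit 250495115485) (nat_lit 152) (nat_lit 517258816137) (nat_lit 0) (nat_lit 246189381416) (nat_lit 2) (nat_lit 5) (nat_lit 4) (nat_lit 4) (nat_lit 2) (nat_lit 4) (nat_lit 501) (nat_lit 397) (nat_lit 302)) (XT.lf (nat_lit 0) (nat_lit 319368000612) (nat_lit 152) (nat_lit 456694431531) (nat_lit 0) (nat_lit 315062053363) (nat_lit 2) (nat_lit 5) (nat_lit 4) (nat_lit 4) (nat_lit 2) (nat_lit 4) (nat_lit 502) (nat_lit 397) (nat_lit 301)))) (XT.nd (nat_lit 156) (nat_lit 0) (nat_lit 0) (XT.nd (nat_lit 78) (nat_lit 0) (nat_lit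 0) (XT.lf (nat_lit 0) (nat_lit 393746036383) (nat_lit 152) (nat_lit 391294598062) (nat_lit 0) (nat_lit 389439891745) (nat_lit 2) (nat_lit 5) (nat_lit 4) (nat_lit 4) (nat_lit 2) (nat_lit 4) (nat_lit 503) (nat_lit 397) (nat_lit 300)) (XT.lf (nat_lit 0) (nat_lit 474069981529) (nat_lit 152) (nat_lit 320671761161) (nat_lit 0) (nat_lit 469763654123) (nat_lit 2) (nat_lit 5) (nat_lit 4) (nat_lit 4) (nat_lit 2) (nat_lit 4) (nat_lit 504) (nat_lit 397) (nat_lit 299))) (XT.nd (nat_lit 78) (nat_lit 0) (nat_lit 0) (XT.lf (nat_lit 0) (nat_lit 560815829798) (nat_lit 152) (nat_lit 244407415127) (nat_lit 0) (nat_lit 556509333163) (nat_lit 2) (nat_lit 5) (nat_lit 4) (nat_lit 4) (nat_lit 2) (nat_lit 4) (nat_lit 505) (nat_lit 397) (nat_lit 298)) (XT.lf (nat_lit 0) (nat_lit 654497630662) (nat_lit 152) (nat_lit 162049623096) (nat_lit 0) (nat_lit 650190977333) (nat_lit 2) (nat_lit 5) (nat_lit 4) (nat_lit 4) (nat_lit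 2) (nat_lit 4) (nat_lit 506) (nat_lit 397) (nat_lit 297)))))) (XT.nd (nat_lit 546) (nat_lit 0) (nat_lit 0) (XT.nd (nat_lit 234) (nat_lit 0) (nat_lit 0) (XT.nd (nat_lit 78) (nat_lit 76) (nat_lit 0) (XT.lf (nat_lit 0) (nat_lit 755670535533) (nat_lit 152) (nat_lit 73110338893) (nat_lit 0) (nat_lit 751363737117) (nat_lit 2) (nat_lit 5) (nat_lit 4) (nat_lit 4) (nat_lit 2) (nat_lit 4) (nat_lit 507) (nat_lit 397) (nat_lit 296)) (XT.nd (nat_lit 78) (nat_lit 0) (nat_lit 0) (XT.lf (nat_lit 0) (nat_lit 24145332408) (nat_lit 76) (nat_lit 841369450968) (nat_lit 76) (nat_lit 837062518213) (nat_lit 1) (nat_lit 4) (nat_lit 2) (nat_lit 5) (nat_lit 2) (nat_lit 4) (nat_lit 508) (nat_lit 397) (nat_lit 295)) (XT.lf (nat_lit 0) (nat_lit 133332871379) (nat_lit 76) (nat_lit 852809561818) (nat_lit 76) (nat_lit 848502504674) (nat_lit 1) (nat_lit 4) (nat_lit 2) (nat_lit 5) (nat_lit 2) (nat_lit 4) (nat_lit 509) (nat_lit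 397) (nat_lit 294)))) (XT.nd (nat_lit 156) (nat_lit 0) (nat_lit 0) (XT.nd (nat_lit 78) (nat_lit 0) (nat_lit 0) (XT.lf (nat_lit 0) (nat_lit 251249454402) (nat_lit 76) (nat_lit 865167966453) (nat_lit 76) (nat_lit 860860794134) (nat_lit 1) (nat_lit 4) (nat_lit 2) (nat_lit 5) (nat_lit 2) (nat_lit 4) (nat_lit 510) (nat_lit 397) (nat_lit 293)) (XT.lf (nat_lit 0) (nat_lit 378593846413) (nat_lit 76) (nat_lit 878517899863) (nat_lit 76) (nat_lit 874210620901) (nat_lit 1) (nat_lit 4) (nat_lit 2) (nat_lit 5) (nat_lit 2) (nat_lit 4) (nat_lit 511) (nat_lit 397) (nat_lit 292))) (XT.nd (nat_lit 78) (nat_lit 0) (nat_lit 0) (XT.lf (nat_lit 0) (nat_lit 516120680849) (nat_lit 76) (nat_lit 892938472766) (nat_lit 76) (nat_lit 888631095061) (nat_lit 1) (nat_lit 4) (nat_lit 2) (nat_lit 5) (nat_lit 2) (nat_lit 4) (nat_lit 512) (nat_lit 397) (nat_lit 291)) (XT.lf (nat_lit 0) (nat_lit 664644931540) (nat_lit 76) (nat_lit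 908515140409) (nat_lit 76) (nat_lit 904207671274) (nat_lit 1) (nat_lit 4) (nat_lit 2) (nat_lit 5) (nat_lit 2) (nat_lit 4) (nat_lit 513) (nat_lit 397) (nat_lit 290))))) (XT.nd (nat_lit 312) (nat_lit 0) (nat_lit 0) (XT.nd (nat_lit 156) (nat_lit 0) (nat_lit 0) (XT.nd (nat_lit 78) (nat_lit 0) (nat_lit 0) (XT.lf (nat_lit 0) (nat_lit 825046742197) (nat_lit 76) (nat_lit 925340208969) (nat_lit 76) (nat_lit 921032655177) (nat_lit 1) (nat_lit 4) (nat_lit 2) (nat_lit 5) (nat_lit 2) (nat_lit 4) (nat_lit 514) (nat_lit 397) (nat_lit 289)) (XT.lf (nat_lit 0) (nat_lit 998276642066) (nat_lit 76) (nat_lit 943513382557) (nat_lit 76) (nat_lit 939205750379) (nat_lit 1) (nat_lit 4) (nat_lit 2) (nat_lit 5) (nat_lit 2) (nat_lit 4) (nat_lit 515) (nat_lit 397) (nat_lit 288))) (XT.nd (nat_lit 78) (nat_lit 0) (nat_lit 0) (XT.lf (nat_lit 0) (nat_lit 1185361178703) (nat_lit 76) (nat_lit 963142354053) (nat_lit 76) (nat_lit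 958834649296) (nat_lit 1) (nat_lit 4) (nat_lit 2) (nat_lit 5) (nat_lit 2) (nat_lit 4) (nat_lit 516) (nat_lit 397) (nat_lit 287)) (XT.lf (nat_lit 0) (nat_lit 1387409001214) (nat_lit 76) (nat_lit 984343443288) (nat_lit 76) (nat_lit 980035671328) (nat_lit 1) (nat_lit 4) (nat_lit 2) (nat_lit 5) (nat_lit 2) (nat_lit 4) (nat_lit 517) (nat_lit 397) (nat_lit 286)))) (XT.nd (nat_lit 156) (nat_lit 0) (nat_lit 0) (XT.nd (nat_lit 78) (nat_lit 0) (nat_lit 0) (XT.lf (nat_lit 0) (nat_lit 1605617430029) (nat_lit 76) (nat_lit 1007242286348) (nat_lit 76) (nat_lit 1002934452162) (nat_lit 1) (nat_lit 4) (nat_lit 2) (nat_lit 5) (nat_lit 2) (nat_lit 4) (nat_lit 518) (nat_lit 397) (nat_lit 285)) (XT.lf (nat_lit 0) (nat_lit 1841279552132) (nat_lit 76) (nat_lit 1031974580079) (nat_lit 76) (nat_lit 1027666688277) (nat_lit 1) (nat_lit 4) (nat_lit 2) (nat_lit 5) (nat_lit 2) (nat_lit 4) (nat_lit 519) (nat_lit 397) (nat_lit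 284))) (XT.nd (nat_lit 78) (nat_lit 0) (nat_lit 0) (XT.lf (nat_lit 0) (nat_lit 2095791883804) (nat_lit 76) (nat_lit 1058686886222) (nat_lit 76) (nat_lit 1054378941072) (nat_lit 1) (nat_lit 4) (nat_lit 2) (nat_lit 5) (nat_lit 2) (nat_lit 4) (nat_lit 520) (nat_lit 397) (nat_lit 283)) (XT.lf (nat_lit 0) (nat_lit 2370662646268) (nat_lit 76) (nat_lit 1087537499924) (nat_lit 76) (nat_lit 1083229505378) (nat_lit 1) (nat_lit 4) (nat_lit 2) (nat_lit 5) (nat_lit 2) (nat_lit 4) (nat_lit 521) (nat_lit 397) (nat_lit 282))))))))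
noncomputable def xc87 : XT := (XT.nd (nat_lit 53664) (nat_lit 0) (nat_lit 3192) (XT.nd (nat_lit 1092) (nat_lit 0) (nat_lit 0) (XT.nd (nat_lit 546) (nat_lit 0) (nat_lit 0) (XT.nd (nat_lit 234) (nat_lit 0) (nat_lit 0) (XT.nd (nat_lit 78) (nat_lit 0) (nat_lit 0) (XT.lf (nat_lit 0) (nat_lit 2667520703303) (nat_lit 76) (nat_lit 1118697387786) (nat_lit 76) (nat_lit 1114389347503) (nat_lit 1) (nat_lit 4) (nat_lit 2) (nat_lit 5) (nat_lit 2) (nat_lit 4) (nat_lit 522) (nat_lit 397) (nat_lit 281)) (XT.nd (nat_lit 78) (nat_lit 0) (nat_lit 0) (XT.lf (nat_lit 0) (nat_lit 2988125213764) (nat_lit 76) (nat_lit 1152351200995) (nat_lit 76) (nat_lit 1148043118362) (nat_lit 1) (nat_lit 4) (nat_lit 2) (nat_lit 5) (nat_lit 2) (nat_lit 4) (nat_lit 523) (nat_lit 397) (nat_lit 280)) (XT.lf (nat_lit 0) (nat_lit 3334376056233) (nat_lit 76) (nat_lit 1188698369555) (nat_lit 76) (nat_lit 1184390247709) (nat_lit 1) (nat_lit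 4) (nat_lit 2) (nat_lit 5) (nat_lit 2) (nat_lit 4) (nat_lit 524) (nat_lit 397) (nat_lit 279)))) (XT.nd (nat_lit 156) (nat_lit 0) (nat_lit 0) (XT.nd (nat_lit 78) (nat_lit 0) (nat_lit 0) (XT.lf (nat_lit 0) (nat_lit 3708325087554) (nat_lit 76) (nat_lit 1227954284094) (nat_lit 76) (nat_lit 1223646125940) (nat_lit 1) (nat_lit 4) (nat_lit 2) (nat_lit 5) (nat_lit 2) (nat_lit 4) (nat_lit 525) (nat_lit 397) (nat_lit 278)) (XT.lf (nat_lit 0) (nat_lit 4112188301986) (nat_lit 76) (nat_lit 1270351572254) (nat_lit 76) (nat_lit 1266043380482) (nat_lit 1) (nat_lit 4) (nat_lit 2) (nat_lit 5) (nat_lit 2) (nat_lit 4) (nat_lit 526) (nat_lit 397) (nat_lit 277))) (XT.nd (nat_lit 78) (nat_lit 0) (nat_lit 0) (XT.lf (nat_lit 0) (nat_lit 4548358963023) (nat_lit 76) (nat_lit 1316141477224) (nat_lit 76) (nat_lit 1311833254324) (nat_lit 1) (nat_lit 4) (nat_lit 2) (nat_lit 5) (nat_lit 2) (nat_lit 4) (nat_lit 527) (nat_lit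 397) (nat_lit 276)) (XT.lf (nat_lit 0) (nat_lit 5019421785692) (nat_lit 76) (nat_lit 1365595346590) (nat_lit 76) (nat_lit 1361287094868) (nat_lit 1) (nat_lit 4) (nat_lit 2) (nat_lit 5) (nat_lit 2) (nat_lit 4) (nat_lit 528) (nat_lit 397) (nat_lit 275))))) (XT.nd (nat_lit 234) (nat_lit 0) (nat_lit 0) (XT.nd (nat_lit 78) (nat_lit 0) (nat_lit 0) (XT.lf (nat_lit 0) (nat_lit 5528168253388) (nat_lit 76) (nat_lit 1419006240317) (nat_lit 76) (nat_lit 1414697961908) (nat_lit 1) (nat_lit 4) (nat_lit 2) (nat_lit 5) (nat_lit 2) (nat_lit 4) (nat_lit 529) (nat_lit 397) (nat_lit 274)) (XT.nd (nat_lit 78) (nat_lit 0) (nat_lit 0) (XT.lf (nat_lit 0) (nat_lit 6077613159992) (nat_lit 76) (nat_lit 1476690667406) (nat_lit 76) (nat_lit 1472382364286) (nat_lit 1) (nat_lit 4) (nat_lit 2) (nat_lit 5) (nat_lit 2) (nat_lit 4) (nat_lit 530) (nat_lit 397) (nat_lit 273)) (XT.lf (nat_lit 0) (nat_lit 6671012475322) (nat_lit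 76) (nat_lit 1538990461499) (nat_lit 76) (nat_lit 1534682135499) (nat_lit 1) (nat_lit 4) (nat_lit 2) (nat_lit 5) (nat_lit 2) (nat_lit 4) (nat_lit 531) (nat_lit 397) (nat_lit 272)))) (XT.nd (nat_lit 156) (nat_lit 0) (nat_lit 0) (XT.nd (nat_lit 78) (nat_lit 0) (nat_lit 0) (XT.lf (nat_lit 0) (nat_lit 7311882639765) (nat_lit 76) (nat_lit 1606274806561) (nat_lit 76) (nat_lit 1601966459375) (nat_lit 1) (nat_lit 4) (nat_lit 2) (nat_lit 5) (nat_lit 2) (nat_lit 4) (nat_lit 532) (nat_lit 397) (nat_lit 271)) (XT.lf (nat_lit 0) (nat_lit 8004021402444) (nat_lit 76) (nat_lit 1678942424636) (nat_lit 76) (nat_lit 1674634057834) (nat_lit 1) (nat_lit 4) (nat_lit 2) (nat_lit 5) (nat_lit 2) (nat_lit 4) (nat_lit 533) (nat_lit 397) (nat_lit 270))) (XT.nd (nat_lit 78) (nat_lit 0) (nat_lit 0) (XT.lf (nat_lit 0) (nat_lit 8751530326396) (nat_lit 76) (nat_lit 1757423938646) (nat_lit 76) (nat_lit 1753115553682) (nat_lit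 1) (nat_lit 4) (nat_lit 2) (nat_lit 5) (nat_lit 2) (nat_lit 4) (nat_lit 534) (nat_lit 397) (nat_lit 269)) (XT.lf (nat_lit 0) (nat_lit 9558839094135) (nat_lit 76) (nat_lit 1842184424231) (nat_lit 76) (nat_lit 1837876022449) (nat_lit 1) (nat_lit 4) (nat_lit 2) (nat_lit 5) (nat_lit 2) (nat_lit 4) (nat_lit 535) (nat_lit 397) (nat_lit 268)))))) (XT.nd (nat_lit 546) (nat_lit 0) (nat_lit 0) (XT.nd (nat_lit 234) (nat_lit 0) (nat_lit 0) (XT.nd (nat_lit 78) (nat_lit 0) (nat_lit 0) (XT.lf (nat_lit 0) (nat_lit 10430731757616) (nat_lit 76) (nat_lit 1933726165749) (nat_lit 76) (nat_lit 1929417748395) (nat_lit 1) (nat_lit 4) (nat_lit 2) (nat_lit 5) (nat_lit 2) (nat_lit 4) (nat_lit 536) (nat_lit 397) (nat_lit 267)) (XT.nd (nat_lit 78) (nat_lit 0) (nat_lit 0) (XT.lf (nat_lit 0) (nat_lit 11372375088180) (nat_lit 76) (nat_lit 2032591632779) (nat_lit 76) (nat_lit 2028283201006) (nat_lit 1) (nat_lit 4) (nat_lit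 2) (nat_lit 5) (nat_lit 2) (nat_lit 4) (nat_lit 537) (nat_lit 397) (nat_lit 266)) (XT.lf (nat_lit 0) (nat_lit 12389349194451) (nat_lit 76) (nat_lit 2139366694755) (nat_lit 76) (nat_lit 2135058249633) (nat_lit 1) (nat_lit 4) (nat_lit 2) (nat_lit 5) (nat_lit 2) (nat_lit 4) (nat_lit 538) (nat_lit 397) (nat_lit 265)))) (XT.nd (nat_lit 156) (nat_lit 0) (nat_lit 0) (XT.nd (nat_lit 78) (nat_lit 0) (nat_lit 0) (XT.lf (nat_lit 0) (nat_lit 13487680589652) (nat_lit 76) (nat_lit 2254684092787) (nat_lit 76) (nat_lit 2250375635303) (nat_lit 1) (nat_lit 4) (nat_lit 2) (nat_lit 5) (nat_lit 2) (nat_lit 4) (nat_lit 539) (nat_lit 397) (nat_lit 264)) (XT.lf (nat_lit 0) (nat_lit 14673877904273) (nat_lit 76) (nat_lit 2379227189231) (nat_lit 76) (nat_lit 2374918720302) (nat_lit 1) (nat_lit 4) (nat_lit 2) (nat_lit 5) (nat_lit 2) (nat_lit 4) (nat_lit 540) (nat_lit 397) (nat_lit 263))) (XT.nd (nat_lit 78) (nat_lit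 0) (nat_lit 0) (XT.lf (nat_lit 0) (nat_lit 15954970455734) (nat_lit 76) (nat_lit 2513734017253) (nat_lit 76) (nat_lit 2509425537726) (nat_lit 1) (nat_lit 4) (nat_lit 2) (nat_lit 5) (nat_lit 2) (nat_lit 4) (nat_lit 541) (nat_lit 397) (nat_lit 262)) (XT.lf (nat_lit 0) (nat_lit 17338549903600) (nat_lit 76) (nat_lit 2659001654352) (nat_lit 76) (nat_lit 2654693165012) (nat_lit 1) (nat_lit 4) (nat_lit 2) (nat_lit 5) (nat_lit 2) (nat_lit 4) (nat_lit 542) (nat_lit 397) (nat_lit 261))))) (XT.nd (nat_lit 51714) (nat_lit 0) (nat_lit 7828) (XT.nd (nat_lit 78) (nat_lit 0) (nat_lit 0) (XT.lf (nat_lit 0) (nat_lit 18832815237191) (nat_lit 76) (nat_lit 2815890945785) (nat_lit 76) (nat_lit 2811582447359) (nat_lit 1) (nat_lit 4) (nat_lit 2) (nat_lit 5) (nat_lit 2) (nat_lit 4) (nat_lit 543) (nat_lit 397) (nat_lit 260)) (XT.nd (nat_lit 51558) (nat_lit 0) (nat_lit 8436) (XT.lf (nat_lit 0) (nat_lit 20446621362187)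 (nat_lit 76) (nat_lit 2985331605872) (nat_lit 76) (nat_lit 2981023099032) (nat_lit 1) (nat_lit 4) (nat_lit 2) (nat_lit 5) (nat_lit 2) (nat_lit 4) (nat_lit 544) (nat_lit 397) (nat_lit 259)) (XT.lf (nat_lit 0) (nat_lit 366420813) (nat_lit 228) (nat_lit 2544558863) (nat_lit 0) (nat_lit 366420813) (nat_lit 112) (nat_lit 5) (nat_lit 115) (nat_lit 4) (nat_lit 112) (nat_lit 4) (nat_lit 404) (nat_lit 398) (nat_lit 398)))) (XT.nd (nat_lit 156) (nat_lit 304) (nat_lit 0) (XT.nd (nat_lit 78) (nat_lit 304) (nat_lit 0) (XT.lf (nat_lit 0) (nat_lit 3960277289) (nat_lit 228) (nat_lit 1060567199) (nat_lit 0) (nat_lit 1599683495) (nat_lit 112) (nat_lit 5) (nat_lit 115) (nat_lit 4) (nat_lit 112) (nat_lit 4) (nat_lit 405) (nat_lit 398) (nat_lit 397)) (XT.lf (nat_lit 0) (nat_lit 510395333) (nat_lit 304) (nat_lit 3484706494) (nat_lit 76) (nat_lit 2711514820) (nat_lit 108) (nat_lit 5) (nat_lit 112) (nat_lit 5)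 (nat_lit 109) (nat_lit 4) (nat_lit 406) (nat_lit 398) (nat_lit 396))) (XT.nd (nat_lit 78) (nat_lit 0) (nat_lit 0) (XT.lf (nat_lit 0) (nat_lit 858028271) (nat_lit 304) (nat_lit 2713214881) (nat_lit 380) (nat_lit 3240449681) (nat_lit 104) (nat_lit 5) (nat_lit 108) (nat_lit 5) (nat_lit 109) (nat_lit 4) (nat_lit 407) (nat_lit 398) (nat_lit 395)) (XT.lf (nat_lit 0) (nat_lit 5526986505) (nat_lit 304) (nat_lit 1189869001) (nat_lit 380) (nat_lit 221174206) (nat_lit 104) (nat_lit 5) (nat_lit 108) (nat_lit 5) (nat_lit 109) (nat_lit 4) (nat_lit 408) (nat_lit 398) (nat_lit 394))))))) (XT.nd (nat_lit 1092) (nat_lit 1444) (nat_lit 0) (XT.nd (nat_lit 546) (nat_lit 1140) (nat_lit 0) (XT.nd (nat_lit 234) (nat_lit 1064) (nat_lit 0) (XT.nd (nat_lit 78) (nat_lit 532) (nat_lit 0) (XT.lf (nat_lit 0) (nat_lit 2741704529) (nat_lit 456) (nat_lit 3722421113) (nat_lit 76) (nat_lit 616210024) (nat_lit 98) (nat_lit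 5) (nat_lit 104) (nat_lit 5) (nat_lit 99) (nat_lit 4) (nat_lit 409) (nat_lit 398) (nat_lit 393)) (XT.nd (nat_lit 78) (nat_lit 76) (nat_lit 0) (XT.lf (nat_lit 0) (nat_lit 1148125067) (nat_lit 456) (nat_lit 4650368255) (nat_lit 532) (nat_lit 1445603660) (nat_lit 92) (nat_lit 5) (nat_lit 98) (nat_lit 5) (nat_lit 99) (nat_lit 4) (nat_lit 410) (nat_lit 398) (nat_lit 392)) (XT.lf (nat_lit 0) (nat_lit 1475952584) (nat_lit 532) (nat_lit 1071164194) (nat_lit 76) (nat_lit 4880158200) (nat_lit 91) (nat_lit 5) (nat_lit 98) (nat_lit 5) (nat_lit 92) (nat_lit 5) (nat_lit 411) (nat_lit 398) (nat_lit 391)))) (XT.nd (nat_lit 156) (nat_lit 304) (nat_lit 0) (XT.nd (nat_lit 78) (nat_lit 228) (nat_lit 0) (XT.lf (nat_lit 0) (nat_lit 4316081208) (nat_lit 532) (nat_lit 134047427) (nat_lit 608) (nat_lit 3180244289) (nat_lit 84) (nat_lit 5) (nat_lit 91) (nat_lit 5) (nat_lit 92) (nat_lit 5) (nat_lit 412) (nat_lit 398)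 (nat_lit 390)) (XT.lf (nat_lit 0) (nat_lit 2168338855) (nat_lit 228) (nat_lit 5438574782) (nat_lit 304) (nat_lit 247258113) (nat_lit 81) (nat_lit 5) (nat_lit 84) (nat_lit 5) (nat_lit 85) (nat_lit 4) (nat_lit 413) (nat_lit 398) (nat_lit 389))) (XT.nd (nat_lit 78) (nat_lit 228) (nat_lit 0) (XT.lf (nat_lit 0) (nat_lit 2678109174) (nat_lit 304) (nat_lit 118793809) (nat_lit 76) (nat_lit 5301069424) (nat_lit 80) (nat_lit 5) (nat_lit 84) (nat_lit 5) (nat_lit 81) (nat_lit 5) (nat_lit 414) (nat_lit 398) (nat_lit 388)) (XT.lf (nat_lit 0) (nat_lit 5793758484) (nat_lit 304) (nat_lit 2397023094) (nat_lit 76) (nat_lit 172434337) (nat_lit 77) (nat_lit 5) (nat_lit 81) (nat_lit 5) (nat_lit 78) (nat_lit 4) (nat_lit 415) (nat_lit 398) (nat_lit 387))))) (XT.nd (nat_lit 234) (nat_lit 608) (nat_lit 0) (XT.nd (nat_lit 78) (nat_lit 228) (nat_lit 0) (XT.lf (nat_lit 0) (nat_lit 479395888) (nat_lit 304) (nat_lit 4872195958)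 (nat_lit 76) (nat_lit 3297456071) (nat_lit 73) (nat_lit 5) (nat_lit 77) (nat_lit 5) (nat_lit 74) (nat_lit 5) (nat_lit 416) (nat_lit 398) (nat_lit 386)) (XT.nd (nat_lit 78) (nat_lit 0) (nat_lit 0) (XT.lf (nat_lit 0) (nat_lit 1404840915) (nat_lit 228) (nat_lit 2161596861) (nat_lit 304) (nat_lit 5391338788) (nat_lit 70) (nat_lit 5) (nat_lit 73) (nat_lit 5) (nat_lit 74) (nat_lit 5) (nat_lit 417) (nat_lit 398) (nat_lit 385)) (XT.lf (nat_lit 0) (nat_lit 6905794657) (nat_lit 304) (nat_lit 1084950263) (nat_lit 76) (nat_lit 1300046228) (nat_lit 70) (nat_lit 5) (nat_lit 74) (nat_lit 5) (nat_lit 71) (nat_lit 4) (nat_lit 418) (nat_lit 398) (nat_lit 384)))) (XT.nd (nat_lit 156) (nat_lit 228) (nat_lit 0) (XT.nd (nat_lit 78) (nat_lit 152) (nat_lit 0) (XT.lf (nat_lit 0) (nat_lit 868490067) (nat_lit 228) (nat_lit 3741834602) (nat_lit 76) (nat_lit 5034497524) (nat_lit 67) (nat_lit 5) (nat_lit 70) (nat_lit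 5) (nat_lit 68) (nat_lit 5) (nat_lit 419) (nat_lit 398) (nat_lit 383)) (XT.lf (nat_lit 0) (nat_lit 3376601368) (nat_lit 152) (nat_lit 840616801) (nat_lit 228) (nat_lit 5807909089) (nat_lit 65) (nat_lit 5) (nat_lit 67) (nat_lit 5) (nat_lit 68) (nat_lit 5) (nat_lit 420) (nat_lit 398) (nat_lit 382))) (XT.nd (nat_lit 78) (nat_lit 76) (nat_lit 0) (XT.lf (nat_lit 0) (nat_lit 577495853) (nat_lit 152) (nat_lit 7309289316) (nat_lit 228) (nat_lit 2544847904) (nat_lit 63) (nat_lit 5) (nat_lit 65) (nat_lit 5) (nat_lit 66) (nat_lit 4) (nat_lit 421) (nat_lit 398) (nat_lit 381)) (XT.lf (nat_lit 0) (nat_lit 996864980) (nat_lit 228) (nat_lit 2369083467) (nat_lit 76) (nat_lit 7497509288) (nat_lit 62) (nat_lit 5) (nat_lit 65) (nat_lit 5) (nat_lit 63) (nat_lit 5) (nat_lit 422) (nat_lit 398) (nat_lit 380)))))) (XT.nd (nat_lit 546) (nat_lit 684) (nat_lit 0) (XT.nd (nat_lit 234) (nat_lit 456) (nat_lit 0) (XT.nd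 (nat_lit 78) (nat_lit 152) (nat_lit 0) (XT.lf (nat_lit 0) (nat_lit 4715938091) (nat_lit 228) (nat_lit 5619803696) (nat_lit 76) (nat_lit 986286908) (nat_lit 60) (nat_lit 5) (nat_lit 63) (nat_lit 5) (nat_lit 61) (nat_lit 4) (nat_lit 423) (nat_lit 398) (nat_lit 379)) (XT.nd (nat_lit 78) (nat_lit 76) (nat_lit 0) (XT.lf (nat_lit 0) (nat_lit 2572243107) (nat_lit 76) (nat_lit 6247894870) (nat_lit 152) (nat_lit 2990147803) (nat_lit 59) (nat_lit 5) (nat_lit 60) (nat_lit 5) (nat_lit 61) (nat_lit 4) (nat_lit 424) (nat_lit 398) (nat_lit 378)) (XT.lf (nat_lit 0) (nat_lit 900167036) (nat_lit 152) (nat_lit 822627663) (nat_lit 76) (nat_lit 10610585671) (nat_lit 58) (nat_lit 5) (nat_lit 60) (nat_lit 5) (nat_lit 59) (nat_lit 5) (nat_lit 425) (nat_lit 398) (nat_lit 377)))) (XT.nd (nat_lit 156) (nat_lit 228) (nat_lit 0) (XT.nd (nat_lit 78) (nat_lit 76) (nat_lit 0) (XT.lf (nat_lit 0) (nat_lit 5106651000) (nat_lit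 228) (nat_lit 4552532177) (nat_lit 76) (nat_lit 3219613655) (nat_lit 56) (nat_lit 5) (nat_lit 59) (nat_lit 5) (nat_lit 57) (nat_lit 4) (nat_lit 426) (nat_lit 398) (nat_lit 376)) (XT.lf (nat_lit 0) (nat_lit 4784554206) (nat_lit 76) (nat_lit 4932886726) (nat_lit 152) (nat_lit 3744988963) (nat_lit 55) (nat_lit 5) (nat_lit 56) (nat_lit 5) (nat_lit 57) (nat_lit 4) (nat_lit 427) (nat_lit 398) (nat_lit 375))) (XT.nd (nat_lit 78) (nat_lit 0) (nat_lit 0) (XT.lf (nat_lit 0) (nat_lit 615037863) (nat_lit 228) (nat_lit 13222862398) (nat_lit 76) (nat_lit 250421643) (nat_lit 52) (nat_lit 5) (nat_lit 55) (nat_lit 5) (nat_lit 53) (nat_lit 4) (nat_lit 428) (nat_lit 398) (nat_lit 374)) (XT.lf (nat_lit 0) (nat_lit 5380809542) (nat_lit 228) (nat_lit 3511180004) (nat_lit 76) (nat_lit 5843777356) (nat_lit 52) (nat_lit 5) (nat_lit 55) (nat_lit 5) (nat_lit 53) (nat_lit 4) (nat_lit 429) (nat_lit 398) (nat_lit 373)))))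 (XT.nd (nat_lit 312) (nat_lit 304) (nat_lit 0) (XT.nd (nat_lit 156) (nat_lit 76) (nat_lit 0) (XT.nd (nat_lit 78) (nat_lit 228) (nat_lit 0) (XT.lf (nat_lit 0) (nat_lit 7149828096) (nat_lit 76) (nat_lit 3445997225) (nat_lit 152) (nat_lit 4833748194) (nat_lit 51) (nat_lit 5) (nat_lit 52) (nat_lit 5) (nat_lit 53) (nat_lit 4) (nat_lit 430) (nat_lit 398) (nat_lit 372)) (XT.lf (nat_lit 0) (nat_lit 166140000) (nat_lit 228) (nat_lit 13600649973) (nat_lit 76) (nat_lit 2402448742) (nat_lit 48) (nat_lit 5) (nat_lit 51) (nat_lit 5) (nat_lit 49) (nat_lit 4) (nat_lit 431) (nat_lit 398) (nat_lit 371))) (XT.nd (nat_lit 78) (nat_lit 76) (nat_lit 0) (XT.lf (nat_lit 0) (nat_lit 5524739930) (nat_lit 228) (nat_lit 2602593306) (nat_lit 76) (nat_lit 8813113909) (nat_lit 48) (nat_lit 5) (nat_lit 51) (nat_lit 5) (nat_lit 49) (nat_lit 4) (nat_lit 432) (nat_lit 398) (nat_lit 370)) (XT.lf (nat_lit 0) (nat_lit 9581117819)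 (nat_lit 76) (nat_lit 1866983579) (nat_lit 152) (nat_lit 6314368351) (nat_lit 47) (nat_lit 5) (nat_lit 48) (nat_lit 5) (nat_lit 49) (nat_lit 4) (nat_lit 433) (nat_lit 398) (nat_lit 369)))) (XT.nd (nat_lit 156) (nat_lit 152) (nat_lit 0) (XT.nd (nat_lit 78) (nat_lit 76) (nat_lit 0) (XT.lf (nat_lit 0) (nat_lit 4156829353) (nat_lit 76) (nat_lit 13885889999) (nat_lit 76) (nat_lit 591746938) (nat_lit 46) (nat_lit 4) (nat_lit 47) (nat_lit 5) (nat_lit 47) (nat_lit 4) (nat_lit 434) (nat_lit 398) (nat_lit 368)) (XT.lf (nat_lit 0) (nat_lit 5494280741) (nat_lit 152) (nat_lit 1974699454) (nat_lit 76) (nat_lit 12081679194) (nat_lit 45) (nat_lit 5) (nat_lit 47) (nat_lit 5) (nat_lit 46) (nat_lit 4) (nat_lit 435) (nat_lit 398) (nat_lit 367))) (XT.nd (nat_lit 78) (nat_lit 76) (nat_lit 0) (XT.lf (nat_lit 0) (nat_lit 11948786215) (nat_lit 76) (nat_lit 287848896) (nat_lit 152) (nat_lit 8286172573) (nat_lit 44)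 (nat_lit 5) (nat_lit 45) (nat_lit 5) (nat_lit 46) (nat_lit 4) (nat_lit 436) (nat_lit 398) (nat_lit 366)) (XT.lf (nat_lit 0) (nat_lit 5459318673) (nat_lit 76) (nat_lit 14340171227) (nat_lit 76) (nat_lit 1750751281) (nat_lit 43) (nat_lit 4) (nat_lit 44) (nat_lit 5) (nat_lit 44) (nat_lit 4) (nat_lit 437) (nat_lit 398) (nat_lit 365))))))))
noncomputable def xc88 : XT := (XT.nd (nat_lit 2184) (nat_lit 988) (nat_lit 0) (XT.nd (nat_lit 1092) (nat_lit 912) (nat_lit 0) (XT.nd (nat_lit 546) (nat_lit 532) (nat_lit 0) (XT.nd (nat_lit 234) (nat_lit 304) (nat_lit 0) (XT.nd (nat_lit 78) (nat_lit 152) (nat_lit 0) (XT.lf (nat_lit 0) (nat_lit 5205159637) (nat_lit 152) (nat_lit 1842556490) (nat_lit 76) (nat_lit 15588890859) (nat_lit 42) (nat_lit 5) (nat_lit 44) (nat_lit 5) (nat_lit 43) (nat_lit 4) (nat_lit 438) (nat_lit 398) (nat_lit 364)) (XT.nd (nat_lit 78) (nat_lit 76) (nat_lit 0) (XT.lf (nat_lit 0) (nat_lit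 12910489611) (nat_lit 152) (nat_lit 9761561320) (nat_lit 0) (nat_lit 1111192449) (nat_lit 41) (nat_lit 5) (nat_lit 43) (nat_lit 4) (nat_lit 41) (nat_lit 4) (nat_lit 439) (nat_lit 398) (nat_lit 363)) (XT.lf (nat_lit 0) (nat_lit 6217260007) (nat_lit 76) (nat_lit 15321274363) (nat_lit 76) (nat_lit 3458574938) (nat_lit 40) (nat_lit 4) (nat_lit 41) (nat_lit 5) (nat_lit 41) (nat_lit 4) (nat_lit 440) (nat_lit 398) (nat_lit 362)))) (XT.nd (nat_lit 156) (nat_lit 152) (nat_lit 0) (XT.nd (nat_lit 78) (nat_lit 76) (nat_lit 0) (XT.lf (nat_lit 0) (nat_lit 4517293177) (nat_lit 152) (nat_lit 2525435414) (nat_lit 76) (nat_lit 19240917488) (nat_lit 39) (nat_lit 5) (nat_lit 41) (nat_lit 5) (nat_lit 40) (nat_lit 4) (nat_lit 441) (nat_lit 398) (nat_lit 361)) (XT.lf (nat_lit 0) (nat_lit 13303122426) (nat_lit 152) (nat_lit 12119644996) (nat_lit 0) (nat_lit 2214453497) (nat_lit 38) (nat_lit 5) (nat_lit 40) (nat_lit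 4) (nat_lit 38) (nat_lit 4) (nat_lit 442) (nat_lit 398) (nat_lit 360))) (XT.nd (nat_lit 78) (nat_lit 76) (nat_lit 0) (XT.lf (nat_lit 0) (nat_lit 6029938103) (nat_lit 76) (nat_lit 17089118638) (nat_lit 76) (nat_lit 5953847154) (nat_lit 37) (nat_lit 4) (nat_lit 38) (nat_lit 5) (nat_lit 38) (nat_lit 4) (nat_lit 443) (nat_lit 398) (nat_lit 359)) (XT.lf (nat_lit 0) (nat_lit 3210520797) (nat_lit 152) (nat_lit 4500538739) (nat_lit 76) (nat_lit 22884935766) (nat_lit 36) (nat_lit 5) (nat_lit 38) (nat_lit 5) (nat_lit 37) (nat_lit 4) (nat_lit 444) (nat_lit 398) (nat_lit 358))))) (XT.nd (nat_lit 234) (nat_lit 304) (nat_lit 0) (XT.nd (nat_lit 78) (nat_lit 152) (nat_lit 0) (XT.lf (nat_lit 0) (nat_lit 13176729791) (nat_lit 152) (nat_lit 16231260828) (nat_lit 0) (nat_lit 2789344441) (nat_lit 35) (nat_lit 5) (nat_lit 37) (nat_lit 4) (nat_lit 35) (nat_lit 4) (nat_lit 445) (nat_lit 398) (nat_lit 357)) (XT.nd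 (nat_lit 78) (nat_lit 76) (nat_lit 0) (XT.lf (nat_lit 0) (nat_lit 4288988303) (nat_lit 76) (nat_lit 20015160580) (nat_lit 76) (nat_lit 9593520961) (nat_lit 34) (nat_lit 4) (nat_lit 35) (nat_lit 5) (nat_lit 35) (nat_lit 4) (nat_lit 446) (nat_lit 398) (nat_lit 356)) (XT.lf (nat_lit 0) (nat_lit 948011161) (nat_lit 152) (nat_lit 8481493318) (nat_lit 76) (nat_lit 26272222384) (nat_lit 33) (nat_lit 5) (nat_lit 35) (nat_lit 5) (nat_lit 34) (nat_lit 4) (nat_lit 447) (nat_lit 398) (nat_lit 355)))) (XT.nd (nat_lit 156) (nat_lit 152) (nat_lit 0) (XT.nd (nat_lit 78) (nat_lit 76) (nat_lit 0) (XT.lf (nat_lit 0) (nat_lit 12169706775) (nat_lit 152) (nat_lit 22968575787) (nat_lit 0) (nat_lit 2463480802) (nat_lit 32) (nat_lit 5) (nat_lit 34) (nat_lit 4) (nat_lit 32) (nat_lit 4) (nat_lit 448) (nat_lit 398) (nat_lit 354)) (XT.lf (nat_lit 0) (nat_lit 75206898) (nat_lit 76) (nat_lit 24638036025) (nat_lit 76)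 (nat_lit 14906632142) (nat_lit 31) (nat_lit 4) (nat_lit 32) (nat_lit 5) (nat_lit 32) (nat_lit 4) (nat_lit 449) (nat_lit 398) (nat_lit 353))) (XT.nd (nat_lit 78) (nat_lit 152) (nat_lit 0) (XT.lf (nat_lit 0) (nat_lit 26150065946) (nat_lit 76) (nat_lit 12679280204) (nat_lit 76) (nat_lit 2924563440) (nat_lit 31) (nat_lit 4) (nat_lit 32) (nat_lit 5) (nat_lit 32) (nat_lit 4) (nat_lit 450) (nat_lit 398) (nat_lit 352)) (XT.lf (nat_lit 0) (nat_lit 9726729887) (nat_lit 152) (nat_lit 33621132601) (nat_lit 0) (nat_lit 674597698) (nat_lit 29) (nat_lit 5) (nat_lit 31) (nat_lit 4) (nat_lit 29) (nat_lit 4) (nat_lit 451) (nat_lit 398) (nat_lit 351)))))) (XT.nd (nat_lit 546) (nat_lit 456) (nat_lit 0) (XT.nd (nat_lit 234) (nat_lit 228) (nat_lit 0) (XT.nd (nat_lit 78) (nat_lit 228) (nat_lit 0) (XT.lf (nat_lit 0) (nat_lit 23943370188) (nat_lit 152) (nat_lit 7593416967) (nat_lit 0) (nat_lit 14872731483) (nat_lit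 29) (nat_lit 5) (nat_lit 31) (nat_lit 4) (nat_lit 29) (nat_lit 4) (nat_lit 452) (nat_lit 398) (nat_lit 350)) (XT.nd (nat_lit 78) (nat_lit 152) (nat_lit 0) (XT.lf (nat_lit 0) (nat_lit 21486746000) (nat_lit 76) (nat_lit 18275681851) (nat_lit 76) (nat_lit 9187907483) (nat_lit 28) (nat_lit 4) (nat_lit 29) (nat_lit 5) (nat_lit 29) (nat_lit 4) (nat_lit 453) (nat_lit 398) (nat_lit 349)) (XT.lf (nat_lit 0) (nat_lit 1487777450) (nat_lit 76) (nat_lit 3604250516) (nat_lit 152) (nat_lit 46576701090) (nat_lit 26) (nat_lit 5) (nat_lit 27) (nat_lit 5) (nat_lit 28) (nat_lit 4) (nat_lit 454) (nat_lit 398) (nat_lit 348)))) (XT.nd (nat_lit 156) (nat_lit 152) (nat_lit 0) (XT.nd (nat_lit 78) (nat_lit 76) (nat_lit 0) (XT.lf (nat_lit 0) (nat_lit 21031293443) (nat_lit 152) (nat_lit 20884750140) (nat_lit 0) (nat_lit 12588393636) (nat_lit 26) (nat_lit 5) (nat_lit 28) (nat_lit 4) (nat_lit 26) (nat_lit 4) (nat_lit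 455) (nat_lit 398) (nat_lit 347)) (XT.lf (nat_lit 0) (nat_lit 11120785809) (nat_lit 76) (nat_lit 27438319586) (nat_lit 76) (nat_lit 18982824556) (nat_lit 25) (nat_lit 4) (nat_lit 26) (nat_lit 5) (nat_lit 26) (nat_lit 4) (nat_lit 456) (nat_lit 398) (nat_lit 346))) (XT.nd (nat_lit 78) (nat_lit 152) (nat_lit 0) (XT.lf (nat_lit 0) (nat_lit 46779904396) (nat_lit 76) (nat_lit 11233853040) (nat_lit 76) (nat_lit 2766695766) (nat_lit 25) (nat_lit 4) (nat_lit 26) (nat_lit 5) (nat_lit 26) (nat_lit 4) (nat_lit 457) (nat_lit 398) (nat_lit 345)) (XT.lf (nat_lit 0) (nat_lit 14658036702) (nat_lit 152) (nat_lit 42731651050) (nat_lit 0) (nat_lit 6808077768) (nat_lit 23) (nat_lit 5) (nat_lit 25) (nat_lit 4) (nat_lit 23) (nat_lit 4) (nat_lit 458) (nat_lit 398) (nat_lit 344))))) (XT.nd (nat_lit 234) (nat_lit 304) (nat_lit 0) (XT.nd (nat_lit 78) (nat_lit 152) (nat_lit 0) (XT.lf (nat_lit 0) (nat_lit 33967799062)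 (nat_lit 152) (nat_lit 7755090789) (nat_lit 0) (nat_lit 26108582263) (nat_lit 23) (nat_lit 5) (nat_lit 25) (nat_lit 4) (nat_lit 23) (nat_lit 4) (nat_lit 459) (nat_lit 398) (nat_lit 343)) (XT.nd (nat_lit 78) (nat_lit 76) (nat_lit 0) (XT.lf (nat_lit 0) (nat_lit 31512658324) (nat_lit 76) (nat_lit 24026817676) (nat_lit 76) (nat_lit 16159028778) (nat_lit 22) (nat_lit 4) (nat_lit 23) (nat_lit 5) (nat_lit 23) (nat_lit 4) (nat_lit 460) (nat_lit 398) (nat_lit 342)) (XT.lf (nat_lit 0) (nat_lit 2990649349) (nat_lit 152) (nat_lit 1655175377) (nat_lit 76) (nat_lit 71209230024) (nat_lit 21) (nat_lit 5) (nat_lit 23) (nat_lit 5) (nat_lit 22) (nat_lit 4) (nat_lit 461) (nat_lit 398) (nat_lit 341)))) (XT.nd (nat_lit 156) (nat_lit 152) (nat_lit 0) (XT.nd (nat_lit 78) (nat_lit 76) (nat_lit 0) (XT.lf (nat_lit 0) (nat_lit 24188182162) (nat_lit 152) (nat_lit 39122220078) (nat_lit 0) (nat_lit 16889038443) (nat_lit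 20) (nat_lit 5) (nat_lit 22) (nat_lit 4) (nat_lit 20) (nat_lit 4) (nat_lit 462) (nat_lit 398) (nat_lit 340)) (XT.lf (nat_lit 0) (nat_lit 2353210195) (nat_lit 76) (nat_lit 44914363713) (nat_lit 76) (nat_lit 37608919246) (nat_lit 19) (nat_lit 4) (nat_lit 20) (nat_lit 5) (nat_lit 20) (nat_lit 4) (nat_lit 463) (nat_lit 398) (nat_lit 339))) (XT.nd (nat_lit 78) (nat_lit 152) (nat_lit 0) (XT.lf (nat_lit 0) (nat_lit 49296302562) (nat_lit 76) (nat_lit 23930022627) (nat_lit 76) (nat_lit 16618744134) (nat_lit 19) (nat_lit 4) (nat_lit 20) (nat_lit 5) (nat_lit 20) (nat_lit 4) (nat_lit 464) (nat_lit 398) (nat_lit 338)) (XT.lf (nat_lit 0) (nat_lit 4807119205) (nat_lit 76) (nat_lit 1021630589) (nat_lit 152) (nat_lit 89364277866) (nat_lit 17) (nat_lit 5) (nat_lit 18) (nat_lit 5) (nat_lit 19) (nat_lit 4) (nat_lit 465) (nat_lit 398) (nat_lit 337))))))) (XT.nd (nat_lit 1092) (nat_lit 456) (nat_lit 0) (XT.nd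 (nat_lit 546) (nat_lit 228) (nat_lit 0) (XT.nd (nat_lit 234) (nat_lit 228) (nat_lit 0) (XT.nd (nat_lit 78) (nat_lit 76) (nat_lit 0) (XT.lf (nat_lit 0) (nat_lit 30847337106) (nat_lit 152) (nat_lit 45885100387) (nat_lit 0) (nat_lit 24068001824) (nat_lit 17) (nat_lit 5) (nat_lit 19) (nat_lit 4) (nat_lit 17) (nat_lit 4) (nat_lit 466) (nat_lit 398) (nat_lit 336)) (XT.nd (nat_lit 78) (nat_lit 0) (nat_lit 0) (XT.lf (nat_lit 0) (nat_lit 2192637074) (nat_lit 76) (nat_lit 55721832864) (nat_lit 76) (nat_lit 48938209399) (nat_lit 16) (nat_lit 4) (nat_lit 17) (nat_lit 5) (nat_lit 17) (nat_lit 4) (nat_lit 467) (nat_lit 398) (nat_lit 335)) (XT.lf (nat_lit 0) (nat_lit 56661513945) (nat_lit 76) (nat_lit 31708661289) (nat_lit 76) (nat_lit 24921067284) (nat_lit 16) (nat_lit 4) (nat_lit 17) (nat_lit 5) (nat_lit 17) (nat_lit 4) (nat_lit 468) (nat_lit 398) (nat_lit 334)))) (XT.nd (nat_lit 156) (nat_lit 76) (nat_lit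 0) (XT.nd (nat_lit 78) (nat_lit 76) (nat_lit 0) (XT.lf (nat_lit 0) (nat_lit 936740863) (nat_lit 152) (nat_lit 4842849434) (nat_lit 76) (nat_lit 114465727663) (nat_lit 15) (nat_lit 5) (nat_lit 17) (nat_lit 5) (nat_lit 16) (nat_lit 4) (nat_lit 469) (nat_lit 398) (nat_lit 333)) (XT.lf (nat_lit 0) (nat_lit 29348426134) (nat_lit 152) (nat_lit 75151917531) (nat_lit 0) (nat_lit 23057060829) (nat_lit 14) (nat_lit 5) (nat_lit 16) (nat_lit 4) (nat_lit 14) (nat_lit 4) (nat_lit 470) (nat_lit 398) (nat_lit 332))) (XT.nd (nat_lit 78) (nat_lit 76) (nat_lit 0) (XT.lf (nat_lit 0) (nat_lit 60291442537) (nat_lit 152) (nat_lit 21145185019) (nat_lit 0) (nat_lit 53997158767) (nat_lit 14) (nat_lit 5) (nat_lit 16) (nat_lit 4) (nat_lit 14) (nat_lit 4) (nat_lit 471) (nat_lit 398) (nat_lit 331)) (XT.lf (nat_lit 0) (nat_lit 39084599630) (nat_lit 76) (nat_lit 55539754444) (nat_lit 76) (nat_lit 49242768391) (nat_lit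 13) (nat_lit 4) (nat_lit 14) (nat_lit 5) (nat_lit 14) (nat_lit 4) (nat_lit 472) (nat_lit 398) (nat_lit 330))))) (XT.nd (nat_lit 234) (nat_lit 76) (nat_lit 0) (XT.nd (nat_lit 78) (nat_lit 152) (nat_lit 0) (XT.lf (nat_lit 0) (nat_lit 105283989106) (nat_lit 76) (nat_lit 26973181433) (nat_lit 76) (nat_lit 20673693267) (nat_lit 13) (nat_lit 4) (nat_lit 14) (nat_lit 5) (nat_lit 14) (nat_lit 4) (nat_lit 473) (nat_lit 398) (nat_lit 329)) (XT.nd (nat_lit 78) (nat_lit 0) (nat_lit 0) (XT.lf (nat_lit 0) (nat_lit 10104584237) (nat_lit 152) (nat_lit 148291315192) (nat_lit 0) (nat_lit 4269579665) (nat_lit 11) (nat_lit 5) (nat_lit 13) (nat_lit 4) (nat_lit 11) (nat_lit 4) (nat_lit 474) (nat_lit 398) (nat_lit 328)) (XT.lf (nat_lit 0) (nat_lit 44241784607) (nat_lit 152) (nat_lit 90328240787) (nat_lit 0) (nat_lit 38404793776) (nat_lit 11) (nat_lit 5) (nat_lit 13) (nat_lit 4) (nat_lit 11) (nat_lit 4) (nat_lit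 475) (nat_lit 398) (nat_lit 327)))) (XT.nd (nat_lit 156) (nat_lit 0) (nat_lit 0) (XT.nd (nat_lit 78) (nat_lit 76) (nat_lit 0) (XT.lf (nat_lit 0) (nat_lit 81088097404) (nat_lit 152) (nat_lit 27773290740) (nat_lit 0) (nat_lit 75249267445) (nat_lit 11) (nat_lit 5) (nat_lit 13) (nat_lit 4) (nat_lit 11) (nat_lit 4) (nat_lit 476) (nat_lit 398) (nat_lit 326)) (XT.lf (nat_lit 0) (nat_lit 41837091719) (nat_lit 76) (nat_lit 80030962491) (nat_lit 76) (nat_lit 74190429636) (nat_lit 10) (nat_lit 4) (nat_lit 11) (nat_lit 5) (nat_lit 11) (nat_lit 4) (nat_lit 477) (nat_lit 398) (nat_lit 325))) (XT.nd (nat_lit 78) (nat_lit 0) (nat_lit 0) (XT.lf (nat_lit 0) (nat_lit 118555030913) (nat_lit 76) (nat_lit 48095022711) (nat_lit 76) (nat_lit 42252913099) (nat_lit 10) (nat_lit 4) (nat_lit 11) (nat_lit 5) (nat_lit 11) (nat_lit 4) (nat_lit 478) (nat_lit 398) (nat_lit 324)) (XT.lf (nat_lit 0) (nat_lit 201372659395)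 (nat_lit 76) (nat_lit 13623689775) (nat_lit 76) (nat_lit 7780120205) (nat_lit 10) (nat_lit 4) (nat_lit 11) (nat_lit 5) (nat_lit 11) (nat_lit 4) (nat_lit 479) (nat_lit 398) (nat_lit 323)))))) (XT.nd (nat_lit 546) (nat_lit 228) (nat_lit 0) (XT.nd (nat_lit 234) (nat_lit 76) (nat_lit 0) (XT.nd (nat_lit 78) (nat_lit 0) (nat_lit 0) (XT.lf (nat_lit 0) (nat_lit 29904319190) (nat_lit 152) (nat_lit 183152350832) (nat_lit 0) (nat_lit 24492354945) (nat_lit 8) (nat_lit 5) (nat_lit 10) (nat_lit 4) (nat_lit 8) (nat_lit 4) (nat_lit 480) (nat_lit 398) (nat_lit 322)) (XT.nd (nat_lit 78) (nat_lit 0) (nat_lit 0) (XT.lf (nat_lit 0) (nat_lit 71120125997) (nat_lit 152) (nat_lit 116585134501) (nat_lit 0) (nat_lit 65707002789) (nat_lit 8) (nat_lit 5) (nat_lit 10) (nat_lit 4) (nat_lit 8) (nat_lit 4) (nat_lit 481) (nat_lit 398) (nat_lit 321)) (XT.lf (nat_lit 0) (nat_lit 115617141974) (nat_lit 152) (nat_lit 44725757507)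 (nat_lit 0) (nat_lit 110202945652) (nat_lit 8) (nat_lit 5) (nat_lit 10) (nat_lit 4) (nat_lit 8) (nat_lit 4) (nat_lit 482) (nat_lit 398) (nat_lit 320)))) (XT.nd (nat_lit 156) (nat_lit 0) (nat_lit 0) (XT.nd (nat_lit 78) (nat_lit 0) (nat_lit 0) (XT.lf (nat_lit 0) (nat_lit 34581521242) (nat_lit 76) (nat_lit 129909218314) (nat_lit 76) (nat_lit 124494028369) (nat_lit 7) (nat_lit 4) (nat_lit 8) (nat_lit 5) (nat_lit 8) (nat_lit 4) (nat_lit 483) (nat_lit 398) (nat_lit 319)) (XT.lf (nat_lit 0) (nat_lit 122746998239) (nat_lit 76) (nat_lit 95735622323) (nat_lit 76) (nat_lit 90319512356) (nat_lit 7) (nat_lit 4) (nat_lit 8) (nat_lit 5) (nat_lit 8) (nat_lit 4) (nat_lit 484) (nat_lit 398) (nat_lit 318))) (XT.nd (nat_lit 78) (nat_lit 0) (nat_lit 0) (XT.lf (nat_lit 0) (nat_lit 217937956436) (nat_lit 76) (nat_lit 58842482781) (nat_lit 76) (nat_lit 53425520941) (nat_lit 7) (nat_lit 4) (nat_lit 8) (nat_lit 5)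 (nat_lit 8) (nat_lit 4) (nat_lit 485) (nat_lit 398) (nat_lit 317)) (XT.lf (nat_lit 0) (nat_lit 320718490403) (nat_lit 76) (nat_lit 19011173674) (nat_lit 76) (nat_lit 13593423065) (nat_lit 7) (nat_lit 4) (nat_lit 8) (nat_lit 5) (nat_lit 8) (nat_lit 4) (nat_lit 486) (nat_lit 398) (nat_lit 316))))) (XT.nd (nat_lit 234) (nat_lit 76) (nat_lit 0) (XT.nd (nat_lit 78) (nat_lit 0) (nat_lit 0) (XT.lf (nat_lit 0) (nat_lit 29905738410) (nat_lit 152) (nat_lit 323282408007) (nat_lit 0) (nat_lit 24888626416) (nat_lit 5) (nat_lit 5) (nat_lit 7) (nat_lit 4) (nat_lit 5) (nat_lit 4) (nat_lit 487) (nat_lit 398) (nat_lit 315)) (XT.nd (nat_lit 78) (nat_lit 0) (nat_lit 0) (XT.lf (nat_lit 0) (nat_lit 77547061641) (nat_lit 152) (nat_lit 254594392044) (nat_lit 0) (nat_lit 72529323496) (nat_lit 5) (nat_lit 5) (nat_lit 7) (nat_lit 4) (nat_lit 5) (nat_lit 4) (nat_lit 488) (nat_lit 398) (nat_lit 314)) (XT.lf (nat_lit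 0) (nat_lit 128988771829) (nat_lit 152) (nat_lit 180433949661) (nat_lit 0) (nat_lit 123970453914) (nat_lit 5) (nat_lit 5) (nat_lit 7) (nat_lit 4) (nat_lit 5) (nat_lit 4) (nat_lit 489) (nat_lit 398) (nat_lit 313)))) (XT.nd (nat_lit 156) (nat_lit 76) (nat_lit 0) (XT.nd (nat_lit 78) (nat_lit 0) (nat_lit 0) (XT.lf (nat_lit 0) (nat_lit 184535708738) (nat_lit 152) (nat_lit 100361611570) (nat_lit 0) (nat_lit 179516853999) (nat_lit 5) (nat_lit 5) (nat_lit 7) (nat_lit 4) (nat_lit 5) (nat_lit 4) (nat_lit 490) (nat_lit 398) (nat_lit 312)) (XT.lf (nat_lit 0) (nat_lit 244517039402) (nat_lit 152) (nat_lit 13902875027) (nat_lit 0) (nat_lit 239497687603) (nat_lit 5) (nat_lit 5) (nat_lit 7) (nat_lit 4) (nat_lit 5) (nat_lit 4) (nat_lit 491) (nat_lit 398) (nat_lit 311))) (XT.nd (nat_lit 78) (nat_lit 0) (nat_lit 0) (XT.lf (nat_lit 0) (nat_lit 83638546890) (nat_lit 76) (nat_lit 227661170916) (nat_lit 76) (nat_lit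 222641358878) (nat_lit 4) (nat_lit 4) (nat_lit 5) (nat_lit 5) (nat_lit 5) (nat_lit 4) (nat_lit 492) (nat_lit 398) (nat_lit 310)) (XT.lf (nat_lit 0) (nat_lit 189756453472) (nat_lit 76) (nat_lit 194040239709) (nat_lit 76) (nat_lit 189020001522) (nat_lit 4) (nat_lit 4) (nat_lit 5) (nat_lit 5) (nat_lit 5) (nat_lit 4) (nat_lit 493) (nat_lit 398) (nat_lit 309))))))))
noncomputable def xc89 : XT := (XT.nd (nat_lit 2184) (nat_lit 0) (nat_lit 0) (XT.nd (nat_lit 1092) (nat_lit 76) (nat_lit 0) (XT.nd (nat_lit 546) (nat_lit 0) (nat_lit 0) (XT.nd (nat_lit 234) (nat_lit 152) (nat_lit 0) (XT.nd (nat_lit 78) (nat_lit 0) (nat_lit 0) (XT.lf (nat_lit 0) (nat_lit 304347590811) (nat_lit 76) (nat_lit 157738014901) (nat_lit 76) (nat_lit 152717382133) (nat_lit 4) (nat_lit 4) (nat_lit 5) (nat_lit 5) (nat_lit 5) (nat_lit 4) (nat_lit 494) (nat_lit 398) (nat_lit 308)) (XT.nd (nat_lit 78) (nat_lit 0) (nat_lit 0) (XT.lf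 (nat_lit 0) (nat_lit 428091017499) (nat_lit 76) (nat_lit 118539372197) (nat_lit 76) (nat_lit 113518374076) (nat_lit 4) (nat_lit 4) (nat_lit 5) (nat_lit 5) (nat_lit 5) (nat_lit 4) (nat_lit 495) (nat_lit 398) (nat_lit 307)) (XT.lf (nat_lit 0) (nat_lit 561720027915) (nat_lit 76) (nat_lit 76212023344) (nat_lit 76) (nat_lit 71190686933) (nat_lit 4) (nat_lit 4) (nat_lit 5) (nat_lit 5) (nat_lit 5) (nat_lit 4) (nat_lit 496) (nat_lit 398) (nat_lit 306)))) (XT.nd (nat_lit 156) (nat_lit 0) (nat_lit 0) (XT.nd (nat_lit 78) (nat_lit 152) (nat_lit 0) (XT.lf (nat_lit 0) (nat_lit 706026497677) (nat_lit 76) (nat_lit 30505139609) (nat_lit 76) (nat_lit 25483489966) (nat_lit 4) (nat_lit 4) (nat_lit 5) (nat_lit 5) (nat_lit 5) (nat_lit 4) (nat_lit 497) (nat_lit 398) (nat_lit 305)) (XT.lf (nat_lit 0) (nat_lit 24242962352) (nat_lit 152) (nat_lit 775132399726) (nat_lit 0) (nat_lit 19593018211) (nat_lit 2) (nat_lit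 5) (nat_lit 4) (nat_lit 4) (nat_lit 2) (nat_lit 4) (nat_lit 498) (nat_lit 398) (nat_lit 304))) (XT.nd (nat_lit 78) (nat_lit 0) (nat_lit 0) (XT.lf (nat_lit 0) (nat_lit 78927796246) (nat_lit 152) (nat_lit 727030978313) (nat_lit 0) (nat_lit 74277603451) (nat_lit 2) (nat_lit 5) (nat_lit 4) (nat_lit 4) (nat_lit 2) (nat_lit 4) (nat_lit 499) (nat_lit 398) (nat_lit 303)) (XT.lf (nat_lit 0) (nat_lit 137981957905) (nat_lit 152) (nat_lit 675092759489) (nat_lit 0) (nat_lit 133331534875) (nat_lit 2) (nat_lit 5) (nat_lit 4) (nat_lit 4) (nat_lit 2) (nat_lit 4) (nat_lit 500) (nat_lit 398) (nat_lit 302))))) (XT.nd (nat_lit 234) (nat_lit 0) (nat_lit 0) (XT.nd (nat_lit 78) (nat_lit 0) (nat_lit 0) (XT.lf (nat_lit 0) (nat_lit 201755397917) (nat_lit 152) (nat_lit 619009961217) (nat_lit 0) (nat_lit 197104761708) (nat_lit 2) (nat_lit 5) (nat_lit 4) (nat_lit 4) (nat_lit 2) (nat_lit 4) (nat_lit 501) (nat_lit 398)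 (nat_lit 301)) (XT.nd (nat_lit 78) (nat_lit 0) (nat_lit 0) (XT.lf (nat_lit 0) (nat_lit 270626032964) (nat_lit 152) (nat_lit 558450240989) (nat_lit 0) (nat_lit 265975199366) (nat_lit 2) (nat_lit 5) (nat_lit 4) (nat_lit 4) (nat_lit 2) (nat_lit 4) (nat_lit 502) (nat_lit 398) (nat_lit 300)) (XT.lf (nat_lit 0) (nat_lit 345001985328) (nat_lit 152) (nat_lit 493054726388) (nat_lit 0) (nat_lit 340350968962) (nat_lit 2) (nat_lit 5) (nat_lit 4) (nat_lit 4) (nat_lit 2) (nat_lit 4) (nat_lit 503) (nat_lit 398) (nat_lit 299)))) (XT.nd (nat_lit 156) (nat_lit 0) (nat_lit 0) (XT.nd (nat_lit 78) (nat_lit 0) (nat_lit 0) (XT.lf (nat_lit 0) (nat_lit 425324001393) (nat_lit 152) (nat_lit 422435888438) (nat_lit 0) (nat_lit 420672815797) (nat_lit 2) (nat_lit 5) (nat_lit 4) (nat_lit 4) (nat_lit 2) (nat_lit 4) (nat_lit 504) (nat_lit 398) (nat_lit 298)) (XT.lf (nat_lit 0) (nat_lit 512068063476) (nat_lit 152) (nat_lit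 346175245138) (nat_lit 0) (nat_lit 507416721187) (nat_lit 2) (nat_lit 5) (nat_lit 4) (nat_lit 4) (nat_lit 2) (nat_lit 4) (nat_lit 505) (nat_lit 398) (nat_lit 297))) (XT.nd (nat_lit 78) (nat_lit 0) (nat_lit 0) (XT.lf (nat_lit 0) (nat_lit 605748210464) (nat_lit 152) (nat_lit 263820881564) (nat_lit 0) (nat_lit 601096723088) (nat_lit 2) (nat_lit 5) (nat_lit 4) (nat_lit 4) (nat_lit 2) (nat_lit 4) (nat_lit 506) (nat_lit 398) (nat_lit 296)) (XT.lf (nat_lit 0) (nat_lit 706919583969) (nat_lit 152) (nat_lit 174884771858) (nat_lit 0) (nat_lit 702267962253) (nat_lit 2) (nat_lit 5) (nat_lit 4) (nat_lit 4) (nat_lit 2) (nat_lit 4) (nat_lit 507) (nat_lit 398) (nat_lit 295)))))) (XT.nd (nat_lit 546) (nat_lit 0) (nat_lit 0) (XT.nd (nat_lit 234) (nat_lit 0) (nat_lit 0) (XT.nd (nat_lit 78) (nat_lit 76) (nat_lit 0) (XT.lf (nat_lit 0) (nat_lit 816181718056) (nat_lit 152) (nat_lit 78839887221) (nat_lit 0) (nat_lit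 811529971951) (nat_lit 2) (nat_lit 5) (nat_lit 4) (nat_lit 4) (nat_lit 2) (nat_lit 4) (nat_lit 508) (nat_lit 398) (nat_lit 294)) (XT.nd (nat_lit 78) (nat_lit 0) (nat_lit 0) (XT.lf (nat_lit 0) (nat_lit 26193218069) (nat_lit 76) (nat_lit 908618821493) (nat_lit 76) (nat_lit 903966960214) (nat_lit 1) (nat_lit 4) (nat_lit 2) (nat_lit 5) (nat_lit 2) (nat_lit 4) (nat_lit 509) (nat_lit 398) (nat_lit 293)) (XT.lf (nat_lit 0) (nat_lit 144107148374) (nat_lit 76) (nat_lit 920978599399) (nat_lit 76) (nat_lit 916326631477) (nat_lit 1) (nat_lit 4) (nat_lit 2) (nat_lit 5) (nat_lit 2) (nat_lit 4) (nat_lit 510) (nat_lit 398) (nat_lit 292)))) (XT.nd (nat_lit 156) (nat_lit 0) (nat_lit 0) (XT.nd (nat_lit 78) (nat_lit 0) (nat_lit 0) (XT.lf (nat_lit 0) (nat_lit 271449084166) (nat_lit 76) (nat_lit 934329804358) (nat_lit 76) (nat_lit 929677737692) (nat_lit 1) (nat_lit 4) (nat_lit 2) (nat_lit 5) (nat_lit 2) (nat_lit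 4) (nat_lit 511) (nat_lit 398) (nat_lit 291)) (XT.lf (nat_lit 0) (nat_lit 408973644323) (nat_lit 76) (nat_lit 948751554620) (nat_lit 76) (nat_lit 944099396525) (nat_lit 1) (nat_lit 4) (nat_lit 2) (nat_lit 5) (nat_lit 2) (nat_lit 4) (nat_lit 512) (nat_lit 398) (nat_lit 290))) (XT.nd (nat_lit 78) (nat_lit 0) (nat_lit 0) (XT.lf (nat_lit 0) (nat_lit 557495789202) (nat_lit 76) (nat_lit 964329312410) (nat_lit 76) (nat_lit 959677069658) (nat_lit 1) (nat_lit 4) (nat_lit 2) (nat_lit 5) (nat_lit 2) (nat_lit 4) (nat_lit 513) (nat_lit 398) (nat_lit 289)) (XT.lf (nat_lit 0) (nat_lit 717895650032) (nat_lit 76) (nat_lit 981155390365) (nat_lit 76) (nat_lit 976503069228) (nat_lit 1) (nat_lit 4) (nat_lit 2) (nat_lit 5) (nat_lit 2) (nat_lit 4) (nat_lit 514) (nat_lit 398) (nat_lit 288))))) (XT.nd (nat_lit 234) (nat_lit 0) (nat_lit 0) (XT.nd (nat_lit 78) (nat_lit 0) (nat_lit 0) (XT.lf (nat_lit 0) (nat_lit 891123744506)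 (nat_lit 76) (nat_lit 999329498579) (nat_lit 76) (nat_lit 994677104862) (nat_lit 1) (nat_lit 4) (nat_lit 2) (nat_lit 5) (nat_lit 2) (nat_lit 4) (nat_lit 515) (nat_lit 398) (nat_lit 287)) (XT.nd (nat_lit 78) (nat_lit 0) (nat_lit 0) (XT.lf (nat_lit 0) (nat_lit 1078206609481) (nat_lit 76) (nat_lit 1018959335469) (nat_lit 76) (nat_lit 1014306874549) (nat_lit 1) (nat_lit 4) (nat_lit 2) (nat_lit 5) (nat_lit 2) (nat_lit 4) (nat_lit 516) (nat_lit 398) (nat_lit 286)) (XT.lf (nat_lit 0) (nat_lit 1280252884157) (nat_lit 76) (nat_lit 1040161225996) (nat_lit 76) (nat_lit 1035508702850) (nat_lit 1) (nat_lit 4) (nat_lit 2) (nat_lit 5) (nat_lit 2) (nat_lit 4) (nat_lit 517) (nat_lit 398) (nat_lit 285)))) (XT.nd (nat_lit 156) (nat_lit 0) (nat_lit 0) (XT.nd (nat_lit 78) (nat_lit 0) (nat_lit 0) (XT.lf (nat_lit 0) (nat_lit 1498459879790) (nat_lit 76) (nat_lit 1063060810991) (nat_lit 76) (nat_lit 1058408230229)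 (nat_lit 1) (nat_lit 4) (nat_lit 2) (nat_lit 5) (nat_lit 2) (nat_lit 4) (nat_lit 518) (nat_lit 398) (nat_lit 284)) (XT.lf (nat_lit 0) (nat_lit 1734120674874) (nat_lit 76) (nat_lit 1087793791699) (nat_lit 76) (nat_lit 1083141157589) (nat_lit 1) (nat_lit 4) (nat_lit 2) (nat_lit 5) (nat_lit 2) (nat_lit 4) (nat_lit 519) (nat_lit 398) (nat_lit 283))) (XT.nd (nat_lit 78) (nat_lit 0) (nat_lit 0) (XT.lf (nat_lit 0) (nat_lit 1988631777824) (nat_lit 76) (nat_lit 1114506733933) (nat_lit 76) (nat_lit 1109854050427) (nat_lit 1) (nat_lit 4) (nat_lit 2) (nat_lit 5) (nat_lit 2) (nat_lit 4) (nat_lit 520) (nat_lit 398) (nat_lit 282)) (XT.lf (nat_lit 0) (nat_lit 2263501402583) (nat_lit 76) (nat_lit 1143357936608) (nat_lit 76) (nat_lit 1138705207364) (nat_lit 1) (nat_lit 4) (nat_lit 2) (nat_lit 5) (nat_lit 2) (nat_lit 4) (nat_lit 521) (nat_lit 398) (nat_lit 281))))))) (XT.nd (nat_lit 1092) (nat_lit 0) (nat_lit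 0) (XT.nd (nat_lit 546) (nat_lit 0) (nat_lit 0) (XT.nd (nat_lit 234) (nat_lit 0) (nat_lit 0) (XT.nd (nat_lit 78) (nat_lit 0) (nat_lit 0) (XT.lf (nat_lit 0) (nat_lit 2560358406187) (nat_lit 76) (nat_lit 1174518369815) (nat_lit 76) (nat_lit 1169865598222) (nat_lit 1) (nat_lit 4) (nat_lit 2) (nat_lit 5) (nat_lit 2) (nat_lit 4) (nat_lit 522) (nat_lit 398) (nat_lit 280)) (XT.nd (nat_lit 78) (nat_lit 0) (nat_lit 0) (XT.lf (nat_lit 0) (nat_lit 2880961941250) (nat_lit 76) (nat_lit 1208172687973) (nat_lit 76) (nat_lit 1203519877167) (nat_lit 1) (nat_lit 4) (nat_lit 2) (nat_lit 5) (nat_lit 2) (nat_lit 4) (nat_lit 523) (nat_lit 398) (nat_lit 279)) (XT.lf (nat_lit 0) (nat_lit 3227211880572) (nat_lit 76) (nat_lit 1244520324078) (nat_lit 76) (nat_lit 1239867476965) (nat_lit 1) (nat_lit 4) (nat_lit 2) (nat_lit 5) (nat_lit 2) (nat_lit 4) (nat_lit 524) (nat_lit 398) (nat_lit 278)))) (XT.nd (nat_lit 156)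 (nat_lit 0) (nat_lit 0) (XT.nd (nat_lit 78) (nat_lit 0) (nat_lit 0) (XT.lf (nat_lit 0) (nat_lit 3601160075646) (nat_lit 76) (nat_lit 1283776671530) (nat_lit 76) (nat_lit 1279123790798) (nat_lit 1) (nat_lit 4) (nat_lit 2) (nat_lit 5) (nat_lit 2) (nat_lit 4) (nat_lit 525) (nat_lit 398) (nat_lit 277)) (XT.lf (nat_lit 0) (nat_lit 4005022515775) (nat_lit 76) (nat_lit 1326174360535) (nat_lit 76) (nat_lit 1321521448675) (nat_lit 1) (nat_lit 4) (nat_lit 2) (nat_lit 5) (nat_lit 2) (nat_lit 4) (nat_lit 526) (nat_lit 398) (nat_lit 276))) (XT.nd (nat_lit 78) (nat_lit 0) (nat_lit 0) (XT.lf (nat_lit 0) (nat_lit 4441192459864) (nat_lit 76) (nat_lit 1371964636658) (nat_lit 76) (nat_lit 1367311695976) (nat_lit 1) (nat_lit 4) (nat_lit 2) (nat_lit 5) (nat_lit 2) (nat_lit 4) (nat_lit 527) (nat_lit 398) (nat_lit 275)) (XT.lf (nat_lit 0) (nat_lit 4912254618693) (nat_lit 76) (nat_lit 1421418849684) (nat_lit 76)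 (nat_lit 1416765882314) (nat_lit 1) (nat_lit 4) (nat_lit 2) (nat_lit 5) (nat_lit 2) (nat_lit 4) (nat_lit 528) (nat_lit 398) (nat_lit 274))))) (XT.nd (nat_lit 234) (nat_lit 0) (nat_lit 0) (XT.nd (nat_lit 78) (nat_lit 0) (nat_lit 0) (XT.lf (nat_lit 0) (nat_lit 5421000471722) (nat_lit 76) (nat_lit 1474830061615) (nat_lit 76) (nat_lit 1470177069534) (nat_lit 1) (nat_lit 4) (nat_lit 2) (nat_lit 5) (nat_lit 2) (nat_lit 4) (nat_lit 529) (nat_lit 398) (nat_lit 273)) (XT.nd (nat_lit 78) (nat_lit 0) (nat_lit 0) (XT.lf (nat_lit 0) (nat_lit 5970444809191) (nat_lit 76) (nat_lit 1532514783337) (nat_lit 76) (nat_lit 1527861768376) (nat_lit 1) (nat_lit 4) (nat_lit 2) (nat_lit 5) (nat_lit 2) (nat_lit 4) (nat_lit 530) (nat_lit 398) (nat_lit 272)) (XT.lf (nat_lit 0) (nat_lit 6563843597543) (nat_lit 76) (nat_lit 1594814850238) (nat_lit 76) (nat_lit 1590161814092) (nat_lit 1) (nat_lit 4) (nat_lit 2) (nat_lit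 5) (nat_lit 2) (nat_lit 4) (nat_lit 531) (nat_lit 398) (nat_lit 271)))) (XT.nd (nat_lit 156) (nat_lit 0) (nat_lit 0) (XT.nd (nat_lit 78) (nat_lit 0) (nat_lit 0) (XT.lf (nat_lit 0) (nat_lit 7204713274044) (nat_lit 76) (nat_lit 1662099447900) (nat_lit 76) (nat_lit 1657446392138) (nat_lit 1) (nat_lit 4) (nat_lit 2) (nat_lit 5) (nat_lit 2) (nat_lit 4) (nat_lit 532) (nat_lit 398) (nat_lit 270)) (XT.lf (nat_lit 0) (nat_lit 7896851584924) (nat_lit 76) (nat_lit 1734767299864) (nat_lit 76) (nat_lit 1730114225939) (nat_lit 1) (nat_lit 4) (nat_lit 2) (nat_lit 5) (nat_lit 2) (nat_lit 4) (nat_lit 533) (nat_lit 398) (nat_lit 269))) (XT.nd (nat_lit 78) (nat_lit 0) (nat_lit 0) (XT.lf (nat_lit 0) (nat_lit 8644360090545) (nat_lit 76) (nat_lit 1813249030438) (nat_lit 76) (nat_lit 1808595939696) (nat_lit 1) (nat_lit 4) (nat_lit 2) (nat_lit 5) (nat_lit 2) (nat_lit 4) (nat_lit 534) (nat_lit 398) (nat_lit 268))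 (XT.lf (nat_lit 0) (nat_lit 9451668470939) (nat_lit 76) (nat_lit 1898009716545) (nat_lit 76) (nat_lit 1893356610231) (nat_lit 1) (nat_lit 4) (nat_lit 2) (nat_lit 5) (nat_lit 2) (nat_lit 4) (nat_lit 535) (nat_lit 398) (nat_lit 267)))))) (XT.nd (nat_lit 546) (nat_lit 0) (nat_lit 0) (XT.nd (nat_lit 234) (nat_lit 0) (nat_lit 0) (XT.nd (nat_lit 78) (nat_lit 0) (nat_lit 0) (XT.lf (nat_lit 0) (nat_lit 10323560775768) (nat_lit 76) (nat_lit 1989551643732) (nat_lit 76) (nat_lit 1984898522999) (nat_lit 1) (nat_lit 4) (nat_lit 2) (nat_lit 5) (nat_lit 2) (nat_lit 4) (nat_lit 536) (nat_lit 398) (nat_lit 266)) (XT.nd (nat_lit 78) (nat_lit 0) (nat_lit 0) (XT.lf (nat_lit 0) (nat_lit 11265203774246) (nat_lit 76) (nat_lit 2088417282677) (nat_lit 76) (nat_lit 2083764148594) (nat_lit 1) (nat_lit 4) (nat_lit 2) (nat_lit 5) (nat_lit 2) (nat_lit 4) (nat_lit 537) (nat_lit 398) (nat_lit 265)) (XT.lf (nat_lit 0) (nat_lit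 12282177573031) (nat_lit 76) (nat_lit 2195192503835) (nat_lit 76) (nat_lit 2190539357391) (nat_lit 1) (nat_lit 4) (nat_lit 2) (nat_lit 5) (nat_lit 2) (nat_lit 4) (nat_lit 538) (nat_lit 398) (nat_lit 264)))) (XT.nd (nat_lit 156) (nat_lit 0) (nat_lit 0) (XT.nd (nat_lit 78) (nat_lit 0) (nat_lit 0) (XT.lf (nat_lit 0) (nat_lit 13380508683523) (nat_lit 76) (nat_lit 2310510049256) (nat_lit 76) (nat_lit 2305856891366) (nat_lit 1) (nat_lit 4) (nat_lit 2) (nat_lit 5) (nat_lit 2) (nat_lit 4) (nat_lit 539) (nat_lit 398) (nat_lit 263)) (XT.lf (nat_lit 0) (nat_lit 14566705734524) (nat_lit 76) (nat_lit 2435053282173) (nat_lit 76) (nat_lit 2430400113685) (nat_lit 1) (nat_lit 4) (nat_lit 2) (nat_lit 5) (nat_lit 2) (nat_lit 4) (nat_lit 540) (nat_lit 398) (nat_lit 262))) (XT.nd (nat_lit 78) (nat_lit 0) (nat_lit 0) (XT.lf (nat_lit 0) (nat_lit 15847798041893) (nat_lit 76) (nat_lit 2569560236558) (nat_lit 76)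 (nat_lit 2564907058257) (nat_lit 1) (nat_lit 4) (nat_lit 2) (nat_lit 5) (nat_lit 2) (nat_lit 4) (nat_lit 541) (nat_lit 398) (nat_lit 261)) (XT.lf (nat_lit 0) (nat_lit 17231377263747) (nat_lit 76) (nat_lit 2714827990660) (nat_lit 76) (nat_lit 2710174803273) (nat_lit 1) (nat_lit 4) (nat_lit 2) (nat_lit 5) (nat_lit 2) (nat_lit 4) (nat_lit 542) (nat_lit 398) (nat_lit 260))))) (XT.nd (nat_lit 51636) (nat_lit 0) (nat_lit 7828) (XT.nd (nat_lit 51480) (nat_lit 0) (nat_lit 8588) (XT.nd (nat_lit 78) (nat_lit 0) (nat_lit 0) (XT.lf (nat_lit 0) (nat_lit 18725642388067) (nat_lit 76) (nat_lit 2871717390429) (nat_lit 76) (nat_lit 2867064194629) (nat_lit 1) (nat_lit 4) (nat_lit 2) (nat_lit 5) (nat_lit 2) (nat_lit 4) (nat_lit 543) (nat_lit 398) (nat_lit 259)) (XT.lf (nat_lit 0) (nat_lit 20339448319295) (nat_lit 76) (nat_lit 3041158150826) (nat_lit 76) (nat_lit 3036504947236) (nat_lit 1) (nat_lit 4) (nat_lit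 2) (nat_lit 5) (nat_lit 2) (nat_lit 4) (nat_lit 544) (nat_lit 398) (nat_lit 258))) (XT.nd (nat_lit 78) (nat_lit 76) (nat_lit 0) (XT.lf (nat_lit 0) (nat_lit 158880715) (nat_lit 76) (nat_lit 1537475144) (nat_lit 76) (nat_lit 1537475144) (nat_lit 115) (nat_lit 4) (nat_lit 116) (nat_lit 5) (nat_lit 116) (nat_lit 4) (nat_lit 402) (nat_lit 399) (nat_lit 399)) (XT.lf (nat_lit 0) (nat_lit 141522581) (nat_lit 152) (nat_lit 2459029631) (nat_lit 76) (nat_lit 3905640323) (nat_lit 114) (nat_lit 5) (nat_lit 116) (nat_lit 5) (nat_lit 115) (nat_lit 4) (nat_lit 403) (nat_lit 399) (nat_lit 398)))) (XT.nd (nat_lit 156) (nat_lit 608) (nat_lit 0) (XT.nd (nat_lit 78) (nat_lit 0) (nat_lit 0) (XT.lf (nat_lit 0) (nat_lit 1316535349) (nat_lit 152) (nat_lit 1865855635) (nat_lit 228) (nat_lit 3380431660) (nat_lit 112) (nat_lit 5) (nat_lit 114) (nat_lit 5) (nat_lit 115) (nat_lit 4) (nat_lit 404) (nat_lit 399) (nat_lit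 397)) (XT.lf (nat_lit 0) (nat_lit 5342403823) (nat_lit 152) (nat_lit 910401713) (nat_lit 228) (nat_lit 388333859) (nat_lit 112) (nat_lit 5) (nat_lit 114) (nat_lit 5) (nat_lit 115) (nat_lit 4) (nat_lit 405) (nat_lit 399) (nat_lit 396))) (XT.nd (nat_lit 78) (nat_lit 304) (nat_lit 0) (XT.lf (nat_lit 0) (nat_lit 2510717893) (nat_lit 304) (nat_lit 3897305566) (nat_lit 76) (nat_lit 327492990) (nat_lit 108) (nat_lit 5) (nat_lit 112) (nat_lit 5) (nat_lit 109) (nat_lit 4) (nat_lit 406) (nat_lit 399) (nat_lit 395)) (XT.lf (nat_lit 0) (nat_lit 318234358) (nat_lit 304) (nat_lit 5120106316) (nat_lit 380) (nat_lit 1412932240) (nat_lit 104) (nat_lit 5) (nat_lit 108) (nat_lit 5) (nat_lit 109) (nat_lit 4) (nat_lit 407) (nat_lit 399) (nat_lit 394))))))))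
noncomputable def xc90 : XT := (XT.nd (nat_lit 2184) (nat_lit 1976) (nat_lit 0) (XT.nd (nat_lit 1092) (nat_lit 1520) (nat_lit 0) (XT.nd (nat_lit 546) (nat_lit 1140) (nat_lit 0) (XT.nd (nat_lit 234) (nat_lit 912) (nat_lit 0) (XT.nd (nat_lit 78) (nat_lit 836) (nat_lit 0) (XT.lf (nat_lit 0) (nat_lit 1409330282) (nat_lit 380) (nat_lit 2132867505) (nat_lit 76) (nat_lit 3441673069) (nat_lit 103) (nat_lit 5) (nat_lit 108) (nat_lit 5) (nat_lit 104) (nat_lit 5) (nat_lit 408) (nat_lit 399) (nat_lit 393)) (XT.nd (nat_lit 78) (nat_lit 456) (nat_lit 0) (XT.lf (nat_lit 0) (nat_lit 2508139780) (nat_lit 380) (nat_lit 1708546761) (nat_lit 456) (nat_lit 2920639089) (nat_lit 98) (nat_lit 5) (nat_lit 103) (nat_lit 5) (nat_lit 104) (nat_lit 5) (nat_lit 409) (nat_lit 399) (nat_lit 392)) (XT.lf (nat_lit 0) (nat_lit 129391830) (nat_lit 456) (nat_lit 6976430512) (nat_lit 532) (nat_lit 208693217) (nat_lit 92) (nat_lit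 5) (nat_lit 98) (nat_lit 5) (nat_lit 99) (nat_lit 4) (nat_lit 410) (nat_lit 399) (nat_lit 391)))) (XT.nd (nat_lit 156) (nat_lit 304) (nat_lit 0) (XT.nd (nat_lit 78) (nat_lit 532) (nat_lit 0) (XT.lf (nat_lit 0) (nat_lit 2551561601) (nat_lit 532) (nat_lit 2294826548) (nat_lit 76) (nat_lit 2656893718) (nat_lit 91) (nat_lit 5) (nat_lit 98) (nat_lit 5) (nat_lit 92) (nat_lit 5) (nat_lit 411) (nat_lit 399) (nat_lit 390)) (XT.lf (nat_lit 0) (nat_lit 2925872372) (nat_lit 532) (nat_lit 2474369468) (nat_lit 608) (nat_lit 2316190635) (nat_lit 84) (nat_lit 5) (nat_lit 91) (nat_lit 5) (nat_lit 92) (nat_lit 5) (nat_lit 412) (nat_lit 399) (nat_lit 389))) (XT.nd (nat_lit 78) (nat_lit 0) (nat_lit 0) (XT.lf (nat_lit 0) (nat_lit 398704144) (nat_lit 304) (nat_lit 7398084615) (nat_lit 76) (nat_lit 157245915) (nat_lit 80) (nat_lit 5) (nat_lit 84) (nat_lit 5) (nat_lit 81) (nat_lit 5) (nat_lit 413) (nat_lit 399)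 (nat_lit 388)) (XT.lf (nat_lit 0) (nat_lit 3225955034) (nat_lit 304) (nat_lit 1940341903) (nat_lit 76) (nat_lit 3037932790) (nat_lit 80) (nat_lit 5) (nat_lit 84) (nat_lit 5) (nat_lit 81) (nat_lit 5) (nat_lit 414) (nat_lit 399) (nat_lit 387))))) (XT.nd (nat_lit 234) (nat_lit 608) (nat_lit 0) (XT.nd (nat_lit 78) (nat_lit 304) (nat_lit 0) (XT.lf (nat_lit 0) (nat_lit 3952706534) (nat_lit 228) (nat_lit 2256598725) (nat_lit 304) (nat_lit 2270761457) (nat_lit 77) (nat_lit 5) (nat_lit 80) (nat_lit 5) (nat_lit 81) (nat_lit 5) (nat_lit 415) (nat_lit 399) (nat_lit 386)) (XT.nd (nat_lit 78) (nat_lit 0) (nat_lit 0) (XT.lf (nat_lit 0) (nat_lit 572809676) (nat_lit 304) (nat_lit 7295778202) (nat_lit 76) (nat_lit 911971555) (nat_lit 73) (nat_lit 5) (nat_lit 77) (nat_lit 5) (nat_lit 74) (nat_lit 5) (nat_lit 416) (nat_lit 399) (nat_lit 385)) (XT.lf (nat_lit 0) (nat_lit 3551309995) (nat_lit 304) (nat_lit 1189376816)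 (nat_lit 76) (nat_lit 4357292180) (nat_lit 73) (nat_lit 5) (nat_lit 77) (nat_lit 5) (nat_lit 74) (nat_lit 5) (nat_lit 417) (nat_lit 399) (nat_lit 384)))) (XT.nd (nat_lit 156) (nat_lit 152) (nat_lit 0) (XT.nd (nat_lit 78) (nat_lit 228) (nat_lit 0) (XT.lf (nat_lit 0) (nat_lit 5486719341) (nat_lit 228) (nat_lit 1269353922) (nat_lit 304) (nat_lit 2685694821) (nat_lit 70) (nat_lit 5) (nat_lit 73) (nat_lit 5) (nat_lit 74) (nat_lit 5) (nat_lit 418) (nat_lit 399) (nat_lit 383)) (XT.lf (nat_lit 0) (nat_lit 406686758) (nat_lit 228) (nat_lit 6984273280) (nat_lit 76) (nat_lit 2419515427) (nat_lit 67) (nat_lit 5) (nat_lit 70) (nat_lit 5) (nat_lit 68) (nat_lit 5) (nat_lit 419) (nat_lit 399) (nat_lit 382))) (XT.nd (nat_lit 78) (nat_lit 152) (nat_lit 0) (XT.lf (nat_lit 0) (nat_lit 3608400920) (nat_lit 228) (nat_lit 131103390) (nat_lit 76) (nat_lit 6463042909) (nat_lit 67) (nat_lit 5) (nat_lit 70) (nat_lit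 5) (nat_lit 68) (nat_lit 5) (nat_lit 420) (nat_lit 399) (nat_lit 381)) (XT.lf (nat_lit 0) (nat_lit 7127025901) (nat_lit 228) (nat_lit 3172119152) (nat_lit 76) (nat_lit 321988504) (nat_lit 65) (nat_lit 5) (nat_lit 68) (nat_lit 5) (nat_lit 66) (nat_lit 4) (nat_lit 421) (nat_lit 399) (nat_lit 380)))))) (XT.nd (nat_lit 546) (nat_lit 760) (nat_lit 0) (XT.nd (nat_lit 234) (nat_lit 380) (nat_lit 0) (XT.nd (nat_lit 78) (nat_lit 228) (nat_lit 0) (XT.lf (nat_lit 0) (nat_lit 4509227227) (nat_lit 152) (nat_lit 6504044627) (nat_lit 228) (nat_lit 53054410) (nat_lit 63) (nat_lit 5) (nat_lit 65) (nat_lit 5) (nat_lit 66) (nat_lit 4) (nat_lit 422) (nat_lit 399) (nat_lit 379)) (XT.nd (nat_lit 78) (nat_lit 0) (nat_lit 0) (XT.lf (nat_lit 0) (nat_lit 1225417199) (nat_lit 152) (nat_lit 2251545547) (nat_lit 228) (nat_lit 8063377446) (nat_lit 60) (nat_lit 5) (nat_lit 62) (nat_lit 5) (nat_lit 63) (nat_lit 5) (nat_lit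 423) (nat_lit 399) (nat_lit 378)) (XT.lf (nat_lit 0) (nat_lit 7408105252) (nat_lit 228) (nat_lit 2290521877) (nat_lit 76) (nat_lit 2343818533) (nat_lit 60) (nat_lit 5) (nat_lit 63) (nat_lit 5) (nat_lit 61) (nat_lit 4) (nat_lit 424) (nat_lit 399) (nat_lit 377)))) (XT.nd (nat_lit 156) (nat_lit 76) (nat_lit 0) (XT.nd (nat_lit 78) (nat_lit 228) (nat_lit 0) (XT.lf (nat_lit 0) (nat_lit 6461221174) (nat_lit 76) (nat_lit 5296527481) (nat_lit 152) (nat_lit 818657462) (nat_lit 59) (nat_lit 5) (nat_lit 60) (nat_lit 5) (nat_lit 61) (nat_lit 4) (nat_lit 425) (nat_lit 399) (nat_lit 376)) (XT.lf (nat_lit 0) (nat_lit 2772400393) (nat_lit 152) (nat_lit 386927672) (nat_lit 228) (nat_lit 9985628704) (nat_lit 56) (nat_lit 5) (nat_lit 58) (nat_lit 5) (nat_lit 59) (nat_lit 5) (nat_lit 426) (nat_lit 399) (nat_lit 375))) (XT.nd (nat_lit 78) (nat_lit 76) (nat_lit 0) (XT.lf (nat_lit 0) (nat_lit 7594503699) (nat_lit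 228) (nat_lit 1353319262) (nat_lit 76) (nat_lit 4794818802) (nat_lit 56) (nat_lit 5) (nat_lit 59) (nat_lit 5) (nat_lit 57) (nat_lit 4) (nat_lit 427) (nat_lit 399) (nat_lit 374)) (XT.lf (nat_lit 0) (nat_lit 8640520981) (nat_lit 76) (nat_lit 3863142697) (nat_lit 152) (nat_lit 1874949628) (nat_lit 55) (nat_lit 5) (nat_lit 56) (nat_lit 5) (nat_lit 57) (nat_lit 4) (nat_lit 428) (nat_lit 399) (nat_lit 373))))) (XT.nd (nat_lit 234) (nat_lit 456) (nat_lit 0) (XT.nd (nat_lit 78) (nat_lit 76) (nat_lit 0) (XT.lf (nat_lit 0) (nat_lit 2692678450) (nat_lit 228) (nat_lit 10666101202) (nat_lit 76) (nat_lit 1694243167) (nat_lit 52) (nat_lit 5) (nat_lit 55) (nat_lit 5) (nat_lit 53) (nat_lit 4) (nat_lit 429) (nat_lit 399) (nat_lit 372)) (XT.nd (nat_lit 78) (nat_lit 76) (nat_lit 0) (XT.lf (nat_lit 0) (nat_lit 7689457229) (nat_lit 228) (nat_lit 445231638) (nat_lit 76) (nat_lit 7629601574) (nat_lit 52) (nat_lit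 5) (nat_lit 55) (nat_lit 5) (nat_lit 53) (nat_lit 4) (nat_lit 430) (nat_lit 399) (nat_lit 371)) (XT.lf (nat_lit 0) (nat_lit 10983926914) (nat_lit 76) (nat_lit 2277076581) (nat_lit 152) (nat_lit 3257457911) (nat_lit 51) (nat_lit 5) (nat_lit 52) (nat_lit 5) (nat_lit 53) (nat_lit 4) (nat_lit 431) (nat_lit 399) (nat_lit 370)))) (XT.nd (nat_lit 156) (nat_lit 152) (nat_lit 0) (XT.nd (nat_lit 78) (nat_lit 76) (nat_lit 0) (XT.lf (nat_lit 0) (nat_lit 2020213554) (nat_lit 228) (nat_lit 11304244273) (nat_lit 76) (nat_lit 3990991367) (nat_lit 48) (nat_lit 5) (nat_lit 51) (nat_lit 5) (nat_lit 49) (nat_lit 4) (nat_lit 432) (nat_lit 399) (nat_lit 369)) (XT.lf (nat_lit 0) (nat_lit 339962667) (nat_lit 76) (nat_lit 7339360673) (nat_lit 152) (nat_lit 10479290100) (nat_lit 47) (nat_lit 5) (nat_lit 48) (nat_lit 5) (nat_lit 49) (nat_lit 4) (nat_lit 433) (nat_lit 399) (nat_lit 368))) (XT.nd (nat_lit 78) (nat_lit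 152) (nat_lit 0) (XT.lf (nat_lit 0) (nat_lit 13402028749) (nat_lit 76) (nat_lit 613553843) (nat_lit 152) (nat_lit 5035697480) (nat_lit 47) (nat_lit 5) (nat_lit 48) (nat_lit 5) (nat_lit 49) (nat_lit 4) (nat_lit 434) (nat_lit 399) (nat_lit 367)) (XT.lf (nat_lit 0) (nat_lit 1069820580) (nat_lit 152) (nat_lit 12459072617) (nat_lit 76) (nat_lit 6463356461) (nat_lit 45) (nat_lit 5) (nat_lit 47) (nat_lit 5) (nat_lit 46) (nat_lit 4) (nat_lit 435) (nat_lit 399) (nat_lit 366))))))) (XT.nd (nat_lit 1092) (nat_lit 988) (nat_lit 0) (XT.nd (nat_lit 546) (nat_lit 532) (nat_lit 0) (XT.nd (nat_lit 234) (nat_lit 304) (nat_lit 0) (XT.nd (nat_lit 78) (nat_lit 76) (nat_lit 0) (XT.lf (nat_lit 0) (nat_lit 836391332) (nat_lit 76) (nat_lit 6670267072) (nat_lit 152) (nat_lit 13482181981) (nat_lit 44) (nat_lit 5) (nat_lit 45) (nat_lit 5) (nat_lit 46) (nat_lit 4) (nat_lit 436) (nat_lit 399) (nat_lit 365)) (XT.nd (nat_lit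 78) (nat_lit 76) (nat_lit 0) (XT.lf (nat_lit 0) (nat_lit 14746801152) (nat_lit 152) (nat_lit 6311189776) (nat_lit 0) (nat_lit 984100943) (nat_lit 44) (nat_lit 5) (nat_lit 46) (nat_lit 4) (nat_lit 44) (nat_lit 4) (nat_lit 437) (nat_lit 399) (nat_lit 364)) (XT.lf (nat_lit 0) (nat_lit 8762878280) (nat_lit 76) (nat_lit 14114250933) (nat_lit 76) (nat_lit 277598325) (nat_lit 43) (nat_lit 4) (nat_lit 44) (nat_lit 5) (nat_lit 44) (nat_lit 4) (nat_lit 438) (nat_lit 399) (nat_lit 363)))) (XT.nd (nat_lit 156) (nat_lit 152) (nat_lit 0) (XT.nd (nat_lit 78) (nat_lit 0) (nat_lit 0) (XT.lf (nat_lit 0) (nat_lit 778178908) (nat_lit 76) (nat_lit 6281102802) (nat_lit 152) (nat_lit 17273204058) (nat_lit 41) (nat_lit 5) (nat_lit 42) (nat_lit 5) (nat_lit 43) (nat_lit 4) (nat_lit 439) (nat_lit 399) (nat_lit 362)) (XT.lf (nat_lit 0) (nat_lit 15352026456) (nat_lit 152) (nat_lit 7802946978) (nat_lit 0) (nat_lit 2418203018)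 (nat_lit 41) (nat_lit 5) (nat_lit 43) (nat_lit 4) (nat_lit 41) (nat_lit 4) (nat_lit 440) (nat_lit 399) (nat_lit 361))) (XT.nd (nat_lit 78) (nat_lit 76) (nat_lit 0) (XT.lf (nat_lit 0) (nat_lit 9384824632) (nat_lit 76) (nat_lit 15245360173) (nat_lit 76) (nat_lit 2257179514) (nat_lit 40) (nat_lit 4) (nat_lit 41) (nat_lit 5) (nat_lit 41) (nat_lit 4) (nat_lit 441) (nat_lit 399) (nat_lit 360)) (XT.lf (nat_lit 0) (nat_lit 6178807928) (nat_lit 152) (nat_lit 186590928) (nat_lit 76) (nat_lit 21916904126) (nat_lit 39) (nat_lit 5) (nat_lit 41) (nat_lit 5) (nat_lit 40) (nat_lit 4) (nat_lit 442) (nat_lit 399) (nat_lit 359))))) (XT.nd (nat_lit 234) (nat_lit 304) (nat_lit 0) (XT.nd (nat_lit 78) (nat_lit 152) (nat_lit 0) (XT.lf (nat_lit 0) (nat_lit 15659935352) (nat_lit 152) (nat_lit 10540746630) (nat_lit 0) (nat_lit 3544089079) (nat_lit 38) (nat_lit 5) (nat_lit 40) (nat_lit 4) (nat_lit 38) (nat_lit 4) (nat_lit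 443) (nat_lit 399) (nat_lit 358)) (XT.nd (nat_lit 78) (nat_lit 76) (nat_lit 0) (XT.lf (nat_lit 0) (nat_lit 8996284889) (nat_lit 76) (nat_lit 17228853204) (nat_lit 76) (nat_lit 5073052752) (nat_lit 37) (nat_lit 4) (nat_lit 38) (nat_lit 5) (nat_lit 38) (nat_lit 4) (nat_lit 444) (nat_lit 399) (nat_lit 357)) (XT.lf (nat_lit 0) (nat_lit 4661079523) (nat_lit 152) (nat_lit 2497749654) (nat_lit 76) (nat_lit 25789330539) (nat_lit 36) (nat_lit 5) (nat_lit 38) (nat_lit 5) (nat_lit 37) (nat_lit 4) (nat_lit 445) (nat_lit 399) (nat_lit 356)))) (XT.nd (nat_lit 156) (nat_lit 152) (nat_lit 0) (XT.nd (nat_lit 78) (nat_lit 76) (nat_lit 0) (XT.lf (nat_lit 0) (nat_lit 15419022409) (nat_lit 152) (nat_lit 15161350159) (nat_lit 0) (nat_lit 4097680435) (nat_lit 35) (nat_lit 5) (nat_lit 37) (nat_lit 4) (nat_lit 35) (nat_lit 4) (nat_lit 446) (nat_lit 399) (nat_lit 355)) (XT.lf (nat_lit 0) (nat_lit 6940559117) (nat_lit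 76) (nat_lit 20463582807) (nat_lit 76) (nat_lit 9112873317) (nat_lit 34) (nat_lit 4) (nat_lit 35) (nat_lit 5) (nat_lit 35) (nat_lit 4) (nat_lit 447) (nat_lit 399) (nat_lit 354))) (XT.nd (nat_lit 78) (nat_lit 76) (nat_lit 0) (XT.lf (nat_lit 0) (nat_lit 2121715792) (nat_lit 152) (nat_lit 6964732784) (nat_lit 76) (nat_lit 29383574221) (nat_lit 33) (nat_lit 5) (nat_lit 35) (nat_lit 5) (nat_lit 34) (nat_lit 4) (nat_lit 448) (nat_lit 399) (nat_lit 353)) (XT.lf (nat_lit 0) (nat_lit 14237058210) (nat_lit 152) (nat_lit 22606680860) (nat_lit 0) (nat_lit 3678651225) (nat_lit 32) (nat_lit 5) (nat_lit 34) (nat_lit 4) (nat_lit 32) (nat_lit 4) (nat_lit 449) (nat_lit 399) (nat_lit 352)))))) (XT.nd (nat_lit 546) (nat_lit 532) (nat_lit 0) (XT.nd (nat_lit 234) (nat_lit 228) (nat_lit 0) (XT.nd (nat_lit 78) (nat_lit 152) (nat_lit 0) (XT.lf (nat_lit 0) (nat_lit 2224923909) (nat_lit 76) (nat_lit 25529689027) (nat_lit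 76) (nat_lit 14949696042) (nat_lit 31) (nat_lit 4) (nat_lit 32) (nat_lit 5) (nat_lit 32) (nat_lit 4) (nat_lit 450) (nat_lit 399) (nat_lit 351)) (XT.nd (nat_lit 78) (nat_lit 152) (nat_lit 0) (XT.lf (nat_lit 0) (nat_lit 30226979054) (nat_lit 76) (nat_lit 12694187546) (nat_lit 76) (nat_lit 2094207524) (nat_lit 31) (nat_lit 4) (nat_lit 32) (nat_lit 5) (nat_lit 32) (nat_lit 4) (nat_lit 451) (nat_lit 399) (nat_lit 350)) (XT.lf (nat_lit 0) (nat_lit 11512942201) (nat_lit 152) (nat_lit 34269649739) (nat_lit 0) (nat_lit 1681010221) (nat_lit 29) (nat_lit 5) (nat_lit 31) (nat_lit 4) (nat_lit 29) (nat_lit 4) (nat_lit 452) (nat_lit 399) (nat_lit 349)))) (XT.nd (nat_lit 156) (nat_lit 152) (nat_lit 0) (XT.nd (nat_lit 78) (nat_lit 76) (nat_lit 0) (XT.lf (nat_lit 0) (nat_lit 26792241583) (nat_lit 152) (nat_lit 6310914889) (nat_lit 0) (nat_lit 16944443249) (nat_lit 29) (nat_lit 5) (nat_lit 31) (nat_lit 4)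 (nat_lit 29) (nat_lit 4) (nat_lit 453) (nat_lit 399) (nat_lit 348)) (XT.lf (nat_lit 0) (nat_lit 25047813636) (nat_lit 76) (nat_lit 18804172572) (nat_lit 76) (nat_lit 8941683168) (nat_lit 28) (nat_lit 4) (nat_lit 29) (nat_lit 5) (nat_lit 29) (nat_lit 4) (nat_lit 454) (nat_lit 399) (nat_lit 347))) (XT.nd (nat_lit 78) (nat_lit 0) (nat_lit 0) (XT.lf (nat_lit 0) (nat_lit 3450142109) (nat_lit 76) (nat_lit 2956701329) (nat_lit 152) (nat_lit 49322781122) (nat_lit 26) (nat_lit 5) (nat_lit 27) (nat_lit 5) (nat_lit 28) (nat_lit 4) (nat_lit 455) (nat_lit 399) (nat_lit 346)) (XT.lf (nat_lit 0) (nat_lit 23574872282) (nat_lit 152) (nat_lit 20802347628) (nat_lit 0) (nat_lit 14418680181) (nat_lit 26) (nat_lit 5) (nat_lit 28) (nat_lit 4) (nat_lit 26) (nat_lit 4) (nat_lit 456) (nat_lit 399) (nat_lit 345))))) (XT.nd (nat_lit 312) (nat_lit 304) (nat_lit 0) (XT.nd (nat_lit 156) (nat_lit 152) (nat_lit 0) (XT.nd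 (nat_lit 78) (nat_lit 0) (nat_lit 0) (XT.lf (nat_lit 0) (nat_lit 13719246829) (nat_lit 76) (nat_lit 28762975638) (nat_lit 76) (nat_lit 19595985163) (nat_lit 25) (nat_lit 4) (nat_lit 26) (nat_lit 5) (nat_lit 26) (nat_lit 4) (nat_lit 457) (nat_lit 399) (nat_lit 344)) (XT.lf (nat_lit 0) (nat_lit 52104517262) (nat_lit 76) (nat_lit 11326626547) (nat_lit 76) (nat_lit 2149637577) (nat_lit 25) (nat_lit 4) (nat_lit 26) (nat_lit 5) (nat_lit 26) (nat_lit 4) (nat_lit 458) (nat_lit 399) (nat_lit 343))) (XT.nd (nat_lit 78) (nat_lit 0) (nat_lit 0) (XT.lf (nat_lit 0) (nat_lit 16625630172) (nat_lit 152) (nat_lit 44524510015) (nat_lit 0) (nat_lit 8119846065) (nat_lit 23) (nat_lit 5) (nat_lit 25) (nat_lit 4) (nat_lit 23) (nat_lit 4) (nat_lit 459) (nat_lit 399) (nat_lit 342)) (XT.lf (nat_lit 0) (nat_lit 37421288297) (nat_lit 152) (nat_lit 6870245164) (nat_lit 0) (nat_lit 28907567062) (nat_lit 23) (nat_lit 5)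 (nat_lit 25) (nat_lit 4) (nat_lit 23) (nat_lit 4) (nat_lit 460) (nat_lit 399) (nat_lit 341)))) (XT.nd (nat_lit 156) (nat_lit 152) (nat_lit 0) (XT.nd (nat_lit 78) (nat_lit 76) (nat_lit 0) (XT.lf (nat_lit 0) (nat_lit 35500816210) (nat_lit 76) (nat_lit 25198644701) (nat_lit 76) (nat_lit 16677574274) (nat_lit 22) (nat_lit 4) (nat_lit 23) (nat_lit 5) (nat_lit 23) (nat_lit 4) (nat_lit 461) (nat_lit 399) (nat_lit 340)) (XT.lf (nat_lit 0) (nat_lit 3910872915) (nat_lit 152) (nat_lit 393259570) (nat_lit 76) (nat_lit 77564845634) (nat_lit 21) (nat_lit 5) (nat_lit 23) (nat_lit 5) (nat_lit 22) (nat_lit 4) (nat_lit 462) (nat_lit 399) (nat_lit 339))) (XT.nd (nat_lit 78) (nat_lit 76) (nat_lit 0) (XT.lf (nat_lit 0) (nat_lit 26803185124) (nat_lit 152) (nat_lit 40856641578) (nat_lit 0) (nat_lit 18901170326) (nat_lit 20) (nat_lit 5) (nat_lit 22) (nat_lit 4) (nat_lit 20) (nat_lit 4) (nat_lit 463) (nat_lit 399)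 (nat_lit 338)) (XT.lf (nat_lit 0) (nat_lit 3901497646) (nat_lit 76) (nat_lit 47809772785) (nat_lit 76) (nat_lit 39902356112) (nat_lit 19) (nat_lit 4) (nat_lit 20) (nat_lit 5) (nat_lit 20) (nat_lit 4) (nat_lit 464) (nat_lit 399) (nat_lit 337))))))))
noncomputable def xc91 : XT := (XT.nd (nat_lit 2184) (nat_lit 304) (nat_lit 0) (XT.nd (nat_lit 1092) (nat_lit 380) (nat_lit 0) (XT.nd (nat_lit 546) (nat_lit 304) (nat_lit 0) (XT.nd (nat_lit 234) (nat_lit 228) (nat_lit 0) (XT.nd (nat_lit 78) (nat_lit 152) (nat_lit 0) (XT.lf (nat_lit 0) (nat_lit 54499294392) (nat_lit 76) (nat_lit 25198368859) (nat_lit 76) (nat_lit 17285950449) (nat_lit 19) (nat_lit 4) (nat_lit 20) (nat_lit 5) (nat_lit 20) (nat_lit 4) (nat_lit 465) (nat_lit 399) (nat_lit 336)) (XT.nd (nat_lit 78) (nat_lit 0) (nat_lit 0) (XT.lf (nat_lit 0) (nat_lit 6451389859) (nat_lit 76) (nat_lit 456513749) (nat_lit 152) (nat_lit 95851535725) (nat_lit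 17) (nat_lit 5) (nat_lit 18) (nat_lit 5) (nat_lit 19) (nat_lit 4) (nat_lit 466) (nat_lit 399) (nat_lit 335)) (XT.lf (nat_lit 0) (nat_lit 33896985670) (nat_lit 152) (nat_lit 48358524190) (nat_lit 0) (nat_lit 26562413605) (nat_lit 17) (nat_lit 5) (nat_lit 19) (nat_lit 4) (nat_lit 17) (nat_lit 4) (nat_lit 467) (nat_lit 399) (nat_lit 334)))) (XT.nd (nat_lit 156) (nat_lit 152) (nat_lit 0) (XT.nd (nat_lit 78) (nat_lit 0) (nat_lit 0) (XT.lf (nat_lit 0) (nat_lit 3535118743) (nat_lit 76) (nat_lit 59579337606) (nat_lit 76) (nat_lit 52241089115) (nat_lit 16) (nat_lit 4) (nat_lit 17) (nat_lit 5) (nat_lit 17) (nat_lit 4) (nat_lit 468) (nat_lit 399) (nat_lit 333)) (XT.lf (nat_lit 0) (nat_lit 62275056081) (nat_lit 76) (nat_lit 33689574667) (nat_lit 76) (nat_lit 26347922078) (nat_lit 16) (nat_lit 4) (nat_lit 17) (nat_lit 5) (nat_lit 17) (nat_lit 4) (nat_lit 469) (nat_lit 399) (nat_lit 332))) (XT.nd (nat_lit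 78) (nat_lit 76) (nat_lit 0) (XT.lf (nat_lit 0) (nat_lit 1510268491) (nat_lit 152) (nat_lit 4203446069) (nat_lit 76) (nat_lit 124111340248) (nat_lit 15) (nat_lit 5) (nat_lit 17) (nat_lit 5) (nat_lit 16) (nat_lit 4) (nat_lit 470) (nat_lit 399) (nat_lit 331)) (XT.lf (nat_lit 0) (nat_lit 32194414629) (nat_lit 152) (nat_lit 80136764254) (nat_lit 0) (nat_lit 25390967410) (nat_lit 14) (nat_lit 5) (nat_lit 16) (nat_lit 4) (nat_lit 14) (nat_lit 4) (nat_lit 471) (nat_lit 399) (nat_lit 330))))) (XT.nd (nat_lit 234) (nat_lit 228) (nat_lit 0) (XT.nd (nat_lit 78) (nat_lit 76) (nat_lit 0) (XT.lf (nat_lit 0) (nat_lit 65575974982) (nat_lit 152) (nat_lit 21885589932) (nat_lit 0) (nat_lit 58770025649) (nat_lit 14) (nat_lit 5) (nat_lit 16) (nat_lit 4) (nat_lit 14) (nat_lit 4) (nat_lit 472) (nat_lit 399) (nat_lit 329)) (XT.nd (nat_lit 78) (nat_lit 0) (nat_lit 0) (XT.lf (nat_lit 0) (nat_lit 43138496227) (nat_lit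 76) (nat_lit 59505156456) (nat_lit 76) (nat_lit 52696890351) (nat_lit 13) (nat_lit 4) (nat_lit 14) (nat_lit 5) (nat_lit 14) (nat_lit 4) (nat_lit 473) (nat_lit 399) (nat_lit 328)) (XT.lf (nat_lit 0) (nat_lit 114565160666) (nat_lit 76) (nat_lit 28688648592) (nat_lit 76) (nat_lit 21878237328) (nat_lit 13) (nat_lit 4) (nat_lit 14) (nat_lit 5) (nat_lit 14) (nat_lit 4) (nat_lit 474) (nat_lit 399) (nat_lit 327)))) (XT.nd (nat_lit 156) (nat_lit 76) (nat_lit 0) (XT.nd (nat_lit 78) (nat_lit 0) (nat_lit 0) (XT.lf (nat_lit 0) (nat_lit 11339501435) (nat_lit 152) (nat_lit 159273365042) (nat_lit 0) (nat_lit 5031725951) (nat_lit 11) (nat_lit 5) (nat_lit 13) (nat_lit 4) (nat_lit 11) (nat_lit 4) (nat_lit 475) (nat_lit 399) (nat_lit 326)) (XT.lf (nat_lit 0) (nat_lit 48176081503) (nat_lit 152) (nat_lit 96738522860) (nat_lit 0) (nat_lit 41866603123) (nat_lit 11) (nat_lit 5) (nat_lit 13) (nat_lit 4) (nat_lit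 11) (nat_lit 4) (nat_lit 476) (nat_lit 399) (nat_lit 325))) (XT.nd (nat_lit 78) (nat_lit 76) (nat_lit 0) (XT.lf (nat_lit 0) (nat_lit 87940843463) (nat_lit 152) (nat_lit 29239619563) (nat_lit 0) (nat_lit 81629788327) (nat_lit 11) (nat_lit 5) (nat_lit 13) (nat_lit 4) (nat_lit 11) (nat_lit 4) (nat_lit 477) (nat_lit 399) (nat_lit 324)) (XT.lf (nat_lit 0) (nat_lit 45920466038) (nat_lit 76) (nat_lit 86053352621) (nat_lit 76) (nat_lit 79740837526) (nat_lit 10) (nat_lit 4) (nat_lit 11) (nat_lit 5) (nat_lit 11) (nat_lit 4) (nat_lit 478) (nat_lit 399) (nat_lit 323)))))) (XT.nd (nat_lit 546) (nat_lit 152) (nat_lit 0) (XT.nd (nat_lit 234) (nat_lit 76) (nat_lit 0) (XT.nd (nat_lit 78) (nat_lit 152) (nat_lit 0) (XT.lf (nat_lit 0) (nat_lit 128721291703) (nat_lit 76) (nat_lit 51590692241) (nat_lit 76) (nat_lit 45276825331) (nat_lit 10) (nat_lit 4) (nat_lit 11) (nat_lit 5) (nat_lit 11) (nat_lit 4) (nat_lit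 479) (nat_lit 399) (nat_lit 322)) (XT.nd (nat_lit 78) (nat_lit 152) (nat_lit 0) (XT.lf (nat_lit 0) (nat_lit 218113822439) (nat_lit 76) (nat_lit 14387721729) (nat_lit 76) (nat_lit 8072603139) (nat_lit 10) (nat_lit 4) (nat_lit 11) (nat_lit 5) (nat_lit 11) (nat_lit 4) (nat_lit 480) (nat_lit 399) (nat_lit 321)) (XT.lf (nat_lit 0) (nat_lit 32609898925) (nat_lit 152) (nat_lit 197156494961) (nat_lit 0) (nat_lit 26761493784) (nat_lit 8) (nat_lit 5) (nat_lit 10) (nat_lit 4) (nat_lit 8) (nat_lit 4) (nat_lit 481) (nat_lit 399) (nat_lit 320)))) (XT.nd (nat_lit 156) (nat_lit 76) (nat_lit 0) (XT.nd (nat_lit 78) (nat_lit 0) (nat_lit 0) (XT.lf (nat_lit 0) (nat_lit 77099767743) (nat_lit 152) (nat_lit 125311904578) (nat_lit 0) (nat_lit 71250368979) (nat_lit 8) (nat_lit 5) (nat_lit 10) (nat_lit 4) (nat_lit 8) (nat_lit 4) (nat_lit 482) (nat_lit 399) (nat_lit 319)) (XT.lf (nat_lit 0) (nat_lit 125135061171) (nat_lit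 152) (nat_lit 47748224883) (nat_lit 0) (nat_lit 119284742384) (nat_lit 8) (nat_lit 5) (nat_lit 10) (nat_lit 4) (nat_lit 8) (nat_lit 4) (nat_lit 483) (nat_lit 399) (nat_lit 318))) (XT.nd (nat_lit 78) (nat_lit 0) (nat_lit 0) (XT.lf (nat_lit 0) (nat_lit 37889570516) (nat_lit 76) (nat_lit 140022107363) (nat_lit 76) (nat_lit 134170936705) (nat_lit 7) (nat_lit 4) (nat_lit 8) (nat_lit 5) (nat_lit 8) (nat_lit 4) (nat_lit 484) (nat_lit 399) (nat_lit 317)) (XT.lf (nat_lit 0) (nat_lit 133068172518) (nat_lit 76) (nat_lit 103135353205) (nat_lit 76) (nat_lit 97283393776) (nat_lit 7) (nat_lit 4) (nat_lit 8) (nat_lit 5) (nat_lit 8) (nat_lit 4) (nat_lit 485) (nat_lit 399) (nat_lit 316))))) (XT.nd (nat_lit 234) (nat_lit 0) (nat_lit 0) (XT.nd (nat_lit 78) (nat_lit 152) (nat_lit 0) (XT.lf (nat_lit 0) (nat_lit 235837265563) (nat_lit 76) (nat_lit 63309956492) (nat_lit 76) (nat_lit 57457266720) (nat_lit 7) (nat_lit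 4) (nat_lit 8) (nat_lit 5) (nat_lit 8) (nat_lit 4) (nat_lit 486) (nat_lit 399) (nat_lit 315)) (XT.nd (nat_lit 78) (nat_lit 152) (nat_lit 0) (XT.lf (nat_lit 0) (nat_lit 346805851683) (nat_lit 76) (nat_lit 20309914873) (nat_lit 76) (nat_lit 14456548857) (nat_lit 7) (nat_lit 4) (nat_lit 8) (nat_lit 5) (nat_lit 8) (nat_lit 4) (nat_lit 487) (nat_lit 399) (nat_lit 314)) (XT.lf (nat_lit 0) (nat_lit 32511221051) (nat_lit 152) (nat_lit 348703793487) (nat_lit 0) (nat_lit 27090857933) (nat_lit 5) (nat_lit 5) (nat_lit 7) (nat_lit 4) (nat_lit 5) (nat_lit 4) (nat_lit 488) (nat_lit 399) (nat_lit 313)))) (XT.nd (nat_lit 156) (nat_lit 0) (nat_lit 0) (XT.nd (nat_lit 78) (nat_lit 0) (nat_lit 0) (XT.lf (nat_lit 0) (nat_lit 83948070617) (nat_lit 152) (nat_lit 274553418260) (nat_lit 0) (nat_lit 78527170675) (nat_lit 5) (nat_lit 5) (nat_lit 7) (nat_lit 4) (nat_lit 5) (nat_lit 4) (nat_lit 489) (nat_lit 399) (nat_lit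 312)) (XT.lf (nat_lit 0) (nat_lit 139490506950) (nat_lit 152) (nat_lit 194490401608) (nat_lit 0) (nat_lit 134069109949) (nat_lit 5) (nat_lit 5) (nat_lit 7) (nat_lit 4) (nat_lit 5) (nat_lit 4) (nat_lit 490) (nat_lit 399) (nat_lit 311))) (XT.nd (nat_lit 78) (nat_lit 0) (nat_lit 0) (XT.lf (nat_lit 0) (nat_lit 199467670414) (nat_lit 152) (nat_lit 108040296028) (nat_lit 0) (nat_lit 194045813173) (nat_lit 5) (nat_lit 5) (nat_lit 7) (nat_lit 4) (nat_lit 5) (nat_lit 4) (nat_lit 491) (nat_lit 399) (nat_lit 310)) (XT.lf (nat_lit 0) (nat_lit 264234981236) (nat_lit 152) (nat_lit 14690804595) (nat_lit 0) (nat_lit 258812697847) (nat_lit 5) (nat_lit 5) (nat_lit 7) (nat_lit 4) (nat_lit 5) (nat_lit 4) (nat_lit 492) (nat_lit 399) (nat_lit 309))))))) (XT.nd (nat_lit 1092) (nat_lit 76) (nat_lit 0) (XT.nd (nat_lit 546) (nat_lit 0) (nat_lit 0) (XT.nd (nat_lit 234) (nat_lit 152) (nat_lit 0) (XT.nd (nat_lit 78)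 (nat_lit 0) (nat_lit 0) (XT.lf (nat_lit 0) (nat_lit 90645720938) (nat_lit 76) (nat_lit 245710556533) (nat_lit 76) (nat_lit 240287878562) (nat_lit 4) (nat_lit 4) (nat_lit 5) (nat_lit 5) (nat_lit 5) (nat_lit 4) (nat_lit 493) (nat_lit 399) (nat_lit 308)) (XT.nd (nat_lit 78) (nat_lit 0) (nat_lit 0) (XT.lf (nat_lit 0) (nat_lit 205229645950) (nat_lit 76) (nat_lit 209412062538) (nat_lit 76) (nat_lit 203989019213) (nat_lit 4) (nat_lit 4) (nat_lit 5) (nat_lit 5) (nat_lit 5) (nat_lit 4) (nat_lit 494) (nat_lit 399) (nat_lit 307)) (XT.lf (nat_lit 0) (nat_lit 328966394558) (nat_lit 76) (nat_lit 170216874289) (nat_lit 76) (nat_lit 164793492675) (nat_lit 4) (nat_lit 4) (nat_lit 5) (nat_lit 5) (nat_lit 5) (nat_lit 4) (nat_lit 495) (nat_lit 399) (nat_lit 306)))) (XT.nd (nat_lit 156) (nat_lit 152) (nat_lit 0) (XT.nd (nat_lit 78) (nat_lit 0) (nat_lit 0) (XT.lf (nat_lit 0) (nat_lit 462589221567) (nat_lit 76)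 (nat_lit 127892724007) (nat_lit 76) (nat_lit 122469029160) (nat_lit 4) (nat_lit 4) (nat_lit 5) (nat_lit 5) (nat_lit 5) (nat_lit 4) (nat_lit 496) (nat_lit 399) (nat_lit 305)) (XT.lf (nat_lit 0) (nat_lit 606889965952) (nat_lit 76) (nat_lit 82188801910) (nat_lit 76) (nat_lit 76764817034) (nat_lit 4) (nat_lit 4) (nat_lit 5) (nat_lit 5) (nat_lit 5) (nat_lit 4) (nat_lit 497) (nat_lit 399) (nat_lit 304))) (XT.nd (nat_lit 78) (nat_lit 152) (nat_lit 0) (XT.lf (nat_lit 0) (nat_lit 762723743236) (nat_lit 76) (nat_lit 32834269942) (nat_lit 76) (nat_lit 27410016521) (nat_lit 4) (nat_lit 4) (nat_lit 5) (nat_lit 5) (nat_lit 5) (nat_lit 4) (nat_lit 498) (nat_lit 399) (nat_lit 303)) (XT.lf (nat_lit 0) (nat_lit 26288901272) (nat_lit 152) (nat_lit 836922215000) (nat_lit 0) (nat_lit 21266214166) (nat_lit 2) (nat_lit 5) (nat_lit 4) (nat_lit 4) (nat_lit 2) (nat_lit 4) (nat_lit 499) (nat_lit 399) (nat_lit 302)))))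 (XT.nd (nat_lit 234) (nat_lit 0) (nat_lit 0) (XT.nd (nat_lit 78) (nat_lit 0) (nat_lit 0) (XT.lf (nat_lit 0) (nat_lit 85340632845) (nat_lit 152) (nat_lit 784989033704) (nat_lit 0) (nat_lit 80317732559) (nat_lit 2) (nat_lit 5) (nat_lit 4) (nat_lit 4) (nat_lit 2) (nat_lit 4) (nat_lit 500) (nat_lit 399) (nat_lit 301)) (XT.nd (nat_lit 78) (nat_lit 0) (nat_lit 0) (XT.lf (nat_lit 0) (nat_lit 149111822777) (nat_lit 152) (nat_lit 728910899809) (nat_lit 0) (nat_lit 144088725102) (nat_lit 2) (nat_lit 5) (nat_lit 4) (nat_lit 4) (nat_lit 2) (nat_lit 4) (nat_lit 501) (nat_lit 399) (nat_lit 300)) (XT.lf (nat_lit 0) (nat_lit 217980374417) (nat_lit 152) (nat_lit 668355498449) (nat_lit 0) (nat_lit 212957093974) (nat_lit 2) (nat_lit 5) (nat_lit 4) (nat_lit 4) (nat_lit 2) (nat_lit 4) (nat_lit 502) (nat_lit 399) (nat_lit 299)))) (XT.nd (nat_lit 156) (nat_lit 0) (nat_lit 0) (XT.nd (nat_lit 78) (nat_lit 0) (nat_lit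 0) (XT.lf (nat_lit 0) (nat_lit 292354397700) (nat_lit 152) (nat_lit 602963982800) (nat_lit 0) (nat_lit 287330948028) (nat_lit 2) (nat_lit 5) (nat_lit 4) (nat_lit 4) (nat_lit 2) (nat_lit 4) (nat_lit 503) (nat_lit 399) (nat_lit 298)) (XT.lf (nat_lit 0) (nat_lit 372674627579) (nat_lit 152) (nat_lit 532348847584) (nat_lit 0) (nat_lit 367651021213) (nat_lit 2) (nat_lit 5) (nat_lit 4) (nat_lit 4) (nat_lit 2) (nat_lit 4) (nat_lit 504) (nat_lit 399) (nat_lit 297))) (XT.nd (nat_lit 78) (nat_lit 0) (nat_lit 0) (XT.lf (nat_lit 0) (nat_lit 459417035787) (nat_lit 152) (nat_lit 456091632740) (nat_lit 0) (nat_lit 454393284334) (nat_lit 2) (nat_lit 5) (nat_lit 4) (nat_lit 4) (nat_lit 2) (nat_lit 4) (nat_lit 505) (nat_lit 399) (nat_lit 296)) (XT.lf (nat_lit 0) (nat_lit 553095651408) (nat_lit 152) (nat_lit 373740443663) (nat_lit 0) (nat_lit 548071765616) (nat_lit 2) (nat_lit 5) (nat_lit 4) (nat_lit 4) (nat_lit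 2) (nat_lit 4) (nat_lit 506) (nat_lit 399) (nat_lit 295)))))) (XT.nd (nat_lit 546) (nat_lit 0) (nat_lit 0) (XT.nd (nat_lit 234) (nat_lit 76) (nat_lit 0) (XT.nd (nat_lit 78) (nat_lit 0) (nat_lit 0) (XT.lf (nat_lit 0) (nat_lit 654265606981) (nat_lit 152) (nat_lit 284807273306) (nat_lit 0) (nat_lit 649241596800) (nat_lit 2) (nat_lit 5) (nat_lit 4) (nat_lit 4) (nat_lit 2) (nat_lit 4) (nat_lit 507) (nat_lit 399) (nat_lit 294)) (XT.nd (nat_lit 78) (nat_lit 0) (nat_lit 0) (XT.lf (nat_lit 0) (nat_lit 763526428168) (nat_lit 152) (nat_lit 188765110288) (nat_lit 0) (nat_lit 758502302812) (nat_lit 2) (nat_lit 5) (nat_lit 4) (nat_lit 4) (nat_lit 2) (nat_lit 4) (nat_lit 508) (nat_lit 399) (nat_lit 293)) (XT.lf (nat_lit 0) (nat_lit 881525586501) (nat_lit 152) (nat_lit 85044815867) (nat_lit 0) (nat_lit 876501354502) (nat_lit 2) (nat_lit 5) (nat_lit 4) (nat_lit 4) (nat_lit 2) (nat_lit 4) (nat_lit 509) (nat_lit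 399) (nat_lit 292)))) (XT.nd (nat_lit 156) (nat_lit 0) (nat_lit 0) (XT.nd (nat_lit 78) (nat_lit 0) (nat_lit 0) (XT.lf (nat_lit 0) (nat_lit 28388348926) (nat_lit 76) (nat_lit 981256727801) (nat_lit 76) (nat_lit 976232397059) (nat_lit 1) (nat_lit 4) (nat_lit 2) (nat_lit 5) (nat_lit 2) (nat_lit 4) (nat_lit 510) (nat_lit 399) (nat_lit 291)) (XT.lf (nat_lit 0) (nat_lit 155728010440) (nat_lit 76) (nat_lit 994609110119) (nat_lit 76) (nat_lit 989584687947) (nat_lit 1) (nat_lit 4) (nat_lit 2) (nat_lit 5) (nat_lit 2) (nat_lit 4) (nat_lit 511) (nat_lit 399) (nat_lit 290))) (XT.nd (nat_lit 78) (nat_lit 0) (nat_lit 0) (XT.lf (nat_lit 0) (nat_lit 293250464784) (nat_lit 76) (nat_lit 1009031950528) (nat_lit 76) (nat_lit 1004007443700) (nat_lit 1) (nat_lit 4) (nat_lit 2) (nat_lit 5) (nat_lit 2) (nat_lit 4) (nat_lit 512) (nat_lit 399) (nat_lit 289)) (XT.lf (nat_lit 0) (nat_lit 441770659837) (nat_lit 76) (nat_lit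 1024610717714) (nat_lit 76) (nat_lit 1019586132499) (nat_lit 1) (nat_lit 4) (nat_lit 2) (nat_lit 5) (nat_lit 2) (nat_lit 4) (nat_lit 513) (nat_lit 399) (nat_lit 288))))) (XT.nd (nat_lit 312) (nat_lit 0) (nat_lit 0) (XT.nd (nat_lit 156) (nat_lit 0) (nat_lit 0) (XT.nd (nat_lit 78) (nat_lit 0) (nat_lit 0) (XT.lf (nat_lit 0) (nat_lit 602168715271) (nat_lit 76) (nat_lit 1041437730295) (nat_lit 76) (nat_lit 1036413072501) (nat_lit 1) (nat_lit 4) (nat_lit 2) (nat_lit 5) (nat_lit 2) (nat_lit 4) (nat_lit 514) (nat_lit 399) (nat_lit 287)) (XT.lf (nat_lit 0) (nat_lit 775395138083) (nat_lit 76) (nat_lit 1059612703903) (nat_lit 76) (nat_lit 1054587978905) (nat_lit 1) (nat_lit 4) (nat_lit 2) (nat_lit 5) (nat_lit 2) (nat_lit 4) (nat_lit 515) (nat_lit 399) (nat_lit 286))) (XT.nd (nat_lit 78) (nat_lit 0) (nat_lit 0) (XT.lf (nat_lit 0) (nat_lit 962476455223) (nat_lit 76) (nat_lit 1079243342084) (nat_lit 76)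 (nat_lit 1074218554861) (nat_lit 1) (nat_lit 4) (nat_lit 2) (nat_lit 5) (nat_lit 2) (nat_lit 4) (nat_lit 516) (nat_lit 399) (nat_lit 285)) (XT.lf (nat_lit 0) (nat_lit 1164521296718) (nat_lit 76) (nat_lit 1100445974546) (nat_lit 76) (nat_lit 1095421129707) (nat_lit 1) (nat_lit 4) (nat_lit 2) (nat_lit 5) (nat_lit 2) (nat_lit 4) (nat_lit 517) (nat_lit 399) (nat_lit 284)))) (XT.nd (nat_lit 156) (nat_lit 0) (nat_lit 0) (XT.nd (nat_lit 78) (nat_lit 0) (nat_lit 0) (XT.lf (nat_lit 0) (nat_lit 1382726965332) (nat_lit 76) (nat_lit 1123346246519) (nat_lit 76) (nat_lit 1118321348332) (nat_lit 1) (nat_lit 4) (nat_lit 2) (nat_lit 5) (nat_lit 2) (nat_lit 4) (nat_lit 518) (nat_lit 399) (nat_lit 283)) (XT.lf (nat_lit 0) (nat_lit 1618386531695) (nat_lit 76) (nat_lit 1148079863318) (nat_lit 76) (nat_lit 1143054915735) (nat_lit 1) (nat_lit 4) (nat_lit 2) (nat_lit 5) (nat_lit 2) (nat_lit 4) (nat_lit 519) (nat_lit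 399) (nat_lit 282))) (XT.nd (nat_lit 78) (nat_lit 0) (nat_lit 0) (XT.lf (nat_lit 0) (nat_lit 1872896496939) (nat_lit 76) (nat_lit 1174793394524) (nat_lit 76) (nat_lit 1169768401204) (nat_lit 1) (nat_lit 4) (nat_lit 2) (nat_lit 5) (nat_lit 2) (nat_lit 4) (nat_lit 520) (nat_lit 399) (nat_lit 281)) (XT.lf (nat_lit 0) (nat_lit 2147765068268) (nat_lit 76) (nat_lit 1203645142545) (nat_lit 76) (nat_lit 1198620106874) (nat_lit 1) (nat_lit 4) (nat_lit 2) (nat_lit 5) (nat_lit 2) (nat_lit 4) (nat_lit 521) (nat_lit 399) (nat_lit 280))))))))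
noncomputable def xc92 : XT := (XT.nd (nat_lit 53352) (nat_lit 0) (nat_lit 3572) (XT.nd (nat_lit 1092) (nat_lit 0) (nat_lit 0) (XT.nd (nat_lit 546) (nat_lit 0) (nat_lit 0) (XT.nd (nat_lit 234) (nat_lit 0) (nat_lit 0) (XT.nd (nat_lit 78) (nat_lit 0) (nat_lit 0) (XT.lf (nat_lit 0) (nat_lit 2444621096473) (nat_lit 76) (nat_lit 1234806080701) (nat_lit 76) (nat_lit 1229781005818) (nat_lit 1) (nat_lit 4) (nat_lit 2) (nat_lit 5) (nat_lit 2) (nat_lit 4) (nat_lit 522) (nat_lit 399) (nat_lit 279)) (XT.nd (nat_lit 78) (nat_lit 0) (nat_lit 0) (XT.lf (nat_lit 0) (nat_lit 2765223728389) (nat_lit 76) (nat_lit 1268460866404) (nat_lit 76) (nat_lit 1263435755214) (nat_lit 1) (nat_lit 4) (nat_lit 2) (nat_lit 5) (nat_lit 2) (nat_lit 4) (nat_lit 523) (nat_lit 399) (nat_lit 278)) (XT.lf (nat_lit 0) (nat_lit 3111472831464) (nat_lit 76) (nat_lit 1304808935422) (nat_lit 76) (nat_lit 1299783790613) (nat_lit 1) (nat_lit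 4) (nat_lit 2) (nat_lit 5) (nat_lit 2) (nat_lit 4) (nat_lit 524) (nat_lit 399) (nat_lit 277)))) (XT.nd (nat_lit 156) (nat_lit 0) (nat_lit 0) (XT.nd (nat_lit 78) (nat_lit 0) (nat_lit 0) (XT.lf (nat_lit 0) (nat_lit 3485420252234) (nat_lit 76) (nat_lit 1344065683718) (nat_lit 76) (nat_lit 1339040507781) (nat_lit 1) (nat_lit 4) (nat_lit 2) (nat_lit 5) (nat_lit 2) (nat_lit 4) (nat_lit 525) (nat_lit 399) (nat_lit 276)) (XT.lf (nat_lit 0) (nat_lit 3889281975416) (nat_lit 76) (nat_lit 1386463743876) (nat_lit 76) (nat_lit 1381438539117) (nat_lit 1) (nat_lit 4) (nat_lit 2) (nat_lit 5) (nat_lit 2) (nat_lit 4) (nat_lit 526) (nat_lit 399) (nat_lit 275))) (XT.nd (nat_lit 78) (nat_lit 0) (nat_lit 0) (XT.lf (nat_lit 0) (nat_lit 4325451255666) (nat_lit 76) (nat_lit 1432254363659) (nat_lit 76) (nat_lit 1427229132212) (nat_lit 1) (nat_lit 4) (nat_lit 2) (nat_lit 5) (nat_lit 2) (nat_lit 4) (nat_lit 527) (nat_lit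 399) (nat_lit 274)) (XT.lf (nat_lit 0) (nat_lit 4796512799828) (nat_lit 76) (nat_lit 1481708894888) (nat_lit 76) (nat_lit 1476683638731) (nat_lit 1) (nat_lit 4) (nat_lit 2) (nat_lit 5) (nat_lit 2) (nat_lit 4) (nat_lit 528) (nat_lit 399) (nat_lit 273))))) (XT.nd (nat_lit 234) (nat_lit 0) (nat_lit 0) (XT.nd (nat_lit 78) (nat_lit 0) (nat_lit 0) (XT.lf (nat_lit 0) (nat_lit 5305258083721) (nat_lit 76) (nat_lit 1535120401452) (nat_lit 76) (nat_lit 1530095122415) (nat_lit 1) (nat_lit 4) (nat_lit 2) (nat_lit 5) (nat_lit 2) (nat_lit 4) (nat_lit 529) (nat_lit 399) (nat_lit 272)) (XT.nd (nat_lit 78) (nat_lit 0) (nat_lit 0) (XT.lf (nat_lit 0) (nat_lit 5854701894212) (nat_lit 76) (nat_lit 1592805395983) (nat_lit 76) (nat_lit 1587780095760) (nat_lit 1) (nat_lit 4) (nat_lit 2) (nat_lit 5) (nat_lit 2) (nat_lit 4) (nat_lit 530) (nat_lit 399) (nat_lit 271)) (XT.lf (nat_lit 0) (nat_lit 6448100194622) (nat_lit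 76) (nat_lit 1655105715484) (nat_lit 76) (nat_lit 1650080395645) (nat_lit 1) (nat_lit 4) (nat_lit 2) (nat_lit 5) (nat_lit 2) (nat_lit 4) (nat_lit 531) (nat_lit 399) (nat_lit 270)))) (XT.nd (nat_lit 156) (nat_lit 0) (nat_lit 0) (XT.nd (nat_lit 78) (nat_lit 0) (nat_lit 0) (XT.lf (nat_lit 0) (nat_lit 7088969419325) (nat_lit 76) (nat_lit 1722390547035) (nat_lit 76) (nat_lit 1717365209033) (nat_lit 1) (nat_lit 4) (nat_lit 2) (nat_lit 5) (nat_lit 2) (nat_lit 4) (nat_lit 532) (nat_lit 399) (nat_lit 269)) (XT.lf (nat_lit 0) (nat_lit 7781107311873) (nat_lit 76) (nat_lit 1795058615563) (nat_lit 76) (nat_lit 1790033260744) (nat_lit 1) (nat_lit 4) (nat_lit 2) (nat_lit 5) (nat_lit 2) (nat_lit 4) (nat_lit 533) (nat_lit 399) (nat_lit 268))) (XT.nd (nat_lit 78) (nat_lit 0) (nat_lit 0) (XT.lf (nat_lit 0) (nat_lit 8528615430149) (nat_lit 76) (nat_lit 1873540546660) (nat_lit 76) (nat_lit 1868515176269) (nat_lit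 1) (nat_lit 4) (nat_lit 2) (nat_lit 5) (nat_lit 2) (nat_lit 4) (nat_lit 534) (nat_lit 399) (nat_lit 267)) (XT.lf (nat_lit 0) (nat_lit 9335923451891) (nat_lit 76) (nat_lit 1958301418436) (nat_lit 76) (nat_lit 1953276033626) (nat_lit 1) (nat_lit 4) (nat_lit 2) (nat_lit 5) (nat_lit 2) (nat_lit 4) (nat_lit 535) (nat_lit 399) (nat_lit 266)))))) (XT.nd (nat_lit 546) (nat_lit 0) (nat_lit 0) (XT.nd (nat_lit 234) (nat_lit 0) (nat_lit 0) (XT.nd (nat_lit 78) (nat_lit 0) (nat_lit 0) (XT.lf (nat_lit 0) (nat_lit 10207815424635) (nat_lit 76) (nat_lit 2049843517538) (nat_lit 76) (nat_lit 2044818119378) (nat_lit 1) (nat_lit 4) (nat_lit 2) (nat_lit 5) (nat_lit 2) (nat_lit 4) (nat_lit 536) (nat_lit 399) (nat_lit 265)) (XT.nd (nat_lit 78) (nat_lit 0) (nat_lit 0) (XT.lf (nat_lit 0) (nat_lit 11149458115627) (nat_lit 76) (nat_lit 2148709315664) (nat_lit 76) (nat_lit 2143683905143) (nat_lit 1) (nat_lit 4) (nat_lit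 2) (nat_lit 5) (nat_lit 2) (nat_lit 4) (nat_lit 537) (nat_lit 399) (nat_lit 264)) (XT.lf (nat_lit 0) (nat_lit 12166431629702) (nat_lit 76) (nat_lit 2255484684212) (nat_lit 76) (nat_lit 2250459262245) (nat_lit 1) (nat_lit 4) (nat_lit 2) (nat_lit 5) (nat_lit 2) (nat_lit 4) (nat_lit 538) (nat_lit 399) (nat_lit 263)))) (XT.nd (nat_lit 156) (nat_lit 0) (nat_lit 0) (XT.nd (nat_lit 78) (nat_lit 0) (nat_lit 0) (XT.lf (nat_lit 0) (nat_lit 13264762476574) (nat_lit 76) (nat_lit 2370802366105) (nat_lit 76) (nat_lit 2365776933540) (nat_lit 1) (nat_lit 4) (nat_lit 2) (nat_lit 5) (nat_lit 2) (nat_lit 4) (nat_lit 539) (nat_lit 399) (nat_lit 262)) (XT.lf (nat_lit 0) (nat_lit 14450959283483) (nat_lit 76) (nat_lit 2495345725385) (nat_lit 76) (nat_lit 2490320283007) (nat_lit 1) (nat_lit 4) (nat_lit 2) (nat_lit 5) (nat_lit 2) (nat_lit 4) (nat_lit 540) (nat_lit 399) (nat_lit 261))) (XT.nd (nat_lit 78) (nat_lit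 0) (nat_lit 0) (XT.lf (nat_lit 0) (nat_lit 15732051364840) (nat_lit 76) (nat_lit 2629852796773) (nat_lit 76) (nat_lit 2624827345309) (nat_lit 1) (nat_lit 4) (nat_lit 2) (nat_lit 5) (nat_lit 2) (nat_lit 4) (nat_lit 541) (nat_lit 399) (nat_lit 260)) (XT.lf (nat_lit 0) (nat_lit 17115630377423) (nat_lit 76) (nat_lit 2775120659211) (nat_lit 76) (nat_lit 2770095199334) (nat_lit 1) (nat_lit 4) (nat_lit 2) (nat_lit 5) (nat_lit 2) (nat_lit 4) (nat_lit 542) (nat_lit 399) (nat_lit 259))))) (XT.nd (nat_lit 51402) (nat_lit 0) (nat_lit 8436) (XT.nd (nat_lit 78) (nat_lit 0) (nat_lit 0) (XT.lf (nat_lit 0) (nat_lit 18609895307975) (nat_lit 76) (nat_lit 2932010159290) (nat_lit 76) (nat_lit 2926984691624) (nat_lit 1) (nat_lit 4) (nat_lit 2) (nat_lit 5) (nat_lit 2) (nat_lit 4) (nat_lit 543) (nat_lit 399) (nat_lit 258)) (XT.nd (nat_lit 51246) (nat_lit 0) (nat_lit 8816) (XT.lf (nat_lit 0) (nat_lit 20223701059788)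 (nat_lit 76) (nat_lit 3101451012568) (nat_lit 76) (nat_lit 3096425537689) (nat_lit 1) (nat_lit 4) (nat_lit 2) (nat_lit 5) (nat_lit 2) (nat_lit 4) (nat_lit 544) (nat_lit 399) (nat_lit 257)) (XT.lf (nat_lit 0) (nat_lit 1073741823) (nat_lit 0) (nat_lit 0) (nat_lit 0) (nat_lit 0) (nat_lit 117) (nat_lit 0) (nat_lit 1) (nat_lit 0) (nat_lit 1) (nat_lit 0) (nat_lit 400) (nat_lit 400) (nat_lit 400)))) (XT.nd (nat_lit 156) (nat_lit 228) (nat_lit 0) (XT.nd (nat_lit 78) (nat_lit 76) (nat_lit 0) (XT.lf (nat_lit 0) (nat_lit 3134323657) (nat_lit 76) (nat_lit 3153689187) (nat_lit 0) (nat_lit 160655327) (nat_lit 116) (nat_lit 5) (nat_lit 117) (nat_lit 0) (nat_lit 116) (nat_lit 4) (nat_lit 401) (nat_lit 400) (nat_lit 399)) (XT.lf (nat_lit 0) (nat_lit 223891808) (nat_lit 76) (nat_lit 5991475740) (nat_lit 76) (nat_lit 264410809) (nat_lit 115) (nat_lit 4) (nat_lit 116) (nat_lit 5) (nat_lit 116) (nat_lit 4) (nat_lit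 402) (nat_lit 400) (nat_lit 398))) (XT.nd (nat_lit 78) (nat_lit 152) (nat_lit 0) (XT.lf (nat_lit 0) (nat_lit 2667978157) (nat_lit 152) (nat_lit 2727111660) (nat_lit 76) (nat_lit 1129321037) (nat_lit 114) (nat_lit 5) (nat_lit 116) (nat_lit 5) (nat_lit 115) (nat_lit 4) (nat_lit 403) (nat_lit 400) (nat_lit 397)) (XT.lf (nat_lit 0) (nat_lit 942226547) (nat_lit 152) (nat_lit 4624757379) (nat_lit 228) (nat_lit 1025434109) (nat_lit 112) (nat_lit 5) (nat_lit 114) (nat_lit 5) (nat_lit 115) (nat_lit 4) (nat_lit 404) (nat_lit 400) (nat_lit 396))))))) (XT.nd (nat_lit 1092) (nat_lit 1672) (nat_lit 0) (XT.nd (nat_lit 546) (nat_lit 1596) (nat_lit 0) (XT.nd (nat_lit 234) (nat_lit 1216) (nat_lit 0) (XT.nd (nat_lit 78) (nat_lit 304) (nat_lit 0) (XT.lf (nat_lit 0) (nat_lit 1739939815) (nat_lit 228) (nat_lit 1842007550) (nat_lit 76) (nat_lit 3095295086) (nat_lit 111) (nat_lit 5) (nat_lit 114) (nat_lit 5) (nat_lit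 112) (nat_lit 5) (nat_lit 405) (nat_lit 400) (nat_lit 395)) (XT.nd (nat_lit 78) (nat_lit 76) (nat_lit 0) (XT.lf (nat_lit 0) (nat_lit 2175715565) (nat_lit 228) (nat_lit 2300574155) (nat_lit 304) (nat_lit 2306066972) (nat_lit 108) (nat_lit 5) (nat_lit 111) (nat_lit 5) (nat_lit 112) (nat_lit 5) (nat_lit 406) (nat_lit 400) (nat_lit 394)) (XT.lf (nat_lit 0) (nat_lit 321422973) (nat_lit 304) (nat_lit 471890079) (nat_lit 76) (nat_lit 6116571983) (nat_lit 107) (nat_lit 5) (nat_lit 111) (nat_lit 5) (nat_lit 108) (nat_lit 5) (nat_lit 407) (nat_lit 400) (nat_lit 393)))) (XT.nd (nat_lit 156) (nat_lit 532) (nat_lit 0) (XT.nd (nat_lit 78) (nat_lit 380) (nat_lit 0) (XT.lf (nat_lit 0) (nat_lit 2933652931) (nat_lit 380) (nat_lit 3118127752) (nat_lit 76) (nat_lit 999149651) (nat_lit 103) (nat_lit 5) (nat_lit 108) (nat_lit 5) (nat_lit 104) (nat_lit 5) (nat_lit 408) (nat_lit 400) (nat_lit 392)) (XT.lf (nat_lit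 0) (nat_lit 1377303572) (nat_lit 380) (nat_lit 4236494270) (nat_lit 456) (nat_lit 1600780547) (nat_lit 98) (nat_lit 5) (nat_lit 103) (nat_lit 5) (nat_lit 104) (nat_lit 5) (nat_lit 409) (nat_lit 400) (nat_lit 391))) (XT.nd (nat_lit 78) (nat_lit 456) (nat_lit 0) (XT.lf (nat_lit 0) (nat_lit 946520436) (nat_lit 456) (nat_lit 1194996234) (nat_lit 76) (nat_lit 5256852595) (nat_lit 97) (nat_lit 5) (nat_lit 103) (nat_lit 5) (nat_lit 98) (nat_lit 5) (nat_lit 410) (nat_lit 400) (nat_lit 390)) (XT.lf (nat_lit 0) (nat_lit 3521731929) (nat_lit 532) (nat_lit 3818147308) (nat_lit 76) (nat_lit 260836099) (nat_lit 91) (nat_lit 5) (nat_lit 98) (nat_lit 5) (nat_lit 92) (nat_lit 5) (nat_lit 411) (nat_lit 400) (nat_lit 389))))) (XT.nd (nat_lit 234) (nat_lit 760) (nat_lit 0) (XT.nd (nat_lit 78) (nat_lit 304) (nat_lit 0) (XT.lf (nat_lit 0) (nat_lit 1227789397) (nat_lit 532) (nat_lit 5016541931) (nat_lit 608) (nat_lit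 1579633118) (nat_lit 84) (nat_lit 5) (nat_lit 91) (nat_lit 5) (nat_lit 92) (nat_lit 5) (nat_lit 412) (nat_lit 400) (nat_lit 388)) (XT.nd (nat_lit 78) (nat_lit 228) (nat_lit 0) (XT.lf (nat_lit 0) (nat_lit 997812698) (nat_lit 608) (nat_lit 1383037819) (nat_lit 76) (nat_lit 5687357578) (nat_lit 83) (nat_lit 5) (nat_lit 91) (nat_lit 5) (nat_lit 84) (nat_lit 5) (nat_lit 413) (nat_lit 400) (nat_lit 387)) (XT.lf (nat_lit 0) (nat_lit 3652485139) (nat_lit 304) (nat_lit 4106657925) (nat_lit 76) (nat_lit 573075914) (nat_lit 80) (nat_lit 5) (nat_lit 84) (nat_lit 5) (nat_lit 81) (nat_lit 5) (nat_lit 414) (nat_lit 400) (nat_lit 386)))) (XT.nd (nat_lit 156) (nat_lit 456) (nat_lit 0) (XT.nd (nat_lit 78) (nat_lit 76) (nat_lit 0) (XT.lf (nat_lit 0) (nat_lit 1579044519) (nat_lit 228) (nat_lit 4926189516) (nat_lit 304) (nat_lit 2113278884) (nat_lit 77) (nat_lit 5) (nat_lit 80) (nat_lit 5) (nat_lit 81) (nat_lit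 5) (nat_lit 415) (nat_lit 400) (nat_lit 385)) (XT.lf (nat_lit 0) (nat_lit 591041785) (nat_lit 304) (nat_lit 1171861973) (nat_lit 76) (nat_lit 7166316269) (nat_lit 76) (nat_lit 5) (nat_lit 80) (nat_lit 5) (nat_lit 77) (nat_lit 5) (nat_lit 416) (nat_lit 400) (nat_lit 384))) (XT.nd (nat_lit 78) (nat_lit 228) (nat_lit 0) (XT.lf (nat_lit 0) (nat_lit 3427488557) (nat_lit 304) (nat_lit 4108519330) (nat_lit 76) (nat_lit 1722003004) (nat_lit 73) (nat_lit 5) (nat_lit 77) (nat_lit 5) (nat_lit 74) (nat_lit 5) (nat_lit 417) (nat_lit 400) (nat_lit 383)) (XT.lf (nat_lit 0) (nat_lit 2323286896) (nat_lit 228) (nat_lit 4168793844) (nat_lit 304) (nat_lit 3120939435) (nat_lit 70) (nat_lit 5) (nat_lit 73) (nat_lit 5) (nat_lit 74) (nat_lit 5) (nat_lit 418) (nat_lit 400) (nat_lit 382)))))) (XT.nd (nat_lit 546) (nat_lit 836) (nat_lit 0) (XT.nd (nat_lit 234) (nat_lit 456) (nat_lit 0) (XT.nd (nat_lit 78) (nat_lit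 380) (nat_lit 0) (XT.lf (nat_lit 0) (nat_lit 9328855750) (nat_lit 228) (nat_lit 457690055) (nat_lit 304) (nat_lit 211120477) (nat_lit 70) (nat_lit 5) (nat_lit 73) (nat_lit 5) (nat_lit 74) (nat_lit 5) (nat_lit 419) (nat_lit 400) (nat_lit 381)) (XT.nd (nat_lit 78) (nat_lit 152) (nat_lit 0) (XT.lf (nat_lit 0) (nat_lit 2911843594) (nat_lit 228) (nat_lit 3922572569) (nat_lit 76) (nat_lit 3562878127) (nat_lit 67) (nat_lit 5) (nat_lit 70) (nat_lit 5) (nat_lit 68) (nat_lit 5) (nat_lit 420) (nat_lit 400) (nat_lit 380)) (XT.lf (nat_lit 0) (nat_lit 3379738171) (nat_lit 152) (nat_lit 2888082325) (nat_lit 228) (nat_lit 4561076757) (nat_lit 65) (nat_lit 5) (nat_lit 67) (nat_lit 5) (nat_lit 68) (nat_lit 5) (nat_lit 421) (nat_lit 400) (nat_lit 379)))) (XT.nd (nat_lit 156) (nat_lit 228) (nat_lit 0) (XT.nd (nat_lit 78) (nat_lit 228) (nat_lit 0) (XT.lf (nat_lit 0) (nat_lit 9921351621) (nat_lit 228) (nat_lit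 8146394) (nat_lit 76) (nat_lit 1363213555) (nat_lit 65) (nat_lit 5) (nat_lit 68) (nat_lit 5) (nat_lit 66) (nat_lit 4) (nat_lit 422) (nat_lit 400) (nat_lit 378)) (XT.lf (nat_lit 0) (nat_lit 2140824270) (nat_lit 228) (nat_lit 3633319467) (nat_lit 76) (nat_lit 6001824373) (nat_lit 62) (nat_lit 5) (nat_lit 65) (nat_lit 5) (nat_lit 63) (nat_lit 5) (nat_lit 423) (nat_lit 400) (nat_lit 377))) (XT.nd (nat_lit 78) (nat_lit 76) (nat_lit 0) (XT.lf (nat_lit 0) (nat_lit 4683154983) (nat_lit 152) (nat_lit 1185410865) (nat_lit 228) (nat_lit 6425783319) (nat_lit 60) (nat_lit 5) (nat_lit 62) (nat_lit 5) (nat_lit 63) (nat_lit 5) (nat_lit 424) (nat_lit 400) (nat_lit 376)) (XT.lf (nat_lit 0) (nat_lit 806341454) (nat_lit 76) (nat_lit 9198451623) (nat_lit 152) (nat_lit 2840593090) (nat_lit 59) (nat_lit 5) (nat_lit 60) (nat_lit 5) (nat_lit 61) (nat_lit 4) (nat_lit 425) (nat_lit 400) (nat_lit 375))))) (XT.nd (nat_lit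 312) (nat_lit 532) (nat_lit 0) (XT.nd (nat_lit 156) (nat_lit 76) (nat_lit 0) (XT.nd (nat_lit 78) (nat_lit 152) (nat_lit 0) (XT.lf (nat_lit 0) (nat_lit 1123478124) (nat_lit 152) (nat_lit 3321884451) (nat_lit 76) (nat_lit 8981672018) (nat_lit 58) (nat_lit 5) (nat_lit 60) (nat_lit 5) (nat_lit 59) (nat_lit 5) (nat_lit 426) (nat_lit 400) (nat_lit 374)) (XT.lf (nat_lit 0) (nat_lit 5327321111) (nat_lit 228) (nat_lit 7892852030) (nat_lit 76) (nat_lit 823055642) (nat_lit 56) (nat_lit 5) (nat_lit 59) (nat_lit 5) (nat_lit 57) (nat_lit 4) (nat_lit 427) (nat_lit 400) (nat_lit 373))) (XT.nd (nat_lit 78) (nat_lit 0) (nat_lit 0) (XT.lf (nat_lit 0) (nat_lit 1677378914) (nat_lit 76) (nat_lit 8347708371) (nat_lit 152) (nat_lit 4671026936) (nat_lit 55) (nat_lit 5) (nat_lit 56) (nat_lit 5) (nat_lit 57) (nat_lit 4) (nat_lit 428) (nat_lit 400) (nat_lit 372)) (XT.lf (nat_lit 0) (nat_lit 12309473941) (nat_lit 76)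 (nat_lit 2916728607) (nat_lit 152) (nat_lit 164830327) (nat_lit 55) (nat_lit 5) (nat_lit 56) (nat_lit 5) (nat_lit 57) (nat_lit 4) (nat_lit 429) (nat_lit 400) (nat_lit 371)))) (XT.nd (nat_lit 156) (nat_lit 228) (nat_lit 0) (XT.nd (nat_lit 78) (nat_lit 76) (nat_lit 0) (XT.lf (nat_lit 0) (nat_lit 4647150988) (nat_lit 228) (nat_lit 8420460810) (nat_lit 76) (nat_lit 3050451166) (nat_lit 52) (nat_lit 5) (nat_lit 55) (nat_lit 5) (nat_lit 53) (nat_lit 4) (nat_lit 430) (nat_lit 400) (nat_lit 370)) (XT.lf (nat_lit 0) (nat_lit 2514303714) (nat_lit 76) (nat_lit 7461018289) (nat_lit 152) (nat_lit 6916383704) (nat_lit 51) (nat_lit 5) (nat_lit 52) (nat_lit 5) (nat_lit 53) (nat_lit 4) (nat_lit 431) (nat_lit 400) (nat_lit 369))) (XT.nd (nat_lit 78) (nat_lit 228) (nat_lit 0) (XT.lf (nat_lit 0) (nat_lit 14659376809) (nat_lit 76) (nat_lit 1220730686) (nat_lit 152) (nat_lit 1835106895) (nat_lit 51) (nat_lit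 5) (nat_lit 52) (nat_lit 5) (nat_lit 53) (nat_lit 4) (nat_lit 432) (nat_lit 400) (nat_lit 368)) (XT.lf (nat_lit 0) (nat_lit 3760004810) (nat_lit 228) (nat_lit 9306956844) (nat_lit 76) (nat_lit 5507412931) (nat_lit 48) (nat_lit 5) (nat_lit 51) (nat_lit 5) (nat_lit 49) (nat_lit 4) (nat_lit 433) (nat_lit 400) (nat_lit 367))))))))
noncomputable def xc93 : XT := (XT.nd (nat_lit 2184) (nat_lit 1368) (nat_lit 0) (XT.nd (nat_lit 1092) (nat_lit 912) (nat_lit 0) (XT.nd (nat_lit 546) (nat_lit 456) (nat_lit 0) (XT.nd (nat_lit 234) (nat_lit 304) (nat_lit 0) (XT.nd (nat_lit 78) (nat_lit 152) (nat_lit 0) (XT.lf (nat_lit 0) (nat_lit 3195327740) (nat_lit 76) (nat_lit 6627631358) (nat_lit 152) (nat_lit 9665947808) (nat_lit 47) (nat_lit 5) (nat_lit 48) (nat_lit 5) (nat_lit 49) (nat_lit 4) (nat_lit 434) (nat_lit 400) (nat_lit 366)) (XT.nd (nat_lit 78) (nat_lit 152) (nat_lit 0) (XT.lf (nat_lit 0) (nat_lit 16565826016)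 (nat_lit 152) (nat_lit 3382175690) (nat_lit 0) (nat_lit 513012491) (nat_lit 47) (nat_lit 5) (nat_lit 49) (nat_lit 4) (nat_lit 47) (nat_lit 4) (nat_lit 435) (nat_lit 400) (nat_lit 365)) (XT.lf (nat_lit 0) (nat_lit 2593109905) (nat_lit 152) (nat_lit 10745402999) (nat_lit 76) (nat_lit 8138058822) (nat_lit 45) (nat_lit 5) (nat_lit 47) (nat_lit 5) (nat_lit 46) (nat_lit 4) (nat_lit 436) (nat_lit 400) (nat_lit 364)))) (XT.nd (nat_lit 156) (nat_lit 228) (nat_lit 0) (XT.nd (nat_lit 78) (nat_lit 0) (nat_lit 0) (XT.lf (nat_lit 0) (nat_lit 3545080459) (nat_lit 76) (nat_lit 5956852546) (nat_lit 152) (nat_lit 13054396728) (nat_lit 44) (nat_lit 5) (nat_lit 45) (nat_lit 5) (nat_lit 46) (nat_lit 4) (nat_lit 437) (nat_lit 400) (nat_lit 363)) (XT.lf (nat_lit 0) (nat_lit 17245742627) (nat_lit 152) (nat_lit 4294414161) (nat_lit 0) (nat_lit 2159730968) (nat_lit 44) (nat_lit 5) (nat_lit 46) (nat_lit 4) (nat_lit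 44) (nat_lit 4) (nat_lit 438) (nat_lit 400) (nat_lit 362))) (XT.nd (nat_lit 78) (nat_lit 76) (nat_lit 0) (XT.lf (nat_lit 0) (nat_lit 1029074737) (nat_lit 152) (nat_lit 13008938467) (nat_lit 76) (nat_lit 10864528108) (nat_lit 42) (nat_lit 5) (nat_lit 44) (nat_lit 5) (nat_lit 43) (nat_lit 4) (nat_lit 439) (nat_lit 400) (nat_lit 361)) (XT.lf (nat_lit 0) (nat_lit 3303505699) (nat_lit 76) (nat_lit 5596314213) (nat_lit 152) (nat_lit 17277172746) (nat_lit 41) (nat_lit 5) (nat_lit 42) (nat_lit 5) (nat_lit 43) (nat_lit 4) (nat_lit 440) (nat_lit 400) (nat_lit 360))))) (XT.nd (nat_lit 234) (nat_lit 228) (nat_lit 0) (XT.nd (nat_lit 78) (nat_lit 228) (nat_lit 0) (XT.lf (nat_lit 0) (nat_lit 17787919777) (nat_lit 152) (nat_lit 6078469389) (nat_lit 0) (nat_lit 3655996685) (nat_lit 41) (nat_lit 5) (nat_lit 43) (nat_lit 4) (nat_lit 41) (nat_lit 4) (nat_lit 441) (nat_lit 400) (nat_lit 359)) (XT.nd (nat_lit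 78) (nat_lit 152) (nat_lit 0) (XT.lf (nat_lit 0) (nat_lit 12424862852) (nat_lit 76) (nat_lit 15349062942) (nat_lit 76) (nat_lit 1170537295) (nat_lit 40) (nat_lit 4) (nat_lit 41) (nat_lit 5) (nat_lit 41) (nat_lit 4) (nat_lit 442) (nat_lit 400) (nat_lit 358)) (XT.lf (nat_lit 0) (nat_lit 2080975076) (nat_lit 76) (nat_lit 5756838018) (nat_lit 152) (nat_lit 22613877267) (nat_lit 38) (nat_lit 5) (nat_lit 39) (nat_lit 5) (nat_lit 40) (nat_lit 4) (nat_lit 443) (nat_lit 400) (nat_lit 357)))) (XT.nd (nat_lit 156) (nat_lit 152) (nat_lit 0) (XT.nd (nat_lit 78) (nat_lit 76) (nat_lit 0) (XT.lf (nat_lit 0) (nat_lit 18020894730) (nat_lit 152) (nat_lit 9199104127) (nat_lit 0) (nat_lit 4815681451) (nat_lit 38) (nat_lit 5) (nat_lit 40) (nat_lit 4) (nat_lit 38) (nat_lit 4) (nat_lit 444) (nat_lit 400) (nat_lit 356)) (XT.lf (nat_lit 0) (nat_lit 11845575933) (nat_lit 76) (nat_lit 17554868144) (nat_lit 76) (nat_lit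 4315400595) (nat_lit 37) (nat_lit 4) (nat_lit 38) (nat_lit 5) (nat_lit 38) (nat_lit 4) (nat_lit 445) (nat_lit 400) (nat_lit 355))) (XT.nd (nat_lit 78) (nat_lit 76) (nat_lit 0) (XT.lf (nat_lit 0) (nat_lit 6057385863) (nat_lit 152) (nat_lit 671821869) (nat_lit 76) (nat_lit 28772915863) (nat_lit 36) (nat_lit 5) (nat_lit 38) (nat_lit 5) (nat_lit 37) (nat_lit 4) (nat_lit 446) (nat_lit 400) (nat_lit 354)) (XT.lf (nat_lit 0) (nat_lit 17671194952) (nat_lit 152) (nat_lit 14343727020) (nat_lit 0) (nat_lit 5355869045) (nat_lit 35) (nat_lit 5) (nat_lit 37) (nat_lit 4) (nat_lit 35) (nat_lit 4) (nat_lit 447) (nat_lit 400) (nat_lit 353)))))) (XT.nd (nat_lit 546) (nat_lit 456) (nat_lit 0) (XT.nd (nat_lit 234) (nat_lit 228) (nat_lit 0) (XT.nd (nat_lit 78) (nat_lit 152) (nat_lit 0) (XT.lf (nat_lit 0) (nat_lit 9474929146) (nat_lit 76) (nat_lit 21112337281) (nat_lit 76) (nat_lit 8771833464) (nat_lit 34) (nat_lit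 4) (nat_lit 35) (nat_lit 5) (nat_lit 35) (nat_lit 4) (nat_lit 448) (nat_lit 400) (nat_lit 352)) (XT.nd (nat_lit 78) (nat_lit 76) (nat_lit 0) (XT.lf (nat_lit 0) (nat_lit 3232694258) (nat_lit 152) (nat_lit 5639812641) (nat_lit 76) (nat_lit 32599807180) (nat_lit 33) (nat_lit 5) (nat_lit 35) (nat_lit 5) (nat_lit 34) (nat_lit 4) (nat_lit 449) (nat_lit 400) (nat_lit 351)) (XT.lf (nat_lit 0) (nat_lit 16313758544) (nat_lit 152) (nat_lit 22529600625) (nat_lit 0) (nat_lit 4845793083) (nat_lit 32) (nat_lit 5) (nat_lit 34) (nat_lit 4) (nat_lit 32) (nat_lit 4) (nat_lit 450) (nat_lit 400) (nat_lit 350)))) (XT.nd (nat_lit 156) (nat_lit 152) (nat_lit 0) (XT.nd (nat_lit 78) (nat_lit 0) (nat_lit 0) (XT.lf (nat_lit 0) (nat_lit 4240795444) (nat_lit 76) (nat_lit 26646661303) (nat_lit 76) (nat_lit 15160189326) (nat_lit 31) (nat_lit 4) (nat_lit 32) (nat_lit 5) (nat_lit 32) (nat_lit 4) (nat_lit 451) (nat_lit 400)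 (nat_lit 349)) (XT.lf (nat_lit 0) (nat_lit 34346875917) (nat_lit 76) (nat_lit 12852868062) (nat_lit 76) (nat_lit 1349260422) (nat_lit 31) (nat_lit 4) (nat_lit 32) (nat_lit 5) (nat_lit 32) (nat_lit 4) (nat_lit 452) (nat_lit 400) (nat_lit 348))) (XT.nd (nat_lit 78) (nat_lit 0) (nat_lit 0) (XT.lf (nat_lit 0) (nat_lit 13298238484) (nat_lit 152) (nat_lit 35261244463) (nat_lit 0) (nat_lit 2632058860) (nat_lit 29) (nat_lit 5) (nat_lit 31) (nat_lit 4) (nat_lit 29) (nat_lit 4) (nat_lit 453) (nat_lit 400) (nat_lit 347)) (XT.lf (nat_lit 0) (nat_lit 29735862491) (nat_lit 152) (nat_lit 5195438770) (nat_lit 0) (nat_lit 19056080025) (nat_lit 29) (nat_lit 5) (nat_lit 31) (nat_lit 4) (nat_lit 29) (nat_lit 4) (nat_lit 454) (nat_lit 400) (nat_lit 346))))) (XT.nd (nat_lit 234) (nat_lit 228) (nat_lit 0) (XT.nd (nat_lit 78) (nat_lit 152) (nat_lit 0) (XT.lf (nat_lit 0) (nat_lit 28630966536) (nat_lit 76) (nat_lit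 19508125868) (nat_lit 76) (nat_lit 8815748177) (nat_lit 28) (nat_lit 4) (nat_lit 29) (nat_lit 5) (nat_lit 29) (nat_lit 4) (nat_lit 455) (nat_lit 400) (nat_lit 345)) (XT.nd (nat_lit 78) (nat_lit 0) (nat_lit 0) (XT.lf (nat_lit 0) (nat_lit 5306522531) (nat_lit 76) (nat_lit 2390863269) (nat_lit 152) (nat_lit 52428363510) (nat_lit 26) (nat_lit 5) (nat_lit 27) (nat_lit 5) (nat_lit 28) (nat_lit 4) (nat_lit 456) (nat_lit 400) (nat_lit 344)) (XT.lf (nat_lit 0) (nat_lit 26199095402) (nat_lit 152) (nat_lit 20963464002) (nat_lit 0) (nat_lit 16277948819) (nat_lit 26) (nat_lit 5) (nat_lit 28) (nat_lit 4) (nat_lit 26) (nat_lit 4) (nat_lit 457) (nat_lit 400) (nat_lit 343)))) (XT.nd (nat_lit 156) (nat_lit 152) (nat_lit 0) (XT.nd (nat_lit 78) (nat_lit 0) (nat_lit 0) (XT.lf (nat_lit 0) (nat_lit 16281805570) (nat_lit 76) (nat_lit 30317777822) (nat_lit 76) (nat_lit 20387373374) (nat_lit 25) (nat_lit 4) (nat_lit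 26) (nat_lit 5) (nat_lit 26) (nat_lit 4) (nat_lit 458) (nat_lit 400) (nat_lit 342)) (XT.lf (nat_lit 0) (nat_lit 57629377713) (nat_lit 76) (nat_lit 11541797535) (nat_lit 76) (nat_lit 1602820990) (nat_lit 25) (nat_lit 4) (nat_lit 26) (nat_lit 5) (nat_lit 26) (nat_lit 4) (nat_lit 459) (nat_lit 400) (nat_lit 341))) (XT.nd (nat_lit 78) (nat_lit 0) (nat_lit 0) (XT.lf (nat_lit 0) (nat_lit 18637222539) (nat_lit 152) (nat_lit 46692718142) (nat_lit 0) (nat_lit 9427117287) (nat_lit 23) (nat_lit 5) (nat_lit 25) (nat_lit 4) (nat_lit 23) (nat_lit 4) (nat_lit 460) (nat_lit 400) (nat_lit 340)) (XT.lf (nat_lit 0) (nat_lit 41046048724) (nat_lit 152) (nat_lit 6129353042) (nat_lit 0) (nat_lit 31829138664) (nat_lit 23) (nat_lit 5) (nat_lit 25) (nat_lit 4) (nat_lit 23) (nat_lit 4) (nat_lit 461) (nat_lit 400) (nat_lit 339))))))) (XT.nd (nat_lit 1092) (nat_lit 608) (nat_lit 0) (XT.nd (nat_lit 546) (nat_lit 304)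 (nat_lit 0) (XT.nd (nat_lit 234) (nat_lit 228) (nat_lit 0) (XT.nd (nat_lit 78) (nat_lit 152) (nat_lit 0) (XT.lf (nat_lit 0) (nat_lit 39598722059) (nat_lit 76) (nat_lit 26571259194) (nat_lit 76) (nat_lit 17348048386) (nat_lit 22) (nat_lit 4) (nat_lit 23) (nat_lit 5) (nat_lit 23) (nat_lit 4) (nat_lit 462) (nat_lit 400) (nat_lit 338)) (XT.nd (nat_lit 78) (nat_lit 0) (nat_lit 0) (XT.lf (nat_lit 0) (nat_lit 811276077) (nat_lit 76) (nat_lit 4015801283) (nat_lit 152) (nat_lit 83543149425) (nat_lit 20) (nat_lit 5) (nat_lit 21) (nat_lit 5) (nat_lit 22) (nat_lit 4) (nat_lit 463) (nat_lit 400) (nat_lit 337)) (XT.lf (nat_lit 0) (nat_lit 29530386083) (nat_lit 152) (nat_lit 42928879946) (nat_lit 0) (nat_lit 20979972463) (nat_lit 20) (nat_lit 5) (nat_lit 22) (nat_lit 4) (nat_lit 20) (nat_lit 4) (nat_lit 464) (nat_lit 400) (nat_lit 336)))) (XT.nd (nat_lit 156) (nat_lit 152) (nat_lit 0) (XT.nd (nat_lit 78)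 (nat_lit 0) (nat_lit 0) (XT.lf (nat_lit 0) (nat_lit 5379624518) (nat_lit 76) (nat_lit 51036354998) (nat_lit 76) (nat_lit 42481310141) (nat_lit 19) (nat_lit 4) (nat_lit 20) (nat_lit 5) (nat_lit 20) (nat_lit 4) (nat_lit 465) (nat_lit 400) (nat_lit 335)) (XT.lf (nat_lit 0) (nat_lit 59938874111) (nat_lit 76) (nat_lit 26660349840) (nat_lit 76) (nat_lit 18101016800) (nat_lit 19) (nat_lit 4) (nat_lit 20) (nat_lit 5) (nat_lit 20) (nat_lit 4) (nat_lit 466) (nat_lit 400) (nat_lit 334))) (XT.nd (nat_lit 78) (nat_lit 0) (nat_lit 0) (XT.lf (nat_lit 0) (nat_lit 7987439134) (nat_lit 152) (nat_lit 102892146833) (nat_lit 0) (nat_lit 58454338) (nat_lit 17) (nat_lit 5) (nat_lit 19) (nat_lit 4) (nat_lit 17) (nat_lit 4) (nat_lit 467) (nat_lit 400) (nat_lit 333)) (XT.lf (nat_lit 0) (nat_lit 37107597058) (nat_lit 152) (nat_lit 51200642145) (nat_lit 0) (nat_lit 29175208164) (nat_lit 17) (nat_lit 5) (nat_lit 19)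 (nat_lit 4) (nat_lit 17) (nat_lit 4) (nat_lit 468) (nat_lit 400) (nat_lit 332))))) (XT.nd (nat_lit 234) (nat_lit 152) (nat_lit 0) (XT.nd (nat_lit 78) (nat_lit 76) (nat_lit 0) (XT.lf (nat_lit 0) (nat_lit 4818503261) (nat_lit 76) (nat_lit 63831073943) (nat_lit 76) (nat_lit 55895533106) (nat_lit 16) (nat_lit 4) (nat_lit 17) (nat_lit 5) (nat_lit 17) (nat_lit 4) (nat_lit 469) (nat_lit 400) (nat_lit 331)) (XT.nd (nat_lit 78) (nat_lit 76) (nat_lit 0) (XT.lf (nat_lit 0) (nat_lit 68183518918) (nat_lit 76) (nat_lit 35908249278) (nat_lit 76) (nat_lit 27969789976) (nat_lit 16) (nat_lit 4) (nat_lit 17) (nat_lit 5) (nat_lit 17) (nat_lit 4) (nat_lit 470) (nat_lit 400) (nat_lit 330)) (XT.lf (nat_lit 0) (nat_lit 2058549125) (nat_lit 152) (nat_lit 3659379403) (nat_lit 76) (nat_lit 134458932629) (nat_lit 15) (nat_lit 5) (nat_lit 17) (nat_lit 5) (nat_lit 16) (nat_lit 4) (nat_lit 471) (nat_lit 400) (nat_lit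 329)))) (XT.nd (nat_lit 156) (nat_lit 76) (nat_lit 0) (XT.nd (nat_lit 78) (nat_lit 0) (nat_lit 0) (XT.lf (nat_lit 0) (nat_lit 35197020616) (nat_lit 152) (nat_lit 85666955497) (nat_lit 0) (nat_lit 27841776451) (nat_lit 14) (nat_lit 5) (nat_lit 16) (nat_lit 4) (nat_lit 14) (nat_lit 4) (nat_lit 472) (nat_lit 400) (nat_lit 328)) (XT.lf (nat_lit 0) (nat_lit 71217472255) (nat_lit 152) (nat_lit 22820927963) (nat_lit 0) (nat_lit 63860082931) (nat_lit 14) (nat_lit 5) (nat_lit 16) (nat_lit 4) (nat_lit 14) (nat_lit 4) (nat_lit 473) (nat_lit 400) (nat_lit 327))) (XT.nd (nat_lit 78) (nat_lit 0) (nat_lit 0) (XT.lf (nat_lit 0) (nat_lit 47384439287) (nat_lit 76) (nat_lit 63855951051) (nat_lit 76) (nat_lit 56496575468) (nat_lit 13) (nat_lit 4) (nat_lit 14) (nat_lit 5) (nat_lit 14) (nat_lit 4) (nat_lit 474) (nat_lit 400) (nat_lit 326)) (XT.lf (nat_lit 0) (nat_lit 124466358114) (nat_lit 76) (nat_lit 30604464626)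 (nat_lit 76) (nat_lit 23243249915) (nat_lit 13) (nat_lit 4) (nat_lit 14) (nat_lit 5) (nat_lit 14) (nat_lit 4) (nat_lit 475) (nat_lit 400) (nat_lit 325)))))) (XT.nd (nat_lit 546) (nat_lit 228) (nat_lit 0) (XT.nd (nat_lit 234) (nat_lit 228) (nat_lit 0) (XT.nd (nat_lit 78) (nat_lit 0) (nat_lit 0) (XT.lf (nat_lit 0) (nat_lit 12612359816) (nat_lit 152) (nat_lit 171259699809) (nat_lit 0) (nat_lit 5794843513) (nat_lit 11) (nat_lit 5) (nat_lit 13) (nat_lit 4) (nat_lit 11) (nat_lit 4) (nat_lit 476) (nat_lit 400) (nat_lit 324)) (XT.nd (nat_lit 78) (nat_lit 0) (nat_lit 0) (XT.lf (nat_lit 0) (nat_lit 52368777530) (nat_lit 152) (nat_lit 103778035767) (nat_lit 0) (nat_lit 45549801268) (nat_lit 11) (nat_lit 5) (nat_lit 13) (nat_lit 4) (nat_lit 11) (nat_lit 4) (nat_lit 477) (nat_lit 400) (nat_lit 323)) (XT.lf (nat_lit 0) (nat_lit 95289638261) (nat_lit 152) (nat_lit 30931040126) (nat_lit 0) (nat_lit 88469310184)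 (nat_lit 11) (nat_lit 5) (nat_lit 13) (nat_lit 4) (nat_lit 11) (nat_lit 4) (nat_lit 478) (nat_lit 400) (nat_lit 322)))) (XT.nd (nat_lit 156) (nat_lit 152) (nat_lit 0) (XT.nd (nat_lit 78) (nat_lit 0) (nat_lit 0) (XT.lf (nat_lit 0) (nat_lit 50225453614) (nat_lit 76) (nat_lit 92611757602) (nat_lit 76) (nat_lit 85790177846) (nat_lit 10) (nat_lit 4) (nat_lit 11) (nat_lit 5) (nat_lit 11) (nat_lit 4) (nat_lit 479) (nat_lit 400) (nat_lit 321)) (XT.lf (nat_lit 0) (nat_lit 139603578644) (nat_lit 76) (nat_lit 55416222408) (nat_lit 76) (nat_lit 48593483690) (nat_lit 10) (nat_lit 4) (nat_lit 11) (nat_lit 5) (nat_lit 11) (nat_lit 4) (nat_lit 480) (nat_lit 400) (nat_lit 320))) (XT.nd (nat_lit 78) (nat_lit 152) (nat_lit 0) (XT.lf (nat_lit 0) (nat_lit 236104209350) (nat_lit 76) (nat_lit 15259364271) (nat_lit 76) (nat_lit 8435552439) (nat_lit 10) (nat_lit 4) (nat_lit 11) (nat_lit 5) (nat_lit 11) (nat_lit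 4) (nat_lit 481) (nat_lit 400) (nat_lit 319)) (XT.lf (nat_lit 0) (nat_lit 35487238678) (nat_lit 152) (nat_lit 212373421333) (nat_lit 0) (nat_lit 29167974366) (nat_lit 8) (nat_lit 5) (nat_lit 10) (nat_lit 4) (nat_lit 8) (nat_lit 4) (nat_lit 482) (nat_lit 400) (nat_lit 318))))) (XT.nd (nat_lit 312) (nat_lit 152) (nat_lit 0) (XT.nd (nat_lit 156) (nat_lit 76) (nat_lit 0) (XT.nd (nat_lit 78) (nat_lit 0) (nat_lit 0) (XT.lf (nat_lit 0) (nat_lit 83516404569) (nat_lit 152) (nat_lit 134822418773) (nat_lit 0) (nat_lit 77196288386) (nat_lit 8) (nat_lit 5) (nat_lit 10) (nat_lit 4) (nat_lit 8) (nat_lit 4) (nat_lit 483) (nat_lit 400) (nat_lit 317)) (XT.lf (nat_lit 0) (nat_lit 135376102552) (nat_lit 152) (nat_lit 51091751233) (nat_lit 0) (nat_lit 129055197598) (nat_lit 8) (nat_lit 5) (nat_lit 10) (nat_lit 4) (nat_lit 8) (nat_lit 4) (nat_lit 484) (nat_lit 400) (nat_lit 316))) (XT.nd (nat_lit 78) (nat_lit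 0) (nat_lit 0) (XT.lf (nat_lit 0) (nat_lit 41385008769) (nat_lit 76) (nat_lit 150983951041) (nat_lit 76) (nat_lit 144662315744) (nat_lit 7) (nat_lit 4) (nat_lit 8) (nat_lit 5) (nat_lit 8) (nat_lit 4) (nat_lit 485) (nat_lit 400) (nat_lit 315)) (XT.lf (nat_lit 0) (nat_lit 144143508367) (nat_lit 76) (nat_lit 111164028766) (nat_lit 76) (nat_lit 104841717226) (nat_lit 7) (nat_lit 4) (nat_lit 8) (nat_lit 5) (nat_lit 8) (nat_lit 4) (nat_lit 486) (nat_lit 400) (nat_lit 314)))) (XT.nd (nat_lit 156) (nat_lit 152) (nat_lit 0) (XT.nd (nat_lit 78) (nat_lit 0) (nat_lit 0) (XT.lf (nat_lit 0) (nat_lit 255102285741) (nat_lit 76) (nat_lit 68169056071) (nat_lit 76) (nat_lit 61846118379) (nat_lit 7) (nat_lit 4) (nat_lit 8) (nat_lit 5) (nat_lit 8) (nat_lit 4) (nat_lit 487) (nat_lit 400) (nat_lit 313)) (XT.lf (nat_lit 0) (nat_lit 374918874385) (nat_lit 76) (nat_lit 21744247933) (nat_lit 76) (nat_lit 15420730471)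 (nat_lit 7) (nat_lit 4) (nat_lit 8) (nat_lit 5) (nat_lit 8) (nat_lit 4) (nat_lit 488) (nat_lit 400) (nat_lit 312))) (XT.nd (nat_lit 78) (nat_lit 0) (nat_lit 0) (XT.lf (nat_lit 0) (nat_lit 35294752110) (nat_lit 152) (nat_lit 376221832941) (nat_lit 0) (nat_lit 29439146290) (nat_lit 5) (nat_lit 5) (nat_lit 7) (nat_lit 4) (nat_lit 5) (nat_lit 4) (nat_lit 489) (nat_lit 400) (nat_lit 311)) (XT.lf (nat_lit 0) (nat_lit 90833021243) (nat_lit 152) (nat_lit 296167447252) (nat_lit 0) (nat_lit 84976955183) (nat_lit 5) (nat_lit 5) (nat_lit 7) (nat_lit 4) (nat_lit 5) (nat_lit 4) (nat_lit 490) (nat_lit 400) (nat_lit 310))))))))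
noncomputable def xc94 : XT := (XT.nd (nat_lit 2184) (nat_lit 0) (nat_lit 0) (XT.nd (nat_lit 1092) (nat_lit 76) (nat_lit 0) (XT.nd (nat_lit 546) (nat_lit 152) (nat_lit 0) (XT.nd (nat_lit 234) (nat_lit 76) (nat_lit 0) (XT.nd (nat_lit 78) (nat_lit 0) (nat_lit 0) (XT.lf (nat_lit 0) (nat_lit 150806326189) (nat_lit 152) (nat_lit 209725333303) (nat_lit 0) (nat_lit 144949833980) (nat_lit 5) (nat_lit 5) (nat_lit 7) (nat_lit 4) (nat_lit 5) (nat_lit 4) (nat_lit 491) (nat_lit 400) (nat_lit 309)) (XT.nd (nat_lit 78) (nat_lit 0) (nat_lit 0) (XT.lf (nat_lit 0) (nat_lit 215570064308) (nat_lit 152) (nat_lit 116383241530) (nat_lit 0) (nat_lit 209713177518) (nat_lit 5) (nat_lit 5) (nat_lit 7) (nat_lit 4) (nat_lit 5) (nat_lit 4) (nat_lit 492) (nat_lit 400) (nat_lit 308)) (XT.lf (nat_lit 0) (nat_lit 285508020718) (nat_lit 152) (nat_lit 15588033612) (nat_lit 0) (nat_lit 279650768574) (nat_lit 5) (nat_lit 5)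 (nat_lit 7) (nat_lit 4) (nat_lit 5) (nat_lit 4) (nat_lit 493) (nat_lit 400) (nat_lit 307)))) (XT.nd (nat_lit 156) (nat_lit 0) (nat_lit 0) (XT.nd (nat_lit 78) (nat_lit 0) (nat_lit 0) (XT.lf (nat_lit 0) (nat_lit 98168375095) (nat_lit 76) (nat_lit 265227219253) (nat_lit 76) (nat_lit 259369628819) (nat_lit 4) (nat_lit 4) (nat_lit 5) (nat_lit 5) (nat_lit 5) (nat_lit 4) (nat_lit 494) (nat_lit 400) (nat_lit 306)) (XT.lf (nat_lit 0) (nat_lit 221898940295) (nat_lit 76) (nat_lit 226035229574) (nat_lit 76) (nat_lit 220177325909) (nat_lit 4) (nat_lit 4) (nat_lit 5) (nat_lit 5) (nat_lit 5) (nat_lit 4) (nat_lit 495) (nat_lit 400) (nat_lit 305))) (XT.nd (nat_lit 78) (nat_lit 0) (nat_lit 0) (XT.lf (nat_lit 0) (nat_lit 355516041926) (nat_lit 76) (nat_lit 183714040930) (nat_lit 76) (nat_lit 177855847236) (nat_lit 4) (nat_lit 4) (nat_lit 5) (nat_lit 5) (nat_lit 5) (nat_lit 4) (nat_lit 496) (nat_lit 400) (nat_lit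 304)) (XT.lf (nat_lit 0) (nat_lit 499811485037) (nat_lit 76) (nat_lit 138012861092) (nat_lit 76) (nat_lit 132154398851) (nat_lit 4) (nat_lit 4) (nat_lit 5) (nat_lit 5) (nat_lit 5) (nat_lit 4) (nat_lit 497) (nat_lit 400) (nat_lit 303))))) (XT.nd (nat_lit 234) (nat_lit 0) (nat_lit 0) (XT.nd (nat_lit 78) (nat_lit 152) (nat_lit 0) (XT.lf (nat_lit 0) (nat_lit 655640353732) (nat_lit 76) (nat_lit 88660868252) (nat_lit 76) (nat_lit 82802157359) (nat_lit 4) (nat_lit 4) (nat_lit 5) (nat_lit 5) (nat_lit 5) (nat_lit 4) (nat_lit 498) (nat_lit 400) (nat_lit 302)) (XT.nd (nat_lit 78) (nat_lit 152) (nat_lit 0) (XT.lf (nat_lit 0) (nat_lit 823926078346) (nat_lit 76) (nat_lit 35365606158) (nat_lit 76) (nat_lit 29506665029) (nat_lit 4) (nat_lit 4) (nat_lit 5) (nat_lit 5) (nat_lit 5) (nat_lit 4) (nat_lit 499) (nat_lit 400) (nat_lit 301)) (XT.lf (nat_lit 0) (nat_lit 28483321614) (nat_lit 152) (nat_lit 903686711761)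 (nat_lit 0) (nat_lit 23058178736) (nat_lit 2) (nat_lit 5) (nat_lit 4) (nat_lit 4) (nat_lit 2) (nat_lit 4) (nat_lit 500) (nat_lit 400) (nat_lit 300)))) (XT.nd (nat_lit 156) (nat_lit 0) (nat_lit 0) (XT.nd (nat_lit 78) (nat_lit 0) (nat_lit 0) (XT.lf (nat_lit 0) (nat_lit 92252428140) (nat_lit 152) (nat_lit 847612896734) (nat_lit 0) (nat_lit 86827102494) (nat_lit 2) (nat_lit 5) (nat_lit 4) (nat_lit 4) (nat_lit 2) (nat_lit 4) (nat_lit 501) (nat_lit 400) (nat_lit 299)) (XT.lf (nat_lit 0) (nat_lit 161119050699) (nat_lit 152) (nat_lit 787061494326) (nat_lit 0) (nat_lit 155693555823) (nat_lit 2) (nat_lit 5) (nat_lit 4) (nat_lit 4) (nat_lit 2) (nat_lit 4) (nat_lit 502) (nat_lit 400) (nat_lit 298))) (XT.nd (nat_lit 78) (nat_lit 0) (nat_lit 0) (XT.lf (nat_lit 0) (nat_lit 235491287796) (nat_lit 152) (nat_lit 721673681410) (nat_lit 0) (nat_lit 230065636227) (nat_lit 2) (nat_lit 5) (nat_lit 4) (nat_lit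 4) (nat_lit 2) (nat_lit 4) (nat_lit 503) (nat_lit 400) (nat_lit 297)) (XT.lf (nat_lit 0) (nat_lit 315809863799) (nat_lit 152) (nat_lit 651061974651) (nat_lit 0) (nat_lit 310384067143) (nat_lit 2) (nat_lit 5) (nat_lit 4) (nat_lit 4) (nat_lit 2) (nat_lit 4) (nat_lit 504) (nat_lit 400) (nat_lit 296)))))) (XT.nd (nat_lit 546) (nat_lit 0) (nat_lit 0) (XT.nd (nat_lit 234) (nat_lit 76) (nat_lit 0) (XT.nd (nat_lit 78) (nat_lit 0) (nat_lit 0) (XT.lf (nat_lit 0) (nat_lit 402550740640) (nat_lit 152) (nat_lit 574807934304) (nat_lit 0) (nat_lit 397124809644) (nat_lit 2) (nat_lit 5) (nat_lit 4) (nat_lit 4) (nat_lit 2) (nat_lit 4) (nat_lit 505) (nat_lit 400) (nat_lit 295)) (XT.nd (nat_lit 78) (nat_lit 0) (nat_lit 0) (XT.lf (nat_lit 0) (nat_lit 496227938329) (nat_lit 152) (nat_lit 492459684576) (nat_lit 0) (nat_lit 490801882945) (nat_lit 2) (nat_lit 5) (nat_lit 4) (nat_lit 4) (nat_lit 2) (nat_lit 4) (nat_lit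 506) (nat_lit 400) (nat_lit 294)) (XT.lf (nat_lit 0) (nat_lit 597396581002) (nat_lit 152) (nat_lit 403529235838) (nat_lit 0) (nat_lit 591970410443) (nat_lit 2) (nat_lit 5) (nat_lit 4) (nat_lit 4) (nat_lit 2) (nat_lit 4) (nat_lit 507) (nat_lit 400) (nat_lit 293)))) (XT.nd (nat_lit 156) (nat_lit 76) (nat_lit 0) (XT.nd (nat_lit 78) (nat_lit 0) (nat_lit 0) (XT.lf (nat_lit 0) (nat_lit 706656186541) (nat_lit 152) (nat_lit 307489592839) (nat_lit 0) (nat_lit 701229909339) (nat_lit 2) (nat_lit 5) (nat_lit 4) (nat_lit 4) (nat_lit 2) (nat_lit 4) (nat_lit 508) (nat_lit 400) (nat_lit 292)) (XT.lf (nat_lit 0) (nat_lit 824654219274) (nat_lit 152) (nat_lit 203771631767) (nat_lit 0) (nat_lit 819227843328) (nat_lit 2) (nat_lit 5) (nat_lit 4) (nat_lit 4) (nat_lit 2) (nat_lit 4) (nat_lit 509) (nat_lit 400) (nat_lit 291))) (XT.nd (nat_lit 78) (nat_lit 76) (nat_lit 0) (XT.lf (nat_lit 0) (nat_lit 952089926804)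 (nat_lit 152) (nat_lit 91760727669) (nat_lit 0) (nat_lit 946663459429) (nat_lit 2) (nat_lit 5) (nat_lit 4) (nat_lit 4) (nat_lit 2) (nat_lit 4) (nat_lit 510) (nat_lit 400) (nat_lit 290)) (XT.lf (nat_lit 0) (nat_lit 30744870725) (nat_lit 76) (nat_lit 1059713027847) (nat_lit 76) (nat_lit 1054286475815) (nat_lit 1) (nat_lit 4) (nat_lit 2) (nat_lit 5) (nat_lit 2) (nat_lit 4) (nat_lit 511) (nat_lit 400) (nat_lit 289))))) (XT.nd (nat_lit 234) (nat_lit 0) (nat_lit 0) (XT.nd (nat_lit 78) (nat_lit 0) (nat_lit 0) (XT.lf (nat_lit 0) (nat_lit 168265375243) (nat_lit 76) (nat_lit 1074136877652) (nat_lit 76) (nat_lit 1068710247235) (nat_lit 1) (nat_lit 4) (nat_lit 2) (nat_lit 5) (nat_lit 2) (nat_lit 4) (nat_lit 512) (nat_lit 400) (nat_lit 288)) (XT.nd (nat_lit 78) (nat_lit 0) (nat_lit 0) (XT.lf (nat_lit 0) (nat_lit 316783764900) (nat_lit 76) (nat_lit 1089716579463) (nat_lit 76) (nat_lit 1084289876466) (nat_lit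 1) (nat_lit 4) (nat_lit 2) (nat_lit 5) (nat_lit 2) (nat_lit 4) (nat_lit 513) (nat_lit 400) (nat_lit 287)) (XT.lf (nat_lit 0) (nat_lit 477180148673) (nat_lit 76) (nat_lit 1106544457439) (nat_lit 76) (nat_lit 1101117687238) (nat_lit 1) (nat_lit 4) (nat_lit 2) (nat_lit 5) (nat_lit 2) (nat_lit 4) (nat_lit 514) (nat_lit 400) (nat_lit 286)))) (XT.nd (nat_lit 156) (nat_lit 0) (nat_lit 0) (XT.nd (nat_lit 78) (nat_lit 0) (nat_lit 0) (XT.lf (nat_lit 0) (nat_lit 650405023650) (nat_lit 76) (nat_lit 1124720232337) (nat_lit 76) (nat_lit 1119293399911) (nat_lit 1) (nat_lit 4) (nat_lit 2) (nat_lit 5) (nat_lit 2) (nat_lit 4) (nat_lit 515) (nat_lit 400) (nat_lit 285)) (XT.lf (nat_lit 0) (nat_lit 837484907609) (nat_lit 76) (nat_lit 1144351612454) (nat_lit 76) (nat_lit 1138924722412) (nat_lit 1) (nat_lit 4) (nat_lit 2) (nat_lit 5) (nat_lit 2) (nat_lit 4) (nat_lit 516) (nat_lit 400) (nat_lit 284))) (XT.nd (nat_lit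 78) (nat_lit 0) (nat_lit 0) (XT.lf (nat_lit 0) (nat_lit 1039528422084) (nat_lit 76) (nat_lit 1165554931894) (nat_lit 76) (nat_lit 1160127988504) (nat_lit 1) (nat_lit 4) (nat_lit 2) (nat_lit 5) (nat_lit 2) (nat_lit 4) (nat_lit 517) (nat_lit 400) (nat_lit 283)) (XT.lf (nat_lit 0) (nat_lit 1257732861977) (nat_lit 76) (nat_lit 1188455839958) (nat_lit 76) (nat_lit 1183028847171) (nat_lit 1) (nat_lit 4) (nat_lit 2) (nat_lit 5) (nat_lit 2) (nat_lit 4) (nat_lit 518) (nat_lit 400) (nat_lit 282))))))) (XT.nd (nat_lit 1092) (nat_lit 0) (nat_lit 0) (XT.nd (nat_lit 546) (nat_lit 0) (nat_lit 0) (XT.nd (nat_lit 234) (nat_lit 0) (nat_lit 0) (XT.nd (nat_lit 78) (nat_lit 0) (nat_lit 0) (XT.lf (nat_lit 0) (nat_lit 1493391290634) (nat_lit 76) (nat_lit 1213190045730) (nat_lit 76) (nat_lit 1207763007206) (nat_lit 1) (nat_lit 4) (nat_lit 2) (nat_lit 5) (nat_lit 2) (nat_lit 4) (nat_lit 519) (nat_lit 400) (nat_lit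 281)) (XT.nd (nat_lit 78) (nat_lit 0) (nat_lit 0) (XT.lf (nat_lit 0) (nat_lit 1747900202448) (nat_lit 76) (nat_lit 1239904122281) (nat_lit 76) (nat_lit 1234477041407) (nat_lit 1) (nat_lit 4) (nat_lit 2) (nat_lit 5) (nat_lit 2) (nat_lit 4) (nat_lit 520) (nat_lit 400) (nat_lit 280)) (XT.lf (nat_lit 0) (nat_lit 2022767798378) (nat_lit 76) (nat_lit 1268756375250) (nat_lit 76) (nat_lit 1263329255164) (nat_lit 1) (nat_lit 4) (nat_lit 2) (nat_lit 5) (nat_lit 2) (nat_lit 4) (nat_lit 521) (nat_lit 400) (nat_lit 279)))) (XT.nd (nat_lit 156) (nat_lit 0) (nat_lit 0) (XT.nd (nat_lit 78) (nat_lit 0) (nat_lit 0) (XT.lf (nat_lit 0) (nat_lit 2319622923436) (nat_lit 76) (nat_lit 1299917780952) (nat_lit 76) (nat_lit 1294490624558) (nat_lit 1) (nat_lit 4) (nat_lit 2) (nat_lit 5) (nat_lit 2) (nat_lit 4) (nat_lit 522) (nat_lit 400) (nat_lit 278)) (XT.lf (nat_lit 0) (nat_lit 2640224719105) (nat_lit 76) (nat_lit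 1333572999568) (nat_lit 76) (nat_lit 1328145809556) (nat_lit 1) (nat_lit 4) (nat_lit 2) (nat_lit 5) (nat_lit 2) (nat_lit 4) (nat_lit 523) (nat_lit 400) (nat_lit 277))) (XT.nd (nat_lit 78) (nat_lit 0) (nat_lit 0) (XT.lf (nat_lit 0) (nat_lit 2986473047876) (nat_lit 76) (nat_lit 1369921469430) (nat_lit 76) (nat_lit 1364494248290) (nat_lit 1) (nat_lit 4) (nat_lit 2) (nat_lit 5) (nat_lit 2) (nat_lit 4) (nat_lit 524) (nat_lit 400) (nat_lit 276)) (XT.lf (nat_lit 0) (nat_lit 3360419751700) (nat_lit 76) (nat_lit 1409178588880) (nat_lit 76) (nat_lit 1403751338917) (nat_lit 1) (nat_lit 4) (nat_lit 2) (nat_lit 5) (nat_lit 2) (nat_lit 4) (nat_lit 525) (nat_lit 400) (nat_lit 275))))) (XT.nd (nat_lit 234) (nat_lit 0) (nat_lit 0) (XT.nd (nat_lit 78) (nat_lit 0) (nat_lit 0) (XT.lf (nat_lit 0) (nat_lit 3764280811042) (nat_lit 76) (nat_lit 1451576992697) (nat_lit 76) (nat_lit 1446149716047) (nat_lit 1) (nat_lit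 4) (nat_lit 2) (nat_lit 5) (nat_lit 2) (nat_lit 4) (nat_lit 526) (nat_lit 400) (nat_lit 274)) (XT.nd (nat_lit 78) (nat_lit 0) (nat_lit 0) (XT.lf (nat_lit 0) (nat_lit 4200449476624) (nat_lit 76) (nat_lit 1497367930684) (nat_lit 76) (nat_lit 1491940629323) (nat_lit 1) (nat_lit 4) (nat_lit 2) (nat_lit 5) (nat_lit 2) (nat_lit 4) (nat_lit 527) (nat_lit 400) (nat_lit 273)) (XT.lf (nat_lit 0) (nat_lit 4671510451651) (nat_lit 76) (nat_lit 1546822756546) (nat_lit 76) (nat_lit 1541395432305) (nat_lit 1) (nat_lit 4) (nat_lit 2) (nat_lit 5) (nat_lit 2) (nat_lit 4) (nat_lit 528) (nat_lit 400) (nat_lit 272)))) (XT.nd (nat_lit 156) (nat_lit 0) (nat_lit 0) (XT.nd (nat_lit 78) (nat_lit 0) (nat_lit 0) (XT.lf (nat_lit 0) (nat_lit 5180255208566) (nat_lit 76) (nat_lit 1600234535918) (nat_lit 76) (nat_lit 1594807190492) (nat_lit 1) (nat_lit 4) (nat_lit 2) (nat_lit 5) (nat_lit 2) (nat_lit 4) (nat_lit 529) (nat_lit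 400) (nat_lit 271)) (XT.lf (nat_lit 0) (nat_lit 5729698531115) (nat_lit 76) (nat_lit 1657919783049) (nat_lit 76) (nat_lit 1652492418007) (nat_lit 1) (nat_lit 4) (nat_lit 2) (nat_lit 5) (nat_lit 2) (nat_lit 4) (nat_lit 530) (nat_lit 400) (nat_lit 270))) (XT.nd (nat_lit 78) (nat_lit 0) (nat_lit 0) (XT.lf (nat_lit 0) (nat_lit 6323096379727) (nat_lit 76) (nat_lit 1720220336439) (nat_lit 76) (nat_lit 1714792953235) (nat_lit 1) (nat_lit 4) (nat_lit 2) (nat_lit 5) (nat_lit 2) (nat_lit 4) (nat_lit 531) (nat_lit 400) (nat_lit 269)) (XT.lf (nat_lit 0) (nat_lit 6963965186097) (nat_lit 76) (nat_lit 1787505384555) (nat_lit 76) (nat_lit 1782077984532) (nat_lit 1) (nat_lit 4) (nat_lit 2) (nat_lit 5) (nat_lit 2) (nat_lit 4) (nat_lit 532) (nat_lit 400) (nat_lit 268)))))) (XT.nd (nat_lit 546) (nat_lit 0) (nat_lit 0) (XT.nd (nat_lit 234) (nat_lit 0) (nat_lit 0) (XT.nd (nat_lit 78) (nat_lit 0) (nat_lit 0) (XT.lf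 (nat_lit 0) (nat_lit 7656102691302) (nat_lit 76) (nat_lit 1860173653605) (nat_lit 76) (nat_lit 1854746238011) (nat_lit 1) (nat_lit 4) (nat_lit 2) (nat_lit 5) (nat_lit 2) (nat_lit 4) (nat_lit 533) (nat_lit 400) (nat_lit 267)) (XT.nd (nat_lit 78) (nat_lit 0) (nat_lit 0) (XT.lf (nat_lit 0) (nat_lit 8403610450926) (nat_lit 76) (nat_lit 1938655770371) (nat_lit 76) (nat_lit 1933228340358) (nat_lit 1) (nat_lit 4) (nat_lit 2) (nat_lit 5) (nat_lit 2) (nat_lit 4) (nat_lit 534) (nat_lit 400) (nat_lit 266)) (XT.lf (nat_lit 0) (nat_lit 9210918140582) (nat_lit 76) (nat_lit 2023416814062) (nat_lit 76) (nat_lit 2017989370699) (nat_lit 1) (nat_lit 4) (nat_lit 2) (nat_lit 5) (nat_lit 2) (nat_lit 4) (nat_lit 535) (nat_lit 400) (nat_lit 265)))) (XT.nd (nat_lit 156) (nat_lit 0) (nat_lit 0) (XT.nd (nat_lit 78) (nat_lit 0) (nat_lit 0) (XT.lf (nat_lit 0) (nat_lit 10082809805840) (nat_lit 76) (nat_lit 2114959072345)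 (nat_lit 76) (nat_lit 2109531616620) (nat_lit 1) (nat_lit 4) (nat_lit 2) (nat_lit 5) (nat_lit 2) (nat_lit 4) (nat_lit 536) (nat_lit 400) (nat_lit 264)) (XT.lf (nat_lit 0) (nat_lit 11024452212122) (nat_lit 76) (nat_lit 2213825017861) (nat_lit 76) (nat_lit 2208397550691) (nat_lit 1) (nat_lit 4) (nat_lit 2) (nat_lit 5) (nat_lit 2) (nat_lit 4) (nat_lit 537) (nat_lit 400) (nat_lit 263))) (XT.nd (nat_lit 78) (nat_lit 0) (nat_lit 0) (XT.lf (nat_lit 0) (nat_lit 12041425462577) (nat_lit 76) (nat_lit 2320600522881) (nat_lit 76) (nat_lit 2315173045113) (nat_lit 1) (nat_lit 4) (nat_lit 2) (nat_lit 5) (nat_lit 2) (nat_lit 4) (nat_lit 538) (nat_lit 400) (nat_lit 262)) (XT.lf (nat_lit 0) (nat_lit 13139756065356) (nat_lit 76) (nat_lit 2435918331137) (nat_lit 76) (nat_lit 2430490843556) (nat_lit 1) (nat_lit 4) (nat_lit 2) (nat_lit 5) (nat_lit 2) (nat_lit 4) (nat_lit 539) (nat_lit 400) (nat_lit 261))))) (XT.nd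 (nat_lit 312) (nat_lit 0) (nat_lit 0) (XT.nd (nat_lit 156) (nat_lit 0) (nat_lit 0) (XT.nd (nat_lit 78) (nat_lit 0) (nat_lit 0) (XT.lf (nat_lit 0) (nat_lit 14325952646253) (nat_lit 76) (nat_lit 2560461807419) (nat_lit 76) (nat_lit 2555034310753) (nat_lit 1) (nat_lit 4) (nat_lit 2) (nat_lit 5) (nat_lit 2) (nat_lit 4) (nat_lit 540) (nat_lit 400) (nat_lit 260)) (XT.lf (nat_lit 0) (nat_lit 15607044518340) (nat_lit 76) (nat_lit 2694968987143) (nat_lit 76) (nat_lit 2689541482064) (nat_lit 1) (nat_lit 4) (nat_lit 2) (nat_lit 5) (nat_lit 2) (nat_lit 4) (nat_lit 541) (nat_lit 400) (nat_lit 259))) (XT.nd (nat_lit 78) (nat_lit 0) (nat_lit 0) (XT.lf (nat_lit 0) (nat_lit 16990623337156) (nat_lit 76) (nat_lit 2840236949892) (nat_lit 76) (nat_lit 2834809437023) (nat_lit 1) (nat_lit 4) (nat_lit 2) (nat_lit 5) (nat_lit 2) (nat_lit 4) (nat_lit 542) (nat_lit 400) (nat_lit 258)) (XT.lf (nat_lit 0) (nat_lit 18484888088292)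 (nat_lit 76) (nat_lit 2997126542853) (nat_lit 76) (nat_lit 2991699022770) (nat_lit 1) (nat_lit 4) (nat_lit 2) (nat_lit 5) (nat_lit 2) (nat_lit 4) (nat_lit 543) (nat_lit 400) (nat_lit 257)))) (XT.nd (nat_lit 51402) (nat_lit 0) (nat_lit 8512) (XT.nd (nat_lit 51324) (nat_lit 0) (nat_lit 8740) (XT.lf (nat_lit 0) (nat_lit 20098693673979) (nat_lit 76) (nat_lit 3166567482131) (nat_lit 76) (nat_lit 3161139955370) (nat_lit 1) (nat_lit 4) (nat_lit 2) (nat_lit 5) (nat_lit 2) (nat_lit 4) (nat_lit 544) (nat_lit 400) (nat_lit 256)) (XT.lf (nat_lit 0) (nat_lit 1527486845) (nat_lit 0) (nat_lit 1527486845) (nat_lit 76) (nat_lit 178834681) (nat_lit 116) (nat_lit 5) (nat_lit 116) (nat_lit 3) (nat_lit 117) (nat_lit 0) (nat_lit 401) (nat_lit 401) (nat_lit 398))) (XT.nd (nat_lit 78) (nat_lit 0) (nat_lit 0) (XT.lf (nat_lit 0) (nat_lit 2400626770) (nat_lit 228) (nat_lit 179770818) (nat_lit 228) (nat_lit 3925736496)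 (nat_lit 113) (nat_lit 3) (nat_lit 116) (nat_lit 3) (nat_lit 116) (nat_lit 5) (nat_lit 402) (nat_lit 401) (nat_lit 397)) (XT.lf (nat_lit 76) (nat_lit 3319688912) (nat_lit 0) (nat_lit 1844880861) (nat_lit 228) (nat_lit 1398133667) (nat_lit 114) (nat_lit 5) (nat_lit 113) (nat_lit 3) (nat_lit 116) (nat_lit 5) (nat_lit 403) (nat_lit 401) (nat_lit 396))))))))
noncomputable def xc95 : XT := (XT.nd (nat_lit 2184) (nat_lit 2052) (nat_lit 0) (XT.nd (nat_lit 1092) (nat_lit 1596) (nat_lit 0) (XT.nd (nat_lit 546) (nat_lit 1824) (nat_lit 0) (XT.nd (nat_lit 234) (nat_lit 836) (nat_lit 0) (XT.nd (nat_lit 78) (nat_lit 152) (nat_lit 0) (XT.lf (nat_lit 76) (nat_lit 305299014) (nat_lit 0) (nat_lit 891208899) (nat_lit 304) (nat_lit 5444644275) (nat_lit 111) (nat_lit 5) (nat_lit 110) (nat_lit 5) (nat_lit 114) (nat_lit 5) (nat_lit 404) (nat_lit 401) (nat_lit 395)) (XT.nd (nat_lit 78) (nat_lit 228) (nat_lit 0)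 (XT.lf (nat_lit 0) (nat_lit 3770315400) (nat_lit 228) (nat_lit 2616146870) (nat_lit 76) (nat_lit 348785279) (nat_lit 111) (nat_lit 5) (nat_lit 114) (nat_lit 5) (nat_lit 112) (nat_lit 5) (nat_lit 405) (nat_lit 401) (nat_lit 394)) (XT.lf (nat_lit 0) (nat_lit 1277720142) (nat_lit 228) (nat_lit 5097314579) (nat_lit 304) (nat_lit 475878142) (nat_lit 108) (nat_lit 5) (nat_lit 111) (nat_lit 5) (nat_lit 112) (nat_lit 5) (nat_lit 406) (nat_lit 401) (nat_lit 393)))) (XT.nd (nat_lit 156) (nat_lit 456) (nat_lit 0) (XT.nd (nat_lit 78) (nat_lit 304) (nat_lit 0) (XT.lf (nat_lit 0) (nat_lit 1953612382) (nat_lit 304) (nat_lit 1565017085) (nat_lit 76) (nat_lit 3464823813) (nat_lit 107) (nat_lit 5) (nat_lit 111) (nat_lit 5) (nat_lit 108) (nat_lit 5) (nat_lit 407) (nat_lit 401) (nat_lit 392)) (XT.lf (nat_lit 0) (nat_lit 2728962750) (nat_lit 304) (nat_lit 1683414197) (nat_lit 380) (nat_lit 2724415237) (nat_lit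 103) (nat_lit 5) (nat_lit 107) (nat_lit 5) (nat_lit 108) (nat_lit 5) (nat_lit 408) (nat_lit 401) (nat_lit 391))) (XT.nd (nat_lit 78) (nat_lit 456) (nat_lit 0) (XT.lf (nat_lit 0) (nat_lit 6926305309) (nat_lit 380) (nat_lit 23224105) (nat_lit 76) (nat_lit 364223310) (nat_lit 103) (nat_lit 5) (nat_lit 108) (nat_lit 5) (nat_lit 104) (nat_lit 5) (nat_lit 409) (nat_lit 401) (nat_lit 390)) (XT.lf (nat_lit 0) (nat_lit 2008585441) (nat_lit 456) (nat_lit 2810211672) (nat_lit 76) (nat_lit 2683670812) (nat_lit 97) (nat_lit 5) (nat_lit 103) (nat_lit 5) (nat_lit 98) (nat_lit 5) (nat_lit 410) (nat_lit 401) (nat_lit 389))))) (XT.nd (nat_lit 234) (nat_lit 760) (nat_lit 0) (XT.nd (nat_lit 78) (nat_lit 608) (nat_lit 0) (XT.lf (nat_lit 0) (nat_lit 2006505773) (nat_lit 456) (nat_lit 2444497165) (nat_lit 532) (nat_lit 3264446612) (nat_lit 91) (nat_lit 5) (nat_lit 97) (nat_lit 5) (nat_lit 98) (nat_lit 5) (nat_lit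 411) (nat_lit 401) (nat_lit 388)) (XT.nd (nat_lit 78) (nat_lit 608) (nat_lit 0) (XT.lf (nat_lit 0) (nat_lit 7006356071) (nat_lit 532) (nat_lit 748799953) (nat_lit 76) (nat_lit 196933483) (nat_lit 91) (nat_lit 5) (nat_lit 98) (nat_lit 5) (nat_lit 92) (nat_lit 5) (nat_lit 412) (nat_lit 401) (nat_lit 387)) (XT.lf (nat_lit 0) (nat_lit 1503563495) (nat_lit 608) (nat_lit 3628574532) (nat_lit 76) (nat_lit 3070700150) (nat_lit 83) (nat_lit 5) (nat_lit 91) (nat_lit 5) (nat_lit 84) (nat_lit 5) (nat_lit 413) (nat_lit 401) (nat_lit 386)))) (XT.nd (nat_lit 156) (nat_lit 532) (nat_lit 0) (XT.nd (nat_lit 78) (nat_lit 0) (nat_lit 0) (XT.lf (nat_lit 0) (nat_lit 1794479910) (nat_lit 228) (nat_lit 2219116982) (nat_lit 304) (nat_lit 4464832138) (nat_lit 80) (nat_lit 5) (nat_lit 83) (nat_lit 5) (nat_lit 84) (nat_lit 5) (nat_lit 414) (nat_lit 401) (nat_lit 385)) (XT.lf (nat_lit 0) (nat_lit 6706930747) (nat_lit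 304) (nat_lit 1105909473) (nat_lit 76) (nat_lit 964644146) (nat_lit 80) (nat_lit 5) (nat_lit 84) (nat_lit 5) (nat_lit 81) (nat_lit 5) (nat_lit 415) (nat_lit 401) (nat_lit 384))) (XT.nd (nat_lit 78) (nat_lit 228) (nat_lit 0) (XT.lf (nat_lit 0) (nat_lit 536260440) (nat_lit 304) (nat_lit 4160044580) (nat_lit 76) (nat_lit 4399440819) (nat_lit 76) (nat_lit 5) (nat_lit 80) (nat_lit 5) (nat_lit 77) (nat_lit 5) (nat_lit 416) (nat_lit 401) (nat_lit 383)) (XT.lf (nat_lit 0) (nat_lit 1969670844) (nat_lit 228) (nat_lit 1220126475) (nat_lit 304) (nat_lit 6249378676) (nat_lit 73) (nat_lit 5) (nat_lit 76) (nat_lit 5) (nat_lit 77) (nat_lit 5) (nat_lit 417) (nat_lit 401) (nat_lit 382)))))) (XT.nd (nat_lit 546) (nat_lit 760) (nat_lit 0) (XT.nd (nat_lit 234) (nat_lit 380) (nat_lit 0) (XT.nd (nat_lit 78) (nat_lit 456) (nat_lit 0) (XT.lf (nat_lit 0) (nat_lit 6109827308) (nat_lit 304) (nat_lit 1204243804) (nat_lit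 76) (nat_lit 2491685162) (nat_lit 73) (nat_lit 5) (nat_lit 77) (nat_lit 5) (nat_lit 74) (nat_lit 5) (nat_lit 418) (nat_lit 401) (nat_lit 381)) (XT.nd (nat_lit 78) (nat_lit 228) (nat_lit 0) (XT.lf (nat_lit 0) (nat_lit 5660259905) (nat_lit 228) (nat_lit 3656730517) (nat_lit 304) (nat_lit 880401691) (nat_lit 70) (nat_lit 5) (nat_lit 73) (nat_lit 5) (nat_lit 74) (nat_lit 5) (nat_lit 419) (nat_lit 401) (nat_lit 380)) (XT.lf (nat_lit 0) (nat_lit 2042211100) (nat_lit 228) (nat_lit 8189185409) (nat_lit 76) (nat_lit 385622606) (nat_lit 67) (nat_lit 5) (nat_lit 70) (nat_lit 5) (nat_lit 68) (nat_lit 5) (nat_lit 420) (nat_lit 401) (nat_lit 379)))) (XT.nd (nat_lit 156) (nat_lit 228) (nat_lit 0) (XT.nd (nat_lit 78) (nat_lit 152) (nat_lit 0) (XT.lf (nat_lit 0) (nat_lit 5264665821) (nat_lit 228) (nat_lit 1132432409) (nat_lit 76) (nat_lit 4662210046) (nat_lit 67) (nat_lit 5) (nat_lit 70) (nat_lit 5) (nat_lit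 68) (nat_lit 5) (nat_lit 421) (nat_lit 401) (nat_lit 378)) (XT.lf (nat_lit 0) (nat_lit 6675482280) (nat_lit 152) (nat_lit 2129370939) (nat_lit 228) (nat_lit 2727340972) (nat_lit 65) (nat_lit 5) (nat_lit 67) (nat_lit 5) (nat_lit 68) (nat_lit 5) (nat_lit 422) (nat_lit 401) (nat_lit 377))) (XT.nd (nat_lit 78) (nat_lit 0) (nat_lit 0) (XT.lf (nat_lit 0) (nat_lit 625436897) (nat_lit 228) (nat_lit 8978143805) (nat_lit 76) (nat_lit 2432661491) (nat_lit 62) (nat_lit 5) (nat_lit 65) (nat_lit 5) (nat_lit 63) (nat_lit 5) (nat_lit 423) (nat_lit 401) (nat_lit 376)) (XT.lf (nat_lit 0) (nat_lit 4194169017) (nat_lit 228) (nat_lit 968764296) (nat_lit 76) (nat_lit 7404413946) (nat_lit 62) (nat_lit 5) (nat_lit 65) (nat_lit 5) (nat_lit 63) (nat_lit 5) (nat_lit 424) (nat_lit 401) (nat_lit 375))))) (XT.nd (nat_lit 234) (nat_lit 456) (nat_lit 0) (XT.nd (nat_lit 78) (nat_lit 152) (nat_lit 0) (XT.lf (nat_lit 0) (nat_lit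 7938212395) (nat_lit 152) (nat_lit 211778091) (nat_lit 228) (nat_lit 4982829247) (nat_lit 60) (nat_lit 5) (nat_lit 62) (nat_lit 5) (nat_lit 63) (nat_lit 5) (nat_lit 425) (nat_lit 401) (nat_lit 374)) (XT.nd (nat_lit 78) (nat_lit 76) (nat_lit 0) (XT.lf (nat_lit 0) (nat_lit 3794690584) (nat_lit 76) (nat_lit 8782319215) (nat_lit 152) (nat_lit 1154147435) (nat_lit 59) (nat_lit 5) (nat_lit 60) (nat_lit 5) (nat_lit 61) (nat_lit 4) (nat_lit 426) (nat_lit 401) (nat_lit 373)) (XT.lf (nat_lit 0) (nat_lit 2896654914) (nat_lit 152) (nat_lit 791637731) (nat_lit 76) (nat_lit 10678143813) (nat_lit 58) (nat_lit 5) (nat_lit 60) (nat_lit 5) (nat_lit 59) (nat_lit 5) (nat_lit 427) (nat_lit 401) (nat_lit 372)))) (XT.nd (nat_lit 156) (nat_lit 228) (nat_lit 0) (XT.nd (nat_lit 78) (nat_lit 76) (nat_lit 0) (XT.lf (nat_lit 0) (nat_lit 7404138547) (nat_lit 228) (nat_lit 5695526089) (nat_lit 76) (nat_lit 1934882076)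 (nat_lit 56) (nat_lit 5) (nat_lit 59) (nat_lit 5) (nat_lit 57) (nat_lit 4) (nat_lit 428) (nat_lit 401) (nat_lit 371)) (XT.lf (nat_lit 0) (nat_lit 4568709302) (nat_lit 76) (nat_lit 7853056979) (nat_lit 152) (nat_lit 3322380137) (nat_lit 55) (nat_lit 5) (nat_lit 56) (nat_lit 5) (nat_lit 57) (nat_lit 4) (nat_lit 429) (nat_lit 401) (nat_lit 370))) (XT.nd (nat_lit 78) (nat_lit 152) (nat_lit 0) (XT.lf (nat_lit 0) (nat_lit 1345861591) (nat_lit 152) (nat_lit 691047746) (nat_lit 76) (nat_lit 14464479501) (nat_lit 54) (nat_lit 5) (nat_lit 56) (nat_lit 5) (nat_lit 55) (nat_lit 5) (nat_lit 430) (nat_lit 401) (nat_lit 369)) (XT.lf (nat_lit 0) (nat_lit 6509885226) (nat_lit 228) (nat_lit 6437265981) (nat_lit 76) (nat_lit 4341013791) (nat_lit 52) (nat_lit 5) (nat_lit 55) (nat_lit 5) (nat_lit 53) (nat_lit 4) (nat_lit 431) (nat_lit 401) (nat_lit 368))))))) (XT.nd (nat_lit 1092) (nat_lit 988) (nat_lit 0) (XT.nd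 (nat_lit 546) (nat_lit 456) (nat_lit 0) (XT.nd (nat_lit 234) (nat_lit 304) (nat_lit 0) (XT.nd (nat_lit 78) (nat_lit 228) (nat_lit 0) (XT.lf (nat_lit 0) (nat_lit 5305018143) (nat_lit 76) (nat_lit 6911129362) (nat_lit 152) (nat_lit 5911409540) (nat_lit 51) (nat_lit 5) (nat_lit 52) (nat_lit 5) (nat_lit 53) (nat_lit 4) (nat_lit 432) (nat_lit 401) (nat_lit 367)) (XT.nd (nat_lit 78) (nat_lit 228) (nat_lit 0) (XT.lf (nat_lit 0) (nat_lit 18229877076) (nat_lit 76) (nat_lit 256564705) (nat_lit 152) (nat_lit 539059094) (nat_lit 51) (nat_lit 5) (nat_lit 52) (nat_lit 5) (nat_lit 53) (nat_lit 4) (nat_lit 433) (nat_lit 401) (nat_lit 366)) (XT.lf (nat_lit 0) (nat_lit 5413835177) (nat_lit 228) (nat_lit 7563835948) (nat_lit 76) (nat_lit 6974362494) (nat_lit 48) (nat_lit 5) (nat_lit 51) (nat_lit 5) (nat_lit 49) (nat_lit 4) (nat_lit 434) (nat_lit 401) (nat_lit 365)))) (XT.nd (nat_lit 156) (nat_lit 228) (nat_lit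 0) (XT.nd (nat_lit 78) (nat_lit 0) (nat_lit 0) (XT.lf (nat_lit 0) (nat_lit 5875652227) (nat_lit 76) (nat_lit 6044263189) (nat_lit 152) (nat_lit 9023169536) (nat_lit 47) (nat_lit 5) (nat_lit 48) (nat_lit 5) (nat_lit 49) (nat_lit 4) (nat_lit 435) (nat_lit 401) (nat_lit 364)) (XT.lf (nat_lit 0) (nat_lit 19129889491) (nat_lit 152) (nat_lit 1335294949) (nat_lit 0) (nat_lit 1533565492) (nat_lit 47) (nat_lit 5) (nat_lit 49) (nat_lit 4) (nat_lit 47) (nat_lit 4) (nat_lit 436) (nat_lit 401) (nat_lit 363))) (XT.nd (nat_lit 78) (nat_lit 76) (nat_lit 0) (XT.lf (nat_lit 0) (nat_lit 4033157872) (nat_lit 152) (nat_lit 9281308021) (nat_lit 76) (nat_lit 9781587962) (nat_lit 45) (nat_lit 5) (nat_lit 47) (nat_lit 5) (nat_lit 46) (nat_lit 4) (nat_lit 437) (nat_lit 401) (nat_lit 362)) (XT.lf (nat_lit 0) (nat_lit 6093585577) (nat_lit 76) (nat_lit 5364268469) (nat_lit 152) (nat_lit 12807287722) (nat_lit 44) (nat_lit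 5) (nat_lit 45) (nat_lit 5) (nat_lit 46) (nat_lit 4) (nat_lit 438) (nat_lit 401) (nat_lit 361))))) (XT.nd (nat_lit 234) (nat_lit 228) (nat_lit 0) (XT.nd (nat_lit 78) (nat_lit 228) (nat_lit 0) (XT.lf (nat_lit 0) (nat_lit 19756401164) (nat_lit 152) (nat_lit 2476041028) (nat_lit 0) (nat_lit 3272926069) (nat_lit 44) (nat_lit 5) (nat_lit 46) (nat_lit 4) (nat_lit 44) (nat_lit 4) (nat_lit 439) (nat_lit 401) (nat_lit 360)) (XT.nd (nat_lit 78) (nat_lit 76) (nat_lit 0) (XT.lf (nat_lit 0) (nat_lit 2237843967) (nat_lit 152) (nat_lit 11883116862) (nat_lit 76) (nat_lit 12683642106) (nat_lit 42) (nat_lit 5) (nat_lit 44) (nat_lit 5) (nat_lit 43) (nat_lit 4) (nat_lit 440) (nat_lit 401) (nat_lit 359)) (XT.lf (nat_lit 0) (nat_lit 5679473808) (nat_lit 76) (nat_lit 5026120847) (nat_lit 152) (nat_lit 17478030005) (nat_lit 41) (nat_lit 5) (nat_lit 42) (nat_lit 5) (nat_lit 43) (nat_lit 4) (nat_lit 441) (nat_lit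 401) (nat_lit 358)))) (XT.nd (nat_lit 156) (nat_lit 152) (nat_lit 0) (XT.nd (nat_lit 78) (nat_lit 76) (nat_lit 0) (XT.lf (nat_lit 0) (nat_lit 20246388204) (nat_lit 152) (nat_lit 4551103810) (nat_lit 0) (nat_lit 4843827435) (nat_lit 41) (nat_lit 5) (nat_lit 43) (nat_lit 4) (nat_lit 41) (nat_lit 4) (nat_lit 442) (nat_lit 401) (nat_lit 357)) (XT.lf (nat_lit 0) (nat_lit 15381516703) (nat_lit 76) (nat_lit 15620261259) (nat_lit 76) (nat_lit 177746310) (nat_lit 40) (nat_lit 4) (nat_lit 41) (nat_lit 5) (nat_lit 41) (nat_lit 4) (nat_lit 443) (nat_lit 401) (nat_lit 356))) (XT.nd (nat_lit 78) (nat_lit 0) (nat_lit 0) (XT.lf (nat_lit 0) (nat_lit 4213420907) (nat_lit 76) (nat_lit 5254334125) (nat_lit 152) (nat_lit 23339819362) (nat_lit 38) (nat_lit 5) (nat_lit 39) (nat_lit 5) (nat_lit 40) (nat_lit 4) (nat_lit 444) (nat_lit 401) (nat_lit 355)) (XT.lf (nat_lit 0) (nat_lit 20412638797) (nat_lit 152) (nat_lit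 8061830954) (nat_lit 0) (nat_lit 6048042659) (nat_lit 38) (nat_lit 5) (nat_lit 40) (nat_lit 4) (nat_lit 38) (nat_lit 4) (nat_lit 445) (nat_lit 401) (nat_lit 354)))))) (XT.nd (nat_lit 546) (nat_lit 456) (nat_lit 0) (XT.nd (nat_lit 234) (nat_lit 304) (nat_lit 0) (XT.nd (nat_lit 78) (nat_lit 152) (nat_lit 0) (XT.lf (nat_lit 0) (nat_lit 14619000688) (nat_lit 76) (nat_lit 18057085684) (nat_lit 76) (nat_lit 3663122031) (nat_lit 37) (nat_lit 4) (nat_lit 38) (nat_lit 5) (nat_lit 38) (nat_lit 4) (nat_lit 446) (nat_lit 401) (nat_lit 353)) (XT.nd (nat_lit 78) (nat_lit 0) (nat_lit 0) (XT.lf (nat_lit 0) (nat_lit 1064431761) (nat_lit 76) (nat_lit 6380562257) (nat_lit 152) (nat_lit 30825044965) (nat_lit 35) (nat_lit 5) (nat_lit 36) (nat_lit 5) (nat_lit 37) (nat_lit 4) (nat_lit 447) (nat_lit 401) (nat_lit 352)) (XT.lf (nat_lit 0) (nat_lit 19958219380) (nat_lit 152) (nat_lit 13750371999) (nat_lit 0) (nat_lit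 6581984466) (nat_lit 35) (nat_lit 5) (nat_lit 37) (nat_lit 4) (nat_lit 35) (nat_lit 4) (nat_lit 448) (nat_lit 401) (nat_lit 351)))) (XT.nd (nat_lit 156) (nat_lit 152) (nat_lit 0) (XT.nd (nat_lit 78) (nat_lit 76) (nat_lit 0) (XT.lf (nat_lit 0) (nat_lit 11929704428) (nat_lit 76) (nat_lit 21953988744) (nat_lit 76) (nat_lit 8556167830) (nat_lit 34) (nat_lit 4) (nat_lit 35) (nat_lit 5) (nat_lit 35) (nat_lit 4) (nat_lit 449) (nat_lit 401) (nat_lit 350)) (XT.lf (nat_lit 0) (nat_lit 4298272420) (nat_lit 152) (nat_lit 4477401317) (nat_lit 76) (nat_lit 35949858817) (nat_lit 33) (nat_lit 5) (nat_lit 35) (nat_lit 5) (nat_lit 34) (nat_lit 4) (nat_lit 450) (nat_lit 401) (nat_lit 349))) (XT.nd (nat_lit 78) (nat_lit 76) (nat_lit 0) (XT.lf (nat_lit 0) (nat_lit 18422816427) (nat_lit 152) (nat_lit 22715357990) (nat_lit 0) (nat_lit 5981784513) (nat_lit 32) (nat_lit 5) (nat_lit 34) (nat_lit 4) (nat_lit 32) (nat_lit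 4) (nat_lit 451) (nat_lit 401) (nat_lit 348)) (XT.lf (nat_lit 0) (nat_lit 6155742912) (nat_lit 76) (nat_lit 27985010422) (nat_lit 76) (nat_lit 15528112154) (nat_lit 31) (nat_lit 4) (nat_lit 32) (nat_lit 5) (nat_lit 32) (nat_lit 4) (nat_lit 452) (nat_lit 401) (nat_lit 347))))) (XT.nd (nat_lit 312) (nat_lit 228) (nat_lit 0) (XT.nd (nat_lit 156) (nat_lit 76) (nat_lit 0) (XT.nd (nat_lit 78) (nat_lit 152) (nat_lit 0) (XT.lf (nat_lit 0) (nat_lit 38553592502) (nat_lit 76) (nat_lit 13146482892) (nat_lit 76) (nat_lit 674893554) (nat_lit 31) (nat_lit 4) (nat_lit 32) (nat_lit 5) (nat_lit 32) (nat_lit 4) (nat_lit 453) (nat_lit 401) (nat_lit 346)) (XT.lf (nat_lit 0) (nat_lit 15103061990) (nat_lit 152) (nat_lit 36581820584) (nat_lit 0) (nat_lit 3542698861) (nat_lit 29) (nat_lit 5) (nat_lit 31) (nat_lit 4) (nat_lit 29) (nat_lit 4) (nat_lit 454) (nat_lit 401) (nat_lit 345))) (XT.nd (nat_lit 78) (nat_lit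 76) (nat_lit 0) (XT.lf (nat_lit 0) (nat_lit 32800809663) (nat_lit 152) (nat_lit 4221885506) (nat_lit 0) (nat_lit 21228784290) (nat_lit 29) (nat_lit 5) (nat_lit 31) (nat_lit 4) (nat_lit 29) (nat_lit 4) (nat_lit 455) (nat_lit 401) (nat_lit 344)) (XT.lf (nat_lit 0) (nat_lit 32275462899) (nat_lit 76) (nat_lit 20382578655) (nat_lit 76) (nat_lit 8799754907) (nat_lit 28) (nat_lit 4) (nat_lit 29) (nat_lit 5) (nat_lit 29) (nat_lit 4) (nat_lit 456) (nat_lit 401) (nat_lit 343)))) (XT.nd (nat_lit 156) (nat_lit 76) (nat_lit 0) (XT.nd (nat_lit 78) (nat_lit 0) (nat_lit 0) (XT.lf (nat_lit 0) (nat_lit 7085956073) (nat_lit 76) (nat_lit 1894225809) (nat_lit 152) (nat_lit 55902262132) (nat_lit 26) (nat_lit 5) (nat_lit 27) (nat_lit 5) (nat_lit 28) (nat_lit 4) (nat_lit 457) (nat_lit 401) (nat_lit 342)) (XT.lf (nat_lit 0) (nat_lit 28927939132) (nat_lit 152) (nat_lit 21351899630) (nat_lit 0) (nat_lit 18185272365)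 (nat_lit 26) (nat_lit 5) (nat_lit 28) (nat_lit 4) (nat_lit 26) (nat_lit 4) (nat_lit 458) (nat_lit 401) (nat_lit 341))) (XT.nd (nat_lit 78) (nat_lit 0) (nat_lit 0) (XT.lf (nat_lit 0) (nat_lit 18840367673) (nat_lit 76) (nat_lit 32103423070) (nat_lit 76) (nat_lit 21352819176) (nat_lit 25) (nat_lit 4) (nat_lit 26) (nat_lit 5) (nat_lit 26) (nat_lit 4) (nat_lit 459) (nat_lit 401) (nat_lit 340)) (XT.lf (nat_lit 0) (nat_lit 63402707242) (nat_lit 76) (nat_lit 11872755247) (nat_lit 76) (nat_lit 1114802161) (nat_lit 25) (nat_lit 4) (nat_lit 26) (nat_lit 5) (nat_lit 26) (nat_lit 4) (nat_lit 460) (nat_lit 401) (nat_lit 339))))))))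
noncomputable def xc96 : XT := (XT.nd (nat_lit 2184) (nat_lit 456) (nat_lit 0) (XT.nd (nat_lit 1092) (nat_lit 532) (nat_lit 0) (XT.nd (nat_lit 546) (nat_lit 380) (nat_lit 0) (XT.nd (nat_lit 234) (nat_lit 228) (nat_lit 0) (XT.nd (nat_lit 78) (nat_lit 76) (nat_lit 0) (XT.lf (nat_lit 0) (nat_lit 20712512716) (nat_lit 152) (nat_lit 49233217320) (nat_lit 0) (nat_lit 10745144296) (nat_lit 23) (nat_lit 5) (nat_lit 25) (nat_lit 4) (nat_lit 23) (nat_lit 4) (nat_lit 461) (nat_lit 401) (nat_lit 338)) (XT.nd (nat_lit 78) (nat_lit 76) (nat_lit 0) (XT.lf (nat_lit 0) (nat_lit 44870762598) (nat_lit 152) (nat_lit 5513295477) (nat_lit 0) (nat_lit 34897560153) (nat_lit 23) (nat_lit 5) (nat_lit 25) (nat_lit 4) (nat_lit 23) (nat_lit 4) (nat_lit 462) (nat_lit 401) (nat_lit 337)) (XT.lf (nat_lit 0) (nat_lit 43845015359) (nat_lit 76) (nat_lit 28145453515) (nat_lit 76) (nat_lit 18166849193) (nat_lit 22) (nat_lit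 4) (nat_lit 23) (nat_lit 5) (nat_lit 23) (nat_lit 4) (nat_lit 463) (nat_lit 401) (nat_lit 336)))) (XT.nd (nat_lit 156) (nat_lit 76) (nat_lit 0) (XT.nd (nat_lit 78) (nat_lit 0) (nat_lit 0) (XT.lf (nat_lit 0) (nat_lit 1955020270) (nat_lit 76) (nat_lit 3784703925) (nat_lit 152) (nat_lit 89657999868) (nat_lit 20) (nat_lit 5) (nat_lit 21) (nat_lit 5) (nat_lit 22) (nat_lit 4) (nat_lit 464) (nat_lit 401) (nat_lit 335)) (XT.lf (nat_lit 0) (nat_lit 32392599333) (nat_lit 152) (nat_lit 45337561948) (nat_lit 0) (nat_lit 23144231467) (nat_lit 20) (nat_lit 5) (nat_lit 22) (nat_lit 4) (nat_lit 20) (nat_lit 4) (nat_lit 465) (nat_lit 401) (nat_lit 334))) (XT.nd (nat_lit 78) (nat_lit 0) (nat_lit 0) (XT.lf (nat_lit 0) (nat_lit 6809657597) (nat_lit 76) (nat_lit 54606403651) (nat_lit 76) (nat_lit 45354065245) (nat_lit 19) (nat_lit 4) (nat_lit 20) (nat_lit 5) (nat_lit 20) (nat_lit 4) (nat_lit 466) (nat_lit 401)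 (nat_lit 333)) (XT.lf (nat_lit 0) (nat_lit 65659598037) (nat_lit 76) (nat_lit 28318307690) (nat_lit 76) (nat_lit 19062292858) (nat_lit 19) (nat_lit 4) (nat_lit 20) (nat_lit 5) (nat_lit 20) (nat_lit 4) (nat_lit 467) (nat_lit 401) (nat_lit 332))))) (XT.nd (nat_lit 234) (nat_lit 152) (nat_lit 0) (XT.nd (nat_lit 78) (nat_lit 76) (nat_lit 0) (XT.lf (nat_lit 0) (nat_lit 9088334759) (nat_lit 152) (nat_lit 110172996376) (nat_lit 0) (nat_lit 514798713) (nat_lit 17) (nat_lit 5) (nat_lit 19) (nat_lit 4) (nat_lit 17) (nat_lit 4) (nat_lit 468) (nat_lit 401) (nat_lit 331)) (XT.nd (nat_lit 78) (nat_lit 76) (nat_lit 0) (XT.lf (nat_lit 0) (nat_lit 40503890466) (nat_lit 152) (nat_lit 54416580365) (nat_lit 0) (nat_lit 31927435954) (nat_lit 17) (nat_lit 5) (nat_lit 19) (nat_lit 4) (nat_lit 17) (nat_lit 4) (nat_lit 469) (nat_lit 401) (nat_lit 330)) (XT.lf (nat_lit 0) (nat_lit 6061815329) (nat_lit 76) (nat_lit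 68496364152) (nat_lit 76) (nat_lit 59917207358) (nat_lit 16) (nat_lit 4) (nat_lit 17) (nat_lit 5) (nat_lit 17) (nat_lit 4) (nat_lit 470) (nat_lit 401) (nat_lit 329)))) (XT.nd (nat_lit 156) (nat_lit 76) (nat_lit 0) (XT.nd (nat_lit 78) (nat_lit 76) (nat_lit 0) (XT.lf (nat_lit 0) (nat_lit 74432489142) (nat_lit 76) (nat_lit 38372394678) (nat_lit 76) (nat_lit 29790735770) (nat_lit 16) (nat_lit 4) (nat_lit 17) (nat_lit 5) (nat_lit 17) (nat_lit 4) (nat_lit 471) (nat_lit 401) (nat_lit 328)) (XT.lf (nat_lit 0) (nat_lit 2589710382) (nat_lit 152) (nat_lit 3197378082) (nat_lit 76) (nat_lit 145574602281) (nat_lit 15) (nat_lit 5) (nat_lit 17) (nat_lit 5) (nat_lit 16) (nat_lit 4) (nat_lit 472) (nat_lit 401) (nat_lit 327))) (XT.nd (nat_lit 78) (nat_lit 0) (nat_lit 0) (XT.lf (nat_lit 0) (nat_lit 38378911224) (nat_lit 152) (nat_lit 91765210859) (nat_lit 0) (nat_lit 30428799336) (nat_lit 14) (nat_lit 5) (nat_lit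 16) (nat_lit 4) (nat_lit 14) (nat_lit 4) (nat_lit 473) (nat_lit 401) (nat_lit 326)) (XT.lf (nat_lit 0) (nat_lit 77253878329) (nat_lit 152) (nat_lit 23947434535) (nat_lit 0) (nat_lit 69301927314) (nat_lit 14) (nat_lit 5) (nat_lit 16) (nat_lit 4) (nat_lit 14) (nat_lit 4) (nat_lit 474) (nat_lit 401) (nat_lit 325)))))) (XT.nd (nat_lit 546) (nat_lit 228) (nat_lit 0) (XT.nd (nat_lit 234) (nat_lit 76) (nat_lit 0) (XT.nd (nat_lit 78) (nat_lit 152) (nat_lit 0) (XT.lf (nat_lit 0) (nat_lit 51856661648) (nat_lit 76) (nat_lit 68613245789) (nat_lit 76) (nat_lit 60659591877) (nat_lit 13) (nat_lit 4) (nat_lit 14) (nat_lit 5) (nat_lit 14) (nat_lit 4) (nat_lit 475) (nat_lit 401) (nat_lit 324)) (XT.nd (nat_lit 78) (nat_lit 152) (nat_lit 0) (XT.lf (nat_lit 0) (nat_lit 135054654928) (nat_lit 76) (nat_lit 32727653884) (nat_lit 76) (nat_lit 24772423215) (nat_lit 13) (nat_lit 4) (nat_lit 14) (nat_lit 5) (nat_lit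 14) (nat_lit 4) (nat_lit 476) (nat_lit 401) (nat_lit 323)) (XT.lf (nat_lit 0) (nat_lit 13934875922) (nat_lit 152) (nat_lit 184312726792) (nat_lit 0) (nat_lit 6567569786) (nat_lit 11) (nat_lit 5) (nat_lit 13) (nat_lit 4) (nat_lit 11) (nat_lit 4) (nat_lit 477) (nat_lit 401) (nat_lit 322)))) (XT.nd (nat_lit 156) (nat_lit 76) (nat_lit 0) (XT.nd (nat_lit 78) (nat_lit 0) (nat_lit 0) (XT.lf (nat_lit 0) (nat_lit 56848582807) (nat_lit 152) (nat_lit 111480511034) (nat_lit 0) (nat_lit 49480024991) (nat_lit 11) (nat_lit 5) (nat_lit 13) (nat_lit 4) (nat_lit 11) (nat_lit 4) (nat_lit 478) (nat_lit 401) (nat_lit 321)) (XT.lf (nat_lit 0) (nat_lit 103181608465) (nat_lit 152) (nat_lit 32850182971) (nat_lit 0) (nat_lit 95811891686) (nat_lit 11) (nat_lit 5) (nat_lit 13) (nat_lit 4) (nat_lit 11) (nat_lit 4) (nat_lit 479) (nat_lit 401) (nat_lit 320))) (XT.nd (nat_lit 78) (nat_lit 0) (nat_lit 0) (XT.lf (nat_lit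 0) (nat_lit 54784771019) (nat_lit 76) (nat_lit 99741323015) (nat_lit 76) (nat_lit 92370533122) (nat_lit 10) (nat_lit 4) (nat_lit 11) (nat_lit 5) (nat_lit 11) (nat_lit 4) (nat_lit 480) (nat_lit 401) (nat_lit 319)) (XT.lf (nat_lit 0) (nat_lit 151273051153) (nat_lit 76) (nat_lit 59590839464) (nat_lit 76) (nat_lit 52219055948) (nat_lit 10) (nat_lit 4) (nat_lit 11) (nat_lit 5) (nat_lit 11) (nat_lit 4) (nat_lit 481) (nat_lit 401) (nat_lit 318))))) (XT.nd (nat_lit 234) (nat_lit 76) (nat_lit 0) (XT.nd (nat_lit 78) (nat_lit 152) (nat_lit 0) (XT.lf (nat_lit 0) (nat_lit 255456607411) (nat_lit 76) (nat_lit 16240594212) (nat_lit 76) (nat_lit 8867890673) (nat_lit 10) (nat_lit 4) (nat_lit 11) (nat_lit 5) (nat_lit 11) (nat_lit 4) (nat_lit 482) (nat_lit 401) (nat_lit 317)) (XT.nd (nat_lit 78) (nat_lit 0) (nat_lit 0) (XT.lf (nat_lit 0) (nat_lit 38556454259) (nat_lit 152) (nat_lit 228886963399) (nat_lit 0)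 (nat_lit 31729088139) (nat_lit 8) (nat_lit 5) (nat_lit 10) (nat_lit 4) (nat_lit 8) (nat_lit 4) (nat_lit 483) (nat_lit 401) (nat_lit 316)) (XT.lf (nat_lit 0) (nat_lit 90410898868) (nat_lit 152) (nat_lit 145167164460) (nat_lit 0) (nat_lit 83582802404) (nat_lit 8) (nat_lit 5) (nat_lit 10) (nat_lit 4) (nat_lit 8) (nat_lit 4) (nat_lit 484) (nat_lit 401) (nat_lit 315)))) (XT.nd (nat_lit 156) (nat_lit 0) (nat_lit 0) (XT.nd (nat_lit 78) (nat_lit 76) (nat_lit 0) (XT.lf (nat_lit 0) (nat_lit 146403581435) (nat_lit 152) (nat_lit 54770713725) (nat_lit 0) (nat_lit 139574808727) (nat_lit 8) (nat_lit 5) (nat_lit 10) (nat_lit 4) (nat_lit 8) (nat_lit 4) (nat_lit 485) (nat_lit 401) (nat_lit 314)) (XT.lf (nat_lit 0) (nat_lit 45093848403) (nat_lit 76) (nat_lit 162856970184) (nat_lit 76) (nat_lit 156027571325) (nat_lit 7) (nat_lit 4) (nat_lit 8) (nat_lit 5) (nat_lit 8) (nat_lit 4) (nat_lit 486) (nat_lit 401)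 (nat_lit 313))) (XT.nd (nat_lit 78) (nat_lit 0) (nat_lit 0) (XT.lf (nat_lit 0) (nat_lit 156043543604) (nat_lit 76) (nat_lit 119866690938) (nat_lit 76) (nat_lit 113036712309) (nat_lit 7) (nat_lit 4) (nat_lit 8) (nat_lit 5) (nat_lit 8) (nat_lit 4) (nat_lit 487) (nat_lit 401) (nat_lit 312)) (XT.lf (nat_lit 0) (nat_lit 275851722829) (nat_lit 76) (nat_lit 73446228585) (nat_lit 76) (nat_lit 66615713132) (nat_lit 7) (nat_lit 4) (nat_lit 8) (nat_lit 5) (nat_lit 8) (nat_lit 4) (nat_lit 488) (nat_lit 401) (nat_lit 311))))))) (XT.nd (nat_lit 1092) (nat_lit 76) (nat_lit 0) (XT.nd (nat_lit 546) (nat_lit 152) (nat_lit 0) (XT.nd (nat_lit 234) (nat_lit 76) (nat_lit 0) (XT.nd (nat_lit 78) (nat_lit 152) (nat_lit 0) (XT.lf (nat_lit 0) (nat_lit 405228360474) (nat_lit 76) (nat_lit 23320498905) (nat_lit 76) (nat_lit 16489486392) (nat_lit 7) (nat_lit 4) (nat_lit 8) (nat_lit 5) (nat_lit 8) (nat_lit 4) (nat_lit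 489) (nat_lit 401) (nat_lit 310)) (XT.nd (nat_lit 78) (nat_lit 0) (nat_lit 0) (XT.lf (nat_lit 0) (nat_lit 38274910962) (nat_lit 152) (nat_lit 405995279142) (nat_lit 0) (nat_lit 31949473228) (nat_lit 5) (nat_lit 5) (nat_lit 7) (nat_lit 4) (nat_lit 5) (nat_lit 4) (nat_lit 490) (nat_lit 401) (nat_lit 309)) (XT.lf (nat_lit 0) (nat_lit 98244643204) (nat_lit 152) (nat_lit 319560564853) (nat_lit 0) (nat_lit 91918810889) (nat_lit 5) (nat_lit 5) (nat_lit 7) (nat_lit 4) (nat_lit 5) (nat_lit 4) (nat_lit 491) (nat_lit 401) (nat_lit 308)))) (XT.nd (nat_lit 156) (nat_lit 76) (nat_lit 0) (XT.nd (nat_lit 78) (nat_lit 0) (nat_lit 0) (XT.lf (nat_lit 0) (nat_lit 163005073266) (nat_lit 152) (nat_lit 226225324616) (nat_lit 0) (nat_lit 156678875598) (nat_lit 5) (nat_lit 5) (nat_lit 7) (nat_lit 4) (nat_lit 5) (nat_lit 4) (nat_lit 492) (nat_lit 401) (nat_lit 307)) (XT.lf (nat_lit 0) (nat_lit 232939966659) (nat_lit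 152) (nat_lit 125436460713) (nat_lit 0) (nat_lit 226613430701) (nat_lit 5) (nat_lit 5) (nat_lit 7) (nat_lit 4) (nat_lit 5) (nat_lit 4) (nat_lit 493) (nat_lit 401) (nat_lit 306))) (XT.nd (nat_lit 78) (nat_lit 76) (nat_lit 0) (XT.lf (nat_lit 0) (nat_lit 308463752381) (nat_lit 152) (nat_lit 16596705800) (nat_lit 0) (nat_lit 302136903191) (nat_lit 5) (nat_lit 5) (nat_lit 7) (nat_lit 4) (nat_lit 5) (nat_lit 4) (nat_lit 494) (nat_lit 401) (nat_lit 305)) (XT.lf (nat_lit 0) (nat_lit 106254180906) (nat_lit 76) (nat_lit 286325213491) (nat_lit 76) (nat_lit 279998074271) (nat_lit 4) (nat_lit 4) (nat_lit 5) (nat_lit 5) (nat_lit 5) (nat_lit 4) (nat_lit 495) (nat_lit 401) (nat_lit 304))))) (XT.nd (nat_lit 234) (nat_lit 152) (nat_lit 0) (XT.nd (nat_lit 78) (nat_lit 0) (nat_lit 0) (XT.lf (nat_lit 0) (nat_lit 239865981263) (nat_lit 76) (nat_lit 244006767105) (nat_lit 76) (nat_lit 237679359340) (nat_lit 4)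 (nat_lit 4) (nat_lit 5) (nat_lit 5) (nat_lit 5) (nat_lit 4) (nat_lit 496) (nat_lit 401) (nat_lit 303)) (XT.nd (nat_lit 78) (nat_lit 0) (nat_lit 0) (XT.lf (nat_lit 0) (nat_lit 384156515785) (nat_lit 76) (nat_lit 198308126395) (nat_lit 76) (nat_lit 191980469976) (nat_lit 4) (nat_lit 4) (nat_lit 5) (nat_lit 5) (nat_lit 5) (nat_lit 4) (nat_lit 497) (nat_lit 401) (nat_lit 302)) (XT.lf (nat_lit 0) (nat_lit 539980839491) (nat_lit 76) (nat_lit 148958484599) (nat_lit 76) (nat_lit 142630597946) (nat_lit 4) (nat_lit 4) (nat_lit 5) (nat_lit 5) (nat_lit 5) (nat_lit 4) (nat_lit 498) (nat_lit 401) (nat_lit 301)))) (XT.nd (nat_lit 156) (nat_lit 152) (nat_lit 0) (XT.nd (nat_lit 78) (nat_lit 0) (nat_lit 0) (XT.lf (nat_lit 0) (nat_lit 708262355783) (nat_lit 76) (nat_lit 95665399398) (nat_lit 76) (nat_lit 89337299564) (nat_lit 4) (nat_lit 4) (nat_lit 5) (nat_lit 5) (nat_lit 5) (nat_lit 4) (nat_lit 499) (nat_lit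 401) (nat_lit 300)) (XT.lf (nat_lit 0) (nat_lit 889998288458) (nat_lit 76) (nat_lit 38113059915) (nat_lit 76) (nat_lit 31784762692) (nat_lit 4) (nat_lit 4) (nat_lit 5) (nat_lit 5) (nat_lit 5) (nat_lit 4) (nat_lit 500) (nat_lit 401) (nat_lit 299))) (XT.nd (nat_lit 78) (nat_lit 0) (nat_lit 0) (XT.lf (nat_lit 0) (nat_lit 30840269443) (nat_lit 152) (nat_lit 975819371233) (nat_lit 0) (nat_lit 24980565748) (nat_lit 2) (nat_lit 5) (nat_lit 4) (nat_lit 4) (nat_lit 2) (nat_lit 4) (nat_lit 501) (nat_lit 401) (nat_lit 298)) (XT.lf (nat_lit 0) (nat_lit 99705105816) (nat_lit 152) (nat_lit 915271671558) (nat_lit 0) (nat_lit 93845245427) (nat_lit 2) (nat_lit 5) (nat_lit 4) (nat_lit 4) (nat_lit 2) (nat_lit 4) (nat_lit 502) (nat_lit 401) (nat_lit 297)))))) (XT.nd (nat_lit 546) (nat_lit 76) (nat_lit 0) (XT.nd (nat_lit 234) (nat_lit 0) (nat_lit 0) (XT.nd (nat_lit 78) (nat_lit 0) (nat_lit 0) (XT.lf (nat_lit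 0) (nat_lit 174075689037) (nat_lit 152) (nat_lit 849887287099) (nat_lit 0) (nat_lit 168215683562) (nat_lit 2) (nat_lit 5) (nat_lit 4) (nat_lit 4) (nat_lit 2) (nat_lit 4) (nat_lit 503) (nat_lit 401) (nat_lit 296)) (XT.nd (nat_lit 78) (nat_lit 0) (nat_lit 0) (XT.lf (nat_lit 0) (nat_lit 254392733674) (nat_lit 152) (nat_lit 779278754836) (nat_lit 0) (nat_lit 248532593859) (nat_lit 2) (nat_lit 5) (nat_lit 4) (nat_lit 4) (nat_lit 2) (nat_lit 4) (nat_lit 504) (nat_lit 401) (nat_lit 295)) (XT.lf (nat_lit 0) (nat_lit 341132192583) (nat_lit 152) (nat_lit 703027653839) (nat_lit 0) (nat_lit 335271928379) (nat_lit 2) (nat_lit 5) (nat_lit 4) (nat_lit 4) (nat_lit 2) (nat_lit 4) (nat_lit 505) (nat_lit 401) (nat_lit 294)))) (XT.nd (nat_lit 156) (nat_lit 0) (nat_lit 0) (XT.nd (nat_lit 78) (nat_lit 0) (nat_lit 0) (XT.lf (nat_lit 0) (nat_lit 434808077372) (nat_lit 152) (nat_lit 620682125730) (nat_lit 0) (nat_lit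 428947697994) (nat_lit 2) (nat_lit 5) (nat_lit 4) (nat_lit 4) (nat_lit 2) (nat_lit 4) (nat_lit 506) (nat_lit 401) (nat_lit 293)) (XT.lf (nat_lit 0) (nat_lit 535975504397) (nat_lit 152) (nat_lit 531754197010) (nat_lit 0) (nat_lit 530115018376) (nat_lit 2) (nat_lit 5) (nat_lit 4) (nat_lit 4) (nat_lit 2) (nat_lit 4) (nat_lit 507) (nat_lit 401) (nat_lit 292))) (XT.nd (nat_lit 78) (nat_lit 0) (nat_lit 0) (XT.lf (nat_lit 0) (nat_lit 645233984335) (nat_lit 152) (nat_lit 435716887361) (nat_lit 0) (nat_lit 639373399570) (nat_lit 2) (nat_lit 5) (nat_lit 4) (nat_lit 4) (nat_lit 2) (nat_lit 4) (nat_lit 508) (nat_lit 401) (nat_lit 291)) (XT.lf (nat_lit 0) (nat_lit 763230974847) (nat_lit 152) (nat_lit 332001086799) (nat_lit 0) (nat_lit 757370298652) (nat_lit 2) (nat_lit 5) (nat_lit 4) (nat_lit 4) (nat_lit 2) (nat_lit 4) (nat_lit 509) (nat_lit 401) (nat_lit 290))))) (XT.nd (nat_lit 234) (nat_lit 0) (nat_lit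 0) (XT.nd (nat_lit 78) (nat_lit 76) (nat_lit 0) (XT.lf (nat_lit 0) (nat_lit 890665717355) (nat_lit 152) (nat_lit 219992183173) (nat_lit 0) (nat_lit 884804956504) (nat_lit 2) (nat_lit 5) (nat_lit 4) (nat_lit 4) (nat_lit 2) (nat_lit 4) (nat_lit 510) (nat_lit 401) (nat_lit 289)) (XT.nd (nat_lit 78) (nat_lit 76) (nat_lit 0) (XT.lf (nat_lit 0) (nat_lit 1028293380707) (nat_lit 152) (nat_lit 99026420016) (nat_lit 0) (nat_lit 1022432541470) (nat_lit 2) (nat_lit 5) (nat_lit 4) (nat_lit 4) (nat_lit 2) (nat_lit 4) (nat_lit 511) (nat_lit 401) (nat_lit 288)) (XT.lf (nat_lit 0) (nat_lit 33277723317) (nat_lit 76) (nat_lit 1144452142968) (nat_lit 76) (nat_lit 1138591231151) (nat_lit 1) (nat_lit 4) (nat_lit 2) (nat_lit 5) (nat_lit 2) (nat_lit 4) (nat_lit 512) (nat_lit 401) (nat_lit 287)))) (XT.nd (nat_lit 156) (nat_lit 0) (nat_lit 0) (XT.nd (nat_lit 78) (nat_lit 0) (nat_lit 0) (XT.lf (nat_lit 0) (nat_lit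 181794441312) (nat_lit 76) (nat_lit 1160032710173) (nat_lit 76) (nat_lit 1154171731153) (nat_lit 1) (nat_lit 4) (nat_lit 2) (nat_lit 5) (nat_lit 2) (nat_lit 4) (nat_lit 513) (nat_lit 401) (nat_lit 286)) (XT.lf (nat_lit 0) (nat_lit 342189277249) (nat_lit 76) (nat_lit 1176861389439) (nat_lit 76) (nat_lit 1171000348194) (nat_lit 1) (nat_lit 4) (nat_lit 2) (nat_lit 5) (nat_lit 2) (nat_lit 4) (nat_lit 514) (nat_lit 401) (nat_lit 285))) (XT.nd (nat_lit 78) (nat_lit 0) (nat_lit 0) (XT.lf (nat_lit 0) (nat_lit 515412719045) (nat_lit 76) (nat_lit 1195037906273) (nat_lit 76) (nat_lit 1189176807412) (nat_lit 1) (nat_lit 4) (nat_lit 2) (nat_lit 5) (nat_lit 2) (nat_lit 4) (nat_lit 515) (nat_lit 401) (nat_lit 284)) (XT.lf (nat_lit 0) (nat_lit 702491275985) (nat_lit 76) (nat_lit 1214669973368) (nat_lit 76) (nat_lit 1208808821159) (nat_lit 1) (nat_lit 4) (nat_lit 2) (nat_lit 5) (nat_lit 2) (nat_lit 4) (nat_lit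 516) (nat_lit 401) (nat_lit 283))))))))
noncomputable def xc97 : XT := (XT.nd (nat_lit 53508) (nat_lit 0) (nat_lit 4104) (XT.nd (nat_lit 1092) (nat_lit 0) (nat_lit 0) (XT.nd (nat_lit 546) (nat_lit 0) (nat_lit 0) (XT.nd (nat_lit 234) (nat_lit 0) (nat_lit 0) (XT.nd (nat_lit 78) (nat_lit 0) (nat_lit 0) (XT.lf (nat_lit 0) (nat_lit 904533561739) (nat_lit 76) (nat_lit 1235873928899) (nat_lit 76) (nat_lit 1230012727293) (nat_lit 1) (nat_lit 4) (nat_lit 2) (nat_lit 5) (nat_lit 2) (nat_lit 4) (nat_lit 517) (nat_lit 401) (nat_lit 282)) (XT.nd (nat_lit 78) (nat_lit 0) (nat_lit 0) (XT.lf (nat_lit 0) (nat_lit 1122736863926) (nat_lit 76) (nat_lit 1258775425935) (nat_lit 76) (nat_lit 1252914178592) (nat_lit 1) (nat_lit 4) (nat_lit 2) (nat_lit 5) (nat_lit 2) (nat_lit 4) (nat_lit 518) (nat_lit 401) (nat_lit 281)) (XT.lf (nat_lit 0) (nat_lit 1358394239153) (nat_lit 76) (nat_lit 1283510177052) (nat_lit 76)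 (nat_lit 1277648887359) (nat_lit 1) (nat_lit 4) (nat_lit 2) (nat_lit 5) (nat_lit 2) (nat_lit 4) (nat_lit 519) (nat_lit 401) (nat_lit 280)))) (XT.nd (nat_lit 156) (nat_lit 0) (nat_lit 0) (XT.nd (nat_lit 78) (nat_lit 0) (nat_lit 0) (XT.lf (nat_lit 0) (nat_lit 1612902175568) (nat_lit 76) (nat_lit 1310224758552) (nat_lit 76) (nat_lit 1304363429647) (nat_lit 1) (nat_lit 4) (nat_lit 2) (nat_lit 5) (nat_lit 2) (nat_lit 4) (nat_lit 520) (nat_lit 401) (nat_lit 279)) (XT.lf (nat_lit 0) (nat_lit 1887768868351) (nat_lit 76) (nat_lit 1339077479067) (nat_lit 76) (nat_lit 1333216113854) (nat_lit 1) (nat_lit 4) (nat_lit 2) (nat_lit 5) (nat_lit 2) (nat_lit 4) (nat_lit 521) (nat_lit 401) (nat_lit 278))) (XT.nd (nat_lit 78) (nat_lit 0) (nat_lit 0) (XT.lf (nat_lit 0) (nat_lit 2184623157162) (nat_lit 76) (nat_lit 1370239317681) (nat_lit 76) (nat_lit 1364377918850) (nat_lit 1) (nat_lit 4) (nat_lit 2) (nat_lit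 5) (nat_lit 2) (nat_lit 4) (nat_lit 522) (nat_lit 401) (nat_lit 277)) (XT.lf (nat_lit 0) (nat_lit 2505224178527) (nat_lit 76) (nat_lit 1403894937142) (nat_lit 76) (nat_lit 1398033507182) (nat_lit 1) (nat_lit 4) (nat_lit 2) (nat_lit 5) (nat_lit 2) (nat_lit 4) (nat_lit 523) (nat_lit 401) (nat_lit 276))))) (XT.nd (nat_lit 234) (nat_lit 0) (nat_lit 0) (XT.nd (nat_lit 78) (nat_lit 0) (nat_lit 0) (XT.lf (nat_lit 0) (nat_lit 2851471790352) (nat_lit 76) (nat_lit 1440243778157) (nat_lit 76) (nat_lit 1434382319375) (nat_lit 1) (nat_lit 4) (nat_lit 2) (nat_lit 5) (nat_lit 2) (nat_lit 4) (nat_lit 524) (nat_lit 401) (nat_lit 275)) (XT.nd (nat_lit 78) (nat_lit 0) (nat_lit 0) (XT.lf (nat_lit 0) (nat_lit 3225417830335) (nat_lit 76) (nat_lit 1479501241266) (nat_lit 76) (nat_lit 1473639755797) (nat_lit 1) (nat_lit 4) (nat_lit 2) (nat_lit 5) (nat_lit 2) (nat_lit 4) (nat_lit 525) (nat_lit 401) (nat_lit 274))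 (XT.lf (nat_lit 0) (nat_lit 3629278275010) (nat_lit 76) (nat_lit 1521899963287) (nat_lit 76) (nat_lit 1516038453108) (nat_lit 1) (nat_lit 4) (nat_lit 2) (nat_lit 5) (nat_lit 2) (nat_lit 4) (nat_lit 526) (nat_lit 401) (nat_lit 273)))) (XT.nd (nat_lit 156) (nat_lit 0) (nat_lit 0) (XT.nd (nat_lit 78) (nat_lit 0) (nat_lit 0) (XT.lf (nat_lit 0) (nat_lit 4065446371457) (nat_lit 76) (nat_lit 1567691195907) (nat_lit 76) (nat_lit 1561829662847) (nat_lit 1) (nat_lit 4) (nat_lit 2) (nat_lit 5) (nat_lit 2) (nat_lit 4) (nat_lit 527) (nat_lit 401) (nat_lit 272)) (XT.lf (nat_lit 0) (nat_lit 4536506819506) (nat_lit 76) (nat_lit 1617146294577) (nat_lit 76) (nat_lit 1611284740332) (nat_lit 1) (nat_lit 4) (nat_lit 2) (nat_lit 5) (nat_lit 2) (nat_lit 4) (nat_lit 528) (nat_lit 401) (nat_lit 271))) (XT.nd (nat_lit 78) (nat_lit 0) (nat_lit 0) (XT.lf (nat_lit 0) (nat_lit 5045251088479) (nat_lit 76) (nat_lit 1670558326550)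 (nat_lit 76) (nat_lit 1664696752689) (nat_lit 1) (nat_lit 4) (nat_lit 2) (nat_lit 5) (nat_lit 2) (nat_lit 4) (nat_lit 529) (nat_lit 401) (nat_lit 270)) (XT.lf (nat_lit 0) (nat_lit 5594693959229) (nat_lit 76) (nat_lit 1728243807570) (nat_lit 76) (nat_lit 1722382215546) (nat_lit 1) (nat_lit 4) (nat_lit 2) (nat_lit 5) (nat_lit 2) (nat_lit 4) (nat_lit 530) (nat_lit 401) (nat_lit 269)))))) (XT.nd (nat_lit 546) (nat_lit 0) (nat_lit 0) (XT.nd (nat_lit 234) (nat_lit 0) (nat_lit 0) (XT.nd (nat_lit 78) (nat_lit 0) (nat_lit 0) (XT.lf (nat_lit 0) (nat_lit 6188091389509) (nat_lit 76) (nat_lit 1790544577524) (nat_lit 76) (nat_lit 1784682968683) (nat_lit 1) (nat_lit 4) (nat_lit 2) (nat_lit 5) (nat_lit 2) (nat_lit 4) (nat_lit 531) (nat_lit 401) (nat_lit 268)) (XT.nd (nat_lit 78) (nat_lit 0) (nat_lit 0) (XT.lf (nat_lit 0) (nat_lit 6828959808536) (nat_lit 76) (nat_lit 1857829826162) (nat_lit 76) (nat_lit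 1851968201748) (nat_lit 1) (nat_lit 4) (nat_lit 2) (nat_lit 5) (nat_lit 2) (nat_lit 4) (nat_lit 532) (nat_lit 401) (nat_lit 267)) (XT.lf (nat_lit 0) (nat_lit 7521096955088) (nat_lit 76) (nat_lit 1930498280881) (nat_lit 76) (nat_lit 1924636642049) (nat_lit 1) (nat_lit 4) (nat_lit 2) (nat_lit 5) (nat_lit 2) (nat_lit 4) (nat_lit 533) (nat_lit 401) (nat_lit 266)))) (XT.nd (nat_lit 156) (nat_lit 0) (nat_lit 0) (XT.nd (nat_lit 78) (nat_lit 0) (nat_lit 0) (XT.lf (nat_lit 0) (nat_lit 8268604382627) (nat_lit 76) (nat_lit 2008980569562) (nat_lit 76) (nat_lit 2003118917380) (nat_lit 1) (nat_lit 4) (nat_lit 2) (nat_lit 5) (nat_lit 2) (nat_lit 4) (nat_lit 534) (nat_lit 401) (nat_lit 265)) (XT.lf (nat_lit 0) (nat_lit 9075911764797) (nat_lit 76) (nat_lit 2093741772434) (nat_lit 76) (nat_lit 2087880107891) (nat_lit 1) (nat_lit 4) (nat_lit 2) (nat_lit 5) (nat_lit 2) (nat_lit 4) (nat_lit 535) (nat_lit 401)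 (nat_lit 264))) (XT.nd (nat_lit 78) (nat_lit 0) (nat_lit 0) (XT.lf (nat_lit 0) (nat_lit 9947803145345) (nat_lit 76) (nat_lit 2185284178107) (nat_lit 76) (nat_lit 2179422502118) (nat_lit 1) (nat_lit 4) (nat_lit 2) (nat_lit 5) (nat_lit 2) (nat_lit 4) (nat_lit 536) (nat_lit 401) (nat_lit 263)) (XT.lf (nat_lit 0) (nat_lit 10889445288007) (nat_lit 76) (nat_lit 2284150260095) (nat_lit 76) (nat_lit 2278288573508) (nat_lit 1) (nat_lit 4) (nat_lit 2) (nat_lit 5) (nat_lit 2) (nat_lit 4) (nat_lit 537) (nat_lit 401) (nat_lit 262))))) (XT.nd (nat_lit 234) (nat_lit 0) (nat_lit 0) (XT.nd (nat_lit 78) (nat_lit 0) (nat_lit 0) (XT.lf (nat_lit 0) (nat_lit 11906418294370) (nat_lit 76) (nat_lit 2390925891478) (nat_lit 76) (nat_lit 2385064195078) (nat_lit 1) (nat_lit 4) (nat_lit 2) (nat_lit 5) (nat_lit 2) (nat_lit 4) (nat_lit 538) (nat_lit 401) (nat_lit 261)) (XT.nd (nat_lit 78) (nat_lit 0) (nat_lit 0) (XT.lf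 (nat_lit 0) (nat_lit 13004748671137) (nat_lit 76) (nat_lit 2506243816737) (nat_lit 76) (nat_lit 2500382111251) (nat_lit 1) (nat_lit 4) (nat_lit 2) (nat_lit 5) (nat_lit 2) (nat_lit 4) (nat_lit 539) (nat_lit 401) (nat_lit 260)) (XT.lf (nat_lit 0) (nat_lit 14190945042764) (nat_lit 76) (nat_lit 2630787401356) (nat_lit 76) (nat_lit 2624925687457) (nat_lit 1) (nat_lit 4) (nat_lit 2) (nat_lit 5) (nat_lit 2) (nat_lit 4) (nat_lit 540) (nat_lit 401) (nat_lit 259)))) (XT.nd (nat_lit 156) (nat_lit 0) (nat_lit 0) (XT.nd (nat_lit 78) (nat_lit 0) (nat_lit 0) (XT.lf (nat_lit 0) (nat_lit 15472036721082) (nat_lit 76) (nat_lit 2765294681391) (nat_lit 76) (nat_lit 2759432959702) (nat_lit 1) (nat_lit 4) (nat_lit 2) (nat_lit 5) (nat_lit 2) (nat_lit 4) (nat_lit 541) (nat_lit 401) (nat_lit 258)) (XT.lf (nat_lit 0) (nat_lit 16855615360482) (nat_lit 76) (nat_lit 2910562737020) (nat_lit 76) (nat_lit 2904701008119)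 (nat_lit 1) (nat_lit 4) (nat_lit 2) (nat_lit 5) (nat_lit 2) (nat_lit 4) (nat_lit 542) (nat_lit 401) (nat_lit 257))) (XT.nd (nat_lit 78) (nat_lit 0) (nat_lit 0) (XT.lf (nat_lit 0) (nat_lit 18349879945494) (nat_lit 76) (nat_lit 3067452415981) (nat_lit 76) (nat_lit 3061590680401) (nat_lit 1) (nat_lit 4) (nat_lit 2) (nat_lit 5) (nat_lit 2) (nat_lit 4) (nat_lit 543) (nat_lit 401) (nat_lit 256)) (XT.lf (nat_lit 0) (nat_lit 19963685377361) (nat_lit 76) (nat_lit 3236893434890) (nat_lit 76) (nat_lit 3231031693126) (nat_lit 1) (nat_lit 4) (nat_lit 2) (nat_lit 5) (nat_lit 2) (nat_lit 4) (nat_lit 544) (nat_lit 401) (nat_lit 255))))))) (XT.nd (nat_lit 1092) (nat_lit 1900) (nat_lit 0) (XT.nd (nat_lit 546) (nat_lit 1748) (nat_lit 0) (XT.nd (nat_lit 234) (nat_lit 532) (nat_lit 0) (XT.nd (nat_lit 78) (nat_lit 228) (nat_lit 0) (XT.lf (nat_lit 0) (nat_lit 2504281767) (nat_lit 228) (nat_lit 386506294) (nat_lit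 228) (nat_lit 386506294) (nat_lit 113) (nat_lit 3) (nat_lit 116) (nat_lit 3) (nat_lit 116) (nat_lit 5) (nat_lit 402) (nat_lit 402) (nat_lit 396)) (XT.nd (nat_lit 78) (nat_lit 0) (nat_lit 0) (XT.lf (nat_lit 0) (nat_lit 960258112) (nat_lit 228) (nat_lit 4021169441) (nat_lit 304) (nat_lit 1638959737) (nat_lit 110) (nat_lit 5) (nat_lit 113) (nat_lit 3) (nat_lit 114) (nat_lit 5) (nat_lit 403) (nat_lit 402) (nat_lit 395)) (XT.lf (nat_lit 0) (nat_lit 3359481637) (nat_lit 228) (nat_lit 592565922) (nat_lit 304) (nat_lit 2754158964) (nat_lit 110) (nat_lit 5) (nat_lit 113) (nat_lit 3) (nat_lit 114) (nat_lit 5) (nat_lit 404) (nat_lit 402) (nat_lit 394)))) (XT.nd (nat_lit 156) (nat_lit 228) (nat_lit 0) (XT.nd (nat_lit 78) (nat_lit 304) (nat_lit 0) (XT.lf (nat_lit 76) (nat_lit 3130548820) (nat_lit 0) (nat_lit 2667864161) (nat_lit 304) (nat_lit 1012699620) (nat_lit 111) (nat_lit 5) (nat_lit 110) (nat_lit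 5) (nat_lit 114) (nat_lit 5) (nat_lit 405) (nat_lit 402) (nat_lit 393)) (XT.lf (nat_lit 76) (nat_lit 85147392) (nat_lit 0) (nat_lit 1146676000) (nat_lit 380) (nat_lit 5705785919) (nat_lit 107) (nat_lit 5) (nat_lit 106) (nat_lit 5) (nat_lit 111) (nat_lit 5) (nat_lit 406) (nat_lit 402) (nat_lit 392))) (XT.nd (nat_lit 78) (nat_lit 304) (nat_lit 0) (XT.lf (nat_lit 0) (nat_lit 3511369902) (nat_lit 304) (nat_lit 2904597400) (nat_lit 76) (nat_lit 663374302) (nat_lit 107) (nat_lit 5) (nat_lit 111) (nat_lit 5) (nat_lit 108) (nat_lit 5) (nat_lit 407) (nat_lit 402) (nat_lit 391)) (XT.lf (nat_lit 0) (nat_lit 1244333975) (nat_lit 304) (nat_lit 4598834878) (nat_lit 380) (nat_lit 1399684065) (nat_lit 103) (nat_lit 5) (nat_lit 107) (nat_lit 5) (nat_lit 108) (nat_lit 5) (nat_lit 408) (nat_lit 402) (nat_lit 390))))) (XT.nd (nat_lit 234) (nat_lit 1292) (nat_lit 0) (XT.nd (nat_lit 78) (nat_lit 380) (nat_lit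 0) (XT.lf (nat_lit 0) (nat_lit 792526003) (nat_lit 380) (nat_lit 1700652898) (nat_lit 76) (nat_lit 4932673902) (nat_lit 102) (nat_lit 5) (nat_lit 107) (nat_lit 5) (nat_lit 103) (nat_lit 5) (nat_lit 409) (nat_lit 402) (nat_lit 389)) (XT.nd (nat_lit 78) (nat_lit 0) (nat_lit 0) (XT.lf (nat_lit 0) (nat_lit 2908312869) (nat_lit 380) (nat_lit 75853293) (nat_lit 456) (nat_lit 4644469308) (nat_lit 97) (nat_lit 5) (nat_lit 102) (nat_lit 5) (nat_lit 103) (nat_lit 5) (nat_lit 410) (nat_lit 402) (nat_lit 388)) (XT.lf (nat_lit 0) (nat_lit 5299368902) (nat_lit 456) (nat_lit 75095123) (nat_lit 76) (nat_lit 2477341395) (nat_lit 97) (nat_lit 5) (nat_lit 103) (nat_lit 5) (nat_lit 98) (nat_lit 5) (nat_lit 411) (nat_lit 402) (nat_lit 387)))) (XT.nd (nat_lit 156) (nat_lit 228) (nat_lit 0) (XT.nd (nat_lit 78) (nat_lit 608) (nat_lit 0) (XT.lf (nat_lit 0) (nat_lit 5052024694) (nat_lit 456) (nat_lit 2722680379)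 (nat_lit 532) (nat_lit 320151978) (nat_lit 91) (nat_lit 5) (nat_lit 97) (nat_lit 5) (nat_lit 98) (nat_lit 5) (nat_lit 412) (nat_lit 402) (nat_lit 386)) (XT.lf (nat_lit 0) (nat_lit 1901498654) (nat_lit 608) (nat_lit 6217693530) (nat_lit 76) (nat_lit 240926937) (nat_lit 83) (nat_lit 5) (nat_lit 91) (nat_lit 5) (nat_lit 84) (nat_lit 5) (nat_lit 413) (nat_lit 402) (nat_lit 385))) (XT.nd (nat_lit 78) (nat_lit 228) (nat_lit 0) (XT.lf (nat_lit 0) (nat_lit 4302368846) (nat_lit 608) (nat_lit 957384937) (nat_lit 76) (nat_lit 3384697438) (nat_lit 83) (nat_lit 5) (nat_lit 91) (nat_lit 5) (nat_lit 84) (nat_lit 5) (nat_lit 414) (nat_lit 402) (nat_lit 384)) (XT.lf (nat_lit 0) (nat_lit 4824539795) (nat_lit 228) (nat_lit 2059676642) (nat_lit 304) (nat_lit 2068216606) (nat_lit 80) (nat_lit 5) (nat_lit 83) (nat_lit 5) (nat_lit 84) (nat_lit 5) (nat_lit 415) (nat_lit 402) (nat_lit 383)))))) (XT.nd (nat_lit 546)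 (nat_lit 760) (nat_lit 0) (XT.nd (nat_lit 234) (nat_lit 608) (nat_lit 0) (XT.nd (nat_lit 78) (nat_lit 228) (nat_lit 0) (XT.lf (nat_lit 0) (nat_lit 348744412) (nat_lit 304) (nat_lit 7548061533) (nat_lit 76) (nat_lit 1389069467) (nat_lit 76) (nat_lit 5) (nat_lit 80) (nat_lit 5) (nat_lit 77) (nat_lit 5) (nat_lit 416) (nat_lit 402) (nat_lit 382)) (XT.nd (nat_lit 78) (nat_lit 228) (nat_lit 0) (XT.lf (nat_lit 0) (nat_lit 2897773831) (nat_lit 304) (nat_lit 1588449198) (nat_lit 76) (nat_lit 5151449157) (nat_lit 76) (nat_lit 5) (nat_lit 80) (nat_lit 5) (nat_lit 77) (nat_lit 5) (nat_lit 417) (nat_lit 402) (nat_lit 381)) (XT.lf (nat_lit 0) (nat_lit 4958114372) (nat_lit 228) (nat_lit 701812699) (nat_lit 304) (nat_lit 4356961110) (nat_lit 73) (nat_lit 5) (nat_lit 76) (nat_lit 5) (nat_lit 77) (nat_lit 5) (nat_lit 418) (nat_lit 402) (nat_lit 380)))) (XT.nd (nat_lit 156) (nat_lit 304) (nat_lit 0) (XT.nd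 (nat_lit 78) (nat_lit 76) (nat_lit 0) (XT.lf (nat_lit 0) (nat_lit 1548624776) (nat_lit 228) (nat_lit 7151824800) (nat_lit 304) (nat_lit 1721410853) (nat_lit 70) (nat_lit 5) (nat_lit 73) (nat_lit 5) (nat_lit 74) (nat_lit 5) (nat_lit 419) (nat_lit 402) (nat_lit 379)) (XT.lf (nat_lit 0) (nat_lit 1124887764) (nat_lit 304) (nat_lit 2068687497) (nat_lit 76) (nat_lit 7659005486) (nat_lit 69) (nat_lit 5) (nat_lit 73) (nat_lit 5) (nat_lit 70) (nat_lit 5) (nat_lit 420) (nat_lit 402) (nat_lit 378))) (XT.nd (nat_lit 78) (nat_lit 152) (nat_lit 0) (XT.lf (nat_lit 0) (nat_lit 4168434968) (nat_lit 228) (nat_lit 5970296199) (nat_lit 76) (nat_lit 1170455441) (nat_lit 67) (nat_lit 5) (nat_lit 70) (nat_lit 5) (nat_lit 68) (nat_lit 5) (nat_lit 421) (nat_lit 402) (nat_lit 377)) (XT.lf (nat_lit 0) (nat_lit 1513834502) (nat_lit 152) (nat_lit 6025863248) (nat_lit 228) (nat_lit 4255892536) (nat_lit 65) (nat_lit 5)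 (nat_lit 67) (nat_lit 5) (nat_lit 68) (nat_lit 5) (nat_lit 422) (nat_lit 402) (nat_lit 376))))) (XT.nd (nat_lit 312) (nat_lit 380) (nat_lit 0) (XT.nd (nat_lit 156) (nat_lit 152) (nat_lit 0) (XT.nd (nat_lit 78) (nat_lit 228) (nat_lit 0) (XT.lf (nat_lit 0) (nat_lit 9803283769) (nat_lit 152) (nat_lit 1451162682) (nat_lit 228) (nat_lit 1060564321) (nat_lit 65) (nat_lit 5) (nat_lit 67) (nat_lit 5) (nat_lit 68) (nat_lit 5) (nat_lit 423) (nat_lit 402) (nat_lit 375)) (XT.lf (nat_lit 0) (nat_lit 2418137409) (nat_lit 228) (nat_lit 6960079821) (nat_lit 76) (nat_lit 3481388876) (nat_lit 62) (nat_lit 5) (nat_lit 65) (nat_lit 5) (nat_lit 63) (nat_lit 5) (nat_lit 424) (nat_lit 402) (nat_lit 374))) (XT.nd (nat_lit 78) (nat_lit 0) (nat_lit 0) (XT.lf (nat_lit 0) (nat_lit 1565681754) (nat_lit 152) (nat_lit 4615254690) (nat_lit 228) (nat_lit 7259586719) (nat_lit 60) (nat_lit 5) (nat_lit 62) (nat_lit 5) (nat_lit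 63) (nat_lit 5) (nat_lit 425) (nat_lit 402) (nat_lit 373)) (XT.lf (nat_lit 0) (nat_lit 10371965671) (nat_lit 228) (nat_lit 3032842414) (nat_lit 76) (nat_lit 652934368) (nat_lit 60) (nat_lit 5) (nat_lit 63) (nat_lit 5) (nat_lit 61) (nat_lit 4) (nat_lit 426) (nat_lit 402) (nat_lit 372)))) (XT.nd (nat_lit 156) (nat_lit 76) (nat_lit 0) (XT.nd (nat_lit 78) (nat_lit 152) (nat_lit 0) (XT.lf (nat_lit 0) (nat_lit 374484468) (nat_lit 152) (nat_lit 8112519574) (nat_lit 76) (nat_lit 6220265385) (nat_lit 58) (nat_lit 5) (nat_lit 60) (nat_lit 5) (nat_lit 59) (nat_lit 5) (nat_lit 427) (nat_lit 402) (nat_lit 371)) (XT.lf (nat_lit 0) (nat_lit 1623355231) (nat_lit 152) (nat_lit 2987230991) (nat_lit 228) (nat_lit 10786506059) (nat_lit 56) (nat_lit 5) (nat_lit 58) (nat_lit 5) (nat_lit 59) (nat_lit 5) (nat_lit 428) (nat_lit 402) (nat_lit 370))) (XT.nd (nat_lit 78) (nat_lit 76) (nat_lit 0) (XT.lf (nat_lit 0)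 (nat_lit 9411620306) (nat_lit 228) (nat_lit 3725967471) (nat_lit 76) (nat_lit 2986433601) (nat_lit 56) (nat_lit 5) (nat_lit 59) (nat_lit 5) (nat_lit 57) (nat_lit 4) (nat_lit 429) (nat_lit 402) (nat_lit 369)) (XT.lf (nat_lit 0) (nat_lit 7298009266) (nat_lit 76) (nat_lit 7484672541) (nat_lit 152) (nat_lit 2111551073) (nat_lit 55) (nat_lit 5) (nat_lit 56) (nat_lit 5) (nat_lit 57) (nat_lit 4) (nat_lit 430) (nat_lit 402) (nat_lit 368))))))))
noncomputable def xc98 : XT := (XT.nd (nat_lit 2184) (nat_lit 1444) (nat_lit 0) (XT.nd (nat_lit 1092) (nat_lit 988) (nat_lit 0) (XT.nd (nat_lit 546) (nat_lit 532) (nat_lit 0) (XT.nd (nat_lit 234) (nat_lit 380) (nat_lit 0) (XT.nd (nat_lit 78) (nat_lit 76) (nat_lit 0) (XT.lf (nat_lit 0) (nat_lit 1590388843) (nat_lit 152) (nat_lit 1200235924) (nat_lit 228) (nat_lit 14923846499) (nat_lit 52) (nat_lit 5) (nat_lit 54) (nat_lit 5) (nat_lit 55) (nat_lit 5) (nat_lit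 431) (nat_lit 402) (nat_lit 367)) (XT.nd (nat_lit 78) (nat_lit 76) (nat_lit 0) (XT.lf (nat_lit 0) (nat_lit 8308935783) (nat_lit 228) (nat_lit 4674442310) (nat_lit 76) (nat_lit 5585522716) (nat_lit 52) (nat_lit 5) (nat_lit 55) (nat_lit 5) (nat_lit 53) (nat_lit 4) (nat_lit 432) (nat_lit 402) (nat_lit 366)) (XT.lf (nat_lit 0) (nat_lit 7949558597) (nat_lit 76) (nat_lit 6480848937) (nat_lit 152) (nat_lit 5048344199) (nat_lit 51) (nat_lit 5) (nat_lit 52) (nat_lit 5) (nat_lit 53) (nat_lit 4) (nat_lit 433) (nat_lit 402) (nat_lit 365)))) (XT.nd (nat_lit 156) (nat_lit 152) (nat_lit 0) (XT.nd (nat_lit 78) (nat_lit 0) (nat_lit 0) (XT.lf (nat_lit 0) (nat_lit 670762093) (nat_lit 228) (nat_lit 19129167156) (nat_lit 76) (nat_lit 650781062) (nat_lit 48) (nat_lit 5) (nat_lit 51) (nat_lit 5) (nat_lit 49) (nat_lit 4) (nat_lit 434) (nat_lit 402) (nat_lit 364)) (XT.lf (nat_lit 0) (nat_lit 7006947120) (nat_lit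 228) (nat_lit 6036160379) (nat_lit 76) (nat_lit 8412246789) (nat_lit 48) (nat_lit 5) (nat_lit 51) (nat_lit 5) (nat_lit 49) (nat_lit 4) (nat_lit 435) (nat_lit 402) (nat_lit 363))) (XT.nd (nat_lit 78) (nat_lit 76) (nat_lit 0) (XT.lf (nat_lit 0) (nat_lit 8424492358) (nat_lit 76) (nat_lit 5573090015) (nat_lit 152) (nat_lit 8530984949) (nat_lit 47) (nat_lit 5) (nat_lit 48) (nat_lit 5) (nat_lit 49) (nat_lit 4) (nat_lit 436) (nat_lit 402) (nat_lit 362)) (XT.lf (nat_lit 0) (nat_lit 573409691) (nat_lit 76) (nat_lit 21162730571) (nat_lit 76) (nat_lit 1936405221) (nat_lit 46) (nat_lit 4) (nat_lit 47) (nat_lit 5) (nat_lit 47) (nat_lit 4) (nat_lit 437) (nat_lit 402) (nat_lit 361))))) (XT.nd (nat_lit 234) (nat_lit 380) (nat_lit 0) (XT.nd (nat_lit 78) (nat_lit 76) (nat_lit 0) (XT.lf (nat_lit 0) (nat_lit 5412565625) (nat_lit 152) (nat_lit 8031591112) (nat_lit 76) (nat_lit 11415010433) (nat_lit 45) (nat_lit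 5) (nat_lit 47) (nat_lit 5) (nat_lit 46) (nat_lit 4) (nat_lit 438) (nat_lit 402) (nat_lit 360)) (XT.nd (nat_lit 78) (nat_lit 0) (nat_lit 0) (XT.lf (nat_lit 0) (nat_lit 8522857986) (nat_lit 76) (nat_lit 4876801339) (nat_lit 152) (nat_lit 12724651309) (nat_lit 44) (nat_lit 5) (nat_lit 45) (nat_lit 5) (nat_lit 46) (nat_lit 4) (nat_lit 439) (nat_lit 402) (nat_lit 359)) (XT.lf (nat_lit 0) (nat_lit 22306562715) (nat_lit 152) (nat_lit 820620996) (nat_lit 0) (nat_lit 4341015834) (nat_lit 44) (nat_lit 5) (nat_lit 46) (nat_lit 4) (nat_lit 44) (nat_lit 4) (nat_lit 440) (nat_lit 402) (nat_lit 358)))) (XT.nd (nat_lit 156) (nat_lit 152) (nat_lit 0) (XT.nd (nat_lit 78) (nat_lit 76) (nat_lit 0) (XT.lf (nat_lit 0) (nat_lit 3382615013) (nat_lit 152) (nat_lit 10976310207) (nat_lit 76) (nat_lit 14512763987) (nat_lit 42) (nat_lit 5) (nat_lit 44) (nat_lit 5) (nat_lit 43) (nat_lit 4) (nat_lit 441) (nat_lit 402)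 (nat_lit 357)) (XT.lf (nat_lit 0) (nat_lit 7944263513) (nat_lit 76) (nat_lit 4555526613) (nat_lit 152) (nat_lit 17863483859) (nat_lit 41) (nat_lit 5) (nat_lit 42) (nat_lit 5) (nat_lit 43) (nat_lit 4) (nat_lit 442) (nat_lit 402) (nat_lit 356))) (XT.nd (nat_lit 78) (nat_lit 152) (nat_lit 0) (XT.lf (nat_lit 0) (nat_lit 22753817750) (nat_lit 152) (nat_lit 3188817689) (nat_lit 0) (nat_lit 5998952814) (nat_lit 41) (nat_lit 5) (nat_lit 43) (nat_lit 4) (nat_lit 41) (nat_lit 4) (nat_lit 443) (nat_lit 402) (nat_lit 355)) (XT.lf (nat_lit 0) (nat_lit 702484416) (nat_lit 152) (nat_lit 15327951618) (nat_lit 76) (nat_lit 17573015198) (nat_lit 39) (nat_lit 5) (nat_lit 41) (nat_lit 5) (nat_lit 40) (nat_lit 4) (nat_lit 444) (nat_lit 402) (nat_lit 354)))))) (XT.nd (nat_lit 546) (nat_lit 532) (nat_lit 0) (XT.nd (nat_lit 234) (nat_lit 304) (nat_lit 0) (XT.nd (nat_lit 78) (nat_lit 76) (nat_lit 0) (XT.lf (nat_lit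 0) (nat_lit 6235995115) (nat_lit 76) (nat_lit 4849019902) (nat_lit 152) (nat_lit 24278362862) (nat_lit 38) (nat_lit 5) (nat_lit 39) (nat_lit 5) (nat_lit 40) (nat_lit 4) (nat_lit 445) (nat_lit 402) (nat_lit 353)) (XT.nd (nat_lit 78) (nat_lit 76) (nat_lit 0) (XT.lf (nat_lit 0) (nat_lit 22860183927) (nat_lit 152) (nat_lit 7100809064) (nat_lit 0) (nat_lit 7258143524) (nat_lit 38) (nat_lit 5) (nat_lit 40) (nat_lit 4) (nat_lit 38) (nat_lit 4) (nat_lit 446) (nat_lit 402) (nat_lit 352)) (XT.lf (nat_lit 0) (nat_lit 17353831684) (nat_lit 76) (nat_lit 18728185537) (nat_lit 76) (nat_lit 3100967223) (nat_lit 37) (nat_lit 4) (nat_lit 38) (nat_lit 5) (nat_lit 38) (nat_lit 4) (nat_lit 447) (nat_lit 402) (nat_lit 351)))) (XT.nd (nat_lit 156) (nat_lit 152) (nat_lit 0) (XT.nd (nat_lit 78) (nat_lit 0) (nat_lit 0) (XT.lf (nat_lit 0) (nat_lit 2716978693) (nat_lit 76) (nat_lit 6113554906) (nat_lit 152) (nat_lit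 32437902051) (nat_lit 35) (nat_lit 5) (nat_lit 36) (nat_lit 5) (nat_lit 37) (nat_lit 4) (nat_lit 448) (nat_lit 402) (nat_lit 350)) (XT.lf (nat_lit 0) (nat_lit 22303615642) (nat_lit 152) (nat_lit 13357900745) (nat_lit 0) (nat_lit 7792396017) (nat_lit 35) (nat_lit 5) (nat_lit 37) (nat_lit 4) (nat_lit 35) (nat_lit 4) (nat_lit 449) (nat_lit 402) (nat_lit 349))) (XT.nd (nat_lit 78) (nat_lit 76) (nat_lit 0) (XT.lf (nat_lit 0) (nat_lit 14338796960) (nat_lit 76) (nat_lit 22983854209) (nat_lit 76) (nat_lit 8454128068) (nat_lit 34) (nat_lit 4) (nat_lit 35) (nat_lit 5) (nat_lit 35) (nat_lit 4) (nat_lit 450) (nat_lit 402) (nat_lit 348)) (XT.lf (nat_lit 0) (nat_lit 5333974595) (nat_lit 152) (nat_lit 3452194643) (nat_lit 76) (nat_lit 39462050422) (nat_lit 33) (nat_lit 5) (nat_lit 35) (nat_lit 5) (nat_lit 34) (nat_lit 4) (nat_lit 451) (nat_lit 402) (nat_lit 347))))) (XT.nd (nat_lit 234) (nat_lit 380) (nat_lit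 0) (XT.nd (nat_lit 78) (nat_lit 76) (nat_lit 0) (XT.lf (nat_lit 0) (nat_lit 20585905458) (nat_lit 152) (nat_lit 23146603531) (nat_lit 0) (nat_lit 7101897904) (nat_lit 32) (nat_lit 5) (nat_lit 34) (nat_lit 4) (nat_lit 32) (nat_lit 4) (nat_lit 452) (nat_lit 402) (nat_lit 346)) (XT.nd (nat_lit 78) (nat_lit 0) (nat_lit 0) (XT.lf (nat_lit 0) (nat_lit 7999097263) (nat_lit 76) (nat_lit 29543612538) (nat_lit 76) (nat_lit 16046002143) (nat_lit 31) (nat_lit 4) (nat_lit 32) (nat_lit 5) (nat_lit 32) (nat_lit 4) (nat_lit 453) (nat_lit 402) (nat_lit 345)) (XT.lf (nat_lit 0) (nat_lit 42888708531) (nat_lit 76) (nat_lit 13568387895) (nat_lit 76) (nat_lit 58182276) (nat_lit 31) (nat_lit 4) (nat_lit 32) (nat_lit 5) (nat_lit 32) (nat_lit 4) (nat_lit 454) (nat_lit 402) (nat_lit 344)))) (XT.nd (nat_lit 156) (nat_lit 228) (nat_lit 0) (XT.nd (nat_lit 78) (nat_lit 0) (nat_lit 0) (XT.lf (nat_lit 0) (nat_lit 16946564517)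 (nat_lit 152) (nat_lit 38222080707) (nat_lit 0) (nat_lit 4426316495) (nat_lit 29) (nat_lit 5) (nat_lit 31) (nat_lit 4) (nat_lit 29) (nat_lit 4) (nat_lit 455) (nat_lit 402) (nat_lit 343)) (XT.lf (nat_lit 0) (nat_lit 36013075888) (nat_lit 152) (nat_lit 3368631231) (nat_lit 0) (nat_lit 23482829372) (nat_lit 29) (nat_lit 5) (nat_lit 31) (nat_lit 4) (nat_lit 29) (nat_lit 4) (nat_lit 456) (nat_lit 402) (nat_lit 342))) (XT.nd (nat_lit 78) (nat_lit 152) (nat_lit 0) (XT.lf (nat_lit 0) (nat_lit 36018353018) (nat_lit 76) (nat_lit 21424881379) (nat_lit 76) (nat_lit 8885376997) (nat_lit 28) (nat_lit 4) (nat_lit 29) (nat_lit 5) (nat_lit 29) (nat_lit 4) (nat_lit 457) (nat_lit 402) (nat_lit 341)) (XT.lf (nat_lit 0) (nat_lit 8814450991) (nat_lit 76) (nat_lit 1455994908) (nat_lit 152) (nat_lit 59756841544) (nat_lit 26) (nat_lit 5) (nat_lit 27) (nat_lit 5) (nat_lit 28) (nat_lit 4) (nat_lit 458) (nat_lit 402)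 (nat_lit 340))))))) (XT.nd (nat_lit 1092) (nat_lit 684) (nat_lit 0) (XT.nd (nat_lit 546) (nat_lit 304) (nat_lit 0) (XT.nd (nat_lit 234) (nat_lit 380) (nat_lit 0) (XT.nd (nat_lit 78) (nat_lit 76) (nat_lit 0) (XT.lf (nat_lit 0) (nat_lit 31784797803) (nat_lit 152) (nat_lit 21955249224) (nat_lit 0) (nat_lit 20158859278) (nat_lit 26) (nat_lit 5) (nat_lit 28) (nat_lit 4) (nat_lit 26) (nat_lit 4) (nat_lit 459) (nat_lit 402) (nat_lit 339)) (XT.nd (nat_lit 78) (nat_lit 0) (nat_lit 0) (XT.lf (nat_lit 0) (nat_lit 21424429783) (nat_lit 76) (nat_lit 34123191276) (nat_lit 76) (nat_lit 22490447943) (nat_lit 25) (nat_lit 4) (nat_lit 26) (nat_lit 5) (nat_lit 26) (nat_lit 4) (nat_lit 460) (nat_lit 402) (nat_lit 338)) (XT.lf (nat_lit 0) (nat_lit 69471991132) (nat_lit 76) (nat_lit 12314700075) (nat_lit 76) (nat_lit 675655994) (nat_lit 25) (nat_lit 4) (nat_lit 26) (nat_lit 5) (nat_lit 26) (nat_lit 4) (nat_lit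 461) (nat_lit 402) (nat_lit 337)))) (XT.nd (nat_lit 156) (nat_lit 228) (nat_lit 0) (XT.nd (nat_lit 78) (nat_lit 0) (nat_lit 0) (XT.lf (nat_lit 0) (nat_lit 22870467415) (nat_lit 152) (nat_lit 52147424883) (nat_lit 0) (nat_lit 12088172873) (nat_lit 23) (nat_lit 5) (nat_lit 25) (nat_lit 4) (nat_lit 23) (nat_lit 4) (nat_lit 462) (nat_lit 402) (nat_lit 336)) (XT.lf (nat_lit 0) (nat_lit 48924269608) (nat_lit 152) (nat_lit 5005794464) (nat_lit 0) (nat_lit 38136973329) (nat_lit 23) (nat_lit 5) (nat_lit 25) (nat_lit 4) (nat_lit 23) (nat_lit 4) (nat_lit 463) (nat_lit 402) (nat_lit 335))) (XT.nd (nat_lit 78) (nat_lit 152) (nat_lit 0) (XT.lf (nat_lit 0) (nat_lit 48277166944) (nat_lit 76) (nat_lit 29924261936) (nat_lit 76) (nat_lit 19132334420) (nat_lit 22) (nat_lit 4) (nat_lit 23) (nat_lit 5) (nat_lit 23) (nat_lit 4) (nat_lit 464) (nat_lit 402) (nat_lit 334)) (XT.lf (nat_lit 0) (nat_lit 3036355110)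 (nat_lit 76) (nat_lit 3613919317) (nat_lit 152) (nat_lit 96343155708) (nat_lit 20) (nat_lit 5) (nat_lit 21) (nat_lit 5) (nat_lit 22) (nat_lit 4) (nat_lit 465) (nat_lit 402) (nat_lit 333))))) (XT.nd (nat_lit 234) (nat_lit 228) (nat_lit 0) (XT.nd (nat_lit 78) (nat_lit 76) (nat_lit 0) (XT.lf (nat_lit 0) (nat_lit 35412490102) (nat_lit 152) (nat_lit 48085255867) (nat_lit 0) (nat_lit 25412317658) (nat_lit 20) (nat_lit 5) (nat_lit 22) (nat_lit 4) (nat_lit 20) (nat_lit 4) (nat_lit 466) (nat_lit 402) (nat_lit 332)) (XT.nd (nat_lit 78) (nat_lit 0) (nat_lit 0) (XT.lf (nat_lit 0) (nat_lit 8211480203) (nat_lit 76) (nat_lit 58535221372) (nat_lit 76) (nat_lit 48531644830) (nat_lit 19) (nat_lit 4) (nat_lit 20) (nat_lit 5) (nat_lit 20) (nat_lit 4) (nat_lit 467) (nat_lit 402) (nat_lit 331)) (XT.lf (nat_lit 0) (nat_lit 71705930693) (nat_lit 76) (nat_lit 30176647703) (nat_lit 76) (nat_lit 20169919218) (nat_lit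 19) (nat_lit 4) (nat_lit 20) (nat_lit 5) (nat_lit 20) (nat_lit 4) (nat_lit 468) (nat_lit 402) (nat_lit 330)))) (XT.nd (nat_lit 156) (nat_lit 76) (nat_lit 0) (XT.nd (nat_lit 78) (nat_lit 0) (nat_lit 0) (XT.lf (nat_lit 0) (nat_lit 10211406765) (nat_lit 152) (nat_lit 118171916501) (nat_lit 0) (nat_lit 943215145) (nat_lit 17) (nat_lit 5) (nat_lit 19) (nat_lit 4) (nat_lit 17) (nat_lit 4) (nat_lit 469) (nat_lit 402) (nat_lit 329)) (XT.lf (nat_lit 0) (nat_lit 44110873207) (nat_lit 152) (nat_lit 58015351622) (nat_lit 0) (nat_lit 34840179474) (nat_lit 17) (nat_lit 5) (nat_lit 19) (nat_lit 4) (nat_lit 17) (nat_lit 4) (nat_lit 470) (nat_lit 402) (nat_lit 328))) (XT.nd (nat_lit 78) (nat_lit 0) (nat_lit 0) (XT.lf (nat_lit 0) (nat_lit 7282213064) (nat_lit 76) (nat_lit 73597819079) (nat_lit 76) (nat_lit 64324808573) (nat_lit 16) (nat_lit 4) (nat_lit 17) (nat_lit 5) (nat_lit 17) (nat_lit 4) (nat_lit 471)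 (nat_lit 402) (nat_lit 327)) (XT.lf (nat_lit 0) (nat_lit 81068062818) (nat_lit 76) (nat_lit 41091950876) (nat_lit 76) (nat_lit 31816795211) (nat_lit 16) (nat_lit 4) (nat_lit 17) (nat_lit 5) (nat_lit 17) (nat_lit 4) (nat_lit 472) (nat_lit 402) (nat_lit 326)))))) (XT.nd (nat_lit 546) (nat_lit 304) (nat_lit 0) (XT.nd (nat_lit 234) (nat_lit 228) (nat_lit 0) (XT.nd (nat_lit 78) (nat_lit 76) (nat_lit 0) (XT.lf (nat_lit 0) (nat_lit 3111082453) (nat_lit 152) (nat_lit 2806090420) (nat_lit 76) (nat_lit 157528316555) (nat_lit 15) (nat_lit 5) (nat_lit 17) (nat_lit 5) (nat_lit 16) (nat_lit 4) (nat_lit 473) (nat_lit 402) (nat_lit 325)) (XT.nd (nat_lit 78) (nat_lit 0) (nat_lit 0) (XT.lf (nat_lit 0) (nat_lit 41763120690) (nat_lit 152) (nat_lit 98459050260) (nat_lit 0) (nat_lit 33171471569) (nat_lit 14) (nat_lit 5) (nat_lit 16) (nat_lit 4) (nat_lit 14) (nat_lit 4) (nat_lit 474) (nat_lit 402) (nat_lit 324))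 (XT.lf (nat_lit 0) (nat_lit 83724833567) (nat_lit 152) (nat_lit 25263805717) (nat_lit 0) (nat_lit 75131607689) (nat_lit 14) (nat_lit 5) (nat_lit 16) (nat_lit 4) (nat_lit 14) (nat_lit 4) (nat_lit 475) (nat_lit 402) (nat_lit 323)))) (XT.nd (nat_lit 156) (nat_lit 152) (nat_lit 0) (XT.nd (nat_lit 78) (nat_lit 0) (nat_lit 0) (XT.lf (nat_lit 0) (nat_lit 56589442880) (nat_lit 76) (nat_lit 73801224052) (nat_lit 76) (nat_lit 65206538215) (nat_lit 13) (nat_lit 4) (nat_lit 14) (nat_lit 5) (nat_lit 14) (nat_lit 4) (nat_lit 476) (nat_lit 402) (nat_lit 322)) (XT.lf (nat_lit 0) (nat_lit 146399997971) (nat_lit 76) (nat_lit 35067087120) (nat_lit 76) (nat_lit 26471049469) (nat_lit 13) (nat_lit 4) (nat_lit 14) (nat_lit 5) (nat_lit 14) (nat_lit 4) (nat_lit 477) (nat_lit 402) (nat_lit 321))) (XT.nd (nat_lit 78) (nat_lit 0) (nat_lit 0) (XT.lf (nat_lit 0) (nat_lit 15318465139) (nat_lit 152) (nat_lit 198502404571)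 (nat_lit 0) (nat_lit 7358012055) (nat_lit 11) (nat_lit 5) (nat_lit 13) (nat_lit 4) (nat_lit 11) (nat_lit 4) (nat_lit 478) (nat_lit 402) (nat_lit 320)) (XT.lf (nat_lit 0) (nat_lit 61645357527) (nat_lit 152) (nat_lit 119884747875) (nat_lit 0) (nat_lit 53683831329) (nat_lit 11) (nat_lit 5) (nat_lit 13) (nat_lit 4) (nat_lit 11) (nat_lit 4) (nat_lit 479) (nat_lit 402) (nat_lit 319))))) (XT.nd (nat_lit 312) (nat_lit 228) (nat_lit 0) (XT.nd (nat_lit 156) (nat_lit 0) (nat_lit 0) (XT.nd (nat_lit 78) (nat_lit 76) (nat_lit 0) (XT.lf (nat_lit 0) (nat_lit 111666589082) (nat_lit 152) (nat_lit 35002082756) (nat_lit 0) (nat_lit 103704069261) (nat_lit 11) (nat_lit 5) (nat_lit 13) (nat_lit 4) (nat_lit 11) (nat_lit 4) (nat_lit 480) (nat_lit 402) (nat_lit 318)) (XT.lf (nat_lit 0) (nat_lit 59631614013) (nat_lit 76) (nat_lit 107481109655) (nat_lit 76) (nat_lit 99517669811) (nat_lit 10) (nat_lit 4) (nat_lit 11)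 (nat_lit 5) (nat_lit 11) (nat_lit 4) (nat_lit 481) (nat_lit 402) (nat_lit 317))) (XT.nd (nat_lit 78) (nat_lit 0) (nat_lit 0) (XT.lf (nat_lit 0) (nat_lit 163804581646) (nat_lit 76) (nat_lit 64136329583) (nat_lit 76) (nat_lit 56172037868) (nat_lit 10) (nat_lit 4) (nat_lit 11) (nat_lit 5) (nat_lit 11) (nat_lit 4) (nat_lit 482) (nat_lit 402) (nat_lit 316)) (XT.lf (nat_lit 0) (nat_lit 276290993782) (nat_lit 76) (nat_lit 17334492640) (nat_lit 76) (nat_lit 9369412153) (nat_lit 10) (nat_lit 4) (nat_lit 11) (nat_lit 5) (nat_lit 11) (nat_lit 4) (nat_lit 483) (nat_lit 402) (nat_lit 315)))) (XT.nd (nat_lit 156) (nat_lit 76) (nat_lit 0) (XT.nd (nat_lit 78) (nat_lit 0) (nat_lit 0) (XT.lf (nat_lit 0) (nat_lit 41838361279) (nat_lit 152) (nat_lit 246789542864) (nat_lit 0) (nat_lit 34462610511) (nat_lit 8) (nat_lit 5) (nat_lit 10) (nat_lit 4) (nat_lit 8) (nat_lit 4) (nat_lit 484) (nat_lit 402) (nat_lit 314))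 (XT.lf (nat_lit 0) (nat_lit 97826539924) (nat_lit 152) (nat_lit 156402410203) (nat_lit 0) (nat_lit 90450163005) (nat_lit 8) (nat_lit 5) (nat_lit 10) (nat_lit 4) (nat_lit 8) (nat_lit 4) (nat_lit 485) (nat_lit 402) (nat_lit 313))) (XT.nd (nat_lit 78) (nat_lit 76) (nat_lit 0) (XT.lf (nat_lit 0) (nat_lit 158285098641) (nat_lit 152) (nat_lit 58802252848) (nat_lit 0) (nat_lit 150908141952) (nat_lit 8) (nat_lit 5) (nat_lit 10) (nat_lit 4) (nat_lit 8) (nat_lit 4) (nat_lit 486) (nat_lit 402) (nat_lit 312)) (XT.lf (nat_lit 0) (nat_lit 49042610505) (nat_lit 76) (nat_lit 175709175827) (nat_lit 76) (nat_lit 168331682314) (nat_lit 7) (nat_lit 4) (nat_lit 8) (nat_lit 5) (nat_lit 8) (nat_lit 4) (nat_lit 487) (nat_lit 402) (nat_lit 311))))))))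
noncomputable def xc99 : XT := (XT.nd (nat_lit 2184) (nat_lit 0) (nat_lit 0) (XT.nd (nat_lit 1092) (nat_lit 228) (nat_lit 0) (XT.nd (nat_lit 546) (nat_lit 76) (nat_lit 0) (XT.nd (nat_lit 234) (nat_lit 152) (nat_lit 0) (XT.nd (nat_lit 78) (nat_lit 0) (nat_lit 0) (XT.lf (nat_lit 0) (nat_lit 168843003231) (nat_lit 76) (nat_lit 129292737350) (nat_lit 76) (nat_lit 121914746777) (nat_lit 7) (nat_lit 4) (nat_lit 8) (nat_lit 5) (nat_lit 8) (nat_lit 4) (nat_lit 488) (nat_lit 402) (nat_lit 310)) (XT.nd (nat_lit 78) (nat_lit 0) (nat_lit 0) (XT.lf (nat_lit 0) (nat_lit 298212431154) (nat_lit 76) (nat_lit 79170733480) (nat_lit 76) (nat_lit 71792282668) (nat_lit 7) (nat_lit 4) (nat_lit 8) (nat_lit 5) (nat_lit 8) (nat_lit 4) (nat_lit 489) (nat_lit 402) (nat_lit 309)) (XT.lf (nat_lit 0) (nat_lit 437917527922) (nat_lit 76) (nat_lit 25046144936) (nat_lit 76) (nat_lit 17667267975) (nat_lit 7) (nat_lit 4) (nat_lit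 8) (nat_lit 5) (nat_lit 8) (nat_lit 4) (nat_lit 490) (nat_lit 402) (nat_lit 308)))) (XT.nd (nat_lit 156) (nat_lit 0) (nat_lit 0) (XT.nd (nat_lit 78) (nat_lit 0) (nat_lit 0) (XT.lf (nat_lit 0) (nat_lit 41471144821) (nat_lit 152) (nat_lit 438196866122) (nat_lit 0) (nat_lit 34638485986) (nat_lit 5) (nat_lit 5) (nat_lit 7) (nat_lit 4) (nat_lit 5) (nat_lit 4) (nat_lit 491) (nat_lit 402) (nat_lit 307)) (XT.lf (nat_lit 0) (nat_lit 106228511867) (nat_lit 152) (nat_lit 344867969901) (nat_lit 0) (nat_lit 99395514741) (nat_lit 5) (nat_lit 5) (nat_lit 7) (nat_lit 4) (nat_lit 5) (nat_lit 4) (nat_lit 492) (nat_lit 402) (nat_lit 306))) (XT.nd (nat_lit 78) (nat_lit 0) (nat_lit 0) (XT.lf (nat_lit 0) (nat_lit 176160569134) (nat_lit 152) (nat_lit 244084980086) (nat_lit 0) (nat_lit 169327258776) (nat_lit 5) (nat_lit 5) (nat_lit 7) (nat_lit 4) (nat_lit 5) (nat_lit 4) (nat_lit 493) (nat_lit 402) (nat_lit 305))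 (XT.lf (nat_lit 0) (nat_lit 251681728812) (nat_lit 152) (nat_lit 135250664144) (nat_lit 0) (nat_lit 244848128426) (nat_lit 5) (nat_lit 5) (nat_lit 7) (nat_lit 4) (nat_lit 5) (nat_lit 4) (nat_lit 494) (nat_lit 402) (nat_lit 304))))) (XT.nd (nat_lit 234) (nat_lit 0) (nat_lit 0) (XT.nd (nat_lit 78) (nat_lit 76) (nat_lit 0) (XT.lf (nat_lit 0) (nat_lit 333239523701) (nat_lit 152) (nat_lit 17720077981) (nat_lit 0) (nat_lit 326405654769) (nat_lit 5) (nat_lit 5) (nat_lit 7) (nat_lit 4) (nat_lit 5) (nat_lit 4) (nat_lit 495) (nat_lit 402) (nat_lit 303)) (XT.nd (nat_lit 78) (nat_lit 0) (nat_lit 0) (XT.lf (nat_lit 0) (nat_lit 114953705883) (nat_lit 76) (nat_lit 309128192760) (nat_lit 76) (nat_lit 302294075174) (nat_lit 4) (nat_lit 4) (nat_lit 5) (nat_lit 5) (nat_lit 5) (nat_lit 4) (nat_lit 496) (nat_lit 402) (nat_lit 302)) (XT.lf (nat_lit 0) (nat_lit 259239695416) (nat_lit 76) (nat_lit 263431903094)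 (nat_lit 76) (nat_lit 256597555273) (nat_lit 4) (nat_lit 4) (nat_lit 5) (nat_lit 5) (nat_lit 5) (nat_lit 4) (nat_lit 497) (nat_lit 402) (nat_lit 301)))) (XT.nd (nat_lit 156) (nat_lit 0) (nat_lit 0) (XT.nd (nat_lit 78) (nat_lit 0) (nat_lit 0) (XT.lf (nat_lit 0) (nat_lit 415059810799) (nat_lit 76) (nat_lit 214084438191) (nat_lit 76) (nat_lit 207249877191) (nat_lit 4) (nat_lit 4) (nat_lit 5) (nat_lit 5) (nat_lit 5) (nat_lit 4) (nat_lit 498) (nat_lit 402) (nat_lit 300)) (XT.lf (nat_lit 0) (nat_lit 583337430495) (nat_lit 76) (nat_lit 160793368631) (nat_lit 76) (nat_lit 153958610242) (nat_lit 4) (nat_lit 4) (nat_lit 5) (nat_lit 5) (nat_lit 5) (nat_lit 4) (nat_lit 499) (nat_lit 402) (nat_lit 299))) (XT.nd (nat_lit 78) (nat_lit 0) (nat_lit 0) (XT.lf (nat_lit 0) (nat_lit 765069755212) (nat_lit 76) (nat_lit 103242895483) (nat_lit 76) (nat_lit 96407954326) (nat_lit 4) (nat_lit 4) (nat_lit 5) (nat_lit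 5) (nat_lit 5) (nat_lit 4) (nat_lit 500) (nat_lit 402) (nat_lit 298)) (XT.lf (nat_lit 0) (nat_lit 961333717245) (nat_lit 76) (nat_lit 41091978905) (nat_lit 76) (nat_lit 34256868519) (nat_lit 4) (nat_lit 4) (nat_lit 5) (nat_lit 5) (nat_lit 5) (nat_lit 4) (nat_lit 501) (nat_lit 402) (nat_lit 297)))))) (XT.nd (nat_lit 546) (nat_lit 76) (nat_lit 0) (XT.nd (nat_lit 234) (nat_lit 0) (nat_lit 0) (XT.nd (nat_lit 78) (nat_lit 0) (nat_lit 0) (XT.lf (nat_lit 0) (nat_lit 33374605281) (nat_lit 152) (nat_lit 1053745794159) (nat_lit 0) (nat_lit 27045654280) (nat_lit 2) (nat_lit 5) (nat_lit 4) (nat_lit 4) (nat_lit 2) (nat_lit 4) (nat_lit 502) (nat_lit 402) (nat_lit 296)) (XT.nd (nat_lit 78) (nat_lit 0) (nat_lit 0) (XT.lf (nat_lit 0) (nat_lit 107743657135) (nat_lit 152) (nat_lit 988364584197) (nat_lit 0) (nat_lit 101414571795) (nat_lit 2) (nat_lit 5) (nat_lit 4) (nat_lit 4) (nat_lit 2) (nat_lit 4) (nat_lit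 503) (nat_lit 402) (nat_lit 295)) (XT.lf (nat_lit 0) (nat_lit 188059283840) (nat_lit 152) (nat_lit 917758991283) (nat_lit 0) (nat_lit 181730074111) (nat_lit 2) (nat_lit 5) (nat_lit 4) (nat_lit 4) (nat_lit 2) (nat_lit 4) (nat_lit 504) (nat_lit 402) (nat_lit 294)))) (XT.nd (nat_lit 156) (nat_lit 0) (nat_lit 0) (XT.nd (nat_lit 78) (nat_lit 0) (nat_lit 0) (XT.lf (nat_lit 0) (nat_lit 274797429849) (nat_lit 152) (nat_lit 841510611905) (nat_lit 0) (nat_lit 268468104946) (nat_lit 2) (nat_lit 5) (nat_lit 4) (nat_lit 4) (nat_lit 2) (nat_lit 4) (nat_lit 505) (nat_lit 402) (nat_lit 293)) (XT.lf (nat_lit 0) (nat_lit 368472098990) (nat_lit 152) (nat_lit 759167603815) (nat_lit 0) (nat_lit 362142667444) (nat_lit 2) (nat_lit 5) (nat_lit 4) (nat_lit 4) (nat_lit 2) (nat_lit 4) (nat_lit 506) (nat_lit 402) (nat_lit 292))) (XT.nd (nat_lit 78) (nat_lit 0) (nat_lit 0) (XT.lf (nat_lit 0) (nat_lit 469638400415) (nat_lit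 152) (nat_lit 670242008445) (nat_lit 0) (nat_lit 463308870125) (nat_lit 2) (nat_lit 5) (nat_lit 4) (nat_lit 4) (nat_lit 2) (nat_lit 4) (nat_lit 507) (nat_lit 402) (nat_lit 291)) (XT.lf (nat_lit 0) (nat_lit 578895838131) (nat_lit 152) (nat_lit 574206859305) (nat_lit 0) (nat_lit 572566216412) (nat_lit 2) (nat_lit 5) (nat_lit 4) (nat_lit 4) (nat_lit 2) (nat_lit 4) (nat_lit 508) (nat_lit 402) (nat_lit 290))))) (XT.nd (nat_lit 234) (nat_lit 76) (nat_lit 0) (XT.nd (nat_lit 78) (nat_lit 0) (nat_lit 0) (XT.lf (nat_lit 0) (nat_lit 696891863622) (nat_lit 152) (nat_lit 470493059214) (nat_lit 0) (nat_lit 690562157245) (nat_lit 2) (nat_lit 5) (nat_lit 4) (nat_lit 4) (nat_lit 2) (nat_lit 4) (nat_lit 509) (nat_lit 402) (nat_lit 289)) (XT.nd (nat_lit 78) (nat_lit 0) (nat_lit 0) (XT.lf (nat_lit 0) (nat_lit 824325712593) (nat_lit 152) (nat_lit 358486007876) (nat_lit 0) (nat_lit 817995927831) (nat_lit 2) (nat_lit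 5) (nat_lit 4) (nat_lit 4) (nat_lit 2) (nat_lit 4) (nat_lit 510) (nat_lit 402) (nat_lit 288)) (XT.lf (nat_lit 0) (nat_lit 961952548594) (nat_lit 152) (nat_lit 237521959802) (nat_lit 0) (nat_lit 955622691253) (nat_lit 2) (nat_lit 5) (nat_lit 4) (nat_lit 4) (nat_lit 2) (nat_lit 4) (nat_lit 511) (nat_lit 402) (nat_lit 287)))) (XT.nd (nat_lit 156) (nat_lit 0) (nat_lit 0) (XT.nd (nat_lit 78) (nat_lit 76) (nat_lit 0) (XT.lf (nat_lit 0) (nat_lit 1110587938062) (nat_lit 152) (nat_lit 106884091002) (nat_lit 0) (nat_lit 1104258013517) (nat_lit 2) (nat_lit 5) (nat_lit 4) (nat_lit 4) (nat_lit 2) (nat_lit 4) (nat_lit 512) (nat_lit 402) (nat_lit 286)) (XT.lf (nat_lit 0) (nat_lit 36002752339) (nat_lit 76) (nat_lit 1235975798024) (nat_lit 76) (nat_lit 1229645811253) (nat_lit 1) (nat_lit 4) (nat_lit 2) (nat_lit 5) (nat_lit 2) (nat_lit 4) (nat_lit 513) (nat_lit 402) (nat_lit 285))) (XT.nd (nat_lit 78) (nat_lit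 0) (nat_lit 0) (XT.lf (nat_lit 0) (nat_lit 196396155095) (nat_lit 76) (nat_lit 1252805219226) (nat_lit 76) (nat_lit 1246475174840) (nat_lit 1) (nat_lit 4) (nat_lit 2) (nat_lit 5) (nat_lit 2) (nat_lit 4) (nat_lit 514) (nat_lit 402) (nat_lit 284)) (XT.lf (nat_lit 0) (nat_lit 369618269872) (nat_lit 76) (nat_lit 1270982423038) (nat_lit 76) (nat_lit 1264652325304) (nat_lit 1) (nat_lit 4) (nat_lit 2) (nat_lit 5) (nat_lit 2) (nat_lit 4) (nat_lit 515) (nat_lit 402) (nat_lit 283))))))) (XT.nd (nat_lit 1092) (nat_lit 0) (nat_lit 0) (XT.nd (nat_lit 546) (nat_lit 0) (nat_lit 0) (XT.nd (nat_lit 234) (nat_lit 0) (nat_lit 0) (XT.nd (nat_lit 78) (nat_lit 0) (nat_lit 0) (XT.lf (nat_lit 0) (nat_lit 556695598090) (nat_lit 76) (nat_lit 1290615126223) (nat_lit 76) (nat_lit 1284284979092) (nat_lit 1) (nat_lit 4) (nat_lit 2) (nat_lit 5) (nat_lit 2) (nat_lit 4) (nat_lit 516) (nat_lit 402) (nat_lit 282)) (XT.nd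 (nat_lit 78) (nat_lit 0) (nat_lit 0) (XT.lf (nat_lit 0) (nat_lit 758736746139) (nat_lit 76) (nat_lit 1311819670726) (nat_lit 76) (nat_lit 1305489477858) (nat_lit 1) (nat_lit 4) (nat_lit 2) (nat_lit 5) (nat_lit 2) (nat_lit 4) (nat_lit 517) (nat_lit 402) (nat_lit 281)) (XT.lf (nat_lit 0) (nat_lit 976938994896) (nat_lit 76) (nat_lit 1334721713108) (nat_lit 76) (nat_lit 1328391477890) (nat_lit 1) (nat_lit 4) (nat_lit 2) (nat_lit 5) (nat_lit 2) (nat_lit 4) (nat_lit 518) (nat_lit 402) (nat_lit 280)))) (XT.nd (nat_lit 156) (nat_lit 0) (nat_lit 0) (XT.nd (nat_lit 78) (nat_lit 0) (nat_lit 0) (XT.lf (nat_lit 0) (nat_lit 1212595394723) (nat_lit 76) (nat_lit 1359456969174) (nat_lit 76) (nat_lit 1353126694744) (nat_lit 1) (nat_lit 4) (nat_lit 2) (nat_lit 5) (nat_lit 2) (nat_lit 4) (nat_lit 519) (nat_lit 402) (nat_lit 279)) (XT.lf (nat_lit 0) (nat_lit 1467102427992) (nat_lit 76) (nat_lit 1386172018219)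 (nat_lit 76) (nat_lit 1379841707482) (nat_lit 1) (nat_lit 4) (nat_lit 2) (nat_lit 5) (nat_lit 2) (nat_lit 4) (nat_lit 520) (nat_lit 402) (nat_lit 278))) (XT.nd (nat_lit 78) (nat_lit 0) (nat_lit 0) (XT.lf (nat_lit 0) (nat_lit 1741968284527) (nat_lit 76) (nat_lit 1415025171647) (nat_lit 76) (nat_lit 1408694827291) (nat_lit 1) (nat_lit 4) (nat_lit 2) (nat_lit 5) (nat_lit 2) (nat_lit 4) (nat_lit 521) (nat_lit 402) (nat_lit 277)) (XT.lf (nat_lit 0) (nat_lit 2038821799035) (nat_lit 76) (nat_lit 1446187411106) (nat_lit 76) (nat_lit 1439857035622) (nat_lit 1) (nat_lit 4) (nat_lit 2) (nat_lit 5) (nat_lit 2) (nat_lit 4) (nat_lit 522) (nat_lit 402) (nat_lit 276))))) (XT.nd (nat_lit 234) (nat_lit 0) (nat_lit 0) (XT.nd (nat_lit 78) (nat_lit 0) (nat_lit 0) (XT.lf (nat_lit 0) (nat_lit 2359422103453) (nat_lit 76) (nat_lit 1479843401720) (nat_lit 76) (nat_lit 1473512997413) (nat_lit 1) (nat_lit 4) (nat_lit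 2) (nat_lit 5) (nat_lit 2) (nat_lit 4) (nat_lit 523) (nat_lit 402) (nat_lit 275)) (XT.nd (nat_lit 78) (nat_lit 0) (nat_lit 0) (XT.lf (nat_lit 0) (nat_lit 2705669051438) (nat_lit 76) (nat_lit 1516192586395) (nat_lit 76) (nat_lit 1509862155401) (nat_lit 1) (nat_lit 4) (nat_lit 2) (nat_lit 5) (nat_lit 2) (nat_lit 4) (nat_lit 524) (nat_lit 402) (nat_lit 274)) (XT.lf (nat_lit 0) (nat_lit 3079614476755) (nat_lit 76) (nat_lit 1555450367707) (nat_lit 76) (nat_lit 1549119912003) (nat_lit 1) (nat_lit 4) (nat_lit 2) (nat_lit 5) (nat_lit 2) (nat_lit 4) (nat_lit 525) (nat_lit 402) (nat_lit 273)))) (XT.nd (nat_lit 156) (nat_lit 0) (nat_lit 0) (XT.nd (nat_lit 78) (nat_lit 0) (nat_lit 0) (XT.lf (nat_lit 0) (nat_lit 3483474352294) (nat_lit 76) (nat_lit 1597849384362) (nat_lit 76) (nat_lit 1591518905777) (nat_lit 1) (nat_lit 4) (nat_lit 2) (nat_lit 5) (nat_lit 2) (nat_lit 4) (nat_lit 526) (nat_lit 402) (nat_lit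 272)) (XT.lf (nat_lit 0) (nat_lit 3919641921763) (nat_lit 76) (nat_lit 1643640889789) (nat_lit 76) (nat_lit 1637310390019) (nat_lit 1) (nat_lit 4) (nat_lit 2) (nat_lit 5) (nat_lit 2) (nat_lit 4) (nat_lit 527) (nat_lit 402) (nat_lit 271))) (XT.nd (nat_lit 78) (nat_lit 0) (nat_lit 0) (XT.lf (nat_lit 0) (nat_lit 4390701881870) (nat_lit 76) (nat_lit 1693096241060) (nat_lit 76) (nat_lit 1686765721674) (nat_lit 1) (nat_lit 4) (nat_lit 2) (nat_lit 5) (nat_lit 2) (nat_lit 4) (nat_lit 528) (nat_lit 402) (nat_lit 270)) (XT.lf (nat_lit 0) (nat_lit 4899445699044) (nat_lit 76) (nat_lit 1746508506922) (nat_lit 76) (nat_lit 1740177969373) (nat_lit 1) (nat_lit 4) (nat_lit 2) (nat_lit 5) (nat_lit 2) (nat_lit 4) (nat_lit 529) (nat_lit 402) (nat_lit 269)))))) (XT.nd (nat_lit 546) (nat_lit 0) (nat_lit 0) (XT.nd (nat_lit 234) (nat_lit 0) (nat_lit 0) (XT.nd (nat_lit 78) (nat_lit 0) (nat_lit 0) (XT.lf (nat_lit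 0) (nat_lit 5448888151463) (nat_lit 76) (nat_lit 1804194204506) (nat_lit 76) (nat_lit 1797863650139) (nat_lit 1) (nat_lit 4) (nat_lit 2) (nat_lit 5) (nat_lit 2) (nat_lit 4) (nat_lit 530) (nat_lit 402) (nat_lit 268)) (XT.nd (nat_lit 78) (nat_lit 0) (nat_lit 0) (XT.lf (nat_lit 0) (nat_lit 6042285194399) (nat_lit 76) (nat_lit 1866495174983) (nat_lit 76) (nat_lit 1860164605044) (nat_lit 1) (nat_lit 4) (nat_lit 2) (nat_lit 5) (nat_lit 2) (nat_lit 4) (nat_lit 531) (nat_lit 402) (nat_lit 267)) (XT.lf (nat_lit 0) (nat_lit 6683153254773) (nat_lit 76) (nat_lit 1933780609289) (nat_lit 76) (nat_lit 1927450024932) (nat_lit 1) (nat_lit 4) (nat_lit 2) (nat_lit 5) (nat_lit 2) (nat_lit 4) (nat_lit 532) (nat_lit 402) (nat_lit 266)))) (XT.nd (nat_lit 156) (nat_lit 0) (nat_lit 0) (XT.nd (nat_lit 78) (nat_lit 0) (nat_lit 0) (XT.lf (nat_lit 0) (nat_lit 7375290069240) (nat_lit 76) (nat_lit 2006449235923) (nat_lit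 76) (nat_lit 2000118638216) (nat_lit 1) (nat_lit 4) (nat_lit 2) (nat_lit 5) (nat_lit 2) (nat_lit 4) (nat_lit 533) (nat_lit 402) (nat_lit 265)) (XT.lf (nat_lit 0) (nat_lit 8122797189292) (nat_lit 76) (nat_lit 2084931683785) (nat_lit 76) (nat_lit 2078601073717) (nat_lit 1) (nat_lit 4) (nat_lit 2) (nat_lit 5) (nat_lit 2) (nat_lit 4) (nat_lit 534) (nat_lit 402) (nat_lit 264))) (XT.nd (nat_lit 78) (nat_lit 0) (nat_lit 0) (XT.lf (nat_lit 0) (nat_lit 8930104286753) (nat_lit 76) (nat_lit 2169693034047) (nat_lit 76) (nat_lit 2163362412533) (nat_lit 1) (nat_lit 4) (nat_lit 2) (nat_lit 5) (nat_lit 2) (nat_lit 4) (nat_lit 535) (nat_lit 402) (nat_lit 263)) (XT.lf (nat_lit 0) (nat_lit 9801995403681) (nat_lit 76) (nat_lit 2261235576192) (nat_lit 76) (nat_lit 2254904944080) (nat_lit 1) (nat_lit 4) (nat_lit 2) (nat_lit 5) (nat_lit 2) (nat_lit 4) (nat_lit 536) (nat_lit 402) (nat_lit 262))))) (XT.nd (nat_lit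 312) (nat_lit 0) (nat_lit 0) (XT.nd (nat_lit 156) (nat_lit 0) (nat_lit 0) (XT.nd (nat_lit 78) (nat_lit 0) (nat_lit 0) (XT.lf (nat_lit 0) (nat_lit 10743637302251) (nat_lit 76) (nat_lit 2360101784544) (nat_lit 76) (nat_lit 2353771142619) (nat_lit 1) (nat_lit 4) (nat_lit 2) (nat_lit 5) (nat_lit 2) (nat_lit 4) (nat_lit 537) (nat_lit 402) (nat_lit 261)) (XT.lf (nat_lit 0) (nat_lit 11760610082601) (nat_lit 76) (nat_lit 2466877532929) (nat_lit 76) (nat_lit 2460546881918) (nat_lit 1) (nat_lit 4) (nat_lit 2) (nat_lit 5) (nat_lit 2) (nat_lit 4) (nat_lit 538) (nat_lit 402) (nat_lit 260))) (XT.nd (nat_lit 78) (nat_lit 0) (nat_lit 0) (XT.lf (nat_lit 0) (nat_lit 12858940250099) (nat_lit 76) (nat_lit 2582195566524) (nat_lit 76) (nat_lit 2575864907100) (nat_lit 1) (nat_lit 4) (nat_lit 2) (nat_lit 5) (nat_lit 2) (nat_lit 4) (nat_lit 539) (nat_lit 402) (nat_lit 259)) (XT.lf (nat_lit 0) (nat_lit 14045136427957)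 (nat_lit 76) (nat_lit 2706739251454) (nat_lit 76) (nat_lit 2700408584240) (nat_lit 1) (nat_lit 4) (nat_lit 2) (nat_lit 5) (nat_lit 2) (nat_lit 4) (nat_lit 540) (nat_lit 402) (nat_lit 258)))) (XT.nd (nat_lit 156) (nat_lit 0) (nat_lit 0) (XT.nd (nat_lit 78) (nat_lit 0) (nat_lit 0) (XT.lf (nat_lit 0) (nat_lit 15326227926860) (nat_lit 76) (nat_lit 2841246624369) (nat_lit 76) (nat_lit 2834915949943) (nat_lit 1) (nat_lit 4) (nat_lit 2) (nat_lit 5) (nat_lit 2) (nat_lit 4) (nat_lit 541) (nat_lit 402) (nat_lit 257)) (XT.lf (nat_lit 0) (nat_lit 16709806400135) (nat_lit 76) (nat_lit 2986514765999) (nat_lit 76) (nat_lit 2980184084894) (nat_lit 1) (nat_lit 4) (nat_lit 2) (nat_lit 5) (nat_lit 2) (nat_lit 4) (nat_lit 542) (nat_lit 402) (nat_lit 256))) (XT.nd (nat_lit 78) (nat_lit 0) (nat_lit 0) (XT.lf (nat_lit 0) (nat_lit 18204070831326) (nat_lit 76) (nat_lit 3143404524590) (nat_lit 76) (nat_lit 3137073837302)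 (nat_lit 1) (nat_lit 4) (nat_lit 2) (nat_lit 5) (nat_lit 2) (nat_lit 4) (nat_lit 543) (nat_lit 402) (nat_lit 255)) (XT.lf (nat_lit 0) (nat_lit 19817876120768) (nat_lit 76) (nat_lit 3312845617231) (nat_lit 76) (nat_lit 3306514924216) (nat_lit 1) (nat_lit 4) (nat_lit 2) (nat_lit 5) (nat_lit 2) (nat_lit 4) (nat_lit 544) (nat_lit 402) (nat_lit 254))))))))
noncomputable def xc100 : XT := (XT.nd (nat_lit 2184) (nat_lit 2280) (nat_lit 0) (XT.nd (nat_lit 1092) (nat_lit 1748) (nat_lit 0) (XT.nd (nat_lit 546) (nat_lit 1748) (nat_lit 0) (XT.nd (nat_lit 234) (nat_lit 304) (nat_lit 0) (XT.nd (nat_lit 78) (nat_lit 304) (nat_lit 0) (XT.lf (nat_lit 0) (nat_lit 806210763) (nat_lit 0) (nat_lit 806210763) (nat_lit 228) (nat_lit 1735769664) (nat_lit 110) (nat_lit 5) (nat_lit 110) (nat_lit 3) (nat_lit 113) (nat_lit 3) (nat_lit 403) (nat_lit 403) (nat_lit 394)) (XT.nd (nat_lit 78) (nat_lit 304) (nat_lit 0) (XT.lf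 (nat_lit 0) (nat_lit 5101977853) (nat_lit 0) (nat_lit 383139937) (nat_lit 228) (nat_lit 1308220354) (nat_lit 110) (nat_lit 5) (nat_lit 110) (nat_lit 3) (nat_lit 113) (nat_lit 3) (nat_lit 404) (nat_lit 403) (nat_lit 393)) (XT.lf (nat_lit 0) (nat_lit 831227642) (nat_lit 304) (nat_lit 5010790126) (nat_lit 380) (nat_lit 1065731475) (nat_lit 106) (nat_lit 5) (nat_lit 110) (nat_lit 5) (nat_lit 111) (nat_lit 5) (nat_lit 405) (nat_lit 403) (nat_lit 392)))) (XT.nd (nat_lit 156) (nat_lit 304) (nat_lit 0) (XT.nd (nat_lit 78) (nat_lit 0) (nat_lit 0) (XT.lf (nat_lit 0) (nat_lit 2925351194) (nat_lit 304) (nat_lit 1338027902) (nat_lit 380) (nat_lit 2776914005) (nat_lit 106) (nat_lit 5) (nat_lit 110) (nat_lit 5) (nat_lit 111) (nat_lit 5) (nat_lit 406) (nat_lit 403) (nat_lit 391)) (XT.lf (nat_lit 76) (nat_lit 2636543188) (nat_lit 0) (nat_lit 2425722179) (nat_lit 380) (nat_lit 2131185775) (nat_lit 107) (nat_lit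 5) (nat_lit 106) (nat_lit 5) (nat_lit 111) (nat_lit 5) (nat_lit 407) (nat_lit 403) (nat_lit 390))) (XT.nd (nat_lit 78) (nat_lit 304) (nat_lit 0) (XT.lf (nat_lit 76) (nat_lit 6884408897) (nat_lit 0) (nat_lit 345192123) (nat_lit 380) (nat_lit 140532537) (nat_lit 107) (nat_lit 5) (nat_lit 106) (nat_lit 5) (nat_lit 111) (nat_lit 5) (nat_lit 408) (nat_lit 403) (nat_lit 389)) (XT.lf (nat_lit 0) (nat_lit 1885909831) (nat_lit 380) (nat_lit 3674416456) (nat_lit 76) (nat_lit 1998618968) (nat_lit 102) (nat_lit 5) (nat_lit 107) (nat_lit 5) (nat_lit 103) (nat_lit 5) (nat_lit 409) (nat_lit 403) (nat_lit 388))))) (XT.nd (nat_lit 234) (nat_lit 836) (nat_lit 0) (XT.nd (nat_lit 78) (nat_lit 532) (nat_lit 0) (XT.lf (nat_lit 0) (nat_lit 764139259) (nat_lit 380) (nat_lit 3186045398) (nat_lit 456) (nat_lit 3821743635) (nat_lit 97) (nat_lit 5) (nat_lit 102) (nat_lit 5) (nat_lit 103) (nat_lit 5) (nat_lit 410) (nat_lit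 403) (nat_lit 387)) (XT.nd (nat_lit 78) (nat_lit 532) (nat_lit 0) (XT.lf (nat_lit 0) (nat_lit 5638720517) (nat_lit 380) (nat_lit 492285826) (nat_lit 456) (nat_lit 1874852702) (nat_lit 97) (nat_lit 5) (nat_lit 102) (nat_lit 5) (nat_lit 103) (nat_lit 5) (nat_lit 411) (nat_lit 403) (nat_lit 386)) (XT.lf (nat_lit 0) (nat_lit 198697599) (nat_lit 532) (nat_lit 5679011482) (nat_lit 76) (nat_lit 2381791065) (nat_lit 90) (nat_lit 5) (nat_lit 97) (nat_lit 5) (nat_lit 91) (nat_lit 5) (nat_lit 412) (nat_lit 403) (nat_lit 385)))) (XT.nd (nat_lit 156) (nat_lit 304) (nat_lit 0) (XT.nd (nat_lit 78) (nat_lit 532) (nat_lit 0) (XT.lf (nat_lit 0) (nat_lit 2282215473) (nat_lit 532) (nat_lit 666715803) (nat_lit 76) (nat_lit 5584992555) (nat_lit 90) (nat_lit 5) (nat_lit 97) (nat_lit 5) (nat_lit 91) (nat_lit 5) (nat_lit 413) (nat_lit 403) (nat_lit 384)) (XT.lf (nat_lit 0) (nat_lit 4533729910) (nat_lit 608) (nat_lit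 3973002015) (nat_lit 76) (nat_lit 323480052) (nat_lit 83) (nat_lit 5) (nat_lit 91) (nat_lit 5) (nat_lit 84) (nat_lit 5) (nat_lit 414) (nat_lit 403) (nat_lit 383))) (XT.nd (nat_lit 78) (nat_lit 76) (nat_lit 0) (XT.lf (nat_lit 0) (nat_lit 1584263504) (nat_lit 228) (nat_lit 5396795835) (nat_lit 304) (nat_lit 2167902933) (nat_lit 80) (nat_lit 5) (nat_lit 83) (nat_lit 5) (nat_lit 84) (nat_lit 5) (nat_lit 415) (nat_lit 403) (nat_lit 382)) (XT.lf (nat_lit 0) (nat_lit 120901075) (nat_lit 304) (nat_lit 1811346844) (nat_lit 76) (nat_lit 7561006039) (nat_lit 79) (nat_lit 5) (nat_lit 83) (nat_lit 5) (nat_lit 80) (nat_lit 5) (nat_lit 416) (nat_lit 403) (nat_lit 381)))))) (XT.nd (nat_lit 546) (nat_lit 684) (nat_lit 0) (XT.nd (nat_lit 234) (nat_lit 608) (nat_lit 0) (XT.nd (nat_lit 78) (nat_lit 228) (nat_lit 0) (XT.lf (nat_lit 0) (nat_lit 2523507443) (nat_lit 304) (nat_lit 5462648171) (nat_lit 76) (nat_lit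 1870614537) (nat_lit 76) (nat_lit 5) (nat_lit 80) (nat_lit 5) (nat_lit 77) (nat_lit 5) (nat_lit 417) (nat_lit 403) (nat_lit 380)) (XT.nd (nat_lit 78) (nat_lit 0) (nat_lit 0) (XT.lf (nat_lit 0) (nat_lit 815314148) (nat_lit 228) (nat_lit 4321726467) (nat_lit 304) (nat_lit 5110840296) (nat_lit 73) (nat_lit 5) (nat_lit 76) (nat_lit 5) (nat_lit 77) (nat_lit 5) (nat_lit 418) (nat_lit 403) (nat_lit 379)) (XT.lf (nat_lit 0) (nat_lit 7781778148) (nat_lit 228) (nat_lit 229902250) (nat_lit 304) (nat_lit 2654448159) (nat_lit 73) (nat_lit 5) (nat_lit 76) (nat_lit 5) (nat_lit 77) (nat_lit 5) (nat_lit 419) (nat_lit 403) (nat_lit 378)))) (XT.nd (nat_lit 156) (nat_lit 152) (nat_lit 0) (XT.nd (nat_lit 78) (nat_lit 152) (nat_lit 0) (XT.lf (nat_lit 0) (nat_lit 111800354) (nat_lit 304) (nat_lit 6937875395) (nat_lit 76) (nat_lit 4059110342) (nat_lit 69) (nat_lit 5) (nat_lit 73) (nat_lit 5) (nat_lit 70) (nat_lit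 5) (nat_lit 420) (nat_lit 403) (nat_lit 377)) (XT.lf (nat_lit 0) (nat_lit 182840929) (nat_lit 152) (nat_lit 2775252943) (nat_lit 228) (nat_lit 8623082169) (nat_lit 67) (nat_lit 5) (nat_lit 69) (nat_lit 5) (nat_lit 70) (nat_lit 5) (nat_lit 421) (nat_lit 403) (nat_lit 376))) (XT.nd (nat_lit 78) (nat_lit 152) (nat_lit 0) (XT.lf (nat_lit 0) (nat_lit 6184734681) (nat_lit 228) (nat_lit 3983907514) (nat_lit 76) (nat_lit 1910510794) (nat_lit 67) (nat_lit 5) (nat_lit 70) (nat_lit 5) (nat_lit 68) (nat_lit 5) (nat_lit 422) (nat_lit 403) (nat_lit 375)) (XT.lf (nat_lit 0) (nat_lit 4036573583) (nat_lit 152) (nat_lit 5722230519) (nat_lit 228) (nat_lit 2851026968) (nat_lit 65) (nat_lit 5) (nat_lit 67) (nat_lit 5) (nat_lit 68) (nat_lit 5) (nat_lit 423) (nat_lit 403) (nat_lit 374))))) (XT.nd (nat_lit 234) (nat_lit 304) (nat_lit 0) (XT.nd (nat_lit 78) (nat_lit 304) (nat_lit 0) (XT.lf (nat_lit 0) (nat_lit 447099800)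 (nat_lit 228) (nat_lit 380429739) (nat_lit 76) (nat_lit 12351955800) (nat_lit 64) (nat_lit 5) (nat_lit 67) (nat_lit 5) (nat_lit 65) (nat_lit 5) (nat_lit 424) (nat_lit 403) (nat_lit 373)) (XT.nd (nat_lit 78) (nat_lit 152) (nat_lit 0) (XT.lf (nat_lit 0) (nat_lit 4105643237) (nat_lit 228) (nat_lit 5170936714) (nat_lit 76) (nat_lit 4492165475) (nat_lit 62) (nat_lit 5) (nat_lit 65) (nat_lit 5) (nat_lit 63) (nat_lit 5) (nat_lit 425) (nat_lit 403) (nat_lit 372)) (XT.lf (nat_lit 0) (nat_lit 3977494661) (nat_lit 152) (nat_lit 4136292589) (nat_lit 228) (nat_lit 6286810674) (nat_lit 60) (nat_lit 5) (nat_lit 62) (nat_lit 5) (nat_lit 63) (nat_lit 5) (nat_lit 426) (nat_lit 403) (nat_lit 371)))) (XT.nd (nat_lit 156) (nat_lit 152) (nat_lit 0) (XT.nd (nat_lit 78) (nat_lit 152) (nat_lit 0) (XT.lf (nat_lit 0) (nat_lit 12552440239) (nat_lit 228) (nat_lit 1070537725) (nat_lit 76) (nat_lit 1451236667) (nat_lit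 60) (nat_lit 5) (nat_lit 63) (nat_lit 5) (nat_lit 61) (nat_lit 4) (nat_lit 427) (nat_lit 403) (nat_lit 370)) (XT.lf (nat_lit 0) (nat_lit 1740699877) (nat_lit 152) (nat_lit 6541968197) (nat_lit 76) (nat_lit 7494205356) (nat_lit 58) (nat_lit 5) (nat_lit 60) (nat_lit 5) (nat_lit 59) (nat_lit 5) (nat_lit 428) (nat_lit 403) (nat_lit 369))) (XT.nd (nat_lit 78) (nat_lit 0) (nat_lit 0) (XT.lf (nat_lit 0) (nat_lit 3916585379) (nat_lit 152) (nat_lit 2352151321) (nat_lit 228) (nat_lit 10256907364) (nat_lit 56) (nat_lit 5) (nat_lit 58) (nat_lit 5) (nat_lit 59) (nat_lit 5) (nat_lit 429) (nat_lit 403) (nat_lit 368)) (XT.lf (nat_lit 0) (nat_lit 11377813541) (nat_lit 228) (nat_lit 1944826156) (nat_lit 76) (nat_lit 3994176271) (nat_lit 56) (nat_lit 5) (nat_lit 59) (nat_lit 5) (nat_lit 57) (nat_lit 4) (nat_lit 430) (nat_lit 403) (nat_lit 367))))))) (XT.nd (nat_lit 1092) (nat_lit 1140) (nat_lit 0) (XT.nd (nat_lit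 546) (nat_lit 456) (nat_lit 0) (XT.nd (nat_lit 234) (nat_lit 380) (nat_lit 0) (XT.nd (nat_lit 78) (nat_lit 228) (nat_lit 0) (XT.lf (nat_lit 0) (nat_lit 9908430271) (nat_lit 76) (nat_lit 7228997617) (nat_lit 152) (nat_lit 1014511961) (nat_lit 55) (nat_lit 5) (nat_lit 56) (nat_lit 5) (nat_lit 57) (nat_lit 4) (nat_lit 431) (nat_lit 403) (nat_lit 366)) (XT.nd (nat_lit 78) (nat_lit 0) (nat_lit 0) (XT.lf (nat_lit 0) (nat_lit 3754674913) (nat_lit 152) (nat_lit 421741605) (nat_lit 228) (nat_lit 14862156692) (nat_lit 52) (nat_lit 5) (nat_lit 54) (nat_lit 5) (nat_lit 55) (nat_lit 5) (nat_lit 432) (nat_lit 403) (nat_lit 365)) (XT.lf (nat_lit 0) (nat_lit 10069552342) (nat_lit 228) (nat_lit 3095547085) (nat_lit 76) (nat_lit 6801592776) (nat_lit 52) (nat_lit 5) (nat_lit 55) (nat_lit 5) (nat_lit 53) (nat_lit 4) (nat_lit 433) (nat_lit 403) (nat_lit 364)))) (XT.nd (nat_lit 156) (nat_lit 76) (nat_lit 0) (XT.nd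 (nat_lit 78) (nat_lit 228) (nat_lit 0) (XT.lf (nat_lit 0) (nat_lit 10488934638) (nat_lit 76) (nat_lit 6156406381) (nat_lit 152) (nat_lit 4306825844) (nat_lit 51) (nat_lit 5) (nat_lit 52) (nat_lit 5) (nat_lit 53) (nat_lit 4) (nat_lit 434) (nat_lit 403) (nat_lit 363)) (XT.lf (nat_lit 0) (nat_lit 1798501884) (nat_lit 228) (nat_lit 18684701968) (nat_lit 76) (nat_lit 1517598450) (nat_lit 48) (nat_lit 5) (nat_lit 51) (nat_lit 5) (nat_lit 49) (nat_lit 4) (nat_lit 435) (nat_lit 403) (nat_lit 362))) (XT.nd (nat_lit 78) (nat_lit 76) (nat_lit 0) (XT.lf (nat_lit 0) (nat_lit 8562020318) (nat_lit 228) (nat_lit 4690536024) (nat_lit 76) (nat_lit 9839629220) (nat_lit 48) (nat_lit 5) (nat_lit 51) (nat_lit 5) (nat_lit 49) (nat_lit 4) (nat_lit 436) (nat_lit 403) (nat_lit 361)) (XT.lf (nat_lit 0) (nat_lit 10880677358) (nat_lit 76) (nat_lit 5200423645) (nat_lit 152) (nat_lit 8172621710) (nat_lit 47) (nat_lit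 5) (nat_lit 48) (nat_lit 5) (nat_lit 49) (nat_lit 4) (nat_lit 437) (nat_lit 403) (nat_lit 360))))) (XT.nd (nat_lit 234) (nat_lit 228) (nat_lit 0) (XT.nd (nat_lit 78) (nat_lit 152) (nat_lit 0) (XT.lf (nat_lit 0) (nat_lit 2412378869) (nat_lit 76) (nat_lit 22016329692) (nat_lit 76) (nat_lit 1061315810) (nat_lit 46) (nat_lit 4) (nat_lit 47) (nat_lit 5) (nat_lit 47) (nat_lit 4) (nat_lit 438) (nat_lit 403) (nat_lit 359)) (XT.nd (nat_lit 78) (nat_lit 76) (nat_lit 0) (XT.lf (nat_lit 0) (nat_lit 6751568065) (nat_lit 152) (nat_lit 6966109526) (nat_lit 76) (nat_lit 13057716956) (nat_lit 45) (nat_lit 5) (nat_lit 47) (nat_lit 5) (nat_lit 46) (nat_lit 4) (nat_lit 439) (nat_lit 403) (nat_lit 358)) (XT.lf (nat_lit 0) (nat_lit 10869454769) (nat_lit 76) (nat_lit 4481101303) (nat_lit 152) (nat_lit 12793361213) (nat_lit 44) (nat_lit 5) (nat_lit 45) (nat_lit 5) (nat_lit 46) (nat_lit 4) (nat_lit 440) (nat_lit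 403) (nat_lit 357)))) (XT.nd (nat_lit 156) (nat_lit 76) (nat_lit 0) (XT.nd (nat_lit 78) (nat_lit 76) (nat_lit 0) (XT.lf (nat_lit 0) (nat_lit 739818381) (nat_lit 76) (nat_lit 24200380122) (nat_lit 76) (nat_lit 4657505662) (nat_lit 43) (nat_lit 4) (nat_lit 44) (nat_lit 5) (nat_lit 44) (nat_lit 4) (nat_lit 441) (nat_lit 403) (nat_lit 356)) (XT.lf (nat_lit 0) (nat_lit 4481193632) (nat_lit 152) (nat_lit 10261945885) (nat_lit 76) (nat_lit 16372028000) (nat_lit 42) (nat_lit 5) (nat_lit 44) (nat_lit 5) (nat_lit 43) (nat_lit 4) (nat_lit 442) (nat_lit 403) (nat_lit 355))) (XT.nd (nat_lit 78) (nat_lit 0) (nat_lit 0) (XT.lf (nat_lit 0) (nat_lit 10131958059) (nat_lit 76) (nat_lit 4171782955) (nat_lit 152) (nat_lit 18424259630) (nat_lit 41) (nat_lit 5) (nat_lit 42) (nat_lit 5) (nat_lit 43) (nat_lit 4) (nat_lit 443) (nat_lit 403) (nat_lit 354)) (XT.lf (nat_lit 0) (nat_lit 25335198692) (nat_lit 152) (nat_lit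 1963835291) (nat_lit 0) (nat_lit 7136978765) (nat_lit 41) (nat_lit 5) (nat_lit 43) (nat_lit 4) (nat_lit 41) (nat_lit 4) (nat_lit 444) (nat_lit 403) (nat_lit 353)))))) (XT.nd (nat_lit 546) (nat_lit 608) (nat_lit 0) (XT.nd (nat_lit 234) (nat_lit 304) (nat_lit 0) (XT.nd (nat_lit 78) (nat_lit 76) (nat_lit 0) (XT.lf (nat_lit 0) (nat_lit 1517297294) (nat_lit 152) (nat_lit 15071609069) (nat_lit 76) (nat_lit 19642117671) (nat_lit 39) (nat_lit 5) (nat_lit 41) (nat_lit 5) (nat_lit 40) (nat_lit 4) (nat_lit 445) (nat_lit 403) (nat_lit 352)) (XT.nd (nat_lit 78) (nat_lit 0) (nat_lit 0) (XT.lf (nat_lit 0) (nat_lit 8179919765) (nat_lit 76) (nat_lit 4529070307) (nat_lit 152) (nat_lit 25424471012) (nat_lit 38) (nat_lit 5) (nat_lit 39) (nat_lit 5) (nat_lit 40) (nat_lit 4) (nat_lit 446) (nat_lit 403) (nat_lit 351)) (XT.lf (nat_lit 0) (nat_lit 25387330283) (nat_lit 152) (nat_lit 6292014764) (nat_lit 0) (nat_lit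 8461443713) (nat_lit 38) (nat_lit 5) (nat_lit 40) (nat_lit 4) (nat_lit 38) (nat_lit 4) (nat_lit 447) (nat_lit 403) (nat_lit 350)))) (XT.nd (nat_lit 156) (nat_lit 76) (nat_lit 0) (XT.nd (nat_lit 78) (nat_lit 152) (nat_lit 0) (XT.lf (nat_lit 0) (nat_lit 20084140053) (nat_lit 76) (nat_lit 19563317094) (nat_lit 76) (nat_lit 2615844523) (nat_lit 37) (nat_lit 4) (nat_lit 38) (nat_lit 5) (nat_lit 38) (nat_lit 4) (nat_lit 448) (nat_lit 403) (nat_lit 349)) (XT.lf (nat_lit 0) (nat_lit 4278123332) (nat_lit 76) (nat_lit 5936099235) (nat_lit 152) (nat_lit 34301498592) (nat_lit 35) (nat_lit 5) (nat_lit 36) (nat_lit 5) (nat_lit 37) (nat_lit 4) (nat_lit 449) (nat_lit 403) (nat_lit 348))) (XT.nd (nat_lit 78) (nat_lit 76) (nat_lit 0) (XT.lf (nat_lit 0) (nat_lit 24729827656) (nat_lit 152) (nat_lit 13146953746) (nat_lit 0) (nat_lit 9002081245) (nat_lit 35) (nat_lit 5) (nat_lit 37) (nat_lit 4) (nat_lit 35) (nat_lit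 4) (nat_lit 450) (nat_lit 403) (nat_lit 347)) (XT.lf (nat_lit 0) (nat_lit 16733085369) (nat_lit 76) (nat_lit 24199745643) (nat_lit 76) (nat_lit 8456132878) (nat_lit 34) (nat_lit 4) (nat_lit 35) (nat_lit 5) (nat_lit 35) (nat_lit 4) (nat_lit 451) (nat_lit 403) (nat_lit 346))))) (XT.nd (nat_lit 312) (nat_lit 304) (nat_lit 0) (XT.nd (nat_lit 156) (nat_lit 152) (nat_lit 0) (XT.nd (nat_lit 78) (nat_lit 76) (nat_lit 0) (XT.lf (nat_lit 0) (nat_lit 6353834180) (nat_lit 152) (nat_lit 2542328738) (nat_lit 76) (nat_lit 43164455899) (nat_lit 33) (nat_lit 5) (nat_lit 35) (nat_lit 5) (nat_lit 34) (nat_lit 4) (nat_lit 452) (nat_lit 403) (nat_lit 345)) (XT.lf (nat_lit 0) (nat_lit 22823710436) (nat_lit 152) (nat_lit 23810074699) (nat_lit 0) (nat_lit 8220093143) (nat_lit 32) (nat_lit 5) (nat_lit 34) (nat_lit 4) (nat_lit 32) (nat_lit 4) (nat_lit 453) (nat_lit 403) (nat_lit 344))) (XT.nd (nat_lit 78) (nat_lit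 76) (nat_lit 0) (XT.lf (nat_lit 0) (nat_lit 9797199700) (nat_lit 76) (nat_lit 31323940775) (nat_lit 76) (nat_lit 16708661238) (nat_lit 31) (nat_lit 4) (nat_lit 32) (nat_lit 5) (nat_lit 32) (nat_lit 4) (nat_lit 454) (nat_lit 403) (nat_lit 343)) (XT.lf (nat_lit 0) (nat_lit 486561205) (nat_lit 152) (nat_lit 13614030604) (nat_lit 76) (nat_lit 46892324503) (nat_lit 30) (nat_lit 5) (nat_lit 32) (nat_lit 5) (nat_lit 31) (nat_lit 4) (nat_lit 455) (nat_lit 403) (nat_lit 342)))) (XT.nd (nat_lit 156) (nat_lit 228) (nat_lit 0) (XT.nd (nat_lit 78) (nat_lit 0) (nat_lit 0) (XT.lf (nat_lit 0) (nat_lit 18846920652) (nat_lit 152) (nat_lit 40177064650) (nat_lit 0) (nat_lit 5294998054) (nat_lit 29) (nat_lit 5) (nat_lit 31) (nat_lit 4) (nat_lit 29) (nat_lit 4) (nat_lit 456) (nat_lit 403) (nat_lit 341)) (XT.lf (nat_lit 0) (nat_lit 39398409898) (nat_lit 152) (nat_lit 2617026809) (nat_lit 0) (nat_lit 25837915202)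 (nat_lit 29) (nat_lit 5) (nat_lit 31) (nat_lit 4) (nat_lit 29) (nat_lit 4) (nat_lit 457) (nat_lit 403) (nat_lit 340))) (XT.nd (nat_lit 78) (nat_lit 152) (nat_lit 0) (XT.lf (nat_lit 0) (nat_lit 39895065676) (nat_lit 76) (nat_lit 22634496401) (nat_lit 76) (nat_lit 9066064578) (nat_lit 28) (nat_lit 4) (nat_lit 29) (nat_lit 5) (nat_lit 29) (nat_lit 4) (nat_lit 458) (nat_lit 403) (nat_lit 339)) (XT.lf (nat_lit 0) (nat_lit 10515507646) (nat_lit 76) (nat_lit 1066842671) (nat_lit 152) (nat_lit 64007895076) (nat_lit 26) (nat_lit 5) (nat_lit 27) (nat_lit 5) (nat_lit 28) (nat_lit 4) (nat_lit 459) (nat_lit 403) (nat_lit 338))))))))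
noncomputable def xc101 : XT := (XT.nd (nat_lit 2184) (nat_lit 532) (nat_lit 0) (XT.nd (nat_lit 1092) (nat_lit 608) (nat_lit 0) (XT.nd (nat_lit 546) (nat_lit 304) (nat_lit 0) (XT.nd (nat_lit 234) (nat_lit 380) (nat_lit 0) (XT.nd (nat_lit 78) (nat_lit 76) (nat_lit 0) (XT.lf (nat_lit 0) (nat_lit 34792793854) (nat_lit 152) (nat_lit 22764479195) (nat_lit 0) (nat_lit 22216325500) (nat_lit 26) (nat_lit 5) (nat_lit 28) (nat_lit 4) (nat_lit 26) (nat_lit 4) (nat_lit 460) (nat_lit 403) (nat_lit 337)) (XT.nd (nat_lit 78) (nat_lit 0) (nat_lit 0) (XT.lf (nat_lit 0) (nat_lit 24061594639) (nat_lit 76) (nat_lit 36382791400) (nat_lit 76) (nat_lit 23800489020) (nat_lit 25) (nat_lit 4) (nat_lit 26) (nat_lit 5) (nat_lit 26) (nat_lit 4) (nat_lit 461) (nat_lit 403) (nat_lit 336)) (XT.lf (nat_lit 0) (nat_lit 75884574935) (nat_lit 76) (nat_lit 12864454620) (nat_lit 76) (nat_lit 276750364) (nat_lit 25) (nat_lit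 4) (nat_lit 26) (nat_lit 5) (nat_lit 26) (nat_lit 4) (nat_lit 462) (nat_lit 403) (nat_lit 335)))) (XT.nd (nat_lit 156) (nat_lit 228) (nat_lit 0) (XT.nd (nat_lit 78) (nat_lit 0) (nat_lit 0) (XT.lf (nat_lit 0) (nat_lit 25129591847) (nat_lit 152) (nat_lit 55440918271) (nat_lit 0) (nat_lit 13469678891) (nat_lit 23) (nat_lit 5) (nat_lit 25) (nat_lit 4) (nat_lit 23) (nat_lit 4) (nat_lit 463) (nat_lit 403) (nat_lit 334)) (XT.lf (nat_lit 0) (nat_lit 53235884360) (nat_lit 152) (nat_lit 4593016723) (nat_lit 0) (nat_lit 41571683221) (nat_lit 23) (nat_lit 5) (nat_lit 25) (nat_lit 4) (nat_lit 23) (nat_lit 4) (nat_lit 464) (nat_lit 403) (nat_lit 333))) (XT.nd (nat_lit 78) (nat_lit 152) (nat_lit 0) (XT.lf (nat_lit 0) (nat_lit 52931993211) (nat_lit 76) (nat_lit 31912829212) (nat_lit 76) (nat_lit 20244657534) (nat_lit 22) (nat_lit 4) (nat_lit 23) (nat_lit 5) (nat_lit 23) (nat_lit 4) (nat_lit 465) (nat_lit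 403) (nat_lit 332)) (XT.lf (nat_lit 0) (nat_lit 4072244674) (nat_lit 76) (nat_lit 3497030699) (nat_lit 152) (nat_lit 103632669080) (nat_lit 20) (nat_lit 5) (nat_lit 21) (nat_lit 5) (nat_lit 22) (nat_lit 4) (nat_lit 466) (nat_lit 403) (nat_lit 331))))) (XT.nd (nat_lit 234) (nat_lit 228) (nat_lit 0) (XT.nd (nat_lit 78) (nat_lit 76) (nat_lit 0) (XT.lf (nat_lit 0) (nat_lit 38612844267) (nat_lit 152) (nat_lit 51178208849) (nat_lit 0) (nat_lit 27802425562) (nat_lit 20) (nat_lit 5) (nat_lit 22) (nat_lit 4) (nat_lit 20) (nat_lit 4) (nat_lit 467) (nat_lit 403) (nat_lit 330)) (XT.nd (nat_lit 78) (nat_lit 0) (nat_lit 0) (XT.lf (nat_lit 0) (nat_lit 9603180853) (nat_lit 76) (nat_lit 62841071857) (nat_lit 76) (nat_lit 52027734686) (nat_lit 19) (nat_lit 4) (nat_lit 20) (nat_lit 5) (nat_lit 20) (nat_lit 4) (nat_lit 468) (nat_lit 403) (nat_lit 329)) (XT.lf (nat_lit 0) (nat_lit 78122759069) (nat_lit 76) (nat_lit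 32241735792) (nat_lit 76) (nat_lit 21425696338) (nat_lit 19) (nat_lit 4) (nat_lit 20) (nat_lit 5) (nat_lit 20) (nat_lit 4) (nat_lit 469) (nat_lit 403) (nat_lit 328)))) (XT.nd (nat_lit 156) (nat_lit 76) (nat_lit 0) (XT.nd (nat_lit 78) (nat_lit 0) (nat_lit 0) (XT.lf (nat_lit 0) (nat_lit 11367829959) (nat_lit 152) (nat_lit 126927007625) (nat_lit 0) (nat_lit 1350661841) (nat_lit 17) (nat_lit 5) (nat_lit 19) (nat_lit 4) (nat_lit 17) (nat_lit 4) (nat_lit 470) (nat_lit 403) (nat_lit 327)) (XT.lf (nat_lit 0) (nat_lit 47954104779) (nat_lit 152) (nat_lit 62009670311) (nat_lit 0) (nat_lit 37934791502) (nat_lit 17) (nat_lit 5) (nat_lit 19) (nat_lit 4) (nat_lit 17) (nat_lit 4) (nat_lit 471) (nat_lit 403) (nat_lit 326))) (XT.nd (nat_lit 78) (nat_lit 0) (nat_lit 0) (XT.lf (nat_lit 0) (nat_lit 8495322096) (nat_lit 76) (nat_lit 79161352590) (nat_lit 76) (nat_lit 69140053055) (nat_lit 16) (nat_lit 4) (nat_lit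 17) (nat_lit 5) (nat_lit 17) (nat_lit 4) (nat_lit 472) (nat_lit 403) (nat_lit 325)) (XT.lf (nat_lit 0) (nat_lit 88137333757) (nat_lit 76) (nat_lit 44079036562) (nat_lit 76) (nat_lit 34055897898) (nat_lit 16) (nat_lit 4) (nat_lit 17) (nat_lit 5) (nat_lit 17) (nat_lit 4) (nat_lit 473) (nat_lit 403) (nat_lit 324)))))) (XT.nd (nat_lit 546) (nat_lit 228) (nat_lit 0) (XT.nd (nat_lit 234) (nat_lit 228) (nat_lit 0) (XT.nd (nat_lit 78) (nat_lit 76) (nat_lit 0) (XT.lf (nat_lit 0) (nat_lit 3629340825) (nat_lit 152) (nat_lit 2475812642) (nat_lit 76) (nat_lit 170394424551) (nat_lit 15) (nat_lit 5) (nat_lit 17) (nat_lit 5) (nat_lit 16) (nat_lit 4) (nat_lit 474) (nat_lit 403) (nat_lit 323)) (XT.nd (nat_lit 78) (nat_lit 0) (nat_lit 0) (XT.lf (nat_lit 0) (nat_lit 45373286060) (nat_lit 152) (nat_lit 105780752447) (nat_lit 0) (nat_lit 36089565396) (nat_lit 14) (nat_lit 5) (nat_lit 16) (nat_lit 4) (nat_lit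 14) (nat_lit 4) (nat_lit 475) (nat_lit 403) (nat_lit 322)) (XT.lf (nat_lit 0) (nat_lit 90672001469) (nat_lit 152) (nat_lit 26771001069) (nat_lit 0) (nat_lit 81386928992) (nat_lit 14) (nat_lit 5) (nat_lit 16) (nat_lit 4) (nat_lit 14) (nat_lit 4) (nat_lit 476) (nat_lit 403) (nat_lit 321)))) (XT.nd (nat_lit 156) (nat_lit 152) (nat_lit 0) (XT.nd (nat_lit 78) (nat_lit 0) (nat_lit 0) (XT.lf (nat_lit 0) (nat_lit 61617497059) (nat_lit 76) (nat_lit 79447193203) (nat_lit 76) (nat_lit 70160869046) (nat_lit 13) (nat_lit 4) (nat_lit 14) (nat_lit 5) (nat_lit 14) (nat_lit 4) (nat_lit 477) (nat_lit 403) (nat_lit 320)) (XT.lf (nat_lit 0) (nat_lit 158575792946) (nat_lit 76) (nat_lit 37633445966) (nat_lit 76) (nat_lit 28345962847) (nat_lit 13) (nat_lit 4) (nat_lit 14) (nat_lit 5) (nat_lit 14) (nat_lit 4) (nat_lit 478) (nat_lit 403) (nat_lit 319))) (XT.nd (nat_lit 78) (nat_lit 0) (nat_lit 0) (XT.lf (nat_lit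 0) (nat_lit 16774394291) (nat_lit 152) (nat_lit 213906482083) (nat_lit 0) (nat_lit 8173879260) (nat_lit 11) (nat_lit 5) (nat_lit 13) (nat_lit 4) (nat_lit 11) (nat_lit 4) (nat_lit 479) (nat_lit 403) (nat_lit 318)) (XT.lf (nat_lit 0) (nat_lit 66790367555) (nat_lit 152) (nat_lit 129034680618) (nat_lit 0) (nat_lit 58188932503) (nat_lit 11) (nat_lit 5) (nat_lit 13) (nat_lit 4) (nat_lit 11) (nat_lit 4) (nat_lit 480) (nat_lit 403) (nat_lit 317))))) (XT.nd (nat_lit 234) (nat_lit 152) (nat_lit 0) (XT.nd (nat_lit 78) (nat_lit 76) (nat_lit 0) (XT.lf (nat_lit 0) (nat_lit 120797491603) (nat_lit 152) (nat_lit 37394057630) (nat_lit 0) (nat_lit 112195204678) (nat_lit 11) (nat_lit 5) (nat_lit 13) (nat_lit 4) (nat_lit 11) (nat_lit 4) (nat_lit 481) (nat_lit 403) (nat_lit 316)) (XT.nd (nat_lit 78) (nat_lit 0) (nat_lit 0) (XT.lf (nat_lit 0) (nat_lit 64800000913) (nat_lit 76) (nat_lit 115874249318) (nat_lit 76)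 (nat_lit 107271173623) (nat_lit 10) (nat_lit 4) (nat_lit 11) (nat_lit 5) (nat_lit 11) (nat_lit 4) (nat_lit 482) (nat_lit 403) (nat_lit 315)) (XT.lf (nat_lit 0) (nat_lit 177277335010) (nat_lit 76) (nat_lit 69077097886) (nat_lit 76) (nat_lit 60473291847) (nat_lit 10) (nat_lit 4) (nat_lit 11) (nat_lit 5) (nat_lit 11) (nat_lit 4) (nat_lit 483) (nat_lit 403) (nat_lit 314)))) (XT.nd (nat_lit 156) (nat_lit 0) (nat_lit 0) (XT.nd (nat_lit 78) (nat_lit 152) (nat_lit 0) (XT.lf (nat_lit 0) (nat_lit 298735372203) (nat_lit 76) (nat_lit 18545198288) (nat_lit 76) (nat_lit 9940716006) (nat_lit 10) (nat_lit 4) (nat_lit 11) (nat_lit 5) (nat_lit 11) (nat_lit 4) (nat_lit 484) (nat_lit 403) (nat_lit 313)) (XT.lf (nat_lit 0) (nat_lit 45354660873) (nat_lit 152) (nat_lit 266182588318) (nat_lit 0) (nat_lit 37386967878) (nat_lit 8) (nat_lit 5) (nat_lit 10) (nat_lit 4) (nat_lit 8) (nat_lit 4) (nat_lit 485) (nat_lit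 403) (nat_lit 312))) (XT.nd (nat_lit 78) (nat_lit 0) (nat_lit 0) (XT.lf (nat_lit 0) (nat_lit 105809358203) (nat_lit 152) (nat_lit 168590419709) (nat_lit 0) (nat_lit 97841128384) (nat_lit 8) (nat_lit 5) (nat_lit 10) (nat_lit 4) (nat_lit 8) (nat_lit 4) (nat_lit 486) (nat_lit 403) (nat_lit 311)) (XT.lf (nat_lit 0) (nat_lit 171092994574) (nat_lit 152) (nat_lit 63206263344) (nat_lit 0) (nat_lit 163124267696) (nat_lit 8) (nat_lit 5) (nat_lit 10) (nat_lit 4) (nat_lit 8) (nat_lit 4) (nat_lit 487) (nat_lit 403) (nat_lit 310))))))) (XT.nd (nat_lit 1092) (nat_lit 228) (nat_lit 0) (XT.nd (nat_lit 546) (nat_lit 76) (nat_lit 0) (XT.nd (nat_lit 234) (nat_lit 152) (nat_lit 0) (XT.nd (nat_lit 78) (nat_lit 0) (nat_lit 0) (XT.lf (nat_lit 0) (nat_lit 53258589843) (nat_lit 76) (nat_lit 189614716502) (nat_lit 76) (nat_lit 181645529384) (nat_lit 7) (nat_lit 4) (nat_lit 8) (nat_lit 5) (nat_lit 8) (nat_lit 4) (nat_lit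 488) (nat_lit 403) (nat_lit 309)) (XT.nd (nat_lit 78) (nat_lit 0) (nat_lit 0) (XT.lf (nat_lit 0) (nat_lit 182621342099) (nat_lit 76) (nat_lit 139496162457) (nat_lit 76) (nat_lit 131526549191) (nat_lit 7) (nat_lit 4) (nat_lit 8) (nat_lit 5) (nat_lit 8) (nat_lit 4) (nat_lit 489) (nat_lit 403) (nat_lit 308)) (XT.lf (nat_lit 0) (nat_lit 322320257692) (nat_lit 76) (nat_lit 85374768195) (nat_lit 76) (nat_lit 77404760347) (nat_lit 7) (nat_lit 4) (nat_lit 8) (nat_lit 5) (nat_lit 8) (nat_lit 4) (nat_lit 490) (nat_lit 403) (nat_lit 307)))) (XT.nd (nat_lit 156) (nat_lit 0) (nat_lit 0) (XT.nd (nat_lit 78) (nat_lit 152) (nat_lit 0) (XT.lf (nat_lit 0) (nat_lit 473183182050) (nat_lit 76) (nat_lit 26929814342) (nat_lit 76) (nat_lit 18959441141) (nat_lit 7) (nat_lit 4) (nat_lit 8) (nat_lit 5) (nat_lit 8) (nat_lit 4) (nat_lit 491) (nat_lit 403) (nat_lit 306)) (XT.lf (nat_lit 0) (nat_lit 44903926413) (nat_lit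 152) (nat_lit 473014244912) (nat_lit 0) (nat_lit 37523637995) (nat_lit 5) (nat_lit 5) (nat_lit 7) (nat_lit 4) (nat_lit 5) (nat_lit 4) (nat_lit 492) (nat_lit 403) (nat_lit 305))) (XT.nd (nat_lit 78) (nat_lit 0) (nat_lit 0) (XT.lf (nat_lit 0) (nat_lit 114833357637) (nat_lit 152) (nat_lit 372236694067) (nat_lit 0) (nat_lit 107452779190) (nat_lit 5) (nat_lit 5) (nat_lit 7) (nat_lit 4) (nat_lit 5) (nat_lit 4) (nat_lit 493) (nat_lit 403) (nat_lit 304)) (XT.lf (nat_lit 0) (nat_lit 190352085794) (nat_lit 152) (nat_lit 263407414209) (nat_lit 0) (nat_lit 182971238802) (nat_lit 5) (nat_lit 5) (nat_lit 7) (nat_lit 4) (nat_lit 5) (nat_lit 4) (nat_lit 494) (nat_lit 403) (nat_lit 303))))) (XT.nd (nat_lit 234) (nat_lit 0) (nat_lit 0) (XT.nd (nat_lit 78) (nat_lit 76) (nat_lit 0) (XT.lf (nat_lit 0) (nat_lit 271907629275) (nat_lit 152) (nat_lit 145881491087) (nat_lit 0) (nat_lit 264526533629) (nat_lit 5) (nat_lit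 5) (nat_lit 7) (nat_lit 4) (nat_lit 5) (nat_lit 4) (nat_lit 495) (nat_lit 403) (nat_lit 302)) (XT.nd (nat_lit 78) (nat_lit 76) (nat_lit 0) (XT.lf (nat_lit 0) (nat_lit 359983280188) (nat_lit 152) (nat_lit 18962474786) (nat_lit 0) (nat_lit 352601954307) (nat_lit 5) (nat_lit 5) (nat_lit 7) (nat_lit 4) (nat_lit 5) (nat_lit 4) (nat_lit 496) (nat_lit 403) (nat_lit 301)) (XT.lf (nat_lit 0) (nat_lit 124320776105) (nat_lit 76) (nat_lit 333770109866) (nat_lit 76) (nat_lit 326388570805) (nat_lit 4) (nat_lit 4) (nat_lit 5) (nat_lit 5) (nat_lit 5) (nat_lit 4) (nat_lit 497) (nat_lit 403) (nat_lit 300)))) (XT.nd (nat_lit 156) (nat_lit 0) (nat_lit 0) (XT.nd (nat_lit 78) (nat_lit 0) (nat_lit 0) (XT.lf (nat_lit 0) (nat_lit 280136994893) (nat_lit 76) (nat_lit 284424660605) (nat_lit 76) (nat_lit 277042924155) (nat_lit 4) (nat_lit 4) (nat_lit 5) (nat_lit 5) (nat_lit 5) (nat_lit 4) (nat_lit 498) (nat_lit 403)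 (nat_lit 299)) (XT.lf (nat_lit 0) (nat_lit 448411006630) (nat_lit 76) (nat_lit 231135457380) (nat_lit 76) (nat_lit 223753538163) (nat_lit 4) (nat_lit 4) (nat_lit 5) (nat_lit 5) (nat_lit 5) (nat_lit 4) (nat_lit 499) (nat_lit 403) (nat_lit 298))) (XT.nd (nat_lit 78) (nat_lit 0) (nat_lit 0) (XT.lf (nat_lit 0) (nat_lit 630139990645) (nat_lit 76) (nat_lit 173586712320) (nat_lit 76) (nat_lit 166204623873) (nat_lit 4) (nat_lit 4) (nat_lit 5) (nat_lit 5) (nat_lit 5) (nat_lit 4) (nat_lit 500) (nat_lit 403) (nat_lit 297)) (XT.lf (nat_lit 0) (nat_lit 826400859435) (nat_lit 76) (nat_lit 111437395823) (nat_lit 76) (nat_lit 104055150683) (nat_lit 4) (nat_lit 4) (nat_lit 5) (nat_lit 5) (nat_lit 5) (nat_lit 4) (nat_lit 501) (nat_lit 403) (nat_lit 296)))))) (XT.nd (nat_lit 546) (nat_lit 76) (nat_lit 0) (XT.nd (nat_lit 234) (nat_lit 0) (nat_lit 0) (XT.nd (nat_lit 78) (nat_lit 152) (nat_lit 0) (XT.lf (nat_lit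 0) (nat_lit 1038356640371) (nat_lit 76) (nat_lit 44319215645) (nat_lit 76) (nat_lit 36936825418) (nat_lit 4) (nat_lit 4) (nat_lit 5) (nat_lit 5) (nat_lit 5) (nat_lit 4) (nat_lit 502) (nat_lit 403) (nat_lit 295)) (XT.nd (nat_lit 78) (nat_lit 0) (nat_lit 0) (XT.lf (nat_lit 0) (nat_lit 36102113383) (nat_lit 152) (nat_lit 1137926178908) (nat_lit 0) (nat_lit 29266442488) (nat_lit 2) (nat_lit 5) (nat_lit 4) (nat_lit 4) (nat_lit 2) (nat_lit 4) (nat_lit 503) (nat_lit 403) (nat_lit 294)) (XT.lf (nat_lit 0) (nat_lit 116416427187) (nat_lit 152) (nat_lit 1067323307614) (nat_lit 0) (nat_lit 109580641117) (nat_lit 2) (nat_lit 5) (nat_lit 4) (nat_lit 4) (nat_lit 2) (nat_lit 4) (nat_lit 504) (nat_lit 403) (nat_lit 293)))) (XT.nd (nat_lit 156) (nat_lit 0) (nat_lit 0) (XT.nd (nat_lit 78) (nat_lit 0) (nat_lit 0) (XT.lf (nat_lit 0) (nat_lit 203153357548) (nat_lit 152) (nat_lit 991077448254) (nat_lit 0) (nat_lit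 196317464835) (nat_lit 2) (nat_lit 5) (nat_lit 4) (nat_lit 4) (nat_lit 2) (nat_lit 4) (nat_lit 505) (nat_lit 403) (nat_lit 292)) (XT.lf (nat_lit 0) (nat_lit 296826901090) (nat_lit 152) (nat_lit 908736773514) (nat_lit 0) (nat_lit 289990909633) (nat_lit 2) (nat_lit 5) (nat_lit 4) (nat_lit 4) (nat_lit 2) (nat_lit 4) (nat_lit 506) (nat_lit 403) (nat_lit 291))) (XT.nd (nat_lit 78) (nat_lit 0) (nat_lit 0) (XT.lf (nat_lit 0) (nat_lit 397992160292) (nat_lit 152) (nat_lit 819813338653) (nat_lit 0) (nat_lit 391156077406) (nat_lit 2) (nat_lit 5) (nat_lit 4) (nat_lit 4) (nat_lit 2) (nat_lit 4) (nat_lit 507) (nat_lit 403) (nat_lit 290)) (XT.lf (nat_lit 0) (nat_lit 507248632987) (nat_lit 152) (nat_lit 723780189984) (nat_lit 0) (nat_lit 500412465444) (nat_lit 2) (nat_lit 5) (nat_lit 4) (nat_lit 4) (nat_lit 2) (nat_lit 4) (nat_lit 508) (nat_lit 403) (nat_lit 289))))) (XT.nd (nat_lit 312) (nat_lit 76) (nat_lit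 0) (XT.nd (nat_lit 156) (nat_lit 0) (nat_lit 0) (XT.nd (nat_lit 78) (nat_lit 0) (nat_lit 0) (XT.lf (nat_lit 0) (nat_lit 625243764940) (nat_lit 152) (nat_lit 620068242182) (nat_lit 0) (nat_lit 618407519011) (nat_lit 2) (nat_lit 5) (nat_lit 4) (nat_lit 4) (nat_lit 2) (nat_lit 4) (nat_lit 509) (nat_lit 403) (nat_lit 288)) (XT.lf (nat_lit 0) (nat_lit 752676786562) (nat_lit 152) (nat_lit 508062905927) (nat_lit 0) (nat_lit 745840468053) (nat_lit 2) (nat_lit 5) (nat_lit 4) (nat_lit 4) (nat_lit 2) (nat_lit 4) (nat_lit 510) (nat_lit 403) (nat_lit 287))) (XT.nd (nat_lit 78) (nat_lit 0) (nat_lit 0) (XT.lf (nat_lit 0) (nat_lit 890302856499) (nat_lit 152) (nat_lit 387100445891) (nat_lit 0) (nat_lit 883466470787) (nat_lit 2) (nat_lit 5) (nat_lit 4) (nat_lit 4) (nat_lit 2) (nat_lit 4) (nat_lit 511) (nat_lit 403) (nat_lit 286)) (XT.lf (nat_lit 0) (nat_lit 1038937536647) (nat_lit 152) (nat_lit 256464047498)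 (nat_lit 0) (nat_lit 1032101088710) (nat_lit 2) (nat_lit 5) (nat_lit 4) (nat_lit 4) (nat_lit 2) (nat_lit 4) (nat_lit 512) (nat_lit 403) (nat_lit 285)))) (XT.nd (nat_lit 156) (nat_lit 0) (nat_lit 0) (XT.nd (nat_lit 78) (nat_lit 76) (nat_lit 0) (XT.lf (nat_lit 0) (nat_lit 1199461625112) (nat_lit 152) (nat_lit 115379569127) (nat_lit 0) (nat_lit 1192625119559) (nat_lit 2) (nat_lit 5) (nat_lit 4) (nat_lit 4) (nat_lit 2) (nat_lit 4) (nat_lit 513) (nat_lit 403) (nat_lit 284)) (XT.lf (nat_lit 0) (nat_lit 38936822969) (nat_lit 76) (nat_lit 1334825984309) (nat_lit 76) (nat_lit 1327989425408) (nat_lit 1) (nat_lit 4) (nat_lit 2) (nat_lit 5) (nat_lit 2) (nat_lit 4) (nat_lit 514) (nat_lit 403) (nat_lit 283))) (XT.nd (nat_lit 78) (nat_lit 0) (nat_lit 0) (XT.lf (nat_lit 0) (nat_lit 212157709024) (nat_lit 76) (nat_lit 1353003824212) (nat_lit 76) (nat_lit 1346167215914) (nat_lit 1) (nat_lit 4) (nat_lit 2)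 (nat_lit 5) (nat_lit 2) (nat_lit 4) (nat_lit 515) (nat_lit 403) (nat_lit 282)) (XT.lf (nat_lit 0) (nat_lit 399233899537) (nat_lit 76) (nat_lit 1372637116370) (nat_lit 76) (nat_lit 1365800462335) (nat_lit 1) (nat_lit 4) (nat_lit 2) (nat_lit 5) (nat_lit 2) (nat_lit 4) (nat_lit 516) (nat_lit 403) (nat_lit 281))))))))
noncomputable def xc102 : XT := (XT.nd (nat_lit 53664) (nat_lit 0) (nat_lit 4104) (XT.nd (nat_lit 1092) (nat_lit 0) (nat_lit 0) (XT.nd (nat_lit 546) (nat_lit 0) (nat_lit 0) (XT.nd (nat_lit 234) (nat_lit 0) (nat_lit 0) (XT.nd (nat_lit 78) (nat_lit 0) (nat_lit 0) (XT.lf (nat_lit 0) (nat_lit 601273994155) (nat_lit 76) (nat_lit 1393842206218) (nat_lit 76) (nat_lit 1387005509834) (nat_lit 1) (nat_lit 4) (nat_lit 2) (nat_lit 5) (nat_lit 2) (nat_lit 4) (nat_lit 517) (nat_lit 403) (nat_lit 280)) (XT.nd (nat_lit 78) (nat_lit 0) (nat_lit 0) (XT.lf (nat_lit 0) (nat_lit 819475267513) (nat_lit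 76) (nat_lit 1416744753549) (nat_lit 76) (nat_lit 1409908017952) (nat_lit 1) (nat_lit 4) (nat_lit 2) (nat_lit 5) (nat_lit 2) (nat_lit 4) (nat_lit 518) (nat_lit 403) (nat_lit 279)) (XT.lf (nat_lit 0) (nat_lit 1055130764194) (nat_lit 76) (nat_lit 1441480477160) (nat_lit 76) (nat_lit 1434643705255) (nat_lit 1) (nat_lit 4) (nat_lit 2) (nat_lit 5) (nat_lit 2) (nat_lit 4) (nat_lit 519) (nat_lit 403) (nat_lit 278)))) (XT.nd (nat_lit 156) (nat_lit 0) (nat_lit 0) (XT.nd (nat_lit 78) (nat_lit 0) (nat_lit 0) (XT.lf (nat_lit 0) (nat_lit 1309636961215) (nat_lit 76) (nat_lit 1468195959118) (nat_lit 76) (nat_lit 1461359153595) (nat_lit 1) (nat_lit 4) (nat_lit 2) (nat_lit 5) (nat_lit 2) (nat_lit 4) (nat_lit 520) (nat_lit 403) (nat_lit 277)) (XT.lf (nat_lit 0) (nat_lit 1584502043447) (nat_lit 76) (nat_lit 1497049513391) (nat_lit 76) (nat_lit 1490212676739) (nat_lit 1) (nat_lit 4) (nat_lit 2) (nat_lit 5)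 (nat_lit 2) (nat_lit 4) (nat_lit 521) (nat_lit 403) (nat_lit 276))) (XT.nd (nat_lit 78) (nat_lit 0) (nat_lit 0) (XT.lf (nat_lit 0) (nat_lit 1881354841008) (nat_lit 76) (nat_lit 1528212124003) (nat_lit 76) (nat_lit 1521375258529) (nat_lit 1) (nat_lit 4) (nat_lit 2) (nat_lit 5) (nat_lit 2) (nat_lit 4) (nat_lit 522) (nat_lit 403) (nat_lit 275)) (XT.lf (nat_lit 0) (nat_lit 2201954481586) (nat_lit 76) (nat_lit 1561868458276) (nat_lit 76) (nat_lit 1555031566115) (nat_lit 1) (nat_lit 4) (nat_lit 2) (nat_lit 5) (nat_lit 2) (nat_lit 4) (nat_lit 523) (nat_lit 403) (nat_lit 274))))) (XT.nd (nat_lit 234) (nat_lit 0) (nat_lit 0) (XT.nd (nat_lit 78) (nat_lit 0) (nat_lit 0) (XT.lf (nat_lit 0) (nat_lit 2548200814904) (nat_lit 76) (nat_lit 1598217961155) (nat_lit 76) (nat_lit 1591381044283) (nat_lit 1) (nat_lit 4) (nat_lit 2) (nat_lit 5) (nat_lit 2) (nat_lit 4) (nat_lit 524) (nat_lit 403) (nat_lit 273))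 (XT.nd (nat_lit 78) (nat_lit 0) (nat_lit 0) (XT.lf (nat_lit 0) (nat_lit 2922145671085) (nat_lit 76) (nat_lit 1637476037100) (nat_lit 76) (nat_lit 1630639097349) (nat_lit 1) (nat_lit 4) (nat_lit 2) (nat_lit 5) (nat_lit 2) (nat_lit 4) (nat_lit 525) (nat_lit 403) (nat_lit 272)) (XT.lf (nat_lit 0) (nat_lit 3326005019647) (nat_lit 76) (nat_lit 1679875326563) (nat_lit 76) (nat_lit 1673038365626) (nat_lit 1) (nat_lit 4) (nat_lit 2) (nat_lit 5) (nat_lit 2) (nat_lit 4) (nat_lit 526) (nat_lit 403) (nat_lit 271)))) (XT.nd (nat_lit 156) (nat_lit 0) (nat_lit 0) (XT.nd (nat_lit 78) (nat_lit 0) (nat_lit 0) (XT.lf (nat_lit 0) (nat_lit 3762172101174) (nat_lit 76) (nat_lit 1725667084591) (nat_lit 76) (nat_lit 1718830104038) (nat_lit 1) (nat_lit 4) (nat_lit 2) (nat_lit 5) (nat_lit 2) (nat_lit 4) (nat_lit 527) (nat_lit 403) (nat_lit 270)) (XT.lf (nat_lit 0) (nat_lit 4233231609482) (nat_lit 76) (nat_lit 1775122669751)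 (nat_lit 76) (nat_lit 1768285671035) (nat_lit 1) (nat_lit 4) (nat_lit 2) (nat_lit 5) (nat_lit 2) (nat_lit 4) (nat_lit 528) (nat_lit 403) (nat_lit 269))) (XT.nd (nat_lit 78) (nat_lit 0) (nat_lit 0) (XT.lf (nat_lit 0) (nat_lit 4741975008325) (nat_lit 76) (nat_lit 1828535152177) (nat_lit 76) (nat_lit 1821698136643) (nat_lit 1) (nat_lit 4) (nat_lit 2) (nat_lit 5) (nat_lit 2) (nat_lit 4) (nat_lit 529) (nat_lit 403) (nat_lit 268)) (XT.lf (nat_lit 0) (nat_lit 5291417073399) (nat_lit 76) (nat_lit 1886221050283) (nat_lit 76) (nat_lit 1879384019178) (nat_lit 1) (nat_lit 4) (nat_lit 2) (nat_lit 5) (nat_lit 2) (nat_lit 4) (nat_lit 530) (nat_lit 403) (nat_lit 267)))))) (XT.nd (nat_lit 546) (nat_lit 0) (nat_lit 0) (XT.nd (nat_lit 234) (nat_lit 0) (nat_lit 0) (XT.nd (nat_lit 78) (nat_lit 0) (nat_lit 0) (XT.lf (nat_lit 0) (nat_lit 5884813757683) (nat_lit 76) (nat_lit 1948522206428) (nat_lit 76) (nat_lit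 1941685160905) (nat_lit 1) (nat_lit 4) (nat_lit 2) (nat_lit 5) (nat_lit 2) (nat_lit 4) (nat_lit 531) (nat_lit 403) (nat_lit 266)) (XT.nd (nat_lit 78) (nat_lit 0) (nat_lit 0) (XT.lf (nat_lit 0) (nat_lit 6525681485972) (nat_lit 76) (nat_lit 2015807812650) (nat_lit 76) (nat_lit 2008970753776) (nat_lit 1) (nat_lit 4) (nat_lit 2) (nat_lit 5) (nat_lit 2) (nat_lit 4) (nat_lit 532) (nat_lit 403) (nat_lit 265)) (XT.lf (nat_lit 0) (nat_lit 7217817992952) (nat_lit 76) (nat_lit 2088476598466) (nat_lit 76) (nat_lit 2081639527230) (nat_lit 1) (nat_lit 4) (nat_lit 2) (nat_lit 5) (nat_lit 2) (nat_lit 4) (nat_lit 533) (nat_lit 403) (nat_lit 264)))) (XT.nd (nat_lit 156) (nat_lit 0) (nat_lit 0) (XT.nd (nat_lit 78) (nat_lit 0) (nat_lit 0) (XT.lf (nat_lit 0) (nat_lit 7965324828295) (nat_lit 76) (nat_lit 2166959193718) (nat_lit 76) (nat_lit 2160122111037) (nat_lit 1) (nat_lit 4) (nat_lit 2) (nat_lit 5) (nat_lit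 2) (nat_lit 4) (nat_lit 534) (nat_lit 403) (nat_lit 263)) (XT.lf (nat_lit 0) (nat_lit 8772631662136) (nat_lit 76) (nat_lit 2251720680452) (nat_lit 76) (nat_lit 2244883587173) (nat_lit 1) (nat_lit 4) (nat_lit 2) (nat_lit 5) (nat_lit 2) (nat_lit 4) (nat_lit 535) (nat_lit 403) (nat_lit 262))) (XT.nd (nat_lit 78) (nat_lit 0) (nat_lit 0) (XT.lf (nat_lit 0) (nat_lit 9644522534971) (nat_lit 76) (nat_lit 2343263348959) (nat_lit 76) (nat_lit 2336426245868) (nat_lit 1) (nat_lit 4) (nat_lit 2) (nat_lit 5) (nat_lit 2) (nat_lit 4) (nat_lit 536) (nat_lit 403) (nat_lit 261)) (XT.lf (nat_lit 0) (nat_lit 10586164207529) (nat_lit 76) (nat_lit 2442129674314) (nat_lit 76) (nat_lit 2435292562136) (nat_lit 1) (nat_lit 4) (nat_lit 2) (nat_lit 5) (nat_lit 2) (nat_lit 4) (nat_lit 537) (nat_lit 403) (nat_lit 260))))) (XT.nd (nat_lit 234) (nat_lit 0) (nat_lit 0) (XT.nd (nat_lit 78) (nat_lit 0) (nat_lit 0) (XT.lf (nat_lit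 0) (nat_lit 11603136778610) (nat_lit 76) (nat_lit 2548905531035) (nat_lit 76) (nat_lit 2542068410444) (nat_lit 1) (nat_lit 4) (nat_lit 2) (nat_lit 5) (nat_lit 2) (nat_lit 4) (nat_lit 538) (nat_lit 403) (nat_lit 259)) (XT.nd (nat_lit 78) (nat_lit 0) (nat_lit 0) (XT.lf (nat_lit 0) (nat_lit 12701466752338) (nat_lit 76) (nat_lit 2664223664941) (nat_lit 76) (nat_lit 2657386536561) (nat_lit 1) (nat_lit 4) (nat_lit 2) (nat_lit 5) (nat_lit 2) (nat_lit 4) (nat_lit 539) (nat_lit 403) (nat_lit 258)) (XT.lf (nat_lit 0) (nat_lit 13887662750781) (nat_lit 76) (nat_lit 2788767442751) (nat_lit 76) (nat_lit 2781930307158) (nat_lit 1) (nat_lit 4) (nat_lit 2) (nat_lit 5) (nat_lit 2) (nat_lit 4) (nat_lit 540) (nat_lit 403) (nat_lit 257)))) (XT.nd (nat_lit 156) (nat_lit 0) (nat_lit 0) (XT.nd (nat_lit 78) (nat_lit 0) (nat_lit 0) (XT.lf (nat_lit 0) (nat_lit 15168754083559) (nat_lit 76) (nat_lit 2923274901668) (nat_lit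 76) (nat_lit 2916437759396) (nat_lit 1) (nat_lit 4) (nat_lit 2) (nat_lit 5) (nat_lit 2) (nat_lit 4) (nat_lit 541) (nat_lit 403) (nat_lit 256)) (XT.lf (nat_lit 0) (nat_lit 16552332403014) (nat_lit 76) (nat_lit 3068543122928) (nat_lit 76) (nat_lit 3061705974472) (nat_lit 1) (nat_lit 4) (nat_lit 2) (nat_lit 5) (nat_lit 2) (nat_lit 4) (nat_lit 542) (nat_lit 403) (nat_lit 255))) (XT.nd (nat_lit 78) (nat_lit 0) (nat_lit 0) (XT.lf (nat_lit 0) (nat_lit 18046596691780) (nat_lit 76) (nat_lit 3225432955250) (nat_lit 76) (nat_lit 3218595801069) (nat_lit 1) (nat_lit 4) (nat_lit 2) (nat_lit 5) (nat_lit 2) (nat_lit 4) (nat_lit 543) (nat_lit 403) (nat_lit 254)) (XT.lf (nat_lit 0) (nat_lit 19660401849346) (nat_lit 76) (nat_lit 3394874116161) (nat_lit 76) (nat_lit 3388036956678) (nat_lit 1) (nat_lit 4) (nat_lit 2) (nat_lit 5) (nat_lit 2) (nat_lit 4) (nat_lit 544) (nat_lit 403) (nat_lit 253))))))) (XT.nd (nat_lit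 1092) (nat_lit 1596) (nat_lit 0) (XT.nd (nat_lit 546) (nat_lit 1900) (nat_lit 0) (XT.nd (nat_lit 234) (nat_lit 304) (nat_lit 0) (XT.nd (nat_lit 78) (nat_lit 0) (nat_lit 0) (XT.lf (nat_lit 0) (nat_lit 353563771) (nat_lit 380) (nat_lit 1547488620) (nat_lit 380) (nat_lit 1547488620) (nat_lit 105) (nat_lit 3) (nat_lit 110) (nat_lit 3) (nat_lit 110) (nat_lit 5) (nat_lit 404) (nat_lit 404) (nat_lit 392)) (XT.nd (nat_lit 78) (nat_lit 0) (nat_lit 0) (XT.lf (nat_lit 76) (nat_lit 360073555) (nat_lit 0) (nat_lit 2259012714) (nat_lit 380) (nat_lit 4402869953) (nat_lit 106) (nat_lit 5) (nat_lit 105) (nat_lit 3) (nat_lit 110) (nat_lit 5) (nat_lit 405) (nat_lit 404) (nat_lit 391)) (XT.lf (nat_lit 76) (nat_lit 4160892218) (nat_lit 0) (nat_lit 417575124) (nat_lit 380) (nat_lit 2586827296) (nat_lit 106) (nat_lit 5) (nat_lit 105) (nat_lit 3) (nat_lit 110) (nat_lit 5) (nat_lit 406) (nat_lit 404) (nat_lit 390))))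 (XT.nd (nat_lit 156) (nat_lit 0) (nat_lit 0) (XT.nd (nat_lit 78) (nat_lit 380) (nat_lit 0) (XT.lf (nat_lit 76) (nat_lit 834931333) (nat_lit 0) (nat_lit 5743323257) (nat_lit 380) (nat_lit 751182282) (nat_lit 107) (nat_lit 5) (nat_lit 106) (nat_lit 5) (nat_lit 111) (nat_lit 5) (nat_lit 407) (nat_lit 404) (nat_lit 389)) (XT.lf (nat_lit 0) (nat_lit 1096563104) (nat_lit 380) (nat_lit 2511163624) (nat_lit 456) (nat_lit 3902492209) (nat_lit 101) (nat_lit 5) (nat_lit 106) (nat_lit 5) (nat_lit 107) (nat_lit 5) (nat_lit 408) (nat_lit 404) (nat_lit 388))) (XT.nd (nat_lit 78) (nat_lit 0) (nat_lit 76) (XT.lf (nat_lit 76) (nat_lit 1746958902) (nat_lit 0) (nat_lit 1190784207) (nat_lit 456) (nat_lit 4775286872) (nat_lit 102) (nat_lit 5) (nat_lit 101) (nat_lit 5) (nat_lit 107) (nat_lit 5) (nat_lit 409) (nat_lit 404) (nat_lit 387)) (XT.lf (nat_lit 0) (nat_lit 4884818734) (nat_lit 380) (nat_lit 1595574356)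 (nat_lit 76) (nat_lit 1455006183) (nat_lit 102) (nat_lit 5) (nat_lit 107) (nat_lit 5) (nat_lit 103) (nat_lit 5) (nat_lit 410) (nat_lit 404) (nat_lit 386))))) (XT.nd (nat_lit 234) (nat_lit 1064) (nat_lit 0) (XT.nd (nat_lit 78) (nat_lit 532) (nat_lit 0) (XT.lf (nat_lit 0) (nat_lit 3137995046) (nat_lit 380) (nat_lit 3820895946) (nat_lit 456) (nat_lit 1218988542) (nat_lit 97) (nat_lit 5) (nat_lit 102) (nat_lit 5) (nat_lit 103) (nat_lit 5) (nat_lit 411) (nat_lit 404) (nat_lit 385)) (XT.nd (nat_lit 78) (nat_lit 456) (nat_lit 0) (XT.lf (nat_lit 0) (nat_lit 634783070) (nat_lit 456) (nat_lit 231350746) (nat_lit 76) (nat_lit 7579090703) (nat_lit 96) (nat_lit 5) (nat_lit 102) (nat_lit 5) (nat_lit 97) (nat_lit 5) (nat_lit 412) (nat_lit 404) (nat_lit 384)) (XT.lf (nat_lit 0) (nat_lit 2631892562) (nat_lit 532) (nat_lit 3715529153) (nat_lit 76) (nat_lit 2379146744) (nat_lit 90) (nat_lit 5) (nat_lit 97)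 (nat_lit 5) (nat_lit 91) (nat_lit 5) (nat_lit 413) (nat_lit 404) (nat_lit 383)))) (XT.nd (nat_lit 156) (nat_lit 532) (nat_lit 0) (XT.nd (nat_lit 78) (nat_lit 0) (nat_lit 0) (XT.lf (nat_lit 0) (nat_lit 1598623252) (nat_lit 532) (nat_lit 3142856345) (nat_lit 608) (nat_lit 4292738222) (nat_lit 83) (nat_lit 5) (nat_lit 90) (nat_lit 5) (nat_lit 91) (nat_lit 5) (nat_lit 414) (nat_lit 404) (nat_lit 382)) (XT.lf (nat_lit 0) (nat_lit 7022724053) (nat_lit 608) (nat_lit 1939927397) (nat_lit 76) (nat_lit 403609965) (nat_lit 83) (nat_lit 5) (nat_lit 91) (nat_lit 5) (nat_lit 84) (nat_lit 5) (nat_lit 415) (nat_lit 404) (nat_lit 381))) (XT.nd (nat_lit 78) (nat_lit 304) (nat_lit 0) (XT.lf (nat_lit 0) (nat_lit 4002402533) (nat_lit 228) (nat_lit 5561042091) (nat_lit 304) (nat_lit 155278273) (nat_lit 80) (nat_lit 5) (nat_lit 83) (nat_lit 5) (nat_lit 84) (nat_lit 5) (nat_lit 416) (nat_lit 404) (nat_lit 380))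 (XT.lf (nat_lit 0) (nat_lit 280927800) (nat_lit 228) (nat_lit 1779273417) (nat_lit 304) (nat_lit 8037933352) (nat_lit 76) (nat_lit 5) (nat_lit 79) (nat_lit 5) (nat_lit 80) (nat_lit 5) (nat_lit 417) (nat_lit 404) (nat_lit 379)))))) (XT.nd (nat_lit 546) (nat_lit 760) (nat_lit 0) (XT.nd (nat_lit 234) (nat_lit 608) (nat_lit 0) (XT.nd (nat_lit 78) (nat_lit 228) (nat_lit 0) (XT.lf (nat_lit 0) (nat_lit 4565977439) (nat_lit 304) (nat_lit 3594054499) (nat_lit 76) (nat_lit 2337838727) (nat_lit 76) (nat_lit 5) (nat_lit 80) (nat_lit 5) (nat_lit 77) (nat_lit 5) (nat_lit 418) (nat_lit 404) (nat_lit 378)) (XT.nd (nat_lit 78) (nat_lit 0) (nat_lit 0) (XT.lf (nat_lit 0) (nat_lit 3127775045) (nat_lit 228) (nat_lit 4178524339) (nat_lit 304) (nat_lit 3620568780) (nat_lit 73) (nat_lit 5) (nat_lit 76) (nat_lit 5) (nat_lit 77) (nat_lit 5) (nat_lit 419) (nat_lit 404) (nat_lit 377)) (XT.lf (nat_lit 0) (nat_lit 10285582736)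 (nat_lit 304) (nat_lit 908830695) (nat_lit 76) (nat_lit 194201701) (nat_lit 73) (nat_lit 5) (nat_lit 77) (nat_lit 5) (nat_lit 74) (nat_lit 5) (nat_lit 420) (nat_lit 404) (nat_lit 376)))) (XT.nd (nat_lit 156) (nat_lit 152) (nat_lit 0) (XT.nd (nat_lit 78) (nat_lit 152) (nat_lit 0) (XT.lf (nat_lit 0) (nat_lit 1730760825) (nat_lit 304) (nat_lit 5263389702) (nat_lit 76) (nat_lit 4874394581) (nat_lit 69) (nat_lit 5) (nat_lit 73) (nat_lit 5) (nat_lit 70) (nat_lit 5) (nat_lit 421) (nat_lit 404) (nat_lit 375)) (XT.lf (nat_lit 0) (nat_lit 2370540493) (nat_lit 152) (nat_lit 2367219296) (nat_lit 228) (nat_lit 7646336868) (nat_lit 67) (nat_lit 5) (nat_lit 69) (nat_lit 5) (nat_lit 70) (nat_lit 5) (nat_lit 422) (nat_lit 404) (nat_lit 374))) (XT.nd (nat_lit 78) (nat_lit 152) (nat_lit 0) (XT.lf (nat_lit 0) (nat_lit 8122264582) (nat_lit 228) (nat_lit 2190126647) (nat_lit 76) (nat_lit 2617551691) (nat_lit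 67) (nat_lit 5) (nat_lit 70) (nat_lit 5) (nat_lit 68) (nat_lit 5) (nat_lit 423) (nat_lit 404) (nat_lit 373)) (XT.lf (nat_lit 0) (nat_lit 6418512091) (nat_lit 152) (nat_lit 5506396316) (nat_lit 228) (nat_lit 1582763986) (nat_lit 65) (nat_lit 5) (nat_lit 67) (nat_lit 5) (nat_lit 68) (nat_lit 5) (nat_lit 424) (nat_lit 404) (nat_lit 372))))) (XT.nd (nat_lit 312) (nat_lit 304) (nat_lit 0) (XT.nd (nat_lit 156) (nat_lit 228) (nat_lit 0) (XT.nd (nat_lit 78) (nat_lit 0) (nat_lit 0) (XT.lf (nat_lit 0) (nat_lit 1647446578) (nat_lit 152) (nat_lit 191238534) (nat_lit 228) (nat_lit 12286596647) (nat_lit 62) (nat_lit 5) (nat_lit 64) (nat_lit 5) (nat_lit 65) (nat_lit 5) (nat_lit 425) (nat_lit 404) (nat_lit 371)) (XT.lf (nat_lit 0) (nat_lit 5715005906) (nat_lit 228) (nat_lit 3573338080) (nat_lit 76) (nat_lit 5479338343) (nat_lit 62) (nat_lit 5) (nat_lit 65) (nat_lit 5) (nat_lit 63) (nat_lit 5) (nat_lit 426)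 (nat_lit 404) (nat_lit 370))) (XT.nd (nat_lit 78) (nat_lit 76) (nat_lit 0) (XT.lf (nat_lit 0) (nat_lit 6256049486) (nat_lit 152) (nat_lit 3740016233) (nat_lit 228) (nat_lit 5457842820) (nat_lit 60) (nat_lit 5) (nat_lit 62) (nat_lit 5) (nat_lit 63) (nat_lit 5) (nat_lit 427) (nat_lit 404) (nat_lit 369)) (XT.lf (nat_lit 0) (nat_lit 772854436) (nat_lit 76) (nat_lit 13960390578) (nat_lit 152) (nat_lit 1452701004) (nat_lit 59) (nat_lit 5) (nat_lit 60) (nat_lit 5) (nat_lit 61) (nat_lit 4) (nat_lit 428) (nat_lit 404) (nat_lit 368)))) (XT.nd (nat_lit 156) (nat_lit 76) (nat_lit 0) (XT.nd (nat_lit 78) (nat_lit 152) (nat_lit 0) (XT.lf (nat_lit 0) (nat_lit 3025580569) (nat_lit 152) (nat_lit 5162416751) (nat_lit 76) (nat_lit 8759309978) (nat_lit 58) (nat_lit 5) (nat_lit 60) (nat_lit 5) (nat_lit 59) (nat_lit 5) (nat_lit 429) (nat_lit 404) (nat_lit 367)) (XT.lf (nat_lit 0) (nat_lit 6084646202) (nat_lit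 152) (nat_lit 1790959444) (nat_lit 228) (nat_lit 9883599203) (nat_lit 56) (nat_lit 5) (nat_lit 58) (nat_lit 5) (nat_lit 59) (nat_lit 5) (nat_lit 430) (nat_lit 404) (nat_lit 366))) (XT.nd (nat_lit 78) (nat_lit 76) (nat_lit 0) (XT.lf (nat_lit 0) (nat_lit 13328216616) (nat_lit 228) (nat_lit 317817331) (nat_lit 76) (nat_lit 4972856449) (nat_lit 56) (nat_lit 5) (nat_lit 59) (nat_lit 5) (nat_lit 57) (nat_lit 4) (nat_lit 431) (nat_lit 404) (nat_lit 365)) (XT.lf (nat_lit 0) (nat_lit 12438570626) (nat_lit 76) (nat_lit 7074765362) (nat_lit 152) (nat_lit 10313523) (nat_lit 55) (nat_lit 5) (nat_lit 56) (nat_lit 5) (nat_lit 57) (nat_lit 4) (nat_lit 432) (nat_lit 404) (nat_lit 364))))))))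
noncomputable def xc103 : XT := (XT.nd (nat_lit 2184) (nat_lit 1444) (nat_lit 0) (XT.nd (nat_lit 1092) (nat_lit 988) (nat_lit 0) (XT.nd (nat_lit 546) (nat_lit 532) (nat_lit 0) (XT.nd (nat_lit 234) (nat_lit 380) (nat_lit 0) (XT.nd (nat_lit 78) (nat_lit 76) (nat_lit 0) (XT.lf (nat_lit 0) (nat_lit 5514299305) (nat_lit 228) (nat_lit 14687460825) (nat_lit 76) (nat_lit 279552439) (nat_lit 52) (nat_lit 5) (nat_lit 55) (nat_lit 5) (nat_lit 53) (nat_lit 4) (nat_lit 433) (nat_lit 404) (nat_lit 363)) (XT.nd (nat_lit 78) (nat_lit 76) (nat_lit 0) (XT.lf (nat_lit 0) (nat_lit 11814675597) (nat_lit 228) (nat_lit 1668936215) (nat_lit 76) (nat_lit 8005209432) (nat_lit 52) (nat_lit 5) (nat_lit 55) (nat_lit 5) (nat_lit 53) (nat_lit 4) (nat_lit 434) (nat_lit 404) (nat_lit 362)) (XT.lf (nat_lit 0) (nat_lit 12959917853) (nat_lit 76) (nat_lit 5926259022) (nat_lit 152) (nat_lit 3669388122) (nat_lit 51) (nat_lit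 5) (nat_lit 52) (nat_lit 5) (nat_lit 53) (nat_lit 4) (nat_lit 435) (nat_lit 404) (nat_lit 361)))) (XT.nd (nat_lit 156) (nat_lit 152) (nat_lit 0) (XT.nd (nat_lit 78) (nat_lit 0) (nat_lit 0) (XT.lf (nat_lit 0) (nat_lit 2863231506) (nat_lit 228) (nat_lit 18486406658) (nat_lit 76) (nat_lit 2337527333) (nat_lit 48) (nat_lit 5) (nat_lit 51) (nat_lit 5) (nat_lit 49) (nat_lit 4) (nat_lit 436) (nat_lit 404) (nat_lit 360)) (XT.lf (nat_lit 0) (nat_lit 10099620343) (nat_lit 228) (nat_lit 3498120139) (nat_lit 76) (nat_lit 11273578268) (nat_lit 48) (nat_lit 5) (nat_lit 51) (nat_lit 5) (nat_lit 49) (nat_lit 4) (nat_lit 437) (nat_lit 404) (nat_lit 359))) (XT.nd (nat_lit 78) (nat_lit 76) (nat_lit 0) (XT.lf (nat_lit 0) (nat_lit 13279102749) (nat_lit 76) (nat_lit 4914714078) (nat_lit 152) (nat_lit 7934077165) (nat_lit 47) (nat_lit 5) (nat_lit 48) (nat_lit 5) (nat_lit 49) (nat_lit 4) (nat_lit 438) (nat_lit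 404) (nat_lit 358)) (XT.lf (nat_lit 0) (nat_lit 4142660333) (nat_lit 76) (nat_lit 23057969294) (nat_lit 76) (nat_lit 263160522) (nat_lit 46) (nat_lit 4) (nat_lit 47) (nat_lit 5) (nat_lit 47) (nat_lit 4) (nat_lit 439) (nat_lit 404) (nat_lit 357))))) (XT.nd (nat_lit 234) (nat_lit 304) (nat_lit 0) (XT.nd (nat_lit 78) (nat_lit 152) (nat_lit 0) (XT.lf (nat_lit 0) (nat_lit 8068440073) (nat_lit 152) (nat_lit 6059055974) (nat_lit 76) (nat_lit 14727767858) (nat_lit 45) (nat_lit 5) (nat_lit 47) (nat_lit 5) (nat_lit 46) (nat_lit 4) (nat_lit 440) (nat_lit 404) (nat_lit 356)) (XT.nd (nat_lit 78) (nat_lit 76) (nat_lit 0) (XT.lf (nat_lit 0) (nat_lit 13166281507) (nat_lit 76) (nat_lit 4165854717) (nat_lit 152) (nat_lit 13002990775) (nat_lit 44) (nat_lit 5) (nat_lit 45) (nat_lit 5) (nat_lit 46) (nat_lit 4) (nat_lit 441) (nat_lit 404) (nat_lit 355)) (XT.lf (nat_lit 0) (nat_lit 2233124650) (nat_lit 76) (nat_lit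 25449501671) (nat_lit 76) (nat_lit 4223097948) (nat_lit 43) (nat_lit 4) (nat_lit 44) (nat_lit 5) (nat_lit 44) (nat_lit 4) (nat_lit 442) (nat_lit 404) (nat_lit 354)))) (XT.nd (nat_lit 156) (nat_lit 152) (nat_lit 0) (XT.nd (nat_lit 78) (nat_lit 76) (nat_lit 0) (XT.lf (nat_lit 0) (nat_lit 5549539446) (nat_lit 152) (nat_lit 9717615943) (nat_lit 76) (nat_lit 18280420979) (nat_lit 42) (nat_lit 5) (nat_lit 44) (nat_lit 5) (nat_lit 43) (nat_lit 4) (nat_lit 443) (nat_lit 404) (nat_lit 353)) (XT.lf (nat_lit 0) (nat_lit 12273236124) (nat_lit 76) (nat_lit 3864076872) (nat_lit 152) (nat_lit 19153770584) (nat_lit 41) (nat_lit 5) (nat_lit 42) (nat_lit 5) (nat_lit 43) (nat_lit 4) (nat_lit 444) (nat_lit 404) (nat_lit 352))) (XT.nd (nat_lit 78) (nat_lit 152) (nat_lit 0) (XT.lf (nat_lit 0) (nat_lit 28014514177) (nat_lit 152) (nat_lit 852005374) (nat_lit 0) (nat_lit 8272160082) (nat_lit 41) (nat_lit 5) (nat_lit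 43) (nat_lit 4) (nat_lit 41) (nat_lit 4) (nat_lit 445) (nat_lit 404) (nat_lit 351)) (XT.lf (nat_lit 0) (nat_lit 2289070416) (nat_lit 152) (nat_lit 15006265540) (nat_lit 76) (nat_lit 21782126708) (nat_lit 39) (nat_lit 5) (nat_lit 41) (nat_lit 5) (nat_lit 40) (nat_lit 4) (nat_lit 446) (nat_lit 404) (nat_lit 350)))))) (XT.nd (nat_lit 546) (nat_lit 532) (nat_lit 0) (XT.nd (nat_lit 234) (nat_lit 304) (nat_lit 0) (XT.nd (nat_lit 78) (nat_lit 76) (nat_lit 0) (XT.lf (nat_lit 0) (nat_lit 10073206556) (nat_lit 76) (nat_lit 4284510483) (nat_lit 152) (nat_lit 26775849064) (nat_lit 38) (nat_lit 5) (nat_lit 39) (nat_lit 5) (nat_lit 40) (nat_lit 4) (nat_lit 447) (nat_lit 404) (nat_lit 349)) (XT.nd (nat_lit 78) (nat_lit 76) (nat_lit 0) (XT.lf (nat_lit 0) (nat_lit 28017023531) (nat_lit 152) (nat_lit 5614941252) (nat_lit 0) (nat_lit 9672180117) (nat_lit 38) (nat_lit 5) (nat_lit 40) (nat_lit 4) (nat_lit 38)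 (nat_lit 4) (nat_lit 448) (nat_lit 404) (nat_lit 348)) (XT.lf (nat_lit 0) (nat_lit 22841421527) (nat_lit 76) (nat_lit 20559861125) (nat_lit 76) (nat_lit 2196511195) (nat_lit 37) (nat_lit 4) (nat_lit 38) (nat_lit 5) (nat_lit 38) (nat_lit 4) (nat_lit 449) (nat_lit 404) (nat_lit 347)))) (XT.nd (nat_lit 156) (nat_lit 152) (nat_lit 0) (XT.nd (nat_lit 78) (nat_lit 0) (nat_lit 0) (XT.lf (nat_lit 0) (nat_lit 5772453397) (nat_lit 76) (nat_lit 5839536501) (nat_lit 152) (nat_lit 36418530324) (nat_lit 35) (nat_lit 5) (nat_lit 36) (nat_lit 5) (nat_lit 37) (nat_lit 4) (nat_lit 450) (nat_lit 404) (nat_lit 346)) (XT.lf (nat_lit 0) (nat_lit 27258559173) (nat_lit 152) (nat_lit 13101677246) (nat_lit 0) (nat_lit 10224899963) (nat_lit 35) (nat_lit 5) (nat_lit 37) (nat_lit 4) (nat_lit 35) (nat_lit 4) (nat_lit 451) (nat_lit 404) (nat_lit 345))) (XT.nd (nat_lit 78) (nat_lit 76) (nat_lit 0) (XT.lf (nat_lit 0) (nat_lit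 19140992017) (nat_lit 76) (nat_lit 25601760187) (nat_lit 76) (nat_lit 8554498135) (nat_lit 34) (nat_lit 4) (nat_lit 35) (nat_lit 5) (nat_lit 35) (nat_lit 4) (nat_lit 452) (nat_lit 404) (nat_lit 344)) (XT.lf (nat_lit 0) (nat_lit 7370664249) (nat_lit 152) (nat_lit 1728875637) (nat_lit 76) (nat_lit 47085240495) (nat_lit 33) (nat_lit 5) (nat_lit 35) (nat_lit 5) (nat_lit 34) (nat_lit 4) (nat_lit 453) (nat_lit 404) (nat_lit 343))))) (XT.nd (nat_lit 234) (nat_lit 304) (nat_lit 0) (XT.nd (nat_lit 78) (nat_lit 152) (nat_lit 0) (XT.lf (nat_lit 0) (nat_lit 25156236679) (nat_lit 152) (nat_lit 24696141723) (nat_lit 0) (nat_lit 9349274161) (nat_lit 32) (nat_lit 5) (nat_lit 34) (nat_lit 4) (nat_lit 32) (nat_lit 4) (nat_lit 454) (nat_lit 404) (nat_lit 342)) (XT.nd (nat_lit 78) (nat_lit 76) (nat_lit 0) (XT.lf (nat_lit 0) (nat_lit 11573923769) (nat_lit 76) (nat_lit 33329889673) (nat_lit 76) (nat_lit 17512928660)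 (nat_lit 31) (nat_lit 4) (nat_lit 32) (nat_lit 5) (nat_lit 32) (nat_lit 4) (nat_lit 455) (nat_lit 404) (nat_lit 341)) (XT.lf (nat_lit 0) (nat_lit 993811470) (nat_lit 152) (nat_lit 13759091020) (nat_lit 76) (nat_lit 51081976631) (nat_lit 30) (nat_lit 5) (nat_lit 32) (nat_lit 5) (nat_lit 31) (nat_lit 4) (nat_lit 456) (nat_lit 404) (nat_lit 340)))) (XT.nd (nat_lit 156) (nat_lit 228) (nat_lit 0) (XT.nd (nat_lit 78) (nat_lit 0) (nat_lit 0) (XT.lf (nat_lit 0) (nat_lit 20821607581) (nat_lit 152) (nat_lit 42445771562) (nat_lit 0) (nat_lit 6159764084) (nat_lit 29) (nat_lit 5) (nat_lit 31) (nat_lit 4) (nat_lit 29) (nat_lit 4) (nat_lit 457) (nat_lit 404) (nat_lit 339)) (XT.lf (nat_lit 0) (nat_lit 42982628316) (nat_lit 152) (nat_lit 1950964640) (nat_lit 0) (nat_lit 28313435627) (nat_lit 29) (nat_lit 5) (nat_lit 31) (nat_lit 4) (nat_lit 29) (nat_lit 4) (nat_lit 458) (nat_lit 404) (nat_lit 338))) (XT.nd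 (nat_lit 78) (nat_lit 152) (nat_lit 0) (XT.lf (nat_lit 0) (nat_lit 43939932603) (nat_lit 76) (nat_lit 24012835428) (nat_lit 76) (nat_lit 9336837932) (nat_lit 28) (nat_lit 4) (nat_lit 29) (nat_lit 5) (nat_lit 29) (nat_lit 4) (nat_lit 459) (nat_lit 404) (nat_lit 337)) (XT.lf (nat_lit 0) (nat_lit 12210572483) (nat_lit 76) (nat_lit 718692289) (nat_lit 152) (nat_lit 68674571099) (nat_lit 26) (nat_lit 5) (nat_lit 27) (nat_lit 5) (nat_lit 28) (nat_lit 4) (nat_lit 460) (nat_lit 404) (nat_lit 336))))))) (XT.nd (nat_lit 1092) (nat_lit 684) (nat_lit 0) (XT.nd (nat_lit 546) (nat_lit 304) (nat_lit 0) (XT.nd (nat_lit 234) (nat_lit 304) (nat_lit 0) (XT.nd (nat_lit 78) (nat_lit 152) (nat_lit 0) (XT.lf (nat_lit 0) (nat_lit 37975061864) (nat_lit 152) (nat_lit 23773574803) (nat_lit 0) (nat_lit 24374939392) (nat_lit 26) (nat_lit 5) (nat_lit 28) (nat_lit 4) (nat_lit 26) (nat_lit 4) (nat_lit 461) (nat_lit 404)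 (nat_lit 335)) (XT.nd (nat_lit 78) (nat_lit 76) (nat_lit 0) (XT.lf (nat_lit 0) (nat_lit 26778026389) (nat_lit 76) (nat_lit 38890246693) (nat_lit 76) (nat_lit 25285122485) (nat_lit 25) (nat_lit 4) (nat_lit 26) (nat_lit 5) (nat_lit 26) (nat_lit 4) (nat_lit 462) (nat_lit 404) (nat_lit 334)) (XT.lf (nat_lit 0) (nat_lit 84973617) (nat_lit 152) (nat_lit 13433010321) (nat_lit 76) (nat_lit 82600918222) (nat_lit 24) (nat_lit 5) (nat_lit 26) (nat_lit 5) (nat_lit 25) (nat_lit 4) (nat_lit 463) (nat_lit 404) (nat_lit 333)))) (XT.nd (nat_lit 156) (nat_lit 228) (nat_lit 0) (XT.nd (nat_lit 78) (nat_lit 0) (nat_lit 0) (XT.lf (nat_lit 0) (nat_lit 27508175105) (nat_lit 152) (nat_lit 59123190530) (nat_lit 0) (nat_lit 14902579153) (nat_lit 23) (nat_lit 5) (nat_lit 25) (nat_lit 4) (nat_lit 23) (nat_lit 4) (nat_lit 464) (nat_lit 404) (nat_lit 332)) (XT.lf (nat_lit 0) (nat_lit 57835695767) (nat_lit 152) (nat_lit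 4263234725) (nat_lit 0) (nat_lit 45226423389) (nat_lit 23) (nat_lit 5) (nat_lit 25) (nat_lit 4) (nat_lit 23) (nat_lit 4) (nat_lit 465) (nat_lit 404) (nat_lit 331))) (XT.nd (nat_lit 78) (nat_lit 152) (nat_lit 0) (XT.lf (nat_lit 0) (nat_lit 57846124780) (nat_lit 76) (nat_lit 34118312958) (nat_lit 76) (nat_lit 21505636481) (nat_lit 22) (nat_lit 4) (nat_lit 23) (nat_lit 5) (nat_lit 23) (nat_lit 4) (nat_lit 466) (nat_lit 404) (nat_lit 330)) (XT.lf (nat_lit 0) (nat_lit 5077877776) (nat_lit 76) (nat_lit 3428711740) (nat_lit 152) (nat_lit 111564967205) (nat_lit 20) (nat_lit 5) (nat_lit 21) (nat_lit 5) (nat_lit 22) (nat_lit 4) (nat_lit 467) (nat_lit 404) (nat_lit 329))))) (XT.nd (nat_lit 234) (nat_lit 228) (nat_lit 0) (XT.nd (nat_lit 78) (nat_lit 76) (nat_lit 0) (XT.lf (nat_lit 0) (nat_lit 42016819475) (nat_lit 152) (nat_lit 54626145695) (nat_lit 0) (nat_lit 30332794582) (nat_lit 20) (nat_lit 5)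 (nat_lit 22) (nat_lit 4) (nat_lit 20) (nat_lit 4) (nat_lit 468) (nat_lit 404) (nat_lit 328)) (XT.nd (nat_lit 78) (nat_lit 0) (nat_lit 0) (XT.lf (nat_lit 0) (nat_lit 11001392656) (nat_lit 76) (nat_lit 67545168969) (nat_lit 76) (nat_lit 55858641963) (nat_lit 19) (nat_lit 4) (nat_lit 20) (nat_lit 5) (nat_lit 20) (nat_lit 4) (nat_lit 469) (nat_lit 404) (nat_lit 327)) (XT.lf (nat_lit 0) (nat_lit 84955873623) (nat_lit 76) (nat_lit 34521825919) (nat_lit 76) (nat_lit 22832982140) (nat_lit 19) (nat_lit 4) (nat_lit 20) (nat_lit 5) (nat_lit 20) (nat_lit 4) (nat_lit 470) (nat_lit 404) (nat_lit 326)))) (XT.nd (nat_lit 156) (nat_lit 76) (nat_lit 0) (XT.nd (nat_lit 78) (nat_lit 0) (nat_lit 0) (XT.lf (nat_lit 0) (nat_lit 12568332017) (nat_lit 152) (nat_lit 136482178012) (nat_lit 0) (nat_lit 1743342261) (nat_lit 17) (nat_lit 5) (nat_lit 19) (nat_lit 4) (nat_lit 17) (nat_lit 4) (nat_lit 471) (nat_lit 404)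 (nat_lit 325)) (XT.lf (nat_lit 0) (nat_lit 52059947664) (nat_lit 152) (nat_lit 66415823360) (nat_lit 0) (nat_lit 41233118779) (nat_lit 17) (nat_lit 5) (nat_lit 19) (nat_lit 4) (nat_lit 17) (nat_lit 4) (nat_lit 472) (nat_lit 404) (nat_lit 324))) (XT.nd (nat_lit 78) (nat_lit 0) (nat_lit 0) (XT.lf (nat_lit 0) (nat_lit 9715527413) (nat_lit 76) (nat_lit 85216232664) (nat_lit 76) (nat_lit 74387700883) (nat_lit 16) (nat_lit 4) (nat_lit 17) (nat_lit 5) (nat_lit 17) (nat_lit 4) (nat_lit 473) (nat_lit 404) (nat_lit 323)) (XT.lf (nat_lit 0) (nat_lit 95688857078) (nat_lit 76) (nat_lit 47347926030) (nat_lit 76) (nat_lit 36517817493) (nat_lit 16) (nat_lit 4) (nat_lit 17) (nat_lit 5) (nat_lit 17) (nat_lit 4) (nat_lit 474) (nat_lit 404) (nat_lit 322)))))) (XT.nd (nat_lit 546) (nat_lit 304) (nat_lit 0) (XT.nd (nat_lit 234) (nat_lit 228) (nat_lit 0) (XT.nd (nat_lit 78) (nat_lit 76) (nat_lit 0) (XT.lf (nat_lit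 0) (nat_lit 4150630972) (nat_lit 152) (nat_lit 2198256073) (nat_lit 76) (nat_lit 184252181080) (nat_lit 15) (nat_lit 5) (nat_lit 17) (nat_lit 5) (nat_lit 16) (nat_lit 4) (nat_lit 475) (nat_lit 404) (nat_lit 321)) (XT.nd (nat_lit 78) (nat_lit 0) (nat_lit 0) (XT.lf (nat_lit 0) (nat_lit 49233872293) (nat_lit 152) (nat_lit 113767370878) (nat_lit 0) (nat_lit 39203390524) (nat_lit 14) (nat_lit 5) (nat_lit 16) (nat_lit 4) (nat_lit 14) (nat_lit 4) (nat_lit 476) (nat_lit 404) (nat_lit 320)) (XT.lf (nat_lit 0) (nat_lit 98139394317) (nat_lit 152) (nat_lit 28472086928) (nat_lit 0) (nat_lit 88107753585) (nat_lit 14) (nat_lit 5) (nat_lit 16) (nat_lit 4) (nat_lit 14) (nat_lit 4) (nat_lit 477) (nat_lit 404) (nat_lit 319)))) (XT.nd (nat_lit 156) (nat_lit 152) (nat_lit 0) (XT.nd (nat_lit 78) (nat_lit 0) (nat_lit 0) (XT.lf (nat_lit 0) (nat_lit 66976336766) (nat_lit 76) (nat_lit 85581664842) (nat_lit 76) (nat_lit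 75548950996) (nat_lit 13) (nat_lit 4) (nat_lit 14) (nat_lit 5) (nat_lit 14) (nat_lit 4) (nat_lit 478) (nat_lit 404) (nat_lit 318)) (XT.lf (nat_lit 0) (nat_lit 171659485957) (nat_lit 76) (nat_lit 40439210702) (nat_lit 76) (nat_lit 30405503232) (nat_lit 13) (nat_lit 4) (nat_lit 14) (nat_lit 5) (nat_lit 14) (nat_lit 4) (nat_lit 479) (nat_lit 404) (nat_lit 317))) (XT.nd (nat_lit 78) (nat_lit 0) (nat_lit 0) (XT.lf (nat_lit 0) (nat_lit 18313921229) (nat_lit 152) (nat_lit 230610808903) (nat_lit 0) (nat_lit 9022599478) (nat_lit 11) (nat_lit 5) (nat_lit 13) (nat_lit 4) (nat_lit 11) (nat_lit 4) (nat_lit 480) (nat_lit 404) (nat_lit 316)) (XT.lf (nat_lit 0) (nat_lit 72316537140) (nat_lit 152) (nat_lit 138979499747) (nat_lit 0) (nat_lit 63024426618) (nat_lit 11) (nat_lit 5) (nat_lit 13) (nat_lit 4) (nat_lit 11) (nat_lit 4) (nat_lit 481) (nat_lit 404) (nat_lit 315))))) (XT.nd (nat_lit 312) (nat_lit 228)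 (nat_lit 0) (XT.nd (nat_lit 156) (nat_lit 0) (nat_lit 0) (XT.nd (nat_lit 78) (nat_lit 76) (nat_lit 0) (XT.lf (nat_lit 0) (nat_lit 130630679987) (nat_lit 152) (nat_lit 40035623609) (nat_lit 0) (nat_lit 121337839123) (nat_lit 11) (nat_lit 5) (nat_lit 13) (nat_lit 4) (nat_lit 11) (nat_lit 4) (nat_lit 482) (nat_lit 404) (nat_lit 314)) (XT.lf (nat_lit 0) (nat_lit 70325099905) (nat_lit 76) (nat_lit 124968135501) (nat_lit 76) (nat_lit 115674618392) (nat_lit 10) (nat_lit 4) (nat_lit 11) (nat_lit 5) (nat_lit 11) (nat_lit 4) (nat_lit 483) (nat_lit 404) (nat_lit 313))) (XT.nd (nat_lit 78) (nat_lit 0) (nat_lit 0) (XT.lf (nat_lit 0) (nat_lit 191775354142) (nat_lit 76) (nat_lit 74440252973) (nat_lit 76) (nat_lit 65146109713) (nat_lit 10) (nat_lit 4) (nat_lit 11) (nat_lit 5) (nat_lit 11) (nat_lit 4) (nat_lit 484) (nat_lit 404) (nat_lit 312)) (XT.lf (nat_lit 0) (nat_lit 322926639324) (nat_lit 76) (nat_lit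 19877876425) (nat_lit 76) (nat_lit 10583153396) (nat_lit 10) (nat_lit 4) (nat_lit 11) (nat_lit 5) (nat_lit 11) (nat_lit 4) (nat_lit 485) (nat_lit 404) (nat_lit 311)))) (XT.nd (nat_lit 156) (nat_lit 76) (nat_lit 0) (XT.nd (nat_lit 78) (nat_lit 0) (nat_lit 0) (XT.lf (nat_lit 0) (nat_lit 49128121784) (nat_lit 152) (nat_lit 287177025652) (nat_lit 0) (nat_lit 40521399697) (nat_lit 8) (nat_lit 5) (nat_lit 10) (nat_lit 4) (nat_lit 8) (nat_lit 4) (nat_lit 486) (nat_lit 404) (nat_lit 310)) (XT.lf (nat_lit 0) (nat_lit 114408447638) (nat_lit 152) (nat_lit 181799718348) (nat_lit 0) (nat_lit 105801265311) (nat_lit 8) (nat_lit 5) (nat_lit 10) (nat_lit 4) (nat_lit 8) (nat_lit 4) (nat_lit 487) (nat_lit 404) (nat_lit 309))) (XT.nd (nat_lit 78) (nat_lit 76) (nat_lit 0) (XT.lf (nat_lit 0) (nat_lit 184904823750) (nat_lit 152) (nat_lit 68005417247) (nat_lit 0) (nat_lit 176297215275) (nat_lit 8) (nat_lit 5) (nat_lit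 10) (nat_lit 4) (nat_lit 8) (nat_lit 4) (nat_lit 488) (nat_lit 404) (nat_lit 308)) (XT.lf (nat_lit 0) (nat_lit 57770109077) (nat_lit 76) (nat_lit 204654269858) (nat_lit 76) (nat_lit 196046266801) (nat_lit 7) (nat_lit 4) (nat_lit 8) (nat_lit 5) (nat_lit 8) (nat_lit 4) (nat_lit 489) (nat_lit 404) (nat_lit 307))))))))
noncomputable def xc104 : XT := (XT.nd (nat_lit 2184) (nat_lit 0) (nat_lit 0) (XT.nd (nat_lit 1092) (nat_lit 228) (nat_lit 0) (XT.nd (nat_lit 546) (nat_lit 76) (nat_lit 0) (XT.nd (nat_lit 234) (nat_lit 152) (nat_lit 0) (XT.nd (nat_lit 78) (nat_lit 0) (nat_lit 0) (XT.lf (nat_lit 0) (nat_lit 197463301361) (nat_lit 76) (nat_lit 150535833264) (nat_lit 76) (nat_lit 141927464854) (nat_lit 7) (nat_lit 4) (nat_lit 8) (nat_lit 5) (nat_lit 8) (nat_lit 4) (nat_lit 490) (nat_lit 404) (nat_lit 306)) (XT.nd (nat_lit 78) (nat_lit 0) (nat_lit 0) (XT.lf (nat_lit 0) (nat_lit 348320926358) (nat_lit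 76) (nat_lit 92093617994) (nat_lit 76) (nat_lit 83484911293) (nat_lit 7) (nat_lit 4) (nat_lit 8) (nat_lit 5) (nat_lit 8) (nat_lit 4) (nat_lit 491) (nat_lit 404) (nat_lit 305)) (XT.lf (nat_lit 0) (nat_lit 511236955179) (nat_lit 76) (nat_lit 28981299807) (nat_lit 76) (nat_lit 20372279875) (nat_lit 7) (nat_lit 4) (nat_lit 8) (nat_lit 5) (nat_lit 8) (nat_lit 4) (nat_lit 492) (nat_lit 404) (nat_lit 304)))) (XT.nd (nat_lit 156) (nat_lit 0) (nat_lit 0) (XT.nd (nat_lit 78) (nat_lit 0) (nat_lit 0) (XT.lf (nat_lit 0) (nat_lit 48594911656) (nat_lit 152) (nat_lit 510651020221) (nat_lit 0) (nat_lit 40623328358) (nat_lit 5) (nat_lit 5) (nat_lit 7) (nat_lit 4) (nat_lit 5) (nat_lit 4) (nat_lit 493) (nat_lit 404) (nat_lit 303)) (XT.lf (nat_lit 0) (nat_lit 124111388405) (nat_lit 152) (nat_lit 401826403404) (nat_lit 0) (nat_lit 116139556454) (nat_lit 5) (nat_lit 5) (nat_lit 7) (nat_lit 4) (nat_lit 5) (nat_lit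 4) (nat_lit 494) (nat_lit 404) (nat_lit 302))) (XT.nd (nat_lit 78) (nat_lit 0) (nat_lit 0) (XT.lf (nat_lit 0) (nat_lit 205664847248) (nat_lit 152) (nat_lit 284304797912) (nat_lit 0) (nat_lit 197692785062) (nat_lit 5) (nat_lit 5) (nat_lit 7) (nat_lit 4) (nat_lit 5) (nat_lit 4) (nat_lit 495) (nat_lit 404) (nat_lit 301)) (XT.lf (nat_lit 0) (nat_lit 293738567941) (nat_lit 152) (nat_lit 157389779417) (nat_lit 0) (nat_lit 285766292575) (nat_lit 5) (nat_lit 5) (nat_lit 7) (nat_lit 4) (nat_lit 5) (nat_lit 4) (nat_lit 496) (nat_lit 404) (nat_lit 300))))) (XT.nd (nat_lit 234) (nat_lit 0) (nat_lit 0) (XT.nd (nat_lit 78) (nat_lit 76) (nat_lit 0) (XT.lf (nat_lit 0) (nat_lit 388854468829) (nat_lit 152) (nat_lit 20329258920) (nat_lit 0) (nat_lit 380881996074) (nat_lit 5) (nat_lit 5) (nat_lit 7) (nat_lit 4) (nat_lit 5) (nat_lit 4) (nat_lit 497) (nat_lit 404) (nat_lit 299)) (XT.nd (nat_lit 78) (nat_lit 0)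 (nat_lit 0) (XT.lf (nat_lit 0) (nat_lit 134412849160) (nat_lit 76) (nat_lit 360395982789) (nat_lit 76) (nat_lit 352423327266) (nat_lit 4) (nat_lit 4) (nat_lit 5) (nat_lit 5) (nat_lit 5) (nat_lit 4) (nat_lit 498) (nat_lit 404) (nat_lit 298)) (XT.lf (nat_lit 0) (nat_lit 302683520195) (nat_lit 76) (nat_lit 307108507651) (nat_lit 76) (nat_lit 299135682900) (nat_lit 4) (nat_lit 4) (nat_lit 5) (nat_lit 5) (nat_lit 5) (nat_lit 4) (nat_lit 499) (nat_lit 404) (nat_lit 297)))) (XT.nd (nat_lit 156) (nat_lit 0) (nat_lit 0) (XT.nd (nat_lit 78) (nat_lit 0) (nat_lit 0) (XT.lf (nat_lit 0) (nat_lit 484409410966) (nat_lit 76) (nat_lit 249561362672) (nat_lit 76) (nat_lit 241588381226) (nat_lit 4) (nat_lit 4) (nat_lit 5) (nat_lit 5) (nat_lit 5) (nat_lit 4) (nat_lit 500) (nat_lit 404) (nat_lit 296)) (XT.lf (nat_lit 0) (nat_lit 680667415642) (nat_lit 76) (nat_lit 187413527732) (nat_lit 76) (nat_lit 179440401200)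 (nat_lit 4) (nat_lit 4) (nat_lit 5) (nat_lit 5) (nat_lit 5) (nat_lit 4) (nat_lit 501) (nat_lit 404) (nat_lit 295))) (XT.nd (nat_lit 78) (nat_lit 0) (nat_lit 0) (XT.lf (nat_lit 0) (nat_lit 892620544621) (nat_lit 76) (nat_lit 120296719366) (nat_lit 76) (nat_lit 112323458494) (nat_lit 4) (nat_lit 4) (nat_lit 5) (nat_lit 5) (nat_lit 5) (nat_lit 4) (nat_lit 502) (nat_lit 404) (nat_lit 294)) (XT.lf (nat_lit 0) (nat_lit 1121524816444) (nat_lit 76) (nat_lit 47813208339) (nat_lit 76) (nat_lit 39839823078) (nat_lit 4) (nat_lit 4) (nat_lit 5) (nat_lit 5) (nat_lit 5) (nat_lit 4) (nat_lit 503) (nat_lit 404) (nat_lit 293)))))) (XT.nd (nat_lit 546) (nat_lit 76) (nat_lit 0) (XT.nd (nat_lit 234) (nat_lit 0) (nat_lit 0) (XT.nd (nat_lit 78) (nat_lit 0) (nat_lit 0) (XT.lf (nat_lit 0) (nat_lit 39039613455) (nat_lit 152) (nat_lit 1228858010889) (nat_lit 0) (nat_lit 31656742681) (nat_lit 2) (nat_lit 5) (nat_lit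 4) (nat_lit 4) (nat_lit 2) (nat_lit 4) (nat_lit 504) (nat_lit 404) (nat_lit 292)) (XT.nd (nat_lit 78) (nat_lit 0) (nat_lit 0) (XT.lf (nat_lit 0) (nat_lit 125775418215) (nat_lit 152) (nat_lit 1152614484879) (nat_lit 0) (nat_lit 118392448698) (nat_lit 2) (nat_lit 5) (nat_lit 4) (nat_lit 4) (nat_lit 2) (nat_lit 4) (nat_lit 505) (nat_lit 404) (nat_lit 291)) (XT.lf (nat_lit 0) (nat_lit 219447919535) (nat_lit 152) (nat_lit 1070275970648) (nat_lit 0) (nat_lit 212064858588) (nat_lit 2) (nat_lit 5) (nat_lit 4) (nat_lit 4) (nat_lit 2) (nat_lit 4) (nat_lit 506) (nat_lit 404) (nat_lit 290)))) (XT.nd (nat_lit 156) (nat_lit 0) (nat_lit 0) (XT.nd (nat_lit 78) (nat_lit 0) (nat_lit 0) (XT.lf (nat_lit 0) (nat_lit 320612213716) (nat_lit 152) (nat_lit 981354536259) (nat_lit 0) (nat_lit 313229068113) (nat_lit 2) (nat_lit 5) (nat_lit 4) (nat_lit 4) (nat_lit 2) (nat_lit 4) (nat_lit 507) (nat_lit 404) (nat_lit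 289)) (XT.lf (nat_lit 0) (nat_lit 429867792874) (nat_lit 152) (nat_lit 885323239879) (nat_lit 0) (nat_lit 422484568885) (nat_lit 2) (nat_lit 5) (nat_lit 4) (nat_lit 4) (nat_lit 2) (nat_lit 4) (nat_lit 508) (nat_lit 404) (nat_lit 288))) (XT.nd (nat_lit 78) (nat_lit 0) (nat_lit 0) (XT.lf (nat_lit 0) (nat_lit 547862097477) (nat_lit 152) (nat_lit 781613007159) (nat_lit 0) (nat_lit 540478800908) (nat_lit 2) (nat_lit 5) (nat_lit 4) (nat_lit 4) (nat_lit 2) (nat_lit 4) (nat_lit 509) (nat_lit 404) (nat_lit 287)) (XT.lf (nat_lit 0) (nat_lit 675294353034) (nat_lit 152) (nat_lit 669609258942) (nat_lit 0) (nat_lit 667910989262) (nat_lit 2) (nat_lit 5) (nat_lit 4) (nat_lit 4) (nat_lit 2) (nat_lit 4) (nat_lit 510) (nat_lit 404) (nat_lit 286))))) (XT.nd (nat_lit 234) (nat_lit 76) (nat_lit 0) (XT.nd (nat_lit 78) (nat_lit 0) (nat_lit 0) (XT.lf (nat_lit 0) (nat_lit 812919713652) (nat_lit 152) (nat_lit 548648269312)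 (nat_lit 0) (nat_lit 805536287655) (nat_lit 2) (nat_lit 5) (nat_lit 4) (nat_lit 4) (nat_lit 2) (nat_lit 4) (nat_lit 511) (nat_lit 404) (nat_lit 285)) (XT.nd (nat_lit 78) (nat_lit 0) (nat_lit 0) (XT.lf (nat_lit 0) (nat_lit 961553737024) (nat_lit 152) (nat_lit 418013232407) (nat_lit 0) (nat_lit 954170253411) (nat_lit 2) (nat_lit 5) (nat_lit 4) (nat_lit 4) (nat_lit 2) (nat_lit 4) (nat_lit 512) (nat_lit 404) (nat_lit 284)) (XT.lf (nat_lit 0) (nat_lit 1122077217362) (nat_lit 152) (nat_lit 276930014672) (nat_lit 0) (nat_lit 1114693680400) (nat_lit 2) (nat_lit 5) (nat_lit 4) (nat_lit 4) (nat_lit 2) (nat_lit 4) (nat_lit 513) (nat_lit 404) (nat_lit 283)))) (XT.nd (nat_lit 156) (nat_lit 0) (nat_lit 0) (XT.nd (nat_lit 78) (nat_lit 76) (nat_lit 0) (XT.lf (nat_lit 0) (nat_lit 1295441404919) (nat_lit 152) (nat_lit 124562567411) (nat_lit 0) (nat_lit 1288057818562) (nat_lit 2) (nat_lit 5) (nat_lit 4) (nat_lit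 4) (nat_lit 2) (nat_lit 4) (nat_lit 514) (nat_lit 404) (nat_lit 282)) (XT.lf (nat_lit 0) (nat_lit 42097936882) (nat_lit 76) (nat_lit 1441588162543) (nat_lit 76) (nat_lit 1434204530448) (nat_lit 1) (nat_lit 4) (nat_lit 2) (nat_lit 5) (nat_lit 2) (nat_lit 4) (nat_lit 515) (nat_lit 404) (nat_lit 281))) (XT.nd (nat_lit 78) (nat_lit 0) (nat_lit 0) (XT.lf (nat_lit 0) (nat_lit 229173073964) (nat_lit 76) (nat_lit 1461222000046) (nat_lit 76) (nat_lit 1453838325601) (nat_lit 1) (nat_lit 4) (nat_lit 2) (nat_lit 5) (nat_lit 2) (nat_lit 4) (nat_lit 516) (nat_lit 404) (nat_lit 280)) (XT.lf (nat_lit 0) (nat_lit 431212193183) (nat_lit 76) (nat_lit 1482427594843) (nat_lit 76) (nat_lit 1475043881186) (nat_lit 1) (nat_lit 4) (nat_lit 2) (nat_lit 5) (nat_lit 2) (nat_lit 4) (nat_lit 517) (nat_lit 404) (nat_lit 279))))))) (XT.nd (nat_lit 1092) (nat_lit 0) (nat_lit 0) (XT.nd (nat_lit 546) (nat_lit 0) (nat_lit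 0) (XT.nd (nat_lit 234) (nat_lit 0) (nat_lit 0) (XT.nd (nat_lit 78) (nat_lit 0) (nat_lit 0) (XT.lf (nat_lit 0) (nat_lit 649412563394) (nat_lit 76) (nat_lit 1505330609719) (nat_lit 76) (nat_lit 1497946859754) (nat_lit 1) (nat_lit 4) (nat_lit 2) (nat_lit 5) (nat_lit 2) (nat_lit 4) (nat_lit 518) (nat_lit 404) (nat_lit 278)) (XT.nd (nat_lit 78) (nat_lit 0) (nat_lit 0) (XT.lf (nat_lit 0) (nat_lit 885067223828) (nat_lit 76) (nat_lit 1530066766243) (nat_lit 76) (nat_lit 1522682982660) (nat_lit 1) (nat_lit 4) (nat_lit 2) (nat_lit 5) (nat_lit 2) (nat_lit 4) (nat_lit 519) (nat_lit 404) (nat_lit 277)) (XT.lf (nat_lit 0) (nat_lit 1139572646546) (nat_lit 76) (nat_lit 1556782649047) (nat_lit 76) (nat_lit 1549398834335) (nat_lit 1) (nat_lit 4) (nat_lit 2) (nat_lit 5) (nat_lit 2) (nat_lit 4) (nat_lit 520) (nat_lit 404) (nat_lit 276)))) (XT.nd (nat_lit 156) (nat_lit 0) (nat_lit 0) (XT.nd (nat_lit 78) (nat_lit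 0) (nat_lit 0) (XT.lf (nat_lit 0) (nat_lit 1414437011831) (nat_lit 76) (nat_lit 1585636574472) (nat_lit 76) (nat_lit 1578252730938) (nat_lit 1) (nat_lit 4) (nat_lit 2) (nat_lit 5) (nat_lit 2) (nat_lit 4) (nat_lit 521) (nat_lit 404) (nat_lit 275)) (XT.lf (nat_lit 0) (nat_lit 1711289145552) (nat_lit 76) (nat_lit 1616799528743) (nat_lit 76) (nat_lit 1609415658522) (nat_lit 1) (nat_lit 4) (nat_lit 2) (nat_lit 5) (nat_lit 2) (nat_lit 4) (nat_lit 522) (nat_lit 404) (nat_lit 274))) (XT.nd (nat_lit 78) (nat_lit 0) (nat_lit 0) (XT.lf (nat_lit 0) (nat_lit 2031888171463) (nat_lit 76) (nat_lit 1650456181220) (nat_lit 76) (nat_lit 1643072286289) (nat_lit 1) (nat_lit 4) (nat_lit 2) (nat_lit 5) (nat_lit 2) (nat_lit 4) (nat_lit 523) (nat_lit 404) (nat_lit 273)) (XT.lf (nat_lit 0) (nat_lit 2378133935645) (nat_lit 76) (nat_lit 1686805978732) (nat_lit 76) (nat_lit 1679422060920) (nat_lit 1) (nat_lit 4) (nat_lit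 2) (nat_lit 5) (nat_lit 2) (nat_lit 4) (nat_lit 524) (nat_lit 404) (nat_lit 272))))) (XT.nd (nat_lit 234) (nat_lit 0) (nat_lit 0) (XT.nd (nat_lit 78) (nat_lit 0) (nat_lit 0) (XT.lf (nat_lit 0) (nat_lit 2752078264848) (nat_lit 76) (nat_lit 1726064327486) (nat_lit 76) (nat_lit 1718680388489) (nat_lit 1) (nat_lit 4) (nat_lit 2) (nat_lit 5) (nat_lit 2) (nat_lit 4) (nat_lit 525) (nat_lit 404) (nat_lit 271)) (XT.nd (nat_lit 78) (nat_lit 0) (nat_lit 0) (XT.lf (nat_lit 0) (nat_lit 3155937125468) (nat_lit 76) (nat_lit 1768463869549) (nat_lit 76) (nat_lit 1761079910936) (nat_lit 1) (nat_lit 4) (nat_lit 2) (nat_lit 5) (nat_lit 2) (nat_lit 4) (nat_lit 526) (nat_lit 404) (nat_lit 270)) (XT.lf (nat_lit 0) (nat_lit 3592103755196) (nat_lit 76) (nat_lit 1814255861466) (nat_lit 76) (nat_lit 1806871884690) (nat_lit 1) (nat_lit 4) (nat_lit 2) (nat_lit 5) (nat_lit 2) (nat_lit 4) (nat_lit 527) (nat_lit 404) (nat_lit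 269)))) (XT.nd (nat_lit 156) (nat_lit 0) (nat_lit 0) (XT.nd (nat_lit 78) (nat_lit 0) (nat_lit 0) (XT.lf (nat_lit 0) (nat_lit 4063162845173) (nat_lit 76) (nat_lit 1863711663190) (nat_lit 76) (nat_lit 1856327669596) (nat_lit 1) (nat_lit 4) (nat_lit 2) (nat_lit 5) (nat_lit 2) (nat_lit 4) (nat_lit 528) (nat_lit 404) (nat_lit 268)) (XT.lf (nat_lit 0) (nat_lit 4571905856672) (nat_lit 76) (nat_lit 1917124346138) (nat_lit 76) (nat_lit 1909740336973) (nat_lit 1) (nat_lit 4) (nat_lit 2) (nat_lit 5) (nat_lit 2) (nat_lit 4) (nat_lit 529) (nat_lit 404) (nat_lit 267))) (XT.nd (nat_lit 78) (nat_lit 0) (nat_lit 0) (XT.lf (nat_lit 0) (nat_lit 5121347563094) (nat_lit 76) (nat_lit 1974810429913) (nat_lit 76) (nat_lit 1967426406329) (nat_lit 1) (nat_lit 4) (nat_lit 2) (nat_lit 5) (nat_lit 2) (nat_lit 4) (nat_lit 530) (nat_lit 404) (nat_lit 266)) (XT.lf (nat_lit 0) (nat_lit 5714743915292) (nat_lit 76) (nat_lit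 2037111757974) (nat_lit 76) (nat_lit 2029727721040) (nat_lit 1) (nat_lit 4) (nat_lit 2) (nat_lit 5) (nat_lit 2) (nat_lit 4) (nat_lit 531) (nat_lit 404) (nat_lit 265)))))) (XT.nd (nat_lit 546) (nat_lit 0) (nat_lit 0) (XT.nd (nat_lit 234) (nat_lit 0) (nat_lit 0) (XT.nd (nat_lit 78) (nat_lit 0) (nat_lit 0) (XT.lf (nat_lit 0) (nat_lit 6355611336095) (nat_lit 76) (nat_lit 2104397523377) (nat_lit 76) (nat_lit 2097013474081) (nat_lit 1) (nat_lit 4) (nat_lit 2) (nat_lit 5) (nat_lit 2) (nat_lit 4) (nat_lit 532) (nat_lit 404) (nat_lit 264)) (XT.nd (nat_lit 78) (nat_lit 0) (nat_lit 0) (XT.lf (nat_lit 0) (nat_lit 7047747558365) (nat_lit 76) (nat_lit 2177066456582) (nat_lit 76) (nat_lit 2169682395841) (nat_lit 1) (nat_lit 4) (nat_lit 2) (nat_lit 5) (nat_lit 2) (nat_lit 4) (nat_lit 533) (nat_lit 404) (nat_lit 263)) (XT.lf (nat_lit 0) (nat_lit 7795254130088) (nat_lit 76) (nat_lit 2255549188306) (nat_lit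 76) (nat_lit 2248165116967) (nat_lit 1) (nat_lit 4) (nat_lit 2) (nat_lit 5) (nat_lit 2) (nat_lit 4) (nat_lit 534) (nat_lit 404) (nat_lit 262)))) (XT.nd (nat_lit 156) (nat_lit 0) (nat_lit 0) (XT.nd (nat_lit 78) (nat_lit 0) (nat_lit 0) (XT.lf (nat_lit 0) (nat_lit 8602560719836) (nat_lit 76) (nat_lit 2340310801403) (nat_lit 76) (nat_lit 2332926720251) (nat_lit 1) (nat_lit 4) (nat_lit 2) (nat_lit 5) (nat_lit 2) (nat_lit 4) (nat_lit 535) (nat_lit 404) (nat_lit 261)) (XT.lf (nat_lit 0) (nat_lit 9474451366660) (nat_lit 76) (nat_lit 2431853586914) (nat_lit 76) (nat_lit 2424469496676) (nat_lit 1) (nat_lit 4) (nat_lit 2) (nat_lit 5) (nat_lit 2) (nat_lit 4) (nat_lit 536) (nat_lit 404) (nat_lit 260))) (XT.nd (nat_lit 78) (nat_lit 0) (nat_lit 0) (XT.lf (nat_lit 0) (nat_lit 10416092829948) (nat_lit 76) (nat_lit 2530720020604) (nat_lit 76) (nat_lit 2523335921953) (nat_lit 1) (nat_lit 4) (nat_lit 2) (nat_lit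 5) (nat_lit 2) (nat_lit 4) (nat_lit 537) (nat_lit 404) (nat_lit 259)) (XT.lf (nat_lit 0) (nat_lit 11433065207260) (nat_lit 76) (nat_lit 2637495977637) (nat_lit 76) (nat_lit 2630111871196) (nat_lit 1) (nat_lit 4) (nat_lit 2) (nat_lit 5) (nat_lit 2) (nat_lit 4) (nat_lit 538) (nat_lit 404) (nat_lit 258))))) (XT.nd (nat_lit 234) (nat_lit 0) (nat_lit 0) (XT.nd (nat_lit 78) (nat_lit 0) (nat_lit 0) (XT.lf (nat_lit 0) (nat_lit 12531395001574) (nat_lit 76) (nat_lit 2752814204423) (nat_lit 76) (nat_lit 2745430090770) (nat_lit 1) (nat_lit 4) (nat_lit 2) (nat_lit 5) (nat_lit 2) (nat_lit 4) (nat_lit 539) (nat_lit 404) (nat_lit 257)) (XT.nd (nat_lit 78) (nat_lit 0) (nat_lit 0) (XT.lf (nat_lit 0) (nat_lit 13717590833891) (nat_lit 76) (nat_lit 2877358068234) (nat_lit 76) (nat_lit 2869973947902) (nat_lit 1) (nat_lit 4) (nat_lit 2) (nat_lit 5) (nat_lit 2) (nat_lit 4) (nat_lit 540) (nat_lit 404) (nat_lit 256))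 (XT.lf (nat_lit 0) (nat_lit 14998682012849) (nat_lit 76) (nat_lit 3011865606780) (nat_lit 76) (nat_lit 3004481480264) (nat_lit 1) (nat_lit 4) (nat_lit 2) (nat_lit 5) (nat_lit 2) (nat_lit 4) (nat_lit 541) (nat_lit 404) (nat_lit 255)))) (XT.nd (nat_lit 51792) (nat_lit 0) (nat_lit 7904) (XT.nd (nat_lit 78) (nat_lit 0) (nat_lit 0) (XT.lf (nat_lit 0) (nat_lit 16382260189878) (nat_lit 76) (nat_lit 3157133901772) (nat_lit 76) (nat_lit 3149749769530) (nat_lit 1) (nat_lit 4) (nat_lit 2) (nat_lit 5) (nat_lit 2) (nat_lit 4) (nat_lit 542) (nat_lit 404) (nat_lit 254)) (XT.lf (nat_lit 0) (nat_lit 17876524346769) (nat_lit 76) (nat_lit 3314023802365) (nat_lit 76) (nat_lit 3306639664822) (nat_lit 1) (nat_lit 4) (nat_lit 2) (nat_lit 5) (nat_lit 2) (nat_lit 4) (nat_lit 543) (nat_lit 404) (nat_lit 253))) (XT.nd (nat_lit 78) (nat_lit 0) (nat_lit 0) (XT.lf (nat_lit 0) (nat_lit 2211768592) (nat_lit 380) (nat_lit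 682977255) (nat_lit 380) (nat_lit 682977255) (nat_lit 105) (nat_lit 3) (nat_lit 110) (nat_lit 3) (nat_lit 110) (nat_lit 5) (nat_lit 405) (nat_lit 405) (nat_lit 390)) (XT.lf (nat_lit 76) (nat_lit 2315459315) (nat_lit 0) (nat_lit 3948228371) (nat_lit 380) (nat_lit 1044649420) (nat_lit 106) (nat_lit 5) (nat_lit 105) (nat_lit 3) (nat_lit 110) (nat_lit 5) (nat_lit 406) (nat_lit 405) (nat_lit 389))))))))
noncomputable def xc105 : XT := (XT.nd (nat_lit 2184) (nat_lit 2052) (nat_lit 0) (XT.nd (nat_lit 1092) (nat_lit 1596) (nat_lit 0) (XT.nd (nat_lit 546) (nat_lit 1292) (nat_lit 0) (XT.nd (nat_lit 234) (nat_lit 760) (nat_lit 0) (XT.nd (nat_lit 78) (nat_lit 0) (nat_lit 76) (XT.lf (nat_lit 0) (nat_lit 609721630) (nat_lit 380) (nat_lit 1221342930) (nat_lit 456) (nat_lit 5651241350) (nat_lit 100) (nat_lit 5) (nat_lit 105) (nat_lit 3) (nat_lit 106) (nat_lit 5) (nat_lit 407) (nat_lit 405) (nat_lit 388))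 (XT.nd (nat_lit 78) (nat_lit 0) (nat_lit 0) (XT.lf (nat_lit 0) (nat_lit 2269217929) (nat_lit 380) (nat_lit 4814053373) (nat_lit 456) (nat_lit 590436294) (nat_lit 101) (nat_lit 5) (nat_lit 106) (nat_lit 5) (nat_lit 107) (nat_lit 5) (nat_lit 408) (nat_lit 405) (nat_lit 387)) (XT.lf (nat_lit 0) (nat_lit 3999020967) (nat_lit 380) (nat_lit 693073953) (nat_lit 456) (nat_lit 3193344194) (nat_lit 101) (nat_lit 5) (nat_lit 106) (nat_lit 5) (nat_lit 107) (nat_lit 5) (nat_lit 409) (nat_lit 405) (nat_lit 386)))) (XT.nd (nat_lit 156) (nat_lit 532) (nat_lit 0) (XT.nd (nat_lit 78) (nat_lit 304) (nat_lit 0) (XT.lf (nat_lit 76) (nat_lit 3854584887) (nat_lit 0) (nat_lit 1971739061) (nat_lit 456) (nat_lit 2291075823) (nat_lit 102) (nat_lit 5) (nat_lit 101) (nat_lit 5) (nat_lit 107) (nat_lit 5) (nat_lit 410) (nat_lit 405) (nat_lit 385)) (XT.lf (nat_lit 0) (nat_lit 327449676) (nat_lit 380) (nat_lit 7397761654)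 (nat_lit 456) (nat_lit 648692339) (nat_lit 97) (nat_lit 5) (nat_lit 102) (nat_lit 5) (nat_lit 103) (nat_lit 5) (nat_lit 411) (nat_lit 405) (nat_lit 384))) (XT.nd (nat_lit 78) (nat_lit 456) (nat_lit 0) (XT.lf (nat_lit 0) (nat_lit 1118176496) (nat_lit 456) (nat_lit 3303578586) (nat_lit 76) (nat_lit 4223073846) (nat_lit 96) (nat_lit 5) (nat_lit 102) (nat_lit 5) (nat_lit 97) (nat_lit 5) (nat_lit 412) (nat_lit 405) (nat_lit 383)) (XT.lf (nat_lit 0) (nat_lit 1791455791) (nat_lit 456) (nat_lit 1130552885) (nat_lit 532) (nat_lit 6019633399) (nat_lit 90) (nat_lit 5) (nat_lit 96) (nat_lit 5) (nat_lit 97) (nat_lit 5) (nat_lit 413) (nat_lit 405) (nat_lit 382))))) (XT.nd (nat_lit 234) (nat_lit 760) (nat_lit 0) (XT.nd (nat_lit 78) (nat_lit 532) (nat_lit 0) (XT.lf (nat_lit 0) (nat_lit 4914888374) (nat_lit 532) (nat_lit 1939894902) (nat_lit 76) (nat_lit 2403851249) (nat_lit 90) (nat_lit 5) (nat_lit 97)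 (nat_lit 5) (nat_lit 91) (nat_lit 5) (nat_lit 414) (nat_lit 405) (nat_lit 381)) (XT.nd (nat_lit 78) (nat_lit 0) (nat_lit 0) (XT.lf (nat_lit 0) (nat_lit 3746911807) (nat_lit 532) (nat_lit 3341406801) (nat_lit 608) (nat_lit 2510990671) (nat_lit 83) (nat_lit 5) (nat_lit 90) (nat_lit 5) (nat_lit 91) (nat_lit 5) (nat_lit 415) (nat_lit 405) (nat_lit 380)) (XT.lf (nat_lit 0) (nat_lit 9407497868) (nat_lit 608) (nat_lit 79591086) (nat_lit 76) (nat_lit 482410686) (nat_lit 83) (nat_lit 5) (nat_lit 91) (nat_lit 5) (nat_lit 84) (nat_lit 5) (nat_lit 416) (nat_lit 405) (nat_lit 379)))) (XT.nd (nat_lit 156) (nat_lit 228) (nat_lit 0) (XT.nd (nat_lit 78) (nat_lit 228) (nat_lit 0) (XT.lf (nat_lit 0) (nat_lit 1621125317) (nat_lit 304) (nat_lit 4111139786) (nat_lit 76) (nat_lit 4621649394) (nat_lit 79) (nat_lit 5) (nat_lit 83) (nat_lit 5) (nat_lit 80) (nat_lit 5) (nat_lit 417) (nat_lit 405) (nat_lit 378)) (XT.lf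 (nat_lit 0) (nat_lit 2309742294) (nat_lit 228) (nat_lit 1612080138) (nat_lit 304) (nat_lit 6848238915) (nat_lit 76) (nat_lit 5) (nat_lit 79) (nat_lit 5) (nat_lit 80) (nat_lit 5) (nat_lit 418) (nat_lit 405) (nat_lit 377))) (XT.nd (nat_lit 78) (nat_lit 228) (nat_lit 0) (XT.lf (nat_lit 0) (nat_lit 6509264381) (nat_lit 304) (nat_lit 1904893738) (nat_lit 76) (nat_lit 2797135224) (nat_lit 76) (nat_lit 5) (nat_lit 80) (nat_lit 5) (nat_lit 77) (nat_lit 5) (nat_lit 419) (nat_lit 405) (nat_lit 376)) (XT.lf (nat_lit 0) (nat_lit 5304639509) (nat_lit 228) (nat_lit 4093618833) (nat_lit 304) (nat_lit 2282008915) (nat_lit 73) (nat_lit 5) (nat_lit 76) (nat_lit 5) (nat_lit 77) (nat_lit 5) (nat_lit 420) (nat_lit 405) (nat_lit 375)))))) (XT.nd (nat_lit 546) (nat_lit 760) (nat_lit 0) (XT.nd (nat_lit 234) (nat_lit 380) (nat_lit 0) (XT.nd (nat_lit 78) (nat_lit 152) (nat_lit 0) (XT.lf (nat_lit 0) (nat_lit 333578904)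 (nat_lit 304) (nat_lit 11241253393) (nat_lit 76) (nat_lit 609811148) (nat_lit 69) (nat_lit 5) (nat_lit 73) (nat_lit 5) (nat_lit 70) (nat_lit 5) (nat_lit 421) (nat_lit 405) (nat_lit 374)) (XT.nd (nat_lit 78) (nat_lit 152) (nat_lit 0) (XT.lf (nat_lit 0) (nat_lit 3249551289) (nat_lit 304) (nat_lit 3773010496) (nat_lit 76) (nat_lit 5684918345) (nat_lit 69) (nat_lit 5) (nat_lit 73) (nat_lit 5) (nat_lit 70) (nat_lit 5) (nat_lit 422) (nat_lit 405) (nat_lit 373)) (XT.lf (nat_lit 0) (nat_lit 4423242965) (nat_lit 152) (nat_lit 2016427187) (nat_lit 228) (nat_lit 6829209906) (nat_lit 67) (nat_lit 5) (nat_lit 69) (nat_lit 5) (nat_lit 70) (nat_lit 5) (nat_lit 423) (nat_lit 405) (nat_lit 372)))) (XT.nd (nat_lit 156) (nat_lit 228) (nat_lit 0) (XT.nd (nat_lit 78) (nat_lit 152) (nat_lit 0) (XT.lf (nat_lit 0) (nat_lit 10008972298) (nat_lit 228) (nat_lit 554214120) (nat_lit 76) (nat_lit 3302093029) (nat_lit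 67) (nat_lit 5) (nat_lit 70) (nat_lit 5) (nat_lit 68) (nat_lit 5) (nat_lit 424) (nat_lit 405) (nat_lit 371)) (XT.lf (nat_lit 0) (nat_lit 8697264510) (nat_lit 152) (nat_lit 5369393751) (nat_lit 228) (nat_lit 426510328) (nat_lit 65) (nat_lit 5) (nat_lit 67) (nat_lit 5) (nat_lit 68) (nat_lit 5) (nat_lit 425) (nat_lit 405) (nat_lit 370))) (XT.nd (nat_lit 78) (nat_lit 0) (nat_lit 0) (XT.lf (nat_lit 0) (nat_lit 3166841585) (nat_lit 228) (nat_lit 11608804419) (nat_lit 76) (nat_lit 385090184) (nat_lit 62) (nat_lit 5) (nat_lit 65) (nat_lit 5) (nat_lit 63) (nat_lit 5) (nat_lit 426) (nat_lit 405) (nat_lit 369)) (XT.lf (nat_lit 0) (nat_lit 7270381285) (nat_lit 228) (nat_lit 2134862216) (nat_lit 76) (nat_lit 6455922405) (nat_lit 62) (nat_lit 5) (nat_lit 65) (nat_lit 5) (nat_lit 63) (nat_lit 5) (nat_lit 427) (nat_lit 405) (nat_lit 368))))) (XT.nd (nat_lit 234) (nat_lit 456) (nat_lit 0) (XT.nd (nat_lit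 78) (nat_lit 152) (nat_lit 0) (XT.lf (nat_lit 0) (nat_lit 8437222105) (nat_lit 152) (nat_lit 3415778091) (nat_lit 228) (nat_lit 4752569776) (nat_lit 60) (nat_lit 5) (nat_lit 62) (nat_lit 5) (nat_lit 63) (nat_lit 5) (nat_lit 428) (nat_lit 405) (nat_lit 367)) (XT.nd (nat_lit 78) (nat_lit 76) (nat_lit 0) (XT.lf (nat_lit 0) (nat_lit 2540716406) (nat_lit 76) (nat_lit 14405035907) (nat_lit 152) (nat_lit 452295540) (nat_lit 59) (nat_lit 5) (nat_lit 60) (nat_lit 5) (nat_lit 61) (nat_lit 4) (nat_lit 429) (nat_lit 405) (nat_lit 366)) (XT.lf (nat_lit 0) (nat_lit 4249815545) (nat_lit 152) (nat_lit 3943972419) (nat_lit 76) (nat_lit 10030672226) (nat_lit 58) (nat_lit 5) (nat_lit 60) (nat_lit 5) (nat_lit 59) (nat_lit 5) (nat_lit 430) (nat_lit 405) (nat_lit 365)))) (XT.nd (nat_lit 156) (nat_lit 228) (nat_lit 0) (XT.nd (nat_lit 78) (nat_lit 76) (nat_lit 0) (XT.lf (nat_lit 0) (nat_lit 8161553352) (nat_lit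 152) (nat_lit 1291777366) (nat_lit 228) (nat_lit 9650743973) (nat_lit 56) (nat_lit 5) (nat_lit 58) (nat_lit 5) (nat_lit 59) (nat_lit 5) (nat_lit 431) (nat_lit 405) (nat_lit 364)) (XT.lf (nat_lit 0) (nat_lit 1247447481) (nat_lit 76) (nat_lit 14068812579) (nat_lit 152) (nat_lit 4718350144) (nat_lit 55) (nat_lit 5) (nat_lit 56) (nat_lit 5) (nat_lit 57) (nat_lit 4) (nat_lit 432) (nat_lit 405) (nat_lit 363))) (XT.nd (nat_lit 78) (nat_lit 152) (nat_lit 0) (XT.lf (nat_lit 0) (nat_lit 873390919) (nat_lit 152) (nat_lit 6115430293) (nat_lit 76) (nat_lit 14025982294) (nat_lit 54) (nat_lit 5) (nat_lit 56) (nat_lit 5) (nat_lit 55) (nat_lit 5) (nat_lit 433) (nat_lit 405) (nat_lit 362)) (XT.lf (nat_lit 0) (nat_lit 6825405349) (nat_lit 228) (nat_lit 14312221916) (nat_lit 76) (nat_lit 912554814) (nat_lit 52) (nat_lit 5) (nat_lit 55) (nat_lit 5) (nat_lit 53) (nat_lit 4) (nat_lit 434) (nat_lit 405) (nat_lit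 361))))))) (XT.nd (nat_lit 1092) (nat_lit 988) (nat_lit 0) (XT.nd (nat_lit 546) (nat_lit 532) (nat_lit 0) (XT.nd (nat_lit 234) (nat_lit 228) (nat_lit 0) (XT.nd (nat_lit 78) (nat_lit 304) (nat_lit 0) (XT.lf (nat_lit 0) (nat_lit 13565370107) (nat_lit 228) (nat_lit 367047617) (nat_lit 76) (nat_lit 9211031908) (nat_lit 52) (nat_lit 5) (nat_lit 55) (nat_lit 5) (nat_lit 53) (nat_lit 4) (nat_lit 435) (nat_lit 405) (nat_lit 360)) (XT.nd (nat_lit 78) (nat_lit 228) (nat_lit 0) (XT.lf (nat_lit 0) (nat_lit 15395775447) (nat_lit 76) (nat_lit 5780795385) (nat_lit 152) (nat_lit 3121046349) (nat_lit 51) (nat_lit 5) (nat_lit 52) (nat_lit 5) (nat_lit 53) (nat_lit 4) (nat_lit 436) (nat_lit 405) (nat_lit 359)) (XT.lf (nat_lit 0) (nat_lit 3881770026) (nat_lit 228) (nat_lit 18513783296) (nat_lit 76) (nat_lit 3123398696) (nat_lit 48) (nat_lit 5) (nat_lit 51) (nat_lit 5) (nat_lit 49) (nat_lit 4) (nat_lit 437) (nat_lit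 405) (nat_lit 358)))) (XT.nd (nat_lit 156) (nat_lit 152) (nat_lit 0) (XT.nd (nat_lit 78) (nat_lit 76) (nat_lit 0) (XT.lf (nat_lit 0) (nat_lit 11638589970) (nat_lit 228) (nat_lit 2433955033) (nat_lit 76) (nat_lit 12729973026) (nat_lit 48) (nat_lit 5) (nat_lit 51) (nat_lit 5) (nat_lit 49) (nat_lit 4) (nat_lit 438) (nat_lit 405) (nat_lit 357)) (XT.lf (nat_lit 0) (nat_lit 15651419998) (nat_lit 76) (nat_lit 4706259294) (nat_lit 152) (nat_lit 7803753370) (nat_lit 47) (nat_lit 5) (nat_lit 48) (nat_lit 5) (nat_lit 49) (nat_lit 4) (nat_lit 439) (nat_lit 405) (nat_lit 356))) (XT.nd (nat_lit 78) (nat_lit 0) (nat_lit 0) (XT.lf (nat_lit 0) (nat_lit 449213918) (nat_lit 152) (nat_lit 23824112351) (nat_lit 76) (nat_lit 5330556321) (nat_lit 45) (nat_lit 5) (nat_lit 47) (nat_lit 5) (nat_lit 46) (nat_lit 4) (nat_lit 440) (nat_lit 405) (nat_lit 355)) (XT.lf (nat_lit 0) (nat_lit 9379850260) (nat_lit 152) (nat_lit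 5288342940) (nat_lit 76) (nat_lit 16442197745) (nat_lit 45) (nat_lit 5) (nat_lit 47) (nat_lit 5) (nat_lit 46) (nat_lit 4) (nat_lit 441) (nat_lit 405) (nat_lit 354))))) (XT.nd (nat_lit 234) (nat_lit 304) (nat_lit 0) (XT.nd (nat_lit 78) (nat_lit 152) (nat_lit 0) (XT.lf (nat_lit 0) (nat_lit 15443238311) (nat_lit 76) (nat_lit 3921504190) (nat_lit 152) (nat_lit 13345493982) (nat_lit 44) (nat_lit 5) (nat_lit 45) (nat_lit 5) (nat_lit 46) (nat_lit 4) (nat_lit 442) (nat_lit 405) (nat_lit 353)) (XT.nd (nat_lit 78) (nat_lit 76) (nat_lit 0) (XT.lf (nat_lit 0) (nat_lit 3641302056) (nat_lit 76) (nat_lit 26896548172) (nat_lit 76) (nat_lit 3869066355) (nat_lit 43) (nat_lit 4) (nat_lit 44) (nat_lit 5) (nat_lit 44) (nat_lit 4) (nat_lit 443) (nat_lit 405) (nat_lit 352)) (XT.lf (nat_lit 0) (nat_lit 6602084841) (nat_lit 152) (nat_lit 9324512861) (nat_lit 76) (nat_lit 20256084029) (nat_lit 42) (nat_lit 5) (nat_lit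 44) (nat_lit 5) (nat_lit 43) (nat_lit 4) (nat_lit 444) (nat_lit 405) (nat_lit 351)))) (XT.nd (nat_lit 156) (nat_lit 152) (nat_lit 0) (XT.nd (nat_lit 78) (nat_lit 76) (nat_lit 0) (XT.lf (nat_lit 0) (nat_lit 14395974146) (nat_lit 76) (nat_lit 3623264133) (nat_lit 152) (nat_lit 20047843650) (nat_lit 41) (nat_lit 5) (nat_lit 42) (nat_lit 5) (nat_lit 43) (nat_lit 4) (nat_lit 445) (nat_lit 405) (nat_lit 350)) (XT.lf (nat_lit 0) (nat_lit 176575968) (nat_lit 76) (nat_lit 30642759229) (nat_lit 76) (nat_lit 9245333871) (nat_lit 40) (nat_lit 4) (nat_lit 41) (nat_lit 5) (nat_lit 41) (nat_lit 4) (nat_lit 446) (nat_lit 405) (nat_lit 349))) (XT.nd (nat_lit 78) (nat_lit 76) (nat_lit 0) (XT.lf (nat_lit 0) (nat_lit 3029800077) (nat_lit 152) (nat_lit 15117027196) (nat_lit 76) (nat_lit 24012213669) (nat_lit 39) (nat_lit 5) (nat_lit 41) (nat_lit 5) (nat_lit 40) (nat_lit 4) (nat_lit 447) (nat_lit 405) (nat_lit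 348)) (XT.lf (nat_lit 0) (nat_lit 11941214324) (nat_lit 76) (nat_lit 4106964867) (nat_lit 152) (nat_lit 28332714976) (nat_lit 38) (nat_lit 5) (nat_lit 39) (nat_lit 5) (nat_lit 40) (nat_lit 4) (nat_lit 448) (nat_lit 405) (nat_lit 347)))))) (XT.nd (nat_lit 546) (nat_lit 532) (nat_lit 0) (XT.nd (nat_lit 234) (nat_lit 228) (nat_lit 0) (XT.nd (nat_lit 78) (nat_lit 228) (nat_lit 0) (XT.lf (nat_lit 0) (nat_lit 30771680017) (nat_lit 152) (nat_lit 5052104066) (nat_lit 0) (nat_lit 10903619914) (nat_lit 38) (nat_lit 5) (nat_lit 40) (nat_lit 4) (nat_lit 38) (nat_lit 4) (nat_lit 449) (nat_lit 405) (nat_lit 346)) (XT.nd (nat_lit 78) (nat_lit 152) (nat_lit 0) (XT.lf (nat_lit 0) (nat_lit 25655146660) (nat_lit 76) (nat_lit 21717234603) (nat_lit 76) (nat_lit 1833308146) (nat_lit 37) (nat_lit 4) (nat_lit 38) (nat_lit 5) (nat_lit 38) (nat_lit 4) (nat_lit 450) (nat_lit 405) (nat_lit 345)) (XT.lf (nat_lit 0)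 (nat_lit 7221972747) (nat_lit 76) (nat_lit 5816772576) (nat_lit 152) (nat_lit 38794385732) (nat_lit 35) (nat_lit 5) (nat_lit 36) (nat_lit 5) (nat_lit 37) (nat_lit 4) (nat_lit 451) (nat_lit 405) (nat_lit 344)))) (XT.nd (nat_lit 156) (nat_lit 152) (nat_lit 0) (XT.nd (nat_lit 78) (nat_lit 76) (nat_lit 0) (XT.lf (nat_lit 0) (nat_lit 29911076301) (nat_lit 152) (nat_lit 13209282618) (nat_lit 0) (nat_lit 11473835219) (nat_lit 35) (nat_lit 5) (nat_lit 37) (nat_lit 4) (nat_lit 35) (nat_lit 4) (nat_lit 452) (nat_lit 405) (nat_lit 343)) (XT.lf (nat_lit 0) (nat_lit 21588989329) (nat_lit 76) (nat_lit 27192111985) (nat_lit 76) (nat_lit 8743208660) (nat_lit 34) (nat_lit 4) (nat_lit 35) (nat_lit 5) (nat_lit 35) (nat_lit 4) (nat_lit 453) (nat_lit 405) (nat_lit 342))) (XT.nd (nat_lit 78) (nat_lit 76) (nat_lit 0) (XT.lf (nat_lit 0) (nat_lit 8396294184) (nat_lit 152) (nat_lit 995409795) (nat_lit 76) (nat_lit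 51252975479) (nat_lit 33) (nat_lit 5) (nat_lit 35) (nat_lit 5) (nat_lit 34) (nat_lit 4) (nat_lit 454) (nat_lit 405) (nat_lit 341)) (XT.lf (nat_lit 0) (nat_lit 27603088673) (nat_lit 152) (nat_lit 25798428609) (nat_lit 0) (nat_lit 10501514418) (nat_lit 32) (nat_lit 5) (nat_lit 34) (nat_lit 4) (nat_lit 32) (nat_lit 4) (nat_lit 455) (nat_lit 405) (nat_lit 340))))) (XT.nd (nat_lit 312) (nat_lit 304) (nat_lit 0) (XT.nd (nat_lit 156) (nat_lit 76) (nat_lit 0) (XT.nd (nat_lit 78) (nat_lit 76) (nat_lit 0) (XT.lf (nat_lit 0) (nat_lit 13351130617) (nat_lit 76) (nat_lit 35567640275) (nat_lit 76) (nat_lit 18457493923) (nat_lit 31) (nat_lit 4) (nat_lit 32) (nat_lit 5) (nat_lit 32) (nat_lit 4) (nat_lit 456) (nat_lit 405) (nat_lit 339)) (XT.lf (nat_lit 0) (nat_lit 1474829907) (nat_lit 152) (nat_lit 14050437272) (nat_lit 76) (nat_lit 55544277361) (nat_lit 30) (nat_lit 5) (nat_lit 32) (nat_lit 5) (nat_lit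 31) (nat_lit 4) (nat_lit 457) (nat_lit 405) (nat_lit 338))) (XT.nd (nat_lit 78) (nat_lit 0) (nat_lit 0) (XT.lf (nat_lit 0) (nat_lit 22887656211) (nat_lit 152) (nat_lit 45030855218) (nat_lit 0) (nat_lit 7030774108) (nat_lit 29) (nat_lit 5) (nat_lit 31) (nat_lit 4) (nat_lit 29) (nat_lit 4) (nat_lit 458) (nat_lit 405) (nat_lit 337)) (XT.lf (nat_lit 0) (nat_lit 46791905271) (nat_lit 152) (nat_lit 1356506562) (nat_lit 0) (nat_lit 30928722420) (nat_lit 29) (nat_lit 5) (nat_lit 31) (nat_lit 4) (nat_lit 29) (nat_lit 4) (nat_lit 459) (nat_lit 405) (nat_lit 336)))) (XT.nd (nat_lit 156) (nat_lit 76) (nat_lit 0) (XT.nd (nat_lit 78) (nat_lit 152) (nat_lit 0) (XT.lf (nat_lit 0) (nat_lit 48186661568) (nat_lit 76) (nat_lit 25563131222) (nat_lit 76) (nat_lit 9694114346) (nat_lit 28) (nat_lit 4) (nat_lit 29) (nat_lit 5) (nat_lit 29) (nat_lit 4) (nat_lit 460) (nat_lit 405) (nat_lit 335)) (XT.lf (nat_lit 0)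 (nat_lit 13919434936) (nat_lit 76) (nat_lit 404533183) (nat_lit 152) (nat_lit 73779343043) (nat_lit 26) (nat_lit 5) (nat_lit 27) (nat_lit 5) (nat_lit 28) (nat_lit 4) (nat_lit 461) (nat_lit 405) (nat_lit 334))) (XT.nd (nat_lit 78) (nat_lit 76) (nat_lit 0) (XT.lf (nat_lit 0) (nat_lit 41355011687) (nat_lit 152) (nat_lit 24979247885) (nat_lit 0) (nat_lit 26651844568) (nat_lit 26) (nat_lit 5) (nat_lit 28) (nat_lit 4) (nat_lit 26) (nat_lit 4) (nat_lit 462) (nat_lit 405) (nat_lit 333)) (XT.lf (nat_lit 0) (nat_lit 29598855758) (nat_lit 76) (nat_lit 41655814834) (nat_lit 76) (nat_lit 26948359532) (nat_lit 25) (nat_lit 4) (nat_lit 26) (nat_lit 5) (nat_lit 26) (nat_lit 4) (nat_lit 463) (nat_lit 405) (nat_lit 332))))))))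
noncomputable def xc106 : XT := (XT.nd (nat_lit 2184) (nat_lit 456) (nat_lit 0) (XT.nd (nat_lit 1092) (nat_lit 532) (nat_lit 0) (XT.nd (nat_lit 546) (nat_lit 380) (nat_lit 0) (XT.nd (nat_lit 234) (nat_lit 304) (nat_lit 0) (XT.nd (nat_lit 78) (nat_lit 76) (nat_lit 0) (XT.lf (nat_lit 0) (nat_lit 408054346) (nat_lit 152) (nat_lit 13862672802) (nat_lit 76) (nat_lit 89512382643) (nat_lit 24) (nat_lit 5) (nat_lit 26) (nat_lit 5) (nat_lit 25) (nat_lit 4) (nat_lit 464) (nat_lit 405) (nat_lit 331)) (XT.nd (nat_lit 78) (nat_lit 0) (nat_lit 0) (XT.lf (nat_lit 0) (nat_lit 30024514908) (nat_lit 152) (nat_lit 63207468610) (nat_lit 0) (nat_lit 16399420216) (nat_lit 23) (nat_lit 5) (nat_lit 25) (nat_lit 4) (nat_lit 23) (nat_lit 4) (nat_lit 465) (nat_lit 405) (nat_lit 330)) (XT.lf (nat_lit 0) (nat_lit 62754853090) (nat_lit 152) (nat_lit 4006536871) (nat_lit 0) (nat_lit 49126606455) (nat_lit 23) (nat_lit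 5) (nat_lit 25) (nat_lit 4) (nat_lit 23) (nat_lit 4) (nat_lit 466) (nat_lit 405) (nat_lit 329)))) (XT.nd (nat_lit 156) (nat_lit 76) (nat_lit 0) (XT.nd (nat_lit 78) (nat_lit 152) (nat_lit 0) (XT.lf (nat_lit 0) (nat_lit 63056438315) (nat_lit 76) (nat_lit 36549816239) (nat_lit 76) (nat_lit 22918651138) (nat_lit 22) (nat_lit 4) (nat_lit 23) (nat_lit 5) (nat_lit 23) (nat_lit 4) (nat_lit 467) (nat_lit 405) (nat_lit 328)) (XT.lf (nat_lit 0) (nat_lit 6066972820) (nat_lit 76) (nat_lit 3404584969) (nat_lit 152) (nat_lit 120182966877) (nat_lit 20) (nat_lit 5) (nat_lit 21) (nat_lit 5) (nat_lit 22) (nat_lit 4) (nat_lit 468) (nat_lit 405) (nat_lit 327))) (XT.nd (nat_lit 78) (nat_lit 76) (nat_lit 0) (XT.lf (nat_lit 0) (nat_lit 45648181893) (nat_lit 152) (nat_lit 58442122243) (nat_lit 0) (nat_lit 33021913840) (nat_lit 20) (nat_lit 5) (nat_lit 22) (nat_lit 4) (nat_lit 20) (nat_lit 4) (nat_lit 469) (nat_lit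 405) (nat_lit 326)) (XT.lf (nat_lit 0) (nat_lit 12421590945) (nat_lit 76) (nat_lit 72671700323) (nat_lit 76) (nat_lit 60043287112) (nat_lit 19) (nat_lit 4) (nat_lit 20) (nat_lit 5) (nat_lit 20) (nat_lit 4) (nat_lit 470) (nat_lit 405) (nat_lit 325))))) (XT.nd (nat_lit 234) (nat_lit 228) (nat_lit 0) (XT.nd (nat_lit 78) (nat_lit 152) (nat_lit 0) (XT.lf (nat_lit 0) (nat_lit 92252423955) (nat_lit 76) (nat_lit 37027014433) (nat_lit 76) (nat_lit 24396614963) (nat_lit 19) (nat_lit 4) (nat_lit 20) (nat_lit 5) (nat_lit 20) (nat_lit 4) (nat_lit 471) (nat_lit 405) (nat_lit 324)) (XT.nd (nat_lit 78) (nat_lit 0) (nat_lit 0) (XT.lf (nat_lit 0) (nat_lit 13823349044) (nat_lit 152) (nat_lit 146887214682) (nat_lit 0) (nat_lit 2126831823) (nat_lit 17) (nat_lit 5) (nat_lit 19) (nat_lit 4) (nat_lit 17) (nat_lit 4) (nat_lit 472) (nat_lit 405) (nat_lit 323)) (XT.lf (nat_lit 0) (nat_lit 56455808722) (nat_lit 152)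 (nat_lit 71253591477) (nat_lit 0) (nat_lit 44757714746) (nat_lit 17) (nat_lit 5) (nat_lit 19) (nat_lit 4) (nat_lit 17) (nat_lit 4) (nat_lit 473) (nat_lit 405) (nat_lit 322)))) (XT.nd (nat_lit 156) (nat_lit 152) (nat_lit 0) (XT.nd (nat_lit 78) (nat_lit 0) (nat_lit 0) (XT.lf (nat_lit 0) (nat_lit 10956229439) (nat_lit 76) (nat_lit 91795166965) (nat_lit 76) (nat_lit 80095613030) (nat_lit 16) (nat_lit 4) (nat_lit 17) (nat_lit 5) (nat_lit 17) (nat_lit 4) (nat_lit 474) (nat_lit 405) (nat_lit 321)) (XT.lf (nat_lit 0) (nat_lit 103773095119) (nat_lit 76) (nat_lit 50915052417) (nat_lit 76) (nat_lit 39214146667) (nat_lit 16) (nat_lit 4) (nat_lit 17) (nat_lit 5) (nat_lit 17) (nat_lit 4) (nat_lit 475) (nat_lit 405) (nat_lit 320))) (XT.nd (nat_lit 78) (nat_lit 76) (nat_lit 0) (XT.lf (nat_lit 0) (nat_lit 4680677747) (nat_lit 152) (nat_lit 1966347715) (nat_lit 76) (nat_lit 199186287807) (nat_lit 15) (nat_lit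 5) (nat_lit 17) (nat_lit 5) (nat_lit 16) (nat_lit 4) (nat_lit 476) (nat_lit 405) (nat_lit 319)) (XT.lf (nat_lit 0) (nat_lit 53370390160) (nat_lit 152) (nat_lit 122460802932) (nat_lit 0) (nat_lit 42533986093) (nat_lit 14) (nat_lit 5) (nat_lit 16) (nat_lit 4) (nat_lit 14) (nat_lit 4) (nat_lit 477) (nat_lit 405) (nat_lit 318)))))) (XT.nd (nat_lit 546) (nat_lit 228) (nat_lit 0) (XT.nd (nat_lit 234) (nat_lit 228) (nat_lit 0) (XT.nd (nat_lit 78) (nat_lit 76) (nat_lit 0) (XT.lf (nat_lit 0) (nat_lit 106173701495) (nat_lit 152) (nat_lit 30372115348) (nat_lit 0) (nat_lit 95336303805) (nat_lit 14) (nat_lit 5) (nat_lit 16) (nat_lit 4) (nat_lit 14) (nat_lit 4) (nat_lit 478) (nat_lit 405) (nat_lit 317)) (XT.nd (nat_lit 78) (nat_lit 0) (nat_lit 0) (XT.lf (nat_lit 0) (nat_lit 72702619240) (nat_lit 76) (nat_lit 92238465675) (nat_lit 76) (nat_lit 81400147963) (nat_lit 13) (nat_lit 4) (nat_lit 14) (nat_lit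 5) (nat_lit 14) (nat_lit 4) (nat_lit 479) (nat_lit 405) (nat_lit 316)) (XT.lf (nat_lit 0) (nat_lit 185733148106) (nat_lit 76) (nat_lit 43498669452) (nat_lit 76) (nat_lit 32659499868) (nat_lit 13) (nat_lit 4) (nat_lit 14) (nat_lit 5) (nat_lit 14) (nat_lit 4) (nat_lit 480) (nat_lit 405) (nat_lit 315)))) (XT.nd (nat_lit 156) (nat_lit 76) (nat_lit 0) (XT.nd (nat_lit 78) (nat_lit 0) (nat_lit 0) (XT.lf (nat_lit 0) (nat_lit 19948423983) (nat_lit 152) (nat_lit 248709714984) (nat_lit 0) (nat_lit 9911425506) (nat_lit 11) (nat_lit 5) (nat_lit 13) (nat_lit 4) (nat_lit 11) (nat_lit 4) (nat_lit 481) (nat_lit 405) (nat_lit 314)) (XT.lf (nat_lit 0) (nat_lit 78258701830) (nat_lit 152) (nat_lit 149773823957) (nat_lit 0) (nat_lit 68221027109) (nat_lit 11) (nat_lit 5) (nat_lit 13) (nat_lit 4) (nat_lit 11) (nat_lit 4) (nat_lit 482) (nat_lit 405) (nat_lit 313))) (XT.nd (nat_lit 78) (nat_lit 76) (nat_lit 0) (XT.lf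 (nat_lit 0) (nat_lit 141226358200) (nat_lit 152) (nat_lit 42938440379) (nat_lit 0) (nat_lit 131188057327) (nat_lit 11) (nat_lit 5) (nat_lit 13) (nat_lit 4) (nat_lit 11) (nat_lit 4) (nat_lit 483) (nat_lit 405) (nat_lit 312)) (XT.lf (nat_lit 0) (nat_lit 76243545241) (nat_lit 76) (nat_lit 134814648615) (nat_lit 76) (nat_lit 124775767973) (nat_lit 10) (nat_lit 4) (nat_lit 11) (nat_lit 5) (nat_lit 11) (nat_lit 4) (nat_lit 484) (nat_lit 405) (nat_lit 311))))) (XT.nd (nat_lit 234) (nat_lit 76) (nat_lit 0) (XT.nd (nat_lit 78) (nat_lit 152) (nat_lit 0) (XT.lf (nat_lit 0) (nat_lit 207388157793) (nat_lit 76) (nat_lit 80255716058) (nat_lit 76) (nat_lit 70216298592) (nat_lit 10) (nat_lit 4) (nat_lit 11) (nat_lit 5) (nat_lit 11) (nat_lit 4) (nat_lit 485) (nat_lit 405) (nat_lit 310)) (XT.nd (nat_lit 78) (nat_lit 152) (nat_lit 0) (XT.lf (nat_lit 0) (nat_lit 349011488358) (nat_lit 76) (nat_lit 21338701768)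 (nat_lit 76) (nat_lit 11298787243) (nat_lit 10) (nat_lit 4) (nat_lit 11) (nat_lit 5) (nat_lit 11) (nat_lit 4) (nat_lit 486) (nat_lit 405) (nat_lit 309)) (XT.lf (nat_lit 0) (nat_lit 53182761137) (nat_lit 152) (nat_lit 309893840540) (nat_lit 0) (nat_lit 43886117836) (nat_lit 8) (nat_lit 5) (nat_lit 10) (nat_lit 4) (nat_lit 8) (nat_lit 4) (nat_lit 487) (nat_lit 405) (nat_lit 308)))) (XT.nd (nat_lit 156) (nat_lit 76) (nat_lit 0) (XT.nd (nat_lit 78) (nat_lit 0) (nat_lit 0) (XT.lf (nat_lit 0) (nat_lit 123676299014) (nat_lit 152) (nat_lit 196105411405) (nat_lit 0) (nat_lit 114379261131) (nat_lit 8) (nat_lit 5) (nat_lit 10) (nat_lit 4) (nat_lit 8) (nat_lit 4) (nat_lit 488) (nat_lit 405) (nat_lit 307)) (XT.lf (nat_lit 0) (nat_lit 199803853692) (nat_lit 152) (nat_lit 73225216913) (nat_lit 0) (nat_lit 190506450455) (nat_lit 8) (nat_lit 5) (nat_lit 10) (nat_lit 4) (nat_lit 8) (nat_lit 4) (nat_lit 489)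 (nat_lit 405) (nat_lit 306))) (XT.nd (nat_lit 78) (nat_lit 0) (nat_lit 0) (XT.lf (nat_lit 0) (nat_lit 62606765853) (nat_lit 76) (nat_lit 220915479790) (nat_lit 76) (nat_lit 211617738264) (nat_lit 7) (nat_lit 4) (nat_lit 8) (nat_lit 5) (nat_lit 8) (nat_lit 4) (nat_lit 490) (nat_lit 405) (nat_lit 305)) (XT.lf (nat_lit 0) (nat_lit 213459484035) (nat_lit 76) (nat_lit 162475800244) (nat_lit 76) (nat_lit 153177745485) (nat_lit 7) (nat_lit 4) (nat_lit 8) (nat_lit 5) (nat_lit 8) (nat_lit 4) (nat_lit 491) (nat_lit 405) (nat_lit 304))))))) (XT.nd (nat_lit 1092) (nat_lit 76) (nat_lit 0) (XT.nd (nat_lit 546) (nat_lit 228) (nat_lit 0) (XT.nd (nat_lit 234) (nat_lit 0) (nat_lit 0) (XT.nd (nat_lit 78) (nat_lit 152) (nat_lit 0) (XT.lf (nat_lit 0) (nat_lit 376370969508) (nat_lit 76) (nat_lit 99365829950) (nat_lit 76) (nat_lit 90067485162) (nat_lit 7) (nat_lit 4) (nat_lit 8) (nat_lit 5) (nat_lit 8) (nat_lit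 4) (nat_lit 492) (nat_lit 405) (nat_lit 303)) (XT.nd (nat_lit 78) (nat_lit 152) (nat_lit 0) (XT.lf (nat_lit 0) (nat_lit 552306623669) (nat_lit 76) (nat_lit 31211583900) (nat_lit 76) (nat_lit 21912970567) (nat_lit 7) (nat_lit 4) (nat_lit 8) (nat_lit 5) (nat_lit 8) (nat_lit 4) (nat_lit 493) (nat_lit 405) (nat_lit 302)) (XT.lf (nat_lit 0) (nat_lit 52567099178) (nat_lit 152) (nat_lit 551327892406) (nat_lit 0) (nat_lit 43957041783) (nat_lit 5) (nat_lit 5) (nat_lit 7) (nat_lit 4) (nat_lit 5) (nat_lit 4) (nat_lit 494) (nat_lit 405) (nat_lit 301)))) (XT.nd (nat_lit 156) (nat_lit 0) (nat_lit 0) (XT.nd (nat_lit 78) (nat_lit 0) (nat_lit 0) (XT.lf (nat_lit 0) (nat_lit 134118627801) (nat_lit 152) (nat_lit 433810284719) (nat_lit 0) (nat_lit 125508357226) (nat_lit 5) (nat_lit 5) (nat_lit 7) (nat_lit 4) (nat_lit 5) (nat_lit 4) (nat_lit 495) (nat_lit 405) (nat_lit 300)) (XT.lf (nat_lit 0) (nat_lit 222190561254)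 (nat_lit 152) (nat_lit 306898967896) (nat_lit 0) (nat_lit 213580093289) (nat_lit 5) (nat_lit 5) (nat_lit 7) (nat_lit 4) (nat_lit 5) (nat_lit 4) (nat_lit 496) (nat_lit 405) (nat_lit 299))) (XT.nd (nat_lit 78) (nat_lit 0) (nat_lit 0) (XT.lf (nat_lit 0) (nat_lit 317304807289) (nat_lit 152) (nat_lit 169841874873) (nat_lit 0) (nat_lit 308694156557) (nat_lit 5) (nat_lit 5) (nat_lit 7) (nat_lit 4) (nat_lit 5) (nat_lit 4) (nat_lit 497) (nat_lit 405) (nat_lit 298)) (XT.lf (nat_lit 0) (nat_lit 420025005884) (nat_lit 152) (nat_lit 21826815469) (nat_lit 0) (nat_lit 411414185923) (nat_lit 5) (nat_lit 5) (nat_lit 7) (nat_lit 4) (nat_lit 5) (nat_lit 4) (nat_lit 498) (nat_lit 405) (nat_lit 297))))) (XT.nd (nat_lit 234) (nat_lit 152) (nat_lit 0) (XT.nd (nat_lit 78) (nat_lit 0) (nat_lit 0) (XT.lf (nat_lit 0) (nat_lit 145291400899) (nat_lit 76) (nat_lit 389162730113) (nat_lit 76) (nat_lit 380551753458) (nat_lit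 4) (nat_lit 4) (nat_lit 5) (nat_lit 5) (nat_lit 5) (nat_lit 4) (nat_lit 499) (nat_lit 405) (nat_lit 296)) (XT.nd (nat_lit 78) (nat_lit 0) (nat_lit 0) (XT.lf (nat_lit 0) (nat_lit 327014427556) (nat_lit 76) (nat_lit 331617066691) (nat_lit 76) (nat_lit 323005944949) (nat_lit 4) (nat_lit 4) (nat_lit 5) (nat_lit 5) (nat_lit 5) (nat_lit 4) (nat_lit 500) (nat_lit 405) (nat_lit 295)) (XT.lf (nat_lit 0) (nat_lit 523269780275) (nat_lit 76) (nat_lit 269470603563) (nat_lit 76) (nat_lit 260859347481) (nat_lit 4) (nat_lit 4) (nat_lit 5) (nat_lit 5) (nat_lit 5) (nat_lit 4) (nat_lit 501) (nat_lit 405) (nat_lit 294)))) (XT.nd (nat_lit 156) (nat_lit 152) (nat_lit 0) (XT.nd (nat_lit 78) (nat_lit 0) (nat_lit 0) (XT.lf (nat_lit 0) (nat_lit 735220453737) (nat_lit 76) (nat_lit 202355065393) (nat_lit 76) (nat_lit 193743684923) (nat_lit 4) (nat_lit 4) (nat_lit 5) (nat_lit 5) (nat_lit 5) (nat_lit 4) (nat_lit 502)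 (nat_lit 405) (nat_lit 293)) (XT.lf (nat_lit 0) (nat_lit 964122451935) (nat_lit 76) (nat_lit 129872730473) (nat_lit 76) (nat_lit 121261234828) (nat_lit 4) (nat_lit 4) (nat_lit 5) (nat_lit 5) (nat_lit 5) (nat_lit 4) (nat_lit 503) (nat_lit 405) (nat_lit 292))) (XT.nd (nat_lit 78) (nat_lit 152) (nat_lit 0) (XT.lf (nat_lit 0) (nat_lit 1211332231153) (nat_lit 76) (nat_lit 51594073855) (nat_lit 76) (nat_lit 42982471567) (nat_lit 4) (nat_lit 4) (nat_lit 5) (nat_lit 5) (nat_lit 5) (nat_lit 4) (nat_lit 504) (nat_lit 405) (nat_lit 291)) (XT.lf (nat_lit 0) (nat_lit 42205075914) (nat_lit 152) (nat_lit 1327078978294) (nat_lit 0) (nat_lit 34231278662) (nat_lit 2) (nat_lit 5) (nat_lit 4) (nat_lit 4) (nat_lit 2) (nat_lit 4) (nat_lit 505) (nat_lit 405) (nat_lit 290)))))) (XT.nd (nat_lit 546) (nat_lit 76) (nat_lit 0) (XT.nd (nat_lit 234) (nat_lit 0) (nat_lit 0) (XT.nd (nat_lit 78) (nat_lit 0) (nat_lit 0)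 (XT.lf (nat_lit 0) (nat_lit 135876612212) (nat_lit 152) (nat_lit 1244742464534) (nat_lit 0) (nat_lit 127902730304) (nat_lit 2) (nat_lit 5) (nat_lit 4) (nat_lit 4) (nat_lit 2) (nat_lit 4) (nat_lit 506) (nat_lit 405) (nat_lit 289)) (XT.nd (nat_lit 78) (nat_lit 0) (nat_lit 0) (XT.lf (nat_lit 0) (nat_lit 237040012856) (nat_lit 152) (nat_lit 1155822882433) (nat_lit 0) (nat_lit 229066052562) (nat_lit 2) (nat_lit 5) (nat_lit 4) (nat_lit 4) (nat_lit 2) (nat_lit 4) (nat_lit 507) (nat_lit 405) (nat_lit 288)) (XT.lf (nat_lit 0) (nat_lit 346294764664) (nat_lit 152) (nat_lit 1059793301135) (nat_lit 0) (nat_lit 338320731790) (nat_lit 2) (nat_lit 5) (nat_lit 4) (nat_lit 4) (nat_lit 2) (nat_lit 4) (nat_lit 508) (nat_lit 405) (nat_lit 287)))) (XT.nd (nat_lit 156) (nat_lit 0) (nat_lit 0) (XT.nd (nat_lit 78) (nat_lit 0) (nat_lit 0) (XT.lf (nat_lit 0) (nat_lit 464288303203) (nat_lit 152) (nat_lit 956084656454)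 (nat_lit 0) (nat_lit 456314203126) (nat_lit 2) (nat_lit 5) (nat_lit 4) (nat_lit 4) (nat_lit 2) (nat_lit 4) (nat_lit 509) (nat_lit 405) (nat_lit 286)) (XT.lf (nat_lit 0) (nat_lit 591719849441) (nat_lit 152) (nat_lit 844082378643) (nat_lit 0) (nat_lit 583745687138) (nat_lit 2) (nat_lit 5) (nat_lit 4) (nat_lit 4) (nat_lit 2) (nat_lit 4) (nat_lit 510) (nat_lit 405) (nat_lit 285))) (XT.nd (nat_lit 78) (nat_lit 0) (nat_lit 0) (XT.lf (nat_lit 0) (nat_lit 729344553282) (nat_lit 152) (nat_lit 723122750501) (nat_lit 0) (nat_lit 721370333364) (nat_lit 2) (nat_lit 5) (nat_lit 4) (nat_lit 4) (nat_lit 2) (nat_lit 4) (nat_lit 511) (nat_lit 405) (nat_lit 284)) (XT.lf (nat_lit 0) (nat_lit 877977968527) (nat_lit 152) (nat_lit 592488974232) (nat_lit 0) (nat_lit 870003695260) (nat_lit 2) (nat_lit 5) (nat_lit 4) (nat_lit 4) (nat_lit 2) (nat_lit 4) (nat_lit 512) (nat_lit 405) (nat_lit 283))))) (XT.nd (nat_lit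 312) (nat_lit 0) (nat_lit 0) (XT.nd (nat_lit 156) (nat_lit 76) (nat_lit 0) (XT.nd (nat_lit 78) (nat_lit 0) (nat_lit 0) (XT.lf (nat_lit 0) (nat_lit 1038500885784) (nat_lit 152) (nat_lit 451406923753) (nat_lit 0) (nat_lit 1030526563121) (nat_lit 2) (nat_lit 5) (nat_lit 4) (nat_lit 4) (nat_lit 2) (nat_lit 4) (nat_lit 513) (nat_lit 405) (nat_lit 282)) (XT.lf (nat_lit 0) (nat_lit 1211864551971) (nat_lit 152) (nat_lit 299040557285) (nat_lit 0) (nat_lit 1203890183571) (nat_lit 2) (nat_lit 5) (nat_lit 4) (nat_lit 4) (nat_lit 2) (nat_lit 4) (nat_lit 514) (nat_lit 405) (nat_lit 281))) (XT.nd (nat_lit 78) (nat_lit 76) (nat_lit 0) (XT.lf (nat_lit 0) (nat_lit 1399096307332) (nat_lit 152) (nat_lit 134486963025) (nat_lit 0) (nat_lit 1391121896583) (nat_lit 2) (nat_lit 5) (nat_lit 4) (nat_lit 4) (nat_lit 2) (nat_lit 4) (nat_lit 515) (nat_lit 405) (nat_lit 280)) (XT.lf (nat_lit 0) (nat_lit 45505353516) (nat_lit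 76) (nat_lit 1556894724710) (nat_lit 76) (nat_lit 1548920274748) (nat_lit 1) (nat_lit 4) (nat_lit 2) (nat_lit 5) (nat_lit 2) (nat_lit 4) (nat_lit 516) (nat_lit 405) (nat_lit 279)))) (XT.nd (nat_lit 156) (nat_lit 0) (nat_lit 0) (XT.nd (nat_lit 78) (nat_lit 0) (nat_lit 0) (XT.lf (nat_lit 0) (nat_lit 247543569588) (nat_lit 76) (nat_lit 1578100787053) (nat_lit 76) (nat_lit 1570126300783) (nat_lit 1) (nat_lit 4) (nat_lit 2) (nat_lit 5) (nat_lit 2) (nat_lit 4) (nat_lit 517) (nat_lit 405) (nat_lit 278)) (XT.lf (nat_lit 0) (nat_lit 465743103552) (nat_lit 76) (nat_lit 1601004234842) (nat_lit 76) (nat_lit 1593029714953) (nat_lit 1) (nat_lit 4) (nat_lit 2) (nat_lit 5) (nat_lit 2) (nat_lit 4) (nat_lit 518) (nat_lit 405) (nat_lit 277))) (XT.nd (nat_lit 78) (nat_lit 0) (nat_lit 0) (XT.lf (nat_lit 0) (nat_lit 701396989682) (nat_lit 76) (nat_lit 1625740792211) (nat_lit 76) (nat_lit 1617766241194) (nat_lit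 1) (nat_lit 4) (nat_lit 2) (nat_lit 5) (nat_lit 2) (nat_lit 4) (nat_lit 519) (nat_lit 405) (nat_lit 276)) (XT.lf (nat_lit 0) (nat_lit 955901695453) (nat_lit 76) (nat_lit 1652457046167) (nat_lit 76) (nat_lit 1644482466328) (nat_lit 1) (nat_lit 4) (nat_lit 2) (nat_lit 5) (nat_lit 2) (nat_lit 4) (nat_lit 520) (nat_lit 405) (nat_lit 275))))))))
noncomputable def xc107 : XT := (XT.nd (nat_lit 53898) (nat_lit 0) (nat_lit 3572) (XT.nd (nat_lit 1092) (nat_lit 0) (nat_lit 0) (XT.nd (nat_lit 546) (nat_lit 0) (nat_lit 0) (XT.nd (nat_lit 234) (nat_lit 0) (nat_lit 0) (XT.nd (nat_lit 78) (nat_lit 0) (nat_lit 0) (XT.lf (nat_lit 0) (nat_lit 1230765396898) (nat_lit 76) (nat_lit 1681311315252) (nat_lit 76) (nat_lit 1673336708725) (nat_lit 1) (nat_lit 4) (nat_lit 2) (nat_lit 5) (nat_lit 2) (nat_lit 4) (nat_lit 521) (nat_lit 405) (nat_lit 274)) (XT.nd (nat_lit 78) (nat_lit 0) (nat_lit 0) (XT.lf (nat_lit 0)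 (nat_lit 1527616915952) (nat_lit 76) (nat_lit 1712474587727) (nat_lit 76) (nat_lit 1704499956490) (nat_lit 1) (nat_lit 4) (nat_lit 2) (nat_lit 5) (nat_lit 2) (nat_lit 4) (nat_lit 522) (nat_lit 405) (nat_lit 273)) (XT.lf (nat_lit 0) (nat_lit 1848215372728) (nat_lit 76) (nat_lit 1746131534837) (nat_lit 76) (nat_lit 1738156880720) (nat_lit 1) (nat_lit 4) (nat_lit 2) (nat_lit 5) (nat_lit 2) (nat_lit 4) (nat_lit 523) (nat_lit 405) (nat_lit 272)))) (XT.nd (nat_lit 156) (nat_lit 0) (nat_lit 0) (XT.nd (nat_lit 78) (nat_lit 0) (nat_lit 0) (XT.lf (nat_lit 0) (nat_lit 2194460609932) (nat_lit 76) (nat_lit 1782481605157) (nat_lit 76) (nat_lit 1774506929855) (nat_lit 1) (nat_lit 4) (nat_lit 2) (nat_lit 5) (nat_lit 2) (nat_lit 4) (nat_lit 524) (nat_lit 405) (nat_lit 271)) (XT.lf (nat_lit 0) (nat_lit 2568404451193) (nat_lit 76) (nat_lit 1821740206511) (nat_lit 76) (nat_lit 1813765511593) (nat_lit 1) (nat_lit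 4) (nat_lit 2) (nat_lit 5) (nat_lit 2) (nat_lit 4) (nat_lit 525) (nat_lit 405) (nat_lit 270))) (XT.nd (nat_lit 78) (nat_lit 0) (nat_lit 0) (XT.lf (nat_lit 0) (nat_lit 2972262860014) (nat_lit 76) (nat_lit 1864139982463) (nat_lit 76) (nat_lit 1856165269382) (nat_lit 1) (nat_lit 4) (nat_lit 2) (nat_lit 5) (nat_lit 2) (nat_lit 4) (nat_lit 526) (nat_lit 405) (nat_lit 269)) (XT.lf (nat_lit 0) (nat_lit 3408429071411) (nat_lit 76) (nat_lit 1909932190944) (nat_lit 76) (nat_lit 1901957461046) (nat_lit 1) (nat_lit 4) (nat_lit 2) (nat_lit 5) (nat_lit 2) (nat_lit 4) (nat_lit 527) (nat_lit 405) (nat_lit 268))))) (XT.nd (nat_lit 234) (nat_lit 0) (nat_lit 0) (XT.nd (nat_lit 78) (nat_lit 0) (nat_lit 0) (XT.lf (nat_lit 0) (nat_lit 3879487774043) (nat_lit 76) (nat_lit 1959388193190) (nat_lit 76) (nat_lit 1951413447720) (nat_lit 1) (nat_lit 4) (nat_lit 2) (nat_lit 5) (nat_lit 2) (nat_lit 4) (nat_lit 528) (nat_lit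 405) (nat_lit 267)) (XT.nd (nat_lit 78) (nat_lit 0) (nat_lit 0) (XT.lf (nat_lit 0) (nat_lit 4388230426890) (nat_lit 76) (nat_lit 2012801061807) (nat_lit 76) (nat_lit 2004826301918) (nat_lit 1) (nat_lit 4) (nat_lit 2) (nat_lit 5) (nat_lit 2) (nat_lit 4) (nat_lit 529) (nat_lit 405) (nat_lit 266)) (XT.lf (nat_lit 0) (nat_lit 4937671801226) (nat_lit 76) (nat_lit 2070487317498) (nat_lit 76) (nat_lit 2062512544259) (nat_lit 1) (nat_lit 4) (nat_lit 2) (nat_lit 5) (nat_lit 2) (nat_lit 4) (nat_lit 530) (nat_lit 405) (nat_lit 265)))) (XT.nd (nat_lit 156) (nat_lit 0) (nat_lit 0) (XT.nd (nat_lit 78) (nat_lit 0) (nat_lit 0) (XT.lf (nat_lit 0) (nat_lit 5531067845938) (nat_lit 76) (nat_lit 2132788804740) (nat_lit 76) (nat_lit 2124814019139) (nat_lit 1) (nat_lit 4) (nat_lit 2) (nat_lit 5) (nat_lit 2) (nat_lit 4) (nat_lit 531) (nat_lit 405) (nat_lit 264)) (XT.lf (nat_lit 0) (nat_lit 6171934982031) (nat_lit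 76) (nat_lit 2200074717532) (nat_lit 76) (nat_lit 2192099920486) (nat_lit 1) (nat_lit 4) (nat_lit 2) (nat_lit 5) (nat_lit 2) (nat_lit 4) (nat_lit 532) (nat_lit 405) (nat_lit 263))) (XT.nd (nat_lit 78) (nat_lit 0) (nat_lit 0) (XT.lf (nat_lit 0) (nat_lit 6864070940682) (nat_lit 76) (nat_lit 2272743787210) (nat_lit 76) (nat_lit 2264768979566) (nat_lit 1) (nat_lit 4) (nat_lit 2) (nat_lit 5) (nat_lit 2) (nat_lit 4) (nat_lit 533) (nat_lit 405) (nat_lit 262)) (XT.lf (nat_lit 0) (nat_lit 7611577268313) (nat_lit 76) (nat_lit 2351226645297) (nat_lit 76) (nat_lit 2343251827840) (nat_lit 1) (nat_lit 4) (nat_lit 2) (nat_lit 5) (nat_lit 2) (nat_lit 4) (nat_lit 534) (nat_lit 405) (nat_lit 261)))))) (XT.nd (nat_lit 546) (nat_lit 0) (nat_lit 0) (XT.nd (nat_lit 234) (nat_lit 0) (nat_lit 0) (XT.nd (nat_lit 78) (nat_lit 0) (nat_lit 0) (XT.lf (nat_lit 0) (nat_lit 8418883632049) (nat_lit 76) (nat_lit 2435988375397)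 (nat_lit 76) (nat_lit 2428013548854) (nat_lit 1) (nat_lit 4) (nat_lit 2) (nat_lit 5) (nat_lit 2) (nat_lit 4) (nat_lit 535) (nat_lit 405) (nat_lit 260)) (XT.nd (nat_lit 78) (nat_lit 0) (nat_lit 0) (XT.lf (nat_lit 0) (nat_lit 9290774069603) (nat_lit 76) (nat_lit 2527531269243) (nat_lit 76) (nat_lit 2519556434287) (nat_lit 1) (nat_lit 4) (nat_lit 2) (nat_lit 5) (nat_lit 2) (nat_lit 4) (nat_lit 536) (nat_lit 405) (nat_lit 259)) (XT.lf (nat_lit 0) (nat_lit 10232415339122) (nat_lit 76) (nat_lit 2626397803245) (nat_lit 76) (nat_lit 2618422960499) (nat_lit 1) (nat_lit 4) (nat_lit 2) (nat_lit 5) (nat_lit 2) (nat_lit 4) (nat_lit 537) (nat_lit 405) (nat_lit 258)))) (XT.nd (nat_lit 156) (nat_lit 0) (nat_lit 0) (XT.nd (nat_lit 78) (nat_lit 0) (nat_lit 0) (XT.lf (nat_lit 0) (nat_lit 11249387537019) (nat_lit 76) (nat_lit 2733173853158) (nat_lit 76) (nat_lit 2725199003199) (nat_lit 1) (nat_lit 4) (nat_lit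 2) (nat_lit 5) (nat_lit 2) (nat_lit 4) (nat_lit 538) (nat_lit 405) (nat_lit 257)) (XT.lf (nat_lit 0) (nat_lit 12347717165207) (nat_lit 76) (nat_lit 2848492165945) (nat_lit 76) (nat_lit 2840517309308) (nat_lit 1) (nat_lit 4) (nat_lit 2) (nat_lit 5) (nat_lit 2) (nat_lit 4) (nat_lit 539) (nat_lit 405) (nat_lit 256))) (XT.nd (nat_lit 78) (nat_lit 0) (nat_lit 0) (XT.lf (nat_lit 0) (nat_lit 13533912843705) (nat_lit 76) (nat_lit 2973036109386) (nat_lit 76) (nat_lit 2965061246565) (nat_lit 1) (nat_lit 4) (nat_lit 2) (nat_lit 5) (nat_lit 2) (nat_lit 4) (nat_lit 540) (nat_lit 405) (nat_lit 255)) (XT.lf (nat_lit 0) (nat_lit 14815003880237) (nat_lit 76) (nat_lit 3107543721664) (nat_lit 76) (nat_lit 3099568853117) (nat_lit 1) (nat_lit 4) (nat_lit 2) (nat_lit 5) (nat_lit 2) (nat_lit 4) (nat_lit 541) (nat_lit 405) (nat_lit 254))))) (XT.nd (nat_lit 51948) (nat_lit 0) (nat_lit 7524) (XT.nd (nat_lit 78) (nat_lit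 0) (nat_lit 0) (XT.lf (nat_lit 0) (nat_lit 16198581925391) (nat_lit 76) (nat_lit 3252812084925) (nat_lit 76) (nat_lit 3244837211077) (nat_lit 1) (nat_lit 4) (nat_lit 2) (nat_lit 5) (nat_lit 2) (nat_lit 4) (nat_lit 542) (nat_lit 405) (nat_lit 253)) (XT.nd (nat_lit 51792) (nat_lit 0) (nat_lit 7524) (XT.lf (nat_lit 0) (nat_lit 17692845960174) (nat_lit 76) (nat_lit 3409702048731) (nat_lit 76) (nat_lit 3401727169974) (nat_lit 1) (nat_lit 4) (nat_lit 2) (nat_lit 5) (nat_lit 2) (nat_lit 4) (nat_lit 543) (nat_lit 405) (nat_lit 252)) (XT.lf (nat_lit 0) (nat_lit 106924231) (nat_lit 0) (nat_lit 106924231) (nat_lit 380) (nat_lit 3523464058) (nat_lit 100) (nat_lit 5) (nat_lit 100) (nat_lit 3) (nat_lit 105) (nat_lit 3) (nat_lit 406) (nat_lit 406) (nat_lit 388)))) (XT.nd (nat_lit 156) (nat_lit 0) (nat_lit 0) (XT.nd (nat_lit 78) (nat_lit 0) (nat_lit 0) (XT.lf (nat_lit 0) (nat_lit 1950197612) (nat_lit 380)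 (nat_lit 3553858185) (nat_lit 456) (nat_lit 2148908306) (nat_lit 100) (nat_lit 5) (nat_lit 105) (nat_lit 3) (nat_lit 106) (nat_lit 5) (nat_lit 407) (nat_lit 406) (nat_lit 387)) (XT.lf (nat_lit 76) (nat_lit 376950756) (nat_lit 0) (nat_lit 3088744635) (nat_lit 456) (nat_lit 4390200598) (nat_lit 101) (nat_lit 5) (nat_lit 100) (nat_lit 5) (nat_lit 106) (nat_lit 5) (nat_lit 408) (nat_lit 406) (nat_lit 386))) (XT.nd (nat_lit 78) (nat_lit 0) (nat_lit 76) (XT.lf (nat_lit 76) (nat_lit 4740546784) (nat_lit 0) (nat_lit 324240662) (nat_lit 456) (nat_lit 3013306494) (nat_lit 101) (nat_lit 5) (nat_lit 100) (nat_lit 5) (nat_lit 106) (nat_lit 5) (nat_lit 409) (nat_lit 406) (nat_lit 385)) (XT.lf (nat_lit 76) (nat_lit 1034165578) (nat_lit 0) (nat_lit 5722828484) (nat_lit 456) (nat_lit 1563877091) (nat_lit 102) (nat_lit 5) (nat_lit 101) (nat_lit 5) (nat_lit 107) (nat_lit 5) (nat_lit 410) (nat_lit 406) (nat_lit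 384))))))) (XT.nd (nat_lit 1092) (nat_lit 1444) (nat_lit 0) (XT.nd (nat_lit 546) (nat_lit 912) (nat_lit 0) (XT.nd (nat_lit 234) (nat_lit 1292) (nat_lit 0) (XT.nd (nat_lit 78) (nat_lit 380) (nat_lit 0) (XT.lf (nat_lit 76) (nat_lit 5850082399) (nat_lit 0) (nat_lit 2717348658) (nat_lit 456) (nat_lit 17028214) (nat_lit 102) (nat_lit 5) (nat_lit 101) (nat_lit 5) (nat_lit 107) (nat_lit 5) (nat_lit 411) (nat_lit 406) (nat_lit 383)) (XT.nd (nat_lit 78) (nat_lit 0) (nat_lit 0) (XT.lf (nat_lit 0) (nat_lit 1527816915) (nat_lit 456) (nat_lit 6721622438) (nat_lit 76) (nat_lit 619970901) (nat_lit 96) (nat_lit 5) (nat_lit 102) (nat_lit 5) (nat_lit 97) (nat_lit 5) (nat_lit 412) (nat_lit 406) (nat_lit 382)) (XT.lf (nat_lit 0) (nat_lit 3238518030) (nat_lit 456) (nat_lit 1760736425) (nat_lit 76) (nat_lit 4174425935) (nat_lit 96) (nat_lit 5) (nat_lit 102) (nat_lit 5) (nat_lit 97) (nat_lit 5) (nat_lit 413) (nat_lit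 406) (nat_lit 381)))) (XT.nd (nat_lit 156) (nat_lit 836) (nat_lit 0) (XT.nd (nat_lit 78) (nat_lit 0) (nat_lit 0) (XT.lf (nat_lit 0) (nat_lit 3696150615) (nat_lit 456) (nat_lit 1382431256) (nat_lit 532) (nat_lit 4424322256) (nat_lit 90) (nat_lit 5) (nat_lit 96) (nat_lit 5) (nat_lit 97) (nat_lit 5) (nat_lit 414) (nat_lit 406) (nat_lit 380)) (XT.lf (nat_lit 0) (nat_lit 7084866486) (nat_lit 532) (nat_lit 317928929) (nat_lit 76) (nat_lit 2454160691) (nat_lit 90) (nat_lit 5) (nat_lit 97) (nat_lit 5) (nat_lit 91) (nat_lit 5) (nat_lit 415) (nat_lit 406) (nat_lit 379))) (XT.nd (nat_lit 78) (nat_lit 304) (nat_lit 0) (XT.lf (nat_lit 0) (nat_lit 5778830986) (nat_lit 532) (nat_lit 3563384937) (nat_lit 608) (nat_lit 889882091) (nat_lit 83) (nat_lit 5) (nat_lit 90) (nat_lit 5) (nat_lit 91) (nat_lit 5) (nat_lit 416) (nat_lit 406) (nat_lit 378)) (XT.lf (nat_lit 0) (nat_lit 1069720679) (nat_lit 304) (nat_lit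 8937089517) (nat_lit 76) (nat_lit 629532041) (nat_lit 79) (nat_lit 5) (nat_lit 83) (nat_lit 5) (nat_lit 80) (nat_lit 5) (nat_lit 417) (nat_lit 406) (nat_lit 377))))) (XT.nd (nat_lit 234) (nat_lit 684) (nat_lit 0) (XT.nd (nat_lit 78) (nat_lit 228) (nat_lit 0) (XT.lf (nat_lit 0) (nat_lit 3277252922) (nat_lit 304) (nat_lit 2675239298) (nat_lit 76) (nat_lit 5107454154) (nat_lit 79) (nat_lit 5) (nat_lit 83) (nat_lit 5) (nat_lit 80) (nat_lit 5) (nat_lit 418) (nat_lit 406) (nat_lit 376)) (XT.nd (nat_lit 78) (nat_lit 0) (nat_lit 0) (XT.lf (nat_lit 0) (nat_lit 4214635079) (nat_lit 228) (nat_lit 1475670046) (nat_lit 304) (nat_lit 5824828219) (nat_lit 76) (nat_lit 5) (nat_lit 79) (nat_lit 5) (nat_lit 80) (nat_lit 5) (nat_lit 419) (nat_lit 406) (nat_lit 375)) (XT.lf (nat_lit 0) (nat_lit 8382893688) (nat_lit 304) (nat_lit 362596347) (nat_lit 76) (nat_lit 3254333168) (nat_lit 76) (nat_lit 5) (nat_lit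 80) (nat_lit 5) (nat_lit 77) (nat_lit 5) (nat_lit 420) (nat_lit 406) (nat_lit 374)))) (XT.nd (nat_lit 156) (nat_lit 152) (nat_lit 0) (XT.nd (nat_lit 78) (nat_lit 304) (nat_lit 0) (XT.lf (nat_lit 0) (nat_lit 7380796043) (nat_lit 228) (nat_lit 4061722664) (nat_lit 304) (nat_lit 1068645960) (nat_lit 73) (nat_lit 5) (nat_lit 76) (nat_lit 5) (nat_lit 77) (nat_lit 5) (nat_lit 421) (nat_lit 406) (nat_lit 373)) (XT.lf (nat_lit 0) (nat_lit 1638348177) (nat_lit 304) (nat_lit 10370692200) (nat_lit 76) (nat_lit 1048014741) (nat_lit 69) (nat_lit 5) (nat_lit 73) (nat_lit 5) (nat_lit 70) (nat_lit 5) (nat_lit 422) (nat_lit 406) (nat_lit 372))) (XT.nd (nat_lit 78) (nat_lit 152) (nat_lit 0) (XT.lf (nat_lit 0) (nat_lit 4692925541) (nat_lit 304) (nat_lit 2436090721) (nat_lit 76) (nat_lit 6500284685) (nat_lit 69) (nat_lit 5) (nat_lit 73) (nat_lit 5) (nat_lit 70) (nat_lit 5) (nat_lit 423) (nat_lit 406) (nat_lit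 371)) (XT.lf (nat_lit 0) (nat_lit 6374375406) (nat_lit 152) (nat_lit 1714632949) (nat_lit 228) (nat_lit 6150551918) (nat_lit 67) (nat_lit 5) (nat_lit 69) (nat_lit 5) (nat_lit 70) (nat_lit 5) (nat_lit 424) (nat_lit 406) (nat_lit 370)))))) (XT.nd (nat_lit 546) (nat_lit 760) (nat_lit 0) (XT.nd (nat_lit 234) (nat_lit 304) (nat_lit 0) (XT.nd (nat_lit 78) (nat_lit 228) (nat_lit 0) (XT.lf (nat_lit 0) (nat_lit 1004440704) (nat_lit 152) (nat_lit 10889871349) (nat_lit 228) (nat_lit 2993330158) (nat_lit 65) (nat_lit 5) (nat_lit 67) (nat_lit 5) (nat_lit 68) (nat_lit 5) (nat_lit 425) (nat_lit 406) (nat_lit 369)) (XT.nd (nat_lit 78) (nat_lit 152) (nat_lit 0) (XT.lf (nat_lit 0) (nat_lit 607250459) (nat_lit 228) (nat_lit 4679966085) (nat_lit 76) (nat_lit 10282627652) (nat_lit 64) (nat_lit 5) (nat_lit 67) (nat_lit 5) (nat_lit 65) (nat_lit 5) (nat_lit 426) (nat_lit 406) (nat_lit 368)) (XT.lf (nat_lit 0) (nat_lit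 4437017529) (nat_lit 228) (nat_lit 10940894966) (nat_lit 76) (nat_lit 914264986) (nat_lit 62) (nat_lit 5) (nat_lit 65) (nat_lit 5) (nat_lit 63) (nat_lit 5) (nat_lit 427) (nat_lit 406) (nat_lit 367)))) (XT.nd (nat_lit 156) (nat_lit 152) (nat_lit 0) (XT.nd (nat_lit 78) (nat_lit 152) (nat_lit 0) (XT.lf (nat_lit 0) (nat_lit 8793519766) (nat_lit 228) (nat_lit 827305077) (nat_lit 76) (nat_lit 7433847667) (nat_lit 62) (nat_lit 5) (nat_lit 65) (nat_lit 5) (nat_lit 63) (nat_lit 5) (nat_lit 428) (nat_lit 406) (nat_lit 366)) (XT.lf (nat_lit 0) (nat_lit 10553119506) (nat_lit 152) (nat_lit 3154541504) (nat_lit 228) (nat_lit 4153779756) (nat_lit 60) (nat_lit 5) (nat_lit 62) (nat_lit 5) (nat_lit 63) (nat_lit 5) (nat_lit 429) (nat_lit 406) (nat_lit 365))) (XT.nd (nat_lit 78) (nat_lit 0) (nat_lit 0) (XT.lf (nat_lit 0) (nat_lit 445390347) (nat_lit 152) (nat_lit 14523579590) (nat_lit 76) (nat_lit 3749054457)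 (nat_lit 58) (nat_lit 5) (nat_lit 60) (nat_lit 5) (nat_lit 59) (nat_lit 5) (nat_lit 430) (nat_lit 406) (nat_lit 364)) (XT.lf (nat_lit 0) (nat_lit 5431869144) (nat_lit 152) (nat_lit 2860795362) (nat_lit 76) (nat_lit 11322338495) (nat_lit 58) (nat_lit 5) (nat_lit 60) (nat_lit 5) (nat_lit 59) (nat_lit 5) (nat_lit 431) (nat_lit 406) (nat_lit 363))))) (XT.nd (nat_lit 312) (nat_lit 304) (nat_lit 0) (XT.nd (nat_lit 156) (nat_lit 228) (nat_lit 0) (XT.nd (nat_lit 78) (nat_lit 76) (nat_lit 0) (XT.lf (nat_lit 0) (nat_lit 10177762474) (nat_lit 152) (nat_lit 844314657) (nat_lit 228) (nat_lit 9545280199) (nat_lit 56) (nat_lit 5) (nat_lit 58) (nat_lit 5) (nat_lit 59) (nat_lit 5) (nat_lit 432) (nat_lit 406) (nat_lit 362)) (XT.lf (nat_lit 0) (nat_lit 2726499754) (nat_lit 76) (nat_lit 14612794138) (nat_lit 152) (nat_lit 4234224875) (nat_lit 55) (nat_lit 5) (nat_lit 56) (nat_lit 5) (nat_lit 57) (nat_lit 4)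 (nat_lit 433) (nat_lit 406) (nat_lit 361))) (XT.nd (nat_lit 78) (nat_lit 152) (nat_lit 0) (XT.lf (nat_lit 0) (nat_lit 1701125984) (nat_lit 152) (nat_lit 5287631949) (nat_lit 76) (nat_lit 15646565075) (nat_lit 54) (nat_lit 5) (nat_lit 56) (nat_lit 5) (nat_lit 55) (nat_lit 5) (nat_lit 434) (nat_lit 406) (nat_lit 360)) (XT.lf (nat_lit 0) (nat_lit 8117290057) (nat_lit 228) (nat_lit 14128122358) (nat_lit 76) (nat_lit 1509083016) (nat_lit 52) (nat_lit 5) (nat_lit 55) (nat_lit 5) (nat_lit 53) (nat_lit 4) (nat_lit 435) (nat_lit 406) (nat_lit 359)))) (XT.nd (nat_lit 156) (nat_lit 228) (nat_lit 0) (XT.nd (nat_lit 78) (nat_lit 0) (nat_lit 0) (XT.lf (nat_lit 0) (nat_lit 878144034) (nat_lit 76) (nat_lit 14484179030) (nat_lit 152) (nat_lit 9575634087) (nat_lit 51) (nat_lit 5) (nat_lit 52) (nat_lit 5) (nat_lit 53) (nat_lit 4) (nat_lit 436) (nat_lit 406) (nat_lit 358)) (XT.lf (nat_lit 0) (nat_lit 17826909505)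 (nat_lit 76) (nat_lit 5712082438) (nat_lit 152) (nat_lit 2648942657) (nat_lit 51) (nat_lit 5) (nat_lit 52) (nat_lit 5) (nat_lit 53) (nat_lit 4) (nat_lit 437) (nat_lit 406) (nat_lit 357))) (XT.nd (nat_lit 78) (nat_lit 0) (nat_lit 0) (XT.lf (nat_lit 0) (nat_lit 4869163479) (nat_lit 228) (nat_lit 18750427887) (nat_lit 76) (nat_lit 3886704385) (nat_lit 48) (nat_lit 5) (nat_lit 51) (nat_lit 5) (nat_lit 49) (nat_lit 4) (nat_lit 438) (nat_lit 406) (nat_lit 356)) (XT.lf (nat_lit 0) (nat_lit 13196391844) (nat_lit 228) (nat_lit 1476395443) (nat_lit 76) (nat_lit 14223772529) (nat_lit 48) (nat_lit 5) (nat_lit 51) (nat_lit 5) (nat_lit 49) (nat_lit 4) (nat_lit 439) (nat_lit 406) (nat_lit 355))))))))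
noncomputable def xc108 : XT := (XT.nd (nat_lit 2184) (nat_lit 1368) (nat_lit 0) (XT.nd (nat_lit 1092) (nat_lit 912) (nat_lit 0) (XT.nd (nat_lit 546) (nat_lit 456) (nat_lit 0) (XT.nd (nat_lit 234) (nat_lit 304) (nat_lit 0) (XT.nd (nat_lit 78) (nat_lit 152) (nat_lit 0) (XT.lf (nat_lit 0) (nat_lit 18026638046) (nat_lit 76) (nat_lit 4566957646) (nat_lit 152) (nat_lit 7772146603) (nat_lit 47) (nat_lit 5) (nat_lit 48) (nat_lit 5) (nat_lit 49) (nat_lit 4) (nat_lit 440) (nat_lit 406) (nat_lit 354)) (XT.nd (nat_lit 78) (nat_lit 0) (nat_lit 0) (XT.lf (nat_lit 0) (nat_lit 1101757496) (nat_lit 152) (nat_lit 24567599198) (nat_lit 76) (nat_lit 6253490140) (nat_lit 45) (nat_lit 5) (nat_lit 47) (nat_lit 5) (nat_lit 46) (nat_lit 4) (nat_lit 441) (nat_lit 406) (nat_lit 353)) (XT.lf (nat_lit 0) (nat_lit 10701170192) (nat_lit 152) (nat_lit 4635075060) (nat_lit 76) (nat_lit 18217285891) (nat_lit 45) (nat_lit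 5) (nat_lit 47) (nat_lit 5) (nat_lit 46) (nat_lit 4) (nat_lit 442) (nat_lit 406) (nat_lit 352)))) (XT.nd (nat_lit 156) (nat_lit 152) (nat_lit 0) (XT.nd (nat_lit 78) (nat_lit 76) (nat_lit 0) (XT.lf (nat_lit 0) (nat_lit 17727783696) (nat_lit 76) (nat_lit 3740009415) (nat_lit 152) (nat_lit 13814937293) (nat_lit 44) (nat_lit 5) (nat_lit 45) (nat_lit 5) (nat_lit 46) (nat_lit 4) (nat_lit 443) (nat_lit 406) (nat_lit 351)) (XT.lf (nat_lit 0) (nat_lit 4986727820) (nat_lit 76) (nat_lit 28543373506) (nat_lit 76) (nat_lit 3585416569) (nat_lit 43) (nat_lit 4) (nat_lit 44) (nat_lit 5) (nat_lit 44) (nat_lit 4) (nat_lit 444) (nat_lit 406) (nat_lit 350))) (XT.nd (nat_lit 78) (nat_lit 76) (nat_lit 0) (XT.lf (nat_lit 0) (nat_lit 7652012807) (nat_lit 152) (nat_lit 9066948207) (nat_lit 76) (nat_lit 22316582216) (nat_lit 42) (nat_lit 5) (nat_lit 44) (nat_lit 5) (nat_lit 43) (nat_lit 4) (nat_lit 445) (nat_lit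 406) (nat_lit 349)) (XT.lf (nat_lit 0) (nat_lit 16525772048) (nat_lit 76) (nat_lit 3441641305) (nat_lit 152) (nat_lit 21104493003) (nat_lit 41) (nat_lit 5) (nat_lit 42) (nat_lit 5) (nat_lit 43) (nat_lit 4) (nat_lit 446) (nat_lit 406) (nat_lit 348))))) (XT.nd (nat_lit 234) (nat_lit 228) (nat_lit 0) (XT.nd (nat_lit 78) (nat_lit 152) (nat_lit 0) (XT.lf (nat_lit 0) (nat_lit 1172523096) (nat_lit 76) (nat_lit 32615578414) (nat_lit 76) (nat_lit 9441473111) (nat_lit 40) (nat_lit 4) (nat_lit 41) (nat_lit 5) (nat_lit 41) (nat_lit 4) (nat_lit 447) (nat_lit 406) (nat_lit 347)) (XT.nd (nat_lit 78) (nat_lit 76) (nat_lit 0) (XT.lf (nat_lit 0) (nat_lit 3750239663) (nat_lit 152) (nat_lit 15392113319) (nat_lit 76) (nat_lit 26351157861) (nat_lit 39) (nat_lit 5) (nat_lit 41) (nat_lit 5) (nat_lit 40) (nat_lit 4) (nat_lit 448) (nat_lit 406) (nat_lit 346)) (XT.lf (nat_lit 0) (nat_lit 13807134964) (nat_lit 76)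 (nat_lit 3989443134) (nat_lit 152) (nat_lit 30097615770) (nat_lit 38) (nat_lit 5) (nat_lit 39) (nat_lit 5) (nat_lit 40) (nat_lit 4) (nat_lit 449) (nat_lit 406) (nat_lit 345)))) (XT.nd (nat_lit 156) (nat_lit 152) (nat_lit 0) (XT.nd (nat_lit 78) (nat_lit 76) (nat_lit 0) (XT.lf (nat_lit 0) (nat_lit 33673481808) (nat_lit 152) (nat_lit 4588617653) (nat_lit 0) (nat_lit 12168283811) (nat_lit 38) (nat_lit 5) (nat_lit 40) (nat_lit 4) (nat_lit 38) (nat_lit 4) (nat_lit 450) (nat_lit 406) (nat_lit 344)) (XT.lf (nat_lit 0) (nat_lit 28553247189) (nat_lit 76) (nat_lit 23036733217) (nat_lit 76) (nat_lit 1517932378) (nat_lit 37) (nat_lit 4) (nat_lit 38) (nat_lit 5) (nat_lit 38) (nat_lit 4) (nat_lit 451) (nat_lit 406) (nat_lit 343))) (XT.nd (nat_lit 78) (nat_lit 0) (nat_lit 0) (XT.lf (nat_lit 0) (nat_lit 8646543906) (nat_lit 76) (nat_lit 5862081078) (nat_lit 152) (nat_lit 41437008077) (nat_lit 35) (nat_lit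 5) (nat_lit 36) (nat_lit 5) (nat_lit 37) (nat_lit 4) (nat_lit 452) (nat_lit 406) (nat_lit 342)) (XT.lf (nat_lit 0) (nat_lit 32708482633) (nat_lit 152) (nat_lit 13459673370) (nat_lit 0) (nat_lit 12761206422) (nat_lit 35) (nat_lit 5) (nat_lit 37) (nat_lit 4) (nat_lit 35) (nat_lit 4) (nat_lit 453) (nat_lit 406) (nat_lit 341)))))) (XT.nd (nat_lit 546) (nat_lit 456) (nat_lit 0) (XT.nd (nat_lit 234) (nat_lit 228) (nat_lit 0) (XT.nd (nat_lit 78) (nat_lit 152) (nat_lit 0) (XT.lf (nat_lit 0) (nat_lit 24102046362) (nat_lit 76) (nat_lit 28975000649) (nat_lit 76) (nat_lit 9017725945) (nat_lit 34) (nat_lit 4) (nat_lit 35) (nat_lit 5) (nat_lit 35) (nat_lit 4) (nat_lit 454) (nat_lit 406) (nat_lit 340)) (XT.nd (nat_lit 78) (nat_lit 76) (nat_lit 0) (XT.lf (nat_lit 0) (nat_lit 9441777550) (nat_lit 152) (nat_lit 327635264) (nat_lit 76) (nat_lit 55696934148) (nat_lit 33) (nat_lit 5) (nat_lit 35) (nat_lit 5)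 (nat_lit 34) (nat_lit 4) (nat_lit 455) (nat_lit 406) (nat_lit 339)) (XT.lf (nat_lit 0) (nat_lit 30183723506) (nat_lit 152) (nat_lit 27113499355) (nat_lit 0) (nat_lit 11688256220) (nat_lit 32) (nat_lit 5) (nat_lit 34) (nat_lit 4) (nat_lit 32) (nat_lit 4) (nat_lit 456) (nat_lit 406) (nat_lit 338)))) (XT.nd (nat_lit 156) (nat_lit 76) (nat_lit 0) (XT.nd (nat_lit 78) (nat_lit 76) (nat_lit 0) (XT.lf (nat_lit 0) (nat_lit 15149067557) (nat_lit 76) (nat_lit 38045561294) (nat_lit 76) (nat_lit 19542744817) (nat_lit 31) (nat_lit 4) (nat_lit 32) (nat_lit 5) (nat_lit 32) (nat_lit 4) (nat_lit 457) (nat_lit 406) (nat_lit 337)) (XT.lf (nat_lit 0) (nat_lit 1937049426) (nat_lit 152) (nat_lit 14480558477) (nat_lit 76) (nat_lit 60309958267) (nat_lit 30) (nat_lit 5) (nat_lit 32) (nat_lit 5) (nat_lit 31) (nat_lit 4) (nat_lit 458) (nat_lit 406) (nat_lit 336))) (XT.nd (nat_lit 78) (nat_lit 0) (nat_lit 0) (XT.lf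 (nat_lit 0) (nat_lit 25061878606) (nat_lit 152) (nat_lit 47938383590) (nat_lit 0) (nat_lit 7917506354) (nat_lit 29) (nat_lit 5) (nat_lit 31) (nat_lit 4) (nat_lit 29) (nat_lit 4) (nat_lit 459) (nat_lit 406) (nat_lit 335)) (XT.lf (nat_lit 0) (nat_lit 50853044634) (nat_lit 152) (nat_lit 821564082) (nat_lit 0) (nat_lit 33703270506) (nat_lit 29) (nat_lit 5) (nat_lit 31) (nat_lit 4) (nat_lit 29) (nat_lit 4) (nat_lit 460) (nat_lit 406) (nat_lit 334))))) (XT.nd (nat_lit 234) (nat_lit 228) (nat_lit 0) (XT.nd (nat_lit 78) (nat_lit 152) (nat_lit 0) (XT.lf (nat_lit 0) (nat_lit 52668767296) (nat_lit 76) (nat_lit 27290339607) (nat_lit 76) (nat_lit 10135563743) (nat_lit 28) (nat_lit 4) (nat_lit 29) (nat_lit 5) (nat_lit 29) (nat_lit 4) (nat_lit 461) (nat_lit 406) (nat_lit 333)) (XT.nd (nat_lit 78) (nat_lit 0) (nat_lit 0) (XT.lf (nat_lit 0) (nat_lit 15660576025) (nat_lit 76) (nat_lit 118262016) (nat_lit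 152) (nat_lit 79348019581) (nat_lit 26) (nat_lit 5) (nat_lit 27) (nat_lit 5) (nat_lit 28) (nat_lit 4) (nat_lit 462) (nat_lit 406) (nat_lit 332)) (XT.lf (nat_lit 0) (nat_lit 44956575237) (nat_lit 152) (nat_lit 26380697369) (nat_lit 0) (nat_lit 29064264788) (nat_lit 26) (nat_lit 5) (nat_lit 28) (nat_lit 4) (nat_lit 26) (nat_lit 4) (nat_lit 463) (nat_lit 406) (nat_lit 331)))) (XT.nd (nat_lit 156) (nat_lit 76) (nat_lit 0) (XT.nd (nat_lit 78) (nat_lit 76) (nat_lit 0) (XT.lf (nat_lit 0) (nat_lit 32548543418) (nat_lit 76) (nat_lit 44691939491) (nat_lit 76) (nat_lit 28795952616) (nat_lit 25) (nat_lit 4) (nat_lit 26) (nat_lit 5) (nat_lit 26) (nat_lit 4) (nat_lit 464) (nat_lit 406) (nat_lit 330)) (XT.lf (nat_lit 0) (nat_lit 711860249) (nat_lit 152) (nat_lit 14418721653) (nat_lit 76) (nat_lit 96933482105) (nat_lit 24) (nat_lit 5) (nat_lit 26) (nat_lit 5) (nat_lit 25) (nat_lit 4) (nat_lit 465) (nat_lit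 406) (nat_lit 329))) (XT.nd (nat_lit 78) (nat_lit 0) (nat_lit 0) (XT.lf (nat_lit 0) (nat_lit 32697125788) (nat_lit 152) (nat_lit 67710587736) (nat_lit 0) (nat_lit 17972549014) (nat_lit 23) (nat_lit 5) (nat_lit 25) (nat_lit 4) (nat_lit 23) (nat_lit 4) (nat_lit 466) (nat_lit 406) (nat_lit 328)) (XT.lf (nat_lit 0) (nat_lit 68025842899) (nat_lit 152) (nat_lit 3814579855) (nat_lit 0) (nat_lit 53298563843) (nat_lit 23) (nat_lit 5) (nat_lit 25) (nat_lit 4) (nat_lit 23) (nat_lit 4) (nat_lit 467) (nat_lit 406) (nat_lit 327))))))) (XT.nd (nat_lit 1092) (nat_lit 608) (nat_lit 0) (XT.nd (nat_lit 546) (nat_lit 304) (nat_lit 0) (XT.nd (nat_lit 234) (nat_lit 228) (nat_lit 0) (XT.nd (nat_lit 78) (nat_lit 152) (nat_lit 0) (XT.lf (nat_lit 0) (nat_lit 68600459169) (nat_lit 76) (nat_lit 39218347358) (nat_lit 76) (nat_lit 24488566188) (nat_lit 22) (nat_lit 4) (nat_lit 23) (nat_lit 5) (nat_lit 23) (nat_lit 4)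 (nat_lit 468) (nat_lit 406) (nat_lit 326)) (XT.nd (nat_lit 78) (nat_lit 0) (nat_lit 0) (XT.lf (nat_lit 0) (nat_lit 7052043284) (nat_lit 76) (nat_lit 3421101535) (nat_lit 152) (nat_lit 129534231710) (nat_lit 20) (nat_lit 5) (nat_lit 21) (nat_lit 5) (nat_lit 22) (nat_lit 4) (nat_lit 469) (nat_lit 406) (nat_lit 325)) (XT.lf (nat_lit 0) (nat_lit 49531532381) (nat_lit 152) (nat_lit 62642427629) (nat_lit 0) (nat_lit 35888714695) (nat_lit 20) (nat_lit 5) (nat_lit 22) (nat_lit 4) (nat_lit 20) (nat_lit 4) (nat_lit 470) (nat_lit 406) (nat_lit 324)))) (XT.nd (nat_lit 156) (nat_lit 152) (nat_lit 0) (XT.nd (nat_lit 78) (nat_lit 0) (nat_lit 0) (XT.lf (nat_lit 0) (nat_lit 13878355668) (nat_lit 76) (nat_lit 78247883054) (nat_lit 76) (nat_lit 64603226240) (nat_lit 19) (nat_lit 4) (nat_lit 20) (nat_lit 5) (nat_lit 20) (nat_lit 4) (nat_lit 471) (nat_lit 406) (nat_lit 323)) (XT.lf (nat_lit 0) (nat_lit 100061356247)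 (nat_lit 76) (nat_lit 39769218833) (nat_lit 76) (nat_lit 26122859122) (nat_lit 19) (nat_lit 4) (nat_lit 20) (nat_lit 5) (nat_lit 20) (nat_lit 4) (nat_lit 472) (nat_lit 406) (nat_lit 322))) (XT.nd (nat_lit 78) (nat_lit 0) (nat_lit 0) (XT.lf (nat_lit 0) (nat_lit 15143166268) (nat_lit 152) (nat_lit 158197916161) (nat_lit 0) (nat_lit 2506188059) (nat_lit 17) (nat_lit 5) (nat_lit 19) (nat_lit 4) (nat_lit 17) (nat_lit 4) (nat_lit 473) (nat_lit 406) (nat_lit 321)) (XT.lf (nat_lit 0) (nat_lit 61170374625) (nat_lit 152) (nat_lit 76546216115) (nat_lit 0) (nat_lit 48532044601) (nat_lit 17) (nat_lit 5) (nat_lit 19) (nat_lit 4) (nat_lit 17) (nat_lit 4) (nat_lit 474) (nat_lit 406) (nat_lit 320))))) (XT.nd (nat_lit 234) (nat_lit 152) (nat_lit 0) (XT.nd (nat_lit 78) (nat_lit 76) (nat_lit 0) (XT.lf (nat_lit 0) (nat_lit 12230069901) (nat_lit 76) (nat_lit 98934421345) (nat_lit 76) (nat_lit 86294839641) (nat_lit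 16) (nat_lit 4) (nat_lit 17) (nat_lit 5) (nat_lit 17) (nat_lit 4) (nat_lit 475) (nat_lit 406) (nat_lit 319)) (XT.nd (nat_lit 78) (nat_lit 76) (nat_lit 0) (XT.lf (nat_lit 0) (nat_lit 112442852087) (nat_lit 76) (nat_lit 54799035334) (nat_lit 76) (nat_lit 42158294668) (nat_lit 16) (nat_lit 4) (nat_lit 17) (nat_lit 5) (nat_lit 17) (nat_lit 4) (nat_lit 476) (nat_lit 406) (nat_lit 318)) (XT.lf (nat_lit 0) (nat_lit 5224881878) (nat_lit 152) (nat_lit 1774059472) (nat_lit 76) (nat_lit 215287456469) (nat_lit 15) (nat_lit 5) (nat_lit 17) (nat_lit 5) (nat_lit 16) (nat_lit 4) (nat_lit 477) (nat_lit 406) (nat_lit 317)))) (XT.nd (nat_lit 156) (nat_lit 76) (nat_lit 0) (XT.nd (nat_lit 78) (nat_lit 0) (nat_lit 0) (XT.lf (nat_lit 0) (nat_lit 57809609922) (nat_lit 152) (nat_lit 131907909264) (nat_lit 0) (nat_lit 46103306771) (nat_lit 14) (nat_lit 5) (nat_lit 16) (nat_lit 4) (nat_lit 14) (nat_lit 4) (nat_lit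 478) (nat_lit 406) (nat_lit 316)) (XT.lf (nat_lit 0) (nat_lit 114824624049) (nat_lit 152) (nat_lit 32478034667) (nat_lit 0) (nat_lit 103117469026) (nat_lit 14) (nat_lit 5) (nat_lit 16) (nat_lit 4) (nat_lit 14) (nat_lit 4) (nat_lit 479) (nat_lit 406) (nat_lit 315))) (XT.nd (nat_lit 78) (nat_lit 0) (nat_lit 0) (XT.lf (nat_lit 0) (nat_lit 78834479957) (nat_lit 76) (nat_lit 99454878017) (nat_lit 76) (nat_lit 87746934223) (nat_lit 13) (nat_lit 4) (nat_lit 14) (nat_lit 5) (nat_lit 14) (nat_lit 4) (nat_lit 480) (nat_lit 406) (nat_lit 314)) (XT.lf (nat_lit 0) (nat_lit 200884069563) (nat_lit 76) (nat_lit 46827947349) (nat_lit 76) (nat_lit 35119273212) (nat_lit 13) (nat_lit 4) (nat_lit 14) (nat_lit 5) (nat_lit 14) (nat_lit 4) (nat_lit 481) (nat_lit 406) (nat_lit 313)))))) (XT.nd (nat_lit 546) (nat_lit 228) (nat_lit 0) (XT.nd (nat_lit 234) (nat_lit 228) (nat_lit 0) (XT.nd (nat_lit 78) (nat_lit 0) (nat_lit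 0) (XT.lf (nat_lit 0) (nat_lit 21689521715) (nat_lit 152) (nat_lit 268306459064) (nat_lit 0) (nat_lit 10847530621) (nat_lit 11) (nat_lit 5) (nat_lit 13) (nat_lit 4) (nat_lit 11) (nat_lit 4) (nat_lit 482) (nat_lit 406) (nat_lit 312)) (XT.nd (nat_lit 78) (nat_lit 0) (nat_lit 0) (XT.lf (nat_lit 0) (nat_lit 84653864470) (nat_lit 152) (nat_lit 161477921430) (nat_lit 0) (nat_lit 73811293606) (nat_lit 11) (nat_lit 5) (nat_lit 13) (nat_lit 4) (nat_lit 11) (nat_lit 4) (nat_lit 483) (nat_lit 406) (nat_lit 311)) (XT.lf (nat_lit 0) (nat_lit 152648972868) (nat_lit 152) (nat_lit 46116285568) (nat_lit 0) (nat_lit 141805865181) (nat_lit 11) (nat_lit 5) (nat_lit 13) (nat_lit 4) (nat_lit 11) (nat_lit 4) (nat_lit 484) (nat_lit 406) (nat_lit 310)))) (XT.nd (nat_lit 156) (nat_lit 152) (nat_lit 0) (XT.nd (nat_lit 78) (nat_lit 0) (nat_lit 0) (XT.lf (nat_lit 0) (nat_lit 82593746748) (nat_lit 76) (nat_lit 145470415733)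 (nat_lit 76) (nat_lit 134626810986) (nat_lit 10) (nat_lit 4) (nat_lit 11) (nat_lit 5) (nat_lit 11) (nat_lit 4) (nat_lit 485) (nat_lit 406) (nat_lit 309)) (XT.lf (nat_lit 0) (nat_lit 224211356609) (nat_lit 76) (nat_lit 86556354110) (nat_lit 76) (nat_lit 75712289123) (nat_lit 10) (nat_lit 4) (nat_lit 11) (nat_lit 5) (nat_lit 11) (nat_lit 4) (nat_lit 486) (nat_lit 406) (nat_lit 308))) (XT.nd (nat_lit 78) (nat_lit 152) (nat_lit 0) (XT.lf (nat_lit 0) (nat_lit 377147357604) (nat_lit 76) (nat_lit 22934854175) (nat_lit 76) (nat_lit 12090363040) (nat_lit 10) (nat_lit 4) (nat_lit 11) (nat_lit 5) (nat_lit 11) (nat_lit 4) (nat_lit 487) (nat_lit 406) (nat_lit 307)) (XT.lf (nat_lit 0) (nat_lit 57544026070) (nat_lit 152) (nat_lit 334464714069) (nat_lit 0) (nat_lit 47502465221) (nat_lit 8) (nat_lit 5) (nat_lit 10) (nat_lit 4) (nat_lit 8) (nat_lit 4) (nat_lit 488) (nat_lit 406) (nat_lit 306))))) (XT.nd (nat_lit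 312) (nat_lit 152) (nat_lit 0) (XT.nd (nat_lit 156) (nat_lit 76) (nat_lit 0) (XT.nd (nat_lit 78) (nat_lit 0) (nat_lit 0) (XT.lf (nat_lit 0) (nat_lit 133669147418) (nat_lit 152) (nat_lit 211589553842) (nat_lit 0) (nat_lit 123627248280) (nat_lit 8) (nat_lit 5) (nat_lit 10) (nat_lit 4) (nat_lit 8) (nat_lit 4) (nat_lit 489) (nat_lit 406) (nat_lit 305)) (XT.lf (nat_lit 0) (nat_lit 215879592064) (nat_lit 152) (nat_lit 78894076418) (nat_lit 0) (nat_lit 205837379693) (nat_lit 8) (nat_lit 5) (nat_lit 10) (nat_lit 4) (nat_lit 8) (nat_lit 4) (nat_lit 490) (nat_lit 406) (nat_lit 304))) (XT.nd (nat_lit 78) (nat_lit 0) (nat_lit 0) (XT.lf (nat_lit 0) (nat_lit 67799676163) (nat_lit 76) (nat_lit 238493440690) (nat_lit 76) (nat_lit 228450938290) (nat_lit 7) (nat_lit 4) (nat_lit 8) (nat_lit 5) (nat_lit 8) (nat_lit 4) (nat_lit 491) (nat_lit 406) (nat_lit 303)) (XT.lf (nat_lit 0) (nat_lit 230706954833) (nat_lit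 76) (nat_lit 175385644371) (nat_lit 76) (nat_lit 165342873426) (nat_lit 7) (nat_lit 4) (nat_lit 8) (nat_lit 5) (nat_lit 8) (nat_lit 4) (nat_lit 492) (nat_lit 406) (nat_lit 302)))) (XT.nd (nat_lit 156) (nat_lit 152) (nat_lit 0) (XT.nd (nat_lit 78) (nat_lit 0) (nat_lit 0) (XT.lf (nat_lit 0) (nat_lit 406638713806) (nat_lit 76) (nat_lit 107233411261) (nat_lit 76) (nat_lit 97190391662) (nat_lit 7) (nat_lit 4) (nat_lit 8) (nat_lit 5) (nat_lit 8) (nat_lit 4) (nat_lit 493) (nat_lit 406) (nat_lit 301)) (XT.lf (nat_lit 0) (nat_lit 596637511652) (nat_lit 76) (nat_lit 33632876274) (nat_lit 76) (nat_lit 23589626441) (nat_lit 7) (nat_lit 4) (nat_lit 8) (nat_lit 5) (nat_lit 8) (nat_lit 4) (nat_lit 494) (nat_lit 406) (nat_lit 300))) (XT.nd (nat_lit 78) (nat_lit 0) (nat_lit 0) (XT.lf (nat_lit 0) (nat_lit 56844993339) (nat_lit 152) (nat_lit 595283909949) (nat_lit 0) (nat_lit 47545490548) (nat_lit 5) (nat_lit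 5) (nat_lit 7) (nat_lit 4) (nat_lit 5) (nat_lit 4) (nat_lit 495) (nat_lit 406) (nat_lit 299)) (XT.lf (nat_lit 0) (nat_lit 144915271939) (nat_lit 152) (nat_lit 468376020600) (nat_lit 0) (nat_lit 135615586380) (nat_lit 5) (nat_lit 5) (nat_lit 7) (nat_lit 4) (nat_lit 5) (nat_lit 4) (nat_lit 496) (nat_lit 406) (nat_lit 298))))))))
noncomputable def xc109 : XT := (XT.nd (nat_lit 2184) (nat_lit 0) (nat_lit 0) (XT.nd (nat_lit 1092) (nat_lit 76) (nat_lit 0) (XT.nd (nat_lit 546) (nat_lit 152) (nat_lit 0) (XT.nd (nat_lit 234) (nat_lit 76) (nat_lit 0) (XT.nd (nat_lit 78) (nat_lit 0) (nat_lit 0) (XT.lf (nat_lit 0) (nat_lit 240027985703) (nat_lit 152) (nat_lit 331322101164) (nat_lit 0) (nat_lit 230728130916) (nat_lit 5) (nat_lit 5) (nat_lit 7) (nat_lit 4) (nat_lit 5) (nat_lit 4) (nat_lit 497) (nat_lit 406) (nat_lit 297)) (XT.nd (nat_lit 78) (nat_lit 0) (nat_lit 0) (XT.lf (nat_lit 0) (nat_lit 342746765529)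 (nat_lit 152) (nat_lit 183309980267) (nat_lit 0) (nat_lit 333446754048) (nat_lit 5) (nat_lit 5) (nat_lit 7) (nat_lit 4) (nat_lit 5) (nat_lit 4) (nat_lit 498) (nat_lit 406) (nat_lit 296)) (XT.lf (nat_lit 0) (nat_lit 453680315296) (nat_lit 152) (nat_lit 23462549044) (nat_lit 0) (nat_lit 444380158728) (nat_lit 5) (nat_lit 5) (nat_lit 7) (nat_lit 4) (nat_lit 5) (nat_lit 4) (nat_lit 499) (nat_lit 406) (nat_lit 295)))) (XT.nd (nat_lit 156) (nat_lit 0) (nat_lit 0) (XT.nd (nat_lit 78) (nat_lit 0) (nat_lit 0) (XT.lf (nat_lit 0) (nat_lit 157022329402) (nat_lit 76) (nat_lit 420240080399) (nat_lit 76) (nat_lit 410939789492) (nat_lit 4) (nat_lit 4) (nat_lit 5) (nat_lit 5) (nat_lit 5) (nat_lit 4) (nat_lit 500) (nat_lit 406) (nat_lit 294)) (XT.lf (nat_lit 0) (nat_lit 353275226605) (nat_lit 76) (nat_lit 358094887468) (nat_lit 76) (nat_lit 348794472171) (nat_lit 4) (nat_lit 4) (nat_lit 5) (nat_lit 5) (nat_lit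 5) (nat_lit 4) (nat_lit 501) (nat_lit 406) (nat_lit 293))) (XT.nd (nat_lit 78) (nat_lit 0) (nat_lit 0) (XT.lf (nat_lit 0) (nat_lit 565223626441) (nat_lit 76) (nat_lit 290980525405) (nat_lit 76) (nat_lit 281679994934) (nat_lit 4) (nat_lit 4) (nat_lit 5) (nat_lit 5) (nat_lit 5) (nat_lit 4) (nat_lit 502) (nat_lit 406) (nat_lit 292)) (XT.lf (nat_lit 0) (nat_lit 794123519429) (nat_lit 76) (nat_lit 218499279474) (nat_lit 76) (nat_lit 209198642360) (nat_lit 4) (nat_lit 4) (nat_lit 5) (nat_lit 5) (nat_lit 5) (nat_lit 4) (nat_lit 503) (nat_lit 406) (nat_lit 291))))) (XT.nd (nat_lit 234) (nat_lit 0) (nat_lit 0) (XT.nd (nat_lit 78) (nat_lit 152) (nat_lit 0) (XT.lf (nat_lit 0) (nat_lit 1041331349380) (nat_lit 76) (nat_lit 140221631179) (nat_lit 76) (nat_lit 130920895321) (nat_lit 4) (nat_lit 4) (nat_lit 5) (nat_lit 5) (nat_lit 5) (nat_lit 4) (nat_lit 504) (nat_lit 406) (nat_lit 290)) (XT.nd (nat_lit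 78) (nat_lit 152) (nat_lit 0) (XT.lf (nat_lit 0) (nat_lit 1308312051580) (nat_lit 76) (nat_lit 55683712975) (nat_lit 76) (nat_lit 46382885687) (nat_lit 4) (nat_lit 4) (nat_lit 5) (nat_lit 5) (nat_lit 5) (nat_lit 4) (nat_lit 505) (nat_lit 406) (nat_lit 289)) (XT.lf (nat_lit 0) (nat_lit 45617741745) (nat_lit 152) (nat_lit 1433170130690) (nat_lit 0) (nat_lit 37005786242) (nat_lit 2) (nat_lit 5) (nat_lit 4) (nat_lit 4) (nat_lit 2) (nat_lit 4) (nat_lit 506) (nat_lit 406) (nat_lit 288)))) (XT.nd (nat_lit 156) (nat_lit 0) (nat_lit 0) (XT.nd (nat_lit 78) (nat_lit 0) (nat_lit 0) (XT.lf (nat_lit 0) (nat_lit 146780315039) (nat_lit 152) (nat_lit 1344252263672) (nat_lit 0) (nat_lit 138168286956) (nat_lit 2) (nat_lit 5) (nat_lit 4) (nat_lit 4) (nat_lit 2) (nat_lit 4) (nat_lit 507) (nat_lit 406) (nat_lit 287)) (XT.lf (nat_lit 0) (nat_lit 256034300783) (nat_lit 152) (nat_lit 1248224270413) (nat_lit 0) (nat_lit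 247422205497) (nat_lit 2) (nat_lit 5) (nat_lit 4) (nat_lit 4) (nat_lit 2) (nat_lit 4) (nat_lit 508) (nat_lit 406) (nat_lit 286))) (XT.nd (nat_lit 78) (nat_lit 0) (nat_lit 0) (XT.lf (nat_lit 0) (nat_lit 374027130003) (nat_lit 152) (nat_lit 1144517096138) (nat_lit 0) (nat_lit 365414972491) (nat_lit 2) (nat_lit 5) (nat_lit 4) (nat_lit 4) (nat_lit 2) (nat_lit 4) (nat_lit 509) (nat_lit 406) (nat_lit 285)) (XT.lf (nat_lit 0) (nat_lit 501458019464) (nat_lit 152) (nat_lit 1032516179814) (nat_lit 0) (nat_lit 492845804336) (nat_lit 2) (nat_lit 5) (nat_lit 4) (nat_lit 4) (nat_lit 2) (nat_lit 4) (nat_lit 510) (nat_lit 406) (nat_lit 284)))))) (XT.nd (nat_lit 546) (nat_lit 0) (nat_lit 0) (XT.nd (nat_lit 234) (nat_lit 76) (nat_lit 0) (XT.nd (nat_lit 78) (nat_lit 0) (nat_lit 0) (XT.lf (nat_lit 0) (nat_lit 639082115178) (nat_lit 152) (nat_lit 911557812309) (nat_lit 0) (nat_lit 630469846702) (nat_lit 2) (nat_lit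 5) (nat_lit 4) (nat_lit 4) (nat_lit 2) (nat_lit 4) (nat_lit 511) (nat_lit 406) (nat_lit 283)) (XT.nd (nat_lit 78) (nat_lit 0) (nat_lit 0) (XT.lf (nat_lit 0) (nat_lit 787714967343) (nat_lit 152) (nat_lit 780925203295) (nat_lit 0) (nat_lit 779102649471) (nat_lit 2) (nat_lit 5) (nat_lit 4) (nat_lit 4) (nat_lit 2) (nat_lit 4) (nat_lit 512) (nat_lit 406) (nat_lit 282)) (XT.lf (nat_lit 0) (nat_lit 948237363230) (nat_lit 152) (nat_lit 639844233609) (nat_lit 0) (nat_lit 939624999620) (nat_lit 2) (nat_lit 5) (nat_lit 4) (nat_lit 4) (nat_lit 2) (nat_lit 4) (nat_lit 513) (nat_lit 406) (nat_lit 281)))) (XT.nd (nat_lit 156) (nat_lit 76) (nat_lit 0) (XT.nd (nat_lit 78) (nat_lit 0) (nat_lit 0) (XT.lf (nat_lit 0) (nat_lit 1121600546666) (nat_lit 152) (nat_lit 487478867874) (nat_lit 0) (nat_lit 1112988140707) (nat_lit 2) (nat_lit 5) (nat_lit 4) (nat_lit 4) (nat_lit 2) (nat_lit 4) (nat_lit 514) (nat_lit 406)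 (nat_lit 280)) (XT.lf (nat_lit 0) (nat_lit 1308831855036) (nat_lit 152) (nat_lit 322926200220) (nat_lit 0) (nat_lit 1300219409864) (nat_lit 2) (nat_lit 5) (nat_lit 4) (nat_lit 4) (nat_lit 2) (nat_lit 4) (nat_lit 515) (nat_lit 406) (nat_lit 279))) (XT.nd (nat_lit 78) (nat_lit 76) (nat_lit 0) (XT.lf (nat_lit 0) (nat_lit 1511040807203) (nat_lit 152) (nat_lit 145211103727) (nat_lit 0) (nat_lit 1502428325724) (nat_lit 2) (nat_lit 5) (nat_lit 4) (nat_lit 4) (nat_lit 2) (nat_lit 4) (nat_lit 516) (nat_lit 406) (nat_lit 278)) (XT.lf (nat_lit 0) (nat_lit 49179716711) (nat_lit 76) (nat_lit 1681428735098) (nat_lit 76) (nat_lit 1672816220000) (nat_lit 1) (nat_lit 4) (nat_lit 2) (nat_lit 5) (nat_lit 2) (nat_lit 4) (nat_lit 517) (nat_lit 406) (nat_lit 277))))) (XT.nd (nat_lit 234) (nat_lit 0) (nat_lit 0) (XT.nd (nat_lit 78) (nat_lit 0) (nat_lit 0) (XT.lf (nat_lit 0) (nat_lit 267378476371) (nat_lit 76)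 (nat_lit 1704332583731) (nat_lit 76) (nat_lit 1695720037505) (nat_lit 1) (nat_lit 4) (nat_lit 2) (nat_lit 5) (nat_lit 2) (nat_lit 4) (nat_lit 518) (nat_lit 406) (nat_lit 276)) (XT.nd (nat_lit 78) (nat_lit 0) (nat_lit 0) (XT.lf (nat_lit 0) (nat_lit 503031645555) (nat_lit 76) (nat_lit 1729069512253) (nat_lit 76) (nat_lit 1720456937205) (nat_lit 1) (nat_lit 4) (nat_lit 2) (nat_lit 5) (nat_lit 2) (nat_lit 4) (nat_lit 519) (nat_lit 406) (nat_lit 275)) (XT.lf (nat_lit 0) (nat_lit 757535687485) (nat_lit 76) (nat_lit 1755786109869) (nat_lit 76) (nat_lit 1747173508133) (nat_lit 1) (nat_lit 4) (nat_lit 2) (nat_lit 5) (nat_lit 2) (nat_lit 4) (nat_lit 520) (nat_lit 406) (nat_lit 274)))) (XT.nd (nat_lit 156) (nat_lit 0) (nat_lit 0) (XT.nd (nat_lit 78) (nat_lit 0) (nat_lit 0) (XT.lf (nat_lit 0) (nat_lit 1032398774264) (nat_lit 76) (nat_lit 1784640697157) (nat_lit 76) (nat_lit 1776028070711) (nat_lit 1)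 (nat_lit 4) (nat_lit 2) (nat_lit 5) (nat_lit 2) (nat_lit 4) (nat_lit 521) (nat_lit 406) (nat_lit 273)) (XT.lf (nat_lit 0) (nat_lit 1329249724182) (nat_lit 76) (nat_lit 1815804264266) (nat_lit 76) (nat_lit 1807191614939) (nat_lit 1) (nat_lit 4) (nat_lit 2) (nat_lit 5) (nat_lit 2) (nat_lit 4) (nat_lit 522) (nat_lit 406) (nat_lit 272))) (XT.nd (nat_lit 78) (nat_lit 0) (nat_lit 0) (XT.lf (nat_lit 0) (nat_lit 1649847653980) (nat_lit 76) (nat_lit 1849461484184) (nat_lit 76) (nat_lit 1840848813672) (nat_lit 1) (nat_lit 4) (nat_lit 2) (nat_lit 5) (nat_lit 2) (nat_lit 4) (nat_lit 523) (nat_lit 406) (nat_lit 271)) (XT.lf (nat_lit 0) (nat_lit 1996092403242) (nat_lit 76) (nat_lit 1885811807104) (nat_lit 76) (nat_lit 1877199116977) (nat_lit 1) (nat_lit 4) (nat_lit 2) (nat_lit 5) (nat_lit 2) (nat_lit 4) (nat_lit 524) (nat_lit 406) (nat_lit 270))))))) (XT.nd (nat_lit 1092) (nat_lit 0) (nat_lit 0) (XT.nd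 (nat_lit 546) (nat_lit 0) (nat_lit 0) (XT.nd (nat_lit 234) (nat_lit 0) (nat_lit 0) (XT.nd (nat_lit 78) (nat_lit 0) (nat_lit 0) (XT.lf (nat_lit 0) (nat_lit 2370035792705) (nat_lit 76) (nat_lit 1925070642348) (nat_lit 76) (nat_lit 1916457934057) (nat_lit 1) (nat_lit 4) (nat_lit 2) (nat_lit 5) (nat_lit 2) (nat_lit 4) (nat_lit 525) (nat_lit 406) (nat_lit 269)) (XT.nd (nat_lit 78) (nat_lit 0) (nat_lit 0) (XT.lf (nat_lit 0) (nat_lit 2773893783194) (nat_lit 76) (nat_lit 1967470634864) (nat_lit 76) (nat_lit 1958857909756) (nat_lit 1) (nat_lit 4) (nat_lit 2) (nat_lit 5) (nat_lit 2) (nat_lit 4) (nat_lit 526) (nat_lit 406) (nat_lit 268)) (XT.lf (nat_lit 0) (nat_lit 3210059607246) (nat_lit 76) (nat_lit 2013263043867) (nat_lit 76) (nat_lit 2004650303187) (nat_lit 1) (nat_lit 4) (nat_lit 2) (nat_lit 5) (nat_lit 2) (nat_lit 4) (nat_lit 527) (nat_lit 406) (nat_lit 267)))) (XT.nd (nat_lit 156) (nat_lit 0)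 (nat_lit 0) (XT.nd (nat_lit 78) (nat_lit 0) (nat_lit 0) (XT.lf (nat_lit 0) (nat_lit 3681117951227) (nat_lit 76) (nat_lit 2062719231782) (nat_lit 76) (nat_lit 2054106476684) (nat_lit 1) (nat_lit 4) (nat_lit 2) (nat_lit 5) (nat_lit 2) (nat_lit 4) (nat_lit 528) (nat_lit 406) (nat_lit 266)) (XT.lf (nat_lit 0) (nat_lit 4189860271988) (nat_lit 76) (nat_lit 2116132272314) (nat_lit 76) (nat_lit 2107519503866) (nat_lit 1) (nat_lit 4) (nat_lit 2) (nat_lit 5) (nat_lit 2) (nat_lit 4) (nat_lit 529) (nat_lit 406) (nat_lit 265))) (XT.nd (nat_lit 78) (nat_lit 0) (nat_lit 0) (XT.lf (nat_lit 0) (nat_lit 4739301338838) (nat_lit 76) (nat_lit 2173818687186) (nat_lit 76) (nat_lit 2165205906376) (nat_lit 1) (nat_lit 4) (nat_lit 2) (nat_lit 5) (nat_lit 2) (nat_lit 4) (nat_lit 530) (nat_lit 406) (nat_lit 264)) (XT.lf (nat_lit 0) (nat_lit 5332697098841) (nat_lit 76) (nat_lit 2236120321818) (nat_lit 76) (nat_lit 2227507529562)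 (nat_lit 1) (nat_lit 4) (nat_lit 2) (nat_lit 5) (nat_lit 2) (nat_lit 4) (nat_lit 531) (nat_lit 406) (nat_lit 263))))) (XT.nd (nat_lit 234) (nat_lit 0) (nat_lit 0) (XT.nd (nat_lit 78) (nat_lit 0) (nat_lit 0) (XT.lf (nat_lit 0) (nat_lit 5973563971314) (nat_lit 76) (nat_lit 2303406371082) (nat_lit 76) (nat_lit 2294793568229) (nat_lit 1) (nat_lit 4) (nat_lit 2) (nat_lit 5) (nat_lit 2) (nat_lit 4) (nat_lit 532) (nat_lit 406) (nat_lit 262)) (XT.nd (nat_lit 78) (nat_lit 0) (nat_lit 0) (XT.lf (nat_lit 0) (nat_lit 6665699685872) (nat_lit 76) (nat_lit 2376075567123) (nat_lit 76) (nat_lit 2367462754457) (nat_lit 1) (nat_lit 4) (nat_lit 2) (nat_lit 5) (nat_lit 2) (nat_lit 4) (nat_lit 533) (nat_lit 406) (nat_lit 261)) (XT.lf (nat_lit 0) (nat_lit 7413205787490) (nat_lit 76) (nat_lit 2454558542213) (nat_lit 76) (nat_lit 2445945720460) (nat_lit 1) (nat_lit 4) (nat_lit 2) (nat_lit 5) (nat_lit 2) (nat_lit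 4) (nat_lit 534) (nat_lit 406) (nat_lit 260)))) (XT.nd (nat_lit 156) (nat_lit 0) (nat_lit 0) (XT.nd (nat_lit 78) (nat_lit 0) (nat_lit 0) (XT.lf (nat_lit 0) (nat_lit 8220511941957) (nat_lit 76) (nat_lit 2539320380649) (nat_lit 76) (nat_lit 2530707550483) (nat_lit 1) (nat_lit 4) (nat_lit 2) (nat_lit 5) (nat_lit 2) (nat_lit 4) (nat_lit 535) (nat_lit 406) (nat_lit 259)) (XT.lf (nat_lit 0) (nat_lit 9092402185742) (nat_lit 76) (nat_lit 2630863374806) (nat_lit 76) (nat_lit 2622250536851) (nat_lit 1) (nat_lit 4) (nat_lit 2) (nat_lit 5) (nat_lit 2) (nat_lit 4) (nat_lit 536) (nat_lit 406) (nat_lit 258))) (XT.nd (nat_lit 78) (nat_lit 0) (nat_lit 0) (XT.lf (nat_lit 0) (nat_lit 10034043275846) (nat_lit 76) (nat_lit 2729730001688) (nat_lit 76) (nat_lit 2721117156520) (nat_lit 1) (nat_lit 4) (nat_lit 2) (nat_lit 5) (nat_lit 2) (nat_lit 4) (nat_lit 537) (nat_lit 406) (nat_lit 257)) (XT.lf (nat_lit 0) (nat_lit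 11051015307617) (nat_lit 76) (nat_lit 2836506137602) (nat_lit 76) (nat_lit 2827893285755) (nat_lit 1) (nat_lit 4) (nat_lit 2) (nat_lit 5) (nat_lit 2) (nat_lit 4) (nat_lit 538) (nat_lit 406) (nat_lit 256)))))) (XT.nd (nat_lit 52338) (nat_lit 0) (nat_lit 6232) (XT.nd (nat_lit 234) (nat_lit 0) (nat_lit 0) (XT.nd (nat_lit 78) (nat_lit 0) (nat_lit 0) (XT.lf (nat_lit 0) (nat_lit 12149344781986) (nat_lit 76) (nat_lit 2951824530019) (nat_lit 76) (nat_lit 2943211671989) (nat_lit 1) (nat_lit 4) (nat_lit 2) (nat_lit 5) (nat_lit 2) (nat_lit 4) (nat_lit 539) (nat_lit 406) (nat_lit 255)) (XT.nd (nat_lit 78) (nat_lit 0) (nat_lit 0) (XT.lf (nat_lit 0) (nat_lit 13335540318058) (nat_lit 76) (nat_lit 3076368547192) (nat_lit 76) (nat_lit 3067755683436) (nat_lit 1) (nat_lit 4) (nat_lit 2) (nat_lit 5) (nat_lit 2) (nat_lit 4) (nat_lit 540) (nat_lit 406) (nat_lit 254)) (XT.lf (nat_lit 0) (nat_lit 14616631222714)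 (nat_lit 76) (nat_lit 3210876227740) (nat_lit 76) (nat_lit 3202263358682) (nat_lit 1) (nat_lit 4) (nat_lit 2) (nat_lit 5) (nat_lit 2) (nat_lit 4) (nat_lit 541) (nat_lit 406) (nat_lit 253)))) (XT.nd (nat_lit 51948) (nat_lit 0) (nat_lit 7524) (XT.nd (nat_lit 78) (nat_lit 0) (nat_lit 0) (XT.lf (nat_lit 0) (nat_lit 16000209145761) (nat_lit 76) (nat_lit 3356144654214) (nat_lit 76) (nat_lit 3347531780248) (nat_lit 1) (nat_lit 4) (nat_lit 2) (nat_lit 5) (nat_lit 2) (nat_lit 4) (nat_lit 542) (nat_lit 406) (nat_lit 252)) (XT.lf (nat_lit 0) (nat_lit 17494473067482) (nat_lit 76) (nat_lit 3513034676551) (nat_lit 76) (nat_lit 3504421798039) (nat_lit 1) (nat_lit 4) (nat_lit 2) (nat_lit 5) (nat_lit 2) (nat_lit 4) (nat_lit 543) (nat_lit 406) (nat_lit 251))) (XT.nd (nat_lit 78) (nat_lit 0) (nat_lit 0) (XT.lf (nat_lit 0) (nat_lit 823525030) (nat_lit 0) (nat_lit 823525030) (nat_lit 380) (nat_lit 2275750607)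 (nat_lit 100) (nat_lit 5) (nat_lit 100) (nat_lit 3) (nat_lit 105) (nat_lit 3) (nat_lit 407) (nat_lit 407) (nat_lit 386)) (XT.lf (nat_lit 0) (nat_lit 4697074861) (nat_lit 380) (nat_lit 2285255249) (nat_lit 456) (nat_lit 1075214509) (nat_lit 100) (nat_lit 5) (nat_lit 105) (nat_lit 3) (nat_lit 106) (nat_lit 5) (nat_lit 408) (nat_lit 407) (nat_lit 385))))) (XT.nd (nat_lit 312) (nat_lit 912) (nat_lit 0) (XT.nd (nat_lit 156) (nat_lit 380) (nat_lit 0) (XT.nd (nat_lit 78) (nat_lit 0) (nat_lit 0) (XT.lf (nat_lit 76) (nat_lit 1920704189) (nat_lit 0) (nat_lit 4257594664) (nat_lit 456) (nat_lit 2110882009) (nat_lit 101) (nat_lit 5) (nat_lit 100) (nat_lit 5) (nat_lit 106) (nat_lit 5) (nat_lit 409) (nat_lit 407) (nat_lit 384)) (XT.lf (nat_lit 76) (nat_lit 6521269576) (nat_lit 0) (nat_lit 1203652562) (nat_lit 456) (nat_lit 818690795) (nat_lit 101) (nat_lit 5) (nat_lit 100) (nat_lit 5) (nat_lit 106) (nat_lit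 5) (nat_lit 410) (nat_lit 407) (nat_lit 383))) (XT.nd (nat_lit 78) (nat_lit 0) (nat_lit 0) (XT.lf (nat_lit 0) (nat_lit 556991513) (nat_lit 456) (nat_lit 6152758624) (nat_lit 532) (nat_lit 2106836251) (nat_lit 95) (nat_lit 5) (nat_lit 101) (nat_lit 5) (nat_lit 102) (nat_lit 5) (nat_lit 411) (nat_lit 407) (nat_lit 382)) (XT.lf (nat_lit 0) (nat_lit 1983908002) (nat_lit 456) (nat_lit 1400589164) (nat_lit 532) (nat_lit 5726380090) (nat_lit 95) (nat_lit 5) (nat_lit 101) (nat_lit 5) (nat_lit 102) (nat_lit 5) (nat_lit 412) (nat_lit 407) (nat_lit 381)))) (XT.nd (nat_lit 156) (nat_lit 988) (nat_lit 0) (XT.nd (nat_lit 78) (nat_lit 0) (nat_lit 0) (XT.lf (nat_lit 0) (nat_lit 3530493577) (nat_lit 456) (nat_lit 5586085151) (nat_lit 76) (nat_lit 311703927) (nat_lit 96) (nat_lit 5) (nat_lit 102) (nat_lit 5) (nat_lit 97) (nat_lit 5) (nat_lit 413) (nat_lit 407) (nat_lit 380)) (XT.lf (nat_lit 0) (nat_lit 5238758091)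 (nat_lit 456) (nat_lit 352273967) (nat_lit 76) (nat_lit 4177023856) (nat_lit 96) (nat_lit 5) (nat_lit 102) (nat_lit 5) (nat_lit 97) (nat_lit 5) (nat_lit 414) (nat_lit 407) (nat_lit 379))) (XT.nd (nat_lit 78) (nat_lit 532) (nat_lit 0) (XT.lf (nat_lit 0) (nat_lit 5501940710) (nat_lit 456) (nat_lit 1631429512) (nat_lit 532) (nat_lit 2997676631) (nat_lit 90) (nat_lit 5) (nat_lit 96) (nat_lit 5) (nat_lit 97) (nat_lit 5) (nat_lit 415) (nat_lit 407) (nat_lit 378)) (XT.lf (nat_lit 0) (nat_lit 1242413480) (nat_lit 532) (nat_lit 7962430905) (nat_lit 608) (nat_lit 1316219178) (nat_lit 83) (nat_lit 5) (nat_lit 90) (nat_lit 5) (nat_lit 91) (nat_lit 5) (nat_lit 416) (nat_lit 407) (nat_lit 377))))))))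
noncomputable def xc110 : XT := (XT.nd (nat_lit 2184) (nat_lit 1900) (nat_lit 0) (XT.nd (nat_lit 1092) (nat_lit 1216) (nat_lit 0) (XT.nd (nat_lit 546) (nat_lit 684) (nat_lit 0) (XT.nd (nat_lit 234) (nat_lit 760) (nat_lit 0) (XT.nd (nat_lit 78) (nat_lit 228) (nat_lit 0) (XT.lf (nat_lit 0) (nat_lit 570924375) (nat_lit 608) (nat_lit 3223054326) (nat_lit 76) (nat_lit 7139656361) (nat_lit 82) (nat_lit 5) (nat_lit 90) (nat_lit 5) (nat_lit 83) (nat_lit 5) (nat_lit 417) (nat_lit 407) (nat_lit 376)) (XT.nd (nat_lit 78) (nat_lit 0) (nat_lit 0) (XT.lf (nat_lit 0) (nat_lit 2568666462) (nat_lit 304) (nat_lit 8017990317) (nat_lit 76) (nat_lit 787369427) (nat_lit 79) (nat_lit 5) (nat_lit 83) (nat_lit 5) (nat_lit 80) (nat_lit 5) (nat_lit 418) (nat_lit 407) (nat_lit 375)) (XT.lf (nat_lit 0) (nat_lit 4848107350) (nat_lit 304) (nat_lit 1376234033) (nat_lit 76) (nat_lit 5615564211) (nat_lit 79) (nat_lit 5)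 (nat_lit 83) (nat_lit 5) (nat_lit 80) (nat_lit 5) (nat_lit 419) (nat_lit 407) (nat_lit 374)))) (XT.nd (nat_lit 156) (nat_lit 304) (nat_lit 0) (XT.nd (nat_lit 78) (nat_lit 228) (nat_lit 0) (XT.lf (nat_lit 0) (nat_lit 6026525879) (nat_lit 228) (nat_lit 1366206071) (nat_lit 304) (nat_lit 4943703871) (nat_lit 76) (nat_lit 5) (nat_lit 79) (nat_lit 5) (nat_lit 80) (nat_lit 5) (nat_lit 420) (nat_lit 407) (nat_lit 373)) (XT.lf (nat_lit 0) (nat_lit 1117205670) (nat_lit 228) (nat_lit 9123071872) (nat_lit 304) (nat_lit 2624469110) (nat_lit 73) (nat_lit 5) (nat_lit 76) (nat_lit 5) (nat_lit 77) (nat_lit 5) (nat_lit 421) (nat_lit 407) (nat_lit 372))) (XT.nd (nat_lit 78) (nat_lit 228) (nat_lit 0) (XT.lf (nat_lit 0) (nat_lit 40508792) (nat_lit 304) (nat_lit 4036928810) (nat_lit 76) (nat_lit 9345783075) (nat_lit 72) (nat_lit 5) (nat_lit 76) (nat_lit 5) (nat_lit 73) (nat_lit 5) (nat_lit 422) (nat_lit 407)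 (nat_lit 371)) (XT.lf (nat_lit 0) (nat_lit 2865166169) (nat_lit 304) (nat_lit 9682976636) (nat_lit 76) (nat_lit 1465719691) (nat_lit 69) (nat_lit 5) (nat_lit 73) (nat_lit 5) (nat_lit 70) (nat_lit 5) (nat_lit 423) (nat_lit 407) (nat_lit 370))))) (XT.nd (nat_lit 234) (nat_lit 380) (nat_lit 0) (XT.nd (nat_lit 78) (nat_lit 304) (nat_lit 0) (XT.lf (nat_lit 0) (nat_lit 6082943046) (nat_lit 304) (nat_lit 1226004886) (nat_lit 76) (nat_lit 7329440580) (nat_lit 69) (nat_lit 5) (nat_lit 73) (nat_lit 5) (nat_lit 70) (nat_lit 5) (nat_lit 424) (nat_lit 407) (nat_lit 369)) (XT.nd (nat_lit 78) (nat_lit 152) (nat_lit 0) (XT.lf (nat_lit 0) (nat_lit 8253729592) (nat_lit 152) (nat_lit 1454762765) (nat_lit 228) (nat_lit 5592360492) (nat_lit 67) (nat_lit 5) (nat_lit 69) (nat_lit 5) (nat_lit 70) (nat_lit 5) (nat_lit 425) (nat_lit 407) (nat_lit 368)) (XT.lf (nat_lit 0) (nat_lit 2486125353) (nat_lit 152) (nat_lit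 11302611610) (nat_lit 228) (nat_lit 2214409212) (nat_lit 65) (nat_lit 5) (nat_lit 67) (nat_lit 5) (nat_lit 68) (nat_lit 5) (nat_lit 426) (nat_lit 407) (nat_lit 367)))) (XT.nd (nat_lit 156) (nat_lit 152) (nat_lit 0) (XT.nd (nat_lit 78) (nat_lit 152) (nat_lit 0) (XT.lf (nat_lit 0) (nat_lit 1551611513) (nat_lit 228) (nat_lit 3709599886) (nat_lit 76) (nat_lit 11482491821) (nat_lit 64) (nat_lit 5) (nat_lit 67) (nat_lit 5) (nat_lit 65) (nat_lit 5) (nat_lit 427) (nat_lit 407) (nat_lit 366)) (XT.lf (nat_lit 0) (nat_lit 5663745578) (nat_lit 228) (nat_lit 10447327566) (nat_lit 76) (nat_lit 1414676064) (nat_lit 62) (nat_lit 5) (nat_lit 65) (nat_lit 5) (nat_lit 63) (nat_lit 5) (nat_lit 428) (nat_lit 407) (nat_lit 365))) (XT.nd (nat_lit 78) (nat_lit 0) (nat_lit 0) (XT.lf (nat_lit 0) (nat_lit 393645789) (nat_lit 152) (nat_lit 9920014088) (nat_lit 228) (nat_lit 8039997140) (nat_lit 60) (nat_lit 5) (nat_lit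 62) (nat_lit 5) (nat_lit 63) (nat_lit 5) (nat_lit 429) (nat_lit 407) (nat_lit 364)) (XT.lf (nat_lit 0) (nat_lit 12632725405) (nat_lit 152) (nat_lit 2948658224) (nat_lit 228) (nat_lit 3646751203) (nat_lit 60) (nat_lit 5) (nat_lit 62) (nat_lit 5) (nat_lit 63) (nat_lit 5) (nat_lit 430) (nat_lit 407) (nat_lit 363)))))) (XT.nd (nat_lit 546) (nat_lit 532) (nat_lit 0) (XT.nd (nat_lit 234) (nat_lit 380) (nat_lit 0) (XT.nd (nat_lit 78) (nat_lit 152) (nat_lit 0) (XT.lf (nat_lit 0) (nat_lit 1260714497) (nat_lit 152) (nat_lit 14390378133) (nat_lit 76) (nat_lit 4501953342) (nat_lit 58) (nat_lit 5) (nat_lit 60) (nat_lit 5) (nat_lit 59) (nat_lit 5) (nat_lit 431) (nat_lit 407) (nat_lit 362)) (XT.nd (nat_lit 78) (nat_lit 152) (nat_lit 0) (XT.lf (nat_lit 0) (nat_lit 6588356567) (nat_lit 152) (nat_lit 1890503599) (nat_lit 76) (nat_lit 12647546434) (nat_lit 58) (nat_lit 5) (nat_lit 60) (nat_lit 5) (nat_lit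 59) (nat_lit 5) (nat_lit 432) (nat_lit 407) (nat_lit 361)) (XT.lf (nat_lit 0) (nat_lit 12160780500) (nat_lit 152) (nat_lit 439633408) (nat_lit 228) (nat_lit 9556567832) (nat_lit 56) (nat_lit 5) (nat_lit 58) (nat_lit 5) (nat_lit 59) (nat_lit 5) (nat_lit 433) (nat_lit 407) (nat_lit 360)))) (XT.nd (nat_lit 156) (nat_lit 228) (nat_lit 0) (XT.nd (nat_lit 78) (nat_lit 76) (nat_lit 0) (XT.lf (nat_lit 0) (nat_lit 4127109853) (nat_lit 76) (nat_lit 15283255044) (nat_lit 152) (nat_lit 3834285498) (nat_lit 55) (nat_lit 5) (nat_lit 56) (nat_lit 5) (nat_lit 57) (nat_lit 4) (nat_lit 434) (nat_lit 407) (nat_lit 359)) (XT.lf (nat_lit 0) (nat_lit 2486962113) (nat_lit 152) (nat_lit 4581499186) (nat_lit 76) (nat_lit 17325677282) (nat_lit 54) (nat_lit 5) (nat_lit 56) (nat_lit 5) (nat_lit 55) (nat_lit 5) (nat_lit 435) (nat_lit 407) (nat_lit 358))) (XT.nd (nat_lit 78) (nat_lit 76) (nat_lit 0) (XT.lf (nat_lit 0)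 (nat_lit 9406121376) (nat_lit 228) (nat_lit 14118902573) (nat_lit 76) (nat_lit 2078646948) (nat_lit 52) (nat_lit 5) (nat_lit 55) (nat_lit 5) (nat_lit 53) (nat_lit 4) (nat_lit 436) (nat_lit 407) (nat_lit 357)) (XT.lf (nat_lit 0) (nat_lit 2059017799) (nat_lit 76) (nat_lit 15151083189) (nat_lit 152) (nat_lit 9673363147) (nat_lit 51) (nat_lit 5) (nat_lit 52) (nat_lit 5) (nat_lit 53) (nat_lit 4) (nat_lit 437) (nat_lit 407) (nat_lit 356))))) (XT.nd (nat_lit 234) (nat_lit 304) (nat_lit 0) (XT.nd (nat_lit 78) (nat_lit 228) (nat_lit 0) (XT.lf (nat_lit 0) (nat_lit 20281416194) (nat_lit 76) (nat_lit 5713650733) (nat_lit 152) (nat_lit 2242041711) (nat_lit 51) (nat_lit 5) (nat_lit 52) (nat_lit 5) (nat_lit 53) (nat_lit 4) (nat_lit 438) (nat_lit 407) (nat_lit 355)) (XT.nd (nat_lit 78) (nat_lit 0) (nat_lit 0) (XT.lf (nat_lit 0) (nat_lit 5838987925) (nat_lit 228) (nat_lit 19183539903) (nat_lit 76) (nat_lit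 4637827459) (nat_lit 48) (nat_lit 5) (nat_lit 51) (nat_lit 5) (nat_lit 49) (nat_lit 4) (nat_lit 439) (nat_lit 407) (nat_lit 354)) (XT.lf (nat_lit 0) (nat_lit 14789410014) (nat_lit 228) (nat_lit 606616138) (nat_lit 76) (nat_lit 15769254630) (nat_lit 48) (nat_lit 5) (nat_lit 51) (nat_lit 5) (nat_lit 49) (nat_lit 4) (nat_lit 440) (nat_lit 407) (nat_lit 353)))) (XT.nd (nat_lit 156) (nat_lit 76) (nat_lit 0) (XT.nd (nat_lit 78) (nat_lit 152) (nat_lit 0) (XT.lf (nat_lit 0) (nat_lit 20431650133) (nat_lit 76) (nat_lit 4490096844) (nat_lit 152) (nat_lit 7831583766) (nat_lit 47) (nat_lit 5) (nat_lit 48) (nat_lit 5) (nat_lit 49) (nat_lit 4) (nat_lit 441) (nat_lit 407) (nat_lit 352)) (XT.lf (nat_lit 0) (nat_lit 1718538754) (nat_lit 152) (nat_lit 25536400361) (nat_lit 76) (nat_lit 7179428913) (nat_lit 45) (nat_lit 5) (nat_lit 47) (nat_lit 5) (nat_lit 46) (nat_lit 4) (nat_lit 442) (nat_lit 407) (nat_lit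 351))) (XT.nd (nat_lit 78) (nat_lit 76) (nat_lit 0) (XT.lf (nat_lit 0) (nat_lit 12046745899) (nat_lit 152) (nat_lit 4083097015) (nat_lit 76) (nat_lit 20068797987) (nat_lit 45) (nat_lit 5) (nat_lit 47) (nat_lit 5) (nat_lit 46) (nat_lit 4) (nat_lit 443) (nat_lit 407) (nat_lit 350)) (XT.lf (nat_lit 0) (nat_lit 20045428820) (nat_lit 76) (nat_lit 3614643030) (nat_lit 152) (nat_lit 14407275447) (nat_lit 44) (nat_lit 5) (nat_lit 45) (nat_lit 5) (nat_lit 46) (nat_lit 4) (nat_lit 444) (nat_lit 407) (nat_lit 349))))))) (XT.nd (nat_lit 1092) (nat_lit 912) (nat_lit 0) (XT.nd (nat_lit 546) (nat_lit 532) (nat_lit 0) (XT.nd (nat_lit 234) (nat_lit 228) (nat_lit 0) (XT.nd (nat_lit 78) (nat_lit 152) (nat_lit 0) (XT.lf (nat_lit 0) (nat_lit 6289405415) (nat_lit 76) (nat_lit 30393974286) (nat_lit 76) (nat_lit 3363697860) (nat_lit 43) (nat_lit 4) (nat_lit 44) (nat_lit 5) (nat_lit 44) (nat_lit 4) (nat_lit 445)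 (nat_lit 407) (nat_lit 348)) (XT.nd (nat_lit 78) (nat_lit 76) (nat_lit 0) (XT.lf (nat_lit 0) (nat_lit 8711499945) (nat_lit 152) (nat_lit 8931942539) (nat_lit 76) (nat_lit 24479147703) (nat_lit 42) (nat_lit 5) (nat_lit 44) (nat_lit 5) (nat_lit 43) (nat_lit 4) (nat_lit 446) (nat_lit 407) (nat_lit 347)) (XT.lf (nat_lit 0) (nat_lit 18686414032) (nat_lit 76) (nat_lit 3312751109) (nat_lit 152) (nat_lit 22323735384) (nat_lit 41) (nat_lit 5) (nat_lit 42) (nat_lit 5) (nat_lit 43) (nat_lit 4) (nat_lit 447) (nat_lit 407) (nat_lit 346)))) (XT.nd (nat_lit 156) (nat_lit 76) (nat_lit 0) (XT.nd (nat_lit 78) (nat_lit 76) (nat_lit 0) (XT.lf (nat_lit 0) (nat_lit 2108078244) (nat_lit 76) (nat_lit 34814500997) (nat_lit 76) (nat_lit 9730838053) (nat_lit 40) (nat_lit 4) (nat_lit 41) (nat_lit 5) (nat_lit 41) (nat_lit 4) (nat_lit 448) (nat_lit 407) (nat_lit 345)) (XT.lf (nat_lit 0) (nat_lit 4460114443) (nat_lit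 152) (nat_lit 15822491256) (nat_lit 76) (nat_lit 28817589910) (nat_lit 39) (nat_lit 5) (nat_lit 41) (nat_lit 5) (nat_lit 40) (nat_lit 4) (nat_lit 449) (nat_lit 407) (nat_lit 344))) (XT.nd (nat_lit 78) (nat_lit 0) (nat_lit 0) (XT.lf (nat_lit 0) (nat_lit 15692418634) (nat_lit 76) (nat_lit 3926157808) (nat_lit 152) (nat_lit 32075284081) (nat_lit 38) (nat_lit 5) (nat_lit 39) (nat_lit 5) (nat_lit 40) (nat_lit 4) (nat_lit 450) (nat_lit 407) (nat_lit 343)) (XT.lf (nat_lit 0) (nat_lit 36744647210) (nat_lit 152) (nat_lit 4211832976) (nat_lit 0) (nat_lit 13478144238) (nat_lit 38) (nat_lit 5) (nat_lit 40) (nat_lit 4) (nat_lit 38) (nat_lit 4) (nat_lit 451) (nat_lit 407) (nat_lit 342))))) (XT.nd (nat_lit 234) (nat_lit 304) (nat_lit 0) (XT.nd (nat_lit 78) (nat_lit 152) (nat_lit 0) (XT.lf (nat_lit 0) (nat_lit 31562548798) (nat_lit 76) (nat_lit 24521406996) (nat_lit 76) (nat_lit 1243241780) (nat_lit 37)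 (nat_lit 4) (nat_lit 38) (nat_lit 5) (nat_lit 38) (nat_lit 4) (nat_lit 452) (nat_lit 407) (nat_lit 341)) (XT.nd (nat_lit 78) (nat_lit 0) (nat_lit 0) (XT.lf (nat_lit 0) (nat_lit 10064273367) (nat_lit 76) (nat_lit 5970936708) (nat_lit 152) (nat_lit 44356796814) (nat_lit 35) (nat_lit 5) (nat_lit 36) (nat_lit 5) (nat_lit 37) (nat_lit 4) (nat_lit 453) (nat_lit 407) (nat_lit 340)) (XT.lf (nat_lit 0) (nat_lit 35671972138) (nat_lit 152) (nat_lit 13845130489) (nat_lit 0) (nat_lit 14098859097) (nat_lit 35) (nat_lit 5) (nat_lit 37) (nat_lit 4) (nat_lit 35) (nat_lit 4) (nat_lit 454) (nat_lit 407) (nat_lit 339)))) (XT.nd (nat_lit 156) (nat_lit 76) (nat_lit 0) (XT.nd (nat_lit 78) (nat_lit 152) (nat_lit 0) (XT.lf (nat_lit 0) (nat_lit 26704025132) (nat_lit 76) (nat_lit 30956512108) (nat_lit 76) (nat_lit 9374826969) (nat_lit 34) (nat_lit 4) (nat_lit 35) (nat_lit 5) (nat_lit 35) (nat_lit 4) (nat_lit 455)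 (nat_lit 407) (nat_lit 338)) (XT.lf (nat_lit 0) (nat_lit 302044720) (nat_lit 76) (nat_lit 10222795177) (nat_lit 152) (nat_lit 60152593383) (nat_lit 32) (nat_lit 5) (nat_lit 33) (nat_lit 5) (nat_lit 34) (nat_lit 4) (nat_lit 456) (nat_lit 407) (nat_lit 337))) (XT.nd (nat_lit 78) (nat_lit 76) (nat_lit 0) (XT.lf (nat_lit 0) (nat_lit 32917683851) (nat_lit 152) (nat_lit 28640600958) (nat_lit 0) (nat_lit 12920488056) (nat_lit 32) (nat_lit 5) (nat_lit 34) (nat_lit 4) (nat_lit 32) (nat_lit 4) (nat_lit 457) (nat_lit 407) (nat_lit 336)) (XT.lf (nat_lit 0) (nat_lit 16986718691) (nat_lit 76) (nat_lit 40774142581) (nat_lit 76) (nat_lit 20770646039) (nat_lit 31) (nat_lit 4) (nat_lit 32) (nat_lit 5) (nat_lit 32) (nat_lit 4) (nat_lit 458) (nat_lit 407) (nat_lit 335)))))) (XT.nd (nat_lit 546) (nat_lit 456) (nat_lit 0) (XT.nd (nat_lit 234) (nat_lit 304) (nat_lit 0) (XT.nd (nat_lit 78) (nat_lit 76) (nat_lit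 0) (XT.lf (nat_lit 0) (nat_lit 2387137803) (nat_lit 152) (nat_lit 15044083937) (nat_lit 76) (nat_lit 65410936956) (nat_lit 30) (nat_lit 5) (nat_lit 32) (nat_lit 5) (nat_lit 31) (nat_lit 4) (nat_lit 459) (nat_lit 407) (nat_lit 334)) (XT.nd (nat_lit 78) (nat_lit 0) (nat_lit 0) (XT.lf (nat_lit 0) (nat_lit 27361076063) (nat_lit 152) (nat_lit 51177655199) (nat_lit 0) (nat_lit 8828916393) (nat_lit 29) (nat_lit 5) (nat_lit 31) (nat_lit 4) (nat_lit 29) (nat_lit 4) (nat_lit 460) (nat_lit 407) (nat_lit 333)) (XT.lf (nat_lit 0) (nat_lit 55193739287) (nat_lit 152) (nat_lit 335623395) (nat_lit 0) (nat_lit 36656948379) (nat_lit 29) (nat_lit 5) (nat_lit 31) (nat_lit 4) (nat_lit 29) (nat_lit 4) (nat_lit 461) (nat_lit 407) (nat_lit 332)))) (XT.nd (nat_lit 156) (nat_lit 76) (nat_lit 0) (XT.nd (nat_lit 78) (nat_lit 152) (nat_lit 0) (XT.lf (nat_lit 0) (nat_lit 57419968270) (nat_lit 76) (nat_lit 29201068394)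 (nat_lit 76) (nat_lit 10659989303) (nat_lit 28) (nat_lit 4) (nat_lit 29) (nat_lit 5) (nat_lit 29) (nat_lit 4) (nat_lit 462) (nat_lit 407) (nat_lit 331)) (XT.lf (nat_lit 0) (nat_lit 17309520210) (nat_lit 152) (nat_lit 85267836137) (nat_lit 0) (nat_lit 138177960) (nat_lit 26) (nat_lit 5) (nat_lit 28) (nat_lit 4) (nat_lit 26) (nat_lit 4) (nat_lit 463) (nat_lit 407) (nat_lit 330))) (XT.nd (nat_lit 78) (nat_lit 76) (nat_lit 0) (XT.lf (nat_lit 0) (nat_lit 48804440947) (nat_lit 152) (nat_lit 27979415892) (nat_lit 0) (nat_lit 31629694598) (nat_lit 26) (nat_lit 5) (nat_lit 28) (nat_lit 4) (nat_lit 26) (nat_lit 4) (nat_lit 464) (nat_lit 407) (nat_lit 329)) (XT.lf (nat_lit 0) (nat_lit 35651208785) (nat_lit 76) (nat_lit 48013230410) (nat_lit 76) (nat_lit 30835332119) (nat_lit 25) (nat_lit 4) (nat_lit 26) (nat_lit 5) (nat_lit 26) (nat_lit 4) (nat_lit 465) (nat_lit 407) (nat_lit 328))))) (XT.nd (nat_lit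 312) (nat_lit 228) (nat_lit 0) (XT.nd (nat_lit 156) (nat_lit 76) (nat_lit 0) (XT.nd (nat_lit 78) (nat_lit 76) (nat_lit 0) (XT.lf (nat_lit 0) (nat_lit 1001286398) (nat_lit 152) (nat_lit 15098141047) (nat_lit 76) (nat_lit 104911162089) (nat_lit 24) (nat_lit 5) (nat_lit 26) (nat_lit 5) (nat_lit 25) (nat_lit 4) (nat_lit 466) (nat_lit 407) (nat_lit 327)) (XT.lf (nat_lit 0) (nat_lit 35544934334) (nat_lit 152) (nat_lit 72652916268) (nat_lit 0) (nat_lit 19634268557) (nat_lit 23) (nat_lit 5) (nat_lit 25) (nat_lit 4) (nat_lit 23) (nat_lit 4) (nat_lit 467) (nat_lit 407) (nat_lit 326))) (XT.nd (nat_lit 78) (nat_lit 76) (nat_lit 0) (XT.lf (nat_lit 0) (nat_lit 73682760778) (nat_lit 152) (nat_lit 3680377274) (nat_lit 0) (nat_lit 57769778230) (nat_lit 23) (nat_lit 5) (nat_lit 25) (nat_lit 4) (nat_lit 23) (nat_lit 4) (nat_lit 468) (nat_lit 407) (nat_lit 325)) (XT.lf (nat_lit 0) (nat_lit 74516741607) (nat_lit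 76) (nat_lit 42136804361) (nat_lit 76) (nat_lit 26221676653) (nat_lit 22) (nat_lit 4) (nat_lit 23) (nat_lit 5) (nat_lit 23) (nat_lit 4) (nat_lit 469) (nat_lit 407) (nat_lit 324)))) (XT.nd (nat_lit 156) (nat_lit 76) (nat_lit 0) (XT.nd (nat_lit 78) (nat_lit 0) (nat_lit 0) (XT.lf (nat_lit 0) (nat_lit 8044629791) (nat_lit 76) (nat_lit 3475439323) (nat_lit 152) (nat_lit 139671170764) (nat_lit 20) (nat_lit 5) (nat_lit 21) (nat_lit 5) (nat_lit 22) (nat_lit 4) (nat_lit 470) (nat_lit 407) (nat_lit 323)) (XT.lf (nat_lit 0) (nat_lit 53692525424) (nat_lit 152) (nat_lit 67246530693) (nat_lit 0) (nat_lit 38952754040) (nat_lit 20) (nat_lit 5) (nat_lit 22) (nat_lit 4) (nat_lit 20) (nat_lit 4) (nat_lit 471) (nat_lit 407) (nat_lit 322))) (XT.nd (nat_lit 78) (nat_lit 0) (nat_lit 0) (XT.lf (nat_lit 0) (nat_lit 15385604099) (nat_lit 76) (nat_lit 84304050036) (nat_lit 76) (nat_lit 69562701896) (nat_lit 19) (nat_lit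 4) (nat_lit 20) (nat_lit 5) (nat_lit 20) (nat_lit 4) (nat_lit 472) (nat_lit 407) (nat_lit 321)) (XT.lf (nat_lit 0) (nat_lit 108433838801) (nat_lit 76) (nat_lit 42762178875) (nat_lit 76) (nat_lit 28019370775) (nat_lit 19) (nat_lit 4) (nat_lit 20) (nat_lit 5) (nat_lit 20) (nat_lit 4) (nat_lit 473) (nat_lit 407) (nat_lit 320))))))))
noncomputable def xc111 : XT := (XT.nd (nat_lit 2184) (nat_lit 228) (nat_lit 0) (XT.nd (nat_lit 1092) (nat_lit 456) (nat_lit 0) (XT.nd (nat_lit 546) (nat_lit 304) (nat_lit 0) (XT.nd (nat_lit 234) (nat_lit 152) (nat_lit 0) (XT.nd (nat_lit 78) (nat_lit 76) (nat_lit 0) (XT.lf (nat_lit 0) (nat_lit 16538046611) (nat_lit 152) (nat_lit 170476284009) (nat_lit 0) (nat_lit 2886046692) (nat_lit 17) (nat_lit 5) (nat_lit 19) (nat_lit 4) (nat_lit 17) (nat_lit 4) (nat_lit 474) (nat_lit 407) (nat_lit 319)) (XT.nd (nat_lit 78) (nat_lit 76) (nat_lit 0) (XT.lf (nat_lit 0) (nat_lit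 66233844448) (nat_lit 152) (nat_lit 82320408362) (nat_lit 0) (nat_lit 52580685566) (nat_lit 17) (nat_lit 5) (nat_lit 19) (nat_lit 4) (nat_lit 17) (nat_lit 4) (nat_lit 475) (nat_lit 407) (nat_lit 318)) (XT.lf (nat_lit 0) (nat_lit 13549132306) (nat_lit 76) (nat_lit 106673970167) (nat_lit 76) (nat_lit 93019738171) (nat_lit 16) (nat_lit 4) (nat_lit 17) (nat_lit 5) (nat_lit 17) (nat_lit 4) (nat_lit 476) (nat_lit 407) (nat_lit 317)))) (XT.nd (nat_lit 156) (nat_lit 76) (nat_lit 0) (XT.nd (nat_lit 78) (nat_lit 76) (nat_lit 0) (XT.lf (nat_lit 0) (nat_lit 121753703229) (nat_lit 76) (nat_lit 59020731415) (nat_lit 76) (nat_lit 45365505796) (nat_lit 16) (nat_lit 4) (nat_lit 17) (nat_lit 5) (nat_lit 17) (nat_lit 4) (nat_lit 477) (nat_lit 407) (nat_lit 316)) (XT.lf (nat_lit 0) (nat_lit 5788405618) (nat_lit 152) (nat_lit 1616261956) (nat_lit 76) (nat_lit 232652998973) (nat_lit 15) (nat_lit 5) (nat_lit 17)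 (nat_lit 5) (nat_lit 16) (nat_lit 4) (nat_lit 478) (nat_lit 407) (nat_lit 315))) (XT.nd (nat_lit 78) (nat_lit 0) (nat_lit 0) (XT.lf (nat_lit 0) (nat_lit 62579773563) (nat_lit 152) (nat_lit 142160680978) (nat_lit 0) (nat_lit 49934405494) (nat_lit 14) (nat_lit 5) (nat_lit 16) (nat_lit 4) (nat_lit 14) (nat_lit 4) (nat_lit 479) (nat_lit 407) (nat_lit 314)) (XT.lf (nat_lit 0) (nat_lit 124145218831) (nat_lit 152) (nat_lit 34798628341) (nat_lit 0) (nat_lit 111499120420) (nat_lit 14) (nat_lit 5) (nat_lit 16) (nat_lit 4) (nat_lit 14) (nat_lit 4) (nat_lit 480) (nat_lit 407) (nat_lit 313))))) (XT.nd (nat_lit 234) (nat_lit 76) (nat_lit 0) (XT.nd (nat_lit 78) (nat_lit 152) (nat_lit 0) (XT.lf (nat_lit 0) (nat_lit 85411858362) (nat_lit 76) (nat_lit 107271809314) (nat_lit 76) (nat_lit 94625034659) (nat_lit 13) (nat_lit 4) (nat_lit 14) (nat_lit 5) (nat_lit 14) (nat_lit 4) (nat_lit 481) (nat_lit 407) (nat_lit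 312)) (XT.nd (nat_lit 78) (nat_lit 152) (nat_lit 0) (XT.lf (nat_lit 0) (nat_lit 217205369210) (nat_lit 76) (nat_lit 50445054485) (nat_lit 76) (nat_lit 37797653678) (nat_lit 13) (nat_lit 4) (nat_lit 14) (nat_lit 5) (nat_lit 14) (nat_lit 4) (nat_lit 482) (nat_lit 407) (nat_lit 311)) (XT.lf (nat_lit 0) (nat_lit 23549189465) (nat_lit 152) (nat_lit 289513745748) (nat_lit 0) (nat_lit 11838096338) (nat_lit 11) (nat_lit 5) (nat_lit 13) (nat_lit 4) (nat_lit 11) (nat_lit 4) (nat_lit 483) (nat_lit 407) (nat_lit 310)))) (XT.nd (nat_lit 156) (nat_lit 76) (nat_lit 0) (XT.nd (nat_lit 78) (nat_lit 0) (nat_lit 0) (XT.lf (nat_lit 0) (nat_lit 91541456973) (nat_lit 152) (nat_lit 174157979181) (nat_lit 0) (nat_lit 79829866787) (nat_lit 11) (nat_lit 5) (nat_lit 13) (nat_lit 4) (nat_lit 11) (nat_lit 4) (nat_lit 484) (nat_lit 407) (nat_lit 309)) (XT.lf (nat_lit 0) (nat_lit 164967634536) (nat_lit 152) (nat_lit 49585055114)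 (nat_lit 0) (nat_lit 153255584110) (nat_lit 11) (nat_lit 5) (nat_lit 13) (nat_lit 4) (nat_lit 11) (nat_lit 4) (nat_lit 485) (nat_lit 407) (nat_lit 308))) (XT.nd (nat_lit 78) (nat_lit 0) (nat_lit 0) (XT.lf (nat_lit 0) (nat_lit 89416196667) (nat_lit 76) (nat_lit 156997105258) (nat_lit 76) (nat_lit 145284628684) (nat_lit 10) (nat_lit 4) (nat_lit 11) (nat_lit 5) (nat_lit 11) (nat_lit 4) (nat_lit 486) (nat_lit 407) (nat_lit 307)) (XT.lf (nat_lit 0) (nat_lit 242347293080) (nat_lit 76) (nat_lit 93378136759) (nat_lit 76) (nat_lit 81665265604) (nat_lit 10) (nat_lit 4) (nat_lit 11) (nat_lit 5) (nat_lit 11) (nat_lit 4) (nat_lit 487) (nat_lit 407) (nat_lit 306)))))) (XT.nd (nat_lit 546) (nat_lit 228) (nat_lit 0) (XT.nd (nat_lit 234) (nat_lit 76) (nat_lit 0) (XT.nd (nat_lit 78) (nat_lit 152) (nat_lit 0) (XT.lf (nat_lit 0) (nat_lit 407503431345) (nat_lit 76) (nat_lit 24674526139) (nat_lit 76) (nat_lit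 12961289630) (nat_lit 10) (nat_lit 4) (nat_lit 11) (nat_lit 5) (nat_lit 11) (nat_lit 4) (nat_lit 488) (nat_lit 407) (nat_lit 305)) (XT.nd (nat_lit 78) (nat_lit 0) (nat_lit 0) (XT.lf (nat_lit 0) (nat_lit 62238978232) (nat_lit 152) (nat_lit 361032733347) (nat_lit 0) (nat_lit 51393075641) (nat_lit 8) (nat_lit 5) (nat_lit 10) (nat_lit 4) (nat_lit 8) (nat_lit 4) (nat_lit 489) (nat_lit 407) (nat_lit 304)) (XT.lf (nat_lit 0) (nat_lit 144447336691) (nat_lit 152) (nat_lit 228341571994) (nat_lit 0) (nat_lit 133601144070) (nat_lit 8) (nat_lit 5) (nat_lit 10) (nat_lit 4) (nat_lit 8) (nat_lit 4) (nat_lit 490) (nat_lit 407) (nat_lit 303)))) (XT.nd (nat_lit 156) (nat_lit 0) (nat_lit 0) (XT.nd (nat_lit 78) (nat_lit 76) (nat_lit 0) (XT.lf (nat_lit 0) (nat_lit 233228345983) (nat_lit 152) (nat_lit 85043430165) (nat_lit 0) (nat_lit 222381884817) (nat_lit 8) (nat_lit 5) (nat_lit 10) (nat_lit 4) (nat_lit 8) (nat_lit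 4) (nat_lit 491) (nat_lit 407) (nat_lit 302)) (XT.lf (nat_lit 0) (nat_lit 73381716993) (nat_lit 76) (nat_lit 257491230860) (nat_lit 76) (nat_lit 246644521040) (nat_lit 7) (nat_lit 4) (nat_lit 8) (nat_lit 5) (nat_lit 8) (nat_lit 4) (nat_lit 492) (nat_lit 407) (nat_lit 301))) (XT.nd (nat_lit 78) (nat_lit 0) (nat_lit 0) (XT.lf (nat_lit 0) (nat_lit 249309869310) (nat_lit 76) (nat_lit 189340861583) (nat_lit 76) (nat_lit 178493921528) (nat_lit 7) (nat_lit 4) (nat_lit 8) (nat_lit 5) (nat_lit 8) (nat_lit 4) (nat_lit 493) (nat_lit 407) (nat_lit 300)) (XT.lf (nat_lit 0) (nat_lit 439305327660) (nat_lit 76) (nat_lit 115742052367) (nat_lit 76) (nat_lit 104894899132) (nat_lit 7) (nat_lit 4) (nat_lit 8) (nat_lit 5) (nat_lit 8) (nat_lit 4) (nat_lit 494) (nat_lit 407) (nat_lit 299))))) (XT.nd (nat_lit 234) (nat_lit 76) (nat_lit 0) (XT.nd (nat_lit 78) (nat_lit 152) (nat_lit 0) (XT.lf (nat_lit 0) (nat_lit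 644493991056) (nat_lit 76) (nat_lit 36258662122) (nat_lit 76) (nat_lit 25411311498) (nat_lit 7) (nat_lit 4) (nat_lit 8) (nat_lit 5) (nat_lit 8) (nat_lit 4) (nat_lit 495) (nat_lit 407) (nat_lit 298)) (XT.nd (nat_lit 78) (nat_lit 0) (nat_lit 0) (XT.lf (nat_lit 0) (nat_lit 61454772355) (nat_lit 152) (nat_lit 642777838581) (nat_lit 0) (nat_lit 51410759955) (nat_lit 5) (nat_lit 5) (nat_lit 7) (nat_lit 4) (nat_lit 5) (nat_lit 4) (nat_lit 496) (nat_lit 407) (nat_lit 297)) (XT.lf (nat_lit 0) (nat_lit 156566067350) (nat_lit 152) (nat_lit 505726857651) (nat_lit 0) (nat_lit 146521898257) (nat_lit 5) (nat_lit 5) (nat_lit 7) (nat_lit 4) (nat_lit 5) (nat_lit 4) (nat_lit 497) (nat_lit 407) (nat_lit 296)))) (XT.nd (nat_lit 156) (nat_lit 76) (nat_lit 0) (XT.nd (nat_lit 78) (nat_lit 0) (nat_lit 0) (XT.lf (nat_lit 0) (nat_lit 259283533501) (nat_lit 152) (nat_lit 357717457593) (nat_lit 0) (nat_lit 249239219320)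 (nat_lit 5) (nat_lit 5) (nat_lit 7) (nat_lit 4) (nat_lit 5) (nat_lit 4) (nat_lit 498) (nat_lit 407) (nat_lit 295)) (XT.lf (nat_lit 0) (nat_lit 370215866902) (nat_lit 152) (nat_lit 197872545666) (nat_lit 0) (nat_lit 360171418382) (nat_lit 5) (nat_lit 5) (nat_lit 7) (nat_lit 4) (nat_lit 5) (nat_lit 4) (nat_lit 499) (nat_lit 407) (nat_lit 294))) (XT.nd (nat_lit 78) (nat_lit 76) (nat_lit 0) (XT.lf (nat_lit 0) (nat_lit 490020444345) (nat_lit 152) (nat_lit 25244892762) (nat_lit 0) (nat_lit 479975871436) (nat_lit 5) (nat_lit 5) (nat_lit 7) (nat_lit 4) (nat_lit 5) (nat_lit 4) (nat_lit 500) (nat_lit 407) (nat_lit 293)) (XT.lf (nat_lit 0) (nat_lit 169676379499) (nat_lit 76) (nat_lit 453811560389) (nat_lit 76) (nat_lit 443766872305) (nat_lit 4) (nat_lit 4) (nat_lit 5) (nat_lit 5) (nat_lit 5) (nat_lit 4) (nat_lit 501) (nat_lit 407) (nat_lit 292))))))) (XT.nd (nat_lit 1092) (nat_lit 76) (nat_lit 0) (XT.nd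 (nat_lit 546) (nat_lit 0) (nat_lit 0) (XT.nd (nat_lit 234) (nat_lit 152) (nat_lit 0) (XT.nd (nat_lit 78) (nat_lit 0) (nat_lit 0) (XT.lf (nat_lit 0) (nat_lit 381622674126) (nat_lit 76) (nat_lit 386698287315) (nat_lit 76) (nat_lit 376653492588) (nat_lit 4) (nat_lit 4) (nat_lit 5) (nat_lit 5) (nat_lit 5) (nat_lit 4) (nat_lit 502) (nat_lit 407) (nat_lit 291)) (XT.nd (nat_lit 78) (nat_lit 0) (nat_lit 0) (XT.lf (nat_lit 0) (nat_lit 610520617846) (nat_lit 76) (nat_lit 314218049706) (nat_lit 76) (nat_lit 304173156235) (nat_lit 4) (nat_lit 4) (nat_lit 5) (nat_lit 5) (nat_lit 5) (nat_lit 4) (nat_lit 503) (nat_lit 407) (nat_lit 290)) (XT.lf (nat_lit 0) (nat_lit 857726642919) (nat_lit 76) (nat_lit 235941335043) (nat_lit 76) (nat_lit 225896350143) (nat_lit 4) (nat_lit 4) (nat_lit 5) (nat_lit 5) (nat_lit 5) (nat_lit 4) (nat_lit 504) (nat_lit 407) (nat_lit 289)))) (XT.nd (nat_lit 156) (nat_lit 152) (nat_lit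 0) (XT.nd (nat_lit 78) (nat_lit 0) (nat_lit 0) (XT.lf (nat_lit 0) (nat_lit 1124705673936) (nat_lit 76) (nat_lit 151404281313) (nat_lit 76) (nat_lit 141359211756) (nat_lit 4) (nat_lit 4) (nat_lit 5) (nat_lit 5) (nat_lit 5) (nat_lit 4) (nat_lit 505) (nat_lit 407) (nat_lit 288)) (XT.lf (nat_lit 0) (nat_lit 1413039808861) (nat_lit 76) (nat_lit 60105928198) (nat_lit 76) (nat_lit 50060780255) (nat_lit 4) (nat_lit 4) (nat_lit 5) (nat_lit 5) (nat_lit 5) (nat_lit 4) (nat_lit 506) (nat_lit 407) (nat_lit 287))) (XT.nd (nat_lit 78) (nat_lit 0) (nat_lit 0) (XT.lf (nat_lit 0) (nat_lit 49298247984) (nat_lit 152) (nat_lit 1547759298530) (nat_lit 0) (nat_lit 39997117871) (nat_lit 2) (nat_lit 5) (nat_lit 4) (nat_lit 4) (nat_lit 2) (nat_lit 4) (nat_lit 507) (nat_lit 407) (nat_lit 286)) (XT.lf (nat_lit 0) (nat_lit 158551524408) (nat_lit 152) (nat_lit 1451732775677) (nat_lit 0) (nat_lit 149250332070) (nat_lit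 2) (nat_lit 5) (nat_lit 4) (nat_lit 4) (nat_lit 2) (nat_lit 4) (nat_lit 508) (nat_lit 407) (nat_lit 285))))) (XT.nd (nat_lit 234) (nat_lit 0) (nat_lit 0) (XT.nd (nat_lit 78) (nat_lit 0) (nat_lit 0) (XT.lf (nat_lit 0) (nat_lit 276543696851) (nat_lit 152) (nat_lit 1348026962890) (nat_lit 0) (nat_lit 267242446897) (nat_lit 2) (nat_lit 5) (nat_lit 4) (nat_lit 4) (nat_lit 2) (nat_lit 4) (nat_lit 509) (nat_lit 407) (nat_lit 284)) (XT.nd (nat_lit 78) (nat_lit 0) (nat_lit 0) (XT.lf (nat_lit 0) (nat_lit 403973978185) (nat_lit 152) (nat_lit 1236027307203) (nat_lit 0) (nat_lit 394672674883) (nat_lit 2) (nat_lit 5) (nat_lit 4) (nat_lit 4) (nat_lit 2) (nat_lit 4) (nat_lit 510) (nat_lit 407) (nat_lit 283)) (XT.lf (nat_lit 0) (nat_lit 541597510819) (nat_lit 152) (nat_lit 1115070106953) (nat_lit 0) (nat_lit 532296158121) (nat_lit 2) (nat_lit 5) (nat_lit 4) (nat_lit 4) (nat_lit 2) (nat_lit 4) (nat_lit 511)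 (nat_lit 407) (nat_lit 282)))) (XT.nd (nat_lit 156) (nat_lit 0) (nat_lit 0) (XT.nd (nat_lit 78) (nat_lit 0) (nat_lit 0) (XT.lf (nat_lit 0) (nat_lit 690229841613) (nat_lit 152) (nat_lit 984438578732) (nat_lit 0) (nat_lit 680928443177) (nat_lit 2) (nat_lit 5) (nat_lit 4) (nat_lit 4) (nat_lit 2) (nat_lit 4) (nat_lit 512) (nat_lit 407) (nat_lit 281)) (XT.lf (nat_lit 0) (nat_lit 850751754750) (nat_lit 152) (nat_lit 843358609780) (nat_lit 0) (nat_lit 841450313964) (nat_lit 2) (nat_lit 5) (nat_lit 4) (nat_lit 4) (nat_lit 2) (nat_lit 4) (nat_lit 513) (nat_lit 407) (nat_lit 280))) (XT.nd (nat_lit 78) (nat_lit 0) (nat_lit 0) (XT.lf (nat_lit 0) (nat_lit 1024114491195) (nat_lit 152) (nat_lit 690994170651) (nat_lit 0) (nat_lit 1014813011197) (nat_lit 2) (nat_lit 5) (nat_lit 4) (nat_lit 4) (nat_lit 2) (nat_lit 4) (nat_lit 514) (nat_lit 407) (nat_lit 279)) (XT.lf (nat_lit 0) (nat_lit 1211345385684) (nat_lit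 152) (nat_lit 526442360965) (nat_lit 0) (nat_lit 1202043869378) (nat_lit 2) (nat_lit 5) (nat_lit 4) (nat_lit 4) (nat_lit 2) (nat_lit 4) (nat_lit 515) (nat_lit 407) (nat_lit 278)))))) (XT.nd (nat_lit 546) (nat_lit 0) (nat_lit 0) (XT.nd (nat_lit 234) (nat_lit 0) (nat_lit 0) (XT.nd (nat_lit 78) (nat_lit 76) (nat_lit 0) (XT.lf (nat_lit 0) (nat_lit 1413553954628) (nat_lit 152) (nat_lit 348728058886) (nat_lit 0) (nat_lit 1404252404704) (nat_lit 2) (nat_lit 5) (nat_lit 4) (nat_lit 4) (nat_lit 2) (nat_lit 4) (nat_lit 516) (nat_lit 407) (nat_lit 277)) (XT.nd (nat_lit 78) (nat_lit 76) (nat_lit 0) (XT.lf (nat_lit 0) (nat_lit 1631938471028) (nat_lit 152) (nat_lit 156798142626) (nat_lit 0) (nat_lit 1622636889976) (nat_lit 2) (nat_lit 5) (nat_lit 4) (nat_lit 4) (nat_lit 2) (nat_lit 4) (nat_lit 517) (nat_lit 407) (nat_lit 276)) (XT.lf (nat_lit 0) (nat_lit 53143187766) (nat_lit 76) (nat_lit 1815927972530)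 (nat_lit 76) (nat_lit 1806626362655) (nat_lit 1) (nat_lit 4) (nat_lit 2) (nat_lit 5) (nat_lit 2) (nat_lit 4) (nat_lit 518) (nat_lit 407) (nat_lit 275)))) (XT.nd (nat_lit 156) (nat_lit 0) (nat_lit 0) (XT.nd (nat_lit 78) (nat_lit 0) (nat_lit 0) (XT.lf (nat_lit 0) (nat_lit 288795693110) (nat_lit 76) (nat_lit 1840665244711) (nat_lit 76) (nat_lit 1831363608149) (nat_lit 1) (nat_lit 4) (nat_lit 2) (nat_lit 5) (nat_lit 2) (nat_lit 4) (nat_lit 519) (nat_lit 407) (nat_lit 274)) (XT.lf (nat_lit 0) (nat_lit 543299120374) (nat_lit 76) (nat_lit 1867382160531) (nat_lit 76) (nat_lit 1858080499258) (nat_lit 1) (nat_lit 4) (nat_lit 2) (nat_lit 5) (nat_lit 2) (nat_lit 4) (nat_lit 520) (nat_lit 407) (nat_lit 273))) (XT.nd (nat_lit 78) (nat_lit 0) (nat_lit 0) (XT.lf (nat_lit 0) (nat_lit 818161638016) (nat_lit 76) (nat_lit 1896237042452) (nat_lit 76) (nat_lit 1886935358300) (nat_lit 1) (nat_lit 4) (nat_lit 2)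 (nat_lit 5) (nat_lit 2) (nat_lit 4) (nat_lit 521) (nat_lit 407) (nat_lit 272)) (XT.lf (nat_lit 0) (nat_lit 1115012060957) (nat_lit 76) (nat_lit 1927400882369) (nat_lit 76) (nat_lit 1918099177031) (nat_lit 1) (nat_lit 4) (nat_lit 2) (nat_lit 5) (nat_lit 2) (nat_lit 4) (nat_lit 522) (nat_lit 407) (nat_lit 271))))) (XT.nd (nat_lit 312) (nat_lit 0) (nat_lit 0) (XT.nd (nat_lit 156) (nat_lit 0) (nat_lit 0) (XT.nd (nat_lit 78) (nat_lit 0) (nat_lit 0) (XT.lf (nat_lit 0) (nat_lit 1435609502813) (nat_lit 76) (nat_lit 1961058354888) (nat_lit 76) (nat_lit 1951756629934) (nat_lit 1) (nat_lit 4) (nat_lit 2) (nat_lit 5) (nat_lit 2) (nat_lit 4) (nat_lit 523) (nat_lit 407) (nat_lit 270)) (XT.lf (nat_lit 0) (nat_lit 1781853800276) (nat_lit 76) (nat_lit 1997408911697) (nat_lit 76) (nat_lit 1988107168580) (nat_lit 1) (nat_lit 4) (nat_lit 2) (nat_lit 5) (nat_lit 2) (nat_lit 4) (nat_lit 524) (nat_lit 407) (nat_lit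 269))) (XT.nd (nat_lit 78) (nat_lit 0) (nat_lit 0) (XT.lf (nat_lit 0) (nat_lit 2155796771407) (nat_lit 76) (nat_lit 2036667963504) (nat_lit 76) (nat_lit 2027366203570) (nat_lit 1) (nat_lit 4) (nat_lit 2) (nat_lit 5) (nat_lit 2) (nat_lit 4) (nat_lit 525) (nat_lit 407) (nat_lit 268)) (XT.lf (nat_lit 0) (nat_lit 2559654374552) (nat_lit 76) (nat_lit 2079068156543) (nat_lit 76) (nat_lit 2069766381037) (nat_lit 1) (nat_lit 4) (nat_lit 2) (nat_lit 5) (nat_lit 2) (nat_lit 4) (nat_lit 526) (nat_lit 407) (nat_lit 267)))) (XT.nd (nat_lit 156) (nat_lit 0) (nat_lit 0) (XT.nd (nat_lit 78) (nat_lit 0) (nat_lit 0) (XT.lf (nat_lit 0) (nat_lit 2995819839952) (nat_lit 76) (nat_lit 2124860751215) (nat_lit 76) (nat_lit 2115558961290) (nat_lit 1) (nat_lit 4) (nat_lit 2) (nat_lit 5) (nat_lit 2) (nat_lit 4) (nat_lit 527) (nat_lit 407) (nat_lit 266)) (XT.lf (nat_lit 0) (nat_lit 3466877851847) (nat_lit 76) (nat_lit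 2174317111045) (nat_lit 76) (nat_lit 2165015307771) (nat_lit 1) (nat_lit 4) (nat_lit 2) (nat_lit 5) (nat_lit 2) (nat_lit 4) (nat_lit 528) (nat_lit 407) (nat_lit 265))) (XT.nd (nat_lit 78) (nat_lit 0) (nat_lit 0) (XT.lf (nat_lit 0) (nat_lit 3975619865122) (nat_lit 76) (nat_lit 2227730310759) (nat_lit 76) (nat_lit 2218428495122) (nat_lit 1) (nat_lit 4) (nat_lit 2) (nat_lit 5) (nat_lit 2) (nat_lit 4) (nat_lit 529) (nat_lit 407) (nat_lit 264)) (XT.lf (nat_lit 0) (nat_lit 4525060647263) (nat_lit 76) (nat_lit 2285416873020) (nat_lit 76) (nat_lit 2276115045938) (nat_lit 1) (nat_lit 4) (nat_lit 2) (nat_lit 5) (nat_lit 2) (nat_lit 4) (nat_lit 530) (nat_lit 407) (nat_lit 263))))))))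
noncomputable def xc112 : XT := (XT.nd (nat_lit 54054) (nat_lit 0) (nat_lit 2888) (XT.nd (nat_lit 52962) (nat_lit 0) (nat_lit 5472) (XT.nd (nat_lit 546) (nat_lit 0) (nat_lit 0) (XT.nd (nat_lit 234) (nat_lit 0) (nat_lit 0) (XT.nd (nat_lit 78) (nat_lit 0) (nat_lit 0) (XT.lf (nat_lit 0) (nat_lit 5118456143645) (nat_lit 76) (nat_lit 2347718644124) (nat_lit 76) (nat_lit 2338416806444) (nat_lit 1) (nat_lit 4) (nat_lit 2) (nat_lit 5) (nat_lit 2) (nat_lit 4) (nat_lit 531) (nat_lit 407) (nat_lit 262)) (XT.nd (nat_lit 78) (nat_lit 0) (nat_lit 0) (XT.lf (nat_lit 0) (nat_lit 5759322772026) (nat_lit 76) (nat_lit 2415004819751) (nat_lit 76) (nat_lit 2405702972259) (nat_lit 1) (nat_lit 4) (nat_lit 2) (nat_lit 5) (nat_lit 2) (nat_lit 4) (nat_lit 532) (nat_lit 407) (nat_lit 261)) (XT.lf (nat_lit 0) (nat_lit 6451458260572) (nat_lit 76) (nat_lit 2487674132795) (nat_lit 76) (nat_lit 2478372276216) (nat_lit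 1) (nat_lit 4) (nat_lit 2) (nat_lit 5) (nat_lit 2) (nat_lit 4) (nat_lit 533) (nat_lit 407) (nat_lit 260)))) (XT.nd (nat_lit 156) (nat_lit 0) (nat_lit 0) (XT.nd (nat_lit 78) (nat_lit 0) (nat_lit 0) (XT.lf (nat_lit 0) (nat_lit 7198964152921) (nat_lit 76) (nat_lit 2566157216221) (nat_lit 76) (nat_lit 2556855351229) (nat_lit 1) (nat_lit 4) (nat_lit 2) (nat_lit 5) (nat_lit 2) (nat_lit 4) (nat_lit 534) (nat_lit 407) (nat_lit 259)) (XT.lf (nat_lit 0) (nat_lit 8006270113619) (nat_lit 76) (nat_lit 2650919154968) (nat_lit 76) (nat_lit 2641617282186) (nat_lit 1) (nat_lit 4) (nat_lit 2) (nat_lit 5) (nat_lit 2) (nat_lit 4) (nat_lit 535) (nat_lit 407) (nat_lit 258))) (XT.nd (nat_lit 78) (nat_lit 0) (nat_lit 0) (XT.lf (nat_lit 0) (nat_lit 8878160177988) (nat_lit 76) (nat_lit 2742462242006) (nat_lit 76) (nat_lit 2733160362012) (nat_lit 1) (nat_lit 4) (nat_lit 2) (nat_lit 5) (nat_lit 2) (nat_lit 4) (nat_lit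 536) (nat_lit 407) (nat_lit 257)) (XT.lf (nat_lit 0) (nat_lit 9819801101967) (nat_lit 76) (nat_lit 2841328954888) (nat_lit 76) (nat_lit 2832027068216) (nat_lit 1) (nat_lit 4) (nat_lit 2) (nat_lit 5) (nat_lit 2) (nat_lit 4) (nat_lit 537) (nat_lit 407) (nat_lit 256))))) (XT.nd (nat_lit 234) (nat_lit 0) (nat_lit 0) (XT.nd (nat_lit 78) (nat_lit 0) (nat_lit 0) (XT.lf (nat_lit 0) (nat_lit 10836772979919) (nat_lit 76) (nat_lit 2948105170432) (nat_lit 76) (nat_lit 2938803277575) (nat_lit 1) (nat_lit 4) (nat_lit 2) (nat_lit 5) (nat_lit 2) (nat_lit 4) (nat_lit 538) (nat_lit 407) (nat_lit 255)) (XT.nd (nat_lit 78) (nat_lit 0) (nat_lit 0) (XT.lf (nat_lit 0) (nat_lit 11935102311861) (nat_lit 76) (nat_lit 3063423636581) (nat_lit 76) (nat_lit 3054121737999) (nat_lit 1) (nat_lit 4) (nat_lit 2) (nat_lit 5) (nat_lit 2) (nat_lit 4) (nat_lit 539) (nat_lit 407) (nat_lit 254)) (XT.lf (nat_lit 0) (nat_lit 13121297716058)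 (nat_lit 76) (nat_lit 3187967722023) (nat_lit 76) (nat_lit 3178665818140) (nat_lit 1) (nat_lit 4) (nat_lit 2) (nat_lit 5) (nat_lit 2) (nat_lit 4) (nat_lit 540) (nat_lit 407) (nat_lit 253)))) (XT.nd (nat_lit 156) (nat_lit 0) (nat_lit 0) (XT.nd (nat_lit 78) (nat_lit 0) (nat_lit 0) (XT.lf (nat_lit 0) (nat_lit 14402388498607) (nat_lit 76) (nat_lit 3322475465784) (nat_lit 76) (nat_lit 3313173556992) (nat_lit 1) (nat_lit 4) (nat_lit 2) (nat_lit 5) (nat_lit 2) (nat_lit 4) (nat_lit 541) (nat_lit 407) (nat_lit 252)) (XT.lf (nat_lit 0) (nat_lit 15785966308592) (nat_lit 76) (nat_lit 3467743950790) (nat_lit 76) (nat_lit 3458442037452) (nat_lit 1) (nat_lit 4) (nat_lit 2) (nat_lit 5) (nat_lit 2) (nat_lit 4) (nat_lit 542) (nat_lit 407) (nat_lit 251))) (XT.nd (nat_lit 51948) (nat_lit 0) (nat_lit 7524) (XT.lf (nat_lit 0) (nat_lit 17280230125626) (nat_lit 76) (nat_lit 3624634027321) (nat_lit 76) (nat_lit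 3615332109774) (nat_lit 1) (nat_lit 4) (nat_lit 2) (nat_lit 5) (nat_lit 2) (nat_lit 4) (nat_lit 543) (nat_lit 407) (nat_lit 250)) (XT.lf (nat_lit 0) (nat_lit 1496443093) (nat_lit 0) (nat_lit 1496443093) (nat_lit 380) (nat_lit 1146433276) (nat_lit 100) (nat_lit 5) (nat_lit 100) (nat_lit 3) (nat_lit 105) (nat_lit 3) (nat_lit 408) (nat_lit 408) (nat_lit 384)))))) (XT.nd (nat_lit 546) (nat_lit 1292) (nat_lit 0) (XT.nd (nat_lit 234) (nat_lit 304) (nat_lit 0) (XT.nd (nat_lit 78) (nat_lit 456) (nat_lit 0) (XT.lf (nat_lit 0) (nat_lit 7294086941) (nat_lit 380) (nat_lit 1136704278) (nat_lit 456) (nat_lit 93324895) (nat_lit 100) (nat_lit 5) (nat_lit 105) (nat_lit 3) (nat_lit 106) (nat_lit 5) (nat_lit 409) (nat_lit 408) (nat_lit 383)) (XT.nd (nat_lit 78) (nat_lit 456) (nat_lit 0) (XT.lf (nat_lit 76) (nat_lit 3372026310) (nat_lit 0) (nat_lit 5388454688) (nat_lit 456) (nat_lit 24493109) (nat_lit 101)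 (nat_lit 5) (nat_lit 100) (nat_lit 5) (nat_lit 106) (nat_lit 5) (nat_lit 410) (nat_lit 408) (nat_lit 382)) (XT.lf (nat_lit 0) (nat_lit 1143787332) (nat_lit 456) (nat_lit 856599494) (nat_lit 532) (nat_lit 7069453032) (nat_lit 94) (nat_lit 5) (nat_lit 100) (nat_lit 5) (nat_lit 101) (nat_lit 5) (nat_lit 411) (nat_lit 408) (nat_lit 381)))) (XT.nd (nat_lit 156) (nat_lit 380) (nat_lit 0) (XT.nd (nat_lit 78) (nat_lit 0) (nat_lit 0) (XT.lf (nat_lit 0) (nat_lit 2454679083) (nat_lit 456) (nat_lit 5207853789) (nat_lit 532) (nat_lit 1710885853) (nat_lit 95) (nat_lit 5) (nat_lit 101) (nat_lit 5) (nat_lit 102) (nat_lit 5) (nat_lit 412) (nat_lit 408) (nat_lit 380)) (XT.lf (nat_lit 0) (nat_lit 3858480132) (nat_lit 456) (nat_lit 181964515) (nat_lit 532) (nat_lit 5661807815) (nat_lit 95) (nat_lit 5) (nat_lit 101) (nat_lit 5) (nat_lit 102) (nat_lit 5) (nat_lit 413) (nat_lit 408) (nat_lit 379))) (XT.nd (nat_lit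 78) (nat_lit 456) (nat_lit 0) (XT.lf (nat_lit 0) (nat_lit 5425116970) (nat_lit 456) (nat_lit 4598415138) (nat_lit 76) (nat_lit 29828987) (nat_lit 96) (nat_lit 5) (nat_lit 102) (nat_lit 5) (nat_lit 97) (nat_lit 5) (nat_lit 414) (nat_lit 408) (nat_lit 378)) (XT.lf (nat_lit 0) (nat_lit 997748913) (nat_lit 456) (nat_lit 6176868587) (nat_lit 532) (nat_lit 3253348241) (nat_lit 90) (nat_lit 5) (nat_lit 96) (nat_lit 5) (nat_lit 97) (nat_lit 5) (nat_lit 415) (nat_lit 408) (nat_lit 377))))) (XT.nd (nat_lit 234) (nat_lit 684) (nat_lit 0) (XT.nd (nat_lit 78) (nat_lit 608) (nat_lit 0) (XT.lf (nat_lit 0) (nat_lit 7236761644) (nat_lit 456) (nat_lit 1880602786) (nat_lit 532) (nat_lit 1710920626) (nat_lit 90) (nat_lit 5) (nat_lit 96) (nat_lit 5) (nat_lit 97) (nat_lit 5) (nat_lit 416) (nat_lit 408) (nat_lit 376)) (XT.nd (nat_lit 78) (nat_lit 0) (nat_lit 0) (XT.lf (nat_lit 0) (nat_lit 23593576) (nat_lit 608)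 (nat_lit 8539198797) (nat_lit 76) (nat_lit 2692617295) (nat_lit 82) (nat_lit 5) (nat_lit 90) (nat_lit 5) (nat_lit 83) (nat_lit 5) (nat_lit 417) (nat_lit 408) (nat_lit 375)) (XT.lf (nat_lit 0) (nat_lit 1888820793) (nat_lit 608) (nat_lit 2140569244) (nat_lit 76) (nat_lit 7677015477) (nat_lit 82) (nat_lit 5) (nat_lit 90) (nat_lit 5) (nat_lit 83) (nat_lit 5) (nat_lit 418) (nat_lit 408) (nat_lit 374)))) (XT.nd (nat_lit 156) (nat_lit 456) (nat_lit 0) (XT.nd (nat_lit 78) (nat_lit 0) (nat_lit 0) (XT.lf (nat_lit 0) (nat_lit 3985895144) (nat_lit 304) (nat_lit 7258481015) (nat_lit 76) (nat_lit 942501319) (nat_lit 79) (nat_lit 5) (nat_lit 83) (nat_lit 5) (nat_lit 80) (nat_lit 5) (nat_lit 419) (nat_lit 408) (nat_lit 373)) (XT.lf (nat_lit 0) (nat_lit 6357933127) (nat_lit 304) (nat_lit 189158193) (nat_lit 76) (nat_lit 6150126328) (nat_lit 79) (nat_lit 5) (nat_lit 83) (nat_lit 5) (nat_lit 80) (nat_lit 5)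 (nat_lit 420) (nat_lit 408) (nat_lit 372))) (XT.nd (nat_lit 78) (nat_lit 228) (nat_lit 0) (XT.lf (nat_lit 0) (nat_lit 7772982650) (nat_lit 228) (nat_lit 1280442905) (nat_lit 304) (nat_lit 4184269964) (nat_lit 76) (nat_lit 5) (nat_lit 79) (nat_lit 5) (nat_lit 80) (nat_lit 5) (nat_lit 421) (nat_lit 408) (nat_lit 371)) (XT.lf (nat_lit 0) (nat_lit 2517822609) (nat_lit 228) (nat_lit 9567625685) (nat_lit 304) (nat_lit 1726297425) (nat_lit 73) (nat_lit 5) (nat_lit 76) (nat_lit 5) (nat_lit 77) (nat_lit 5) (nat_lit 422) (nat_lit 408) (nat_lit 370))))))) (XT.nd (nat_lit 1092) (nat_lit 1140) (nat_lit 0) (XT.nd (nat_lit 546) (nat_lit 608) (nat_lit 0) (XT.nd (nat_lit 234) (nat_lit 532) (nat_lit 0) (XT.nd (nat_lit 78) (nat_lit 228) (nat_lit 0) (XT.lf (nat_lit 0) (nat_lit 1018468109) (nat_lit 304) (nat_lit 3094354766) (nat_lit 76) (nat_lit 10306188134) (nat_lit 72) (nat_lit 5) (nat_lit 76) (nat_lit 5)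 (nat_lit 73) (nat_lit 5) (nat_lit 423) (nat_lit 408) (nat_lit 369)) (XT.nd (nat_lit 78) (nat_lit 0) (nat_lit 0) (XT.lf (nat_lit 0) (nat_lit 4033808593) (nat_lit 304) (nat_lit 9156713756) (nat_lit 76) (nat_lit 1869211637) (nat_lit 69) (nat_lit 5) (nat_lit 73) (nat_lit 5) (nat_lit 70) (nat_lit 5) (nat_lit 424) (nat_lit 408) (nat_lit 368)) (XT.lf (nat_lit 0) (nat_lit 7439420277) (nat_lit 304) (nat_lit 119547303) (nat_lit 76) (nat_lit 8180827652) (nat_lit 69) (nat_lit 5) (nat_lit 73) (nat_lit 5) (nat_lit 70) (nat_lit 5) (nat_lit 425) (nat_lit 408) (nat_lit 367)))) (XT.nd (nat_lit 156) (nat_lit 228) (nat_lit 0) (XT.nd (nat_lit 78) (nat_lit 152) (nat_lit 0) (XT.lf (nat_lit 0) (nat_lit 10088071301) (nat_lit 152) (nat_lit 1230745278) (nat_lit 228) (nat_lit 5139341599) (nat_lit 67) (nat_lit 5) (nat_lit 69) (nat_lit 5) (nat_lit 70) (nat_lit 5) (nat_lit 426) (nat_lit 408) (nat_lit 366)) (XT.lf (nat_lit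 0) (nat_lit 3886429469) (nat_lit 152) (nat_lit 11813774031) (nat_lit 228) (nat_lit 1518458932) (nat_lit 65) (nat_lit 5) (nat_lit 67) (nat_lit 5) (nat_lit 68) (nat_lit 5) (nat_lit 427) (nat_lit 408) (nat_lit 365))) (XT.nd (nat_lit 78) (nat_lit 152) (nat_lit 0) (XT.lf (nat_lit 0) (nat_lit 2443728274) (nat_lit 228) (nat_lit 2853449935) (nat_lit 76) (nat_lit 12724525630) (nat_lit 64) (nat_lit 5) (nat_lit 67) (nat_lit 5) (nat_lit 65) (nat_lit 5) (nat_lit 428) (nat_lit 408) (nat_lit 364)) (XT.lf (nat_lit 0) (nat_lit 6864244612) (nat_lit 228) (nat_lit 10109554961) (nat_lit 76) (nat_lit 1894165204) (nat_lit 62) (nat_lit 5) (nat_lit 65) (nat_lit 5) (nat_lit 63) (nat_lit 5) (nat_lit 429) (nat_lit 408) (nat_lit 363))))) (XT.nd (nat_lit 234) (nat_lit 304) (nat_lit 0) (XT.nd (nat_lit 78) (nat_lit 152) (nat_lit 0) (XT.lf (nat_lit 0) (nat_lit 1568985913) (nat_lit 152) (nat_lit 10289312807) (nat_lit 228)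 (nat_lit 7906038639) (nat_lit 60) (nat_lit 5) (nat_lit 62) (nat_lit 5) (nat_lit 63) (nat_lit 5) (nat_lit 430) (nat_lit 408) (nat_lit 362)) (XT.nd (nat_lit 78) (nat_lit 152) (nat_lit 0) (XT.lf (nat_lit 0) (nat_lit 14702462383) (nat_lit 152) (nat_lit 2791678283) (nat_lit 228) (nat_lit 3218900306) (nat_lit 60) (nat_lit 5) (nat_lit 62) (nat_lit 5) (nat_lit 63) (nat_lit 5) (nat_lit 431) (nat_lit 408) (nat_lit 361)) (XT.lf (nat_lit 0) (nat_lit 2030032667) (nat_lit 152) (nat_lit 14431279316) (nat_lit 76) (nat_lit 5250462258) (nat_lit 58) (nat_lit 5) (nat_lit 60) (nat_lit 5) (nat_lit 59) (nat_lit 5) (nat_lit 432) (nat_lit 408) (nat_lit 360)))) (XT.nd (nat_lit 156) (nat_lit 152) (nat_lit 0) (XT.nd (nat_lit 78) (nat_lit 152) (nat_lit 0) (XT.lf (nat_lit 0) (nat_lit 7734370472) (nat_lit 152) (nat_lit 1013661417) (nat_lit 76) (nat_lit 14018935934) (nat_lit 58) (nat_lit 5) (nat_lit 60) (nat_lit 5) (nat_lit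 59) (nat_lit 5) (nat_lit 433) (nat_lit 408) (nat_lit 359)) (XT.lf (nat_lit 0) (nat_lit 14135698005) (nat_lit 152) (nat_lit 69946038) (nat_lit 228) (nat_lit 9676087443) (nat_lit 56) (nat_lit 5) (nat_lit 58) (nat_lit 5) (nat_lit 59) (nat_lit 5) (nat_lit 434) (nat_lit 408) (nat_lit 358))) (XT.nd (nat_lit 78) (nat_lit 76) (nat_lit 0) (XT.lf (nat_lit 0) (nat_lit 5471073326) (nat_lit 76) (nat_lit 16078478353) (nat_lit 152) (nat_lit 3507731556) (nat_lit 55) (nat_lit 5) (nat_lit 56) (nat_lit 5) (nat_lit 57) (nat_lit 4) (nat_lit 435) (nat_lit 408) (nat_lit 357)) (XT.lf (nat_lit 0) (nat_lit 3242971593) (nat_lit 152) (nat_lit 3979960720) (nat_lit 76) (nat_lit 19078146931) (nat_lit 54) (nat_lit 5) (nat_lit 56) (nat_lit 5) (nat_lit 55) (nat_lit 5) (nat_lit 436) (nat_lit 408) (nat_lit 356)))))) (XT.nd (nat_lit 546) (nat_lit 456) (nat_lit 0) (XT.nd (nat_lit 234) (nat_lit 456) (nat_lit 0) (XT.nd (nat_lit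 78) (nat_lit 76) (nat_lit 0) (XT.lf (nat_lit 0) (nat_lit 10706834777) (nat_lit 228) (nat_lit 14271503279) (nat_lit 76) (nat_lit 2629744338) (nat_lit 52) (nat_lit 5) (nat_lit 55) (nat_lit 5) (nat_lit 53) (nat_lit 4) (nat_lit 437) (nat_lit 408) (nat_lit 355)) (XT.nd (nat_lit 78) (nat_lit 0) (nat_lit 0) (XT.lf (nat_lit 0) (nat_lit 3175918786) (nat_lit 76) (nat_lit 15941504751) (nat_lit 152) (nat_lit 9874254090) (nat_lit 51) (nat_lit 5) (nat_lit 52) (nat_lit 5) (nat_lit 53) (nat_lit 4) (nat_lit 438) (nat_lit 408) (nat_lit 354)) (XT.lf (nat_lit 0) (nat_lit 22785577234) (nat_lit 76) (nat_lit 5780312151) (nat_lit 152) (nat_lit 1890869762) (nat_lit 51) (nat_lit 5) (nat_lit 52) (nat_lit 5) (nat_lit 53) (nat_lit 4) (nat_lit 439) (nat_lit 408) (nat_lit 353)))) (XT.nd (nat_lit 156) (nat_lit 152) (nat_lit 0) (XT.nd (nat_lit 78) (nat_lit 76) (nat_lit 0) (XT.lf (nat_lit 0) (nat_lit 6803613276) (nat_lit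 228) (nat_lit 19803509262) (nat_lit 76) (nat_lit 5386242821) (nat_lit 48) (nat_lit 5) (nat_lit 51) (nat_lit 5) (nat_lit 49) (nat_lit 4) (nat_lit 440) (nat_lit 408) (nat_lit 352)) (XT.lf (nat_lit 0) (nat_lit 201912294) (nat_lit 76) (nat_lit 16236160513) (nat_lit 152) (nat_lit 17183173114) (nat_lit 47) (nat_lit 5) (nat_lit 48) (nat_lit 5) (nat_lit 49) (nat_lit 4) (nat_lit 441) (nat_lit 408) (nat_lit 351))) (XT.nd (nat_lit 78) (nat_lit 152) (nat_lit 0) (XT.lf (nat_lit 0) (nat_lit 22891697441) (nat_lit 76) (nat_lit 4470174435) (nat_lit 152) (nat_lit 7975999215) (nat_lit 47) (nat_lit 5) (nat_lit 48) (nat_lit 5) (nat_lit 49) (nat_lit 4) (nat_lit 442) (nat_lit 408) (nat_lit 350)) (XT.lf (nat_lit 0) (nat_lit 2309246013) (nat_lit 152) (nat_lit 26724882714) (nat_lit 76) (nat_lit 8118717693) (nat_lit 45) (nat_lit 5) (nat_lit 47) (nat_lit 5) (nat_lit 46) (nat_lit 4) (nat_lit 443) (nat_lit 408) (nat_lit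 349))))) (XT.nd (nat_lit 234) (nat_lit 304) (nat_lit 0) (XT.nd (nat_lit 78) (nat_lit 152) (nat_lit 0) (XT.lf (nat_lit 0) (nat_lit 13430137569) (nat_lit 152) (nat_lit 3618606188) (nat_lit 76) (nat_lit 22012204110) (nat_lit 45) (nat_lit 5) (nat_lit 47) (nat_lit 5) (nat_lit 46) (nat_lit 4) (nat_lit 444) (nat_lit 408) (nat_lit 348)) (XT.nd (nat_lit 78) (nat_lit 76) (nat_lit 0) (XT.lf (nat_lit 0) (nat_lit 22420172889) (nat_lit 76) (nat_lit 3539816583) (nat_lit 152) (nat_lit 15120165413) (nat_lit 44) (nat_lit 5) (nat_lit 45) (nat_lit 5) (nat_lit 46) (nat_lit 4) (nat_lit 445) (nat_lit 408) (nat_lit 347)) (XT.lf (nat_lit 0) (nat_lit 7567368692) (nat_lit 76) (nat_lit 32454376745) (nat_lit 76) (nat_lit 3196792287) (nat_lit 43) (nat_lit 4) (nat_lit 44) (nat_lit 5) (nat_lit 44) (nat_lit 4) (nat_lit 446) (nat_lit 408) (nat_lit 346)))) (XT.nd (nat_lit 156) (nat_lit 152) (nat_lit 0) (XT.nd (nat_lit 78)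 (nat_lit 76) (nat_lit 0) (XT.lf (nat_lit 0) (nat_lit 9791929983) (nat_lit 152) (nat_lit 8908876607) (nat_lit 76) (nat_lit 26760901081) (nat_lit 42) (nat_lit 5) (nat_lit 44) (nat_lit 5) (nat_lit 43) (nat_lit 4) (nat_lit 447) (nat_lit 408) (nat_lit 345)) (XT.lf (nat_lit 0) (nat_lit 20900274532) (nat_lit 76) (nat_lit 3231216414) (nat_lit 152) (nat_lit 23707441948) (nat_lit 41) (nat_lit 5) (nat_lit 42) (nat_lit 5) (nat_lit 43) (nat_lit 4) (nat_lit 448) (nat_lit 408) (nat_lit 344))) (XT.nd (nat_lit 78) (nat_lit 76) (nat_lit 0) (XT.lf (nat_lit 0) (nat_lit 2998392286) (nat_lit 76) (nat_lit 37247874648) (nat_lit 76) (nat_lit 10109825582) (nat_lit 40) (nat_lit 4) (nat_lit 41) (nat_lit 5) (nat_lit 41) (nat_lit 4) (nat_lit 449) (nat_lit 408) (nat_lit 343)) (XT.lf (nat_lit 0) (nat_lit 5168308721) (nat_lit 152) (nat_lit 16401569767) (nat_lit 76) (nat_lit 31430215398) (nat_lit 39) (nat_lit 5) (nat_lit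 41) (nat_lit 5) (nat_lit 40) (nat_lit 4) (nat_lit 450) (nat_lit 408) (nat_lit 342))))))))
noncomputable def xc113 : XT := (XT.nd (nat_lit 2184) (nat_lit 912) (nat_lit 0) (XT.nd (nat_lit 1092) (nat_lit 760) (nat_lit 0) (XT.nd (nat_lit 546) (nat_lit 456) (nat_lit 0) (XT.nd (nat_lit 234) (nat_lit 380) (nat_lit 0) (XT.nd (nat_lit 78) (nat_lit 76) (nat_lit 0) (XT.lf (nat_lit 0) (nat_lit 17617147577) (nat_lit 76) (nat_lit 3912369109) (nat_lit 152) (nat_lit 34272530273) (nat_lit 38) (nat_lit 5) (nat_lit 39) (nat_lit 5) (nat_lit 40) (nat_lit 4) (nat_lit 451) (nat_lit 408) (nat_lit 341)) (XT.nd (nat_lit 78) (nat_lit 76) (nat_lit 0) (XT.lf (nat_lit 0) (nat_lit 40007681655) (nat_lit 152) (nat_lit 3911027479) (nat_lit 0) (nat_lit 14844802604) (nat_lit 38) (nat_lit 5) (nat_lit 40) (nat_lit 4) (nat_lit 38) (nat_lit 4) (nat_lit 452) (nat_lit 408) (nat_lit 340)) (XT.lf (nat_lit 0) (nat_lit 34709159213)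 (nat_lit 76) (nat_lit 26175965168) (nat_lit 76) (nat_lit 1003087621) (nat_lit 37) (nat_lit 4) (nat_lit 38) (nat_lit 5) (nat_lit 38) (nat_lit 4) (nat_lit 453) (nat_lit 408) (nat_lit 339)))) (XT.nd (nat_lit 156) (nat_lit 228) (nat_lit 0) (XT.nd (nat_lit 78) (nat_lit 0) (nat_lit 0) (XT.lf (nat_lit 0) (nat_lit 11491848320) (nat_lit 76) (nat_lit 6139874627) (nat_lit 152) (nat_lit 47566544342) (nat_lit 35) (nat_lit 5) (nat_lit 36) (nat_lit 5) (nat_lit 37) (nat_lit 4) (nat_lit 454) (nat_lit 408) (nat_lit 338)) (XT.lf (nat_lit 0) (nat_lit 38823064353) (nat_lit 152) (nat_lit 14360048241) (nat_lit 0) (nat_lit 15498335178) (nat_lit 35) (nat_lit 5) (nat_lit 37) (nat_lit 4) (nat_lit 35) (nat_lit 4) (nat_lit 455) (nat_lit 408) (nat_lit 337))) (XT.nd (nat_lit 78) (nat_lit 152) (nat_lit 0) (XT.lf (nat_lit 0) (nat_lit 29418034952) (nat_lit 76) (nat_lit 33144548344) (nat_lit 76) (nat_lit 9812469976) (nat_lit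 34) (nat_lit 4) (nat_lit 35) (nat_lit 5) (nat_lit 35) (nat_lit 4) (nat_lit 456) (nat_lit 408) (nat_lit 336)) (XT.lf (nat_lit 0) (nat_lit 904503662) (nat_lit 76) (nat_lit 10750970778) (nat_lit 152) (nat_lit 64653058431) (nat_lit 32) (nat_lit 5) (nat_lit 33) (nat_lit 5) (nat_lit 34) (nat_lit 4) (nat_lit 457) (nat_lit 408) (nat_lit 335))))) (XT.nd (nat_lit 234) (nat_lit 304) (nat_lit 0) (XT.nd (nat_lit 78) (nat_lit 152) (nat_lit 0) (XT.lf (nat_lit 0) (nat_lit 35824814665) (nat_lit 152) (nat_lit 30381456077) (nat_lit 0) (nat_lit 14208903625) (nat_lit 32) (nat_lit 5) (nat_lit 34) (nat_lit 4) (nat_lit 32) (nat_lit 4) (nat_lit 458) (nat_lit 408) (nat_lit 334)) (XT.nd (nat_lit 78) (nat_lit 76) (nat_lit 0) (XT.lf (nat_lit 0) (nat_lit 18882115145) (nat_lit 76) (nat_lit 43765957718) (nat_lit 76) (nat_lit 22144644803) (nat_lit 31) (nat_lit 4) (nat_lit 32) (nat_lit 5) (nat_lit 32) (nat_lit 4) (nat_lit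 459) (nat_lit 408) (nat_lit 333)) (XT.lf (nat_lit 0) (nat_lit 2831130452) (nat_lit 152) (nat_lit 15737563311) (nat_lit 76) (nat_lit 70880593487) (nat_lit 30) (nat_lit 5) (nat_lit 32) (nat_lit 5) (nat_lit 31) (nat_lit 4) (nat_lit 460) (nat_lit 408) (nat_lit 332)))) (XT.nd (nat_lit 156) (nat_lit 152) (nat_lit 0) (XT.nd (nat_lit 78) (nat_lit 76) (nat_lit 0) (XT.lf (nat_lit 0) (nat_lit 29802231668) (nat_lit 152) (nat_lit 54761065936) (nat_lit 0) (nat_lit 9773578067) (nat_lit 29) (nat_lit 5) (nat_lit 31) (nat_lit 4) (nat_lit 29) (nat_lit 4) (nat_lit 461) (nat_lit 408) (nat_lit 331)) (XT.lf (nat_lit 0) (nat_lit 116309524) (nat_lit 76) (nat_lit 59729309042) (nat_lit 76) (nat_lit 39696684901) (nat_lit 28) (nat_lit 4) (nat_lit 29) (nat_lit 5) (nat_lit 29) (nat_lit 4) (nat_lit 462) (nat_lit 408) (nat_lit 330))) (XT.nd (nat_lit 78) (nat_lit 152) (nat_lit 0) (XT.lf (nat_lit 0) (nat_lit 62474556464)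 (nat_lit 76) (nat_lit 31303530424) (nat_lit 76) (nat_lit 11267229857) (nat_lit 28) (nat_lit 4) (nat_lit 29) (nat_lit 5) (nat_lit 29) (nat_lit 4) (nat_lit 463) (nat_lit 408) (nat_lit 329)) (XT.lf (nat_lit 0) (nat_lit 18927003763) (nat_lit 152) (nat_lit 91615432226) (nat_lit 0) (nat_lit 371721666) (nat_lit 26) (nat_lit 5) (nat_lit 28) (nat_lit 4) (nat_lit 26) (nat_lit 4) (nat_lit 464) (nat_lit 408) (nat_lit 328)))))) (XT.nd (nat_lit 546) (nat_lit 304) (nat_lit 0) (XT.nd (nat_lit 234) (nat_lit 304) (nat_lit 0) (XT.nd (nat_lit 78) (nat_lit 152) (nat_lit 0) (XT.lf (nat_lit 0) (nat_lit 52924279497) (nat_lit 152) (nat_lit 29779036939) (nat_lit 0) (nat_lit 34366078934) (nat_lit 26) (nat_lit 5) (nat_lit 28) (nat_lit 4) (nat_lit 26) (nat_lit 4) (nat_lit 465) (nat_lit 408) (nat_lit 327)) (XT.nd (nat_lit 78) (nat_lit 76) (nat_lit 0) (XT.lf (nat_lit 0) (nat_lit 38930930567) (nat_lit 76) (nat_lit 51636469707)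 (nat_lit 76) (nat_lit 33075566862) (nat_lit 25) (nat_lit 4) (nat_lit 26) (nat_lit 5) (nat_lit 26) (nat_lit 4) (nat_lit 466) (nat_lit 408) (nat_lit 326)) (XT.lf (nat_lit 0) (nat_lit 1280701148) (nat_lit 152) (nat_lit 15899546568) (nat_lit 76) (nat_lit 113495242826) (nat_lit 24) (nat_lit 5) (nat_lit 26) (nat_lit 5) (nat_lit 25) (nat_lit 4) (nat_lit 467) (nat_lit 408) (nat_lit 325)))) (XT.nd (nat_lit 156) (nat_lit 228) (nat_lit 0) (XT.nd (nat_lit 78) (nat_lit 0) (nat_lit 0) (XT.lf (nat_lit 0) (nat_lit 38587464680) (nat_lit 152) (nat_lit 78058326450) (nat_lit 0) (nat_lit 21396981596) (nat_lit 23) (nat_lit 5) (nat_lit 25) (nat_lit 4) (nat_lit 23) (nat_lit 4) (nat_lit 468) (nat_lit 408) (nat_lit 324)) (XT.lf (nat_lit 0) (nat_lit 79761581270) (nat_lit 152) (nat_lit 3598119382) (nat_lit 0) (nat_lit 62569111928) (nat_lit 23) (nat_lit 5) (nat_lit 25) (nat_lit 4) (nat_lit 23) (nat_lit 4) (nat_lit 469)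 (nat_lit 408) (nat_lit 323))) (XT.nd (nat_lit 78) (nat_lit 152) (nat_lit 0) (XT.lf (nat_lit 0) (nat_lit 80845232603) (nat_lit 76) (nat_lit 45319982261) (nat_lit 76) (nat_lit 28125673791) (nat_lit 22) (nat_lit 4) (nat_lit 23) (nat_lit 5) (nat_lit 23) (nat_lit 4) (nat_lit 470) (nat_lit 408) (nat_lit 322)) (XT.lf (nat_lit 0) (nat_lit 9055503881) (nat_lit 76) (nat_lit 3565416910) (nat_lit 152) (nat_lit 150651277762) (nat_lit 20) (nat_lit 5) (nat_lit 21) (nat_lit 5) (nat_lit 22) (nat_lit 4) (nat_lit 471) (nat_lit 408) (nat_lit 321))))) (XT.nd (nat_lit 234) (nat_lit 228) (nat_lit 0) (XT.nd (nat_lit 78) (nat_lit 76) (nat_lit 0) (XT.lf (nat_lit 0) (nat_lit 58158083882) (nat_lit 152) (nat_lit 72277066638) (nat_lit 0) (nat_lit 42234391176) (nat_lit 20) (nat_lit 5) (nat_lit 22) (nat_lit 4) (nat_lit 20) (nat_lit 4) (nat_lit 472) (nat_lit 408) (nat_lit 320)) (XT.nd (nat_lit 78) (nat_lit 0) (nat_lit 0)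 (XT.lf (nat_lit 0) (nat_lit 16956798773) (nat_lit 76) (nat_lit 90873765275) (nat_lit 76) (nat_lit 74948720755) (nat_lit 19) (nat_lit 4) (nat_lit 20) (nat_lit 5) (nat_lit 20) (nat_lit 4) (nat_lit 473) (nat_lit 408) (nat_lit 319)) (XT.lf (nat_lit 0) (nat_lit 117423681410) (nat_lit 76) (nat_lit 46021478403) (nat_lit 76) (nat_lit 30095182203) (nat_lit 19) (nat_lit 4) (nat_lit 20) (nat_lit 5) (nat_lit 20) (nat_lit 4) (nat_lit 474) (nat_lit 408) (nat_lit 318)))) (XT.nd (nat_lit 156) (nat_lit 76) (nat_lit 0) (XT.nd (nat_lit 78) (nat_lit 0) (nat_lit 0) (XT.lf (nat_lit 0) (nat_lit 18018349464) (nat_lit 152) (nat_lit 183790770950) (nat_lit 0) (nat_lit 3270705794) (nat_lit 17) (nat_lit 5) (nat_lit 19) (nat_lit 4) (nat_lit 17) (nat_lit 4) (nat_lit 475) (nat_lit 408) (nat_lit 317)) (XT.lf (nat_lit 0) (nat_lit 71678162303) (nat_lit 152) (nat_lit 88606396791) (nat_lit 0) (nat_lit 56929525010) (nat_lit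 17) (nat_lit 5) (nat_lit 19) (nat_lit 4) (nat_lit 17) (nat_lit 4) (nat_lit 476) (nat_lit 408) (nat_lit 316))) (XT.nd (nat_lit 78) (nat_lit 0) (nat_lit 0) (XT.lf (nat_lit 0) (nat_lit 14925121200) (nat_lit 76) (nat_lit 115057677831) (nat_lit 76) (nat_lit 100308120516) (nat_lit 16) (nat_lit 4) (nat_lit 17) (nat_lit 5) (nat_lit 17) (nat_lit 4) (nat_lit 477) (nat_lit 408) (nat_lit 315)) (XT.lf (nat_lit 0) (nat_lit 131764423849) (nat_lit 76) (nat_lit 63603306642) (nat_lit 76) (nat_lit 48852897455) (nat_lit 16) (nat_lit 4) (nat_lit 17) (nat_lit 5) (nat_lit 17) (nat_lit 4) (nat_lit 478) (nat_lit 408) (nat_lit 314))))))) (XT.nd (nat_lit 1092) (nat_lit 304) (nat_lit 0) (XT.nd (nat_lit 546) (nat_lit 228) (nat_lit 0) (XT.nd (nat_lit 234) (nat_lit 228) (nat_lit 0) (XT.nd (nat_lit 78) (nat_lit 76) (nat_lit 0) (XT.lf (nat_lit 0) (nat_lit 6376249320) (nat_lit 152) (nat_lit 1488599371) (nat_lit 76) (nat_lit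 251387449098) (nat_lit 15) (nat_lit 5) (nat_lit 17) (nat_lit 5) (nat_lit 16) (nat_lit 4) (nat_lit 479) (nat_lit 408) (nat_lit 313)) (XT.nd (nat_lit 78) (nat_lit 0) (nat_lit 0) (XT.lf (nat_lit 0) (nat_lit 67710808094) (nat_lit 152) (nat_lit 153276452957) (nat_lit 0) (nat_lit 54051615223) (nat_lit 14) (nat_lit 5) (nat_lit 16) (nat_lit 4) (nat_lit 14) (nat_lit 4) (nat_lit 480) (nat_lit 408) (nat_lit 312)) (XT.lf (nat_lit 0) (nat_lit 134192255455) (nat_lit 152) (nat_lit 37344479257) (nat_lit 0) (nat_lit 120532436432) (nat_lit 14) (nat_lit 5) (nat_lit 16) (nat_lit 4) (nat_lit 14) (nat_lit 4) (nat_lit 481) (nat_lit 408) (nat_lit 311)))) (XT.nd (nat_lit 156) (nat_lit 152) (nat_lit 0) (XT.nd (nat_lit 78) (nat_lit 0) (nat_lit 0) (XT.lf (nat_lit 0) (nat_lit 92476820069) (nat_lit 76) (nat_lit 115733990493) (nat_lit 76) (nat_lit 102073591700) (nat_lit 13) (nat_lit 4) (nat_lit 14) (nat_lit 5) (nat_lit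 14) (nat_lit 4) (nat_lit 482) (nat_lit 408) (nat_lit 310)) (XT.lf (nat_lit 0) (nat_lit 234796625634) (nat_lit 76) (nat_lit 54369951838) (nat_lit 76) (nat_lit 40709016221) (nat_lit 13) (nat_lit 4) (nat_lit 14) (nat_lit 5) (nat_lit 14) (nat_lit 4) (nat_lit 483) (nat_lit 408) (nat_lit 309))) (XT.nd (nat_lit 78) (nat_lit 0) (nat_lit 0) (XT.lf (nat_lit 0) (nat_lit 25539868460) (nat_lit 152) (nat_lit 312454312108) (nat_lit 0) (nat_lit 12890393760) (nat_lit 11) (nat_lit 5) (nat_lit 13) (nat_lit 4) (nat_lit 11) (nat_lit 4) (nat_lit 484) (nat_lit 408) (nat_lit 308)) (XT.lf (nat_lit 0) (nat_lit 98963610418) (nat_lit 152) (nat_lit 187886420015) (nat_lit 0) (nat_lit 86313709570) (nat_lit 11) (nat_lit 5) (nat_lit 13) (nat_lit 4) (nat_lit 11) (nat_lit 4) (nat_lit 485) (nat_lit 408) (nat_lit 307))))) (XT.nd (nat_lit 234) (nat_lit 152) (nat_lit 0) (XT.nd (nat_lit 78) (nat_lit 76) (nat_lit 0) (XT.lf (nat_lit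 0) (nat_lit 178256560935) (nat_lit 152) (nat_lit 53362787764) (nat_lit 0) (nat_lit 165606265506) (nat_lit 11) (nat_lit 5) (nat_lit 13) (nat_lit 4) (nat_lit 11) (nat_lit 4) (nat_lit 486) (nat_lit 408) (nat_lit 306)) (XT.nd (nat_lit 78) (nat_lit 0) (nat_lit 0) (XT.lf (nat_lit 0) (nat_lit 96753777532) (nat_lit 76) (nat_lit 169461757308) (nat_lit 76) (nat_lit 156811096525) (nat_lit 10) (nat_lit 4) (nat_lit 11) (nat_lit 5) (nat_lit 11) (nat_lit 4) (nat_lit 487) (nat_lit 408) (nat_lit 305)) (XT.lf (nat_lit 0) (nat_lit 261905710908) (nat_lit 76) (nat_lit 100760316987) (nat_lit 76) (nat_lit 88109317914) (nat_lit 10) (nat_lit 4) (nat_lit 11) (nat_lit 5) (nat_lit 11) (nat_lit 4) (nat_lit 488) (nat_lit 408) (nat_lit 304)))) (XT.nd (nat_lit 156) (nat_lit 0) (nat_lit 0) (XT.nd (nat_lit 78) (nat_lit 152) (nat_lit 0) (XT.lf (nat_lit 0) (nat_lit 440261700650) (nat_lit 76) (nat_lit 26566941274) (nat_lit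 76) (nat_lit 13915628969) (nat_lit 10) (nat_lit 4) (nat_lit 11) (nat_lit 5) (nat_lit 11) (nat_lit 4) (nat_lit 489) (nat_lit 408) (nat_lit 303)) (XT.lf (nat_lit 0) (nat_lit 67296483045) (nat_lit 152) (nat_lit 389753179648) (nat_lit 0) (nat_lit 55582036440) (nat_lit 8) (nat_lit 5) (nat_lit 10) (nat_lit 4) (nat_lit 8) (nat_lit 4) (nat_lit 490) (nat_lit 408) (nat_lit 302))) (XT.nd (nat_lit 78) (nat_lit 0) (nat_lit 0) (XT.lf (nat_lit 0) (nat_lit 156075703769) (nat_lit 152) (nat_lit 246458738155) (nat_lit 0) (nat_lit 144361008510) (nat_lit 8) (nat_lit 5) (nat_lit 10) (nat_lit 4) (nat_lit 8) (nat_lit 4) (nat_lit 491) (nat_lit 408) (nat_lit 301)) (XT.lf (nat_lit 0) (nat_lit 251953817498) (nat_lit 152) (nat_lit 91707867913) (nat_lit 0) (nat_lit 240238892004) (nat_lit 8) (nat_lit 5) (nat_lit 10) (nat_lit 4) (nat_lit 8) (nat_lit 4) (nat_lit 492) (nat_lit 408) (nat_lit 300)))))) (XT.nd (nat_lit 546)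 (nat_lit 76) (nat_lit 0) (XT.nd (nat_lit 234) (nat_lit 152) (nat_lit 0) (XT.nd (nat_lit 78) (nat_lit 0) (nat_lit 0) (XT.lf (nat_lit 0) (nat_lit 79387771102) (nat_lit 76) (nat_lit 278020497535) (nat_lit 76) (nat_lit 266305358861) (nat_lit 7) (nat_lit 4) (nat_lit 8) (nat_lit 5) (nat_lit 8) (nat_lit 4) (nat_lit 493) (nat_lit 408) (nat_lit 299)) (XT.nd (nat_lit 78) (nat_lit 0) (nat_lit 0) (XT.lf (nat_lit 0) (nat_lit 269380137326) (nat_lit 76) (nat_lit 204423286256) (nat_lit 76) (nat_lit 192707950193) (nat_lit 7) (nat_lit 4) (nat_lit 8) (nat_lit 5) (nat_lit 8) (nat_lit 4) (nat_lit 494) (nat_lit 408) (nat_lit 298)) (XT.lf (nat_lit 0) (nat_lit 474565937643) (nat_lit 76) (nat_lit 124941375581) (nat_lit 76) (nat_lit 113225856750) (nat_lit 7) (nat_lit 4) (nat_lit 8) (nat_lit 5) (nat_lit 8) (nat_lit 4) (nat_lit 495) (nat_lit 408) (nat_lit 297)))) (XT.nd (nat_lit 156) (nat_lit 0) (nat_lit 0) (XT.nd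 (nat_lit 78) (nat_lit 152) (nat_lit 0) (XT.lf (nat_lit 0) (nat_lit 696161087906) (nat_lit 76) (nat_lit 39103761596) (nat_lit 76) (nat_lit 27388073536) (nat_lit 7) (nat_lit 4) (nat_lit 8) (nat_lit 5) (nat_lit 8) (nat_lit 4) (nat_lit 496) (nat_lit 408) (nat_lit 296)) (XT.lf (nat_lit 0) (nat_lit 66424463085) (nat_lit 152) (nat_lit 694089654004) (nat_lit 0) (nat_lit 55576458683) (nat_lit 5) (nat_lit 5) (nat_lit 7) (nat_lit 4) (nat_lit 5) (nat_lit 4) (nat_lit 497) (nat_lit 408) (nat_lit 295))) (XT.nd (nat_lit 78) (nat_lit 0) (nat_lit 0) (XT.lf (nat_lit 0) (nat_lit 169140712869) (nat_lit 152) (nat_lit 546082773242) (nat_lit 0) (nat_lit 158292574128) (nat_lit 5) (nat_lit 5) (nat_lit 7) (nat_lit 4) (nat_lit 5) (nat_lit 4) (nat_lit 498) (nat_lit 408) (nat_lit 294)) (XT.lf (nat_lit 0) (nat_lit 280071920006) (nat_lit 152) (nat_lit 386240193996) (nat_lit 0) (nat_lit 269223656876) (nat_lit 5) (nat_lit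 5) (nat_lit 7) (nat_lit 4) (nat_lit 5) (nat_lit 4) (nat_lit 499) (nat_lit 408) (nat_lit 293))))) (XT.nd (nat_lit 312) (nat_lit 0) (nat_lit 0) (XT.nd (nat_lit 156) (nat_lit 76) (nat_lit 0) (XT.nd (nat_lit 78) (nat_lit 0) (nat_lit 0) (XT.lf (nat_lit 0) (nat_lit 399875454610) (nat_lit 152) (nat_lit 213614700981) (nat_lit 0) (nat_lit 389027076306) (nat_lit 5) (nat_lit 5) (nat_lit 7) (nat_lit 4) (nat_lit 5) (nat_lit 4) (nat_lit 500) (nat_lit 408) (nat_lit 292)) (XT.lf (nat_lit 0) (nat_lit 529261263555) (nat_lit 152) (nat_lit 27183328314) (nat_lit 0) (nat_lit 518412778608) (nat_lit 5) (nat_lit 5) (nat_lit 7) (nat_lit 4) (nat_lit 5) (nat_lit 4) (nat_lit 501) (nat_lit 408) (nat_lit 291))) (XT.nd (nat_lit 78) (nat_lit 0) (nat_lit 0) (XT.lf (nat_lit 0) (nat_lit 183329591148) (nat_lit 76) (nat_lit 490075567488) (nat_lit 76) (nat_lit 479226983796) (nat_lit 4) (nat_lit 4) (nat_lit 5) (nat_lit 5) (nat_lit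 5) (nat_lit 4) (nat_lit 502) (nat_lit 408) (nat_lit 290)) (XT.lf (nat_lit 0) (nat_lit 412225729991) (nat_lit 76) (nat_lit 417596263511) (nat_lit 76) (nat_lit 406747588390) (nat_lit 4) (nat_lit 4) (nat_lit 5) (nat_lit 5) (nat_lit 5) (nat_lit 4) (nat_lit 503) (nat_lit 408) (nat_lit 289)))) (XT.nd (nat_lit 156) (nat_lit 0) (nat_lit 0) (XT.nd (nat_lit 78) (nat_lit 0) (nat_lit 0) (XT.lf (nat_lit 0) (nat_lit 659430083880) (nat_lit 76) (nat_lit 339320413322) (nat_lit 76) (nat_lit 328471653544) (nat_lit 4) (nat_lit 4) (nat_lit 5) (nat_lit 5) (nat_lit 5) (nat_lit 4) (nat_lit 504) (nat_lit 408) (nat_lit 288)) (XT.lf (nat_lit 0) (nat_lit 926407567506) (nat_lit 76) (nat_lit 254784160031) (nat_lit 76) (nat_lit 243935321868) (nat_lit 4) (nat_lit 4) (nat_lit 5) (nat_lit 5) (nat_lit 5) (nat_lit 4) (nat_lit 505) (nat_lit 408) (nat_lit 287))) (XT.nd (nat_lit 78) (nat_lit 0) (nat_lit 0) (XT.lf (nat_lit 0)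 (nat_lit 1214740269661) (nat_lit 76) (nat_lit 163486548063) (nat_lit 76) (nat_lit 152637637320) (nat_lit 4) (nat_lit 4) (nat_lit 5) (nat_lit 5) (nat_lit 5) (nat_lit 4) (nat_lit 506) (nat_lit 408) (nat_lit 286)) (XT.lf (nat_lit 0) (nat_lit 1526136828578) (nat_lit 76) (nat_lit 64886554532) (nat_lit 76) (nat_lit 54037576586) (nat_lit 4) (nat_lit 4) (nat_lit 5) (nat_lit 5) (nat_lit 5) (nat_lit 4) (nat_lit 507) (nat_lit 408) (nat_lit 285))))))))
noncomputable def xc114 : XT := (XT.nd (nat_lit 2184) (nat_lit 0) (nat_lit 0) (XT.nd (nat_lit 1092) (nat_lit 0) (nat_lit 0) (XT.nd (nat_lit 546) (nat_lit 76) (nat_lit 0) (XT.nd (nat_lit 234) (nat_lit 0) (nat_lit 0) (XT.nd (nat_lit 78) (nat_lit 0) (nat_lit 0) (XT.lf (nat_lit 0) (nat_lit 53268759827) (nat_lit 152) (nat_lit 1671524793257) (nat_lit 0) (nat_lit 43223352261) (nat_lit 2) (nat_lit 5) (nat_lit 4) (nat_lit 4) (nat_lit 2) (nat_lit 4) (nat_lit 508)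 (nat_lit 408) (nat_lit 284)) (XT.nd (nat_lit 78) (nat_lit 0) (nat_lit 0) (XT.lf (nat_lit 0) (nat_lit 171260324143) (nat_lit 152) (nat_lit 1567820241106) (nat_lit 0) (nat_lit 161214863229) (nat_lit 2) (nat_lit 5) (nat_lit 4) (nat_lit 4) (nat_lit 2) (nat_lit 4) (nat_lit 509) (nat_lit 408) (nat_lit 283)) (XT.lf (nat_lit 0) (nat_lit 298690042397) (nat_lit 152) (nat_lit 1455821752675) (nat_lit 0) (nat_lit 288644532087) (nat_lit 2) (nat_lit 5) (nat_lit 4) (nat_lit 4) (nat_lit 2) (nat_lit 4) (nat_lit 510) (nat_lit 408) (nat_lit 282)))) (XT.nd (nat_lit 156) (nat_lit 0) (nat_lit 0) (XT.nd (nat_lit 78) (nat_lit 0) (nat_lit 0) (XT.lf (nat_lit 0) (nat_lit 436313053661) (nat_lit 152) (nat_lit 1334865633218) (nat_lit 0) (nat_lit 426267497613) (nat_lit 2) (nat_lit 5) (nat_lit 4) (nat_lit 4) (nat_lit 2) (nat_lit 4) (nat_lit 511) (nat_lit 408) (nat_lit 281)) (XT.lf (nat_lit 0) (nat_lit 584944901704) (nat_lit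 152) (nat_lit 1204235105731) (nat_lit 0) (nat_lit 574899303307) (nat_lit 2) (nat_lit 5) (nat_lit 4) (nat_lit 4) (nat_lit 2) (nat_lit 4) (nat_lit 512) (nat_lit 408) (nat_lit 280))) (XT.nd (nat_lit 78) (nat_lit 0) (nat_lit 0) (XT.lf (nat_lit 0) (nat_lit 745466367849) (nat_lit 152) (nat_lit 1063156063384) (nat_lit 0) (nat_lit 735420730239) (nat_lit 2) (nat_lit 5) (nat_lit 4) (nat_lit 4) (nat_lit 2) (nat_lit 4) (nat_lit 513) (nat_lit 408) (nat_lit 279)) (XT.lf (nat_lit 0) (nat_lit 918828690414) (nat_lit 152) (nat_lit 910792482223) (nat_lit 0) (nat_lit 908783016496) (nat_lit 2) (nat_lit 5) (nat_lit 4) (nat_lit 4) (nat_lit 2) (nat_lit 4) (nat_lit 514) (nat_lit 408) (nat_lit 278))))) (XT.nd (nat_lit 234) (nat_lit 76) (nat_lit 0) (XT.nd (nat_lit 78) (nat_lit 0) (nat_lit 0) (XT.lf (nat_lit 0) (nat_lit 1106059201680) (nat_lit 152) (nat_lit 746241466951) (nat_lit 0) (nat_lit 1096013494143) (nat_lit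 2) (nat_lit 5) (nat_lit 4) (nat_lit 4) (nat_lit 2) (nat_lit 4) (nat_lit 515) (nat_lit 408) (nat_lit 277)) (XT.nd (nat_lit 78) (nat_lit 0) (nat_lit 0) (XT.lf (nat_lit 0) (nat_lit 1308267415787) (nat_lit 152) (nat_lit 568527900442) (nat_lit 0) (nat_lit 1298221677123) (nat_lit 2) (nat_lit 5) (nat_lit 4) (nat_lit 4) (nat_lit 2) (nat_lit 4) (nat_lit 516) (nat_lit 408) (nat_lit 276)) (XT.lf (nat_lit 0) (nat_lit 1526651603636) (nat_lit 152) (nat_lit 376598665264) (nat_lit 0) (nat_lit 1516605836149) (nat_lit 2) (nat_lit 5) (nat_lit 4) (nat_lit 4) (nat_lit 2) (nat_lit 4) (nat_lit 517) (nat_lit 408) (nat_lit 275)))) (XT.nd (nat_lit 156) (nat_lit 0) (nat_lit 0) (XT.nd (nat_lit 78) (nat_lit 76) (nat_lit 0) (XT.lf (nat_lit 0) (nat_lit 1762505893746) (nat_lit 152) (nat_lit 169316402986) (nat_lit 0) (nat_lit 1752460099572) (nat_lit 2) (nat_lit 5) (nat_lit 4) (nat_lit 4) (nat_lit 2) (nat_lit 4) (nat_lit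 518) (nat_lit 408) (nat_lit 274)) (XT.lf (nat_lit 0) (nat_lit 57419585962) (nat_lit 76) (nat_lit 1961189297630) (nat_lit 76) (nat_lit 1951143478745) (nat_lit 1) (nat_lit 4) (nat_lit 2) (nat_lit 5) (nat_lit 2) (nat_lit 4) (nat_lit 519) (nat_lit 408) (nat_lit 273))) (XT.nd (nat_lit 78) (nat_lit 0) (nat_lit 0) (XT.lf (nat_lit 0) (nat_lit 311922444090) (nat_lit 76) (nat_lit 1987906508082) (nat_lit 76) (nat_lit 1977860666317) (nat_lit 1) (nat_lit 4) (nat_lit 2) (nat_lit 5) (nat_lit 2) (nat_lit 4) (nat_lit 520) (nat_lit 408) (nat_lit 272)) (XT.lf (nat_lit 0) (nat_lit 586784434755) (nat_lit 76) (nat_lit 2016761662812) (nat_lit 76) (nat_lit 2006715799862) (nat_lit 1) (nat_lit 4) (nat_lit 2) (nat_lit 5) (nat_lit 2) (nat_lit 4) (nat_lit 521) (nat_lit 408) (nat_lit 271)))))) (XT.nd (nat_lit 546) (nat_lit 0) (nat_lit 0) (XT.nd (nat_lit 234) (nat_lit 0) (nat_lit 0) (XT.nd (nat_lit 78) (nat_lit 0) (nat_lit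 0) (XT.lf (nat_lit 0) (nat_lit 883634369754) (nat_lit 76) (nat_lit 2047925755329) (nat_lit 76) (nat_lit 2037879872763) (nat_lit 1) (nat_lit 4) (nat_lit 2) (nat_lit 5) (nat_lit 2) (nat_lit 4) (nat_lit 522) (nat_lit 408) (nat_lit 270)) (XT.nd (nat_lit 78) (nat_lit 0) (nat_lit 0) (XT.lf (nat_lit 0) (nat_lit 1204231359811) (nat_lit 76) (nat_lit 2081583461737) (nat_lit 76) (nat_lit 2071537561008) (nat_lit 1) (nat_lit 4) (nat_lit 2) (nat_lit 5) (nat_lit 2) (nat_lit 4) (nat_lit 523) (nat_lit 408) (nat_lit 269)) (XT.lf (nat_lit 0) (nat_lit 1550475238943) (nat_lit 76) (nat_lit 2117934235110) (nat_lit 76) (nat_lit 2107888317564) (nat_lit 1) (nat_lit 4) (nat_lit 2) (nat_lit 5) (nat_lit 2) (nat_lit 4) (nat_lit 524) (nat_lit 408) (nat_lit 268)))) (XT.nd (nat_lit 156) (nat_lit 0) (nat_lit 0) (XT.nd (nat_lit 78) (nat_lit 0) (nat_lit 0) (XT.lf (nat_lit 0) (nat_lit 1924417822730) (nat_lit 76) (nat_lit 2157193487440)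 (nat_lit 76) (nat_lit 2147147554321) (nat_lit 1) (nat_lit 4) (nat_lit 2) (nat_lit 5) (nat_lit 2) (nat_lit 4) (nat_lit 525) (nat_lit 408) (nat_lit 267)) (XT.lf (nat_lit 0) (nat_lit 2328275067223) (nat_lit 76) (nat_lit 2199593866147) (nat_lit 76) (nat_lit 2189547918610) (nat_lit 1) (nat_lit 4) (nat_lit 2) (nat_lit 5) (nat_lit 2) (nat_lit 4) (nat_lit 526) (nat_lit 408) (nat_lit 266))) (XT.nd (nat_lit 78) (nat_lit 0) (nat_lit 0) (XT.lf (nat_lit 0) (nat_lit 2764440200537) (nat_lit 76) (nat_lit 2245386632735) (nat_lit 76) (nat_lit 2235340671848) (nat_lit 1) (nat_lit 4) (nat_lit 2) (nat_lit 5) (nat_lit 2) (nat_lit 4) (nat_lit 527) (nat_lit 408) (nat_lit 265)) (XT.lf (nat_lit 0) (nat_lit 3235497904946) (nat_lit 76) (nat_lit 2294843151746) (nat_lit 76) (nat_lit 2284797178498) (nat_lit 1) (nat_lit 4) (nat_lit 2) (nat_lit 5) (nat_lit 2) (nat_lit 4) (nat_lit 528) (nat_lit 408) (nat_lit 264))))) (XT.nd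 (nat_lit 234) (nat_lit 0) (nat_lit 0) (XT.nd (nat_lit 78) (nat_lit 0) (nat_lit 0) (XT.lf (nat_lit 0) (nat_lit 3744239633511) (nat_lit 76) (nat_lit 2348256498849) (nat_lit 76) (nat_lit 2338210514155) (nat_lit 1) (nat_lit 4) (nat_lit 2) (nat_lit 5) (nat_lit 2) (nat_lit 4) (nat_lit 529) (nat_lit 408) (nat_lit 263)) (XT.nd (nat_lit 78) (nat_lit 0) (nat_lit 0) (XT.lf (nat_lit 0) (nat_lit 4293680152032) (nat_lit 76) (nat_lit 2405943197583) (nat_lit 76) (nat_lit 2395897202290) (nat_lit 1) (nat_lit 4) (nat_lit 2) (nat_lit 5) (nat_lit 2) (nat_lit 4) (nat_lit 530) (nat_lit 408) (nat_lit 262)) (XT.lf (nat_lit 0) (nat_lit 4887075404322) (nat_lit 76) (nat_lit 2468245095050) (nat_lit 76) (nat_lit 2458199089945) (nat_lit 1) (nat_lit 4) (nat_lit 2) (nat_lit 5) (nat_lit 2) (nat_lit 4) (nat_lit 531) (nat_lit 408) (nat_lit 261)))) (XT.nd (nat_lit 156) (nat_lit 0) (nat_lit 0) (XT.nd (nat_lit 78) (nat_lit 0)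 (nat_lit 0) (XT.lf (nat_lit 0) (nat_lit 5527941806690) (nat_lit 76) (nat_lit 2535531387680) (nat_lit 76) (nat_lit 2525485373489) (nat_lit 1) (nat_lit 4) (nat_lit 2) (nat_lit 5) (nat_lit 2) (nat_lit 4) (nat_lit 532) (nat_lit 408) (nat_lit 260)) (XT.lf (nat_lit 0) (nat_lit 6220077085967) (nat_lit 76) (nat_lit 2608200809059) (nat_lit 76) (nat_lit 2598154786456) (nat_lit 1) (nat_lit 4) (nat_lit 2) (nat_lit 5) (nat_lit 2) (nat_lit 4) (nat_lit 533) (nat_lit 408) (nat_lit 259))) (XT.nd (nat_lit 78) (nat_lit 0) (nat_lit 0) (XT.lf (nat_lit 0) (nat_lit 6967582784547) (nat_lit 76) (nat_lit 2686683992796) (nat_lit 76) (nat_lit 2676637962403) (nat_lit 1) (nat_lit 4) (nat_lit 2) (nat_lit 5) (nat_lit 2) (nat_lit 4) (nat_lit 534) (nat_lit 408) (nat_lit 258)) (XT.lf (nat_lit 0) (nat_lit 7774888565829) (nat_lit 76) (nat_lit 2771446024424) (nat_lit 76) (nat_lit 2761399986817) (nat_lit 1) (nat_lit 4) (nat_lit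 2) (nat_lit 5) (nat_lit 2) (nat_lit 4) (nat_lit 535) (nat_lit 408) (nat_lit 257))))))) (XT.nd (nat_lit 53040) (nat_lit 0) (nat_lit 4788) (XT.nd (nat_lit 546) (nat_lit 0) (nat_lit 0) (XT.nd (nat_lit 234) (nat_lit 0) (nat_lit 0) (XT.nd (nat_lit 78) (nat_lit 0) (nat_lit 0) (XT.lf (nat_lit 0) (nat_lit 8646778464074) (nat_lit 76) (nat_lit 2862989197463) (nat_lit 76) (nat_lit 2852943153177) (nat_lit 1) (nat_lit 4) (nat_lit 2) (nat_lit 5) (nat_lit 2) (nat_lit 4) (nat_lit 536) (nat_lit 408) (nat_lit 256)) (XT.nd (nat_lit 78) (nat_lit 0) (nat_lit 0) (XT.lf (nat_lit 0) (nat_lit 9588419234233) (nat_lit 76) (nat_lit 2961855989975) (nat_lit 76) (nat_lit 2951809939506) (nat_lit 1) (nat_lit 4) (nat_lit 2) (nat_lit 5) (nat_lit 2) (nat_lit 4) (nat_lit 537) (nat_lit 408) (nat_lit 255)) (XT.lf (nat_lit 0) (nat_lit 10605390969759) (nat_lit 76) (nat_lit 3068632279250) (nat_lit 76) (nat_lit 3058586223056) (nat_lit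 1) (nat_lit 4) (nat_lit 2) (nat_lit 5) (nat_lit 2) (nat_lit 4) (nat_lit 538) (nat_lit 408) (nat_lit 254)))) (XT.nd (nat_lit 156) (nat_lit 0) (nat_lit 0) (XT.nd (nat_lit 78) (nat_lit 0) (nat_lit 0) (XT.lf (nat_lit 0) (nat_lit 11703720169826) (nat_lit 76) (nat_lit 3183950813669) (nat_lit 76) (nat_lit 3173904752173) (nat_lit 1) (nat_lit 4) (nat_lit 2) (nat_lit 5) (nat_lit 2) (nat_lit 4) (nat_lit 539) (nat_lit 408) (nat_lit 253)) (XT.lf (nat_lit 0) (nat_lit 12889915451915) (nat_lit 76) (nat_lit 3308494962325) (nat_lit 76) (nat_lit 3298448895920) (nat_lit 1) (nat_lit 4) (nat_lit 2) (nat_lit 5) (nat_lit 2) (nat_lit 4) (nat_lit 540) (nat_lit 408) (nat_lit 252))) (XT.nd (nat_lit 78) (nat_lit 0) (nat_lit 0) (XT.lf (nat_lit 0) (nat_lit 14171006121403) (nat_lit 76) (nat_lit 3443002764616) (nat_lit 76) (nat_lit 3432956693666) (nat_lit 1) (nat_lit 4) (nat_lit 2) (nat_lit 5) (nat_lit 2) (nat_lit 4) (nat_lit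 541) (nat_lit 408) (nat_lit 251)) (XT.lf (nat_lit 0) (nat_lit 15554583826700) (nat_lit 76) (nat_lit 3588271303817) (nat_lit 76) (nat_lit 3578225228658) (nat_lit 1) (nat_lit 4) (nat_lit 2) (nat_lit 5) (nat_lit 2) (nat_lit 4) (nat_lit 542) (nat_lit 408) (nat_lit 250))))) (XT.nd (nat_lit 52182) (nat_lit 0) (nat_lit 7068) (XT.nd (nat_lit 52026) (nat_lit 0) (nat_lit 6992) (XT.lf (nat_lit 0) (nat_lit 17048847546801) (nat_lit 76) (nat_lit 3745161430528) (nat_lit 76) (nat_lit 3735115351473) (nat_lit 1) (nat_lit 4) (nat_lit 2) (nat_lit 5) (nat_lit 2) (nat_lit 4) (nat_lit 543) (nat_lit 408) (nat_lit 249)) (XT.nd (nat_lit 78) (nat_lit 532) (nat_lit 0) (XT.lf (nat_lit 0) (nat_lit 2136594121) (nat_lit 0) (nat_lit 2136594121) (nat_lit 380) (nat_lit 113853202) (nat_lit 100) (nat_lit 5) (nat_lit 100) (nat_lit 3) (nat_lit 105) (nat_lit 3) (nat_lit 409) (nat_lit 409) (nat_lit 382)) (XT.lf (nat_lit 0) (nat_lit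 713279921) (nat_lit 532) (nat_lit 124888977) (nat_lit 532) (nat_lit 8212147918) (nat_lit 93) (nat_lit 3) (nat_lit 100) (nat_lit 3) (nat_lit 100) (nat_lit 5) (nat_lit 410) (nat_lit 409) (nat_lit 381)))) (XT.nd (nat_lit 156) (nat_lit 0) (nat_lit 76) (XT.nd (nat_lit 78) (nat_lit 0) (nat_lit 0) (XT.lf (nat_lit 0) (nat_lit 1811669617) (nat_lit 456) (nat_lit 4635841292) (nat_lit 532) (nat_lit 2893123794) (nat_lit 94) (nat_lit 5) (nat_lit 100) (nat_lit 5) (nat_lit 101) (nat_lit 5) (nat_lit 411) (nat_lit 409) (nat_lit 380)) (XT.lf (nat_lit 76) (nat_lit 205042709) (nat_lit 0) (nat_lit 2735918623) (nat_lit 532) (nat_lit 6717785816) (nat_lit 95) (nat_lit 5) (nat_lit 94) (nat_lit 5) (nat_lit 101) (nat_lit 5) (nat_lit 412) (nat_lit 409) (nat_lit 379))) (XT.nd (nat_lit 78) (nat_lit 0) (nat_lit 0) (XT.lf (nat_lit 0) (nat_lit 4239812196) (nat_lit 456) (nat_lit 4392378590) (nat_lit 532) (nat_lit 1363791274)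 (nat_lit 95) (nat_lit 5) (nat_lit 101) (nat_lit 5) (nat_lit 102) (nat_lit 5) (nat_lit 413) (nat_lit 409) (nat_lit 378)) (XT.lf (nat_lit 76) (nat_lit 994040849) (nat_lit 0) (nat_lit 4668097350) (nat_lit 532) (nat_lit 4696502142) (nat_lit 96) (nat_lit 5) (nat_lit 95) (nat_lit 5) (nat_lit 102) (nat_lit 5) (nat_lit 414) (nat_lit 409) (nat_lit 377)))))) (XT.nd (nat_lit 546) (nat_lit 912) (nat_lit 0) (XT.nd (nat_lit 234) (nat_lit 1064) (nat_lit 0) (XT.nd (nat_lit 78) (nat_lit 380) (nat_lit 0) (XT.lf (nat_lit 76) (nat_lit 7004177095) (nat_lit 0) (nat_lit 242980774) (nat_lit 532) (nat_lit 3499250012) (nat_lit 96) (nat_lit 5) (nat_lit 95) (nat_lit 5) (nat_lit 102) (nat_lit 5) (nat_lit 415) (nat_lit 409) (nat_lit 376)) (XT.nd (nat_lit 78) (nat_lit 0) (nat_lit 0) (XT.lf (nat_lit 0) (nat_lit 2276333342) (nat_lit 456) (nat_lit 6780887437) (nat_lit 532) (nat_lit 2100125235) (nat_lit 90) (nat_lit 5) (nat_lit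 96) (nat_lit 5) (nat_lit 97) (nat_lit 5) (nat_lit 416) (nat_lit 409) (nat_lit 375)) (XT.lf (nat_lit 0) (nat_lit 8925669720) (nat_lit 456) (nat_lit 2132781900) (nat_lit 532) (nat_lit 539006438) (nat_lit 90) (nat_lit 5) (nat_lit 96) (nat_lit 5) (nat_lit 97) (nat_lit 5) (nat_lit 417) (nat_lit 409) (nat_lit 374)))) (XT.nd (nat_lit 156) (nat_lit 456) (nat_lit 0) (XT.nd (nat_lit 78) (nat_lit 0) (nat_lit 0) (XT.lf (nat_lit 0) (nat_lit 1203464829) (nat_lit 608) (nat_lit 7981288934) (nat_lit 76) (nat_lit 2876717982) (nat_lit 82) (nat_lit 5) (nat_lit 90) (nat_lit 5) (nat_lit 83) (nat_lit 5) (nat_lit 418) (nat_lit 409) (nat_lit 373)) (XT.lf (nat_lit 0) (nat_lit 3130652167) (nat_lit 608) (nat_lit 1162698333) (nat_lit 76) (nat_lit 8262187181) (nat_lit 82) (nat_lit 5) (nat_lit 90) (nat_lit 5) (nat_lit 83) (nat_lit 5) (nat_lit 419) (nat_lit 409) (nat_lit 372))) (XT.nd (nat_lit 78) (nat_lit 228) (nat_lit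 0) (XT.lf (nat_lit 0) (nat_lit 5343634524) (nat_lit 304) (nat_lit 6638071938) (nat_lit 76) (nat_lit 1096898628) (nat_lit 79) (nat_lit 5) (nat_lit 83) (nat_lit 5) (nat_lit 80) (nat_lit 5) (nat_lit 420) (nat_lit 409) (nat_lit 371)) (XT.lf (nat_lit 0) (nat_lit 955631834) (nat_lit 228) (nat_lit 6895833511) (nat_lit 304) (nat_lit 5782633126) (nat_lit 76) (nat_lit 5) (nat_lit 79) (nat_lit 5) (nat_lit 80) (nat_lit 5) (nat_lit 421) (nat_lit 409) (nat_lit 370))))) (XT.nd (nat_lit 312) (nat_lit 380) (nat_lit 0) (XT.nd (nat_lit 156) (nat_lit 304) (nat_lit 0) (XT.nd (nat_lit 78) (nat_lit 228) (nat_lit 0) (XT.lf (nat_lit 0) (nat_lit 9478784482) (nat_lit 228) (nat_lit 1215646126) (nat_lit 304) (nat_lit 3528845052) (nat_lit 76) (nat_lit 5) (nat_lit 79) (nat_lit 5) (nat_lit 80) (nat_lit 5) (nat_lit 422) (nat_lit 409) (nat_lit 369)) (XT.lf (nat_lit 0) (nat_lit 3843425788) (nat_lit 228) (nat_lit 10088443887)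 (nat_lit 304) (nat_lit 914359026) (nat_lit 73) (nat_lit 5) (nat_lit 76) (nat_lit 5) (nat_lit 77) (nat_lit 5) (nat_lit 423) (nat_lit 409) (nat_lit 368))) (XT.nd (nat_lit 78) (nat_lit 228) (nat_lit 0) (XT.lf (nat_lit 0) (nat_lit 1935609664) (nat_lit 304) (nat_lit 2256916565) (nat_lit 76) (nat_lit 11313075513) (nat_lit 72) (nat_lit 5) (nat_lit 76) (nat_lit 5) (nat_lit 73) (nat_lit 5) (nat_lit 424) (nat_lit 409) (nat_lit 367)) (XT.lf (nat_lit 0) (nat_lit 5161922343) (nat_lit 304) (nat_lit 8773937918) (nat_lit 76) (nat_lit 2264148406) (nat_lit 69) (nat_lit 5) (nat_lit 73) (nat_lit 5) (nat_lit 70) (nat_lit 5) (nat_lit 425) (nat_lit 409) (nat_lit 366)))) (XT.nd (nat_lit 156) (nat_lit 228) (nat_lit 0) (XT.nd (nat_lit 78) (nat_lit 0) (nat_lit 0) (XT.lf (nat_lit 0) (nat_lit 951167318) (nat_lit 152) (nat_lit 7852031309) (nat_lit 228) (nat_lit 8134224214) (nat_lit 67) (nat_lit 5) (nat_lit 69) (nat_lit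 5) (nat_lit 70) (nat_lit 5) (nat_lit 426) (nat_lit 409) (nat_lit 365)) (XT.lf (nat_lit 0) (nat_lit 11901669939) (nat_lit 152) (nat_lit 1037368045) (nat_lit 228) (nat_lit 4778534423) (nat_lit 67) (nat_lit 5) (nat_lit 69) (nat_lit 5) (nat_lit 70) (nat_lit 5) (nat_lit 427) (nat_lit 409) (nat_lit 364))) (XT.nd (nat_lit 78) (nat_lit 76) (nat_lit 0) (XT.lf (nat_lit 0) (nat_lit 5227362764) (nat_lit 152) (nat_lit 12421901923) (nat_lit 228) (nat_lit 891390536) (nat_lit 65) (nat_lit 5) (nat_lit 67) (nat_lit 5) (nat_lit 68) (nat_lit 5) (nat_lit 428) (nat_lit 409) (nat_lit 363)) (XT.lf (nat_lit 0) (nat_lit 3297652326) (nat_lit 228) (nat_lit 2093284622) (nat_lit 76) (nat_lit 14019780601) (nat_lit 64) (nat_lit 5) (nat_lit 67) (nat_lit 5) (nat_lit 65) (nat_lit 5) (nat_lit 429) (nat_lit 409) (nat_lit 362))))))))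
noncomputable def xc115 : XT := (XT.nd (nat_lit 2184) (nat_lit 1748) (nat_lit 0) (XT.nd (nat_lit 1092) (nat_lit 988) (nat_lit 0) (XT.nd (nat_lit 546) (nat_lit 608) (nat_lit 0) (XT.nd (nat_lit 234) (nat_lit 380) (nat_lit 0) (XT.nd (nat_lit 78) (nat_lit 152) (nat_lit 0) (XT.lf (nat_lit 0) (nat_lit 8054158691) (nat_lit 228) (nat_lit 9912181831) (nat_lit 76) (nat_lit 2359754536) (nat_lit 62) (nat_lit 5) (nat_lit 65) (nat_lit 5) (nat_lit 63) (nat_lit 5) (nat_lit 430) (nat_lit 409) (nat_lit 361)) (XT.nd (nat_lit 78) (nat_lit 0) (nat_lit 0) (XT.lf (nat_lit 0) (nat_lit 2675170476) (nat_lit 152) (nat_lit 10748686906) (nat_lit 228) (nat_lit 7872233774) (nat_lit 60) (nat_lit 5) (nat_lit 62) (nat_lit 5) (nat_lit 63) (nat_lit 5) (nat_lit 431) (nat_lit 409) (nat_lit 360)) (XT.lf (nat_lit 0) (nat_lit 16786683161) (nat_lit 152) (nat_lit 2678187614) (nat_lit 228) (nat_lit 2859479038) (nat_lit 60) (nat_lit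 5) (nat_lit 62) (nat_lit 5) (nat_lit 63) (nat_lit 5) (nat_lit 432) (nat_lit 409) (nat_lit 359)))) (XT.nd (nat_lit 156) (nat_lit 228) (nat_lit 0) (XT.nd (nat_lit 78) (nat_lit 0) (nat_lit 0) (XT.lf (nat_lit 0) (nat_lit 2765532854) (nat_lit 152) (nat_lit 14633853449) (nat_lit 76) (nat_lit 6003449040) (nat_lit 58) (nat_lit 5) (nat_lit 60) (nat_lit 5) (nat_lit 59) (nat_lit 5) (nat_lit 433) (nat_lit 409) (nat_lit 358)) (XT.lf (nat_lit 0) (nat_lit 8883766011) (nat_lit 152) (nat_lit 213339319) (nat_lit 76) (nat_lit 15448737662) (nat_lit 58) (nat_lit 5) (nat_lit 60) (nat_lit 5) (nat_lit 59) (nat_lit 5) (nat_lit 434) (nat_lit 409) (nat_lit 357))) (XT.nd (nat_lit 78) (nat_lit 76) (nat_lit 0) (XT.lf (nat_lit 0) (nat_lit 15860626754) (nat_lit 228) (nat_lit 9632158113) (nat_lit 76) (nat_lit 257974324) (nat_lit 56) (nat_lit 5) (nat_lit 59) (nat_lit 5) (nat_lit 57) (nat_lit 4) (nat_lit 435) (nat_lit 409)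 (nat_lit 356)) (XT.lf (nat_lit 0) (nat_lit 6777924730) (nat_lit 76) (nat_lit 16998298208) (nat_lit 152) (nat_lit 3245400164) (nat_lit 55) (nat_lit 5) (nat_lit 56) (nat_lit 5) (nat_lit 57) (nat_lit 4) (nat_lit 436) (nat_lit 409) (nat_lit 355))))) (XT.nd (nat_lit 234) (nat_lit 304) (nat_lit 0) (XT.nd (nat_lit 78) (nat_lit 228) (nat_lit 0) (XT.lf (nat_lit 0) (nat_lit 3979992064) (nat_lit 152) (nat_lit 3468403530) (nat_lit 76) (nat_lit 20918540890) (nat_lit 54) (nat_lit 5) (nat_lit 56) (nat_lit 5) (nat_lit 55) (nat_lit 5) (nat_lit 437) (nat_lit 409) (nat_lit 354)) (XT.nd (nat_lit 78) (nat_lit 76) (nat_lit 0) (XT.lf (nat_lit 0) (nat_lit 12033395013) (nat_lit 228) (nat_lit 14575679389) (nat_lit 76) (nat_lit 3170032693) (nat_lit 52) (nat_lit 5) (nat_lit 55) (nat_lit 5) (nat_lit 53) (nat_lit 4) (nat_lit 438) (nat_lit 409) (nat_lit 353)) (XT.lf (nat_lit 0) (nat_lit 4246332793) (nat_lit 76) (nat_lit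 16855315278) (nat_lit 152) (nat_lit 10172958041) (nat_lit 51) (nat_lit 5) (nat_lit 52) (nat_lit 5) (nat_lit 53) (nat_lit 4) (nat_lit 439) (nat_lit 409) (nat_lit 352)))) (XT.nd (nat_lit 156) (nat_lit 76) (nat_lit 0) (XT.nd (nat_lit 78) (nat_lit 228) (nat_lit 0) (XT.lf (nat_lit 0) (nat_lit 25364294249) (nat_lit 76) (nat_lit 5908005777) (nat_lit 152) (nat_lit 1587290846) (nat_lit 51) (nat_lit 5) (nat_lit 52) (nat_lit 5) (nat_lit 53) (nat_lit 4) (nat_lit 440) (nat_lit 409) (nat_lit 351)) (XT.lf (nat_lit 0) (nat_lit 7774433816) (nat_lit 228) (nat_lit 20603570324) (nat_lit 76) (nat_lit 6140692629) (nat_lit 48) (nat_lit 5) (nat_lit 51) (nat_lit 5) (nat_lit 49) (nat_lit 4) (nat_lit 441) (nat_lit 409) (nat_lit 350))) (XT.nd (nat_lit 78) (nat_lit 0) (nat_lit 0) (XT.lf (nat_lit 0) (nat_lit 982431293) (nat_lit 76) (nat_lit 17184006914) (nat_lit 152) (nat_lit 18111427656) (nat_lit 47) (nat_lit 5) (nat_lit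 48) (nat_lit 5) (nat_lit 49) (nat_lit 4) (nat_lit 442) (nat_lit 409) (nat_lit 349)) (XT.lf (nat_lit 0) (nat_lit 25430779547) (nat_lit 76) (nat_lit 4502745389) (nat_lit 152) (nat_lit 8200746460) (nat_lit 47) (nat_lit 5) (nat_lit 48) (nat_lit 5) (nat_lit 49) (nat_lit 4) (nat_lit 443) (nat_lit 409) (nat_lit 348)))))) (XT.nd (nat_lit 546) (nat_lit 456) (nat_lit 0) (XT.nd (nat_lit 234) (nat_lit 304) (nat_lit 0) (XT.nd (nat_lit 78) (nat_lit 76) (nat_lit 0) (XT.lf (nat_lit 0) (nat_lit 2882552360) (nat_lit 152) (nat_lit 28130337601) (nat_lit 76) (nat_lit 9081087593) (nat_lit 45) (nat_lit 5) (nat_lit 47) (nat_lit 5) (nat_lit 46) (nat_lit 4) (nat_lit 444) (nat_lit 409) (nat_lit 347)) (XT.nd (nat_lit 78) (nat_lit 76) (nat_lit 0) (XT.lf (nat_lit 0) (nat_lit 14864332524) (nat_lit 152) (nat_lit 3229820859) (nat_lit 76) (nat_lit 24062877184) (nat_lit 45) (nat_lit 5) (nat_lit 47) (nat_lit 5) (nat_lit 46)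 (nat_lit 4) (nat_lit 445) (nat_lit 409) (nat_lit 346)) (XT.lf (nat_lit 0) (nat_lit 24874889055) (nat_lit 76) (nat_lit 3510932389) (nat_lit 152) (nat_lit 15952813565) (nat_lit 44) (nat_lit 5) (nat_lit 45) (nat_lit 5) (nat_lit 46) (nat_lit 4) (nat_lit 446) (nat_lit 409) (nat_lit 345)))) (XT.nd (nat_lit 156) (nat_lit 152) (nat_lit 0) (XT.nd (nat_lit 78) (nat_lit 76) (nat_lit 0) (XT.lf (nat_lit 0) (nat_lit 8837033603) (nat_lit 76) (nat_lit 34732555173) (nat_lit 76) (nat_lit 3078734742) (nat_lit 43) (nat_lit 4) (nat_lit 44) (nat_lit 5) (nat_lit 44) (nat_lit 4) (nat_lit 447) (nat_lit 409) (nat_lit 344)) (XT.lf (nat_lit 0) (nat_lit 10904082430) (nat_lit 152) (nat_lit 8989195330) (nat_lit 76) (nat_lit 29179055028) (nat_lit 42) (nat_lit 5) (nat_lit 44) (nat_lit 5) (nat_lit 43) (nat_lit 4) (nat_lit 448) (nat_lit 409) (nat_lit 343))) (XT.nd (nat_lit 78) (nat_lit 76) (nat_lit 0) (XT.lf (nat_lit 0) (nat_lit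 23188677991) (nat_lit 76) (nat_lit 3192598857) (nat_lit 152) (nat_lit 25259222261) (nat_lit 41) (nat_lit 5) (nat_lit 42) (nat_lit 5) (nat_lit 43) (nat_lit 4) (nat_lit 449) (nat_lit 409) (nat_lit 342)) (XT.lf (nat_lit 0) (nat_lit 3856977474) (nat_lit 76) (nat_lit 39926104457) (nat_lit 76) (nat_lit 10576122332) (nat_lit 40) (nat_lit 4) (nat_lit 41) (nat_lit 5) (nat_lit 41) (nat_lit 4) (nat_lit 450) (nat_lit 409) (nat_lit 341))))) (XT.nd (nat_lit 234) (nat_lit 304) (nat_lit 0) (XT.nd (nat_lit 78) (nat_lit 76) (nat_lit 0) (XT.lf (nat_lit 0) (nat_lit 5883029525) (nat_lit 152) (nat_lit 17124942957) (nat_lit 76) (nat_lit 34208022800) (nat_lit 39) (nat_lit 5) (nat_lit 41) (nat_lit 5) (nat_lit 40) (nat_lit 4) (nat_lit 451) (nat_lit 409) (nat_lit 340)) (XT.nd (nat_lit 78) (nat_lit 0) (nat_lit 0) (XT.lf (nat_lit 0) (nat_lit 19600366651) (nat_lit 76) (nat_lit 3944253250) (nat_lit 152) (nat_lit 36698166256)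 (nat_lit 38) (nat_lit 5) (nat_lit 39) (nat_lit 5) (nat_lit 40) (nat_lit 4) (nat_lit 452) (nat_lit 409) (nat_lit 339)) (XT.lf (nat_lit 0) (nat_lit 43485613290) (nat_lit 152) (nat_lit 3677140015) (nat_lit 0) (nat_lit 16279649180) (nat_lit 38) (nat_lit 5) (nat_lit 40) (nat_lit 4) (nat_lit 38) (nat_lit 4) (nat_lit 453) (nat_lit 409) (nat_lit 338)))) (XT.nd (nat_lit 156) (nat_lit 76) (nat_lit 0) (XT.nd (nat_lit 78) (nat_lit 152) (nat_lit 0) (XT.lf (nat_lit 0) (nat_lit 38018819342) (nat_lit 76) (nat_lit 28006707000) (nat_lit 76) (nat_lit 792170792) (nat_lit 37) (nat_lit 4) (nat_lit 38) (nat_lit 5) (nat_lit 38) (nat_lit 4) (nat_lit 454) (nat_lit 409) (nat_lit 337)) (XT.lf (nat_lit 0) (nat_lit 12944832232) (nat_lit 76) (nat_lit 6366372367) (nat_lit 152) (nat_lit 51081404740) (nat_lit 35) (nat_lit 5) (nat_lit 36) (nat_lit 5) (nat_lit 37) (nat_lit 4) (nat_lit 455) (nat_lit 409) (nat_lit 336))) (XT.nd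 (nat_lit 78) (nat_lit 76) (nat_lit 0) (XT.lf (nat_lit 0) (nat_lit 42183825863) (nat_lit 152) (nat_lit 15000713651) (nat_lit 0) (nat_lit 16971027226) (nat_lit 35) (nat_lit 5) (nat_lit 37) (nat_lit 4) (nat_lit 35) (nat_lit 4) (nat_lit 456) (nat_lit 409) (nat_lit 335)) (XT.lf (nat_lit 0) (nat_lit 32266751933) (nat_lit 76) (nat_lit 35548783050) (nat_lit 76) (nat_lit 10329683666) (nat_lit 34) (nat_lit 4) (nat_lit 35) (nat_lit 5) (nat_lit 35) (nat_lit 4) (nat_lit 457) (nat_lit 409) (nat_lit 334))))))) (XT.nd (nat_lit 1092) (nat_lit 836) (nat_lit 0) (XT.nd (nat_lit 546) (nat_lit 456) (nat_lit 0) (XT.nd (nat_lit 234) (nat_lit 228) (nat_lit 0) (XT.nd (nat_lit 78) (nat_lit 76) (nat_lit 0) (XT.lf (nat_lit 0) (nat_lit 1472659021) (nat_lit 76) (nat_lit 11362721954) (nat_lit 152) (nat_lit 69558034225) (nat_lit 32) (nat_lit 5) (nat_lit 33) (nat_lit 5) (nat_lit 34) (nat_lit 4) (nat_lit 458) (nat_lit 409)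 (nat_lit 333)) (XT.nd (nat_lit 78) (nat_lit 76) (nat_lit 0) (XT.lf (nat_lit 0) (nat_lit 38925467281) (nat_lit 152) (nat_lit 32340099315) (nat_lit 0) (nat_lit 15564045720) (nat_lit 32) (nat_lit 5) (nat_lit 34) (nat_lit 4) (nat_lit 32) (nat_lit 4) (nat_lit 459) (nat_lit 409) (nat_lit 332)) (XT.lf (nat_lit 0) (nat_lit 20852611447) (nat_lit 76) (nat_lit 47035653172) (nat_lit 76) (nat_lit 23669600374) (nat_lit 31) (nat_lit 4) (nat_lit 32) (nat_lit 5) (nat_lit 32) (nat_lit 4) (nat_lit 460) (nat_lit 409) (nat_lit 331)))) (XT.nd (nat_lit 156) (nat_lit 76) (nat_lit 0) (XT.nd (nat_lit 78) (nat_lit 76) (nat_lit 0) (XT.lf (nat_lit 0) (nat_lit 3274546149) (nat_lit 152) (nat_lit 16559284990) (nat_lit 76) (nat_lit 76754043001) (nat_lit 30) (nat_lit 5) (nat_lit 32) (nat_lit 5) (nat_lit 31) (nat_lit 4) (nat_lit 461) (nat_lit 409) (nat_lit 330)) (XT.lf (nat_lit 0) (nat_lit 32402690655) (nat_lit 152) (nat_lit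 58704021101) (nat_lit 0) (nat_lit 10759809617) (nat_lit 29) (nat_lit 5) (nat_lit 31) (nat_lit 4) (nat_lit 29) (nat_lit 4) (nat_lit 462) (nat_lit 409) (nat_lit 329))) (XT.nd (nat_lit 78) (nat_lit 0) (nat_lit 0) (XT.lf (nat_lit 0) (nat_lit 552457557) (nat_lit 76) (nat_lit 64291335764) (nat_lit 76) (nat_lit 42645050628) (nat_lit 28) (nat_lit 4) (nat_lit 29) (nat_lit 5) (nat_lit 29) (nat_lit 4) (nat_lit 463) (nat_lit 409) (nat_lit 328)) (XT.lf (nat_lit 0) (nat_lit 67867746232) (nat_lit 76) (nat_lit 33607518413) (nat_lit 76) (nat_lit 11958081334) (nat_lit 28) (nat_lit 4) (nat_lit 29) (nat_lit 5) (nat_lit 29) (nat_lit 4) (nat_lit 464) (nat_lit 409) (nat_lit 327))))) (XT.nd (nat_lit 234) (nat_lit 228) (nat_lit 0) (XT.nd (nat_lit 78) (nat_lit 76) (nat_lit 0) (XT.lf (nat_lit 0) (nat_lit 20640685614) (nat_lit 152) (nat_lit 98538433263) (nat_lit 0) (nat_lit 592208259) (nat_lit 26) (nat_lit 5) (nat_lit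 28) (nat_lit 4) (nat_lit 26) (nat_lit 4) (nat_lit 465) (nat_lit 409) (nat_lit 326)) (XT.nd (nat_lit 78) (nat_lit 76) (nat_lit 0) (XT.lf (nat_lit 0) (nat_lit 57342964032) (nat_lit 152) (nat_lit 31785217726) (nat_lit 0) (nat_lit 37291984563) (nat_lit 26) (nat_lit 5) (nat_lit 28) (nat_lit 4) (nat_lit 26) (nat_lit 4) (nat_lit 466) (nat_lit 409) (nat_lit 325)) (XT.lf (nat_lit 0) (nat_lit 42412024593) (nat_lit 76) (nat_lit 55580642482) (nat_lit 76) (nat_lit 35527346241) (nat_lit 25) (nat_lit 4) (nat_lit 26) (nat_lit 5) (nat_lit 26) (nat_lit 4) (nat_lit 467) (nat_lit 409) (nat_lit 324)))) (XT.nd (nat_lit 156) (nat_lit 76) (nat_lit 0) (XT.nd (nat_lit 78) (nat_lit 76) (nat_lit 0) (XT.lf (nat_lit 0) (nat_lit 1554035017) (nat_lit 152) (nat_lit 16823048563) (nat_lit 76) (nat_lit 122738774949) (nat_lit 24) (nat_lit 5) (nat_lit 26) (nat_lit 5) (nat_lit 25) (nat_lit 4) (nat_lit 468) (nat_lit 409) (nat_lit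 323)) (XT.lf (nat_lit 0) (nat_lit 41845017067) (nat_lit 152) (nat_lit 83954207312) (nat_lit 0) (nat_lit 23273324790) (nat_lit 23) (nat_lit 5) (nat_lit 25) (nat_lit 4) (nat_lit 23) (nat_lit 4) (nat_lit 469) (nat_lit 409) (nat_lit 322))) (XT.nd (nat_lit 78) (nat_lit 76) (nat_lit 0) (XT.lf (nat_lit 0) (nat_lit 86300429264) (nat_lit 152) (nat_lit 3563019623) (nat_lit 0) (nat_lit 67727034091) (nat_lit 23) (nat_lit 5) (nat_lit 25) (nat_lit 4) (nat_lit 23) (nat_lit 4) (nat_lit 470) (nat_lit 409) (nat_lit 321)) (XT.lf (nat_lit 0) (nat_lit 87627624588) (nat_lit 76) (nat_lit 48784601377) (nat_lit 76) (nat_lit 30209629448) (nat_lit 22) (nat_lit 4) (nat_lit 23) (nat_lit 5) (nat_lit 23) (nat_lit 4) (nat_lit 471) (nat_lit 409) (nat_lit 320)))))) (XT.nd (nat_lit 546) (nat_lit 380) (nat_lit 0) (XT.nd (nat_lit 234) (nat_lit 228) (nat_lit 0) (XT.nd (nat_lit 78) (nat_lit 76) (nat_lit 0) (XT.lf (nat_lit 0)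 (nat_lit 10094847919) (nat_lit 76) (nat_lit 3689421218) (nat_lit 152) (nat_lit 162537410622) (nat_lit 20) (nat_lit 5) (nat_lit 21) (nat_lit 5) (nat_lit 22) (nat_lit 4) (nat_lit 472) (nat_lit 409) (nat_lit 319)) (XT.nd (nat_lit 78) (nat_lit 76) (nat_lit 0) (XT.lf (nat_lit 0) (nat_lit 62956612300) (nat_lit 152) (nat_lit 77759860818) (nat_lit 0) (nat_lit 45754960724) (nat_lit 20) (nat_lit 5) (nat_lit 22) (nat_lit 4) (nat_lit 20) (nat_lit 4) (nat_lit 473) (nat_lit 409) (nat_lit 318)) (XT.lf (nat_lit 0) (nat_lit 18605134810) (nat_lit 76) (nat_lit 97993967626) (nat_lit 76) (nat_lit 80791157087) (nat_lit 19) (nat_lit 4) (nat_lit 20) (nat_lit 5) (nat_lit 20) (nat_lit 4) (nat_lit 474) (nat_lit 409) (nat_lit 317)))) (XT.nd (nat_lit 156) (nat_lit 76) (nat_lit 0) (XT.nd (nat_lit 78) (nat_lit 152) (nat_lit 0) (XT.lf (nat_lit 0) (nat_lit 127087753826) (nat_lit 76) (nat_lit 49564586609) (nat_lit 76) (nat_lit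 32360702957) (nat_lit 19) (nat_lit 4) (nat_lit 20) (nat_lit 5) (nat_lit 20) (nat_lit 4) (nat_lit 475) (nat_lit 409) (nat_lit 316)) (XT.lf (nat_lit 0) (nat_lit 19594641772) (nat_lit 152) (nat_lit 198216584255) (nat_lit 0) (nat_lit 3664199850) (nat_lit 17) (nat_lit 5) (nat_lit 19) (nat_lit 4) (nat_lit 17) (nat_lit 4) (nat_lit 476) (nat_lit 409) (nat_lit 315))) (XT.nd (nat_lit 78) (nat_lit 76) (nat_lit 0) (XT.lf (nat_lit 0) (nat_lit 77537252650) (nat_lit 152) (nat_lit 95438011895) (nat_lit 0) (nat_lit 61605958855) (nat_lit 17) (nat_lit 5) (nat_lit 19) (nat_lit 4) (nat_lit 17) (nat_lit 4) (nat_lit 477) (nat_lit 409) (nat_lit 314)) (XT.lf (nat_lit 0) (nat_lit 16369523824) (nat_lit 76) (nat_lit 124133511237) (nat_lit 76) (nat_lit 108201428672) (nat_lit 16) (nat_lit 4) (nat_lit 17) (nat_lit 5) (nat_lit 17) (nat_lit 4) (nat_lit 478) (nat_lit 409) (nat_lit 313))))) (XT.nd (nat_lit 312) (nat_lit 228)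 (nat_lit 0) (XT.nd (nat_lit 156) (nat_lit 76) (nat_lit 0) (XT.nd (nat_lit 78) (nat_lit 76) (nat_lit 0) (XT.lf (nat_lit 0) (nat_lit 142537423059) (nat_lit 76) (nat_lit 68572329673) (nat_lit 76) (nat_lit 52639516764) (nat_lit 16) (nat_lit 4) (nat_lit 17) (nat_lit 5) (nat_lit 17) (nat_lit 4) (nat_lit 479) (nat_lit 409) (nat_lit 312)) (XT.lf (nat_lit 0) (nat_lit 6993320504) (nat_lit 152) (nat_lit 1387382502) (nat_lit 76) (nat_lit 271603220581) (nat_lit 15) (nat_lit 5) (nat_lit 17) (nat_lit 5) (nat_lit 16) (nat_lit 4) (nat_lit 480) (nat_lit 409) (nat_lit 311))) (XT.nd (nat_lit 78) (nat_lit 0) (nat_lit 0) (XT.lf (nat_lit 0) (nat_lit 73234542294) (nat_lit 152) (nat_lit 165318162387) (nat_lit 0) (nat_lit 58480731828) (nat_lit 14) (nat_lit 5) (nat_lit 16) (nat_lit 4) (nat_lit 14) (nat_lit 4) (nat_lit 481) (nat_lit 409) (nat_lit 310)) (XT.lf (nat_lit 0) (nat_lit 145026589181) (nat_lit 152) (nat_lit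 40127957221) (nat_lit 0) (nat_lit 130272241891) (nat_lit 14) (nat_lit 5) (nat_lit 16) (nat_lit 4) (nat_lit 14) (nat_lit 4) (nat_lit 482) (nat_lit 409) (nat_lit 309)))) (XT.nd (nat_lit 156) (nat_lit 152) (nat_lit 0) (XT.nd (nat_lit 78) (nat_lit 0) (nat_lit 0) (XT.lf (nat_lit 0) (nat_lit 100073879459) (nat_lit 76) (nat_lit 124890203245) (nat_lit 76) (nat_lit 110135358896) (nat_lit 13) (nat_lit 4) (nat_lit 14) (nat_lit 5) (nat_lit 14) (nat_lit 4) (nat_lit 483) (nat_lit 409) (nat_lit 308)) (XT.lf (nat_lit 0) (nat_lit 253764535115) (nat_lit 76) (nat_lit 58624634571) (nat_lit 76) (nat_lit 43869329982) (nat_lit 13) (nat_lit 4) (nat_lit 14) (nat_lit 5) (nat_lit 14) (nat_lit 4) (nat_lit 484) (nat_lit 409) (nat_lit 307))) (XT.nd (nat_lit 78) (nat_lit 0) (nat_lit 0) (XT.lf (nat_lit 0) (nat_lit 27674573573) (nat_lit 152) (nat_lit 337261585318) (nat_lit 0) (nat_lit 14011859927) (nat_lit 11) (nat_lit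 5) (nat_lit 13) (nat_lit 4) (nat_lit 11) (nat_lit 4) (nat_lit 485) (nat_lit 409) (nat_lit 306)) (XT.lf (nat_lit 0) (nat_lit 106965435951) (nat_lit 152) (nat_lit 202742267173) (nat_lit 0) (nat_lit 93302356952) (nat_lit 11) (nat_lit 5) (nat_lit 13) (nat_lit 4) (nat_lit 11) (nat_lit 4) (nat_lit 486) (nat_lit 409) (nat_lit 305))))))))
noncomputable def xc116 : XT := (XT.nd (nat_lit 2184) (nat_lit 76) (nat_lit 0) (XT.nd (nat_lit 1092) (nat_lit 228) (nat_lit 0) (XT.nd (nat_lit 546) (nat_lit 228) (nat_lit 0) (XT.nd (nat_lit 234) (nat_lit 152) (nat_lit 0) (XT.nd (nat_lit 78) (nat_lit 76) (nat_lit 0) (XT.lf (nat_lit 0) (nat_lit 192595545718) (nat_lit 152) (nat_lit 57469712226) (nat_lit 0) (nat_lit 178932128428) (nat_lit 11) (nat_lit 5) (nat_lit 13) (nat_lit 4) (nat_lit 11) (nat_lit 4) (nat_lit 487) (nat_lit 409) (nat_lit 304)) (XT.nd (nat_lit 78) (nat_lit 0) (nat_lit 0) (XT.lf (nat_lit 0) (nat_lit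 104652074533) (nat_lit 76) (nat_lit 182937150936) (nat_lit 76) (nat_lit 169273420415) (nat_lit 10) (nat_lit 4) (nat_lit 11) (nat_lit 5) (nat_lit 11) (nat_lit 4) (nat_lit 488) (nat_lit 409) (nat_lit 303)) (XT.lf (nat_lit 0) (nat_lit 283004459260) (nat_lit 76) (nat_lit 108745635905) (nat_lit 76) (nat_lit 95081615354) (nat_lit 10) (nat_lit 4) (nat_lit 11) (nat_lit 5) (nat_lit 11) (nat_lit 4) (nat_lit 489) (nat_lit 409) (nat_lit 302)))) (XT.nd (nat_lit 156) (nat_lit 0) (nat_lit 0) (XT.nd (nat_lit 78) (nat_lit 152) (nat_lit 0) (XT.lf (nat_lit 0) (nat_lit 475618091776) (nat_lit 76) (nat_lit 28622383204) (nat_lit 76) (nat_lit 14958094109) (nat_lit 10) (nat_lit 4) (nat_lit 11) (nat_lit 5) (nat_lit 11) (nat_lit 4) (nat_lit 490) (nat_lit 409) (nat_lit 301)) (XT.lf (nat_lit 0) (nat_lit 72747405525) (nat_lit 152) (nat_lit 420794397355) (nat_lit 0) (nat_lit 60095055757) (nat_lit 8) (nat_lit 5) (nat_lit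 10) (nat_lit 4) (nat_lit 8) (nat_lit 4) (nat_lit 491) (nat_lit 409) (nat_lit 300))) (XT.nd (nat_lit 78) (nat_lit 0) (nat_lit 0) (XT.lf (nat_lit 0) (nat_lit 168623985844) (nat_lit 152) (nat_lit 266046699554) (nat_lit 0) (nat_lit 155971422896) (nat_lit 8) (nat_lit 5) (nat_lit 10) (nat_lit 4) (nat_lit 8) (nat_lit 4) (nat_lit 492) (nat_lit 409) (nat_lit 299)) (XT.lf (nat_lit 0) (nat_lit 272167739356) (nat_lit 152) (nat_lit 98925295816) (nat_lit 0) (nat_lit 259514979018) (nat_lit 8) (nat_lit 5) (nat_lit 10) (nat_lit 4) (nat_lit 8) (nat_lit 4) (nat_lit 493) (nat_lit 409) (nat_lit 298))))) (XT.nd (nat_lit 234) (nat_lit 152) (nat_lit 0) (XT.nd (nat_lit 78) (nat_lit 0) (nat_lit 0) (XT.lf (nat_lit 0) (nat_lit 85854976561) (nat_lit 76) (nat_lit 300202096362) (nat_lit 76) (nat_lit 287549153257) (nat_lit 7) (nat_lit 4) (nat_lit 8) (nat_lit 5) (nat_lit 8) (nat_lit 4) (nat_lit 494) (nat_lit 409) (nat_lit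 297)) (XT.nd (nat_lit 78) (nat_lit 0) (nat_lit 0) (XT.lf (nat_lit 0) (nat_lit 291038125878) (nat_lit 76) (nat_lit 220721555660) (nat_lit 76) (nat_lit 208068443326) (nat_lit 7) (nat_lit 4) (nat_lit 8) (nat_lit 5) (nat_lit 8) (nat_lit 4) (nat_lit 495) (nat_lit 409) (nat_lit 296)) (XT.lf (nat_lit 0) (nat_lit 512630821511) (nat_lit 76) (nat_lit 134885210168) (nat_lit 76) (nat_lit 122231941140) (nat_lit 7) (nat_lit 4) (nat_lit 8) (nat_lit 5) (nat_lit 8) (nat_lit 4) (nat_lit 496) (nat_lit 409) (nat_lit 295)))) (XT.nd (nat_lit 156) (nat_lit 0) (nat_lit 0) (XT.nd (nat_lit 78) (nat_lit 152) (nat_lit 0) (XT.lf (nat_lit 0) (nat_lit 751946205361) (nat_lit 76) (nat_lit 42184400061) (nat_lit 76) (nat_lit 29530985946) (nat_lit 7) (nat_lit 4) (nat_lit 8) (nat_lit 5) (nat_lit 8) (nat_lit 4) (nat_lit 497) (nat_lit 409) (nat_lit 294)) (XT.lf (nat_lit 0) (nat_lit 71784123956) (nat_lit 152) (nat_lit 749522166119)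 (nat_lit 0) (nat_lit 60067875387) (nat_lit 5) (nat_lit 5) (nat_lit 7) (nat_lit 4) (nat_lit 5) (nat_lit 4) (nat_lit 498) (nat_lit 409) (nat_lit 293))) (XT.nd (nat_lit 78) (nat_lit 0) (nat_lit 0) (XT.lf (nat_lit 0) (nat_lit 182714288255) (nat_lit 152) (nat_lit 589681746763) (nat_lit 0) (nat_lit 170997924511) (nat_lit 5) (nat_lit 5) (nat_lit 7) (nat_lit 4) (nat_lit 5) (nat_lit 4) (nat_lit 499) (nat_lit 409) (nat_lit 292)) (XT.lf (nat_lit 0) (nat_lit 302516857269) (nat_lit 152) (nat_lit 417058253647) (nat_lit 0) (nat_lit 290800386883) (nat_lit 5) (nat_lit 5) (nat_lit 7) (nat_lit 4) (nat_lit 5) (nat_lit 4) (nat_lit 500) (nat_lit 409) (nat_lit 291)))))) (XT.nd (nat_lit 546) (nat_lit 152) (nat_lit 0) (XT.nd (nat_lit 234) (nat_lit 0) (nat_lit 0) (XT.nd (nat_lit 78) (nat_lit 76) (nat_lit 0) (XT.lf (nat_lit 0) (nat_lit 431901772149) (nat_lit 152) (nat_lit 230628732737) (nat_lit 0) (nat_lit 420185203019)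 (nat_lit 5) (nat_lit 5) (nat_lit 7) (nat_lit 4) (nat_lit 5) (nat_lit 4) (nat_lit 501) (nat_lit 409) (nat_lit 290)) (XT.nd (nat_lit 78) (nat_lit 76) (nat_lit 0) (XT.lf (nat_lit 0) (nat_lit 571635758315) (nat_lit 152) (nat_lit 29288416503) (nat_lit 0) (nat_lit 559919097756) (nat_lit 5) (nat_lit 5) (nat_lit 7) (nat_lit 4) (nat_lit 5) (nat_lit 4) (nat_lit 502) (nat_lit 409) (nat_lit 289)) (XT.lf (nat_lit 0) (nat_lit 198063775047) (nat_lit 76) (nat_lit 529246532526) (nat_lit 76) (nat_lit 517529787310) (nat_lit 4) (nat_lit 4) (nat_lit 5) (nat_lit 5) (nat_lit 5) (nat_lit 4) (nat_lit 503) (nat_lit 409) (nat_lit 288)))) (XT.nd (nat_lit 156) (nat_lit 0) (nat_lit 0) (XT.nd (nat_lit 78) (nat_lit 0) (nat_lit 0) (XT.lf (nat_lit 0) (nat_lit 445266581544) (nat_lit 76) (nat_lit 450971482777) (nat_lit 76) (nat_lit 439254659174) (nat_lit 4) (nat_lit 4) (nat_lit 5) (nat_lit 5) (nat_lit 5) (nat_lit 4) (nat_lit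 504) (nat_lit 409) (nat_lit 287)) (XT.lf (nat_lit 0) (nat_lit 712242632400) (nat_lit 76) (nat_lit 366435970633) (nat_lit 76) (nat_lit 354719074451) (nat_lit 4) (nat_lit 4) (nat_lit 5) (nat_lit 5) (nat_lit 5) (nat_lit 4) (nat_lit 505) (nat_lit 409) (nat_lit 286))) (XT.nd (nat_lit 78) (nat_lit 0) (nat_lit 0) (XT.lf (nat_lit 0) (nat_lit 1000574007916) (nat_lit 76) (nat_lit 275139044912) (nat_lit 76) (nat_lit 263422081527) (nat_lit 4) (nat_lit 4) (nat_lit 5) (nat_lit 5) (nat_lit 5) (nat_lit 4) (nat_lit 506) (nat_lit 409) (nat_lit 285)) (XT.lf (nat_lit 0) (nat_lit 1311969338464) (nat_lit 76) (nat_lit 176539686796) (nat_lit 76) (nat_lit 164822661186) (nat_lit 4) (nat_lit 4) (nat_lit 5) (nat_lit 5) (nat_lit 5) (nat_lit 4) (nat_lit 507) (nat_lit 409) (nat_lit 284))))) (XT.nd (nat_lit 234) (nat_lit 0) (nat_lit 0) (XT.nd (nat_lit 78) (nat_lit 152) (nat_lit 0) (XT.lf (nat_lit 0) (nat_lit 1648273929707)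 (nat_lit 76) (nat_lit 70053603791) (nat_lit 76) (nat_lit 58336520565) (nat_lit 4) (nat_lit 4) (nat_lit 5) (nat_lit 5) (nat_lit 5) (nat_lit 4) (nat_lit 508) (nat_lit 409) (nat_lit 283)) (XT.nd (nat_lit 78) (nat_lit 0) (nat_lit 0) (XT.lf (nat_lit 0) (nat_lit 57553110412) (nat_lit 152) (nat_lit 1805199409472) (nat_lit 0) (nat_lit 46703909880) (nat_lit 2) (nat_lit 5) (nat_lit 4) (nat_lit 4) (nat_lit 2) (nat_lit 4) (nat_lit 509) (nat_lit 409) (nat_lit 282)) (XT.lf (nat_lit 0) (nat_lit 184982307295) (nat_lit 152) (nat_lit 1693202001833) (nat_lit 0) (nat_lit 174133061026) (nat_lit 2) (nat_lit 5) (nat_lit 4) (nat_lit 4) (nat_lit 2) (nat_lit 4) (nat_lit 510) (nat_lit 409) (nat_lit 281)))) (XT.nd (nat_lit 156) (nat_lit 0) (nat_lit 0) (XT.nd (nat_lit 78) (nat_lit 0) (nat_lit 0) (XT.lf (nat_lit 0) (nat_lit 322604835808) (nat_lit 152) (nat_lit 1572246883110) (nat_lit 0) (nat_lit 311755547189) (nat_lit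 2) (nat_lit 5) (nat_lit 4) (nat_lit 4) (nat_lit 2) (nat_lit 4) (nat_lit 511) (nat_lit 409) (nat_lit 280)) (XT.lf (nat_lit 0) (nat_lit 471236236861) (nat_lit 152) (nat_lit 1441617282228) (nat_lit 0) (nat_lit 460386909029) (nat_lit 2) (nat_lit 5) (nat_lit 4) (nat_lit 4) (nat_lit 2) (nat_lit 4) (nat_lit 512) (nat_lit 409) (nat_lit 279))) (XT.nd (nat_lit 78) (nat_lit 0) (nat_lit 0) (XT.lf (nat_lit 0) (nat_lit 631757289125) (nat_lit 152) (nat_lit 1300539097849) (nat_lit 0) (nat_lit 620907924985) (nat_lit 2) (nat_lit 5) (nat_lit 4) (nat_lit 4) (nat_lit 2) (nat_lit 4) (nat_lit 513) (nat_lit 409) (nat_lit 278)) (XT.lf (nat_lit 0) (nat_lit 805119228466) (nat_lit 152) (nat_lit 1148176311103) (nat_lit 0) (nat_lit 794269830709) (nat_lit 2) (nat_lit 5) (nat_lit 4) (nat_lit 4) (nat_lit 2) (nat_lit 4) (nat_lit 514) (nat_lit 409) (nat_lit 277))))))) (XT.nd (nat_lit 1092) (nat_lit 0) (nat_lit 0) (XT.nd (nat_lit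 546) (nat_lit 0) (nat_lit 0) (XT.nd (nat_lit 234) (nat_lit 76) (nat_lit 0) (XT.nd (nat_lit 78) (nat_lit 0) (nat_lit 0) (XT.lf (nat_lit 0) (nat_lit 992349384896) (nat_lit 152) (nat_lit 983626031401) (nat_lit 0) (nat_lit 981499956010) (nat_lit 2) (nat_lit 5) (nat_lit 4) (nat_lit 4) (nat_lit 2) (nat_lit 4) (nat_lit 515) (nat_lit 409) (nat_lit 276)) (XT.nd (nat_lit 78) (nat_lit 0) (nat_lit 0) (XT.lf (nat_lit 0) (nat_lit 1194557270452) (nat_lit 152) (nat_lit 805913145974) (nat_lit 0) (nat_lit 1183707812744) (nat_lit 2) (nat_lit 5) (nat_lit 4) (nat_lit 4) (nat_lit 2) (nat_lit 4) (nat_lit 516) (nat_lit 409) (nat_lit 275)) (XT.lf (nat_lit 0) (nat_lit 1412941154086) (nat_lit 152) (nat_lit 613984541428) (nat_lit 0) (nat_lit 1402091669690) (nat_lit 2) (nat_lit 5) (nat_lit 4) (nat_lit 4) (nat_lit 2) (nat_lit 4) (nat_lit 517) (nat_lit 409) (nat_lit 274)))) (XT.nd (nat_lit 156) (nat_lit 76) (nat_lit 0)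 (XT.nd (nat_lit 78) (nat_lit 0) (nat_lit 0) (XT.lf (nat_lit 0) (nat_lit 1648795162515) (nat_lit 152) (nat_lit 406702863069) (nat_lit 0) (nat_lit 1637945653409) (nat_lit 2) (nat_lit 5) (nat_lit 4) (nat_lit 4) (nat_lit 2) (nat_lit 4) (nat_lit 518) (nat_lit 409) (nat_lit 273)) (XT.lf (nat_lit 0) (nat_lit 1903516949123) (nat_lit 152) (nat_lit 182839775025) (nat_lit 0) (nat_lit 1892667417137) (nat_lit 2) (nat_lit 5) (nat_lit 4) (nat_lit 4) (nat_lit 2) (nat_lit 4) (nat_lit 519) (nat_lit 409) (nat_lit 272))) (XT.nd (nat_lit 78) (nat_lit 0) (nat_lit 0) (XT.lf (nat_lit 0) (nat_lit 62034537591) (nat_lit 76) (nat_lit 2118073370879) (nat_lit 76) (nat_lit 2107223817708) (nat_lit 1) (nat_lit 4) (nat_lit 2) (nat_lit 5) (nat_lit 2) (nat_lit 4) (nat_lit 520) (nat_lit 409) (nat_lit 271)) (XT.lf (nat_lit 0) (nat_lit 336896040314) (nat_lit 76) (nat_lit 2146928778209) (nat_lit 76) (nat_lit 2136079205422) (nat_lit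 1) (nat_lit 4) (nat_lit 2) (nat_lit 5) (nat_lit 2) (nat_lit 4) (nat_lit 521) (nat_lit 409) (nat_lit 270))))) (XT.nd (nat_lit 234) (nat_lit 0) (nat_lit 0) (XT.nd (nat_lit 78) (nat_lit 0) (nat_lit 0) (XT.lf (nat_lit 0) (nat_lit 633745523514) (nat_lit 76) (nat_lit 2178093104615) (nat_lit 76) (nat_lit 2167243513665) (nat_lit 1) (nat_lit 4) (nat_lit 2) (nat_lit 5) (nat_lit 2) (nat_lit 4) (nat_lit 522) (nat_lit 409) (nat_lit 269)) (XT.nd (nat_lit 78) (nat_lit 0) (nat_lit 0) (XT.lf (nat_lit 0) (nat_lit 954342095239) (nat_lit 76) (nat_lit 2211751027587) (nat_lit 76) (nat_lit 2200901419819) (nat_lit 1) (nat_lit 4) (nat_lit 2) (nat_lit 5) (nat_lit 2) (nat_lit 4) (nat_lit 523) (nat_lit 409) (nat_lit 268)) (XT.lf (nat_lit 0) (nat_lit 1300585587027) (nat_lit 76) (nat_lit 2248102001483) (nat_lit 76) (nat_lit 2237252378143) (nat_lit 1) (nat_lit 4) (nat_lit 2) (nat_lit 5) (nat_lit 2) (nat_lit 4) (nat_lit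 524) (nat_lit 409) (nat_lit 267)))) (XT.nd (nat_lit 156) (nat_lit 0) (nat_lit 0) (XT.nd (nat_lit 78) (nat_lit 0) (nat_lit 0) (XT.lf (nat_lit 0) (nat_lit 1674527812161) (nat_lit 76) (nat_lit 2287361439481) (nat_lit 76) (nat_lit 2276511801723) (nat_lit 1) (nat_lit 4) (nat_lit 2) (nat_lit 5) (nat_lit 2) (nat_lit 4) (nat_lit 525) (nat_lit 409) (nat_lit 266)) (XT.lf (nat_lit 0) (nat_lit 2078384724569) (nat_lit 76) (nat_lit 2329761990104) (nat_lit 76) (nat_lit 2318912338995) (nat_lit 1) (nat_lit 4) (nat_lit 2) (nat_lit 5) (nat_lit 2) (nat_lit 4) (nat_lit 526) (nat_lit 409) (nat_lit 265))) (XT.nd (nat_lit 78) (nat_lit 0) (nat_lit 0) (XT.lf (nat_lit 0) (nat_lit 2514549550398) (nat_lit 76) (nat_lit 2375554915873) (nat_lit 76) (nat_lit 2364705252403) (nat_lit 1) (nat_lit 4) (nat_lit 2) (nat_lit 5) (nat_lit 2) (nat_lit 4) (nat_lit 527) (nat_lit 409) (nat_lit 264)) (XT.lf (nat_lit 0) (nat_lit 2985606970097)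 (nat_lit 76) (nat_lit 2425011582274) (nat_lit 76) (nat_lit 2414161907358) (nat_lit 1) (nat_lit 4) (nat_lit 2) (nat_lit 5) (nat_lit 2) (nat_lit 4) (nat_lit 528) (nat_lit 409) (nat_lit 263)))))) (XT.nd (nat_lit 546) (nat_lit 0) (nat_lit 0) (XT.nd (nat_lit 234) (nat_lit 0) (nat_lit 0) (XT.nd (nat_lit 78) (nat_lit 0) (nat_lit 0) (XT.lf (nat_lit 0) (nat_lit 3494348435042) (nat_lit 76) (nat_lit 2478425065849) (nat_lit 76) (nat_lit 2467575380336) (nat_lit 1) (nat_lit 4) (nat_lit 2) (nat_lit 5) (nat_lit 2) (nat_lit 4) (nat_lit 529) (nat_lit 409) (nat_lit 262)) (XT.nd (nat_lit 78) (nat_lit 0) (nat_lit 0) (XT.lf (nat_lit 0) (nat_lit 4043788709470) (nat_lit 76) (nat_lit 2536111890945) (nat_lit 76) (nat_lit 2525262195619) (nat_lit 1) (nat_lit 4) (nat_lit 2) (nat_lit 5) (nat_lit 2) (nat_lit 4) (nat_lit 530) (nat_lit 409) (nat_lit 261)) (XT.lf (nat_lit 0) (nat_lit 4637183735748) (nat_lit 76) (nat_lit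 2598413905415) (nat_lit 76) (nat_lit 2587564201003) (nat_lit 1) (nat_lit 4) (nat_lit 2) (nat_lit 5) (nat_lit 2) (nat_lit 4) (nat_lit 531) (nat_lit 409) (nat_lit 260)))) (XT.nd (nat_lit 156) (nat_lit 0) (nat_lit 0) (XT.nd (nat_lit 78) (nat_lit 0) (nat_lit 0) (XT.lf (nat_lit 0) (nat_lit 5278049928847) (nat_lit 76) (nat_lit 2665700306382) (nat_lit 76) (nat_lit 2654850593556) (nat_lit 1) (nat_lit 4) (nat_lit 2) (nat_lit 5) (nat_lit 2) (nat_lit 4) (nat_lit 532) (nat_lit 409) (nat_lit 259)) (XT.lf (nat_lit 0) (nat_lit 5970185014355) (nat_lit 76) (nat_lit 2738369828072) (nat_lit 76) (nat_lit 2727520107457) (nat_lit 1) (nat_lit 4) (nat_lit 2) (nat_lit 5) (nat_lit 2) (nat_lit 4) (nat_lit 533) (nat_lit 409) (nat_lit 258))) (XT.nd (nat_lit 78) (nat_lit 0) (nat_lit 0) (XT.lf (nat_lit 0) (nat_lit 6717690533519) (nat_lit 76) (nat_lit 2816853104690) (nat_lit 76) (nat_lit 2806003376862) (nat_lit 1) (nat_lit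 4) (nat_lit 2) (nat_lit 5) (nat_lit 2) (nat_lit 4) (nat_lit 534) (nat_lit 409) (nat_lit 257)) (XT.lf (nat_lit 0) (nat_lit 7524996148676) (nat_lit 76) (nat_lit 2901615222317) (nat_lit 76) (nat_lit 2890765487811) (nat_lit 1) (nat_lit 4) (nat_lit 2) (nat_lit 5) (nat_lit 2) (nat_lit 4) (nat_lit 535) (nat_lit 409) (nat_lit 256))))) (XT.nd (nat_lit 312) (nat_lit 0) (nat_lit 0) (XT.nd (nat_lit 156) (nat_lit 0) (nat_lit 0) (XT.nd (nat_lit 78) (nat_lit 0) (nat_lit 0) (XT.lf (nat_lit 0) (nat_lit 8396885893101) (nat_lit 76) (nat_lit 2993158474986) (nat_lit 76) (nat_lit 2982308734296) (nat_lit 1) (nat_lit 4) (nat_lit 2) (nat_lit 5) (nat_lit 2) (nat_lit 4) (nat_lit 536) (nat_lit 409) (nat_lit 255)) (XT.lf (nat_lit 0) (nat_lit 9338526520834) (nat_lit 76) (nat_lit 3092025341231) (nat_lit 76) (nat_lit 3081175594815) (nat_lit 1) (nat_lit 4) (nat_lit 2) (nat_lit 5) (nat_lit 2) (nat_lit 4) (nat_lit 537) (nat_lit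 409) (nat_lit 254))) (XT.nd (nat_lit 78) (nat_lit 0) (nat_lit 0) (XT.lf (nat_lit 0) (nat_lit 10355498124485) (nat_lit 76) (nat_lit 3198801698776) (nat_lit 76) (nat_lit 3187951947059) (nat_lit 1) (nat_lit 4) (nat_lit 2) (nat_lit 5) (nat_lit 2) (nat_lit 4) (nat_lit 538) (nat_lit 409) (nat_lit 253)) (XT.lf (nat_lit 0) (nat_lit 11453827202444) (nat_lit 76) (nat_lit 3314120296408) (nat_lit 76) (nat_lit 3303270539782) (nat_lit 1) (nat_lit 4) (nat_lit 2) (nat_lit 5) (nat_lit 2) (nat_lit 4) (nat_lit 539) (nat_lit 409) (nat_lit 252)))) (XT.nd (nat_lit 156) (nat_lit 0) (nat_lit 0) (XT.nd (nat_lit 78) (nat_lit 0) (nat_lit 0) (XT.lf (nat_lit 0) (nat_lit 12640022371472) (nat_lit 76) (nat_lit 3438664503594) (nat_lit 76) (nat_lit 3427814742422) (nat_lit 1) (nat_lit 4) (nat_lit 2) (nat_lit 5) (nat_lit 2) (nat_lit 4) (nat_lit 540) (nat_lit 409) (nat_lit 251)) (XT.lf (nat_lit 0) (nat_lit 13921112936272) (nat_lit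 76) (nat_lit 3573172360080) (nat_lit 76) (nat_lit 3562322594700) (nat_lit 1) (nat_lit 4) (nat_lit 2) (nat_lit 5) (nat_lit 2) (nat_lit 4) (nat_lit 541) (nat_lit 409) (nat_lit 250))) (XT.nd (nat_lit 78) (nat_lit 0) (nat_lit 0) (XT.lf (nat_lit 0) (nat_lit 15304690544637) (nat_lit 76) (nat_lit 3718440949461) (nat_lit 76) (nat_lit 3707591180184) (nat_lit 1) (nat_lit 4) (nat_lit 2) (nat_lit 5) (nat_lit 2) (nat_lit 4) (nat_lit 542) (nat_lit 409) (nat_lit 249)) (XT.lf (nat_lit 0) (nat_lit 16798954174986) (nat_lit 76) (nat_lit 3875331122636) (nat_lit 76) (nat_lit 3864481349751) (nat_lit 1) (nat_lit 4) (nat_lit 2) (nat_lit 5) (nat_lit 2) (nat_lit 4) (nat_lit 543) (nat_lit 409) (nat_lit 248))))))))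
noncomputable def xc117 : XT := (XT.nd (nat_lit 2184) (nat_lit 2204) (nat_lit 0) (XT.nd (nat_lit 1092) (nat_lit 1596) (nat_lit 0) (XT.nd (nat_lit 546) (nat_lit 1292) (nat_lit 0) (XT.nd (nat_lit 234) (nat_lit 0) (nat_lit 76) (XT.nd (nat_lit 78) (nat_lit 0) (nat_lit 0) (XT.lf (nat_lit 0) (nat_lit 798872835) (nat_lit 532) (nat_lit 1932995842) (nat_lit 532) (nat_lit 1932995842) (nat_lit 93) (nat_lit 3) (nat_lit 100) (nat_lit 3) (nat_lit 100) (nat_lit 5) (nat_lit 410) (nat_lit 410) (nat_lit 380)) (XT.nd (nat_lit 78) (nat_lit 0) (nat_lit 76) (XT.lf (nat_lit 76) (nat_lit 822037945) (nat_lit 0) (nat_lit 1663784151) (nat_lit 532) (nat_lit 7151055466) (nat_lit 94) (nat_lit 5) (nat_lit 93) (nat_lit 3) (nat_lit 100) (nat_lit 5) (nat_lit 411) (nat_lit 410) (nat_lit 379)) (XT.lf (nat_lit 0) (nat_lit 3531362197) (nat_lit 456) (nat_lit 3969752024) (nat_lit 532) (nat_lit 2460581076) (nat_lit 94) (nat_lit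 5) (nat_lit 100) (nat_lit 5) (nat_lit 101) (nat_lit 5) (nat_lit 412) (nat_lit 410) (nat_lit 378)))) (XT.nd (nat_lit 156) (nat_lit 0) (nat_lit 76) (XT.nd (nat_lit 78) (nat_lit 0) (nat_lit 76) (XT.lf (nat_lit 76) (nat_lit 1232150631) (nat_lit 0) (nat_lit 3426505271) (nat_lit 532) (nat_lit 5654003660) (nat_lit 95) (nat_lit 5) (nat_lit 94) (nat_lit 5) (nat_lit 101) (nat_lit 5) (nat_lit 413) (nat_lit 410) (nat_lit 377)) (XT.lf (nat_lit 0) (nat_lit 5941101756) (nat_lit 456) (nat_lit 3687438714) (nat_lit 532) (nat_lit 1057972210) (nat_lit 95) (nat_lit 5) (nat_lit 101) (nat_lit 5) (nat_lit 102) (nat_lit 5) (nat_lit 414) (nat_lit 410) (nat_lit 376))) (XT.nd (nat_lit 78) (nat_lit 0) (nat_lit 0) (XT.lf (nat_lit 76) (nat_lit 2103151744) (nat_lit 0) (nat_lit 5297927065) (nat_lit 532) (nat_lit 3683208917) (nat_lit 96) (nat_lit 5) (nat_lit 95) (nat_lit 5) (nat_lit 102) (nat_lit 5) (nat_lit 415) (nat_lit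 410) (nat_lit 375)) (XT.lf (nat_lit 76) (nat_lit 8517833140) (nat_lit 0) (nat_lit 499809910) (nat_lit 532) (nat_lit 2493066498) (nat_lit 96) (nat_lit 5) (nat_lit 95) (nat_lit 5) (nat_lit 102) (nat_lit 5) (nat_lit 416) (nat_lit 410) (nat_lit 374))))) (XT.nd (nat_lit 234) (nat_lit 456) (nat_lit 0) (XT.nd (nat_lit 78) (nat_lit 608) (nat_lit 0) (XT.lf (nat_lit 0) (nat_lit 3486187366) (nat_lit 456) (nat_lit 7417553702) (nat_lit 532) (nat_lit 1056294662) (nat_lit 90) (nat_lit 5) (nat_lit 96) (nat_lit 5) (nat_lit 97) (nat_lit 5) (nat_lit 417) (nat_lit 410) (nat_lit 373)) (XT.nd (nat_lit 78) (nat_lit 532) (nat_lit 0) (XT.lf (nat_lit 0) (nat_lit 512937299) (nat_lit 532) (nat_lit 1863660381) (nat_lit 76) (nat_lit 10064379305) (nat_lit 89) (nat_lit 5) (nat_lit 96) (nat_lit 5) (nat_lit 90) (nat_lit 5) (nat_lit 418) (nat_lit 410) (nat_lit 372)) (XT.lf (nat_lit 0) (nat_lit 2309673229) (nat_lit 608) (nat_lit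 7555795335) (nat_lit 76) (nat_lit 3080013259) (nat_lit 82) (nat_lit 5) (nat_lit 90) (nat_lit 5) (nat_lit 83) (nat_lit 5) (nat_lit 419) (nat_lit 410) (nat_lit 371)))) (XT.nd (nat_lit 156) (nat_lit 228) (nat_lit 0) (XT.nd (nat_lit 78) (nat_lit 228) (nat_lit 0) (XT.lf (nat_lit 0) (nat_lit 4316225834) (nat_lit 608) (nat_lit 270532058) (nat_lit 76) (nat_lit 8898308302) (nat_lit 82) (nat_lit 5) (nat_lit 90) (nat_lit 5) (nat_lit 83) (nat_lit 5) (nat_lit 420) (nat_lit 410) (nat_lit 370)) (XT.lf (nat_lit 0) (nat_lit 6661786952) (nat_lit 304) (nat_lit 6139378704) (nat_lit 76) (nat_lit 1252377887) (nat_lit 79) (nat_lit 5) (nat_lit 83) (nat_lit 5) (nat_lit 80) (nat_lit 5) (nat_lit 421) (nat_lit 410) (nat_lit 369))) (XT.nd (nat_lit 78) (nat_lit 0) (nat_lit 0) (XT.lf (nat_lit 0) (nat_lit 2035752029) (nat_lit 228) (nat_lit 7292655552) (nat_lit 304) (nat_lit 5328422934) (nat_lit 76) (nat_lit 5) (nat_lit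 79) (nat_lit 5) (nat_lit 80) (nat_lit 5) (nat_lit 422) (nat_lit 410) (nat_lit 368)) (XT.lf (nat_lit 0) (nat_lit 11166410989) (nat_lit 228) (nat_lit 1169523149) (nat_lit 304) (nat_lit 2962244469) (nat_lit 76) (nat_lit 5) (nat_lit 79) (nat_lit 5) (nat_lit 80) (nat_lit 5) (nat_lit 423) (nat_lit 410) (nat_lit 367)))))) (XT.nd (nat_lit 546) (nat_lit 684) (nat_lit 0) (XT.nd (nat_lit 234) (nat_lit 380) (nat_lit 0) (XT.nd (nat_lit 78) (nat_lit 304) (nat_lit 0) (XT.lf (nat_lit 0) (nat_lit 5114700751) (nat_lit 228) (nat_lit 10685821307) (nat_lit 304) (nat_lit 172999695) (nat_lit 73) (nat_lit 5) (nat_lit 76) (nat_lit 5) (nat_lit 77) (nat_lit 5) (nat_lit 424) (nat_lit 410) (nat_lit 366)) (XT.nd (nat_lit 78) (nat_lit 228) (nat_lit 0) (XT.lf (nat_lit 0) (nat_lit 2806905717) (nat_lit 304) (nat_lit 1507268775) (nat_lit 76) (nat_lit 12374493578) (nat_lit 72) (nat_lit 5) (nat_lit 76) (nat_lit 5) (nat_lit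 73) (nat_lit 5) (nat_lit 425) (nat_lit 410) (nat_lit 365)) (XT.lf (nat_lit 0) (nat_lit 6265384586) (nat_lit 304) (nat_lit 8519651872) (nat_lit 76) (nat_lit 2655671086) (nat_lit 69) (nat_lit 5) (nat_lit 73) (nat_lit 5) (nat_lit 70) (nat_lit 5) (nat_lit 426) (nat_lit 410) (nat_lit 364)))) (XT.nd (nat_lit 156) (nat_lit 228) (nat_lit 0) (XT.nd (nat_lit 78) (nat_lit 0) (nat_lit 0) (XT.lf (nat_lit 0) (nat_lit 1959254160) (nat_lit 152) (nat_lit 8209974503) (nat_lit 228) (nat_lit 8070189463) (nat_lit 67) (nat_lit 5) (nat_lit 69) (nat_lit 5) (nat_lit 70) (nat_lit 5) (nat_lit 427) (nat_lit 410) (nat_lit 363)) (XT.lf (nat_lit 0) (nat_lit 13716760438) (nat_lit 152) (nat_lit 870154423) (nat_lit 228) (nat_lit 4498990614) (nat_lit 67) (nat_lit 5) (nat_lit 69) (nat_lit 5) (nat_lit 70) (nat_lit 5) (nat_lit 428) (nat_lit 410) (nat_lit 362))) (XT.nd (nat_lit 78) (nat_lit 76) (nat_lit 0) (XT.lf (nat_lit 0)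 (nat_lit 6528627005) (nat_lit 152) (nat_lit 13126753160) (nat_lit 228) (nat_lit 320944997) (nat_lit 65) (nat_lit 5) (nat_lit 67) (nat_lit 5) (nat_lit 68) (nat_lit 5) (nat_lit 429) (nat_lit 410) (nat_lit 361)) (XT.lf (nat_lit 0) (nat_lit 4125958501) (nat_lit 228) (nat_lit 1413318288) (nat_lit 76) (nat_lit 15379097035) (nat_lit 64) (nat_lit 5) (nat_lit 67) (nat_lit 5) (nat_lit 65) (nat_lit 5) (nat_lit 430) (nat_lit 410) (nat_lit 360))))) (XT.nd (nat_lit 234) (nat_lit 380) (nat_lit 0) (XT.nd (nat_lit 78) (nat_lit 152) (nat_lit 0) (XT.lf (nat_lit 0) (nat_lit 9247852249) (nat_lit 228) (nat_lit 9842555618) (nat_lit 76) (nat_lit 2817787400) (nat_lit 62) (nat_lit 5) (nat_lit 65) (nat_lit 5) (nat_lit 63) (nat_lit 5) (nat_lit 431) (nat_lit 410) (nat_lit 359)) (XT.nd (nat_lit 78) (nat_lit 0) (nat_lit 0) (XT.lf (nat_lit 0) (nat_lit 3729946881) (nat_lit 152) (nat_lit 11296706923) (nat_lit 228) (nat_lit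 7930777945) (nat_lit 60) (nat_lit 5) (nat_lit 62) (nat_lit 5) (nat_lit 63) (nat_lit 5) (nat_lit 432) (nat_lit 410) (nat_lit 358)) (XT.lf (nat_lit 0) (nat_lit 18908101857) (nat_lit 152) (nat_lit 2603669534) (nat_lit 228) (nat_lit 2559316499) (nat_lit 60) (nat_lit 5) (nat_lit 62) (nat_lit 5) (nat_lit 63) (nat_lit 5) (nat_lit 433) (nat_lit 410) (nat_lit 357)))) (XT.nd (nat_lit 156) (nat_lit 76) (nat_lit 0) (XT.nd (nat_lit 78) (nat_lit 152) (nat_lit 0) (XT.lf (nat_lit 0) (nat_lit 3478114280) (nat_lit 152) (nat_lit 14988436714) (nat_lit 76) (nat_lit 6769175753) (nat_lit 58) (nat_lit 5) (nat_lit 60) (nat_lit 5) (nat_lit 59) (nat_lit 5) (nat_lit 434) (nat_lit 410) (nat_lit 356)) (XT.lf (nat_lit 0) (nat_lit 552924357) (nat_lit 152) (nat_lit 9509784111) (nat_lit 228) (nat_lit 16409316449) (nat_lit 56) (nat_lit 5) (nat_lit 58) (nat_lit 5) (nat_lit 59) (nat_lit 5) (nat_lit 435) (nat_lit 410) (nat_lit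 355))) (XT.nd (nat_lit 78) (nat_lit 76) (nat_lit 0) (XT.lf (nat_lit 0) (nat_lit 17575591406) (nat_lit 228) (nat_lit 9638206357) (nat_lit 76) (nat_lit 561308724) (nat_lit 56) (nat_lit 5) (nat_lit 59) (nat_lit 5) (nat_lit 57) (nat_lit 4) (nat_lit 436) (nat_lit 410) (nat_lit 354)) (XT.lf (nat_lit 0) (nat_lit 8065328065) (nat_lit 76) (nat_lit 18043983041) (nat_lit 152) (nat_lit 3039540137) (nat_lit 55) (nat_lit 5) (nat_lit 56) (nat_lit 5) (nat_lit 57) (nat_lit 4) (nat_lit 437) (nat_lit 410) (nat_lit 353))))))) (XT.nd (nat_lit 1092) (nat_lit 1064) (nat_lit 0) (XT.nd (nat_lit 546) (nat_lit 532) (nat_lit 0) (XT.nd (nat_lit 234) (nat_lit 304) (nat_lit 0) (XT.nd (nat_lit 78) (nat_lit 228) (nat_lit 0) (XT.lf (nat_lit 0) (nat_lit 4707841654) (nat_lit 152) (nat_lit 3034323989) (nat_lit 76) (nat_lit 22861350468) (nat_lit 54) (nat_lit 5) (nat_lit 56) (nat_lit 5) (nat_lit 55) (nat_lit 5) (nat_lit 438)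 (nat_lit 410) (nat_lit 352)) (XT.nd (nat_lit 78) (nat_lit 76) (nat_lit 0) (XT.lf (nat_lit 0) (nat_lit 13399027393) (nat_lit 228) (nat_lit 15023674624) (nat_lit 76) (nat_lit 3706478937) (nat_lit 52) (nat_lit 5) (nat_lit 55) (nat_lit 5) (nat_lit 53) (nat_lit 4) (nat_lit 439) (nat_lit 410) (nat_lit 351)) (XT.lf (nat_lit 0) (nat_lit 5285919820) (nat_lit 76) (nat_lit 17893804069) (nat_lit 152) (nat_lit 10565638669) (nat_lit 51) (nat_lit 5) (nat_lit 52) (nat_lit 5) (nat_lit 53) (nat_lit 4) (nat_lit 440) (nat_lit 410) (nat_lit 350)))) (XT.nd (nat_lit 156) (nat_lit 76) (nat_lit 0) (XT.nd (nat_lit 78) (nat_lit 228) (nat_lit 0) (XT.lf (nat_lit 0) (nat_lit 28041475200) (nat_lit 76) (nat_lit 6093668063) (nat_lit 152) (nat_lit 1324314841) (nat_lit 51) (nat_lit 5) (nat_lit 52) (nat_lit 5) (nat_lit 53) (nat_lit 4) (nat_lit 441) (nat_lit 410) (nat_lit 349)) (XT.lf (nat_lit 0) (nat_lit 8762070516) (nat_lit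 228) (nat_lit 21579513976) (nat_lit 76) (nat_lit 6909340342) (nat_lit 48) (nat_lit 5) (nat_lit 51) (nat_lit 5) (nat_lit 49) (nat_lit 4) (nat_lit 442) (nat_lit 410) (nat_lit 348))) (XT.nd (nat_lit 78) (nat_lit 0) (nat_lit 0) (XT.lf (nat_lit 0) (nat_lit 1716346455) (nat_lit 76) (nat_lit 18257761725) (nat_lit 152) (nat_lit 19177626412) (nat_lit 47) (nat_lit 5) (nat_lit 48) (nat_lit 5) (nat_lit 49) (nat_lit 4) (nat_lit 443) (nat_lit 410) (nat_lit 347)) (XT.lf (nat_lit 0) (nat_lit 28072020298) (nat_lit 76) (nat_lit 4584293038) (nat_lit 152) (nat_lit 8502440013) (nat_lit 47) (nat_lit 5) (nat_lit 48) (nat_lit 5) (nat_lit 49) (nat_lit 4) (nat_lit 444) (nat_lit 410) (nat_lit 346))))) (XT.nd (nat_lit 234) (nat_lit 304) (nat_lit 0) (XT.nd (nat_lit 78) (nat_lit 76) (nat_lit 0) (XT.lf (nat_lit 0) (nat_lit 3446289835) (nat_lit 152) (nat_lit 29752733291) (nat_lit 76) (nat_lit 10075812328) (nat_lit 45)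 (nat_lit 5) (nat_lit 47) (nat_lit 5) (nat_lit 46) (nat_lit 4) (nat_lit 445) (nat_lit 410) (nat_lit 345)) (XT.nd (nat_lit 78) (nat_lit 76) (nat_lit 0) (XT.lf (nat_lit 0) (nat_lit 16361935873) (nat_lit 152) (nat_lit 2906696048) (nat_lit 76) (nat_lit 26236275625) (nat_lit 45) (nat_lit 5) (nat_lit 47) (nat_lit 5) (nat_lit 46) (nat_lit 4) (nat_lit 446) (nat_lit 410) (nat_lit 344)) (XT.lf (nat_lit 0) (nat_lit 27431668875) (nat_lit 76) (nat_lit 3524257665) (nat_lit 152) (nat_lit 16905851853) (nat_lit 44) (nat_lit 5) (nat_lit 45) (nat_lit 5) (nat_lit 46) (nat_lit 4) (nat_lit 447) (nat_lit 410) (nat_lit 343)))) (XT.nd (nat_lit 156) (nat_lit 152) (nat_lit 0) (XT.nd (nat_lit 78) (nat_lit 76) (nat_lit 0) (XT.lf (nat_lit 0) (nat_lit 10113505392) (nat_lit 76) (nat_lit 37238378627) (nat_lit 76) (nat_lit 3004559476) (nat_lit 43) (nat_lit 4) (nat_lit 44) (nat_lit 5) (nat_lit 44) (nat_lit 4) (nat_lit 448)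 (nat_lit 410) (nat_lit 342)) (XT.lf (nat_lit 0) (nat_lit 12058300354) (nat_lit 152) (nat_lit 9166157255) (nat_lit 76) (nat_lit 31751103933) (nat_lit 42) (nat_lit 5) (nat_lit 44) (nat_lit 5) (nat_lit 43) (nat_lit 4) (nat_lit 449) (nat_lit 410) (nat_lit 341))) (XT.nd (nat_lit 78) (nat_lit 76) (nat_lit 0) (XT.lf (nat_lit 0) (nat_lit 25572220015) (nat_lit 76) (nat_lit 3193278653) (nat_lit 152) (nat_lit 26984336719) (nat_lit 41) (nat_lit 5) (nat_lit 42) (nat_lit 5) (nat_lit 43) (nat_lit 4) (nat_lit 450) (nat_lit 410) (nat_lit 340)) (XT.lf (nat_lit 0) (nat_lit 4695983036) (nat_lit 76) (nat_lit 42861619287) (nat_lit 76) (nat_lit 11128582749) (nat_lit 40) (nat_lit 4) (nat_lit 41) (nat_lit 5) (nat_lit 41) (nat_lit 4) (nat_lit 451) (nat_lit 410) (nat_lit 339)))))) (XT.nd (nat_lit 546) (nat_lit 608) (nat_lit 0) (XT.nd (nat_lit 234) (nat_lit 304) (nat_lit 0) (XT.nd (nat_lit 78) (nat_lit 76) (nat_lit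 0) (XT.lf (nat_lit 0) (nat_lit 6611950441) (nat_lit 152) (nat_lit 17990178113) (nat_lit 76) (nat_lit 37170479243) (nat_lit 39) (nat_lit 5) (nat_lit 41) (nat_lit 5) (nat_lit 40) (nat_lit 4) (nat_lit 452) (nat_lit 410) (nat_lit 338)) (XT.nd (nat_lit 78) (nat_lit 0) (nat_lit 0) (XT.lf (nat_lit 0) (nat_lit 21660377523) (nat_lit 76) (nat_lit 4018790948) (nat_lit 152) (nat_lit 39362957794) (nat_lit 38) (nat_lit 5) (nat_lit 39) (nat_lit 5) (nat_lit 40) (nat_lit 4) (nat_lit 453) (nat_lit 410) (nat_lit 337)) (XT.lf (nat_lit 0) (nat_lit 47202217072) (nat_lit 152) (nat_lit 3502544359) (nat_lit 0) (nat_lit 17794008742) (nat_lit 38) (nat_lit 5) (nat_lit 40) (nat_lit 4) (nat_lit 38) (nat_lit 4) (nat_lit 454) (nat_lit 410) (nat_lit 336)))) (XT.nd (nat_lit 156) (nat_lit 76) (nat_lit 0) (XT.nd (nat_lit 78) (nat_lit 152) (nat_lit 0) (XT.lf (nat_lit 0) (nat_lit 41517224232) (nat_lit 76) (nat_lit 30021475915)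 (nat_lit 76) (nat_lit 605918394) (nat_lit 37) (nat_lit 4) (nat_lit 38) (nat_lit 5) (nat_lit 38) (nat_lit 4) (nat_lit 455) (nat_lit 410) (nat_lit 335)) (XT.lf (nat_lit 0) (nat_lit 14437925708) (nat_lit 76) (nat_lit 6648751232) (nat_lit 152) (nat_lit 54918891785) (nat_lit 35) (nat_lit 5) (nat_lit 36) (nat_lit 5) (nat_lit 37) (nat_lit 4) (nat_lit 456) (nat_lit 410) (nat_lit 334))) (XT.nd (nat_lit 78) (nat_lit 76) (nat_lit 0) (XT.lf (nat_lit 0) (nat_lit 45777081624) (nat_lit 152) (nat_lit 15765123924) (nat_lit 0) (nat_lit 18528319516) (nat_lit 35) (nat_lit 5) (nat_lit 37) (nat_lit 4) (nat_lit 35) (nat_lit 4) (nat_lit 457) (nat_lit 410) (nat_lit 333)) (XT.lf (nat_lit 0) (nat_lit 35272709873) (nat_lit 76) (nat_lit 38180640803) (nat_lit 76) (nat_lit 10926476819) (nat_lit 34) (nat_lit 4) (nat_lit 35) (nat_lit 5) (nat_lit 35) (nat_lit 4) (nat_lit 458) (nat_lit 410) (nat_lit 332))))) (XT.nd (nat_lit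 312) (nat_lit 304) (nat_lit 0) (XT.nd (nat_lit 156) (nat_lit 152) (nat_lit 0) (XT.nd (nat_lit 78) (nat_lit 0) (nat_lit 0) (XT.lf (nat_lit 0) (nat_lit 2015536100) (nat_lit 76) (nat_lit 12058839774) (nat_lit 152) (nat_lit 74893536976) (nat_lit 32) (nat_lit 5) (nat_lit 33) (nat_lit 5) (nat_lit 34) (nat_lit 4) (nat_lit 459) (nat_lit 410) (nat_lit 331)) (XT.lf (nat_lit 0) (nat_lit 42240694172) (nat_lit 152) (nat_lit 34522752006) (nat_lit 0) (nat_lit 16996437729) (nat_lit 32) (nat_lit 5) (nat_lit 34) (nat_lit 4) (nat_lit 32) (nat_lit 4) (nat_lit 460) (nat_lit 410) (nat_lit 330))) (XT.nd (nat_lit 78) (nat_lit 76) (nat_lit 0) (XT.lf (nat_lit 0) (nat_lit 22915133712) (nat_lit 76) (nat_lit 50599961904) (nat_lit 76) (nat_lit 25351734921) (nat_lit 31) (nat_lit 4) (nat_lit 32) (nat_lit 5) (nat_lit 32) (nat_lit 4) (nat_lit 461) (nat_lit 410) (nat_lit 329)) (XT.lf (nat_lit 0) (nat_lit 3722488288) (nat_lit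 152) (nat_lit 17509127767) (nat_lit 76) (nat_lit 83068407966) (nat_lit 30) (nat_lit 5) (nat_lit 32) (nat_lit 5) (nat_lit 31) (nat_lit 4) (nat_lit 462) (nat_lit 410) (nat_lit 328)))) (XT.nd (nat_lit 156) (nat_lit 152) (nat_lit 0) (XT.nd (nat_lit 78) (nat_lit 76) (nat_lit 0) (XT.lf (nat_lit 0) (nat_lit 35180331536) (nat_lit 152) (nat_lit 63024888307) (nat_lit 0) (nat_lit 11795787549) (nat_lit 29) (nat_lit 5) (nat_lit 31) (nat_lit 4) (nat_lit 29) (nat_lit 4) (nat_lit 463) (nat_lit 410) (nat_lit 327)) (XT.lf (nat_lit 0) (nat_lit 962603467) (nat_lit 76) (nat_lit 69249184805) (nat_lit 76) (nat_lit 45861722353) (nat_lit 28) (nat_lit 4) (nat_lit 29) (nat_lit 5) (nat_lit 29) (nat_lit 4) (nat_lit 464) (nat_lit 410) (nat_lit 326))) (XT.nd (nat_lit 78) (nat_lit 152) (nat_lit 0) (XT.lf (nat_lit 0) (nat_lit 73636007881) (nat_lit 76) (nat_lit 36124399682) (nat_lit 76) (nat_lit 12734234947) (nat_lit 28)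 (nat_lit 4) (nat_lit 29) (nat_lit 5) (nat_lit 29) (nat_lit 4) (nat_lit 465) (nat_lit 410) (nat_lit 325)) (XT.lf (nat_lit 0) (nat_lit 22462998033) (nat_lit 152) (nat_lit 106073228139) (nat_lit 0) (nat_lit 803121321) (nat_lit 26) (nat_lit 5) (nat_lit 28) (nat_lit 4) (nat_lit 26) (nat_lit 4) (nat_lit 466) (nat_lit 410) (nat_lit 324))))))))
noncomputable def xc118 : XT := (XT.nd (nat_lit 2184) (nat_lit 532) (nat_lit 0) (XT.nd (nat_lit 1092) (nat_lit 608) (nat_lit 0) (XT.nd (nat_lit 546) (nat_lit 304) (nat_lit 0) (XT.nd (nat_lit 234) (nat_lit 304) (nat_lit 0) (XT.nd (nat_lit 78) (nat_lit 152) (nat_lit 0) (XT.lf (nat_lit 0) (nat_lit 62088787794) (nat_lit 152) (nat_lit 34005553862) (nat_lit 0) (nat_lit 40426765923) (nat_lit 26) (nat_lit 5) (nat_lit 28) (nat_lit 4) (nat_lit 26) (nat_lit 4) (nat_lit 467) (nat_lit 410) (nat_lit 323)) (XT.nd (nat_lit 78) (nat_lit 76) (nat_lit 0) (XT.lf (nat_lit 0)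 (nat_lit 46119303760) (nat_lit 76) (nat_lit 59866990313) (nat_lit 76) (nat_lit 38202982184) (nat_lit 25) (nat_lit 4) (nat_lit 26) (nat_lit 5) (nat_lit 26) (nat_lit 4) (nat_lit 468) (nat_lit 410) (nat_lit 322)) (XT.lf (nat_lit 0) (nat_lit 1824857970) (nat_lit 152) (nat_lit 17870142679) (nat_lit 76) (nat_lit 132698405664) (nat_lit 24) (nat_lit 5) (nat_lit 26) (nat_lit 5) (nat_lit 25) (nat_lit 4) (nat_lit 469) (nat_lit 410) (nat_lit 321)))) (XT.nd (nat_lit 156) (nat_lit 228) (nat_lit 0) (XT.nd (nat_lit 78) (nat_lit 0) (nat_lit 0) (XT.lf (nat_lit 0) (nat_lit 45338842036) (nat_lit 152) (nat_lit 90371516759) (nat_lit 0) (nat_lit 25276295597) (nat_lit 23) (nat_lit 5) (nat_lit 25) (nat_lit 4) (nat_lit 23) (nat_lit 4) (nat_lit 470) (nat_lit 410) (nat_lit 320)) (XT.lf (nat_lit 0) (nat_lit 93339855831) (nat_lit 152) (nat_lit 3571184214) (nat_lit 0) (nat_lit 73275849433) (nat_lit 23) (nat_lit 5) (nat_lit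 25) (nat_lit 4) (nat_lit 23) (nat_lit 4) (nat_lit 471) (nat_lit 410) (nat_lit 319))) (XT.nd (nat_lit 78) (nat_lit 152) (nat_lit 0) (XT.lf (nat_lit 0) (nat_lit 94907701991) (nat_lit 76) (nat_lit 52549355542) (nat_lit 76) (nat_lit 32483997330) (nat_lit 22) (nat_lit 4) (nat_lit 23) (nat_lit 5) (nat_lit 23) (nat_lit 4) (nat_lit 472) (nat_lit 410) (nat_lit 318)) (XT.lf (nat_lit 0) (nat_lit 11172414942) (nat_lit 76) (nat_lit 3846346997) (nat_lit 152) (nat_lit 175398111496) (nat_lit 20) (nat_lit 5) (nat_lit 21) (nat_lit 5) (nat_lit 22) (nat_lit 4) (nat_lit 473) (nat_lit 410) (nat_lit 317))))) (XT.nd (nat_lit 234) (nat_lit 228) (nat_lit 0) (XT.nd (nat_lit 78) (nat_lit 76) (nat_lit 0) (XT.lf (nat_lit 0) (nat_lit 68118211336) (nat_lit 152) (nat_lit 83723987174) (nat_lit 0) (nat_lit 49536943878) (nat_lit 20) (nat_lit 5) (nat_lit 22) (nat_lit 4) (nat_lit 20) (nat_lit 4) (nat_lit 474) (nat_lit 410) (nat_lit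 316)) (XT.nd (nat_lit 78) (nat_lit 0) (nat_lit 0) (XT.lf (nat_lit 0) (nat_lit 20343710319) (nat_lit 76) (nat_lit 105705142382) (nat_lit 76) (nat_lit 87122881300) (nat_lit 19) (nat_lit 4) (nat_lit 20) (nat_lit 5) (nat_lit 20) (nat_lit 4) (nat_lit 475) (nat_lit 410) (nat_lit 315)) (XT.lf (nat_lit 0) (nat_lit 137486408136) (nat_lit 76) (nat_lit 53410917748) (nat_lit 76) (nat_lit 34827736644) (nat_lit 19) (nat_lit 4) (nat_lit 20) (nat_lit 5) (nat_lit 20) (nat_lit 4) (nat_lit 476) (nat_lit 410) (nat_lit 314)))) (XT.nd (nat_lit 156) (nat_lit 76) (nat_lit 0) (XT.nd (nat_lit 78) (nat_lit 0) (nat_lit 0) (XT.lf (nat_lit 0) (nat_lit 21277803264) (nat_lit 152) (nat_lit 213836043737) (nat_lit 0) (nat_lit 4070365324) (nat_lit 17) (nat_lit 5) (nat_lit 19) (nat_lit 4) (nat_lit 17) (nat_lit 4) (nat_lit 477) (nat_lit 410) (nat_lit 313)) (XT.lf (nat_lit 0) (nat_lit 83847260779) (nat_lit 152) (nat_lit 102852805384)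 (nat_lit 0) (nat_lit 66639092495) (nat_lit 17) (nat_lit 5) (nat_lit 19) (nat_lit 4) (nat_lit 17) (nat_lit 4) (nat_lit 478) (nat_lit 410) (nat_lit 312))) (XT.nd (nat_lit 78) (nat_lit 0) (nat_lit 0) (XT.lf (nat_lit 0) (nat_lit 17893757306) (nat_lit 76) (nat_lit 133953783338) (nat_lit 76) (nat_lit 116744938811) (nat_lit 16) (nat_lit 4) (nat_lit 17) (nat_lit 5) (nat_lit 17) (nat_lit 4) (nat_lit 479) (nat_lit 410) (nat_lit 311)) (XT.lf (nat_lit 0) (nat_lit 154139186883) (nat_lit 76) (nat_lit 73955885679) (nat_lit 76) (nat_lit 56746415000) (nat_lit 16) (nat_lit 4) (nat_lit 17) (nat_lit 5) (nat_lit 17) (nat_lit 4) (nat_lit 480) (nat_lit 410) (nat_lit 310)))))) (XT.nd (nat_lit 546) (nat_lit 228) (nat_lit 0) (XT.nd (nat_lit 234) (nat_lit 228) (nat_lit 0) (XT.nd (nat_lit 78) (nat_lit 76) (nat_lit 0) (XT.lf (nat_lit 0) (nat_lit 7644496739) (nat_lit 152) (nat_lit 1309497229) (nat_lit 76) (nat_lit 293421306378)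 (nat_lit 15) (nat_lit 5) (nat_lit 17) (nat_lit 5) (nat_lit 16) (nat_lit 4) (nat_lit 481) (nat_lit 410) (nat_lit 309)) (XT.nd (nat_lit 78) (nat_lit 0) (nat_lit 0) (XT.lf (nat_lit 0) (nat_lit 79184929094) (nat_lit 152) (nat_lit 178354652067) (nat_lit 0) (nat_lit 63249200138) (nat_lit 14) (nat_lit 5) (nat_lit 16) (nat_lit 4) (nat_lit 14) (nat_lit 4) (nat_lit 482) (nat_lit 410) (nat_lit 308)) (XT.lf (nat_lit 0) (nat_lit 156713552812) (nat_lit 152) (nat_lit 43163227770) (nat_lit 0) (nat_lit 140777363615) (nat_lit 14) (nat_lit 5) (nat_lit 16) (nat_lit 4) (nat_lit 14) (nat_lit 4) (nat_lit 483) (nat_lit 410) (nat_lit 307)))) (XT.nd (nat_lit 156) (nat_lit 152) (nat_lit 0) (XT.nd (nat_lit 78) (nat_lit 0) (nat_lit 0) (XT.lf (nat_lit 0) (nat_lit 108250326326) (nat_lit 76) (nat_lit 134793536714) (nat_lit 76) (nat_lit 118856921369) (nat_lit 13) (nat_lit 4) (nat_lit 14) (nat_lit 5) (nat_lit 14) (nat_lit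 4) (nat_lit 484) (nat_lit 410) (nat_lit 306)) (XT.lf (nat_lit 0) (nat_lit 274223602100) (nat_lit 76) (nat_lit 63233232382) (nat_lit 76) (nat_lit 47296222456) (nat_lit 13) (nat_lit 4) (nat_lit 14) (nat_lit 5) (nat_lit 14) (nat_lit 4) (nat_lit 485) (nat_lit 410) (nat_lit 305))) (XT.nd (nat_lit 78) (nat_lit 0) (nat_lit 0) (XT.lf (nat_lit 0) (nat_lit 29966999367) (nat_lit 152) (nat_lit 364080413585) (nat_lit 0) (nat_lit 15210170404) (nat_lit 11) (nat_lit 5) (nat_lit 13) (nat_lit 4) (nat_lit 11) (nat_lit 4) (nat_lit 486) (nat_lit 410) (nat_lit 304)) (XT.lf (nat_lit 0) (nat_lit 115595318890) (nat_lit 152) (nat_lit 218811557289) (nat_lit 0) (nat_lit 100838176696) (nat_lit 11) (nat_lit 5) (nat_lit 13) (nat_lit 4) (nat_lit 11) (nat_lit 4) (nat_lit 487) (nat_lit 410) (nat_lit 303))))) (XT.nd (nat_lit 234) (nat_lit 152) (nat_lit 0) (XT.nd (nat_lit 78) (nat_lit 76) (nat_lit 0) (XT.lf (nat_lit 0) (nat_lit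 208070456100) (nat_lit 152) (nat_lit 61928315817) (nat_lit 0) (nat_lit 193313023876) (nat_lit 11) (nat_lit 5) (nat_lit 13) (nat_lit 4) (nat_lit 11) (nat_lit 4) (nat_lit 488) (nat_lit 410) (nat_lit 302)) (XT.nd (nat_lit 78) (nat_lit 0) (nat_lit 0) (XT.lf (nat_lit 0) (nat_lit 113159695569) (nat_lit 76) (nat_lit 197502209640) (nat_lit 76) (nat_lit 182744508870) (nat_lit 10) (nat_lit 4) (nat_lit 11) (nat_lit 5) (nat_lit 11) (nat_lit 4) (nat_lit 489) (nat_lit 410) (nat_lit 301)) (XT.lf (nat_lit 0) (nat_lit 305770237366) (nat_lit 76) (nat_lit 117380552174) (nat_lit 76) (nat_lit 102622602751) (nat_lit 10) (nat_lit 4) (nat_lit 11) (nat_lit 5) (nat_lit 11) (nat_lit 4) (nat_lit 490) (nat_lit 410) (nat_lit 300)))) (XT.nd (nat_lit 156) (nat_lit 0) (nat_lit 0) (XT.nd (nat_lit 78) (nat_lit 152) (nat_lit 0) (XT.lf (nat_lit 0) (nat_lit 513783670011) (nat_lit 76) (nat_lit 30852234413) (nat_lit 76) (nat_lit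 16094054756) (nat_lit 10) (nat_lit 4) (nat_lit 11) (nat_lit 5) (nat_lit 11) (nat_lit 4) (nat_lit 491) (nat_lit 410) (nat_lit 299)) (XT.lf (nat_lit 0) (nat_lit 78624814425) (nat_lit 152) (nat_lit 454338747613) (nat_lit 0) (nat_lit 64959635871) (nat_lit 8) (nat_lit 5) (nat_lit 10) (nat_lit 4) (nat_lit 8) (nat_lit 4) (nat_lit 492) (nat_lit 410) (nat_lit 298))) (XT.nd (nat_lit 78) (nat_lit 0) (nat_lit 0) (XT.lf (nat_lit 0) (nat_lit 182167253284) (nat_lit 152) (nat_lit 287220063731) (nat_lit 0) (nat_lit 168501891963) (nat_lit 8) (nat_lit 5) (nat_lit 10) (nat_lit 4) (nat_lit 8) (nat_lit 4) (nat_lit 493) (nat_lit 410) (nat_lit 297)) (XT.lf (nat_lit 0) (nat_lit 293990555330) (nat_lit 152) (nat_lit 106737123382) (nat_lit 0) (nat_lit 280325024780) (nat_lit 8) (nat_lit 5) (nat_lit 10) (nat_lit 4) (nat_lit 8) (nat_lit 4) (nat_lit 494) (nat_lit 410) (nat_lit 296))))))) (XT.nd (nat_lit 1092) (nat_lit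 228) (nat_lit 0) (XT.nd (nat_lit 546) (nat_lit 76) (nat_lit 0) (XT.nd (nat_lit 234) (nat_lit 152) (nat_lit 0) (XT.nd (nat_lit 78) (nat_lit 0) (nat_lit 0) (XT.lf (nat_lit 0) (nat_lit 92822983542) (nat_lit 76) (nat_lit 324166788611) (nat_lit 76) (nat_lit 310501101367) (nat_lit 7) (nat_lit 4) (nat_lit 8) (nat_lit 5) (nat_lit 8) (nat_lit 4) (nat_lit 495) (nat_lit 410) (nat_lit 295)) (XT.nd (nat_lit 78) (nat_lit 0) (nat_lit 0) (XT.lf (nat_lit 0) (nat_lit 314413406371) (nat_lit 76) (nat_lit 238331617650) (nat_lit 76) (nat_lit 224665785319) (nat_lit 7) (nat_lit 4) (nat_lit 8) (nat_lit 5) (nat_lit 8) (nat_lit 4) (nat_lit 496) (nat_lit 410) (nat_lit 294)) (XT.lf (nat_lit 0) (nat_lit 553726685771) (nat_lit 76) (nat_lit 145631895071) (nat_lit 76) (nat_lit 131965928401) (nat_lit 7) (nat_lit 4) (nat_lit 8) (nat_lit 5) (nat_lit 8) (nat_lit 4) (nat_lit 497) (nat_lit 410) (nat_lit 293)))) (XT.nd (nat_lit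 156) (nat_lit 0) (nat_lit 0) (XT.nd (nat_lit 78) (nat_lit 152) (nat_lit 0) (XT.lf (nat_lit 0) (nat_lit 812180974512) (nat_lit 76) (nat_lit 45518289186) (nat_lit 76) (nat_lit 31852198127) (nat_lit 7) (nat_lit 4) (nat_lit 8) (nat_lit 5) (nat_lit 8) (nat_lit 4) (nat_lit 498) (nat_lit 410) (nat_lit 292)) (XT.lf (nat_lit 0) (nat_lit 77566037536) (nat_lit 152) (nat_lit 809402783540) (nat_lit 0) (nat_lit 64912142875) (nat_lit 5) (nat_lit 5) (nat_lit 7) (nat_lit 4) (nat_lit 5) (nat_lit 4) (nat_lit 499) (nat_lit 410) (nat_lit 291))) (XT.nd (nat_lit 78) (nat_lit 0) (nat_lit 0) (XT.lf (nat_lit 0) (nat_lit 197367712485) (nat_lit 152) (nat_lit 636781142181) (nat_lit 0) (nat_lit 184713719080) (nat_lit 5) (nat_lit 5) (nat_lit 7) (nat_lit 4) (nat_lit 5) (nat_lit 4) (nat_lit 500) (nat_lit 410) (nat_lit 290)) (XT.lf (nat_lit 0) (nat_lit 326751799526) (nat_lit 152) (nat_lit 450353335862) (nat_lit 0) (nat_lit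 314097714693) (nat_lit 5) (nat_lit 5) (nat_lit 7) (nat_lit 4) (nat_lit 5) (nat_lit 4) (nat_lit 501) (nat_lit 410) (nat_lit 289))))) (XT.nd (nat_lit 234) (nat_lit 0) (nat_lit 0) (XT.nd (nat_lit 78) (nat_lit 76) (nat_lit 0) (XT.lf (nat_lit 0) (nat_lit 466485019176) (nat_lit 152) (nat_lit 249014607211) (nat_lit 0) (nat_lit 453830849686) (nat_lit 5) (nat_lit 5) (nat_lit 7) (nat_lit 4) (nat_lit 5) (nat_lit 4) (nat_lit 502) (nat_lit 410) (nat_lit 288)) (XT.nd (nat_lit 78) (nat_lit 76) (nat_lit 0) (XT.lf (nat_lit 0) (nat_lit 617395420143) (nat_lit 152) (nat_lit 31571837837) (nat_lit 0) (nat_lit 604741172267) (nat_lit 5) (nat_lit 5) (nat_lit 7) (nat_lit 4) (nat_lit 5) (nat_lit 4) (nat_lit 503) (nat_lit 410) (nat_lit 287)) (XT.lf (nat_lit 0) (nat_lit 213967018860) (nat_lit 76) (nat_lit 571556179374) (nat_lit 76) (nat_lit 558901858918) (nat_lit 4) (nat_lit 4) (nat_lit 5) (nat_lit 5) (nat_lit 5) (nat_lit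 4) (nat_lit 504) (nat_lit 410) (nat_lit 286)))) (XT.nd (nat_lit 156) (nat_lit 0) (nat_lit 0) (XT.nd (nat_lit 78) (nat_lit 0) (nat_lit 0) (XT.lf (nat_lit 0) (nat_lit 480941743077) (nat_lit 76) (nat_lit 487021353478) (nat_lit 76) (nat_lit 474366965818) (nat_lit 4) (nat_lit 4) (nat_lit 5) (nat_lit 5) (nat_lit 5) (nat_lit 4) (nat_lit 505) (nat_lit 410) (nat_lit 285)) (XT.lf (nat_lit 0) (nat_lit 769271890223) (nat_lit 76) (nat_lit 395725063172) (nat_lit 76) (nat_lit 383070613287) (nat_lit 4) (nat_lit 4) (nat_lit 5) (nat_lit 5) (nat_lit 5) (nat_lit 4) (nat_lit 506) (nat_lit 410) (nat_lit 284))) (XT.nd (nat_lit 78) (nat_lit 0) (nat_lit 0) (XT.lf (nat_lit 0) (nat_lit 1080666083392) (nat_lit 76) (nat_lit 297126293402) (nat_lit 76) (nat_lit 284471785901) (nat_lit 4) (nat_lit 4) (nat_lit 5) (nat_lit 5) (nat_lit 5) (nat_lit 4) (nat_lit 507) (nat_lit 410) (nat_lit 283)) (XT.lf (nat_lit 0) (nat_lit 1416969621507)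 (nat_lit 76) (nat_lit 190640755162) (nat_lit 76) (nat_lit 177986194314) (nat_lit 4) (nat_lit 4) (nat_lit 5) (nat_lit 5) (nat_lit 5) (nat_lit 4) (nat_lit 508) (nat_lit 410) (nat_lit 282)))))) (XT.nd (nat_lit 546) (nat_lit 76) (nat_lit 0) (XT.nd (nat_lit 234) (nat_lit 0) (nat_lit 0) (XT.nd (nat_lit 78) (nat_lit 152) (nat_lit 0) (XT.lf (nat_lit 0) (nat_lit 1780175414422) (nat_lit 76) (nat_lit 75637423041) (nat_lit 76) (nat_lit 62982812796) (nat_lit 4) (nat_lit 4) (nat_lit 5) (nat_lit 5) (nat_lit 5) (nat_lit 4) (nat_lit 509) (nat_lit 410) (nat_lit 281)) (XT.nd (nat_lit 78) (nat_lit 0) (nat_lit 0) (XT.lf (nat_lit 0) (nat_lit 62176949264) (nat_lit 152) (nat_lit 1949574752450) (nat_lit 0) (nat_lit 50459675206) (nat_lit 2) (nat_lit 5) (nat_lit 4) (nat_lit 4) (nat_lit 2) (nat_lit 4) (nat_lit 510) (nat_lit 410) (nat_lit 280)) (XT.lf (nat_lit 0) (nat_lit 199799030786) (nat_lit 152) (nat_lit 1828620560333)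 (nat_lit 0) (nat_lit 188081717515) (nat_lit 2) (nat_lit 5) (nat_lit 4) (nat_lit 4) (nat_lit 2) (nat_lit 4) (nat_lit 511) (nat_lit 410) (nat_lit 279)))) (XT.nd (nat_lit 156) (nat_lit 0) (nat_lit 0) (XT.nd (nat_lit 78) (nat_lit 0) (nat_lit 0) (XT.lf (nat_lit 0) (nat_lit 348430017957) (nat_lit 152) (nat_lit 1697991817419) (nat_lit 0) (nat_lit 336712668379) (nat_lit 2) (nat_lit 5) (nat_lit 4) (nat_lit 4) (nat_lit 2) (nat_lit 4) (nat_lit 512) (nat_lit 410) (nat_lit 278)) (XT.lf (nat_lit 0) (nat_lit 508950686998) (nat_lit 152) (nat_lit 1556914427455) (nat_lit 0) (nat_lit 497233303802) (nat_lit 2) (nat_lit 5) (nat_lit 4) (nat_lit 4) (nat_lit 2) (nat_lit 4) (nat_lit 513) (nat_lit 410) (nat_lit 277))) (XT.nd (nat_lit 78) (nat_lit 0) (nat_lit 0) (XT.lf (nat_lit 0) (nat_lit 682312271504) (nat_lit 152) (nat_lit 1404552376277) (nat_lit 0) (nat_lit 670594857179) (nat_lit 2) (nat_lit 5) (nat_lit 4) (nat_lit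 4) (nat_lit 2) (nat_lit 4) (nat_lit 514) (nat_lit 410) (nat_lit 276)) (XT.lf (nat_lit 0) (nat_lit 869542099381) (nat_lit 152) (nat_lit 1240002777658) (nat_lit 0) (nat_lit 857824656234) (nat_lit 2) (nat_lit 5) (nat_lit 4) (nat_lit 4) (nat_lit 2) (nat_lit 4) (nat_lit 515) (nat_lit 410) (nat_lit 275))))) (XT.nd (nat_lit 312) (nat_lit 76) (nat_lit 0) (XT.nd (nat_lit 156) (nat_lit 0) (nat_lit 0) (XT.nd (nat_lit 78) (nat_lit 0) (nat_lit 0) (XT.lf (nat_lit 0) (nat_lit 1071749680723) (nat_lit 152) (nat_lit 1062290522863) (nat_lit 0) (nat_lit 1060032210888) (nat_lit 2) (nat_lit 5) (nat_lit 4) (nat_lit 4) (nat_lit 2) (nat_lit 4) (nat_lit 516) (nat_lit 410) (nat_lit 274)) (XT.lf (nat_lit 0) (nat_lit 1290133282676) (nat_lit 152) (nat_lit 870362502236) (nat_lit 0) (nat_lit 1278415788131) (nat_lit 2) (nat_lit 5) (nat_lit 4) (nat_lit 4) (nat_lit 2) (nat_lit 4) (nat_lit 517) (nat_lit 410) (nat_lit 273)))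 (XT.nd (nat_lit 78) (nat_lit 0) (nat_lit 0) (XT.lf (nat_lit 0) (nat_lit 1525987030290) (nat_lit 152) (nat_lit 663081364543) (nat_lit 0) (nat_lit 1514269512865) (nat_lit 2) (nat_lit 5) (nat_lit 4) (nat_lit 4) (nat_lit 2) (nat_lit 4) (nat_lit 518) (nat_lit 410) (nat_lit 272)) (XT.lf (nat_lit 0) (nat_lit 1780708575403) (nat_lit 152) (nat_lit 439218777115) (nat_lit 0) (nat_lit 1768991036793) (nat_lit 2) (nat_lit 5) (nat_lit 4) (nat_lit 4) (nat_lit 2) (nat_lit 4) (nat_lit 519) (nat_lit 410) (nat_lit 271)))) (XT.nd (nat_lit 156) (nat_lit 0) (nat_lit 0) (XT.nd (nat_lit 78) (nat_lit 76) (nat_lit 0) (XT.lf (nat_lit 0) (nat_lit 2055807379023) (nat_lit 152) (nat_lit 197448146842) (nat_lit 0) (nat_lit 2044089820796) (nat_lit 2) (nat_lit 5) (nat_lit 4) (nat_lit 4) (nat_lit 2) (nat_lit 4) (nat_lit 520) (nat_lit 410) (nat_lit 270)) (XT.lf (nat_lit 0) (nat_lit 67015634576) (nat_lit 76) (nat_lit 2287509749328)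 (nat_lit 76) (nat_lit 2275792172938) (nat_lit 1) (nat_lit 4) (nat_lit 2) (nat_lit 5) (nat_lit 2) (nat_lit 4) (nat_lit 521) (nat_lit 410) (nat_lit 269))) (XT.nd (nat_lit 78) (nat_lit 0) (nat_lit 0) (XT.lf (nat_lit 0) (nat_lit 363864699444) (nat_lit 76) (nat_lit 2318674292298) (nat_lit 76) (nat_lit 2306956699091) (nat_lit 1) (nat_lit 4) (nat_lit 2) (nat_lit 5) (nat_lit 2) (nat_lit 4) (nat_lit 522) (nat_lit 410) (nat_lit 268)) (XT.lf (nat_lit 0) (nat_lit 684460883826) (nat_lit 76) (nat_lit 2352332415792) (nat_lit 76) (nat_lit 2340614807013) (nat_lit 1) (nat_lit 4) (nat_lit 2) (nat_lit 5) (nat_lit 2) (nat_lit 4) (nat_lit 523) (nat_lit 410) (nat_lit 267))))))))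
noncomputable def xc119 : XT := (XT.nd (nat_lit 54288) (nat_lit 0) (nat_lit 3344) (XT.nd (nat_lit 1092) (nat_lit 0) (nat_lit 0) (XT.nd (nat_lit 546) (nat_lit 0) (nat_lit 0) (XT.nd (nat_lit 234) (nat_lit 0) (nat_lit 0) (XT.nd (nat_lit 78) (nat_lit 0) (nat_lit 0) (XT.lf (nat_lit 0) (nat_lit 1030704016961) (nat_lit 76) (nat_lit 2388683575356) (nat_lit 76) (nat_lit 2376965952159) (nat_lit 1) (nat_lit 4) (nat_lit 2) (nat_lit 5) (nat_lit 2) (nat_lit 4) (nat_lit 524) (nat_lit 410) (nat_lit 266)) (XT.nd (nat_lit 78) (nat_lit 0) (nat_lit 0) (XT.lf (nat_lit 0) (nat_lit 1404645910010) (nat_lit 76) (nat_lit 2427943185270) (nat_lit 76) (nat_lit 2416225548723) (nat_lit 1) (nat_lit 4) (nat_lit 2) (nat_lit 5) (nat_lit 2) (nat_lit 4) (nat_lit 525) (nat_lit 410) (nat_lit 265)) (XT.lf (nat_lit 0) (nat_lit 1808502514932) (nat_lit 76) (nat_lit 2470343895074) (nat_lit 76) (nat_lit 2458626246165) (nat_lit 1) (nat_lit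 4) (nat_lit 2) (nat_lit 5) (nat_lit 2) (nat_lit 4) (nat_lit 526) (nat_lit 410) (nat_lit 264)))) (XT.nd (nat_lit 156) (nat_lit 0) (nat_lit 0) (XT.nd (nat_lit 78) (nat_lit 0) (nat_lit 0) (XT.lf (nat_lit 0) (nat_lit 2244667056051) (nat_lit 76) (nat_lit 2516136968232) (nat_lit 76) (nat_lit 2504419307878) (nat_lit 1) (nat_lit 4) (nat_lit 2) (nat_lit 5) (nat_lit 2) (nat_lit 4) (nat_lit 527) (nat_lit 410) (nat_lit 263)) (XT.lf (nat_lit 0) (nat_lit 2715724212130) (nat_lit 76) (nat_lit 2565593771106) (nat_lit 76) (nat_lit 2553876100153) (nat_lit 1) (nat_lit 4) (nat_lit 2) (nat_lit 5) (nat_lit 2) (nat_lit 4) (nat_lit 528) (nat_lit 410) (nat_lit 262))) (XT.nd (nat_lit 78) (nat_lit 0) (nat_lit 0) (XT.lf (nat_lit 0) (nat_lit 3224465432982) (nat_lit 76) (nat_lit 2619007381044) (nat_lit 76) (nat_lit 2607289700279) (nat_lit 1) (nat_lit 4) (nat_lit 2) (nat_lit 5) (nat_lit 2) (nat_lit 4) (nat_lit 529) (nat_lit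 410) (nat_lit 261)) (XT.lf (nat_lit 0) (nat_lit 3773905481399) (nat_lit 76) (nat_lit 2676694323143) (nat_lit 76) (nat_lit 2664976633292) (nat_lit 1) (nat_lit 4) (nat_lit 2) (nat_lit 5) (nat_lit 2) (nat_lit 4) (nat_lit 530) (nat_lit 410) (nat_lit 260))))) (XT.nd (nat_lit 234) (nat_lit 0) (nat_lit 0) (XT.nd (nat_lit 78) (nat_lit 0) (nat_lit 0) (XT.lf (nat_lit 0) (nat_lit 4367300298407) (nat_lit 76) (nat_lit 2738996445949) (nat_lit 76) (nat_lit 2727278747685) (nat_lit 1) (nat_lit 4) (nat_lit 2) (nat_lit 5) (nat_lit 2) (nat_lit 4) (nat_lit 531) (nat_lit 410) (nat_lit 259)) (XT.nd (nat_lit 78) (nat_lit 0) (nat_lit 0) (XT.lf (nat_lit 0) (nat_lit 5008166297737) (nat_lit 76) (nat_lit 2806282947226) (nat_lit 76) (nat_lit 2794565241172) (nat_lit 1) (nat_lit 4) (nat_lit 2) (nat_lit 5) (nat_lit 2) (nat_lit 4) (nat_lit 532) (nat_lit 410) (nat_lit 258)) (XT.lf (nat_lit 0) (nat_lit 5700301203829) (nat_lit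 76) (nat_lit 2878952561797) (nat_lit 76) (nat_lit 2867234848531) (nat_lit 1) (nat_lit 4) (nat_lit 2) (nat_lit 5) (nat_lit 2) (nat_lit 4) (nat_lit 533) (nat_lit 410) (nat_lit 257)))) (XT.nd (nat_lit 156) (nat_lit 0) (nat_lit 0) (XT.nd (nat_lit 78) (nat_lit 0) (nat_lit 0) (XT.lf (nat_lit 0) (nat_lit 6447806556869) (nat_lit 76) (nat_lit 2957435924415) (nat_lit 76) (nat_lit 2945718204470) (nat_lit 1) (nat_lit 4) (nat_lit 2) (nat_lit 5) (nat_lit 2) (nat_lit 4) (nat_lit 534) (nat_lit 410) (nat_lit 256)) (XT.lf (nat_lit 0) (nat_lit 7255112018206) (nat_lit 76) (nat_lit 3042198121673) (nat_lit 76) (nat_lit 3030480395544) (nat_lit 1) (nat_lit 4) (nat_lit 2) (nat_lit 5) (nat_lit 2) (nat_lit 4) (nat_lit 535) (nat_lit 410) (nat_lit 255))) (XT.nd (nat_lit 78) (nat_lit 0) (nat_lit 0) (XT.lf (nat_lit 0) (nat_lit 8127001620205) (nat_lit 76) (nat_lit 3133741448074) (nat_lit 76) (nat_lit 3122023716219) (nat_lit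 1) (nat_lit 4) (nat_lit 2) (nat_lit 5) (nat_lit 2) (nat_lit 4) (nat_lit 536) (nat_lit 410) (nat_lit 254)) (XT.lf (nat_lit 0) (nat_lit 9068642116062) (nat_lit 76) (nat_lit 3232608382588) (nat_lit 76) (nat_lit 3220890645432) (nat_lit 1) (nat_lit 4) (nat_lit 2) (nat_lit 5) (nat_lit 2) (nat_lit 4) (nat_lit 537) (nat_lit 410) (nat_lit 253)))))) (XT.nd (nat_lit 52650) (nat_lit 0) (nat_lit 6764) (XT.nd (nat_lit 234) (nat_lit 0) (nat_lit 0) (XT.nd (nat_lit 78) (nat_lit 0) (nat_lit 0) (XT.lf (nat_lit 0) (nat_lit 10085613597606) (nat_lit 76) (nat_lit 3339384803347) (nat_lit 76) (nat_lit 3327667061281) (nat_lit 1) (nat_lit 4) (nat_lit 2) (nat_lit 5) (nat_lit 2) (nat_lit 4) (nat_lit 538) (nat_lit 410) (nat_lit 252)) (XT.nd (nat_lit 78) (nat_lit 0) (nat_lit 0) (XT.lf (nat_lit 0) (nat_lit 11183942562504) (nat_lit 76) (nat_lit 3454703459509) (nat_lit 76) (nat_lit 3442985712898) (nat_lit 1) (nat_lit 4)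 (nat_lit 2) (nat_lit 5) (nat_lit 2) (nat_lit 4) (nat_lit 539) (nat_lit 410) (nat_lit 251)) (XT.lf (nat_lit 0) (nat_lit 12370137626844) (nat_lit 76) (nat_lit 3579247720890) (nat_lit 76) (nat_lit 3567529970071) (nat_lit 1) (nat_lit 4) (nat_lit 2) (nat_lit 5) (nat_lit 2) (nat_lit 4) (nat_lit 540) (nat_lit 410) (nat_lit 250)))) (XT.nd (nat_lit 156) (nat_lit 0) (nat_lit 0) (XT.nd (nat_lit 78) (nat_lit 0) (nat_lit 0) (XT.lf (nat_lit 0) (nat_lit 13651228094712) (nat_lit 76) (nat_lit 3713755627557) (nat_lit 76) (nat_lit 3702037872841) (nat_lit 1) (nat_lit 4) (nat_lit 2) (nat_lit 5) (nat_lit 2) (nat_lit 4) (nat_lit 541) (nat_lit 410) (nat_lit 249)) (XT.lf (nat_lit 0) (nat_lit 15034805613324) (nat_lit 76) (nat_lit 3859024263401) (nat_lit 76) (nat_lit 3847306505077) (nat_lit 1) (nat_lit 4) (nat_lit 2) (nat_lit 5) (nat_lit 2) (nat_lit 4) (nat_lit 542) (nat_lit 410) (nat_lit 248))) (XT.nd (nat_lit 52182)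 (nat_lit 0) (nat_lit 6992) (XT.lf (nat_lit 0) (nat_lit 16529069160569) (nat_lit 76) (nat_lit 4015914479598) (nat_lit 76) (nat_lit 4004196717933) (nat_lit 1) (nat_lit 4) (nat_lit 2) (nat_lit 5) (nat_lit 2) (nat_lit 4) (nat_lit 543) (nat_lit 410) (nat_lit 247)) (XT.lf (nat_lit 0) (nat_lit 1647833472) (nat_lit 532) (nat_lit 1663655707) (nat_lit 532) (nat_lit 1663655707) (nat_lit 93) (nat_lit 3) (nat_lit 100) (nat_lit 3) (nat_lit 100) (nat_lit 5) (nat_lit 411) (nat_lit 411) (nat_lit 378))))) (XT.nd (nat_lit 234) (nat_lit 228) (nat_lit 0) (XT.nd (nat_lit 78) (nat_lit 0) (nat_lit 76) (XT.lf (nat_lit 76) (nat_lit 1714293253) (nat_lit 0) (nat_lit 2444069565) (nat_lit 532) (nat_lit 6131377008) (nat_lit 94) (nat_lit 5) (nat_lit 93) (nat_lit 3) (nat_lit 100) (nat_lit 5) (nat_lit 412) (nat_lit 411) (nat_lit 377)) (XT.nd (nat_lit 78) (nat_lit 0) (nat_lit 0) (XT.lf (nat_lit 0) (nat_lit 5163973206) (nat_lit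 456) (nat_lit 3398309063) (nat_lit 532) (nat_lit 2088160912) (nat_lit 94) (nat_lit 5) (nat_lit 100) (nat_lit 5) (nat_lit 101) (nat_lit 5) (nat_lit 413) (nat_lit 411) (nat_lit 376)) (XT.lf (nat_lit 76) (nat_lit 2197238890) (nat_lit 0) (nat_lit 4105043695) (nat_lit 532) (nat_lit 4733548729) (nat_lit 95) (nat_lit 5) (nat_lit 94) (nat_lit 5) (nat_lit 101) (nat_lit 5) (nat_lit 414) (nat_lit 411) (nat_lit 375)))) (XT.nd (nat_lit 156) (nat_lit 380) (nat_lit 0) (XT.nd (nat_lit 78) (nat_lit 0) (nat_lit 0) (XT.lf (nat_lit 0) (nat_lit 7584175033) (nat_lit 456) (nat_lit 3076800955) (nat_lit 532) (nat_lit 786880935) (nat_lit 95) (nat_lit 5) (nat_lit 101) (nat_lit 5) (nat_lit 102) (nat_lit 5) (nat_lit 415) (nat_lit 411) (nat_lit 374)) (XT.lf (nat_lit 76) (nat_lit 3154109326) (nat_lit 0) (nat_lit 5941567410) (nat_lit 532) (nat_lit 2787010525) (nat_lit 96) (nat_lit 5) (nat_lit 95) (nat_lit 5) (nat_lit 102)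 (nat_lit 5) (nat_lit 416) (nat_lit 411) (nat_lit 373))) (XT.nd (nat_lit 78) (nat_lit 380) (nat_lit 0) (XT.lf (nat_lit 76) (nat_lit 10016579645) (nat_lit 0) (nat_lit 743318943) (nat_lit 532) (nat_lit 1589868201) (nat_lit 96) (nat_lit 5) (nat_lit 95) (nat_lit 5) (nat_lit 102) (nat_lit 5) (nat_lit 417) (nat_lit 411) (nat_lit 372)) (XT.lf (nat_lit 0) (nat_lit 4646210061) (nat_lit 456) (nat_lit 8091715260) (nat_lit 532) (nat_lit 101840252) (nat_lit 90) (nat_lit 5) (nat_lit 96) (nat_lit 5) (nat_lit 97) (nat_lit 5) (nat_lit 418) (nat_lit 411) (nat_lit 371))))))) (XT.nd (nat_lit 1092) (nat_lit 1292) (nat_lit 0) (XT.nd (nat_lit 546) (nat_lit 760) (nat_lit 0) (XT.nd (nat_lit 234) (nat_lit 532) (nat_lit 0) (XT.nd (nat_lit 78) (nat_lit 760) (nat_lit 0) (XT.lf (nat_lit 0) (nat_lit 1467847372) (nat_lit 532) (nat_lit 1148666400) (nat_lit 76) (nat_lit 10746526582) (nat_lit 89) (nat_lit 5) (nat_lit 96) (nat_lit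 5) (nat_lit 90) (nat_lit 5) (nat_lit 419) (nat_lit 411) (nat_lit 370)) (XT.nd (nat_lit 78) (nat_lit 228) (nat_lit 0) (XT.lf (nat_lit 0) (nat_lit 3360300322) (nat_lit 608) (nat_lit 7248053275) (nat_lit 76) (nat_lit 3303401492) (nat_lit 82) (nat_lit 5) (nat_lit 90) (nat_lit 5) (nat_lit 83) (nat_lit 5) (nat_lit 420) (nat_lit 411) (nat_lit 369)) (XT.lf (nat_lit 0) (nat_lit 581551851) (nat_lit 228) (nat_lit 4895674344) (nat_lit 304) (nat_lit 9021299277) (nat_lit 79) (nat_lit 5) (nat_lit 82) (nat_lit 5) (nat_lit 83) (nat_lit 5) (nat_lit 421) (nat_lit 411) (nat_lit 368)))) (XT.nd (nat_lit 156) (nat_lit 304) (nat_lit 0) (XT.nd (nat_lit 78) (nat_lit 228) (nat_lit 0) (XT.lf (nat_lit 0) (nat_lit 7958328731) (nat_lit 304) (nat_lit 5747693789) (nat_lit 76) (nat_lit 1410633421) (nat_lit 79) (nat_lit 5) (nat_lit 83) (nat_lit 5) (nat_lit 80) (nat_lit 5) (nat_lit 422) (nat_lit 411) (nat_lit 367)) (XT.lf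 (nat_lit 0) (nat_lit 3059097144) (nat_lit 228) (nat_lit 7743313674) (nat_lit 304) (nat_lit 4968670670) (nat_lit 76) (nat_lit 5) (nat_lit 79) (nat_lit 5) (nat_lit 80) (nat_lit 5) (nat_lit 423) (nat_lit 411) (nat_lit 366))) (XT.nd (nat_lit 78) (nat_lit 304) (nat_lit 0) (XT.lf (nat_lit 0) (nat_lit 12856469194) (nat_lit 228) (nat_lit 1140164333) (nat_lit 304) (nat_lit 2471422083) (nat_lit 76) (nat_lit 5) (nat_lit 79) (nat_lit 5) (nat_lit 80) (nat_lit 5) (nat_lit 424) (nat_lit 411) (nat_lit 365)) (XT.lf (nat_lit 0) (nat_lit 485883916) (nat_lit 304) (nat_lit 10861735855) (nat_lit 76) (nat_lit 5851011895) (nat_lit 72) (nat_lit 5) (nat_lit 76) (nat_lit 5) (nat_lit 73) (nat_lit 5) (nat_lit 425) (nat_lit 411) (nat_lit 364))))) (XT.nd (nat_lit 234) (nat_lit 380) (nat_lit 0) (XT.nd (nat_lit 78) (nat_lit 380) (nat_lit 0) (XT.lf (nat_lit 0) (nat_lit 3645696239) (nat_lit 304) (nat_lit 830352749) (nat_lit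 76) (nat_lit 13498516871) (nat_lit 72) (nat_lit 5) (nat_lit 76) (nat_lit 5) (nat_lit 73) (nat_lit 5) (nat_lit 426) (nat_lit 411) (nat_lit 363)) (XT.nd (nat_lit 78) (nat_lit 152) (nat_lit 0) (XT.lf (nat_lit 0) (nat_lit 7358615058) (nat_lit 304) (nat_lit 8381435717) (nat_lit 76) (nat_lit 3048500980) (nat_lit 69) (nat_lit 5) (nat_lit 73) (nat_lit 5) (nat_lit 70) (nat_lit 5) (nat_lit 427) (nat_lit 411) (nat_lit 362)) (XT.lf (nat_lit 0) (nat_lit 2915028664) (nat_lit 152) (nat_lit 8635102959) (nat_lit 228) (nat_lit 8103002247) (nat_lit 67) (nat_lit 5) (nat_lit 69) (nat_lit 5) (nat_lit 70) (nat_lit 5) (nat_lit 428) (nat_lit 411) (nat_lit 361)))) (XT.nd (nat_lit 156) (nat_lit 152) (nat_lit 0) (XT.nd (nat_lit 78) (nat_lit 228) (nat_lit 0) (XT.lf (nat_lit 0) (nat_lit 15553947728) (nat_lit 152) (nat_lit 725257976) (nat_lit 228) (nat_lit 4291500258) (nat_lit 67) (nat_lit 5) (nat_lit 69) (nat_lit 5)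 (nat_lit 70) (nat_lit 5) (nat_lit 429) (nat_lit 411) (nat_lit 360)) (XT.lf (nat_lit 0) (nat_lit 193398388) (nat_lit 228) (nat_lit 13730521198) (nat_lit 76) (nat_lit 7609325590) (nat_lit 64) (nat_lit 5) (nat_lit 67) (nat_lit 5) (nat_lit 65) (nat_lit 5) (nat_lit 430) (nat_lit 411) (nat_lit 359))) (XT.nd (nat_lit 78) (nat_lit 152) (nat_lit 0) (XT.lf (nat_lit 0) (nat_lit 4939997792) (nat_lit 228) (nat_lit 799849882) (nat_lit 76) (nat_lit 16813243372) (nat_lit 64) (nat_lit 5) (nat_lit 67) (nat_lit 5) (nat_lit 65) (nat_lit 5) (nat_lit 431) (nat_lit 411) (nat_lit 358)) (XT.lf (nat_lit 0) (nat_lit 10458668822) (nat_lit 228) (nat_lit 9890418949) (nat_lit 76) (nat_lit 3274051013) (nat_lit 62) (nat_lit 5) (nat_lit 65) (nat_lit 5) (nat_lit 63) (nat_lit 5) (nat_lit 432) (nat_lit 411) (nat_lit 357)))))) (XT.nd (nat_lit 546) (nat_lit 684) (nat_lit 0) (XT.nd (nat_lit 234) (nat_lit 304) (nat_lit 0) (XT.nd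 (nat_lit 78) (nat_lit 152) (nat_lit 0) (XT.lf (nat_lit 0) (nat_lit 4749161189) (nat_lit 152) (nat_lit 11933060987) (nat_lit 228) (nat_lit 8075498642) (nat_lit 60) (nat_lit 5) (nat_lit 62) (nat_lit 5) (nat_lit 63) (nat_lit 5) (nat_lit 433) (nat_lit 411) (nat_lit 356)) (XT.nd (nat_lit 78) (nat_lit 152) (nat_lit 0) (XT.lf (nat_lit 0) (nat_lit 21088174596) (nat_lit 152) (nat_lit 2564386718) (nat_lit 228) (nat_lit 2310597431) (nat_lit 60) (nat_lit 5) (nat_lit 62) (nat_lit 5) (nat_lit 63) (nat_lit 5) (nat_lit 434) (nat_lit 411) (nat_lit 355)) (XT.lf (nat_lit 0) (nat_lit 4177607248) (nat_lit 152) (nat_lit 15487815997) (nat_lit 76) (nat_lit 7555437856) (nat_lit 58) (nat_lit 5) (nat_lit 60) (nat_lit 5) (nat_lit 59) (nat_lit 5) (nat_lit 435) (nat_lit 411) (nat_lit 354)))) (XT.nd (nat_lit 156) (nat_lit 152) (nat_lit 0) (XT.nd (nat_lit 78) (nat_lit 0) (nat_lit 0) (XT.lf (nat_lit 0) (nat_lit 1279140145)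 (nat_lit 152) (nat_lit 9995027258) (nat_lit 228) (nat_lit 17283081645) (nat_lit 56) (nat_lit 5) (nat_lit 58) (nat_lit 5) (nat_lit 59) (nat_lit 5) (nat_lit 436) (nat_lit 411) (nat_lit 353)) (XT.lf (nat_lit 0) (nat_lit 19364110007) (nat_lit 228) (nat_lit 9753806413) (nat_lit 76) (nat_lit 848580066) (nat_lit 56) (nat_lit 5) (nat_lit 59) (nat_lit 5) (nat_lit 57) (nat_lit 4) (nat_lit 437) (nat_lit 411) (nat_lit 352))) (XT.nd (nat_lit 78) (nat_lit 76) (nat_lit 0) (XT.lf (nat_lit 0) (nat_lit 9349416928) (nat_lit 76) (nat_lit 19218143810) (nat_lit 152) (nat_lit 2883618951) (nat_lit 55) (nat_lit 5) (nat_lit 56) (nat_lit 5) (nat_lit 57) (nat_lit 4) (nat_lit 438) (nat_lit 411) (nat_lit 351)) (XT.lf (nat_lit 0) (nat_lit 5435506560) (nat_lit 152) (nat_lit 2667028907) (nat_lit 76) (nat_lit 24921162403) (nat_lit 54) (nat_lit 5) (nat_lit 56) (nat_lit 5) (nat_lit 55) (nat_lit 5) (nat_lit 439) (nat_lit 411)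 (nat_lit 350))))) (XT.nd (nat_lit 312) (nat_lit 228) (nat_lit 0) (XT.nd (nat_lit 156) (nat_lit 228) (nat_lit 0) (XT.nd (nat_lit 78) (nat_lit 76) (nat_lit 0) (XT.lf (nat_lit 0) (nat_lit 14816423504) (nat_lit 228) (nat_lit 15609948638) (nat_lit 76) (nat_lit 4245490074) (nat_lit 52) (nat_lit 5) (nat_lit 55) (nat_lit 5) (nat_lit 53) (nat_lit 4) (nat_lit 440) (nat_lit 411) (nat_lit 349)) (XT.lf (nat_lit 0) (nat_lit 6308828046) (nat_lit 76) (nat_lit 19059587861) (nat_lit 152) (nat_lit 11049816361) (nat_lit 51) (nat_lit 5) (nat_lit 52) (nat_lit 5) (nat_lit 53) (nat_lit 4) (nat_lit 441) (nat_lit 411) (nat_lit 348))) (XT.nd (nat_lit 78) (nat_lit 228) (nat_lit 0) (XT.lf (nat_lit 0) (nat_lit 30840380846) (nat_lit 76) (nat_lit 6335123976) (nat_lit 152) (nat_lit 1095932804) (nat_lit 51) (nat_lit 5) (nat_lit 52) (nat_lit 5) (nat_lit 53) (nat_lit 4) (nat_lit 442) (nat_lit 411) (nat_lit 347)) (XT.lf (nat_lit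 0) (nat_lit 9776549527) (nat_lit 228) (nat_lit 22729450219) (nat_lit 76) (nat_lit 7699906759) (nat_lit 48) (nat_lit 5) (nat_lit 51) (nat_lit 5) (nat_lit 49) (nat_lit 4) (nat_lit 443) (nat_lit 411) (nat_lit 346)))) (XT.nd (nat_lit 156) (nat_lit 152) (nat_lit 0) (XT.nd (nat_lit 78) (nat_lit 0) (nat_lit 0) (XT.lf (nat_lit 0) (nat_lit 2415486012) (nat_lit 76) (nat_lit 19460353050) (nat_lit 152) (nat_lit 20383719707) (nat_lit 47) (nat_lit 5) (nat_lit 48) (nat_lit 5) (nat_lit 49) (nat_lit 4) (nat_lit 444) (nat_lit 411) (nat_lit 345)) (XT.lf (nat_lit 0) (nat_lit 30837996589) (nat_lit 76) (nat_lit 4712120172) (nat_lit 152) (nat_lit 8878823346) (nat_lit 47) (nat_lit 5) (nat_lit 48) (nat_lit 5) (nat_lit 49) (nat_lit 4) (nat_lit 445) (nat_lit 411) (nat_lit 344))) (XT.nd (nat_lit 78) (nat_lit 0) (nat_lit 0) (XT.lf (nat_lit 0) (nat_lit 4007601121) (nat_lit 152) (nat_lit 31594516325) (nat_lit 76) (nat_lit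 11111847931) (nat_lit 45) (nat_lit 5) (nat_lit 47) (nat_lit 5) (nat_lit 46) (nat_lit 4) (nat_lit 446) (nat_lit 411) (nat_lit 343)) (XT.lf (nat_lit 0) (nat_lit 17935342687) (nat_lit 152) (nat_lit 2640680223) (nat_lit 76) (nat_lit 28548113431) (nat_lit 45) (nat_lit 5) (nat_lit 47) (nat_lit 5) (nat_lit 46) (nat_lit 4) (nat_lit 447) (nat_lit 411) (nat_lit 342))))))))
noncomputable def xc120 : XT := (XT.nd (nat_lit 2184) (nat_lit 1140) (nat_lit 0) (XT.nd (nat_lit 1092) (nat_lit 912) (nat_lit 0) (XT.nd (nat_lit 546) (nat_lit 456) (nat_lit 0) (XT.nd (nat_lit 234) (nat_lit 304) (nat_lit 0) (XT.nd (nat_lit 78) (nat_lit 152) (nat_lit 0) (XT.lf (nat_lit 0) (nat_lit 30112132337) (nat_lit 76) (nat_lit 3576817864) (nat_lit 152) (nat_lit 17981239414) (nat_lit 44) (nat_lit 5) (nat_lit 45) (nat_lit 5) (nat_lit 46) (nat_lit 4) (nat_lit 448) (nat_lit 411) (nat_lit 341)) (XT.nd (nat_lit 78) (nat_lit 76) (nat_lit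 0) (XT.lf (nat_lit 0) (nat_lit 11410848084) (nat_lit 76) (nat_lit 39983583211) (nat_lit 76) (nat_lit 2970169393) (nat_lit 43) (nat_lit 4) (nat_lit 44) (nat_lit 5) (nat_lit 44) (nat_lit 4) (nat_lit 449) (nat_lit 411) (nat_lit 340)) (XT.lf (nat_lit 0) (nat_lit 13264640763) (nat_lit 152) (nat_lit 9434623274) (nat_lit 76) (nat_lit 34495002692) (nat_lit 42) (nat_lit 5) (nat_lit 44) (nat_lit 5) (nat_lit 43) (nat_lit 4) (nat_lit 450) (nat_lit 411) (nat_lit 339)))) (XT.nd (nat_lit 156) (nat_lit 152) (nat_lit 0) (XT.nd (nat_lit 78) (nat_lit 76) (nat_lit 0) (XT.lf (nat_lit 0) (nat_lit 28071056417) (nat_lit 76) (nat_lit 3230352646) (nat_lit 152) (nat_lit 28889634306) (nat_lit 41) (nat_lit 5) (nat_lit 42) (nat_lit 5) (nat_lit 43) (nat_lit 4) (nat_lit 451) (nat_lit 411) (nat_lit 338)) (XT.lf (nat_lit 0) (nat_lit 5526434796) (nat_lit 76) (nat_lit 46068863707) (nat_lit 76) (nat_lit 11767129512) (nat_lit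 40) (nat_lit 4) (nat_lit 41) (nat_lit 5) (nat_lit 41) (nat_lit 4) (nat_lit 452) (nat_lit 411) (nat_lit 337))) (XT.nd (nat_lit 78) (nat_lit 76) (nat_lit 0) (XT.lf (nat_lit 0) (nat_lit 7362338708) (nat_lit 152) (nat_lit 18996641779) (nat_lit 76) (nat_lit 40337717221) (nat_lit 39) (nat_lit 5) (nat_lit 41) (nat_lit 5) (nat_lit 40) (nat_lit 4) (nat_lit 453) (nat_lit 411) (nat_lit 336)) (XT.lf (nat_lit 0) (nat_lit 23815002597) (nat_lit 76) (nat_lit 4133673372) (nat_lit 152) (nat_lit 42279602647) (nat_lit 38) (nat_lit 5) (nat_lit 39) (nat_lit 5) (nat_lit 40) (nat_lit 4) (nat_lit 454) (nat_lit 411) (nat_lit 335))))) (XT.nd (nat_lit 234) (nat_lit 228) (nat_lit 0) (XT.nd (nat_lit 78) (nat_lit 228) (nat_lit 0) (XT.lf (nat_lit 0) (nat_lit 51182230787) (nat_lit 152) (nat_lit 3380855883) (nat_lit 0) (nat_lit 19399274664) (nat_lit 38) (nat_lit 5) (nat_lit 40) (nat_lit 4) (nat_lit 38) (nat_lit 4) (nat_lit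 455) (nat_lit 411) (nat_lit 334)) (XT.nd (nat_lit 78) (nat_lit 152) (nat_lit 0) (XT.lf (nat_lit 0) (nat_lit 45230319714) (nat_lit 76) (nat_lit 32229634622) (nat_lit 76) (nat_lit 440377752) (nat_lit 37) (nat_lit 4) (nat_lit 38) (nat_lit 5) (nat_lit 38) (nat_lit 4) (nat_lit 456) (nat_lit 411) (nat_lit 333)) (XT.lf (nat_lit 0) (nat_lit 15985198189) (nat_lit 76) (nat_lit 6986094640) (nat_lit 152) (nat_lit 59098904041) (nat_lit 35) (nat_lit 5) (nat_lit 36) (nat_lit 5) (nat_lit 37) (nat_lit 4) (nat_lit 457) (nat_lit 411) (nat_lit 332)))) (XT.nd (nat_lit 156) (nat_lit 152) (nat_lit 0) (XT.nd (nat_lit 78) (nat_lit 76) (nat_lit 0) (XT.lf (nat_lit 0) (nat_lit 49626619289) (nat_lit 152) (nat_lit 16652836909) (nat_lit 0) (nat_lit 20181718575) (nat_lit 35) (nat_lit 5) (nat_lit 37) (nat_lit 4) (nat_lit 35) (nat_lit 4) (nat_lit 458) (nat_lit 411) (nat_lit 331)) (XT.lf (nat_lit 0) (nat_lit 38458567974)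 (nat_lit 76) (nat_lit 41053297750) (nat_lit 76) (nat_lit 11603765798) (nat_lit 34) (nat_lit 4) (nat_lit 35) (nat_lit 5) (nat_lit 35) (nat_lit 4) (nat_lit 459) (nat_lit 411) (nat_lit 330))) (XT.nd (nat_lit 78) (nat_lit 0) (nat_lit 0) (XT.lf (nat_lit 0) (nat_lit 2541203162) (nat_lit 76) (nat_lit 12841019576) (nat_lit 152) (nat_lit 80688569328) (nat_lit 32) (nat_lit 5) (nat_lit 33) (nat_lit 5) (nat_lit 34) (nat_lit 4) (nat_lit 460) (nat_lit 411) (nat_lit 329)) (XT.lf (nat_lit 0) (nat_lit 45792437281) (nat_lit 152) (nat_lit 36937731241) (nat_lit 0) (nat_lit 18516705175) (nat_lit 32) (nat_lit 5) (nat_lit 34) (nat_lit 4) (nat_lit 32) (nat_lit 4) (nat_lit 461) (nat_lit 411) (nat_lit 328)))))) (XT.nd (nat_lit 546) (nat_lit 456) (nat_lit 0) (XT.nd (nat_lit 234) (nat_lit 228) (nat_lit 0) (XT.nd (nat_lit 78) (nat_lit 152) (nat_lit 0) (XT.lf (nat_lit 0) (nat_lit 25086404551) (nat_lit 76) (nat_lit 54477739787)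 (nat_lit 76) (nat_lit 27198603583) (nat_lit 31) (nat_lit 4) (nat_lit 32) (nat_lit 5) (nat_lit 32) (nat_lit 4) (nat_lit 462) (nat_lit 411) (nat_lit 327)) (XT.nd (nat_lit 78) (nat_lit 76) (nat_lit 0) (XT.lf (nat_lit 0) (nat_lit 4179733894) (nat_lit 152) (nat_lit 18588441646) (nat_lit 76) (nat_lit 89863093160) (nat_lit 30) (nat_lit 5) (nat_lit 32) (nat_lit 5) (nat_lit 31) (nat_lit 4) (nat_lit 463) (nat_lit 411) (nat_lit 326)) (XT.lf (nat_lit 0) (nat_lit 38153730648) (nat_lit 152) (nat_lit 67744987668) (nat_lit 0) (nat_lit 12889650452) (nat_lit 29) (nat_lit 5) (nat_lit 31) (nat_lit 4) (nat_lit 29) (nat_lit 4) (nat_lit 464) (nat_lit 411) (nat_lit 325)))) (XT.nd (nat_lit 156) (nat_lit 152) (nat_lit 0) (XT.nd (nat_lit 78) (nat_lit 0) (nat_lit 0) (XT.lf (nat_lit 0) (nat_lit 1353354291) (nat_lit 76) (nat_lit 74630119401) (nat_lit 76) (nat_lit 49363537091) (nat_lit 28) (nat_lit 4) (nat_lit 29) (nat_lit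 5) (nat_lit 29) (nat_lit 4) (nat_lit 465) (nat_lit 411) (nat_lit 324)) (XT.lf (nat_lit 0) (nat_lit 79817390870) (nat_lit 76) (nat_lit 38867129260) (nat_lit 76) (nat_lit 13598230178) (nat_lit 28) (nat_lit 4) (nat_lit 29) (nat_lit 5) (nat_lit 29) (nat_lit 4) (nat_lit 466) (nat_lit 411) (nat_lit 323))) (XT.nd (nat_lit 78) (nat_lit 0) (nat_lit 0) (XT.lf (nat_lit 0) (nat_lit 24406692171) (nat_lit 152) (nat_lit 114260492611) (nat_lit 0) (nat_lit 1007577133) (nat_lit 26) (nat_lit 5) (nat_lit 28) (nat_lit 4) (nat_lit 26) (nat_lit 4) (nat_lit 467) (nat_lit 411) (nat_lit 322)) (XT.lf (nat_lit 0) (nat_lit 67191681832) (nat_lit 152) (nat_lit 36449522449) (nat_lit 0) (nat_lit 43790727665) (nat_lit 26) (nat_lit 5) (nat_lit 28) (nat_lit 4) (nat_lit 26) (nat_lit 4) (nat_lit 468) (nat_lit 411) (nat_lit 321))))) (XT.nd (nat_lit 234) (nat_lit 228) (nat_lit 0) (XT.nd (nat_lit 78) (nat_lit 152) (nat_lit 0) (XT.lf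 (nat_lit 0) (nat_lit 50078324398) (nat_lit 76) (nat_lit 64519086534) (nat_lit 76) (nat_lit 41116429472) (nat_lit 25) (nat_lit 4) (nat_lit 26) (nat_lit 5) (nat_lit 26) (nat_lit 4) (nat_lit 469) (nat_lit 411) (nat_lit 320)) (XT.nd (nat_lit 78) (nat_lit 76) (nat_lit 0) (XT.lf (nat_lit 0) (nat_lit 2096446874) (nat_lit 152) (nat_lit 19043624318) (nat_lit 76) (nat_lit 143434758843) (nat_lit 24) (nat_lit 5) (nat_lit 26) (nat_lit 5) (nat_lit 25) (nat_lit 4) (nat_lit 470) (nat_lit 411) (nat_lit 319)) (XT.lf (nat_lit 0) (nat_lit 49091312572) (nat_lit 152) (nat_lit 97344870527) (nat_lit 0) (nat_lit 27419373888) (nat_lit 23) (nat_lit 5) (nat_lit 25) (nat_lit 4) (nat_lit 23) (nat_lit 4) (nat_lit 471) (nat_lit 411) (nat_lit 318)))) (XT.nd (nat_lit 156) (nat_lit 152) (nat_lit 0) (XT.nd (nat_lit 78) (nat_lit 76) (nat_lit 0) (XT.lf (nat_lit 0) (nat_lit 100923121309) (nat_lit 152) (nat_lit 3619501568) (nat_lit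 0) (nat_lit 79249930946) (nat_lit 23) (nat_lit 5) (nat_lit 25) (nat_lit 4) (nat_lit 23) (nat_lit 4) (nat_lit 472) (nat_lit 411) (nat_lit 317)) (XT.lf (nat_lit 0) (nat_lit 102731685979) (nat_lit 76) (nat_lit 56634979273) (nat_lit 76) (nat_lit 34960629947) (nat_lit 22) (nat_lit 4) (nat_lit 23) (nat_lit 5) (nat_lit 23) (nat_lit 4) (nat_lit 473) (nat_lit 411) (nat_lit 316))) (XT.nd (nat_lit 78) (nat_lit 0) (nat_lit 0) (XT.lf (nat_lit 0) (nat_lit 12297671777) (nat_lit 76) (nat_lit 4035546595) (nat_lit 152) (nat_lit 189307967981) (nat_lit 20) (nat_lit 5) (nat_lit 21) (nat_lit 5) (nat_lit 22) (nat_lit 4) (nat_lit 474) (nat_lit 411) (nat_lit 315)) (XT.lf (nat_lit 0) (nat_lit 73674895653) (nat_lit 152) (nat_lit 90201859414) (nat_lit 0) (nat_lit 53604140039) (nat_lit 20) (nat_lit 5) (nat_lit 22) (nat_lit 4) (nat_lit 20) (nat_lit 4) (nat_lit 475) (nat_lit 411) (nat_lit 314))))))) (XT.nd (nat_lit 1092)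 (nat_lit 456) (nat_lit 0) (XT.nd (nat_lit 546) (nat_lit 304) (nat_lit 0) (XT.nd (nat_lit 234) (nat_lit 152) (nat_lit 0) (XT.nd (nat_lit 78) (nat_lit 152) (nat_lit 0) (XT.lf (nat_lit 0) (nat_lit 22185683075) (nat_lit 76) (nat_lit 114051520633) (nat_lit 76) (nat_lit 93979913147) (nat_lit 19) (nat_lit 4) (nat_lit 20) (nat_lit 5) (nat_lit 20) (nat_lit 4) (nat_lit 476) (nat_lit 411) (nat_lit 313)) (XT.nd (nat_lit 78) (nat_lit 152) (nat_lit 0) (XT.lf (nat_lit 0) (nat_lit 148683909611) (nat_lit 76) (nat_lit 57581908631) (nat_lit 76) (nat_lit 37509512374) (nat_lit 19) (nat_lit 4) (nat_lit 20) (nat_lit 5) (nat_lit 20) (nat_lit 4) (nat_lit 477) (nat_lit 411) (nat_lit 312)) (XT.lf (nat_lit 0) (nat_lit 23079127449) (nat_lit 152) (nat_lit 230738994401) (nat_lit 0) (nat_lit 4492899115) (nat_lit 17) (nat_lit 5) (nat_lit 19) (nat_lit 4) (nat_lit 17) (nat_lit 4) (nat_lit 478) (nat_lit 411) (nat_lit 311))))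 (XT.nd (nat_lit 156) (nat_lit 76) (nat_lit 0) (XT.nd (nat_lit 78) (nat_lit 76) (nat_lit 0) (XT.lf (nat_lit 0) (nat_lit 90646800829) (nat_lit 152) (nat_lit 110892203116) (nat_lit 0) (nat_lit 72059946344) (nat_lit 17) (nat_lit 5) (nat_lit 19) (nat_lit 4) (nat_lit 17) (nat_lit 4) (nat_lit 479) (nat_lit 411) (nat_lit 310)) (XT.lf (nat_lit 0) (nat_lit 19509304167) (nat_lit 76) (nat_lit 144575428258) (nat_lit 76) (nat_lit 125987994003) (nat_lit 16) (nat_lit 4) (nat_lit 17) (nat_lit 5) (nat_lit 17) (nat_lit 4) (nat_lit 480) (nat_lit 411) (nat_lit 309))) (XT.nd (nat_lit 78) (nat_lit 76) (nat_lit 0) (XT.lf (nat_lit 0) (nat_lit 166640735052) (nat_lit 76) (nat_lit 79784710470) (nat_lit 76) (nat_lit 61196739392) (nat_lit 16) (nat_lit 4) (nat_lit 17) (nat_lit 5) (nat_lit 17) (nat_lit 4) (nat_lit 481) (nat_lit 411) (nat_lit 308)) (XT.lf (nat_lit 0) (nat_lit 8334683532) (nat_lit 152) (nat_lit 1252326389)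 (nat_lit 76) (nat_lit 316972024049) (nat_lit 15) (nat_lit 5) (nat_lit 17) (nat_lit 5) (nat_lit 16) (nat_lit 4) (nat_lit 482) (nat_lit 411) (nat_lit 307))))) (XT.nd (nat_lit 234) (nat_lit 152) (nat_lit 0) (XT.nd (nat_lit 78) (nat_lit 76) (nat_lit 0) (XT.lf (nat_lit 0) (nat_lit 85598275733) (nat_lit 152) (nat_lit 192461018650) (nat_lit 0) (nat_lit 68386305013) (nat_lit 14) (nat_lit 5) (nat_lit 16) (nat_lit 4) (nat_lit 14) (nat_lit 4) (nat_lit 483) (nat_lit 411) (nat_lit 306)) (XT.nd (nat_lit 78) (nat_lit 76) (nat_lit 0) (XT.lf (nat_lit 0) (nat_lit 169323370659) (nat_lit 152) (nat_lit 46466280822) (nat_lit 0) (nat_lit 152111005357) (nat_lit 14) (nat_lit 5) (nat_lit 16) (nat_lit 4) (nat_lit 14) (nat_lit 4) (nat_lit 484) (nat_lit 411) (nat_lit 305)) (XT.lf (nat_lit 0) (nat_lit 117056560002) (nat_lit 76) (nat_lit 145501674323) (nat_lit 76) (nat_lit 128288943668) (nat_lit 13) (nat_lit 4) (nat_lit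 14) (nat_lit 5) (nat_lit 14) (nat_lit 4) (nat_lit 485) (nat_lit 411) (nat_lit 304)))) (XT.nd (nat_lit 156) (nat_lit 0) (nat_lit 0) (XT.nd (nat_lit 78) (nat_lit 152) (nat_lit 0) (XT.lf (nat_lit 0) (nat_lit 296296867647) (nat_lit 76) (nat_lit 68222126780) (nat_lit 76) (nat_lit 51009057834) (nat_lit 13) (nat_lit 4) (nat_lit 14) (nat_lit 5) (nat_lit 14) (nat_lit 4) (nat_lit 486) (nat_lit 411) (nat_lit 303)) (XT.lf (nat_lit 0) (nat_lit 32431626041) (nat_lit 152) (nat_lit 393067873284) (nat_lit 0) (nat_lit 16493309210) (nat_lit 11) (nat_lit 5) (nat_lit 13) (nat_lit 4) (nat_lit 11) (nat_lit 4) (nat_lit 487) (nat_lit 411) (nat_lit 302))) (XT.nd (nat_lit 78) (nat_lit 0) (nat_lit 0) (XT.lf (nat_lit 0) (nat_lit 124905228405) (nat_lit 152) (nat_lit 236187802810) (nat_lit 0) (nat_lit 108966643029) (nat_lit 11) (nat_lit 5) (nat_lit 13) (nat_lit 4) (nat_lit 11) (nat_lit 4) (nat_lit 488) (nat_lit 411) (nat_lit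 301)) (XT.lf (nat_lit 0) (nat_lit 224773762962) (nat_lit 152) (nat_lit 66763433803) (nat_lit 0) (nat_lit 208834928932) (nat_lit 11) (nat_lit 5) (nat_lit 13) (nat_lit 4) (nat_lit 11) (nat_lit 4) (nat_lit 489) (nat_lit 411) (nat_lit 300)))))) (XT.nd (nat_lit 546) (nat_lit 152) (nat_lit 0) (XT.nd (nat_lit 234) (nat_lit 228) (nat_lit 0) (XT.nd (nat_lit 78) (nat_lit 0) (nat_lit 0) (XT.lf (nat_lit 0) (nat_lit 122328602107) (nat_lit 76) (nat_lit 213242446963) (nat_lit 76) (nat_lit 197303382699) (nat_lit 10) (nat_lit 4) (nat_lit 11) (nat_lit 5) (nat_lit 11) (nat_lit 4) (nat_lit 490) (nat_lit 411) (nat_lit 299)) (XT.nd (nat_lit 78) (nat_lit 0) (nat_lit 0) (XT.lf (nat_lit 0) (nat_lit 330339384960) (nat_lit 76) (nat_lit 126715496859) (nat_lit 76) (nat_lit 110776219415) (nat_lit 10) (nat_lit 4) (nat_lit 11) (nat_lit 5) (nat_lit 11) (nat_lit 4) (nat_lit 491) (nat_lit 411) (nat_lit 298)) (XT.lf (nat_lit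 0) (nat_lit 554985927135) (nat_lit 76) (nat_lit 33269024751) (nat_lit 76) (nat_lit 17329549918) (nat_lit 10) (nat_lit 4) (nat_lit 11) (nat_lit 5) (nat_lit 11) (nat_lit 4) (nat_lit 492) (nat_lit 411) (nat_lit 297)))) (XT.nd (nat_lit 156) (nat_lit 76) (nat_lit 0) (XT.nd (nat_lit 78) (nat_lit 0) (nat_lit 0) (XT.lf (nat_lit 0) (nat_lit 84964196404) (nat_lit 152) (nat_lit 490583651322) (nat_lit 0) (nat_lit 70205254181) (nat_lit 8) (nat_lit 5) (nat_lit 10) (nat_lit 4) (nat_lit 8) (nat_lit 4) (nat_lit 493) (nat_lit 411) (nat_lit 296)) (XT.lf (nat_lit 0) (nat_lit 196786371348) (nat_lit 152) (nat_lit 310103042812) (nat_lit 0) (nat_lit 182027272431) (nat_lit 8) (nat_lit 5) (nat_lit 10) (nat_lit 4) (nat_lit 8) (nat_lit 4) (nat_lit 494) (nat_lit 411) (nat_lit 295))) (XT.nd (nat_lit 78) (nat_lit 76) (nat_lit 0) (XT.lf (nat_lit 0) (nat_lit 317552149572) (nat_lit 152) (nat_lit 115188476569) (nat_lit 0)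 (nat_lit 302792905568) (nat_lit 8) (nat_lit 5) (nat_lit 10) (nat_lit 4) (nat_lit 8) (nat_lit 4) (nat_lit 495) (nat_lit 411) (nat_lit 294)) (XT.lf (nat_lit 0) (nat_lit 100334220765) (nat_lit 76) (nat_lit 350055999790) (nat_lit 76) (nat_lit 335296621446) (nat_lit 7) (nat_lit 4) (nat_lit 8) (nat_lit 5) (nat_lit 8) (nat_lit 4) (nat_lit 496) (nat_lit 411) (nat_lit 293))))) (XT.nd (nat_lit 234) (nat_lit 152) (nat_lit 0) (XT.nd (nat_lit 78) (nat_lit 0) (nat_lit 0) (XT.lf (nat_lit 0) (nat_lit 339645551602) (nat_lit 76) (nat_lit 257357284183) (nat_lit 76) (nat_lit 242597781450) (nat_lit 7) (nat_lit 4) (nat_lit 8) (nat_lit 5) (nat_lit 8) (nat_lit 4) (nat_lit 497) (nat_lit 411) (nat_lit 292)) (XT.nd (nat_lit 78) (nat_lit 0) (nat_lit 0) (XT.lf (nat_lit 0) (nat_lit 598098036116) (nat_lit 76) (nat_lit 157244610678) (nat_lit 76) (nat_lit 142484992771) (nat_lit 7) (nat_lit 4) (nat_lit 8) (nat_lit 5) (nat_lit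 8) (nat_lit 4) (nat_lit 498) (nat_lit 411) (nat_lit 291)) (XT.lf (nat_lit 0) (nat_lit 877223244587) (nat_lit 76) (nat_lit 49124718988) (nat_lit 76) (nat_lit 34364994438) (nat_lit 7) (nat_lit 4) (nat_lit 8) (nat_lit 5) (nat_lit 8) (nat_lit 4) (nat_lit 499) (nat_lit 411) (nat_lit 290)))) (XT.nd (nat_lit 156) (nat_lit 0) (nat_lit 0) (XT.nd (nat_lit 78) (nat_lit 0) (nat_lit 0) (XT.lf (nat_lit 0) (nat_lit 83804914214) (nat_lit 152) (nat_lit 874085428146) (nat_lit 0) (nat_lit 70138411165) (nat_lit 5) (nat_lit 5) (nat_lit 7) (nat_lit 4) (nat_lit 5) (nat_lit 4) (nat_lit 500) (nat_lit 411) (nat_lit 289)) (XT.lf (nat_lit 0) (nat_lit 213188234739) (nat_lit 152) (nat_lit 687659209411) (nat_lit 0) (nat_lit 199521647032) (nat_lit 5) (nat_lit 5) (nat_lit 7) (nat_lit 4) (nat_lit 5) (nat_lit 4) (nat_lit 501) (nat_lit 411) (nat_lit 288))) (XT.nd (nat_lit 78) (nat_lit 0) (nat_lit 0) (XT.lf (nat_lit 0) (nat_lit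 352920744651) (nat_lit 152) (nat_lit 486321950745) (nat_lit 0) (nat_lit 339254078558) (nat_lit 5) (nat_lit 5) (nat_lit 7) (nat_lit 4) (nat_lit 5) (nat_lit 4) (nat_lit 502) (nat_lit 411) (nat_lit 287)) (XT.lf (nat_lit 0) (nat_lit 503830488453) (nat_lit 152) (nat_lit 268880542467) (nat_lit 0) (nat_lit 490163749781) (nat_lit 5) (nat_lit 5) (nat_lit 7) (nat_lit 4) (nat_lit 5) (nat_lit 4) (nat_lit 503) (nat_lit 411) (nat_lit 286))))))))
noncomputable def xc121 : XT := (XT.nd (nat_lit 2184) (nat_lit 0) (nat_lit 0) (XT.nd (nat_lit 1092) (nat_lit 76) (nat_lit 0) (XT.nd (nat_lit 546) (nat_lit 152) (nat_lit 0) (XT.nd (nat_lit 234) (nat_lit 0) (nat_lit 0) (XT.nd (nat_lit 78) (nat_lit 76) (nat_lit 0) (XT.lf (nat_lit 0) (nat_lit 666811746109) (nat_lit 152) (nat_lit 34046442900) (nat_lit 0) (nat_lit 653144940234) (nat_lit 5) (nat_lit 5) (nat_lit 7) (nat_lit 4) (nat_lit 5) (nat_lit 4) (nat_lit 504) (nat_lit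 411) (nat_lit 285)) (XT.nd (nat_lit 78) (nat_lit 0) (nat_lit 0) (XT.lf (nat_lit 0) (nat_lit 231134227599) (nat_lit 76) (nat_lit 617254888612) (nat_lit 76) (nat_lit 603588020511) (nat_lit 4) (nat_lit 4) (nat_lit 5) (nat_lit 5) (nat_lit 5) (nat_lit 4) (nat_lit 505) (nat_lit 411) (nat_lit 284)) (XT.lf (nat_lit 0) (nat_lit 519463237366) (nat_lit 76) (nat_lit 525959186652) (nat_lit 76) (nat_lit 512292260936) (nat_lit 4) (nat_lit 4) (nat_lit 5) (nat_lit 5) (nat_lit 5) (nat_lit 4) (nat_lit 506) (nat_lit 411) (nat_lit 283)))) (XT.nd (nat_lit 156) (nat_lit 0) (nat_lit 0) (XT.nd (nat_lit 78) (nat_lit 0) (nat_lit 0) (XT.lf (nat_lit 0) (nat_lit 830856377406) (nat_lit 76) (nat_lit 427360961648) (nat_lit 76) (nat_lit 413693982583) (nat_lit 4) (nat_lit 4) (nat_lit 5) (nat_lit 5) (nat_lit 5) (nat_lit 4) (nat_lit 507) (nat_lit 411) (nat_lit 282)) (XT.lf (nat_lit 0) (nat_lit 1167158940402) (nat_lit 76) (nat_lit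 320875927821) (nat_lit 76) (nat_lit 307208899360) (nat_lit 4) (nat_lit 4) (nat_lit 5) (nat_lit 5) (nat_lit 5) (nat_lit 4) (nat_lit 508) (nat_lit 411) (nat_lit 281))) (XT.nd (nat_lit 78) (nat_lit 0) (nat_lit 0) (XT.lf (nat_lit 0) (nat_lit 1530363830429) (nat_lit 76) (nat_lit 205873062748) (nat_lit 76) (nat_lit 192205988550) (nat_lit 4) (nat_lit 4) (nat_lit 5) (nat_lit 5) (nat_lit 5) (nat_lit 4) (nat_lit 509) (nat_lit 411) (nat_lit 280)) (XT.lf (nat_lit 0) (nat_lit 1922623372764) (nat_lit 76) (nat_lit 81670867971) (nat_lit 76) (nat_lit 68003751423) (nat_lit 4) (nat_lit 4) (nat_lit 5) (nat_lit 5) (nat_lit 5) (nat_lit 4) (nat_lit 510) (nat_lit 411) (nat_lit 279))))) (XT.nd (nat_lit 234) (nat_lit 0) (nat_lit 0) (XT.nd (nat_lit 78) (nat_lit 0) (nat_lit 0) (XT.lf (nat_lit 0) (nat_lit 67167900489) (nat_lit 152) (nat_lit 2105505916307) (nat_lit 0) (nat_lit 54513126637) (nat_lit 2) (nat_lit 5) (nat_lit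 4) (nat_lit 4) (nat_lit 2) (nat_lit 4) (nat_lit 511) (nat_lit 411) (nat_lit 278)) (XT.nd (nat_lit 78) (nat_lit 0) (nat_lit 0) (XT.lf (nat_lit 0) (nat_lit 215798504438) (nat_lit 152) (nat_lit 1974877967808) (nat_lit 0) (nat_lit 203143696967) (nat_lit 2) (nat_lit 5) (nat_lit 4) (nat_lit 4) (nat_lit 2) (nat_lit 4) (nat_lit 512) (nat_lit 411) (nat_lit 277)) (XT.lf (nat_lit 0) (nat_lit 376318818643) (nat_lit 152) (nat_lit 1833801313413) (nat_lit 0) (nat_lit 363663980044) (nat_lit 2) (nat_lit 5) (nat_lit 4) (nat_lit 4) (nat_lit 2) (nat_lit 4) (nat_lit 513) (nat_lit 411) (nat_lit 276)))) (XT.nd (nat_lit 156) (nat_lit 0) (nat_lit 0) (XT.nd (nat_lit 78) (nat_lit 0) (nat_lit 0) (XT.lf (nat_lit 0) (nat_lit 549680074596) (nat_lit 152) (nat_lit 1681439943318) (nat_lit 0) (nat_lit 537025207175) (nat_lit 2) (nat_lit 5) (nat_lit 4) (nat_lit 4) (nat_lit 2) (nat_lit 4) (nat_lit 514) (nat_lit 411) (nat_lit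 275)) (XT.lf (nat_lit 0) (nat_lit 736909598259) (nat_lit 152) (nat_lit 1516890975331) (nat_lit 0) (nat_lit 724254704151) (nat_lit 2) (nat_lit 5) (nat_lit 4) (nat_lit 4) (nat_lit 2) (nat_lit 4) (nat_lit 515) (nat_lit 411) (nat_lit 274))) (XT.nd (nat_lit 78) (nat_lit 0) (nat_lit 0) (XT.lf (nat_lit 0) (nat_lit 939116897920) (nat_lit 152) (nat_lit 1339179304455) (nat_lit 0) (nat_lit 926461979101) (nat_lit 2) (nat_lit 5) (nat_lit 4) (nat_lit 4) (nat_lit 2) (nat_lit 4) (nat_lit 516) (nat_lit 411) (nat_lit 273)) (XT.lf (nat_lit 0) (nat_lit 1157500239058) (nat_lit 152) (nat_lit 1147251824493) (nat_lit 0) (nat_lit 1144845297359) (nat_lit 2) (nat_lit 5) (nat_lit 4) (nat_lit 4) (nat_lit 2) (nat_lit 4) (nat_lit 517) (nat_lit 411) (nat_lit 272)))))) (XT.nd (nat_lit 546) (nat_lit 0) (nat_lit 0) (XT.nd (nat_lit 234) (nat_lit 76) (nat_lit 0) (XT.nd (nat_lit 78) (nat_lit 0) (nat_lit 0) (XT.lf (nat_lit 0)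 (nat_lit 1393353745177) (nat_lit 152) (nat_lit 939971187415) (nat_lit 0) (nat_lit 1380698782293) (nat_lit 2) (nat_lit 5) (nat_lit 4) (nat_lit 4) (nat_lit 2) (nat_lit 4) (nat_lit 518) (nat_lit 411) (nat_lit 271)) (XT.nd (nat_lit 78) (nat_lit 0) (nat_lit 0) (XT.lf (nat_lit 0) (nat_lit 1648075066683) (nat_lit 152) (nat_lit 716109063521) (nat_lit 0) (nat_lit 1635420084183) (nat_lit 2) (nat_lit 5) (nat_lit 4) (nat_lit 4) (nat_lit 2) (nat_lit 4) (nat_lit 519) (nat_lit 411) (nat_lit 270)) (XT.lf (nat_lit 0) (nat_lit 1923173663259) (nat_lit 152) (nat_lit 474338862446) (nat_lit 0) (nat_lit 1910518662596) (nat_lit 2) (nat_lit 5) (nat_lit 4) (nat_lit 4) (nat_lit 2) (nat_lit 4) (nat_lit 520) (nat_lit 411) (nat_lit 269)))) (XT.nd (nat_lit 156) (nat_lit 0) (nat_lit 0) (XT.nd (nat_lit 78) (nat_lit 76) (nat_lit 0) (XT.lf (nat_lit 0) (nat_lit 2220279748811) (nat_lit 152) (nat_lit 213227871888) (nat_lit 0)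 (nat_lit 2207624731330) (nat_lit 2) (nat_lit 5) (nat_lit 4) (nat_lit 4) (nat_lit 2) (nat_lit 4) (nat_lit 521) (nat_lit 411) (nat_lit 268)) (XT.lf (nat_lit 0) (nat_lit 72392603773) (nat_lit 76) (nat_lit 2470502392081) (nat_lit 76) (nat_lit 2457847359028) (nat_lit 1) (nat_lit 4) (nat_lit 2) (nat_lit 5) (nat_lit 2) (nat_lit 4) (nat_lit 522) (nat_lit 411) (nat_lit 267))) (XT.nd (nat_lit 78) (nat_lit 0) (nat_lit 0) (XT.lf (nat_lit 0) (nat_lit 392988429503) (nat_lit 76) (nat_lit 2504160701244) (nat_lit 76) (nat_lit 2491505653773) (nat_lit 1) (nat_lit 4) (nat_lit 2) (nat_lit 5) (nat_lit 2) (nat_lit 4) (nat_lit 523) (nat_lit 411) (nat_lit 266)) (XT.lf (nat_lit 0) (nat_lit 739231230553) (nat_lit 76) (nat_lit 2540512032724) (nat_lit 76) (nat_lit 2527856971902) (nat_lit 1) (nat_lit 4) (nat_lit 2) (nat_lit 5) (nat_lit 2) (nat_lit 4) (nat_lit 524) (nat_lit 411) (nat_lit 265))))) (XT.nd (nat_lit 234)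 (nat_lit 0) (nat_lit 0) (XT.nd (nat_lit 78) (nat_lit 0) (nat_lit 0) (XT.lf (nat_lit 0) (nat_lit 1113172816116) (nat_lit 76) (nat_lit 2579771801819) (nat_lit 76) (nat_lit 2567116728636) (nat_lit 1) (nat_lit 4) (nat_lit 2) (nat_lit 5) (nat_lit 2) (nat_lit 4) (nat_lit 525) (nat_lit 411) (nat_lit 264)) (XT.nd (nat_lit 78) (nat_lit 0) (nat_lit 0) (XT.lf (nat_lit 0) (nat_lit 1517029136327) (nat_lit 76) (nat_lit 2622172659012) (nat_lit 76) (nat_lit 2609517574383) (nat_lit 1) (nat_lit 4) (nat_lit 2) (nat_lit 5) (nat_lit 2) (nat_lit 4) (nat_lit 526) (nat_lit 411) (nat_lit 263)) (XT.lf (nat_lit 0) (nat_lit 1953193413826) (nat_lit 76) (nat_lit 2667965868643) (nat_lit 76) (nat_lit 2655310773416) (nat_lit 1) (nat_lit 4) (nat_lit 2) (nat_lit 5) (nat_lit 2) (nat_lit 4) (nat_lit 527) (nat_lit 411) (nat_lit 262)))) (XT.nd (nat_lit 156) (nat_lit 0) (nat_lit 0) (XT.nd (nat_lit 78) (nat_lit 0) (nat_lit 0) (XT.lf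 (nat_lit 0) (nat_lit 2424250325813) (nat_lit 76) (nat_lit 2717422797879) (nat_lit 76) (nat_lit 2704767692840) (nat_lit 1) (nat_lit 4) (nat_lit 2) (nat_lit 5) (nat_lit 2) (nat_lit 4) (nat_lit 528) (nat_lit 411) (nat_lit 261)) (XT.lf (nat_lit 0) (nat_lit 2932991320653) (nat_lit 76) (nat_lit 2770836524820) (nat_lit 76) (nat_lit 2758181410695) (nat_lit 1) (nat_lit 4) (nat_lit 2) (nat_lit 5) (nat_lit 2) (nat_lit 4) (nat_lit 529) (nat_lit 411) (nat_lit 260))) (XT.nd (nat_lit 78) (nat_lit 0) (nat_lit 0) (XT.lf (nat_lit 0) (nat_lit 3482431159800) (nat_lit 76) (nat_lit 2828523575255) (nat_lit 76) (nat_lit 2815868452717) (nat_lit 1) (nat_lit 4) (nat_lit 2) (nat_lit 5) (nat_lit 2) (nat_lit 4) (nat_lit 530) (nat_lit 411) (nat_lit 259)) (XT.lf (nat_lit 0) (nat_lit 4075825783039) (nat_lit 76) (nat_lit 2890825798372) (nat_lit 76) (nat_lit 2878170668044) (nat_lit 1) (nat_lit 4) (nat_lit 2) (nat_lit 5) (nat_lit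 2) (nat_lit 4) (nat_lit 531) (nat_lit 411) (nat_lit 258))))))) (XT.nd (nat_lit 53352) (nat_lit 0) (nat_lit 5016) (XT.nd (nat_lit 546) (nat_lit 0) (nat_lit 0) (XT.nd (nat_lit 234) (nat_lit 0) (nat_lit 0) (XT.nd (nat_lit 78) (nat_lit 0) (nat_lit 0) (XT.lf (nat_lit 0) (nat_lit 4716691602954) (nat_lit 76) (nat_lit 2958112392530) (nat_lit 76) (nat_lit 2945457254989) (nat_lit 1) (nat_lit 4) (nat_lit 2) (nat_lit 5) (nat_lit 2) (nat_lit 4) (nat_lit 532) (nat_lit 411) (nat_lit 257)) (XT.nd (nat_lit 78) (nat_lit 0) (nat_lit 0) (XT.lf (nat_lit 0) (nat_lit 5408826342921) (nat_lit 76) (nat_lit 3030782093102) (nat_lit 76) (nat_lit 3018126948882) (nat_lit 1) (nat_lit 4) (nat_lit 2) (nat_lit 5) (nat_lit 2) (nat_lit 4) (nat_lit 533) (nat_lit 411) (nat_lit 256)) (XT.lf (nat_lit 0) (nat_lit 6156331542141) (nat_lit 76) (nat_lit 3109265535350) (nat_lit 76) (nat_lit 3096610384947) (nat_lit 1) (nat_lit 4) (nat_lit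 2) (nat_lit 5) (nat_lit 2) (nat_lit 4) (nat_lit 534) (nat_lit 411) (nat_lit 255)))) (XT.nd (nat_lit 156) (nat_lit 0) (nat_lit 0) (XT.nd (nat_lit 78) (nat_lit 0) (nat_lit 0) (XT.lf (nat_lit 0) (nat_lit 6963636861053) (nat_lit 76) (nat_lit 3194027806340) (nat_lit 76) (nat_lit 3181372650211) (nat_lit 1) (nat_lit 4) (nat_lit 2) (nat_lit 5) (nat_lit 2) (nat_lit 4) (nat_lit 535) (nat_lit 411) (nat_lit 254)) (XT.lf (nat_lit 0) (nat_lit 7835526331176) (nat_lit 76) (nat_lit 3285571201010) (nat_lit 76) (nat_lit 3272916039580) (nat_lit 1) (nat_lit 4) (nat_lit 2) (nat_lit 5) (nat_lit 2) (nat_lit 4) (nat_lit 536) (nat_lit 411) (nat_lit 253))) (XT.nd (nat_lit 78) (nat_lit 0) (nat_lit 0) (XT.lf (nat_lit 0) (nat_lit 8777166704926) (nat_lit 76) (nat_lit 3384438198737) (nat_lit 76) (nat_lit 3371783032398) (nat_lit 1) (nat_lit 4) (nat_lit 2) (nat_lit 5) (nat_lit 2) (nat_lit 4) (nat_lit 537) (nat_lit 411) (nat_lit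 252)) (XT.lf (nat_lit 0) (nat_lit 9794138073408) (nat_lit 76) (nat_lit 3491214678026) (nat_lit 76) (nat_lit 3478559507142) (nat_lit 1) (nat_lit 4) (nat_lit 2) (nat_lit 5) (nat_lit 2) (nat_lit 4) (nat_lit 538) (nat_lit 411) (nat_lit 251))))) (XT.nd (nat_lit 234) (nat_lit 0) (nat_lit 0) (XT.nd (nat_lit 78) (nat_lit 0) (nat_lit 0) (XT.lf (nat_lit 0) (nat_lit 10892466933618) (nat_lit 76) (nat_lit 3606533388384) (nat_lit 76) (nat_lit 3593878213290) (nat_lit 1) (nat_lit 4) (nat_lit 2) (nat_lit 5) (nat_lit 2) (nat_lit 4) (nat_lit 539) (nat_lit 411) (nat_lit 250)) (XT.nd (nat_lit 78) (nat_lit 0) (nat_lit 0) (XT.lf (nat_lit 0) (nat_lit 12078661901026) (nat_lit 76) (nat_lit 3731077699945) (nat_lit 76) (nat_lit 3718422520955) (nat_lit 1) (nat_lit 4) (nat_lit 2) (nat_lit 5) (nat_lit 2) (nat_lit 4) (nat_lit 540) (nat_lit 411) (nat_lit 249)) (XT.lf (nat_lit 0) (nat_lit 13359752279141) (nat_lit 76) (nat_lit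 3865585653075) (nat_lit 76) (nat_lit 3852930470477) (nat_lit 1) (nat_lit 4) (nat_lit 2) (nat_lit 5) (nat_lit 2) (nat_lit 4) (nat_lit 541) (nat_lit 411) (nat_lit 248)))) (XT.nd (nat_lit 52416) (nat_lit 0) (nat_lit 6992) (XT.nd (nat_lit 52338) (nat_lit 0) (nat_lit 6992) (XT.lf (nat_lit 0) (nat_lit 14743329714650) (nat_lit 76) (nat_lit 4010854331941) (nat_lit 76) (nat_lit 3998199146002) (nat_lit 1) (nat_lit 4) (nat_lit 2) (nat_lit 5) (nat_lit 2) (nat_lit 4) (nat_lit 542) (nat_lit 411) (nat_lit 247)) (XT.lf (nat_lit 0) (nat_lit 2452714684) (nat_lit 532) (nat_lit 1433253820) (nat_lit 532) (nat_lit 1433253820) (nat_lit 93) (nat_lit 3) (nat_lit 100) (nat_lit 3) (nat_lit 100) (nat_lit 5) (nat_lit 412) (nat_lit 412) (nat_lit 376))) (XT.nd (nat_lit 78) (nat_lit 0) (nat_lit 76) (XT.lf (nat_lit 76) (nat_lit 2560020623) (nat_lit 0) (nat_lit 3194449967) (nat_lit 532) (nat_lit 5257207045) (nat_lit 94)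 (nat_lit 5) (nat_lit 93) (nat_lit 3) (nat_lit 100) (nat_lit 5) (nat_lit 413) (nat_lit 412) (nat_lit 375)) (XT.lf (nat_lit 0) (nat_lit 6734585947) (nat_lit 456) (nat_lit 2907979753) (nat_lit 532) (nat_lit 1767159386) (nat_lit 94) (nat_lit 5) (nat_lit 100) (nat_lit 5) (nat_lit 101) (nat_lit 5) (nat_lit 414) (nat_lit 412) (nat_lit 374)))))) (XT.nd (nat_lit 546) (nat_lit 1140) (nat_lit 0) (XT.nd (nat_lit 234) (nat_lit 912) (nat_lit 0) (XT.nd (nat_lit 78) (nat_lit 0) (nat_lit 76) (XT.lf (nat_lit 76) (nat_lit 3115915986) (nat_lit 0) (nat_lit 4780170443) (nat_lit 532) (nat_lit 3935299137) (nat_lit 95) (nat_lit 5) (nat_lit 94) (nat_lit 5) (nat_lit 101) (nat_lit 5) (nat_lit 415) (nat_lit 412) (nat_lit 373)) (XT.nd (nat_lit 78) (nat_lit 0) (nat_lit 0) (XT.lf (nat_lit 0) (nat_lit 9192096568) (nat_lit 456) (nat_lit 2546510827) (nat_lit 532) (nat_lit 544851085) (nat_lit 95) (nat_lit 5) (nat_lit 101)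 (nat_lit 5) (nat_lit 102) (nat_lit 5) (nat_lit 416) (nat_lit 412) (nat_lit 372)) (XT.lf (nat_lit 76) (nat_lit 4163215714) (nat_lit 0) (nat_lit 6605341174) (nat_lit 532) (nat_lit 1989005055) (nat_lit 96) (nat_lit 5) (nat_lit 95) (nat_lit 5) (nat_lit 102) (nat_lit 5) (nat_lit 417) (nat_lit 412) (nat_lit 371)))) (XT.nd (nat_lit 156) (nat_lit 532) (nat_lit 0) (XT.nd (nat_lit 78) (nat_lit 456) (nat_lit 0) (XT.lf (nat_lit 76) (nat_lit 11518626056) (nat_lit 0) (nat_lit 977273690) (nat_lit 532) (nat_lit 771718479) (nat_lit 96) (nat_lit 5) (nat_lit 95) (nat_lit 5) (nat_lit 102) (nat_lit 5) (nat_lit 418) (nat_lit 412) (nat_lit 370)) (XT.lf (nat_lit 0) (nat_lit 741695184) (nat_lit 532) (nat_lit 8046314371) (nat_lit 76) (nat_lit 5011357408) (nat_lit 89) (nat_lit 5) (nat_lit 96) (nat_lit 5) (nat_lit 90) (nat_lit 5) (nat_lit 419) (nat_lit 412) (nat_lit 369))) (XT.nd (nat_lit 78) (nat_lit 532) (nat_lit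 0) (XT.lf (nat_lit 0) (nat_lit 2368775754) (nat_lit 532) (nat_lit 499744544) (nat_lit 76) (nat_lit 11500793404) (nat_lit 89) (nat_lit 5) (nat_lit 96) (nat_lit 5) (nat_lit 90) (nat_lit 5) (nat_lit 420) (nat_lit 412) (nat_lit 368)) (XT.lf (nat_lit 0) (nat_lit 4371453939) (nat_lit 608) (nat_lit 7045828189) (nat_lit 76) (nat_lit 3547943821) (nat_lit 82) (nat_lit 5) (nat_lit 90) (nat_lit 5) (nat_lit 83) (nat_lit 5) (nat_lit 421) (nat_lit 412) (nat_lit 367))))) (XT.nd (nat_lit 312) (nat_lit 684) (nat_lit 0) (XT.nd (nat_lit 156) (nat_lit 228) (nat_lit 0) (XT.nd (nat_lit 78) (nat_lit 0) (nat_lit 0) (XT.lf (nat_lit 0) (nat_lit 1390346123) (nat_lit 228) (nat_lit 5230732996) (nat_lit 304) (nat_lit 8980797386) (nat_lit 79) (nat_lit 5) (nat_lit 82) (nat_lit 5) (nat_lit 83) (nat_lit 5) (nat_lit 422) (nat_lit 412) (nat_lit 366)) (XT.lf (nat_lit 0) (nat_lit 9249657943) (nat_lit 304) (nat_lit 5450620395)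 (nat_lit 76) (nat_lit 1573265733) (nat_lit 79) (nat_lit 5) (nat_lit 83) (nat_lit 5) (nat_lit 80) (nat_lit 5) (nat_lit 423) (nat_lit 412) (nat_lit 365))) (XT.nd (nat_lit 78) (nat_lit 0) (nat_lit 0) (XT.lf (nat_lit 0) (nat_lit 4041552069) (nat_lit 228) (nat_lit 8248963335) (nat_lit 304) (nat_lit 4692273635) (nat_lit 76) (nat_lit 5) (nat_lit 79) (nat_lit 5) (nat_lit 80) (nat_lit 5) (nat_lit 424) (nat_lit 412) (nat_lit 364)) (XT.lf (nat_lit 0) (nat_lit 14568067428) (nat_lit 228) (nat_lit 1125992819) (nat_lit 304) (nat_lit 2045162990) (nat_lit 76) (nat_lit 5) (nat_lit 79) (nat_lit 5) (nat_lit 80) (nat_lit 5) (nat_lit 425) (nat_lit 412) (nat_lit 363)))) (XT.nd (nat_lit 156) (nat_lit 380) (nat_lit 0) (XT.nd (nat_lit 78) (nat_lit 0) (nat_lit 0) (XT.lf (nat_lit 0) (nat_lit 1093493578) (nat_lit 304) (nat_lit 10992251087) (nat_lit 76) (nat_lit 6443226001) (nat_lit 72) (nat_lit 5) (nat_lit 76) (nat_lit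 5) (nat_lit 73) (nat_lit 5) (nat_lit 426) (nat_lit 412) (nat_lit 362)) (XT.lf (nat_lit 0) (nat_lit 4463962077) (nat_lit 304) (nat_lit 213055380) (nat_lit 76) (nat_lit 14693336326) (nat_lit 72) (nat_lit 5) (nat_lit 76) (nat_lit 5) (nat_lit 73) (nat_lit 5) (nat_lit 427) (nat_lit 412) (nat_lit 361))) (XT.nd (nat_lit 78) (nat_lit 152) (nat_lit 0) (XT.lf (nat_lit 0) (nat_lit 8454848591) (nat_lit 304) (nat_lit 8349114236) (nat_lit 76) (nat_lit 3447024582) (nat_lit 69) (nat_lit 5) (nat_lit 73) (nat_lit 5) (nat_lit 70) (nat_lit 5) (nat_lit 428) (nat_lit 412) (nat_lit 360)) (XT.lf (nat_lit 0) (nat_lit 3833273971) (nat_lit 152) (nat_lit 9127291935) (nat_lit 228) (nat_lit 8225863162) (nat_lit 67) (nat_lit 5) (nat_lit 69) (nat_lit 5) (nat_lit 70) (nat_lit 5) (nat_lit 429) (nat_lit 412) (nat_lit 359))))))))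
noncomputable def xc122 : XT := (XT.nd (nat_lit 2184) (nat_lit 1824) (nat_lit 0) (XT.nd (nat_lit 1092) (nat_lit 1064) (nat_lit 0) (XT.nd (nat_lit 546) (nat_lit 532) (nat_lit 0) (XT.nd (nat_lit 234) (nat_lit 456) (nat_lit 0) (XT.nd (nat_lit 78) (nat_lit 228) (nat_lit 0) (XT.lf (nat_lit 0) (nat_lit 17432562633) (nat_lit 152) (nat_lit 599371892) (nat_lit 228) (nat_lit 4148357997) (nat_lit 67) (nat_lit 5) (nat_lit 69) (nat_lit 5) (nat_lit 70) (nat_lit 5) (nat_lit 430) (nat_lit 412) (nat_lit 358)) (XT.nd (nat_lit 78) (nat_lit 0) (nat_lit 0) (XT.lf (nat_lit 0) (nat_lit 656983788) (nat_lit 228) (nat_lit 14156246349) (nat_lit 76) (nat_lit 8406792540) (nat_lit 64) (nat_lit 5) (nat_lit 67) (nat_lit 5) (nat_lit 65) (nat_lit 5) (nat_lit 431) (nat_lit 412) (nat_lit 357)) (XT.lf (nat_lit 0) (nat_lit 5750117550) (nat_lit 228) (nat_lit 240952182) (nat_lit 76) (nat_lit 18333044418) (nat_lit 64) (nat_lit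 5) (nat_lit 67) (nat_lit 5) (nat_lit 65) (nat_lit 5) (nat_lit 432) (nat_lit 412) (nat_lit 356)))) (XT.nd (nat_lit 156) (nat_lit 152) (nat_lit 0) (XT.nd (nat_lit 78) (nat_lit 152) (nat_lit 0) (XT.lf (nat_lit 0) (nat_lit 11699158962) (nat_lit 228) (nat_lit 10047615156) (nat_lit 76) (nat_lit 3733883720) (nat_lit 62) (nat_lit 5) (nat_lit 65) (nat_lit 5) (nat_lit 63) (nat_lit 5) (nat_lit 433) (nat_lit 412) (nat_lit 355)) (XT.lf (nat_lit 0) (nat_lit 5747079816) (nat_lit 152) (nat_lit 12658468477) (nat_lit 228) (nat_lit 8301664101) (nat_lit 60) (nat_lit 5) (nat_lit 62) (nat_lit 5) (nat_lit 63) (nat_lit 5) (nat_lit 434) (nat_lit 412) (nat_lit 354))) (XT.nd (nat_lit 78) (nat_lit 152) (nat_lit 0) (XT.lf (nat_lit 0) (nat_lit 23347437575) (nat_lit 152) (nat_lit 2557280814) (nat_lit 228) (nat_lit 2106672603) (nat_lit 60) (nat_lit 5) (nat_lit 62) (nat_lit 5) (nat_lit 63) (nat_lit 5) (nat_lit 435) (nat_lit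 412) (nat_lit 353)) (XT.lf (nat_lit 0) (nat_lit 4872964512) (nat_lit 152) (nat_lit 16126965031) (nat_lit 76) (nat_lit 8369687737) (nat_lit 58) (nat_lit 5) (nat_lit 60) (nat_lit 5) (nat_lit 59) (nat_lit 5) (nat_lit 436) (nat_lit 412) (nat_lit 352))))) (XT.nd (nat_lit 234) (nat_lit 304) (nat_lit 0) (XT.nd (nat_lit 78) (nat_lit 76) (nat_lit 0) (XT.lf (nat_lit 0) (nat_lit 1966160863) (nat_lit 152) (nat_lit 10558398659) (nat_lit 228) (nat_lit 18289373478) (nat_lit 56) (nat_lit 5) (nat_lit 58) (nat_lit 5) (nat_lit 59) (nat_lit 5) (nat_lit 437) (nat_lit 412) (nat_lit 351)) (XT.nd (nat_lit 78) (nat_lit 76) (nat_lit 0) (XT.lf (nat_lit 0) (nat_lit 21241146291) (nat_lit 228) (nat_lit 9972162665) (nat_lit 76) (nat_lit 1124256804) (nat_lit 56) (nat_lit 5) (nat_lit 59) (nat_lit 5) (nat_lit 57) (nat_lit 4) (nat_lit 438) (nat_lit 412) (nat_lit 350)) (XT.lf (nat_lit 0) (nat_lit 10645092005) (nat_lit 76)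 (nat_lit 20524664353) (nat_lit 152) (nat_lit 2772157921) (nat_lit 55) (nat_lit 5) (nat_lit 56) (nat_lit 5) (nat_lit 57) (nat_lit 4) (nat_lit 439) (nat_lit 412) (nat_lit 349)))) (XT.nd (nat_lit 156) (nat_lit 76) (nat_lit 0) (XT.nd (nat_lit 78) (nat_lit 152) (nat_lit 0) (XT.lf (nat_lit 0) (nat_lit 6171305224) (nat_lit 152) (nat_lit 2357379387) (nat_lit 76) (nat_lit 27112818271) (nat_lit 54) (nat_lit 5) (nat_lit 56) (nat_lit 5) (nat_lit 55) (nat_lit 5) (nat_lit 440) (nat_lit 412) (nat_lit 348)) (XT.lf (nat_lit 0) (nat_lit 16297925586) (nat_lit 228) (nat_lit 16330949643) (nat_lit 76) (nat_lit 4793027791) (nat_lit 52) (nat_lit 5) (nat_lit 55) (nat_lit 5) (nat_lit 53) (nat_lit 4) (nat_lit 441) (nat_lit 412) (nat_lit 347))) (XT.nd (nat_lit 78) (nat_lit 0) (nat_lit 0) (XT.lf (nat_lit 0) (nat_lit 7327967281) (nat_lit 76) (nat_lit 20356542361) (nat_lit 152) (nat_lit 11624239426) (nat_lit 51) (nat_lit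 5) (nat_lit 52) (nat_lit 5) (nat_lit 53) (nat_lit 4) (nat_lit 442) (nat_lit 412) (nat_lit 346)) (XT.lf (nat_lit 0) (nat_lit 33783938157) (nat_lit 76) (nat_lit 6630996367) (nat_lit 152) (nat_lit 896975722) (nat_lit 51) (nat_lit 5) (nat_lit 52) (nat_lit 5) (nat_lit 53) (nat_lit 4) (nat_lit 443) (nat_lit 412) (nat_lit 345)))))) (XT.nd (nat_lit 546) (nat_lit 456) (nat_lit 0) (XT.nd (nat_lit 234) (nat_lit 304) (nat_lit 0) (XT.nd (nat_lit 78) (nat_lit 76) (nat_lit 0) (XT.lf (nat_lit 0) (nat_lit 10827460672) (nat_lit 228) (nat_lit 24053614814) (nat_lit 76) (nat_lit 8519790923) (nat_lit 48) (nat_lit 5) (nat_lit 51) (nat_lit 5) (nat_lit 49) (nat_lit 4) (nat_lit 444) (nat_lit 412) (nat_lit 344)) (XT.nd (nat_lit 78) (nat_lit 0) (nat_lit 0) (XT.lf (nat_lit 0) (nat_lit 3090405140) (nat_lit 76) (nat_lit 20795962489) (nat_lit 152) (nat_lit 21733109998) (nat_lit 47) (nat_lit 5) (nat_lit 48) (nat_lit 5)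 (nat_lit 49) (nat_lit 4) (nat_lit 445) (nat_lit 412) (nat_lit 343)) (XT.lf (nat_lit 0) (nat_lit 33751036545) (nat_lit 76) (nat_lit 4884257559) (nat_lit 152) (nat_lit 9328659505) (nat_lit 47) (nat_lit 5) (nat_lit 48) (nat_lit 5) (nat_lit 49) (nat_lit 4) (nat_lit 446) (nat_lit 412) (nat_lit 342)))) (XT.nd (nat_lit 156) (nat_lit 152) (nat_lit 0) (XT.nd (nat_lit 78) (nat_lit 0) (nat_lit 0) (XT.lf (nat_lit 0) (nat_lit 4573072122) (nat_lit 152) (nat_lit 33660455863) (nat_lit 76) (nat_lit 12197958503) (nat_lit 45) (nat_lit 5) (nat_lit 47) (nat_lit 5) (nat_lit 46) (nat_lit 4) (nat_lit 447) (nat_lit 412) (nat_lit 341)) (XT.lf (nat_lit 0) (nat_lit 19596895019) (nat_lit 152) (nat_lit 2424507078) (nat_lit 76) (nat_lit 31014520596) (nat_lit 45) (nat_lit 5) (nat_lit 47) (nat_lit 5) (nat_lit 46) (nat_lit 4) (nat_lit 448) (nat_lit 412) (nat_lit 340))) (XT.nd (nat_lit 78) (nat_lit 76) (nat_lit 0) (XT.lf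 (nat_lit 0) (nat_lit 32937709535) (nat_lit 76) (nat_lit 3666306559) (nat_lit 152) (nat_lit 19182186623) (nat_lit 44) (nat_lit 5) (nat_lit 45) (nat_lit 5) (nat_lit 46) (nat_lit 4) (nat_lit 449) (nat_lit 412) (nat_lit 339)) (XT.lf (nat_lit 0) (nat_lit 12742322122) (nat_lit 76) (nat_lit 42981767719) (nat_lit 76) (nat_lit 2972224953) (nat_lit 43) (nat_lit 4) (nat_lit 44) (nat_lit 5) (nat_lit 44) (nat_lit 4) (nat_lit 450) (nat_lit 412) (nat_lit 338))))) (XT.nd (nat_lit 234) (nat_lit 228) (nat_lit 0) (XT.nd (nat_lit 78) (nat_lit 152) (nat_lit 0) (XT.lf (nat_lit 0) (nat_lit 14533010567) (nat_lit 152) (nat_lit 9790879280) (nat_lit 76) (nat_lit 37429337514) (nat_lit 42) (nat_lit 5) (nat_lit 44) (nat_lit 5) (nat_lit 43) (nat_lit 4) (nat_lit 451) (nat_lit 412) (nat_lit 337)) (XT.nd (nat_lit 78) (nat_lit 76) (nat_lit 0) (XT.lf (nat_lit 0) (nat_lit 30705165828) (nat_lit 76) (nat_lit 3301548091) (nat_lit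 152) (nat_lit 30983513084) (nat_lit 41) (nat_lit 5) (nat_lit 42) (nat_lit 5) (nat_lit 43) (nat_lit 4) (nat_lit 452) (nat_lit 412) (nat_lit 336)) (XT.lf (nat_lit 0) (nat_lit 6358444227) (nat_lit 76) (nat_lit 49564313542) (nat_lit 76) (nat_lit 12492673521) (nat_lit 40) (nat_lit 4) (nat_lit 41) (nat_lit 5) (nat_lit 41) (nat_lit 4) (nat_lit 453) (nat_lit 412) (nat_lit 335)))) (XT.nd (nat_lit 156) (nat_lit 76) (nat_lit 0) (XT.nd (nat_lit 78) (nat_lit 76) (nat_lit 0) (XT.lf (nat_lit 0) (nat_lit 8141168253) (nat_lit 152) (nat_lit 20145359246) (nat_lit 76) (nat_lit 43730715084) (nat_lit 39) (nat_lit 5) (nat_lit 41) (nat_lit 5) (nat_lit 40) (nat_lit 4) (nat_lit 454) (nat_lit 412) (nat_lit 334)) (XT.lf (nat_lit 0) (nat_lit 26081823923) (nat_lit 76) (nat_lit 4287223165) (nat_lit 152) (nat_lit 45462732371) (nat_lit 38) (nat_lit 5) (nat_lit 39) (nat_lit 5) (nat_lit 40) (nat_lit 4) (nat_lit 455) (nat_lit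 412) (nat_lit 333))) (XT.nd (nat_lit 78) (nat_lit 76) (nat_lit 0) (XT.lf (nat_lit 0) (nat_lit 55451566065) (nat_lit 152) (nat_lit 3306766719) (nat_lit 0) (nat_lit 21107033871) (nat_lit 38) (nat_lit 5) (nat_lit 40) (nat_lit 4) (nat_lit 38) (nat_lit 4) (nat_lit 456) (nat_lit 412) (nat_lit 332)) (XT.lf (nat_lit 0) (nat_lit 49184579947) (nat_lit 76) (nat_lit 34642059434) (nat_lit 76) (nat_lit 292125364) (nat_lit 37) (nat_lit 4) (nat_lit 38) (nat_lit 5) (nat_lit 38) (nat_lit 4) (nat_lit 457) (nat_lit 412) (nat_lit 331))))))) (XT.nd (nat_lit 1092) (nat_lit 836) (nat_lit 0) (XT.nd (nat_lit 546) (nat_lit 456) (nat_lit 0) (XT.nd (nat_lit 234) (nat_lit 304) (nat_lit 0) (XT.nd (nat_lit 78) (nat_lit 76) (nat_lit 0) (XT.lf (nat_lit 0) (nat_lit 17600295272) (nat_lit 76) (nat_lit 7378181207) (nat_lit 152) (nat_lit 63643775310) (nat_lit 35) (nat_lit 5) (nat_lit 36) (nat_lit 5) (nat_lit 37) (nat_lit 4) (nat_lit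 458) (nat_lit 412) (nat_lit 330)) (XT.nd (nat_lit 78) (nat_lit 76) (nat_lit 0) (XT.lf (nat_lit 0) (nat_lit 53757389381) (nat_lit 152) (nat_lit 17664850444) (nat_lit 0) (nat_lit 21942975452) (nat_lit 35) (nat_lit 5) (nat_lit 37) (nat_lit 4) (nat_lit 35) (nat_lit 4) (nat_lit 459) (nat_lit 412) (nat_lit 329)) (XT.lf (nat_lit 0) (nat_lit 41847360160) (nat_lit 76) (nat_lit 44181702245) (nat_lit 76) (nat_lit 12363317776) (nat_lit 34) (nat_lit 4) (nat_lit 35) (nat_lit 5) (nat_lit 35) (nat_lit 4) (nat_lit 460) (nat_lit 412) (nat_lit 328)))) (XT.nd (nat_lit 156) (nat_lit 152) (nat_lit 0) (XT.nd (nat_lit 78) (nat_lit 0) (nat_lit 0) (XT.lf (nat_lit 0) (nat_lit 3056934407) (nat_lit 76) (nat_lit 13711813333) (nat_lit 152) (nat_lit 86975230143) (nat_lit 32) (nat_lit 5) (nat_lit 33) (nat_lit 5) (nat_lit 34) (nat_lit 4) (nat_lit 461) (nat_lit 412) (nat_lit 327)) (XT.lf (nat_lit 0) (nat_lit 49603712559)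 (nat_lit 152) (nat_lit 39595389552) (nat_lit 0) (nat_lit 20135689417) (nat_lit 32) (nat_lit 5) (nat_lit 34) (nat_lit 4) (nat_lit 32) (nat_lit 4) (nat_lit 462) (nat_lit 412) (nat_lit 326))) (XT.nd (nat_lit 78) (nat_lit 76) (nat_lit 0) (XT.lf (nat_lit 0) (nat_lit 27383148998) (nat_lit 76) (nat_lit 58690023555) (nat_lit 76) (nat_lit 29219081948) (nat_lit 31) (nat_lit 4) (nat_lit 32) (nat_lit 5) (nat_lit 32) (nat_lit 4) (nat_lit 463) (nat_lit 412) (nat_lit 325)) (XT.lf (nat_lit 0) (nat_lit 4650812316) (nat_lit 152) (nat_lit 19799954270) (nat_lit 76) (nat_lit 97180066329) (nat_lit 30) (nat_lit 5) (nat_lit 32) (nat_lit 5) (nat_lit 31) (nat_lit 4) (nat_lit 464) (nat_lit 412) (nat_lit 324))))) (XT.nd (nat_lit 234) (nat_lit 304) (nat_lit 0) (XT.nd (nat_lit 78) (nat_lit 76) (nat_lit 0) (XT.lf (nat_lit 0) (nat_lit 41342322473) (nat_lit 152) (nat_lit 72888616428) (nat_lit 0) (nat_lit 14049594692) (nat_lit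 29) (nat_lit 5) (nat_lit 31) (nat_lit 4) (nat_lit 29) (nat_lit 4) (nat_lit 465) (nat_lit 412) (nat_lit 323)) (XT.nd (nat_lit 78) (nat_lit 0) (nat_lit 0) (XT.lf (nat_lit 0) (nat_lit 1730606300) (nat_lit 76) (nat_lit 80464211919) (nat_lit 76) (nat_lit 53169338980) (nat_lit 28) (nat_lit 4) (nat_lit 29) (nat_lit 5) (nat_lit 29) (nat_lit 4) (nat_lit 466) (nat_lit 412) (nat_lit 322)) (XT.lf (nat_lit 0) (nat_lit 86451841088) (nat_lit 76) (nat_lit 41850280125) (nat_lit 76) (nat_lit 14553420927) (nat_lit 28) (nat_lit 4) (nat_lit 29) (nat_lit 5) (nat_lit 29) (nat_lit 4) (nat_lit 467) (nat_lit 412) (nat_lit 321)))) (XT.nd (nat_lit 156) (nat_lit 152) (nat_lit 0) (XT.nd (nat_lit 78) (nat_lit 0) (nat_lit 0) (XT.lf (nat_lit 0) (nat_lit 26484959966) (nat_lit 152) (nat_lit 123145335981) (nat_lit 0) (nat_lit 1208387441) (nat_lit 26) (nat_lit 5) (nat_lit 28) (nat_lit 4) (nat_lit 26) (nat_lit 4) (nat_lit 468)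 (nat_lit 412) (nat_lit 320)) (XT.lf (nat_lit 0) (nat_lit 72683435286) (nat_lit 152) (nat_lit 39128450876) (nat_lit 0) (nat_lit 47405286006) (nat_lit 26) (nat_lit 5) (nat_lit 28) (nat_lit 4) (nat_lit 26) (nat_lit 4) (nat_lit 469) (nat_lit 412) (nat_lit 319))) (XT.nd (nat_lit 78) (nat_lit 76) (nat_lit 0) (XT.lf (nat_lit 0) (nat_lit 54315622874) (nat_lit 76) (nat_lit 69562932556) (nat_lit 76) (nat_lit 44283323316) (nat_lit 25) (nat_lit 4) (nat_lit 26) (nat_lit 5) (nat_lit 26) (nat_lit 4) (nat_lit 470) (nat_lit 412) (nat_lit 318)) (XT.lf (nat_lit 0) (nat_lit 2371844609) (nat_lit 152) (nat_lit 20347524265) (nat_lit 76) (nat_lit 155012832354) (nat_lit 24) (nat_lit 5) (nat_lit 26) (nat_lit 5) (nat_lit 25) (nat_lit 4) (nat_lit 471) (nat_lit 412) (nat_lit 317)))))) (XT.nd (nat_lit 546) (nat_lit 456) (nat_lit 0) (XT.nd (nat_lit 234) (nat_lit 228) (nat_lit 0) (XT.nd (nat_lit 78) (nat_lit 76) (nat_lit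 0) (XT.lf (nat_lit 0) (nat_lit 53126096292) (nat_lit 152) (nat_lit 104912666296) (nat_lit 0) (nat_lit 29716640057) (nat_lit 23) (nat_lit 5) (nat_lit 25) (nat_lit 4) (nat_lit 23) (nat_lit 4) (nat_lit 472) (nat_lit 412) (nat_lit 316)) (XT.nd (nat_lit 78) (nat_lit 76) (nat_lit 0) (XT.lf (nat_lit 0) (nat_lit 109096488342) (nat_lit 152) (nat_lit 3705548848) (nat_lit 0) (nat_lit 85685958994) (nat_lit 23) (nat_lit 5) (nat_lit 25) (nat_lit 4) (nat_lit 23) (nat_lit 4) (nat_lit 473) (nat_lit 412) (nat_lit 315)) (XT.lf (nat_lit 0) (nat_lit 111148581479) (nat_lit 76) (nat_lit 61064333245) (nat_lit 76) (nat_lit 37652810273) (nat_lit 22) (nat_lit 4) (nat_lit 23) (nat_lit 5) (nat_lit 23) (nat_lit 4) (nat_lit 474) (nat_lit 412) (nat_lit 314)))) (XT.nd (nat_lit 156) (nat_lit 76) (nat_lit 0) (XT.nd (nat_lit 78) (nat_lit 0) (nat_lit 0) (XT.lf (nat_lit 0) (nat_lit 13479928284) (nat_lit 76) (nat_lit 4256788676)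 (nat_lit 152) (nat_lit 204348016569) (nat_lit 20) (nat_lit 5) (nat_lit 21) (nat_lit 5) (nat_lit 22) (nat_lit 4) (nat_lit 475) (nat_lit 412) (nat_lit 313)) (XT.lf (nat_lit 0) (nat_lit 79660817527) (nat_lit 152) (nat_lit 97229353561) (nat_lit 0) (nat_lit 57981840799) (nat_lit 20) (nat_lit 5) (nat_lit 22) (nat_lit 4) (nat_lit 20) (nat_lit 4) (nat_lit 476) (nat_lit 412) (nat_lit 312))) (XT.nd (nat_lit 78) (nat_lit 0) (nat_lit 0) (XT.lf (nat_lit 0) (nat_lit 24144416261) (nat_lit 76) (nat_lit 123081306601) (nat_lit 76) (nat_lit 101401599530) (nat_lit 19) (nat_lit 4) (nat_lit 20) (nat_lit 5) (nat_lit 20) (nat_lit 4) (nat_lit 477) (nat_lit 412) (nat_lit 311)) (XT.lf (nat_lit 0) (nat_lit 160748880288) (nat_lit 76) (nat_lit 62101113468) (nat_lit 76) (nat_lit 40420730153) (nat_lit 19) (nat_lit 4) (nat_lit 20) (nat_lit 5) (nat_lit 20) (nat_lit 4) (nat_lit 478) (nat_lit 412) (nat_lit 310))))) (XT.nd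 (nat_lit 312) (nat_lit 228) (nat_lit 0) (XT.nd (nat_lit 156) (nat_lit 76) (nat_lit 0) (XT.nd (nat_lit 78) (nat_lit 0) (nat_lit 0) (XT.lf (nat_lit 0) (nat_lit 25010419856) (nat_lit 152) (nat_lit 249023274417) (nat_lit 0) (nat_lit 4935411091) (nat_lit 17) (nat_lit 5) (nat_lit 19) (nat_lit 4) (nat_lit 17) (nat_lit 4) (nat_lit 479) (nat_lit 412) (nat_lit 309)) (XT.lf (nat_lit 0) (nat_lit 97977213609) (nat_lit 152) (nat_lit 119601690906) (nat_lit 0) (nat_lit 77901668021) (nat_lit 17) (nat_lit 5) (nat_lit 19) (nat_lit 4) (nat_lit 17) (nat_lit 4) (nat_lit 480) (nat_lit 412) (nat_lit 308))) (XT.nd (nat_lit 78) (nat_lit 0) (nat_lit 0) (XT.lf (nat_lit 0) (nat_lit 21227838518) (nat_lit 76) (nat_lit 156060308757) (nat_lit 76) (nat_lit 135984266108) (nat_lit 16) (nat_lit 4) (nat_lit 17) (nat_lit 5) (nat_lit 17) (nat_lit 4) (nat_lit 481) (nat_lit 412) (nat_lit 307)) (XT.lf (nat_lit 0) (nat_lit 180118095724)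 (nat_lit 76) (nat_lit 86092344936) (nat_lit 76) (nat_lit 66015842048) (nat_lit 16) (nat_lit 4) (nat_lit 17) (nat_lit 5) (nat_lit 17) (nat_lit 4) (nat_lit 482) (nat_lit 412) (nat_lit 306)))) (XT.nd (nat_lit 156) (nat_lit 76) (nat_lit 0) (XT.nd (nat_lit 78) (nat_lit 76) (nat_lit 0) (XT.lf (nat_lit 0) (nat_lit 9068868240) (nat_lit 152) (nat_lit 1213683095) (nat_lit 76) (nat_lit 342395812345) (nat_lit 15) (nat_lit 5) (nat_lit 17) (nat_lit 5) (nat_lit 16) (nat_lit 4) (nat_lit 483) (nat_lit 412) (nat_lit 305)) (XT.lf (nat_lit 0) (nat_lit 92513483738) (nat_lit 152) (nat_lit 207719006466) (nat_lit 0) (nat_lit 73923369277) (nat_lit 14) (nat_lit 5) (nat_lit 16) (nat_lit 4) (nat_lit 14) (nat_lit 4) (nat_lit 484) (nat_lit 412) (nat_lit 304))) (XT.nd (nat_lit 78) (nat_lit 76) (nat_lit 0) (XT.lf (nat_lit 0) (nat_lit 182931597669) (nat_lit 152) (nat_lit 50054978033) (nat_lit 0) (nat_lit 164341144917) (nat_lit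 14) (nat_lit 5) (nat_lit 16) (nat_lit 4) (nat_lit 14) (nat_lit 4) (nat_lit 485) (nat_lit 412) (nat_lit 303)) (XT.lf (nat_lit 0) (nat_lit 126546434227) (nat_lit 76) (nat_lit 157077211794) (nat_lit 76) (nat_lit 138486445811) (nat_lit 13) (nat_lit 4) (nat_lit 14) (nat_lit 5) (nat_lit 14) (nat_lit 4) (nat_lit 486) (nat_lit 412) (nat_lit 302))))))))
noncomputable def xc123 : XT := (XT.nd (nat_lit 2184) (nat_lit 76) (nat_lit 0) (XT.nd (nat_lit 1092) (nat_lit 380) (nat_lit 0) (XT.nd (nat_lit 546) (nat_lit 228) (nat_lit 0) (XT.nd (nat_lit 234) (nat_lit 76) (nat_lit 0) (XT.nd (nat_lit 78) (nat_lit 152) (nat_lit 0) (XT.lf (nat_lit 0) (nat_lit 320116681342) (nat_lit 76) (nat_lit 73620085372) (nat_lit 76) (nat_lit 55029029359) (nat_lit 13) (nat_lit 4) (nat_lit 14) (nat_lit 5) (nat_lit 14) (nat_lit 4) (nat_lit 487) (nat_lit 412) (nat_lit 301)) (XT.nd (nat_lit 78) (nat_lit 0) (nat_lit 0) (XT.lf (nat_lit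 0) (nat_lit 35083826498) (nat_lit 152) (nat_lit 424394155867) (nat_lit 0) (nat_lit 17869637093) (nat_lit 11) (nat_lit 5) (nat_lit 13) (nat_lit 4) (nat_lit 11) (nat_lit 4) (nat_lit 488) (nat_lit 412) (nat_lit 300)) (XT.lf (nat_lit 0) (nat_lit 134951045173) (nat_lit 152) (nat_lit 254972505479) (nat_lit 0) (nat_lit 117736625533) (nat_lit 11) (nat_lit 5) (nat_lit 13) (nat_lit 4) (nat_lit 11) (nat_lit 4) (nat_lit 489) (nat_lit 412) (nat_lit 299)))) (XT.nd (nat_lit 156) (nat_lit 0) (nat_lit 0) (XT.nd (nat_lit 78) (nat_lit 76) (nat_lit 0) (XT.lf (nat_lit 0) (nat_lit 242805107050) (nat_lit 152) (nat_lit 72002358919) (nat_lit 0) (nat_lit 225590474229) (nat_lit 11) (nat_lit 5) (nat_lit 13) (nat_lit 4) (nat_lit 11) (nat_lit 4) (nat_lit 490) (nat_lit 412) (nat_lit 298)) (XT.lf (nat_lit 0) (nat_lit 132214453799) (nat_lit 76) (nat_lit 230250454305) (nat_lit 76) (nat_lit 213035624096) (nat_lit 10) (nat_lit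 4) (nat_lit 11) (nat_lit 5) (nat_lit 11) (nat_lit 4) (nat_lit 491) (nat_lit 412) (nat_lit 297))) (XT.nd (nat_lit 78) (nat_lit 0) (nat_lit 0) (XT.lf (nat_lit 0) (nat_lit 356858724203) (nat_lit 76) (nat_lit 136805154742) (nat_lit 76) (nat_lit 119590141765) (nat_lit 10) (nat_lit 4) (nat_lit 11) (nat_lit 5) (nat_lit 11) (nat_lit 4) (nat_lit 492) (nat_lit 412) (nat_lit 296)) (XT.lf (nat_lit 0) (nat_lit 599470160979) (nat_lit 76) (nat_lit 35886489448) (nat_lit 76) (nat_lit 18671307242) (nat_lit 10) (nat_lit 4) (nat_lit 11) (nat_lit 5) (nat_lit 11) (nat_lit 4) (nat_lit 493) (nat_lit 412) (nat_lit 295))))) (XT.nd (nat_lit 234) (nat_lit 76) (nat_lit 0) (XT.nd (nat_lit 78) (nat_lit 0) (nat_lit 0) (XT.lf (nat_lit 0) (nat_lit 91803681933) (nat_lit 152) (nat_lit 529742726745) (nat_lit 0) (nat_lit 75863553322) (nat_lit 8) (nat_lit 5) (nat_lit 10) (nat_lit 4) (nat_lit 8) (nat_lit 4) (nat_lit 494) (nat_lit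 412) (nat_lit 294)) (XT.nd (nat_lit 78) (nat_lit 0) (nat_lit 0) (XT.lf (nat_lit 0) (nat_lit 212568493849) (nat_lit 152) (nat_lit 334830159678) (nat_lit 0) (nat_lit 196628230898) (nat_lit 8) (nat_lit 5) (nat_lit 10) (nat_lit 4) (nat_lit 8) (nat_lit 4) (nat_lit 495) (nat_lit 412) (nat_lit 293)) (XT.lf (nat_lit 0) (nat_lit 342992629680) (nat_lit 152) (nat_lit 124328437510) (nat_lit 0) (nat_lit 327052242340) (nat_lit 8) (nat_lit 5) (nat_lit 10) (nat_lit 4) (nat_lit 8) (nat_lit 4) (nat_lit 496) (nat_lit 412) (nat_lit 292)))) (XT.nd (nat_lit 156) (nat_lit 0) (nat_lit 0) (XT.nd (nat_lit 78) (nat_lit 0) (nat_lit 0) (XT.lf (nat_lit 0) (nat_lit 108434173909) (nat_lit 76) (nat_lit 378022643774) (nat_lit 76) (nat_lit 362082141260) (nat_lit 7) (nat_lit 4) (nat_lit 8) (nat_lit 5) (nat_lit 8) (nat_lit 4) (nat_lit 497) (nat_lit 412) (nat_lit 291)) (XT.lf (nat_lit 0) (nat_lit 366884987844) (nat_lit 76) (nat_lit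 277910833584) (nat_lit 76) (nat_lit 261970224427) (nat_lit 7) (nat_lit 4) (nat_lit 8) (nat_lit 5) (nat_lit 8) (nat_lit 4) (nat_lit 498) (nat_lit 412) (nat_lit 290))) (XT.nd (nat_lit 78) (nat_lit 0) (nat_lit 0) (XT.lf (nat_lit 0) (nat_lit 646008649482) (nat_lit 76) (nat_lit 169791741261) (nat_lit 76) (nat_lit 153851033360) (nat_lit 7) (nat_lit 4) (nat_lit 8) (nat_lit 5) (nat_lit 8) (nat_lit 4) (nat_lit 499) (nat_lit 412) (nat_lit 289)) (XT.lf (nat_lit 0) (nat_lit 947459224965) (nat_lit 76) (nat_lit 53024661071) (nat_lit 76) (nat_lit 37083861741) (nat_lit 7) (nat_lit 4) (nat_lit 8) (nat_lit 5) (nat_lit 8) (nat_lit 4) (nat_lit 500) (nat_lit 412) (nat_lit 288)))))) (XT.nd (nat_lit 546) (nat_lit 152) (nat_lit 0) (XT.nd (nat_lit 234) (nat_lit 76) (nat_lit 0) (XT.nd (nat_lit 78) (nat_lit 0) (nat_lit 0) (XT.lf (nat_lit 0) (nat_lit 90538108514) (nat_lit 152) (nat_lit 943952610412) (nat_lit 0) (nat_lit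 75778030748) (nat_lit 5) (nat_lit 5) (nat_lit 7) (nat_lit 4) (nat_lit 5) (nat_lit 4) (nat_lit 501) (nat_lit 412) (nat_lit 287)) (XT.nd (nat_lit 78) (nat_lit 0) (nat_lit 0) (XT.lf (nat_lit 0) (nat_lit 230269961261) (nat_lit 152) (nat_lit 742616712843) (nat_lit 0) (nat_lit 215509810916) (nat_lit 5) (nat_lit 5) (nat_lit 7) (nat_lit 4) (nat_lit 5) (nat_lit 4) (nat_lit 502) (nat_lit 412) (nat_lit 286)) (XT.lf (nat_lit 0) (nat_lit 381179096577) (nat_lit 152) (nat_lit 525176564841) (nat_lit 0) (nat_lit 366418879029) (nat_lit 5) (nat_lit 5) (nat_lit 7) (nat_lit 4) (nat_lit 5) (nat_lit 4) (nat_lit 503) (nat_lit 412) (nat_lit 285)))) (XT.nd (nat_lit 156) (nat_lit 76) (nat_lit 0) (XT.nd (nat_lit 78) (nat_lit 0) (nat_lit 0) (XT.lf (nat_lit 0) (nat_lit 544159790820) (nat_lit 152) (nat_lit 290343632195) (nat_lit 0) (nat_lit 529399511047) (nat_lit 5) (nat_lit 5) (nat_lit 7) (nat_lit 4) (nat_lit 5) (nat_lit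 4) (nat_lit 504) (nat_lit 412) (nat_lit 284)) (XT.lf (nat_lit 0) (nat_lit 720177855512) (nat_lit 152) (nat_lit 36726312341) (nat_lit 0) (nat_lit 705417518122) (nat_lit 5) (nat_lit 5) (nat_lit 7) (nat_lit 4) (nat_lit 5) (nat_lit 4) (nat_lit 505) (nat_lit 412) (nat_lit 283))) (XT.nd (nat_lit 78) (nat_lit 0) (nat_lit 0) (XT.lf (nat_lit 0) (nat_lit 249667701772) (nat_lit 76) (nat_lit 666613173123) (nat_lit 76) (nat_lit 651852782385) (nat_lit 4) (nat_lit 4) (nat_lit 5) (nat_lit 5) (nat_lit 5) (nat_lit 4) (nat_lit 506) (nat_lit 412) (nat_lit 282)) (XT.lf (nat_lit 0) (nat_lit 561059866693) (nat_lit 76) (nat_lit 568015452531) (nat_lit 76) (nat_lit 553255012397) (nat_lit 4) (nat_lit 4) (nat_lit 5) (nat_lit 5) (nat_lit 5) (nat_lit 4) (nat_lit 507) (nat_lit 412) (nat_lit 281))))) (XT.nd (nat_lit 234) (nat_lit 152) (nat_lit 0) (XT.nd (nat_lit 78) (nat_lit 0) (nat_lit 0) (XT.lf (nat_lit 0) (nat_lit 897361526801)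 (nat_lit 76) (nat_lit 461530885753) (nat_lit 76) (nat_lit 446770399881) (nat_lit 4) (nat_lit 4) (nat_lit 5) (nat_lit 5) (nat_lit 5) (nat_lit 4) (nat_lit 508) (nat_lit 412) (nat_lit 280)) (XT.nd (nat_lit 78) (nat_lit 0) (nat_lit 0) (XT.lf (nat_lit 0) (nat_lit 1260565580821) (nat_lit 76) (nat_lit 346528453132) (nat_lit 76) (nat_lit 331767924911) (nat_lit 4) (nat_lit 4) (nat_lit 5) (nat_lit 5) (nat_lit 5) (nat_lit 4) (nat_lit 509) (nat_lit 412) (nat_lit 279)) (XT.lf (nat_lit 0) (nat_lit 1652824349074) (nat_lit 76) (nat_lit 222326658774) (nat_lit 76) (nat_lit 207566091340) (nat_lit 4) (nat_lit 4) (nat_lit 5) (nat_lit 5) (nat_lit 5) (nat_lit 4) (nat_lit 510) (nat_lit 412) (nat_lit 278)))) (XT.nd (nat_lit 156) (nat_lit 0) (nat_lit 0) (XT.nd (nat_lit 78) (nat_lit 152) (nat_lit 0) (XT.lf (nat_lit 0) (nat_lit 2076462327965) (nat_lit 76) (nat_lit 88189492043) (nat_lit 76) (nat_lit 73428888302) (nat_lit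 4) (nat_lit 4) (nat_lit 5) (nat_lit 5) (nat_lit 5) (nat_lit 4) (nat_lit 511) (nat_lit 412) (nat_lit 277)) (XT.lf (nat_lit 0) (nat_lit 72555731778) (nat_lit 152) (nat_lit 2273916540211) (nat_lit 0) (nat_lit 58888474963) (nat_lit 2) (nat_lit 5) (nat_lit 4) (nat_lit 4) (nat_lit 2) (nat_lit 4) (nat_lit 512) (nat_lit 412) (nat_lit 276))) (XT.nd (nat_lit 78) (nat_lit 0) (nat_lit 0) (XT.lf (nat_lit 0) (nat_lit 233075717431) (nat_lit 152) (nat_lit 2132840566899) (nat_lit 0) (nat_lit 219408431794) (nat_lit 2) (nat_lit 5) (nat_lit 4) (nat_lit 4) (nat_lit 2) (nat_lit 4) (nat_lit 513) (nat_lit 412) (nat_lit 275)) (XT.lf (nat_lit 0) (nat_lit 406436669169) (nat_lit 152) (nat_lit 1980479827437) (nat_lit 0) (nat_lit 392769356845) (nat_lit 2) (nat_lit 5) (nat_lit 4) (nat_lit 4) (nat_lit 2) (nat_lit 4) (nat_lit 514) (nat_lit 412) (nat_lit 274))))))) (XT.nd (nat_lit 1092) (nat_lit 0) (nat_lit 0) (XT.nd (nat_lit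 546) (nat_lit 76) (nat_lit 0) (XT.nd (nat_lit 234) (nat_lit 0) (nat_lit 0) (XT.nd (nat_lit 78) (nat_lit 0) (nat_lit 0) (XT.lf (nat_lit 0) (nat_lit 593665911152) (nat_lit 152) (nat_lit 1815931443368) (nat_lit 0) (nat_lit 579998574117) (nat_lit 2) (nat_lit 5) (nat_lit 4) (nat_lit 4) (nat_lit 2) (nat_lit 4) (nat_lit 515) (nat_lit 412) (nat_lit 273)) (XT.nd (nat_lit 78) (nat_lit 0) (nat_lit 0) (XT.lf (nat_lit 0) (nat_lit 795872949998) (nat_lit 152) (nat_lit 1638220313157) (nat_lit 0) (nat_lit 782205590083) (nat_lit 2) (nat_lit 5) (nat_lit 4) (nat_lit 4) (nat_lit 2) (nat_lit 4) (nat_lit 516) (nat_lit 412) (nat_lit 272)) (XT.lf (nat_lit 0) (nat_lit 1014256049641) (nat_lit 152) (nat_lit 1446293333811) (nat_lit 0) (nat_lit 1000588668540) (nat_lit 2) (nat_lit 5) (nat_lit 4) (nat_lit 4) (nat_lit 2) (nat_lit 4) (nat_lit 517) (nat_lit 412) (nat_lit 271)))) (XT.nd (nat_lit 156) (nat_lit 0) (nat_lit 0)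 (XT.nd (nat_lit 78) (nat_lit 0) (nat_lit 0) (XT.lf (nat_lit 0) (nat_lit 1250109332153) (nat_lit 152) (nat_lit 1239013160267) (nat_lit 0) (nat_lit 1236441931436) (nat_lit 2) (nat_lit 5) (nat_lit 4) (nat_lit 4) (nat_lit 2) (nat_lit 4) (nat_lit 518) (nat_lit 412) (nat_lit 270)) (XT.lf (nat_lit 0) (nat_lit 1504830446615) (nat_lit 152) (nat_lit 1015151465570) (nat_lit 0) (nat_lit 1491163027736) (nat_lit 2) (nat_lit 5) (nat_lit 4) (nat_lit 4) (nat_lit 2) (nat_lit 4) (nat_lit 519) (nat_lit 412) (nat_lit 269))) (XT.nd (nat_lit 78) (nat_lit 0) (nat_lit 0) (XT.lf (nat_lit 0) (nat_lit 1779928851484) (nat_lit 152) (nat_lit 773381661901) (nat_lit 0) (nat_lit 1766261415787) (nat_lit 2) (nat_lit 5) (nat_lit 4) (nat_lit 4) (nat_lit 2) (nat_lit 4) (nat_lit 520) (nat_lit 412) (nat_lit 268)) (XT.lf (nat_lit 0) (nat_lit 2077034759529) (nat_lit 152) (nat_lit 512271039310) (nat_lit 0) (nat_lit 2063367308260)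 (nat_lit 2) (nat_lit 5) (nat_lit 4) (nat_lit 4) (nat_lit 2) (nat_lit 4) (nat_lit 521) (nat_lit 412) (nat_lit 267))))) (XT.nd (nat_lit 234) (nat_lit 0) (nat_lit 0) (XT.nd (nat_lit 78) (nat_lit 76) (nat_lit 0) (XT.lf (nat_lit 0) (nat_lit 2397908798354) (nat_lit 152) (nat_lit 230272275591) (nat_lit 0) (nat_lit 2384241332667) (nat_lit 2) (nat_lit 5) (nat_lit 4) (nat_lit 4) (nat_lit 2) (nat_lit 4) (nat_lit 522) (nat_lit 412) (nat_lit 266)) (XT.nd (nat_lit 78) (nat_lit 0) (nat_lit 0) (XT.lf (nat_lit 0) (nat_lit 78197488096) (nat_lit 76) (nat_lit 2668135607116) (nat_lit 76) (nat_lit 2654468128079) (nat_lit 1) (nat_lit 4) (nat_lit 2) (nat_lit 5) (nat_lit 2) (nat_lit 4) (nat_lit 523) (nat_lit 412) (nat_lit 265)) (XT.lf (nat_lit 0) (nat_lit 424439981660) (nat_lit 76) (nat_lit 2704487097777) (nat_lit 76) (nat_lit 2690819606378) (nat_lit 1) (nat_lit 4) (nat_lit 2) (nat_lit 5) (nat_lit 2) (nat_lit 4)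 (nat_lit 524) (nat_lit 412) (nat_lit 264)))) (XT.nd (nat_lit 156) (nat_lit 0) (nat_lit 0) (XT.nd (nat_lit 78) (nat_lit 0) (nat_lit 0) (XT.lf (nat_lit 0) (nat_lit 798381282513) (nat_lit 76) (nat_lit 2743747014262) (nat_lit 76) (nat_lit 2730079511417) (nat_lit 1) (nat_lit 4) (nat_lit 2) (nat_lit 5) (nat_lit 2) (nat_lit 4) (nat_lit 525) (nat_lit 412) (nat_lit 263)) (XT.lf (nat_lit 0) (nat_lit 1202237339105) (nat_lit 76) (nat_lit 2786148007927) (nat_lit 76) (nat_lit 2772480494485) (nat_lit 1) (nat_lit 4) (nat_lit 2) (nat_lit 5) (nat_lit 2) (nat_lit 4) (nat_lit 526) (nat_lit 412) (nat_lit 262))) (XT.nd (nat_lit 78) (nat_lit 0) (nat_lit 0) (XT.lf (nat_lit 0) (nat_lit 1638401372511) (nat_lit 76) (nat_lit 2831941343921) (nat_lit 76) (nat_lit 2818273820666) (nat_lit 1) (nat_lit 4) (nat_lit 2) (nat_lit 5) (nat_lit 2) (nat_lit 4) (nat_lit 527) (nat_lit 412) (nat_lit 261)) (XT.lf (nat_lit 0) (nat_lit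 2109458058486) (nat_lit 76) (nat_lit 2881398390160) (nat_lit 76) (nat_lit 2867730857819) (nat_lit 1) (nat_lit 4) (nat_lit 2) (nat_lit 5) (nat_lit 2) (nat_lit 4) (nat_lit 528) (nat_lit 412) (nat_lit 260)))))) (XT.nd (nat_lit 546) (nat_lit 0) (nat_lit 0) (XT.nd (nat_lit 234) (nat_lit 0) (nat_lit 0) (XT.nd (nat_lit 78) (nat_lit 0) (nat_lit 0) (XT.lf (nat_lit 0) (nat_lit 2618198844057) (nat_lit 76) (nat_lit 2934812225437) (nat_lit 76) (nat_lit 2921144684683) (nat_lit 1) (nat_lit 4) (nat_lit 2) (nat_lit 5) (nat_lit 2) (nat_lit 4) (nat_lit 529) (nat_lit 412) (nat_lit 259)) (XT.nd (nat_lit 78) (nat_lit 0) (nat_lit 0) (XT.lf (nat_lit 0) (nat_lit 3167638489435) (nat_lit 76) (nat_lit 2992499376184) (nat_lit 76) (nat_lit 2978831827639) (nat_lit 1) (nat_lit 4) (nat_lit 2) (nat_lit 5) (nat_lit 2) (nat_lit 4) (nat_lit 530) (nat_lit 412) (nat_lit 258)) (XT.lf (nat_lit 0) (nat_lit 3761032933259) (nat_lit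 76) (nat_lit 3054801692181) (nat_lit 76) (nat_lit 3041134136424) (nat_lit 1) (nat_lit 4) (nat_lit 2) (nat_lit 5) (nat_lit 2) (nat_lit 4) (nat_lit 531) (nat_lit 412) (nat_lit 257)))) (XT.nd (nat_lit 156) (nat_lit 0) (nat_lit 0) (XT.nd (nat_lit 78) (nat_lit 0) (nat_lit 0) (XT.lf (nat_lit 0) (nat_lit 4401898587048) (nat_lit 76) (nat_lit 3122088372339) (nat_lit 76) (nat_lit 3108420809904) (nat_lit 1) (nat_lit 4) (nat_lit 2) (nat_lit 5) (nat_lit 2) (nat_lit 4) (nat_lit 532) (nat_lit 412) (nat_lit 256)) (XT.lf (nat_lit 0) (nat_lit 5094033173196) (nat_lit 76) (nat_lit 3194758152541) (nat_lit 76) (nat_lit 3181090583922) (nat_lit 1) (nat_lit 4) (nat_lit 2) (nat_lit 5) (nat_lit 2) (nat_lit 4) (nat_lit 533) (nat_lit 412) (nat_lit 255))) (XT.nd (nat_lit 78) (nat_lit 0) (nat_lit 0) (XT.lf (nat_lit 0) (nat_lit 5841538229990) (nat_lit 76) (nat_lit 3273241668521) (nat_lit 76) (nat_lit 3259574094176) (nat_lit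 1) (nat_lit 4) (nat_lit 2) (nat_lit 5) (nat_lit 2) (nat_lit 4) (nat_lit 534) (nat_lit 412) (nat_lit 254)) (XT.lf (nat_lit 0) (nat_lit 6648843417026) (nat_lit 76) (nat_lit 3358004007781) (nat_lit 76) (nat_lit 3344336428134) (nat_lit 1) (nat_lit 4) (nat_lit 2) (nat_lit 5) (nat_lit 2) (nat_lit 4) (nat_lit 535) (nat_lit 412) (nat_lit 253))))) (XT.nd (nat_lit 312) (nat_lit 0) (nat_lit 0) (XT.nd (nat_lit 156) (nat_lit 0) (nat_lit 0) (XT.nd (nat_lit 78) (nat_lit 0) (nat_lit 0) (XT.lf (nat_lit 0) (nat_lit 7520732765042) (nat_lit 76) (nat_lit 3449547465664) (nat_lit 76) (nat_lit 3435879881109) (nat_lit 1) (nat_lit 4) (nat_lit 2) (nat_lit 5) (nat_lit 2) (nat_lit 4) (nat_lit 536) (nat_lit 412) (nat_lit 252)) (XT.lf (nat_lit 0) (nat_lit 8462373025730) (nat_lit 76) (nat_lit 3548414521922) (nat_lit 76) (nat_lit 3534746932821) (nat_lit 1) (nat_lit 4) (nat_lit 2) (nat_lit 5) (nat_lit 2) (nat_lit 4) (nat_lit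 537) (nat_lit 412) (nat_lit 251))) (XT.nd (nat_lit 78) (nat_lit 0) (nat_lit 0) (XT.lf (nat_lit 0) (nat_lit 9479344289524) (nat_lit 76) (nat_lit 3655191055406) (nat_lit 76) (nat_lit 3641523462097) (nat_lit 1) (nat_lit 4) (nat_lit 2) (nat_lit 5) (nat_lit 2) (nat_lit 4) (nat_lit 538) (nat_lit 412) (nat_lit 250)) (XT.lf (nat_lit 0) (nat_lit 10577673052802) (nat_lit 76) (nat_lit 3770509815944) (nat_lit 76) (nat_lit 3756842218738) (nat_lit 1) (nat_lit 4) (nat_lit 2) (nat_lit 5) (nat_lit 2) (nat_lit 4) (nat_lit 539) (nat_lit 412) (nat_lit 249)))) (XT.nd (nat_lit 156) (nat_lit 0) (nat_lit 0) (XT.nd (nat_lit 78) (nat_lit 0) (nat_lit 0) (XT.lf (nat_lit 0) (nat_lit 11763867930458) (nat_lit 76) (nat_lit 3895054173969) (nat_lit 76) (nat_lit 3881386573154) (nat_lit 1) (nat_lit 4) (nat_lit 2) (nat_lit 5) (nat_lit 2) (nat_lit 4) (nat_lit 540) (nat_lit 412) (nat_lit 248)) (XT.lf (nat_lit 0) (nat_lit 13044958225469)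 (nat_lit 76) (nat_lit 4029562170121) (nat_lit 76) (nat_lit 4015894565965) (nat_lit 1) (nat_lit 4) (nat_lit 2) (nat_lit 5) (nat_lit 2) (nat_lit 4) (nat_lit 541) (nat_lit 412) (nat_lit 247))) (XT.nd (nat_lit 52416) (nat_lit 0) (nat_lit 6992) (XT.lf (nat_lit 0) (nat_lit 14428535584030) (nat_lit 76) (nat_lit 4174830888821) (nat_lit 76) (nat_lit 4161163281573) (nat_lit 1) (nat_lit 4) (nat_lit 2) (nat_lit 5) (nat_lit 2) (nat_lit 4) (nat_lit 542) (nat_lit 412) (nat_lit 246)) (XT.lf (nat_lit 0) (nat_lit 3225967640) (nat_lit 532) (nat_lit 1236276314) (nat_lit 532) (nat_lit 1236276314) (nat_lit 93) (nat_lit 3) (nat_lit 100) (nat_lit 3) (nat_lit 100) (nat_lit 5) (nat_lit 413) (nat_lit 413) (nat_lit 374))))))))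
noncomputable def xc124 : XT := (XT.nd (nat_lit 2184) (nat_lit 2128) (nat_lit 0) (XT.nd (nat_lit 1092) (nat_lit 1368) (nat_lit 0) (XT.nd (nat_lit 546) (nat_lit 1292) (nat_lit 0) (XT.nd (nat_lit 234) (nat_lit 304) (nat_lit 0) (XT.nd (nat_lit 78) (nat_lit 0) (nat_lit 76) (XT.lf (nat_lit 76) (nat_lit 3372318767) (nat_lit 0) (nat_lit 3925704556) (nat_lit 532) (nat_lit 4507790362) (nat_lit 94) (nat_lit 5) (nat_lit 93) (nat_lit 3) (nat_lit 100) (nat_lit 5) (nat_lit 414) (nat_lit 413) (nat_lit 373)) (XT.nd (nat_lit 78) (nat_lit 0) (nat_lit 0) (XT.lf (nat_lit 0) (nat_lit 8265718121) (nat_lit 456) (nat_lit 2487159598) (nat_lit 532) (nat_lit 1490104154) (nat_lit 94) (nat_lit 5) (nat_lit 100) (nat_lit 5) (nat_lit 101) (nat_lit 5) (nat_lit 415) (nat_lit 413) (nat_lit 372)) (XT.lf (nat_lit 76) (nat_lit 4002104546) (nat_lit 0) (nat_lit 5459843383) (nat_lit 532) (nat_lit 3241092297) (nat_lit 95) (nat_lit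 5) (nat_lit 94) (nat_lit 5) (nat_lit 101) (nat_lit 5) (nat_lit 416) (nat_lit 413) (nat_lit 371)))) (XT.nd (nat_lit 156) (nat_lit 456) (nat_lit 0) (XT.nd (nat_lit 78) (nat_lit 0) (nat_lit 0) (XT.lf (nat_lit 0) (nat_lit 10785821230) (nat_lit 456) (nat_lit 2084564509) (nat_lit 532) (nat_lit 326967699) (nat_lit 95) (nat_lit 5) (nat_lit 101) (nat_lit 5) (nat_lit 102) (nat_lit 5) (nat_lit 417) (nat_lit 413) (nat_lit 370)) (XT.lf (nat_lit 76) (nat_lit 5145087822) (nat_lit 0) (nat_lit 7295332571) (nat_lit 532) (nat_lit 1272811406) (nat_lit 96) (nat_lit 5) (nat_lit 95) (nat_lit 5) (nat_lit 102) (nat_lit 5) (nat_lit 418) (nat_lit 413) (nat_lit 369))) (XT.nd (nat_lit 78) (nat_lit 456) (nat_lit 0) (XT.lf (nat_lit 76) (nat_lit 13040870632) (nat_lit 0) (nat_lit 1205051978) (nat_lit 532) (nat_lit 22979982) (nat_lit 96) (nat_lit 5) (nat_lit 95) (nat_lit 5) (nat_lit 102) (nat_lit 5) (nat_lit 419) (nat_lit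 413) (nat_lit 368)) (XT.lf (nat_lit 0) (nat_lit 1526494309) (nat_lit 532) (nat_lit 8004079551) (nat_lit 76) (nat_lit 5314622200) (nat_lit 89) (nat_lit 5) (nat_lit 96) (nat_lit 5) (nat_lit 90) (nat_lit 5) (nat_lit 420) (nat_lit 413) (nat_lit 367))))) (XT.nd (nat_lit 234) (nat_lit 532) (nat_lit 0) (XT.nd (nat_lit 78) (nat_lit 228) (nat_lit 0) (XT.lf (nat_lit 0) (nat_lit 100429377) (nat_lit 532) (nat_lit 3131989238) (nat_lit 608) (nat_lit 12232431901) (nat_lit 82) (nat_lit 5) (nat_lit 89) (nat_lit 5) (nat_lit 90) (nat_lit 5) (nat_lit 421) (nat_lit 413) (nat_lit 366)) (XT.nd (nat_lit 78) (nat_lit 228) (nat_lit 0) (XT.lf (nat_lit 0) (nat_lit 5357598230) (nat_lit 608) (nat_lit 6938996032) (nat_lit 76) (nat_lit 3814864212) (nat_lit 82) (nat_lit 5) (nat_lit 90) (nat_lit 5) (nat_lit 83) (nat_lit 5) (nat_lit 422) (nat_lit 413) (nat_lit 365)) (XT.lf (nat_lit 0) (nat_lit 2155097581) (nat_lit 228) (nat_lit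 5600670292) (nat_lit 304) (nat_lit 9045792528) (nat_lit 79) (nat_lit 5) (nat_lit 82) (nat_lit 5) (nat_lit 83) (nat_lit 5) (nat_lit 423) (nat_lit 413) (nat_lit 364)))) (XT.nd (nat_lit 156) (nat_lit 304) (nat_lit 0) (XT.nd (nat_lit 78) (nat_lit 228) (nat_lit 0) (XT.lf (nat_lit 0) (nat_lit 10550898509) (nat_lit 304) (nat_lit 5237759791) (nat_lit 76) (nat_lit 1741806722) (nat_lit 79) (nat_lit 5) (nat_lit 83) (nat_lit 5) (nat_lit 80) (nat_lit 5) (nat_lit 424) (nat_lit 413) (nat_lit 363)) (XT.lf (nat_lit 0) (nat_lit 4997358362) (nat_lit 228) (nat_lit 8811302012) (nat_lit 304) (nat_lit 4489902878) (nat_lit 76) (nat_lit 5) (nat_lit 79) (nat_lit 5) (nat_lit 80) (nat_lit 5) (nat_lit 425) (nat_lit 413) (nat_lit 362))) (XT.nd (nat_lit 78) (nat_lit 304) (nat_lit 0) (XT.lf (nat_lit 0) (nat_lit 16319144422) (nat_lit 228) (nat_lit 1125721884) (nat_lit 304) (nat_lit 1673819873) (nat_lit 76) (nat_lit 5) (nat_lit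 79) (nat_lit 5) (nat_lit 80) (nat_lit 5) (nat_lit 426) (nat_lit 413) (nat_lit 361)) (XT.lf (nat_lit 0) (nat_lit 1668575044) (nat_lit 304) (nat_lit 11238551924) (nat_lit 76) (nat_lit 7065108253) (nat_lit 72) (nat_lit 5) (nat_lit 76) (nat_lit 5) (nat_lit 73) (nat_lit 5) (nat_lit 427) (nat_lit 413) (nat_lit 360)))))) (XT.nd (nat_lit 546) (nat_lit 608) (nat_lit 0) (XT.nd (nat_lit 234) (nat_lit 380) (nat_lit 0) (XT.nd (nat_lit 78) (nat_lit 152) (nat_lit 0) (XT.lf (nat_lit 0) (nat_lit 374835467) (nat_lit 228) (nat_lit 4906741692) (nat_lit 304) (nat_lit 15601523467) (nat_lit 69) (nat_lit 5) (nat_lit 72) (nat_lit 5) (nat_lit 73) (nat_lit 5) (nat_lit 428) (nat_lit 413) (nat_lit 359)) (XT.nd (nat_lit 78) (nat_lit 152) (nat_lit 0) (XT.lf (nat_lit 0) (nat_lit 9566373934) (nat_lit 304) (nat_lit 8414474498) (nat_lit 76) (nat_lit 3855368446) (nat_lit 69) (nat_lit 5) (nat_lit 73) (nat_lit 5) (nat_lit 70)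 (nat_lit 5) (nat_lit 429) (nat_lit 413) (nat_lit 358)) (XT.lf (nat_lit 0) (nat_lit 4727249857) (nat_lit 152) (nat_lit 9687191288) (nat_lit 228) (nat_lit 8433504177) (nat_lit 67) (nat_lit 5) (nat_lit 69) (nat_lit 5) (nat_lit 70) (nat_lit 5) (nat_lit 430) (nat_lit 413) (nat_lit 357)))) (XT.nd (nat_lit 156) (nat_lit 152) (nat_lit 0) (XT.nd (nat_lit 78) (nat_lit 228) (nat_lit 0) (XT.lf (nat_lit 0) (nat_lit 19370976874) (nat_lit 152) (nat_lit 489651271) (nat_lit 228) (nat_lit 4063163638) (nat_lit 67) (nat_lit 5) (nat_lit 69) (nat_lit 5) (nat_lit 70) (nat_lit 5) (nat_lit 431) (nat_lit 413) (nat_lit 356)) (XT.lf (nat_lit 0) (nat_lit 1093727615) (nat_lit 228) (nat_lit 14712000048) (nat_lit 76) (nat_lit 9241133699) (nat_lit 64) (nat_lit 5) (nat_lit 67) (nat_lit 5) (nat_lit 65) (nat_lit 5) (nat_lit 432) (nat_lit 413) (nat_lit 355))) (XT.nd (nat_lit 78) (nat_lit 0) (nat_lit 0) (XT.lf (nat_lit 0) (nat_lit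 288213323) (nat_lit 152) (nat_lit 6284572135) (nat_lit 228) (nat_lit 19668218923) (nat_lit 62) (nat_lit 5) (nat_lit 64) (nat_lit 5) (nat_lit 65) (nat_lit 5) (nat_lit 433) (nat_lit 413) (nat_lit 354)) (XT.lf (nat_lit 0) (nat_lit 12981282208) (nat_lit 228) (nat_lit 10307839569) (nat_lit 76) (nat_lit 4202269165) (nat_lit 62) (nat_lit 5) (nat_lit 65) (nat_lit 5) (nat_lit 63) (nat_lit 5) (nat_lit 434) (nat_lit 413) (nat_lit 353))))) (XT.nd (nat_lit 234) (nat_lit 304) (nat_lit 0) (XT.nd (nat_lit 78) (nat_lit 152) (nat_lit 0) (XT.lf (nat_lit 0) (nat_lit 6736669360) (nat_lit 152) (nat_lit 13474611843) (nat_lit 228) (nat_lit 8605822578) (nat_lit 60) (nat_lit 5) (nat_lit 62) (nat_lit 5) (nat_lit 63) (nat_lit 5) (nat_lit 435) (nat_lit 413) (nat_lit 352)) (XT.nd (nat_lit 78) (nat_lit 152) (nat_lit 0) (XT.lf (nat_lit 0) (nat_lit 25705809580) (nat_lit 152) (nat_lit 2579887249) (nat_lit 228) (nat_lit 1941896549)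 (nat_lit 60) (nat_lit 5) (nat_lit 62) (nat_lit 5) (nat_lit 63) (nat_lit 5) (nat_lit 436) (nat_lit 413) (nat_lit 351)) (XT.lf (nat_lit 0) (nat_lit 5572428460) (nat_lit 152) (nat_lit 16902825040) (nat_lit 76) (nat_lit 9219145174) (nat_lit 58) (nat_lit 5) (nat_lit 60) (nat_lit 5) (nat_lit 59) (nat_lit 5) (nat_lit 437) (nat_lit 413) (nat_lit 350)))) (XT.nd (nat_lit 156) (nat_lit 152) (nat_lit 0) (XT.nd (nat_lit 78) (nat_lit 0) (nat_lit 0) (XT.lf (nat_lit 0) (nat_lit 2624730744) (nat_lit 152) (nat_lit 11200540734) (nat_lit 228) (nat_lit 19429859863) (nat_lit 56) (nat_lit 5) (nat_lit 58) (nat_lit 5) (nat_lit 59) (nat_lit 5) (nat_lit 438) (nat_lit 413) (nat_lit 349)) (XT.lf (nat_lit 0) (nat_lit 23221565810) (nat_lit 228) (nat_lit 10288155619) (nat_lit 76) (nat_lit 1392344067) (nat_lit 56) (nat_lit 5) (nat_lit 59) (nat_lit 5) (nat_lit 57) (nat_lit 4) (nat_lit 439) (nat_lit 413) (nat_lit 348))) (XT.nd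 (nat_lit 78) (nat_lit 76) (nat_lit 0) (XT.lf (nat_lit 0) (nat_lit 11966282462) (nat_lit 76) (nat_lit 21968651423) (nat_lit 152) (nat_lit 2700591609) (nat_lit 55) (nat_lit 5) (nat_lit 56) (nat_lit 5) (nat_lit 57) (nat_lit 4) (nat_lit 440) (nat_lit 413) (nat_lit 347)) (XT.lf (nat_lit 0) (nat_lit 6923032737) (nat_lit 152) (nat_lit 2097571390) (nat_lit 76) (nat_lit 29451564991) (nat_lit 54) (nat_lit 5) (nat_lit 56) (nat_lit 5) (nat_lit 55) (nat_lit 5) (nat_lit 441) (nat_lit 413) (nat_lit 346))))))) (XT.nd (nat_lit 1092) (nat_lit 988) (nat_lit 0) (XT.nd (nat_lit 546) (nat_lit 456) (nat_lit 0) (XT.nd (nat_lit 234) (nat_lit 456) (nat_lit 0) (XT.nd (nat_lit 78) (nat_lit 76) (nat_lit 0) (XT.lf (nat_lit 0) (nat_lit 17855693277) (nat_lit 228) (nat_lit 17184926569) (nat_lit 76) (nat_lit 5354709478) (nat_lit 52) (nat_lit 5) (nat_lit 55) (nat_lit 5) (nat_lit 53) (nat_lit 4) (nat_lit 442) (nat_lit 413)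 (nat_lit 345)) (XT.nd (nat_lit 78) (nat_lit 0) (nat_lit 0) (XT.lf (nat_lit 0) (nat_lit 8355248036) (nat_lit 76) (nat_lit 21789753225) (nat_lit 152) (nat_lit 12288778851) (nat_lit 51) (nat_lit 5) (nat_lit 52) (nat_lit 5) (nat_lit 53) (nat_lit 4) (nat_lit 443) (nat_lit 413) (nat_lit 344)) (XT.lf (nat_lit 0) (nat_lit 36895026703) (nat_lit 76) (nat_lit 6980631146) (nat_lit 152) (nat_lit 722993289) (nat_lit 51) (nat_lit 5) (nat_lit 52) (nat_lit 5) (nat_lit 53) (nat_lit 4) (nat_lit 444) (nat_lit 413) (nat_lit 343)))) (XT.nd (nat_lit 156) (nat_lit 152) (nat_lit 0) (XT.nd (nat_lit 78) (nat_lit 76) (nat_lit 0) (XT.lf (nat_lit 0) (nat_lit 11924099212) (nat_lit 228) (nat_lit 25554214508) (nat_lit 76) (nat_lit 9376178401) (nat_lit 48) (nat_lit 5) (nat_lit 51) (nat_lit 5) (nat_lit 49) (nat_lit 4) (nat_lit 445) (nat_lit 413) (nat_lit 342)) (XT.lf (nat_lit 0) (nat_lit 3750600726) (nat_lit 76) (nat_lit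 22269980019) (nat_lit 152) (nat_lit 23230583142) (nat_lit 47) (nat_lit 5) (nat_lit 48) (nat_lit 5) (nat_lit 49) (nat_lit 4) (nat_lit 446) (nat_lit 413) (nat_lit 341))) (XT.nd (nat_lit 78) (nat_lit 152) (nat_lit 0) (XT.lf (nat_lit 0) (nat_lit 36833492779) (nat_lit 76) (nat_lit 5099387544) (nat_lit 152) (nat_lit 9851641473) (nat_lit 47) (nat_lit 5) (nat_lit 48) (nat_lit 5) (nat_lit 49) (nat_lit 4) (nat_lit 447) (nat_lit 413) (nat_lit 340)) (XT.lf (nat_lit 0) (nat_lit 5148848370) (nat_lit 152) (nat_lit 35957526070) (nat_lit 76) (nat_lit 13342830452) (nat_lit 45) (nat_lit 5) (nat_lit 47) (nat_lit 5) (nat_lit 46) (nat_lit 4) (nat_lit 448) (nat_lit 413) (nat_lit 339))))) (XT.nd (nat_lit 234) (nat_lit 304) (nat_lit 0) (XT.nd (nat_lit 78) (nat_lit 152) (nat_lit 0) (XT.lf (nat_lit 0) (nat_lit 21359026694) (nat_lit 152) (nat_lit 2252017402) (nat_lit 76) (nat_lit 33652196381) (nat_lit 45) (nat_lit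 5) (nat_lit 47) (nat_lit 5) (nat_lit 46) (nat_lit 4) (nat_lit 449) (nat_lit 413) (nat_lit 338)) (XT.nd (nat_lit 78) (nat_lit 76) (nat_lit 0) (XT.lf (nat_lit 0) (nat_lit 35929899319) (nat_lit 76) (nat_lit 3791009632) (nat_lit 152) (nat_lit 20513099050) (nat_lit 44) (nat_lit 5) (nat_lit 45) (nat_lit 5) (nat_lit 46) (nat_lit 4) (nat_lit 450) (nat_lit 413) (nat_lit 337)) (XT.lf (nat_lit 0) (nat_lit 14120595229) (nat_lit 76) (nat_lit 46248410861) (nat_lit 76) (nat_lit 3008049940) (nat_lit 43) (nat_lit 4) (nat_lit 44) (nat_lit 5) (nat_lit 44) (nat_lit 4) (nat_lit 451) (nat_lit 413) (nat_lit 336)))) (XT.nd (nat_lit 156) (nat_lit 152) (nat_lit 0) (XT.nd (nat_lit 78) (nat_lit 76) (nat_lit 0) (XT.lf (nat_lit 0) (nat_lit 15873290767) (nat_lit 152) (nat_lit 10232488223) (nat_lit 76) (nat_lit 40573491277) (nat_lit 42) (nat_lit 5) (nat_lit 44) (nat_lit 5) (nat_lit 43) (nat_lit 4) (nat_lit 452) (nat_lit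 413) (nat_lit 335)) (XT.lf (nat_lit 0) (nat_lit 33494590838) (nat_lit 76) (nat_lit 3405150019) (nat_lit 152) (nat_lit 33275901292) (nat_lit 41) (nat_lit 5) (nat_lit 42) (nat_lit 5) (nat_lit 43) (nat_lit 4) (nat_lit 453) (nat_lit 413) (nat_lit 334))) (XT.nd (nat_lit 78) (nat_lit 76) (nat_lit 0) (XT.lf (nat_lit 0) (nat_lit 7201391583) (nat_lit 76) (nat_lit 53366513443) (nat_lit 76) (nat_lit 13307051092) (nat_lit 40) (nat_lit 4) (nat_lit 41) (nat_lit 5) (nat_lit 41) (nat_lit 4) (nat_lit 454) (nat_lit 413) (nat_lit 333)) (XT.lf (nat_lit 0) (nat_lit 8955221014) (nat_lit 152) (nat_lit 21438903388) (nat_lit 76) (nat_lit 47371473804) (nat_lit 39) (nat_lit 5) (nat_lit 41) (nat_lit 5) (nat_lit 40) (nat_lit 4) (nat_lit 455) (nat_lit 413) (nat_lit 332)))))) (XT.nd (nat_lit 546) (nat_lit 456) (nat_lit 0) (XT.nd (nat_lit 234) (nat_lit 380) (nat_lit 0) (XT.nd (nat_lit 78) (nat_lit 76) (nat_lit 0) (XT.lf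 (nat_lit 0) (nat_lit 28478401660) (nat_lit 76) (nat_lit 4478328524) (nat_lit 152) (nat_lit 48928936072) (nat_lit 38) (nat_lit 5) (nat_lit 39) (nat_lit 5) (nat_lit 40) (nat_lit 4) (nat_lit 456) (nat_lit 413) (nat_lit 331)) (XT.nd (nat_lit 78) (nat_lit 76) (nat_lit 0) (XT.lf (nat_lit 0) (nat_lit 60037517152) (nat_lit 152) (nat_lit 3275905421) (nat_lit 0) (nat_lit 22929184745) (nat_lit 38) (nat_lit 5) (nat_lit 40) (nat_lit 4) (nat_lit 38) (nat_lit 4) (nat_lit 457) (nat_lit 413) (nat_lit 330)) (XT.lf (nat_lit 0) (nat_lit 53407270431) (nat_lit 76) (nat_lit 37271152276) (nat_lit 76) (nat_lit 158188631) (nat_lit 37) (nat_lit 4) (nat_lit 38) (nat_lit 5) (nat_lit 38) (nat_lit 4) (nat_lit 458) (nat_lit 413) (nat_lit 329)))) (XT.nd (nat_lit 156) (nat_lit 228) (nat_lit 0) (XT.nd (nat_lit 78) (nat_lit 0) (nat_lit 0) (XT.lf (nat_lit 0) (nat_lit 19296625845) (nat_lit 76) (nat_lit 7825430728) (nat_lit 152)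 (nat_lit 68578349133) (nat_lit 35) (nat_lit 5) (nat_lit 36) (nat_lit 5) (nat_lit 37) (nat_lit 4) (nat_lit 459) (nat_lit 413) (nat_lit 328)) (XT.lf (nat_lit 0) (nat_lit 58195703909) (nat_lit 152) (nat_lit 18803507087) (nat_lit 0) (nat_lit 23824201717) (nat_lit 35) (nat_lit 5) (nat_lit 37) (nat_lit 4) (nat_lit 35) (nat_lit 4) (nat_lit 460) (nat_lit 413) (nat_lit 327))) (XT.nd (nat_lit 78) (nat_lit 152) (nat_lit 0) (XT.lf (nat_lit 0) (nat_lit 45462730204) (nat_lit 76) (nat_lit 47582614175) (nat_lit 76) (nat_lit 13207707885) (nat_lit 34) (nat_lit 4) (nat_lit 35) (nat_lit 5) (nat_lit 35) (nat_lit 4) (nat_lit 461) (nat_lit 413) (nat_lit 326)) (XT.lf (nat_lit 0) (nat_lit 3569351807) (nat_lit 76) (nat_lit 14674595327) (nat_lit 152) (nat_lit 93788851494) (nat_lit 32) (nat_lit 5) (nat_lit 33) (nat_lit 5) (nat_lit 34) (nat_lit 4) (nat_lit 462) (nat_lit 413) (nat_lit 325))))) (XT.nd (nat_lit 312) (nat_lit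 228) (nat_lit 0) (XT.nd (nat_lit 156) (nat_lit 152) (nat_lit 0) (XT.nd (nat_lit 78) (nat_lit 76) (nat_lit 0) (XT.lf (nat_lit 0) (nat_lit 53698793081) (nat_lit 152) (nat_lit 42508082282) (nat_lit 0) (nat_lit 21864555398) (nat_lit 32) (nat_lit 5) (nat_lit 34) (nat_lit 4) (nat_lit 32) (nat_lit 4) (nat_lit 463) (nat_lit 413) (nat_lit 324)) (XT.lf (nat_lit 0) (nat_lit 29822285214) (nat_lit 76) (nat_lit 63260109342) (nat_lit 76) (nat_lit 31423369545) (nat_lit 31) (nat_lit 4) (nat_lit 32) (nat_lit 5) (nat_lit 32) (nat_lit 4) (nat_lit 464) (nat_lit 413) (nat_lit 323))) (XT.nd (nat_lit 78) (nat_lit 76) (nat_lit 0) (XT.lf (nat_lit 0) (nat_lit 5140075270) (nat_lit 152) (nat_lit 21147700005) (nat_lit 76) (nat_lit 105064147319) (nat_lit 30) (nat_lit 5) (nat_lit 32) (nat_lit 5) (nat_lit 31) (nat_lit 4) (nat_lit 465) (nat_lit 413) (nat_lit 322)) (XT.lf (nat_lit 0) (nat_lit 44766557870) (nat_lit 152) (nat_lit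 78483105730) (nat_lit 0) (nat_lit 15283963677) (nat_lit 29) (nat_lit 5) (nat_lit 31) (nat_lit 4) (nat_lit 29) (nat_lit 4) (nat_lit 466) (nat_lit 413) (nat_lit 321)))) (XT.nd (nat_lit 156) (nat_lit 152) (nat_lit 0) (XT.nd (nat_lit 78) (nat_lit 0) (nat_lit 0) (XT.lf (nat_lit 0) (nat_lit 2099664941) (nat_lit 76) (nat_lit 86784478988) (nat_lit 76) (nat_lit 57300045667) (nat_lit 28) (nat_lit 4) (nat_lit 29) (nat_lit 5) (nat_lit 29) (nat_lit 4) (nat_lit 467) (nat_lit 413) (nat_lit 320)) (XT.lf (nat_lit 0) (nat_lit 93581516280) (nat_lit 76) (nat_lit 45090089678) (nat_lit 76) (nat_lit 15603953461) (nat_lit 28) (nat_lit 4) (nat_lit 29) (nat_lit 5) (nat_lit 29) (nat_lit 4) (nat_lit 468) (nat_lit 413) (nat_lit 319))) (XT.nd (nat_lit 78) (nat_lit 0) (nat_lit 0) (XT.lf (nat_lit 0) (nat_lit 28711552048) (nat_lit 152) (nat_lit 132777487517) (nat_lit 0) (nat_lit 1408114110) (nat_lit 26) (nat_lit 5) (nat_lit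 28) (nat_lit 4) (nat_lit 26) (nat_lit 4) (nat_lit 469) (nat_lit 413) (nat_lit 318)) (XT.lf (nat_lit 0) (nat_lit 78597920558) (nat_lit 152) (nat_lit 42055509036) (nat_lit 0) (nat_lit 51293130806) (nat_lit 26) (nat_lit 5) (nat_lit 28) (nat_lit 4) (nat_lit 26) (nat_lit 4) (nat_lit 470) (nat_lit 413) (nat_lit 317))))))))
noncomputable def xc125 : XT := (XT.nd (nat_lit 2184) (nat_lit 456) (nat_lit 0) (XT.nd (nat_lit 1092) (nat_lit 608) (nat_lit 0) (XT.nd (nat_lit 546) (nat_lit 380) (nat_lit 0) (XT.nd (nat_lit 234) (nat_lit 228) (nat_lit 0) (XT.nd (nat_lit 78) (nat_lit 152) (nat_lit 0) (XT.lf (nat_lit 0) (nat_lit 58858945856) (nat_lit 76) (nat_lit 75027074755) (nat_lit 76) (nat_lit 47721033323) (nat_lit 25) (nat_lit 4) (nat_lit 26) (nat_lit 5) (nat_lit 26) (nat_lit 4) (nat_lit 471) (nat_lit 413) (nat_lit 316)) (XT.nd (nat_lit 78) (nat_lit 76) (nat_lit 0) (XT.lf (nat_lit 0) (nat_lit 2653912124)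 (nat_lit 152) (nat_lit 21787063176) (nat_lit 76) (nat_lit 167502415872) (nat_lit 24) (nat_lit 5) (nat_lit 26) (nat_lit 5) (nat_lit 25) (nat_lit 4) (nat_lit 472) (nat_lit 413) (nat_lit 315)) (XT.lf (nat_lit 0) (nat_lit 57468329669) (nat_lit 152) (nat_lit 113117241780) (nat_lit 0) (nat_lit 32182891236) (nat_lit 23) (nat_lit 5) (nat_lit 25) (nat_lit 4) (nat_lit 23) (nat_lit 4) (nat_lit 473) (nat_lit 413) (nat_lit 314)))) (XT.nd (nat_lit 156) (nat_lit 152) (nat_lit 0) (XT.nd (nat_lit 78) (nat_lit 76) (nat_lit 0) (XT.lf (nat_lit 0) (nat_lit 117909527478) (nat_lit 152) (nat_lit 3827513293) (nat_lit 0) (nat_lit 92623169023) (nat_lit 23) (nat_lit 5) (nat_lit 25) (nat_lit 4) (nat_lit 23) (nat_lit 4) (nat_lit 474) (nat_lit 413) (nat_lit 313)) (XT.lf (nat_lit 0) (nat_lit 120210530258) (nat_lit 76) (nat_lit 65862507709) (nat_lit 76) (nat_lit 40575297381) (nat_lit 22) (nat_lit 4) (nat_lit 23) (nat_lit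 5) (nat_lit 23) (nat_lit 4) (nat_lit 475) (nat_lit 413) (nat_lit 312))) (XT.nd (nat_lit 78) (nat_lit 0) (nat_lit 0) (XT.lf (nat_lit 0) (nat_lit 14728455232) (nat_lit 76) (nat_lit 4510224734) (nat_lit 152) (nat_lit 220606189813) (nat_lit 20) (nat_lit 5) (nat_lit 21) (nat_lit 5) (nat_lit 22) (nat_lit 4) (nat_lit 476) (nat_lit 413) (nat_lit 311)) (XT.lf (nat_lit 0) (nat_lit 86112498276) (nat_lit 152) (nat_lit 104845960928) (nat_lit 0) (nat_lit 62697008053) (nat_lit 20) (nat_lit 5) (nat_lit 22) (nat_lit 4) (nat_lit 20) (nat_lit 4) (nat_lit 477) (nat_lit 413) (nat_lit 310))))) (XT.nd (nat_lit 234) (nat_lit 152) (nat_lit 0) (XT.nd (nat_lit 78) (nat_lit 152) (nat_lit 0) (XT.lf (nat_lit 0) (nat_lit 26233615773) (nat_lit 76) (nat_lit 132846933487) (nat_lit 76) (nat_lit 109430817112) (nat_lit 19) (nat_lit 4) (nat_lit 20) (nat_lit 5) (nat_lit 20) (nat_lit 4) (nat_lit 478) (nat_lit 413) (nat_lit 309))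 (XT.nd (nat_lit 78) (nat_lit 152) (nat_lit 0) (XT.lf (nat_lit 0) (nat_lit 173754759426) (nat_lit 76) (nat_lit 66994315839) (nat_lit 76) (nat_lit 43577619694) (nat_lit 19) (nat_lit 4) (nat_lit 20) (nat_lit 5) (nat_lit 20) (nat_lit 4) (nat_lit 479) (nat_lit 413) (nat_lit 308)) (XT.lf (nat_lit 0) (nat_lit 27084094846) (nat_lit 152) (nat_lit 268795239649) (nat_lit 0) (nat_lit 5401471727) (nat_lit 17) (nat_lit 5) (nat_lit 19) (nat_lit 4) (nat_lit 17) (nat_lit 4) (nat_lit 480) (nat_lit 413) (nat_lit 307)))) (XT.nd (nat_lit 156) (nat_lit 76) (nat_lit 0) (XT.nd (nat_lit 78) (nat_lit 76) (nat_lit 0) (XT.lf (nat_lit 0) (nat_lit 105882836441) (nat_lit 152) (nat_lit 129031032918) (nat_lit 0) (nat_lit 84199753081) (nat_lit 17) (nat_lit 5) (nat_lit 19) (nat_lit 4) (nat_lit 17) (nat_lit 4) (nat_lit 481) (nat_lit 413) (nat_lit 306)) (XT.lf (nat_lit 0) (nat_lit 23061345107) (nat_lit 76) (nat_lit 168475557187)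 (nat_lit 76) (nat_lit 146792047679) (nat_lit 16) (nat_lit 4) (nat_lit 17) (nat_lit 5) (nat_lit 17) (nat_lit 4) (nat_lit 482) (nat_lit 413) (nat_lit 305))) (XT.nd (nat_lit 78) (nat_lit 76) (nat_lit 0) (XT.lf (nat_lit 0) (nat_lit 194652802185) (nat_lit 76) (nat_lit 92915310058) (nat_lit 76) (nat_lit 71231405969) (nat_lit 16) (nat_lit 4) (nat_lit 17) (nat_lit 5) (nat_lit 17) (nat_lit 4) (nat_lit 483) (nat_lit 413) (nat_lit 304)) (XT.lf (nat_lit 0) (nat_lit 9852170931) (nat_lit 152) (nat_lit 1191753904) (nat_lit 76) (nat_lit 369844084305) (nat_lit 15) (nat_lit 5) (nat_lit 17) (nat_lit 5) (nat_lit 16) (nat_lit 4) (nat_lit 484) (nat_lit 413) (nat_lit 303)))))) (XT.nd (nat_lit 546) (nat_lit 304) (nat_lit 0) (XT.nd (nat_lit 234) (nat_lit 152) (nat_lit 0) (XT.nd (nat_lit 78) (nat_lit 76) (nat_lit 0) (XT.lf (nat_lit 0) (nat_lit 99972300731) (nat_lit 152) (nat_lit 224217448044) (nat_lit 0) (nat_lit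 79893960238) (nat_lit 14) (nat_lit 5) (nat_lit 16) (nat_lit 4) (nat_lit 14) (nat_lit 4) (nat_lit 485) (nat_lit 413) (nat_lit 302)) (XT.nd (nat_lit 78) (nat_lit 76) (nat_lit 0) (XT.lf (nat_lit 0) (nat_lit 197619586866) (nat_lit 152) (nat_lit 53949117999) (nat_lit 0) (nat_lit 177540956343) (nat_lit 14) (nat_lit 5) (nat_lit 16) (nat_lit 4) (nat_lit 14) (nat_lit 4) (nat_lit 486) (nat_lit 413) (nat_lit 301)) (XT.lf (nat_lit 0) (nat_lit 136777615894) (nat_lit 76) (nat_lit 169588007672) (nat_lit 76) (nat_lit 149509108604) (nat_lit 13) (nat_lit 4) (nat_lit 14) (nat_lit 5) (nat_lit 14) (nat_lit 4) (nat_lit 487) (nat_lit 413) (nat_lit 300)))) (XT.nd (nat_lit 156) (nat_lit 0) (nat_lit 0) (XT.nd (nat_lit 78) (nat_lit 152) (nat_lit 0) (XT.lf (nat_lit 0) (nat_lit 345825522265) (nat_lit 76) (nat_lit 79458413437) (nat_lit 76) (nat_lit 59379265715) (nat_lit 13) (nat_lit 4) (nat_lit 14) (nat_lit 5) (nat_lit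 14) (nat_lit 4) (nat_lit 488) (nat_lit 413) (nat_lit 299)) (XT.lf (nat_lit 0) (nat_lit 37939975669) (nat_lit 152) (nat_lit 458243538748) (nat_lit 0) (nat_lit 19347959043) (nat_lit 11) (nat_lit 5) (nat_lit 13) (nat_lit 4) (nat_lit 11) (nat_lit 4) (nat_lit 489) (nat_lit 413) (nat_lit 298))) (XT.nd (nat_lit 78) (nat_lit 0) (nat_lit 0) (XT.lf (nat_lit 0) (nat_lit 145792909389) (nat_lit 152) (nat_lit 275275722966) (nat_lit 0) (nat_lit 127200695374) (nat_lit 11) (nat_lit 5) (nat_lit 13) (nat_lit 4) (nat_lit 11) (nat_lit 4) (nat_lit 490) (nat_lit 413) (nat_lit 297)) (XT.lf (nat_lit 0) (nat_lit 262271905061) (nat_lit 152) (nat_lit 77674970825) (nat_lit 0) (nat_lit 243679508278) (nat_lit 11) (nat_lit 5) (nat_lit 13) (nat_lit 4) (nat_lit 11) (nat_lit 4) (nat_lit 491) (nat_lit 413) (nat_lit 296))))) (XT.nd (nat_lit 234) (nat_lit 228) (nat_lit 0) (XT.nd (nat_lit 78) (nat_lit 0) (nat_lit 0) (XT.lf (nat_lit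 0) (nat_lit 142876969776) (nat_lit 76) (nat_lit 248626433367) (nat_lit 76) (nat_lit 230033867354) (nat_lit 10) (nat_lit 4) (nat_lit 11) (nat_lit 5) (nat_lit 11) (nat_lit 4) (nat_lit 492) (nat_lit 413) (nat_lit 295)) (XT.nd (nat_lit 78) (nat_lit 0) (nat_lit 0) (XT.lf (nat_lit 0) (nat_lit 385486458874) (nat_lit 76) (nat_lit 147708773341) (nat_lit 76) (nat_lit 129116050635) (nat_lit 10) (nat_lit 4) (nat_lit 11) (nat_lit 5) (nat_lit 11) (nat_lit 4) (nat_lit 493) (nat_lit 413) (nat_lit 294)) (XT.lf (nat_lit 0) (nat_lit 647500956019) (nat_lit 76) (nat_lit 38719636585) (nat_lit 76) (nat_lit 20126768792) (nat_lit 10) (nat_lit 4) (nat_lit 11) (nat_lit 5) (nat_lit 11) (nat_lit 4) (nat_lit 494) (nat_lit 413) (nat_lit 293)))) (XT.nd (nat_lit 156) (nat_lit 76) (nat_lit 0) (XT.nd (nat_lit 78) (nat_lit 0) (nat_lit 0) (XT.lf (nat_lit 0) (nat_lit 99184284629) (nat_lit 152) (nat_lit 572047027700) (nat_lit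 0) (nat_lit 81968541914) (nat_lit 8) (nat_lit 5) (nat_lit 10) (nat_lit 4) (nat_lit 8) (nat_lit 4) (nat_lit 495) (nat_lit 413) (nat_lit 292)) (XT.lf (nat_lit 0) (nat_lit 229607592006) (nat_lit 152) (nat_lit 361547019504) (nat_lit 0) (nat_lit 212391734116) (nat_lit 8) (nat_lit 5) (nat_lit 10) (nat_lit 4) (nat_lit 8) (nat_lit 4) (nat_lit 496) (nat_lit 413) (nat_lit 291))) (XT.nd (nat_lit 78) (nat_lit 76) (nat_lit 0) (XT.lf (nat_lit 0) (nat_lit 370463168433) (nat_lit 152) (nat_lit 134210311633) (nat_lit 0) (nat_lit 353247203900) (nat_lit 8) (nat_lit 5) (nat_lit 10) (nat_lit 4) (nat_lit 8) (nat_lit 4) (nat_lit 497) (nat_lit 413) (nat_lit 290)) (XT.lf (nat_lit 0) (nat_lit 117171678298) (nat_lit 76) (nat_lit 408232017005) (nat_lit 76) (nat_lit 391015953728) (nat_lit 7) (nat_lit 4) (nat_lit 8) (nat_lit 5) (nat_lit 8) (nat_lit 4) (nat_lit 498) (nat_lit 413) (nat_lit 289))))))) (XT.nd (nat_lit 1092)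 (nat_lit 228) (nat_lit 0) (XT.nd (nat_lit 546) (nat_lit 76) (nat_lit 0) (XT.nd (nat_lit 234) (nat_lit 152) (nat_lit 0) (XT.nd (nat_lit 78) (nat_lit 0) (nat_lit 0) (XT.lf (nat_lit 0) (nat_lit 396293907683) (nat_lit 76) (nat_lit 300113664835) (nat_lit 76) (nat_lit 282897510129) (nat_lit 7) (nat_lit 4) (nat_lit 8) (nat_lit 5) (nat_lit 8) (nat_lit 4) (nat_lit 499) (nat_lit 413) (nat_lit 288)) (XT.nd (nat_lit 78) (nat_lit 0) (nat_lit 0) (XT.lf (nat_lit 0) (nat_lit 697743157006) (nat_lit 76) (nat_lit 183347269973) (nat_lit 76) (nat_lit 166131030610) (nat_lit 7) (nat_lit 4) (nat_lit 8) (nat_lit 5) (nat_lit 8) (nat_lit 4) (nat_lit 500) (nat_lit 413) (nat_lit 287)) (XT.lf (nat_lit 0) (nat_lit 1023305792189) (nat_lit 76) (nat_lit 57240883411) (nat_lit 76) (nat_lit 40024565663) (nat_lit 7) (nat_lit 4) (nat_lit 8) (nat_lit 5) (nat_lit 8) (nat_lit 4) (nat_lit 501) (nat_lit 413) (nat_lit 286)))) (XT.nd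 (nat_lit 156) (nat_lit 0) (nat_lit 0) (XT.nd (nat_lit 78) (nat_lit 0) (nat_lit 0) (XT.lf (nat_lit 0) (nat_lit 97805849549) (nat_lit 152) (nat_lit 1019417677281) (nat_lit 0) (nat_lit 81864747394) (nat_lit 5) (nat_lit 5) (nat_lit 7) (nat_lit 4) (nat_lit 5) (nat_lit 4) (nat_lit 502) (nat_lit 413) (nat_lit 285)) (XT.lf (nat_lit 0) (nat_lit 248714421453) (nat_lit 152) (nat_lit 801978696200) (nat_lit 0) (nat_lit 232773257072) (nat_lit 5) (nat_lit 5) (nat_lit 7) (nat_lit 4) (nat_lit 5) (nat_lit 4) (nat_lit 503) (nat_lit 413) (nat_lit 284))) (XT.nd (nat_lit 78) (nat_lit 0) (nat_lit 0) (XT.lf (nat_lit 0) (nat_lit 411694594018) (nat_lit 152) (nat_lit 567146844037) (nat_lit 0) (nat_lit 395753372020) (nat_lit 5) (nat_lit 5) (nat_lit 7) (nat_lit 4) (nat_lit 5) (nat_lit 4) (nat_lit 504) (nat_lit 413) (nat_lit 283)) (XT.lf (nat_lit 0) (nat_lit 587712175673) (nat_lit 152) (nat_lit 313530524631) (nat_lit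 0) (nat_lit 571770900328) (nat_lit 5) (nat_lit 5) (nat_lit 7) (nat_lit 4) (nat_lit 5) (nat_lit 4) (nat_lit 505) (nat_lit 413) (nat_lit 282))))) (XT.nd (nat_lit 234) (nat_lit 0) (nat_lit 0) (XT.nd (nat_lit 78) (nat_lit 76) (nat_lit 0) (XT.lf (nat_lit 0) (nat_lit 777810233570) (nat_lit 152) (nat_lit 39626826459) (nat_lit 0) (nat_lit 761868908829) (nat_lit 5) (nat_lit 5) (nat_lit 7) (nat_lit 4) (nat_lit 5) (nat_lit 4) (nat_lit 506) (nat_lit 413) (nat_lit 281)) (XT.nd (nat_lit 78) (nat_lit 0) (nat_lit 0) (XT.lf (nat_lit 0) (nat_lit 269677757116) (nat_lit 76) (nat_lit 719923274146) (nat_lit 76) (nat_lit 703981903667) (nat_lit 4) (nat_lit 4) (nat_lit 5) (nat_lit 5) (nat_lit 5) (nat_lit 4) (nat_lit 507) (nat_lit 413) (nat_lit 280)) (XT.lf (nat_lit 0) (nat_lit 605978581216) (nat_lit 76) (nat_lit 613439139820) (nat_lit 76) (nat_lit 597497726991) (nat_lit 4) (nat_lit 4) (nat_lit 5) (nat_lit 5) (nat_lit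 5) (nat_lit 4) (nat_lit 508) (nat_lit 413) (nat_lit 279)))) (XT.nd (nat_lit 156) (nat_lit 0) (nat_lit 0) (XT.nd (nat_lit 78) (nat_lit 0) (nat_lit 0) (XT.lf (nat_lit 0) (nat_lit 969181861155) (nat_lit 76) (nat_lit 498437107618) (nat_lit 76) (nat_lit 482495655577) (nat_lit 4) (nat_lit 4) (nat_lit 5) (nat_lit 5) (nat_lit 5) (nat_lit 4) (nat_lit 509) (nat_lit 413) (nat_lit 278)) (XT.lf (nat_lit 0) (nat_lit 1361439912667) (nat_lit 76) (nat_lit 374235684018) (nat_lit 76) (nat_lit 358294195669) (nat_lit 4) (nat_lit 4) (nat_lit 5) (nat_lit 5) (nat_lit 5) (nat_lit 4) (nat_lit 510) (nat_lit 413) (nat_lit 277))) (XT.nd (nat_lit 78) (nat_lit 0) (nat_lit 0) (XT.lf (nat_lit 0) (nat_lit 1785077227908) (nat_lit 76) (nat_lit 240098860582) (nat_lit 76) (nat_lit 224157338615) (nat_lit 4) (nat_lit 4) (nat_lit 5) (nat_lit 5) (nat_lit 5) (nat_lit 4) (nat_lit 511) (nat_lit 413) (nat_lit 276)) (XT.lf (nat_lit 0)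 (nat_lit 2242604250228) (nat_lit 76) (nat_lit 95231752431) (nat_lit 76) (nat_lit 79290199336) (nat_lit 4) (nat_lit 4) (nat_lit 5) (nat_lit 5) (nat_lit 5) (nat_lit 4) (nat_lit 512) (nat_lit 413) (nat_lit 275)))))) (XT.nd (nat_lit 546) (nat_lit 76) (nat_lit 0) (XT.nd (nat_lit 234) (nat_lit 0) (nat_lit 0) (XT.nd (nat_lit 78) (nat_lit 0) (nat_lit 0) (XT.lf (nat_lit 0) (nat_lit 78372535355) (nat_lit 152) (nat_lit 2455804272379) (nat_lit 0) (nat_lit 63611811357) (nat_lit 2) (nat_lit 5) (nat_lit 4) (nat_lit 4) (nat_lit 2) (nat_lit 4) (nat_lit 513) (nat_lit 413) (nat_lit 274)) (XT.nd (nat_lit 78) (nat_lit 0) (nat_lit 0) (XT.lf (nat_lit 0) (nat_lit 251733205413) (nat_lit 152) (nat_lit 2303444116835) (nat_lit 0) (nat_lit 236972456705) (nat_lit 2) (nat_lit 5) (nat_lit 4) (nat_lit 4) (nat_lit 2) (nat_lit 4) (nat_lit 514) (nat_lit 413) (nat_lit 273)) (XT.lf (nat_lit 0) (nat_lit 438962186581) (nat_lit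 152) (nat_lit 2138896273432) (nat_lit 0) (nat_lit 424201414992) (nat_lit 2) (nat_lit 5) (nat_lit 4) (nat_lit 4) (nat_lit 2) (nat_lit 4) (nat_lit 515) (nat_lit 413) (nat_lit 272)))) (XT.nd (nat_lit 156) (nat_lit 0) (nat_lit 0) (XT.nd (nat_lit 78) (nat_lit 0) (nat_lit 0) (XT.lf (nat_lit 0) (nat_lit 641168983931) (nat_lit 152) (nat_lit 1961185643837) (nat_lit 0) (nat_lit 626408191157) (nat_lit 2) (nat_lit 5) (nat_lit 4) (nat_lit 4) (nat_lit 2) (nat_lit 4) (nat_lit 516) (nat_lit 413) (nat_lit 271)) (XT.lf (nat_lit 0) (nat_lit 859551859967) (nat_lit 152) (nat_lit 1769259128025) (nat_lit 0) (nat_lit 844791047577) (nat_lit 2) (nat_lit 5) (nat_lit 4) (nat_lit 4) (nat_lit 2) (nat_lit 4) (nat_lit 517) (nat_lit 413) (nat_lit 270))) (XT.nd (nat_lit 78) (nat_lit 0) (nat_lit 0) (XT.lf (nat_lit 0) (nat_lit 1095404935435) (nat_lit 152) (nat_lit 1561979383678) (nat_lit 0) (nat_lit 1080644104883) (nat_lit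 2) (nat_lit 5) (nat_lit 4) (nat_lit 4) (nat_lit 2) (nat_lit 4) (nat_lit 518) (nat_lit 413) (nat_lit 269)) (XT.lf (nat_lit 0) (nat_lit 1350125858191) (nat_lit 152) (nat_lit 1338118086386) (nat_lit 0) (nat_lit 1335365010821) (nat_lit 2) (nat_lit 5) (nat_lit 4) (nat_lit 4) (nat_lit 2) (nat_lit 4) (nat_lit 519) (nat_lit 413) (nat_lit 268))))) (XT.nd (nat_lit 312) (nat_lit 76) (nat_lit 0) (XT.nd (nat_lit 156) (nat_lit 0) (nat_lit 0) (XT.nd (nat_lit 78) (nat_lit 0) (nat_lit 0) (XT.lf (nat_lit 0) (nat_lit 1625224085554) (nat_lit 152) (nat_lit 1096348650685) (nat_lit 0) (nat_lit 1610463222611) (nat_lit 2) (nat_lit 5) (nat_lit 4) (nat_lit 4) (nat_lit 2) (nat_lit 4) (nat_lit 520) (nat_lit 413) (nat_lit 267)) (XT.lf (nat_lit 0) (nat_lit 1922329829241) (nat_lit 152) (nat_lit 835238368805) (nat_lit 0) (nat_lit 1907568951881) (nat_lit 2) (nat_lit 5) (nat_lit 4) (nat_lit 4) (nat_lit 2) (nat_lit 4) (nat_lit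 521) (nat_lit 413) (nat_lit 266))) (XT.nd (nat_lit 78) (nat_lit 0) (nat_lit 0) (XT.lf (nat_lit 0) (nat_lit 2243203715883) (nat_lit 152) (nat_lit 553239920559) (nat_lit 0) (nat_lit 2228442825172) (nat_lit 2) (nat_lit 5) (nat_lit 4) (nat_lit 4) (nat_lit 2) (nat_lit 4) (nat_lit 522) (nat_lit 413) (nat_lit 265)) (XT.lf (nat_lit 0) (nat_lit 2589747220362) (nat_lit 152) (nat_lit 248682204031) (nat_lit 0) (nat_lit 2574986317290) (nat_lit 2) (nat_lit 5) (nat_lit 4) (nat_lit 4) (nat_lit 2) (nat_lit 4) (nat_lit 523) (nat_lit 413) (nat_lit 264)))) (XT.nd (nat_lit 156) (nat_lit 0) (nat_lit 0) (XT.nd (nat_lit 78) (nat_lit 0) (nat_lit 0) (XT.lf (nat_lit 0) (nat_lit 84464840660) (nat_lit 76) (nat_lit 2881580474606) (nat_lit 76) (nat_lit 2866819560088) (nat_lit 1) (nat_lit 4) (nat_lit 2) (nat_lit 5) (nat_lit 2) (nat_lit 4) (nat_lit 524) (nat_lit 413) (nat_lit 263)) (XT.lf (nat_lit 0) (nat_lit 458405877893)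 (nat_lit 76) (nat_lit 2920840527563) (nat_lit 76) (nat_lit 2906079602447) (nat_lit 1) (nat_lit 4) (nat_lit 2) (nat_lit 5) (nat_lit 2) (nat_lit 4) (nat_lit 525) (nat_lit 413) (nat_lit 262))) (XT.nd (nat_lit 78) (nat_lit 0) (nat_lit 0) (XT.lf (nat_lit 0) (nat_lit 862261690392) (nat_lit 76) (nat_lit 2963241647591) (nat_lit 76) (nat_lit 2948480712662) (nat_lit 1) (nat_lit 4) (nat_lit 2) (nat_lit 5) (nat_lit 2) (nat_lit 4) (nat_lit 526) (nat_lit 413) (nat_lit 261)) (XT.lf (nat_lit 0) (nat_lit 1298425497787) (nat_lit 76) (nat_lit 3009035100588) (nat_lit 76) (nat_lit 2994274156573) (nat_lit 1) (nat_lit 4) (nat_lit 2) (nat_lit 5) (nat_lit 2) (nat_lit 4) (nat_lit 527) (nat_lit 413) (nat_lit 260))))))))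
noncomputable def xc126 : XT := (XT.nd (nat_lit 54600) (nat_lit 0) (nat_lit 2964) (XT.nd (nat_lit 1092) (nat_lit 0) (nat_lit 0) (XT.nd (nat_lit 546) (nat_lit 0) (nat_lit 0) (XT.nd (nat_lit 234) (nat_lit 0) (nat_lit 0) (XT.nd (nat_lit 78) (nat_lit 0) (nat_lit 0) (XT.lf (nat_lit 0) (nat_lit 1769481974491) (nat_lit 76) (nat_lit 3058492255163) (nat_lit 76) (nat_lit 3043731302735) (nat_lit 1) (nat_lit 4) (nat_lit 2) (nat_lit 5) (nat_lit 2) (nat_lit 4) (nat_lit 528) (nat_lit 413) (nat_lit 259)) (XT.nd (nat_lit 78) (nat_lit 0) (nat_lit 0) (XT.lf (nat_lit 0) (nat_lit 2278222566294) (nat_lit 76) (nat_lit 3111906190751) (nat_lit 76) (nat_lit 3097145230533) (nat_lit 1) (nat_lit 4) (nat_lit 2) (nat_lit 5) (nat_lit 2) (nat_lit 4) (nat_lit 529) (nat_lit 413) (nat_lit 258)) (XT.lf (nat_lit 0) (nat_lit 2827662032256) (nat_lit 76) (nat_lit 3169593434378) (nat_lit 76) (nat_lit 3154832466947) (nat_lit 1) (nat_lit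 4) (nat_lit 2) (nat_lit 5) (nat_lit 2) (nat_lit 4) (nat_lit 530) (nat_lit 413) (nat_lit 257)))) (XT.nd (nat_lit 156) (nat_lit 0) (nat_lit 0) (XT.nd (nat_lit 78) (nat_lit 0) (nat_lit 0) (XT.lf (nat_lit 0) (nat_lit 3421056309955) (nat_lit 76) (nat_lit 3231895836376) (nat_lit 76) (nat_lit 3217134862267) (nat_lit 1) (nat_lit 4) (nat_lit 2) (nat_lit 5) (nat_lit 2) (nat_lit 4) (nat_lit 531) (nat_lit 413) (nat_lit 256)) (XT.lf (nat_lit 0) (nat_lit 4061921809925) (nat_lit 76) (nat_lit 3299182596164) (nat_lit 76) (nat_lit 3284421615872) (nat_lit 1) (nat_lit 4) (nat_lit 2) (nat_lit 5) (nat_lit 2) (nat_lit 4) (nat_lit 532) (nat_lit 413) (nat_lit 255))) (XT.nd (nat_lit 78) (nat_lit 0) (nat_lit 0) (XT.lf (nat_lit 0) (nat_lit 4754056253647) (nat_lit 76) (nat_lit 3371852450098) (nat_lit 76) (nat_lit 3357091464079) (nat_lit 1) (nat_lit 4) (nat_lit 2) (nat_lit 5) (nat_lit 2) (nat_lit 4) (nat_lit 533) (nat_lit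 413) (nat_lit 254)) (XT.lf (nat_lit 0) (nat_lit 5501561178565) (nat_lit 76) (nat_lit 3450336034347) (nat_lit 76) (nat_lit 3435575043028) (nat_lit 1) (nat_lit 4) (nat_lit 2) (nat_lit 5) (nat_lit 2) (nat_lit 4) (nat_lit 534) (nat_lit 413) (nat_lit 253))))) (XT.nd (nat_lit 234) (nat_lit 0) (nat_lit 0) (XT.nd (nat_lit 78) (nat_lit 0) (nat_lit 0) (XT.lf (nat_lit 0) (nat_lit 6308866243494) (nat_lit 76) (nat_lit 3535098436820) (nat_lit 76) (nat_lit 3520337440591) (nat_lit 1) (nat_lit 4) (nat_lit 2) (nat_lit 5) (nat_lit 2) (nat_lit 4) (nat_lit 535) (nat_lit 413) (nat_lit 252)) (XT.nd (nat_lit 78) (nat_lit 0) (nat_lit 0) (XT.lf (nat_lit 0) (nat_lit 7180755478448) (nat_lit 76) (nat_lit 3626641953234) (nat_lit 76) (nat_lit 3611880952460) (nat_lit 1) (nat_lit 4) (nat_lit 2) (nat_lit 5) (nat_lit 2) (nat_lit 4) (nat_lit 536) (nat_lit 413) (nat_lit 251)) (XT.lf (nat_lit 0) (nat_lit 8122395634449) (nat_lit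 76) (nat_lit 3725509063687) (nat_lit 76) (nat_lit 3710748058704) (nat_lit 1) (nat_lit 4) (nat_lit 2) (nat_lit 5) (nat_lit 2) (nat_lit 4) (nat_lit 537) (nat_lit 413) (nat_lit 250)))) (XT.nd (nat_lit 156) (nat_lit 0) (nat_lit 0) (XT.nd (nat_lit 78) (nat_lit 0) (nat_lit 0) (XT.lf (nat_lit 0) (nat_lit 9139366801311) (nat_lit 76) (nat_lit 3832285647351) (nat_lit 76) (nat_lit 3817524638472) (nat_lit 1) (nat_lit 4) (nat_lit 2) (nat_lit 5) (nat_lit 2) (nat_lit 4) (nat_lit 538) (nat_lit 413) (nat_lit 249)) (XT.lf (nat_lit 0) (nat_lit 10237695474836) (nat_lit 76) (nat_lit 3947604454352) (nat_lit 76) (nat_lit 3932843441865) (nat_lit 1) (nat_lit 4) (nat_lit 2) (nat_lit 5) (nat_lit 2) (nat_lit 4) (nat_lit 539) (nat_lit 413) (nat_lit 248))) (XT.nd (nat_lit 78) (nat_lit 0) (nat_lit 0) (XT.lf (nat_lit 0) (nat_lit 11423890269388) (nat_lit 76) (nat_lit 4072148855399) (nat_lit 76) (nat_lit 4057387839571) (nat_lit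 1) (nat_lit 4) (nat_lit 2) (nat_lit 5) (nat_lit 2) (nat_lit 4) (nat_lit 540) (nat_lit 413) (nat_lit 247)) (XT.lf (nat_lit 0) (nat_lit 12704980487451) (nat_lit 76) (nat_lit 4206656891386) (nat_lit 76) (nat_lit 4191895872464) (nat_lit 1) (nat_lit 4) (nat_lit 2) (nat_lit 5) (nat_lit 2) (nat_lit 4) (nat_lit 541) (nat_lit 413) (nat_lit 246)))))) (XT.nd (nat_lit 52962) (nat_lit 0) (nat_lit 5700) (XT.nd (nat_lit 52650) (nat_lit 0) (nat_lit 7068) (XT.nd (nat_lit 52494) (nat_lit 0) (nat_lit 6992) (XT.lf (nat_lit 0) (nat_lit 14088557774763) (nat_lit 76) (nat_lit 4351925646971) (nat_lit 76) (nat_lit 4337164625185) (nat_lit 1) (nat_lit 4) (nat_lit 2) (nat_lit 5) (nat_lit 2) (nat_lit 4) (nat_lit 542) (nat_lit 413) (nat_lit 245)) (XT.nd (nat_lit 78) (nat_lit 0) (nat_lit 0) (XT.lf (nat_lit 0) (nat_lit 3978760227) (nat_lit 532) (nat_lit 1067999225) (nat_lit 532) (nat_lit 1067999225) (nat_lit 93) (nat_lit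 3) (nat_lit 100) (nat_lit 3) (nat_lit 100) (nat_lit 5) (nat_lit 414) (nat_lit 414) (nat_lit 372)) (XT.lf (nat_lit 76) (nat_lit 4162934596) (nat_lit 0) (nat_lit 4647595790) (nat_lit 532) (nat_lit 3865332961) (nat_lit 94) (nat_lit 5) (nat_lit 93) (nat_lit 3) (nat_lit 100) (nat_lit 5) (nat_lit 415) (nat_lit 414) (nat_lit 371)))) (XT.nd (nat_lit 156) (nat_lit 0) (nat_lit 76) (XT.nd (nat_lit 78) (nat_lit 0) (nat_lit 0) (XT.lf (nat_lit 0) (nat_lit 9777768865) (nat_lit 456) (nat_lit 2125896996) (nat_lit 532) (nat_lit 1250577933) (nat_lit 94) (nat_lit 5) (nat_lit 100) (nat_lit 5) (nat_lit 101) (nat_lit 5) (nat_lit 416) (nat_lit 414) (nat_lit 370)) (XT.lf (nat_lit 76) (nat_lit 4868325105) (nat_lit 0) (nat_lit 6151482795) (nat_lit 532) (nat_lit 2635298430) (nat_lit 95) (nat_lit 5) (nat_lit 94) (nat_lit 5) (nat_lit 101) (nat_lit 5) (nat_lit 417) (nat_lit 414) (nat_lit 369))) (XT.nd (nat_lit 78) (nat_lit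 0) (nat_lit 0) (XT.lf (nat_lit 0) (nat_lit 12384589653) (nat_lit 456) (nat_lit 1680627350) (nat_lit 532) (nat_lit 128955471) (nat_lit 95) (nat_lit 5) (nat_lit 101) (nat_lit 5) (nat_lit 102) (nat_lit 5) (nat_lit 418) (nat_lit 414) (nat_lit 368)) (XT.lf (nat_lit 76) (nat_lit 6112949007) (nat_lit 0) (nat_lit 8017474355) (nat_lit 532) (nat_lit 624195600) (nat_lit 96) (nat_lit 5) (nat_lit 95) (nat_lit 5) (nat_lit 102) (nat_lit 5) (nat_lit 419) (nat_lit 414) (nat_lit 367))))) (XT.nd (nat_lit 234) (nat_lit 456) (nat_lit 0) (XT.nd (nat_lit 78) (nat_lit 456) (nat_lit 0) (XT.lf (nat_lit 0) (nat_lit 636516314) (nat_lit 532) (nat_lit 775791132) (nat_lit 608) (nat_lit 13945270632) (nat_lit 88) (nat_lit 5) (nat_lit 95) (nat_lit 5) (nat_lit 96) (nat_lit 5) (nat_lit 420) (nat_lit 414) (nat_lit 366)) (XT.nd (nat_lit 78) (nat_lit 532) (nat_lit 0) (XT.lf (nat_lit 0) (nat_lit 2270581884) (nat_lit 532) (nat_lit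 8056322950) (nat_lit 76) (nat_lit 5656078155) (nat_lit 89) (nat_lit 5) (nat_lit 96) (nat_lit 5) (nat_lit 90) (nat_lit 5) (nat_lit 421) (nat_lit 414) (nat_lit 365)) (XT.lf (nat_lit 0) (nat_lit 681658516) (nat_lit 532) (nat_lit 3399035261) (nat_lit 608) (nat_lit 12574104216) (nat_lit 82) (nat_lit 5) (nat_lit 89) (nat_lit 5) (nat_lit 90) (nat_lit 5) (nat_lit 422) (nat_lit 414) (nat_lit 364)))) (XT.nd (nat_lit 156) (nat_lit 228) (nat_lit 0) (XT.nd (nat_lit 78) (nat_lit 228) (nat_lit 0) (XT.lf (nat_lit 0) (nat_lit 6331840498) (nat_lit 608) (nat_lit 6919271397) (nat_lit 76) (nat_lit 4105551364) (nat_lit 82) (nat_lit 5) (nat_lit 90) (nat_lit 5) (nat_lit 83) (nat_lit 5) (nat_lit 423) (nat_lit 414) (nat_lit 363)) (XT.lf (nat_lit 0) (nat_lit 2887796685) (nat_lit 228) (nat_lit 6007124684) (nat_lit 304) (nat_lit 9209211888) (nat_lit 79) (nat_lit 5) (nat_lit 82) (nat_lit 5) (nat_lit 83) (nat_lit 5) (nat_lit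 424) (nat_lit 414) (nat_lit 362))) (XT.nd (nat_lit 78) (nat_lit 228) (nat_lit 0) (XT.lf (nat_lit 0) (nat_lit 11876167175) (nat_lit 304) (nat_lit 5100444639) (nat_lit 76) (nat_lit 1917742250) (nat_lit 79) (nat_lit 5) (nat_lit 83) (nat_lit 5) (nat_lit 80) (nat_lit 5) (nat_lit 425) (nat_lit 414) (nat_lit 361)) (XT.lf (nat_lit 0) (nat_lit 5939398513) (nat_lit 228) (nat_lit 9432548432) (nat_lit 304) (nat_lit 4353765334) (nat_lit 76) (nat_lit 5) (nat_lit 79) (nat_lit 5) (nat_lit 80) (nat_lit 5) (nat_lit 426) (nat_lit 414) (nat_lit 360))))))) (XT.nd (nat_lit 1092) (nat_lit 1216) (nat_lit 0) (XT.nd (nat_lit 546) (nat_lit 608) (nat_lit 0) (XT.nd (nat_lit 234) (nat_lit 380) (nat_lit 0) (XT.nd (nat_lit 78) (nat_lit 532) (nat_lit 0) (XT.lf (nat_lit 0) (nat_lit 18126760680) (nat_lit 228) (nat_lit 1138318763) (nat_lit 304) (nat_lit 1349086784) (nat_lit 76) (nat_lit 5) (nat_lit 79) (nat_lit 5) (nat_lit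 80) (nat_lit 5) (nat_lit 427) (nat_lit 414) (nat_lit 359)) (XT.nd (nat_lit 78) (nat_lit 228) (nat_lit 0) (XT.lf (nat_lit 0) (nat_lit 2220101154) (nat_lit 304) (nat_lit 11594872662) (nat_lit 76) (nat_lit 7721558487) (nat_lit 72) (nat_lit 5) (nat_lit 76) (nat_lit 5) (nat_lit 73) (nat_lit 5) (nat_lit 428) (nat_lit 414) (nat_lit 358)) (XT.lf (nat_lit 0) (nat_lit 933844875) (nat_lit 228) (nat_lit 5170055634) (nat_lit 304) (nat_lit 16417828718) (nat_lit 69) (nat_lit 5) (nat_lit 72) (nat_lit 5) (nat_lit 73) (nat_lit 5) (nat_lit 429) (nat_lit 414) (nat_lit 357)))) (XT.nd (nat_lit 156) (nat_lit 228) (nat_lit 0) (XT.nd (nat_lit 78) (nat_lit 152) (nat_lit 0) (XT.lf (nat_lit 0) (nat_lit 10704744082) (nat_lit 304) (nat_lit 8571026767) (nat_lit 76) (nat_lit 4277465528) (nat_lit 69) (nat_lit 5) (nat_lit 73) (nat_lit 5) (nat_lit 70) (nat_lit 5) (nat_lit 430) (nat_lit 414) (nat_lit 356)) (XT.lf (nat_lit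 0) (nat_lit 5608956911) (nat_lit 152) (nat_lit 10316175505) (nat_lit 228) (nat_lit 8722015068) (nat_lit 67) (nat_lit 5) (nat_lit 69) (nat_lit 5) (nat_lit 70) (nat_lit 5) (nat_lit 431) (nat_lit 414) (nat_lit 355))) (XT.nd (nat_lit 78) (nat_lit 228) (nat_lit 0) (XT.lf (nat_lit 0) (nat_lit 21386883788) (nat_lit 152) (nat_lit 393646442) (nat_lit 228) (nat_lit 4030652430) (nat_lit 67) (nat_lit 5) (nat_lit 69) (nat_lit 5) (nat_lit 70) (nat_lit 5) (nat_lit 432) (nat_lit 414) (nat_lit 354)) (XT.lf (nat_lit 0) (nat_lit 1510602645) (nat_lit 228) (nat_lit 15394493308) (nat_lit 76) (nat_lit 10119139893) (nat_lit 64) (nat_lit 5) (nat_lit 67) (nat_lit 5) (nat_lit 65) (nat_lit 5) (nat_lit 433) (nat_lit 414) (nat_lit 353))))) (XT.nd (nat_lit 234) (nat_lit 304) (nat_lit 0) (XT.nd (nat_lit 78) (nat_lit 152) (nat_lit 0) (XT.lf (nat_lit 0) (nat_lit 793218986) (nat_lit 152) (nat_lit 6621958721) (nat_lit 228)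 (nat_lit 20899758990) (nat_lit 62) (nat_lit 5) (nat_lit 64) (nat_lit 5) (nat_lit 65) (nat_lit 5) (nat_lit 434) (nat_lit 414) (nat_lit 352)) (XT.nd (nat_lit 78) (nat_lit 152) (nat_lit 0) (XT.lf (nat_lit 0) (nat_lit 14316587365) (nat_lit 228) (nat_lit 10666430384) (nat_lit 76) (nat_lit 4683919446) (nat_lit 62) (nat_lit 5) (nat_lit 65) (nat_lit 5) (nat_lit 63) (nat_lit 5) (nat_lit 435) (nat_lit 414) (nat_lit 351)) (XT.lf (nat_lit 0) (nat_lit 7729840871) (nat_lit 152) (nat_lit 14384084467) (nat_lit 228) (nat_lit 8985668142) (nat_lit 60) (nat_lit 5) (nat_lit 62) (nat_lit 5) (nat_lit 63) (nat_lit 5) (nat_lit 436) (nat_lit 414) (nat_lit 350)))) (XT.nd (nat_lit 156) (nat_lit 152) (nat_lit 0) (XT.nd (nat_lit 78) (nat_lit 152) (nat_lit 0) (XT.lf (nat_lit 0) (nat_lit 28182865051) (nat_lit 152) (nat_lit 2630263114) (nat_lit 228) (nat_lit 1811488789) (nat_lit 60) (nat_lit 5) (nat_lit 62) (nat_lit 5)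 (nat_lit 63) (nat_lit 5) (nat_lit 437) (nat_lit 414) (nat_lit 349)) (XT.lf (nat_lit 0) (nat_lit 6283677801) (nat_lit 152) (nat_lit 17814124094) (nat_lit 76) (nat_lit 10110896967) (nat_lit 58) (nat_lit 5) (nat_lit 60) (nat_lit 5) (nat_lit 59) (nat_lit 5) (nat_lit 438) (nat_lit 414) (nat_lit 348))) (XT.nd (nat_lit 78) (nat_lit 0) (nat_lit 0) (XT.lf (nat_lit 0) (nat_lit 3264473445) (nat_lit 152) (nat_lit 11922947318) (nat_lit 228) (nat_lit 20707616714) (nat_lit 56) (nat_lit 5) (nat_lit 58) (nat_lit 5) (nat_lit 59) (nat_lit 5) (nat_lit 439) (nat_lit 414) (nat_lit 347)) (XT.lf (nat_lit 0) (nat_lit 25320312864) (nat_lit 228) (nat_lit 10698159321) (nat_lit 76) (nat_lit 1656463690) (nat_lit 56) (nat_lit 5) (nat_lit 59) (nat_lit 5) (nat_lit 57) (nat_lit 4) (nat_lit 440) (nat_lit 414) (nat_lit 346)))))) (XT.nd (nat_lit 546) (nat_lit 532) (nat_lit 0) (XT.nd (nat_lit 234) (nat_lit 380) (nat_lit 0) (XT.nd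 (nat_lit 78) (nat_lit 228) (nat_lit 0) (XT.lf (nat_lit 0) (nat_lit 13326176876) (nat_lit 76) (nat_lit 23556402386) (nat_lit 152) (nat_lit 2665148072) (nat_lit 55) (nat_lit 5) (nat_lit 56) (nat_lit 5) (nat_lit 57) (nat_lit 4) (nat_lit 441) (nat_lit 414) (nat_lit 345)) (XT.nd (nat_lit 78) (nat_lit 152) (nat_lit 0) (XT.lf (nat_lit 0) (nat_lit 7698088573) (nat_lit 152) (nat_lit 1880947791) (nat_lit 76) (nat_lit 31953198814) (nat_lit 54) (nat_lit 5) (nat_lit 56) (nat_lit 5) (nat_lit 55) (nat_lit 5) (nat_lit 442) (nat_lit 414) (nat_lit 344)) (XT.lf (nat_lit 0) (nat_lit 19501855910) (nat_lit 228) (nat_lit 18171775697) (nat_lit 76) (nat_lit 5935897848) (nat_lit 52) (nat_lit 5) (nat_lit 55) (nat_lit 5) (nat_lit 53) (nat_lit 4) (nat_lit 443) (nat_lit 414) (nat_lit 343)))) (XT.nd (nat_lit 156) (nat_lit 304) (nat_lit 0) (XT.nd (nat_lit 78) (nat_lit 0) (nat_lit 0) (XT.lf (nat_lit 0) (nat_lit 9401791485)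 (nat_lit 76) (nat_lit 23365484473) (nat_lit 152) (nat_lit 13044343668) (nat_lit 51) (nat_lit 5) (nat_lit 52) (nat_lit 5) (nat_lit 53) (nat_lit 4) (nat_lit 444) (nat_lit 414) (nat_lit 342)) (XT.lf (nat_lit 0) (nat_lit 40196743289) (nat_lit 76) (nat_lit 7384036258) (nat_lit 152) (nat_lit 570149891) (nat_lit 51) (nat_lit 5) (nat_lit 52) (nat_lit 5) (nat_lit 53) (nat_lit 4) (nat_lit 445) (nat_lit 414) (nat_lit 341))) (XT.nd (nat_lit 78) (nat_lit 76) (nat_lit 0) (XT.lf (nat_lit 0) (nat_lit 13075593753) (nat_lit 228) (nat_lit 27235306221) (nat_lit 76) (nat_lit 10276139103) (nat_lit 48) (nat_lit 5) (nat_lit 51) (nat_lit 5) (nat_lit 49) (nat_lit 4) (nat_lit 446) (nat_lit 414) (nat_lit 340)) (XT.lf (nat_lit 0) (nat_lit 4404698145) (nat_lit 76) (nat_lit 23888975995) (nat_lit 152) (nat_lit 24882260541) (nat_lit 47) (nat_lit 5) (nat_lit 48) (nat_lit 5) (nat_lit 49) (nat_lit 4) (nat_lit 447) (nat_lit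 414) (nat_lit 339))))) (XT.nd (nat_lit 312) (nat_lit 304) (nat_lit 0) (XT.nd (nat_lit 156) (nat_lit 76) (nat_lit 0) (XT.nd (nat_lit 78) (nat_lit 152) (nat_lit 0) (XT.lf (nat_lit 0) (nat_lit 40107995684) (nat_lit 76) (nat_lit 5356780747) (nat_lit 152) (nat_lit 10448319779) (nat_lit 47) (nat_lit 5) (nat_lit 48) (nat_lit 5) (nat_lit 49) (nat_lit 4) (nat_lit 448) (nat_lit 414) (nat_lit 338)) (XT.lf (nat_lit 0) (nat_lit 5740737789) (nat_lit 152) (nat_lit 38494822376) (nat_lit 76) (nat_lit 14555177386) (nat_lit 45) (nat_lit 5) (nat_lit 47) (nat_lit 5) (nat_lit 46) (nat_lit 4) (nat_lit 449) (nat_lit 414) (nat_lit 337))) (XT.nd (nat_lit 78) (nat_lit 76) (nat_lit 0) (XT.lf (nat_lit 0) (nat_lit 23234398412) (nat_lit 152) (nat_lit 2118006776) (nat_lit 76) (nat_lit 36478557738) (nat_lit 45) (nat_lit 5) (nat_lit 47) (nat_lit 5) (nat_lit 46) (nat_lit 4) (nat_lit 450) (nat_lit 414) (nat_lit 336)) (XT.lf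 (nat_lit 0) (nat_lit 39110509561) (nat_lit 76) (nat_lit 3949741832) (nat_lit 152) (nat_lit 21979539203) (nat_lit 44) (nat_lit 5) (nat_lit 45) (nat_lit 5) (nat_lit 46) (nat_lit 4) (nat_lit 451) (nat_lit 414) (nat_lit 335)))) (XT.nd (nat_lit 156) (nat_lit 152) (nat_lit 0) (XT.nd (nat_lit 78) (nat_lit 76) (nat_lit 0) (XT.lf (nat_lit 0) (nat_lit 15557930894) (nat_lit 76) (nat_lit 49800908665) (nat_lit 76) (nat_lit 3075551779) (nat_lit 43) (nat_lit 4) (nat_lit 44) (nat_lit 5) (nat_lit 44) (nat_lit 4) (nat_lit 452) (nat_lit 414) (nat_lit 334)) (XT.lf (nat_lit 0) (nat_lit 17295451142) (nat_lit 152) (nat_lit 10758167700) (nat_lit 76) (nat_lit 43947805731) (nat_lit 42) (nat_lit 5) (nat_lit 44) (nat_lit 5) (nat_lit 43) (nat_lit 4) (nat_lit 453) (nat_lit 414) (nat_lit 333))) (XT.nd (nat_lit 78) (nat_lit 76) (nat_lit 0) (XT.lf (nat_lit 0) (nat_lit 36459662000) (nat_lit 76) (nat_lit 3539940348) (nat_lit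 152) (nat_lit 35778257312) (nat_lit 41) (nat_lit 5) (nat_lit 42) (nat_lit 5) (nat_lit 43) (nat_lit 4) (nat_lit 454) (nat_lit 414) (nat_lit 332)) (XT.lf (nat_lit 0) (nat_lit 8064087115) (nat_lit 76) (nat_lit 57496135287) (nat_lit 76) (nat_lit 14212976368) (nat_lit 40) (nat_lit 4) (nat_lit 41) (nat_lit 5) (nat_lit 41) (nat_lit 4) (nat_lit 455) (nat_lit 414) (nat_lit 331))))))))
noncomputable def xc127 : XT := (XT.nd (nat_lit 2184) (nat_lit 912) (nat_lit 0) (XT.nd (nat_lit 1092) (nat_lit 912) (nat_lit 0) (XT.nd (nat_lit 546) (nat_lit 456) (nat_lit 0) (XT.nd (nat_lit 234) (nat_lit 304) (nat_lit 0) (XT.nd (nat_lit 78) (nat_lit 76) (nat_lit 0) (XT.lf (nat_lit 0) (nat_lit 9811178562) (nat_lit 152) (nat_lit 22881309385) (nat_lit 76) (nat_lit 51283192321) (nat_lit 39) (nat_lit 5) (nat_lit 41) (nat_lit 5) (nat_lit 40) (nat_lit 4) (nat_lit 456) (nat_lit 414) (nat_lit 330)) (XT.nd (nat_lit 78) (nat_lit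 0) (nat_lit 0) (XT.lf (nat_lit 0) (nat_lit 31022476110) (nat_lit 76) (nat_lit 4706388621) (nat_lit 152) (nat_lit 52696804722) (nat_lit 38) (nat_lit 5) (nat_lit 39) (nat_lit 5) (nat_lit 40) (nat_lit 4) (nat_lit 457) (nat_lit 414) (nat_lit 329)) (XT.lf (nat_lit 0) (nat_lit 64968970000) (nat_lit 152) (nat_lit 3284717707) (nat_lit 0) (nat_lit 24878049843) (nat_lit 38) (nat_lit 5) (nat_lit 40) (nat_lit 4) (nat_lit 38) (nat_lit 4) (nat_lit 458) (nat_lit 414) (nat_lit 328)))) (XT.nd (nat_lit 156) (nat_lit 76) (nat_lit 0) (XT.nd (nat_lit 78) (nat_lit 152) (nat_lit 0) (XT.lf (nat_lit 0) (nat_lit 57926700563) (nat_lit 76) (nat_lit 40130869224) (nat_lit 76) (nat_lit 35978528) (nat_lit 37) (nat_lit 4) (nat_lit 38) (nat_lit 5) (nat_lit 38) (nat_lit 4) (nat_lit 459) (nat_lit 414) (nat_lit 327)) (XT.lf (nat_lit 0) (nat_lit 21087532654) (nat_lit 76) (nat_lit 8328861469) (nat_lit 152) (nat_lit 73930076424)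 (nat_lit 35) (nat_lit 5) (nat_lit 36) (nat_lit 5) (nat_lit 37) (nat_lit 4) (nat_lit 460) (nat_lit 414) (nat_lit 326))) (XT.nd (nat_lit 78) (nat_lit 76) (nat_lit 0) (XT.lf (nat_lit 0) (nat_lit 62969435821) (nat_lit 152) (nat_lit 20072421233) (nat_lit 0) (nat_lit 25837980987) (nat_lit 35) (nat_lit 5) (nat_lit 37) (nat_lit 4) (nat_lit 35) (nat_lit 4) (nat_lit 461) (nat_lit 414) (nat_lit 325)) (XT.lf (nat_lit 0) (nat_lit 49329156398) (nat_lit 76) (nat_lit 51274662052) (nat_lit 76) (nat_lit 14140288753) (nat_lit 34) (nat_lit 4) (nat_lit 35) (nat_lit 5) (nat_lit 35) (nat_lit 4) (nat_lit 462) (nat_lit 414) (nat_lit 324))))) (XT.nd (nat_lit 234) (nat_lit 228) (nat_lit 0) (XT.nd (nat_lit 78) (nat_lit 76) (nat_lit 0) (XT.lf (nat_lit 0) (nat_lit 4084548998) (nat_lit 76) (nat_lit 15733539742) (nat_lit 152) (nat_lit 101168162409) (nat_lit 32) (nat_lit 5) (nat_lit 33) (nat_lit 5) (nat_lit 34) (nat_lit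 4) (nat_lit 463) (nat_lit 414) (nat_lit 323)) (XT.nd (nat_lit 78) (nat_lit 76) (nat_lit 0) (XT.lf (nat_lit 0) (nat_lit 58103392959) (nat_lit 152) (nat_lit 45690160248) (nat_lit 0) (nat_lit 23714895093) (nat_lit 32) (nat_lit 5) (nat_lit 34) (nat_lit 4) (nat_lit 32) (nat_lit 4) (nat_lit 464) (nat_lit 414) (nat_lit 322)) (XT.lf (nat_lit 0) (nat_lit 32421103265) (nat_lit 76) (nat_lit 68213651203) (nat_lit 76) (nat_lit 33823008178) (nat_lit 31) (nat_lit 4) (nat_lit 32) (nat_lit 5) (nat_lit 32) (nat_lit 4) (nat_lit 465) (nat_lit 414) (nat_lit 321)))) (XT.nd (nat_lit 156) (nat_lit 76) (nat_lit 0) (XT.nd (nat_lit 78) (nat_lit 76) (nat_lit 0) (XT.lf (nat_lit 0) (nat_lit 5651759660) (nat_lit 152) (nat_lit 22636969188) (nat_lit 76) (nat_lit 113563308325) (nat_lit 30) (nat_lit 5) (nat_lit 32) (nat_lit 5) (nat_lit 31) (nat_lit 4) (nat_lit 466) (nat_lit 414) (nat_lit 320)) (XT.lf (nat_lit 0) (nat_lit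 48448062197) (nat_lit 152) (nat_lit 84558907814) (nat_lit 0) (nat_lit 16601332186) (nat_lit 29) (nat_lit 5) (nat_lit 31) (nat_lit 4) (nat_lit 29) (nat_lit 4) (nat_lit 467) (nat_lit 414) (nat_lit 319))) (XT.nd (nat_lit 78) (nat_lit 0) (nat_lit 0) (XT.lf (nat_lit 0) (nat_lit 2465349160) (nat_lit 76) (nat_lit 93627040217) (nat_lit 76) (nat_lit 61778733450) (nat_lit 28) (nat_lit 4) (nat_lit 29) (nat_lit 5) (nat_lit 29) (nat_lit 4) (nat_lit 468) (nat_lit 414) (nat_lit 318)) (XT.lf (nat_lit 0) (nat_lit 101251103345) (nat_lit 76) (nat_lit 48604521769) (nat_lit 76) (nat_lit 16754755043) (nat_lit 28) (nat_lit 4) (nat_lit 29) (nat_lit 5) (nat_lit 29) (nat_lit 4) (nat_lit 469) (nat_lit 414) (nat_lit 317)))))) (XT.nd (nat_lit 546) (nat_lit 456) (nat_lit 0) (XT.nd (nat_lit 234) (nat_lit 228) (nat_lit 0) (XT.nd (nat_lit 78) (nat_lit 76) (nat_lit 0) (XT.lf (nat_lit 0) (nat_lit 31100893295) (nat_lit 152)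 (nat_lit 143211521788) (nat_lit 0) (nat_lit 1609116869) (nat_lit 26) (nat_lit 5) (nat_lit 28) (nat_lit 4) (nat_lit 26) (nat_lit 4) (nat_lit 470) (nat_lit 414) (nat_lit 316)) (XT.nd (nat_lit 78) (nat_lit 76) (nat_lit 0) (XT.lf (nat_lit 0) (nat_lit 84971325576) (nat_lit 152) (nat_lit 45245723157) (nat_lit 0) (nat_lit 55478390187) (nat_lit 26) (nat_lit 5) (nat_lit 28) (nat_lit 4) (nat_lit 26) (nat_lit 4) (nat_lit 471) (nat_lit 414) (nat_lit 315)) (XT.lf (nat_lit 0) (nat_lit 63737477327) (nat_lit 76) (nat_lit 80942741759) (nat_lit 76) (nat_lit 51448733257) (nat_lit 25) (nat_lit 4) (nat_lit 26) (nat_lit 5) (nat_lit 26) (nat_lit 4) (nat_lit 472) (nat_lit 414) (nat_lit 314)))) (XT.nd (nat_lit 156) (nat_lit 76) (nat_lit 0) (XT.nd (nat_lit 78) (nat_lit 76) (nat_lit 0) (XT.lf (nat_lit 0) (nat_lit 2945374567) (nat_lit 152) (nat_lit 23368623025) (nat_lit 76) (nat_lit 180978532436) (nat_lit 24) (nat_lit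 5) (nat_lit 26) (nat_lit 5) (nat_lit 25) (nat_lit 4) (nat_lit 473) (nat_lit 414) (nat_lit 313)) (XT.lf (nat_lit 0) (nat_lit 62144796106) (nat_lit 152) (nat_lit 122005066064) (nat_lit 0) (nat_lit 34833757080) (nat_lit 23) (nat_lit 5) (nat_lit 25) (nat_lit 4) (nat_lit 23) (nat_lit 4) (nat_lit 474) (nat_lit 414) (nat_lit 312))) (XT.nd (nat_lit 78) (nat_lit 76) (nat_lit 0) (XT.lf (nat_lit 0) (nat_lit 127415437884) (nat_lit 152) (nat_lit 3984126340) (nat_lit 0) (nat_lit 100103610087) (nat_lit 23) (nat_lit 5) (nat_lit 25) (nat_lit 4) (nat_lit 23) (nat_lit 4) (nat_lit 475) (nat_lit 414) (nat_lit 311)) (XT.lf (nat_lit 0) (nat_lit 129973173658) (nat_lit 76) (nat_lit 71056943685) (nat_lit 76) (nat_lit 43744385545) (nat_lit 22) (nat_lit 4) (nat_lit 23) (nat_lit 5) (nat_lit 23) (nat_lit 4) (nat_lit 476) (nat_lit 414) (nat_lit 310))))) (XT.nd (nat_lit 234) (nat_lit 228) (nat_lit 0) (XT.nd (nat_lit 78)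 (nat_lit 76) (nat_lit 0) (XT.lf (nat_lit 0) (nat_lit 16052593006) (nat_lit 76) (nat_lit 4796362469) (nat_lit 152) (nat_lit 238177809071) (nat_lit 20) (nat_lit 5) (nat_lit 21) (nat_lit 5) (nat_lit 22) (nat_lit 4) (nat_lit 477) (nat_lit 414) (nat_lit 309)) (XT.nd (nat_lit 78) (nat_lit 76) (nat_lit 0) (XT.lf (nat_lit 0) (nat_lit 93069069596) (nat_lit 152) (nat_lit 113094971034) (nat_lit 0) (nat_lit 67778457989) (nat_lit 20) (nat_lit 5) (nat_lit 22) (nat_lit 4) (nat_lit 20) (nat_lit 4) (nat_lit 478) (nat_lit 414) (nat_lit 308)) (XT.lf (nat_lit 0) (nat_lit 28467461252) (nat_lit 76) (nat_lit 143405348624) (nat_lit 76) (nat_lit 118114200193) (nat_lit 19) (nat_lit 4) (nat_lit 20) (nat_lit 5) (nat_lit 20) (nat_lit 4) (nat_lit 479) (nat_lit 414) (nat_lit 307)))) (XT.nd (nat_lit 156) (nat_lit 76) (nat_lit 0) (XT.nd (nat_lit 78) (nat_lit 152) (nat_lit 0) (XT.lf (nat_lit 0) (nat_lit 187780284825) (nat_lit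 76) (nat_lit 72289657826) (nat_lit 76) (nat_lit 46998012337) (nat_lit 19) (nat_lit 4) (nat_lit 20) (nat_lit 5) (nat_lit 20) (nat_lit 4) (nat_lit 480) (nat_lit 414) (nat_lit 306)) (XT.lf (nat_lit 0) (nat_lit 29313272195) (nat_lit 152) (nat_lit 290170346542) (nat_lit 0) (nat_lit 5894655779) (nat_lit 17) (nat_lit 5) (nat_lit 19) (nat_lit 4) (nat_lit 17) (nat_lit 4) (nat_lit 481) (nat_lit 414) (nat_lit 305))) (XT.nd (nat_lit 78) (nat_lit 76) (nat_lit 0) (XT.lf (nat_lit 0) (nat_lit 114411287209) (nat_lit 152) (nat_lit 139234522701) (nat_lit 0) (nat_lit 90992276211) (nat_lit 17) (nat_lit 5) (nat_lit 19) (nat_lit 4) (nat_lit 17) (nat_lit 4) (nat_lit 482) (nat_lit 414) (nat_lit 304)) (XT.lf (nat_lit 0) (nat_lit 25022233089) (nat_lit 76) (nat_lit 181893951324) (nat_lit 76) (nat_lit 158474574973) (nat_lit 16) (nat_lit 4) (nat_lit 17) (nat_lit 5) (nat_lit 17) (nat_lit 4) (nat_lit 483) (nat_lit 414)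 (nat_lit 303))))))) (XT.nd (nat_lit 1092) (nat_lit 304) (nat_lit 0) (XT.nd (nat_lit 546) (nat_lit 228) (nat_lit 0) (XT.nd (nat_lit 234) (nat_lit 228) (nat_lit 0) (XT.nd (nat_lit 78) (nat_lit 152) (nat_lit 0) (XT.lf (nat_lit 0) (nat_lit 210332415595) (nat_lit 76) (nat_lit 100293302976) (nat_lit 76) (nat_lit 76873588335) (nat_lit 16) (nat_lit 4) (nat_lit 17) (nat_lit 5) (nat_lit 17) (nat_lit 4) (nat_lit 484) (nat_lit 414) (nat_lit 302)) (XT.nd (nat_lit 78) (nat_lit 76) (nat_lit 0) (XT.lf (nat_lit 0) (nat_lit 10689892987) (nat_lit 152) (nat_lit 1185050459) (nat_lit 76) (nat_lit 399480142405) (nat_lit 15) (nat_lit 5) (nat_lit 17) (nat_lit 5) (nat_lit 16) (nat_lit 4) (nat_lit 485) (nat_lit 414) (nat_lit 301)) (XT.lf (nat_lit 0) (nat_lit 108019586071) (nat_lit 152) (nat_lit 242052752890) (nat_lit 0) (nat_lit 86334106531) (nat_lit 14) (nat_lit 5) (nat_lit 16) (nat_lit 4) (nat_lit 14) (nat_lit 4)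 (nat_lit 486) (nat_lit 414) (nat_lit 300)))) (XT.nd (nat_lit 156) (nat_lit 152) (nat_lit 0) (XT.nd (nat_lit 78) (nat_lit 76) (nat_lit 0) (XT.lf (nat_lit 0) (nat_lit 213474988334) (nat_lit 152) (nat_lit 58170518737) (nat_lit 0) (nat_lit 191789260142) (nat_lit 14) (nat_lit 5) (nat_lit 16) (nat_lit 4) (nat_lit 14) (nat_lit 4) (nat_lit 487) (nat_lit 414) (nat_lit 299)) (XT.lf (nat_lit 0) (nat_lit 147811960735) (nat_lit 76) (nat_lit 183107567949) (nat_lit 76) (nat_lit 161421609521) (nat_lit 13) (nat_lit 4) (nat_lit 14) (nat_lit 5) (nat_lit 14) (nat_lit 4) (nat_lit 488) (nat_lit 414) (nat_lit 298))) (XT.nd (nat_lit 78) (nat_lit 152) (nat_lit 0) (XT.lf (nat_lit 0) (nat_lit 373576874759) (nat_lit 76) (nat_lit 85771123237) (nat_lit 76) (nat_lit 64084951629) (nat_lit 13) (nat_lit 4) (nat_lit 14) (nat_lit 5) (nat_lit 14) (nat_lit 4) (nat_lit 489) (nat_lit 414) (nat_lit 297)) (XT.lf (nat_lit 0) (nat_lit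 41017563169) (nat_lit 152) (nat_lit 494815445041) (nat_lit 0) (nat_lit 20937591876) (nat_lit 11) (nat_lit 5) (nat_lit 13) (nat_lit 4) (nat_lit 11) (nat_lit 4) (nat_lit 490) (nat_lit 414) (nat_lit 296))))) (XT.nd (nat_lit 234) (nat_lit 152) (nat_lit 0) (XT.nd (nat_lit 78) (nat_lit 76) (nat_lit 0) (XT.lf (nat_lit 0) (nat_lit 157495591628) (nat_lit 152) (nat_lit 297216691166) (nat_lit 0) (nat_lit 137415451105) (nat_lit 11) (nat_lit 5) (nat_lit 13) (nat_lit 4) (nat_lit 11) (nat_lit 4) (nat_lit 491) (nat_lit 414) (nat_lit 295)) (XT.nd (nat_lit 78) (nat_lit 76) (nat_lit 0) (XT.lf (nat_lit 0) (nat_lit 283289999584) (nat_lit 152) (nat_lit 83813885494) (nat_lit 0) (nat_lit 263209702367) (nat_lit 11) (nat_lit 5) (nat_lit 13) (nat_lit 4) (nat_lit 11) (nat_lit 4) (nat_lit 492) (nat_lit 414) (nat_lit 294)) (XT.lf (nat_lit 0) (nat_lit 154380309519) (nat_lit 76) (nat_lit 268478776017) (nat_lit 76) (nat_lit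 248398333714) (nat_lit 10) (nat_lit 4) (nat_lit 11) (nat_lit 5) (nat_lit 11) (nat_lit 4) (nat_lit 493) (nat_lit 414) (nat_lit 293)))) (XT.nd (nat_lit 156) (nat_lit 152) (nat_lit 0) (XT.nd (nat_lit 78) (nat_lit 0) (nat_lit 0) (XT.lf (nat_lit 0) (nat_lit 416393136845) (nat_lit 76) (nat_lit 159490501116) (nat_lit 76) (nat_lit 139409924473) (nat_lit 10) (nat_lit 4) (nat_lit 11) (nat_lit 5) (nat_lit 11) (nat_lit 4) (nat_lit 494) (nat_lit 414) (nat_lit 292)) (XT.lf (nat_lit 0) (nat_lit 699363774408) (nat_lit 76) (nat_lit 41784824093) (nat_lit 76) (nat_lit 21704123062) (nat_lit 10) (nat_lit 4) (nat_lit 11) (nat_lit 5) (nat_lit 11) (nat_lit 4) (nat_lit 495) (nat_lit 414) (nat_lit 291))) (XT.nd (nat_lit 78) (nat_lit 0) (nat_lit 0) (XT.lf (nat_lit 0) (nat_lit 107150155779) (nat_lit 152) (nat_lit 617746389038) (nat_lit 0) (nat_lit 88556807440) (nat_lit 8) (nat_lit 5) (nat_lit 10) (nat_lit 4) (nat_lit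 8) (nat_lit 4) (nat_lit 496) (nat_lit 414) (nat_lit 290)) (XT.lf (nat_lit 0) (nat_lit 248005021940) (nat_lit 152) (nat_lit 390411150622) (nat_lit 0) (nat_lit 229411574858) (nat_lit 8) (nat_lit 5) (nat_lit 10) (nat_lit 4) (nat_lit 8) (nat_lit 4) (nat_lit 497) (nat_lit 414) (nat_lit 289)))))) (XT.nd (nat_lit 546) (nat_lit 76) (nat_lit 0) (XT.nd (nat_lit 234) (nat_lit 152) (nat_lit 0) (XT.nd (nat_lit 78) (nat_lit 76) (nat_lit 0) (XT.lf (nat_lit 0) (nat_lit 400126909476) (nat_lit 152) (nat_lit 144891923191) (nat_lit 0) (nat_lit 381533370964) (nat_lit 8) (nat_lit 5) (nat_lit 10) (nat_lit 4) (nat_lit 8) (nat_lit 4) (nat_lit 498) (nat_lit 414) (nat_lit 288)) (XT.nd (nat_lit 78) (nat_lit 0) (nat_lit 0) (XT.lf (nat_lit 0) (nat_lit 126599228128) (nat_lit 76) (nat_lit 440862767776) (nat_lit 76) (nat_lit 422269144607) (nat_lit 7) (nat_lit 4) (nat_lit 8) (nat_lit 5) (nat_lit 8) (nat_lit 4) (nat_lit 499)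 (nat_lit 414) (nat_lit 287)) (XT.lf (nat_lit 0) (nat_lit 428047249525) (nat_lit 76) (nat_lit 324097007476) (nat_lit 76) (nat_lit 305503305922) (nat_lit 7) (nat_lit 4) (nat_lit 8) (nat_lit 5) (nat_lit 8) (nat_lit 4) (nat_lit 500) (nat_lit 414) (nat_lit 286)))) (XT.nd (nat_lit 156) (nat_lit 152) (nat_lit 0) (XT.nd (nat_lit 78) (nat_lit 0) (nat_lit 0) (XT.lf (nat_lit 0) (nat_lit 753608747740) (nat_lit 76) (nat_lit 197991208473) (nat_lit 76) (nat_lit 179397434339) (nat_lit 7) (nat_lit 4) (nat_lit 8) (nat_lit 5) (nat_lit 8) (nat_lit 4) (nat_lit 501) (nat_lit 414) (nat_lit 285)) (XT.lf (nat_lit 0) (nat_lit 1105212976096) (nat_lit 76) (nat_lit 61798077142) (nat_lit 76) (nat_lit 43204235805) (nat_lit 7) (nat_lit 4) (nat_lit 8) (nat_lit 5) (nat_lit 8) (nat_lit 4) (nat_lit 502) (nat_lit 414) (nat_lit 284))) (XT.nd (nat_lit 78) (nat_lit 0) (nat_lit 0) (XT.lf (nat_lit 0) (nat_lit 105651487227) (nat_lit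 152) (nat_lit 1100927245473) (nat_lit 0) (nat_lit 88434909855) (nat_lit 5) (nat_lit 5) (nat_lit 7) (nat_lit 4) (nat_lit 5) (nat_lit 4) (nat_lit 503) (nat_lit 414) (nat_lit 283)) (XT.lf (nat_lit 0) (nat_lit 268631176756) (nat_lit 152) (nat_lit 866096393757) (nat_lit 0) (nat_lit 251414546035) (nat_lit 5) (nat_lit 5) (nat_lit 7) (nat_lit 4) (nat_lit 5) (nat_lit 4) (nat_lit 504) (nat_lit 414) (nat_lit 282))))) (XT.nd (nat_lit 312) (nat_lit 0) (nat_lit 0) (XT.nd (nat_lit 156) (nat_lit 76) (nat_lit 0) (XT.nd (nat_lit 78) (nat_lit 0) (nat_lit 0) (XT.lf (nat_lit 0) (nat_lit 444648311157) (nat_lit 152) (nat_lit 612481000690) (nat_lit 0) (nat_lit 427431631039) (nat_lit 5) (nat_lit 5) (nat_lit 7) (nat_lit 4) (nat_lit 5) (nat_lit 4) (nat_lit 505) (nat_lit 414) (nat_lit 281)) (XT.lf (nat_lit 0) (nat_lit 634745954929) (nat_lit 152) (nat_lit 338578160240) (nat_lit 0) (nat_lit 617529229074) (nat_lit 5)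 (nat_lit 5) (nat_lit 7) (nat_lit 4) (nat_lit 5) (nat_lit 4) (nat_lit 506) (nat_lit 414) (nat_lit 280))) (XT.nd (nat_lit 78) (nat_lit 76) (nat_lit 0) (XT.lf (nat_lit 0) (nat_lit 840050612628) (nat_lit 152) (nat_lit 42764744464) (nat_lit 0) (nat_lit 822833844423) (nat_lit 5) (nat_lit 5) (nat_lit 7) (nat_lit 4) (nat_lit 5) (nat_lit 4) (nat_lit 507) (nat_lit 414) (nat_lit 279)) (XT.lf (nat_lit 0) (nat_lit 291283389896) (nat_lit 76) (nat_lit 777500887084) (nat_lit 76) (nat_lit 760284079667) (nat_lit 4) (nat_lit 4) (nat_lit 5) (nat_lit 5) (nat_lit 5) (nat_lit 4) (nat_lit 508) (nat_lit 414) (nat_lit 278)))) (XT.nd (nat_lit 156) (nat_lit 0) (nat_lit 0) (XT.nd (nat_lit 78) (nat_lit 0) (nat_lit 0) (XT.lf (nat_lit 0) (nat_lit 654485953094) (nat_lit 76) (nat_lit 662499225640) (nat_lit 76) (nat_lit 645282381916) (nat_lit 4) (nat_lit 4) (nat_lit 5) (nat_lit 5) (nat_lit 5) (nat_lit 4) (nat_lit 509) (nat_lit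 414) (nat_lit 277)) (XT.lf (nat_lit 0) (nat_lit 1046743340955) (nat_lit 76) (nat_lit 538298145334) (nat_lit 76) (nat_lit 521081267991) (nat_lit 4) (nat_lit 4) (nat_lit 5) (nat_lit 5) (nat_lit 5) (nat_lit 4) (nat_lit 510) (nat_lit 414) (nat_lit 276))) (XT.nd (nat_lit 78) (nat_lit 0) (nat_lit 0) (XT.lf (nat_lit 0) (nat_lit 1470380041706) (nat_lit 76) (nat_lit 404161639764) (nat_lit 76) (nat_lit 386944731293) (nat_lit 4) (nat_lit 4) (nat_lit 5) (nat_lit 5) (nat_lit 5) (nat_lit 4) (nat_lit 511) (nat_lit 414) (nat_lit 275)) (XT.lf (nat_lit 0) (nat_lit 1927906495053) (nat_lit 76) (nat_lit 259294825933) (nat_lit 76) (nat_lit 242077888639) (nat_lit 4) (nat_lit 4) (nat_lit 5) (nat_lit 5) (nat_lit 5) (nat_lit 4) (nat_lit 512) (nat_lit 414) (nat_lit 274))))))))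
noncomputable def xc128 : XT := (XT.nd (nat_lit 2184) (nat_lit 0) (nat_lit 0) (XT.nd (nat_lit 1092) (nat_lit 0) (nat_lit 0) (XT.nd (nat_lit 546) (nat_lit 76) (nat_lit 0) (XT.nd (nat_lit 234) (nat_lit 0) (nat_lit 0) (XT.nd (nat_lit 78) (nat_lit 152) (nat_lit 0) (XT.lf (nat_lit 0) (nat_lit 2422033968868) (nat_lit 76) (nat_lit 102839233833) (nat_lit 76) (nat_lit 85622269852) (nat_lit 4) (nat_lit 4) (nat_lit 5) (nat_lit 5) (nat_lit 5) (nat_lit 4) (nat_lit 513) (nat_lit 414) (nat_lit 273)) (XT.nd (nat_lit 78) (nat_lit 0) (nat_lit 0) (XT.lf (nat_lit 0) (nat_lit 84652922061) (nat_lit 152) (nat_lit 2652246673970) (nat_lit 0) (nat_lit 68711265866) (nat_lit 2) (nat_lit 5) (nat_lit 4) (nat_lit 4) (nat_lit 2) (nat_lit 4) (nat_lit 514) (nat_lit 414) (nat_lit 272)) (XT.lf (nat_lit 0) (nat_lit 271881661733) (nat_lit 152) (nat_lit 2487699331182) (nat_lit 0) (nat_lit 255939984352) (nat_lit 2) (nat_lit 5)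 (nat_lit 4) (nat_lit 4) (nat_lit 2) (nat_lit 4) (nat_lit 515) (nat_lit 414) (nat_lit 271)))) (XT.nd (nat_lit 156) (nat_lit 0) (nat_lit 0) (XT.nd (nat_lit 78) (nat_lit 0) (nat_lit 0) (XT.lf (nat_lit 0) (nat_lit 474088235477) (nat_lit 152) (nat_lit 2309989165121) (nat_lit 0) (nat_lit 458146538480) (nat_lit 2) (nat_lit 5) (nat_lit 4) (nat_lit 4) (nat_lit 2) (nat_lit 4) (nat_lit 516) (nat_lit 414) (nat_lit 270)) (XT.lf (nat_lit 0) (nat_lit 692470904469) (nat_lit 152) (nat_lit 2118063078506) (nat_lit 0) (nat_lit 676529189309) (nat_lit 2) (nat_lit 5) (nat_lit 4) (nat_lit 4) (nat_lit 2) (nat_lit 4) (nat_lit 517) (nat_lit 414) (nat_lit 269))) (XT.nd (nat_lit 78) (nat_lit 0) (nat_lit 0) (XT.lf (nat_lit 0) (nat_lit 928323788231) (nat_lit 152) (nat_lit 1910783731565) (nat_lit 0) (nat_lit 912382056253) (nat_lit 2) (nat_lit 5) (nat_lit 4) (nat_lit 4) (nat_lit 2) (nat_lit 4) (nat_lit 518) (nat_lit 414)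 (nat_lit 268)) (XT.lf (nat_lit 0) (nat_lit 1183044533480) (nat_lit 152) (nat_lit 1686922802241) (nat_lit 0) (nat_lit 1167102785930) (nat_lit 2) (nat_lit 5) (nat_lit 4) (nat_lit 4) (nat_lit 2) (nat_lit 4) (nat_lit 519) (nat_lit 414) (nat_lit 267))))) (XT.nd (nat_lit 234) (nat_lit 76) (nat_lit 0) (XT.nd (nat_lit 78) (nat_lit 0) (nat_lit 0) (XT.lf (nat_lit 0) (nat_lit 1458142596485) (nat_lit 152) (nat_lit 1445153707250) (nat_lit 0) (nat_lit 1442200834517) (nat_lit 2) (nat_lit 5) (nat_lit 4) (nat_lit 4) (nat_lit 2) (nat_lit 4) (nat_lit 520) (nat_lit 414) (nat_lit 266)) (XT.nd (nat_lit 78) (nat_lit 0) (nat_lit 0) (XT.lf (nat_lit 0) (nat_lit 1755248187989) (nat_lit 152) (nat_lit 1184043740843) (nat_lit 0) (nat_lit 1739306412671) (nat_lit 2) (nat_lit 5) (nat_lit 4) (nat_lit 4) (nat_lit 2) (nat_lit 4) (nat_lit 521) (nat_lit 414) (nat_lit 265)) (XT.lf (nat_lit 0) (nat_lit 2076121933720) (nat_lit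 152) (nat_lit 902045584702) (nat_lit 0) (nat_lit 2060180146041) (nat_lit 2) (nat_lit 5) (nat_lit 4) (nat_lit 4) (nat_lit 2) (nat_lit 4) (nat_lit 522) (nat_lit 414) (nat_lit 264)))) (XT.nd (nat_lit 156) (nat_lit 76) (nat_lit 0) (XT.nd (nat_lit 78) (nat_lit 0) (nat_lit 0) (XT.lf (nat_lit 0) (nat_lit 2422665307727) (nat_lit 152) (nat_lit 597488138642) (nat_lit 0) (nat_lit 2406723508602) (nat_lit 2) (nat_lit 5) (nat_lit 4) (nat_lit 4) (nat_lit 2) (nat_lit 4) (nat_lit 523) (nat_lit 414) (nat_lit 263)) (XT.lf (nat_lit 0) (nat_lit 2796931900374) (nat_lit 152) (nat_lit 268566617796) (nat_lit 0) (nat_lit 2780990090651) (nat_lit 2) (nat_lit 5) (nat_lit 4) (nat_lit 4) (nat_lit 2) (nat_lit 4) (nat_lit 524) (nat_lit 414) (nat_lit 262))) (XT.nd (nat_lit 78) (nat_lit 0) (nat_lit 0) (XT.lf (nat_lit 0) (nat_lit 91231933191) (nat_lit 76) (nat_lit 3112101784762) (nat_lit 76) (nat_lit 3096159965227) (nat_lit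 1) (nat_lit 4) (nat_lit 2) (nat_lit 5) (nat_lit 2) (nat_lit 4) (nat_lit 525) (nat_lit 414) (nat_lit 261)) (XT.lf (nat_lit 0) (nat_lit 495087519678) (nat_lit 76) (nat_lit 3154503021794) (nat_lit 76) (nat_lit 3138561193172) (nat_lit 1) (nat_lit 4) (nat_lit 2) (nat_lit 5) (nat_lit 2) (nat_lit 4) (nat_lit 526) (nat_lit 414) (nat_lit 260)))))) (XT.nd (nat_lit 546) (nat_lit 0) (nat_lit 0) (XT.nd (nat_lit 234) (nat_lit 0) (nat_lit 0) (XT.nd (nat_lit 78) (nat_lit 0) (nat_lit 0) (XT.lf (nat_lit 0) (nat_lit 931251117803) (nat_lit 76) (nat_lit 3200296583126) (nat_lit 76) (nat_lit 3184354746091) (nat_lit 1) (nat_lit 4) (nat_lit 2) (nat_lit 5) (nat_lit 2) (nat_lit 4) (nat_lit 527) (nat_lit 414) (nat_lit 259)) (XT.nd (nat_lit 78) (nat_lit 0) (nat_lit 0) (XT.lf (nat_lit 0) (nat_lit 1402307400739) (nat_lit 76) (nat_lit 3249753838012) (nat_lit 76) (nat_lit 3233811993188) (nat_lit 1) (nat_lit 4) (nat_lit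 2) (nat_lit 5) (nat_lit 2) (nat_lit 4) (nat_lit 528) (nat_lit 414) (nat_lit 258)) (XT.lf (nat_lit 0) (nat_lit 1911047813126) (nat_lit 76) (nat_lit 3303167866481) (nat_lit 76) (nat_lit 3287226014444) (nat_lit 1) (nat_lit 4) (nat_lit 2) (nat_lit 5) (nat_lit 2) (nat_lit 4) (nat_lit 529) (nat_lit 414) (nat_lit 257)))) (XT.nd (nat_lit 156) (nat_lit 0) (nat_lit 0) (XT.nd (nat_lit 78) (nat_lit 0) (nat_lit 0) (XT.lf (nat_lit 0) (nat_lit 2460487112963) (nat_lit 76) (nat_lit 3360855196108) (nat_lit 76) (nat_lit 3344913337392) (nat_lit 1) (nat_lit 4) (nat_lit 2) (nat_lit 5) (nat_lit 2) (nat_lit 4) (nat_lit 530) (nat_lit 414) (nat_lit 256)) (XT.lf (nat_lit 0) (nat_lit 3053881236842) (nat_lit 76) (nat_lit 3423157677737) (nat_lit 76) (nat_lit 3407215812837) (nat_lit 1) (nat_lit 4) (nat_lit 2) (nat_lit 5) (nat_lit 2) (nat_lit 4) (nat_lit 531) (nat_lit 414) (nat_lit 255))) (XT.nd (nat_lit 78) (nat_lit 0)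 (nat_lit 0) (XT.lf (nat_lit 0) (nat_lit 3694746594386) (nat_lit 76) (nat_lit 3490444511257) (nat_lit 76) (nat_lit 3474502640631) (nat_lit 1) (nat_lit 4) (nat_lit 2) (nat_lit 5) (nat_lit 2) (nat_lit 4) (nat_lit 532) (nat_lit 414) (nat_lit 254)) (XT.lf (nat_lit 0) (nat_lit 4386880906232) (nat_lit 76) (nat_lit 3563114433460) (nat_lit 76) (nat_lit 3547172557533) (nat_lit 1) (nat_lit 4) (nat_lit 2) (nat_lit 5) (nat_lit 2) (nat_lit 4) (nat_lit 533) (nat_lit 414) (nat_lit 253))))) (XT.nd (nat_lit 234) (nat_lit 0) (nat_lit 0) (XT.nd (nat_lit 78) (nat_lit 0) (nat_lit 0) (XT.lf (nat_lit 0) (nat_lit 5134385709043) (nat_lit 76) (nat_lit 3641598080923) (nat_lit 76) (nat_lit 3625656200087) (nat_lit 1) (nat_lit 4) (nat_lit 2) (nat_lit 5) (nat_lit 2) (nat_lit 4) (nat_lit 534) (nat_lit 414) (nat_lit 252)) (XT.nd (nat_lit 78) (nat_lit 0) (nat_lit 0) (XT.lf (nat_lit 0) (nat_lit 5941690660910) (nat_lit 76)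 (nat_lit 3726360541926) (nat_lit 76) (nat_lit 3710418656545) (nat_lit 1) (nat_lit 4) (nat_lit 2) (nat_lit 5) (nat_lit 2) (nat_lit 4) (nat_lit 535) (nat_lit 414) (nat_lit 251)) (XT.lf (nat_lit 0) (nat_lit 6813579791177) (nat_lit 76) (nat_lit 3817904112535) (nat_lit 76) (nat_lit 3801962222946) (nat_lit 1) (nat_lit 4) (nat_lit 2) (nat_lit 5) (nat_lit 2) (nat_lit 4) (nat_lit 536) (nat_lit 414) (nat_lit 250)))) (XT.nd (nat_lit 156) (nat_lit 0) (nat_lit 0) (XT.nd (nat_lit 78) (nat_lit 0) (nat_lit 0) (XT.lf (nat_lit 0) (nat_lit 7755219850246) (nat_lit 76) (nat_lit 3916771273168) (nat_lit 76) (nat_lit 3900829379682) (nat_lit 1) (nat_lit 4) (nat_lit 2) (nat_lit 5) (nat_lit 2) (nat_lit 4) (nat_lit 537) (nat_lit 414) (nat_lit 249)) (XT.lf (nat_lit 0) (nat_lit 8772190927355) (nat_lit 76) (nat_lit 4023547903296) (nat_lit 76) (nat_lit 4007606006201) (nat_lit 1) (nat_lit 4) (nat_lit 2) (nat_lit 5) (nat_lit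 2) (nat_lit 4) (nat_lit 538) (nat_lit 414) (nat_lit 248))) (XT.nd (nat_lit 78) (nat_lit 0) (nat_lit 0) (XT.lf (nat_lit 0) (nat_lit 9870519517777) (nat_lit 76) (nat_lit 4138866753319) (nat_lit 76) (nat_lit 4122924852884) (nat_lit 1) (nat_lit 4) (nat_lit 2) (nat_lit 5) (nat_lit 2) (nat_lit 4) (nat_lit 539) (nat_lit 414) (nat_lit 247)) (XT.lf (nat_lit 0) (nat_lit 11056714235380) (nat_lit 76) (nat_lit 4263411194201) (nat_lit 76) (nat_lit 4247469290672) (nat_lit 1) (nat_lit 4) (nat_lit 2) (nat_lit 5) (nat_lit 2) (nat_lit 4) (nat_lit 540) (nat_lit 414) (nat_lit 246))))))) (XT.nd (nat_lit 53586) (nat_lit 0) (nat_lit 4180) (XT.nd (nat_lit 53040) (nat_lit 0) (nat_lit 5928) (XT.nd (nat_lit 52728) (nat_lit 0) (nat_lit 6992) (XT.nd (nat_lit 78) (nat_lit 0) (nat_lit 0) (XT.lf (nat_lit 0) (nat_lit 12337804382195) (nat_lit 76) (nat_lit 4397919267072) (nat_lit 76) (nat_lit 4381977360678) (nat_lit 1) (nat_lit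 4) (nat_lit 2) (nat_lit 5) (nat_lit 2) (nat_lit 4) (nat_lit 541) (nat_lit 414) (nat_lit 245)) (XT.nd (nat_lit 52572) (nat_lit 0) (nat_lit 6992) (XT.lf (nat_lit 0) (nat_lit 13721381603536) (nat_lit 76) (nat_lit 4543188056809) (nat_lit 76) (nat_lit 4527246147763) (nat_lit 1) (nat_lit 4) (nat_lit 2) (nat_lit 5) (nat_lit 2) (nat_lit 4) (nat_lit 542) (nat_lit 414) (nat_lit 244)) (XT.lf (nat_lit 0) (nat_lit 4721199571) (nat_lit 532) (nat_lit 924376069) (nat_lit 532) (nat_lit 924376069) (nat_lit 93) (nat_lit 3) (nat_lit 100) (nat_lit 3) (nat_lit 100) (nat_lit 5) (nat_lit 415) (nat_lit 415) (nat_lit 370)))) (XT.nd (nat_lit 156) (nat_lit 0) (nat_lit 76) (XT.nd (nat_lit 78) (nat_lit 0) (nat_lit 76) (XT.lf (nat_lit 76) (nat_lit 4942497421) (nat_lit 0) (nat_lit 5369056119) (nat_lit 532) (nat_lit 3314579634) (nat_lit 94) (nat_lit 5) (nat_lit 93) (nat_lit 3) (nat_lit 100) (nat_lit 5) (nat_lit 416) (nat_lit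 415) (nat_lit 369)) (XT.lf (nat_lit 0) (nat_lit 11289408494) (nat_lit 456) (nat_lit 1815657224) (nat_lit 532) (nat_lit 1043067109) (nat_lit 94) (nat_lit 5) (nat_lit 100) (nat_lit 5) (nat_lit 101) (nat_lit 5) (nat_lit 417) (nat_lit 415) (nat_lit 368))) (XT.nd (nat_lit 78) (nat_lit 0) (nat_lit 0) (XT.lf (nat_lit 76) (nat_lit 5725942859) (nat_lit 0) (nat_lit 6862095881) (nat_lit 532) (nat_lit 2104454566) (nat_lit 95) (nat_lit 5) (nat_lit 94) (nat_lit 5) (nat_lit 101) (nat_lit 5) (nat_lit 418) (nat_lit 415) (nat_lit 367)) (XT.lf (nat_lit 76) (nat_lit 13951910514) (nat_lit 0) (nat_lit 55703966) (nat_lit 532) (nat_lit 1271428001) (nat_lit 95) (nat_lit 5) (nat_lit 94) (nat_lit 5) (nat_lit 101) (nat_lit 5) (nat_lit 419) (nat_lit 415) (nat_lit 366))))) (XT.nd (nat_lit 234) (nat_lit 684) (nat_lit 0) (XT.nd (nat_lit 78) (nat_lit 532) (nat_lit 0) (XT.lf (nat_lit 76) (nat_lit 7078883212) (nat_lit 0)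 (nat_lit 8777626743) (nat_lit 532) (nat_lit 30749288) (nat_lit 96) (nat_lit 5) (nat_lit 95) (nat_lit 5) (nat_lit 102) (nat_lit 5) (nat_lit 420) (nat_lit 415) (nat_lit 365)) (XT.nd (nat_lit 78) (nat_lit 0) (nat_lit 76) (XT.lf (nat_lit 0) (nat_lit 1253361127) (nat_lit 532) (nat_lit 366415377) (nat_lit 608) (nat_lit 14921067909) (nat_lit 88) (nat_lit 5) (nat_lit 95) (nat_lit 5) (nat_lit 96) (nat_lit 5) (nat_lit 421) (nat_lit 415) (nat_lit 364)) (XT.lf (nat_lit 0) (nat_lit 2985465772) (nat_lit 532) (nat_lit 8196642431) (nat_lit 76) (nat_lit 6036793299) (nat_lit 89) (nat_lit 5) (nat_lit 96) (nat_lit 5) (nat_lit 90) (nat_lit 5) (nat_lit 422) (nat_lit 415) (nat_lit 363)))) (XT.nd (nat_lit 156) (nat_lit 228) (nat_lit 0) (XT.nd (nat_lit 78) (nat_lit 0) (nat_lit 0) (XT.lf (nat_lit 0) (nat_lit 1227613341) (nat_lit 532) (nat_lit 3685092928) (nat_lit 608) (nat_lit 13033974394) (nat_lit 82) (nat_lit 5)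 (nat_lit 89) (nat_lit 5) (nat_lit 90) (nat_lit 5) (nat_lit 423) (nat_lit 415) (nat_lit 362)) (XT.lf (nat_lit 0) (nat_lit 7306181300) (nat_lit 608) (nat_lit 6979976760) (nat_lit 76) (nat_lit 4421562359) (nat_lit 82) (nat_lit 5) (nat_lit 90) (nat_lit 5) (nat_lit 83) (nat_lit 5) (nat_lit 424) (nat_lit 415) (nat_lit 361))) (XT.nd (nat_lit 78) (nat_lit 0) (nat_lit 0) (XT.lf (nat_lit 0) (nat_lit 3599179899) (nat_lit 228) (nat_lit 6452030023) (nat_lit 304) (nat_lit 9465629874) (nat_lit 79) (nat_lit 5) (nat_lit 82) (nat_lit 5) (nat_lit 83) (nat_lit 5) (nat_lit 425) (nat_lit 415) (nat_lit 360)) (XT.lf (nat_lit 0) (nat_lit 13238809233) (nat_lit 304) (nat_lit 5031511816) (nat_lit 76) (nat_lit 2102532506) (nat_lit 79) (nat_lit 5) (nat_lit 83) (nat_lit 5) (nat_lit 80) (nat_lit 5) (nat_lit 426) (nat_lit 415) (nat_lit 359)))))) (XT.nd (nat_lit 546) (nat_lit 836) (nat_lit 0) (XT.nd (nat_lit 234) (nat_lit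 380) (nat_lit 0) (XT.nd (nat_lit 78) (nat_lit 304) (nat_lit 0) (XT.lf (nat_lit 0) (nat_lit 6879443639) (nat_lit 228) (nat_lit 10115429278) (nat_lit 304) (nat_lit 4277401117) (nat_lit 76) (nat_lit 5) (nat_lit 79) (nat_lit 5) (nat_lit 80) (nat_lit 5) (nat_lit 427) (nat_lit 415) (nat_lit 358)) (XT.nd (nat_lit 78) (nat_lit 304) (nat_lit 0) (XT.lf (nat_lit 0) (nat_lit 20007358243) (nat_lit 228) (nat_lit 1162974052) (nat_lit 304) (nat_lit 1063804982) (nat_lit 76) (nat_lit 5) (nat_lit 79) (nat_lit 5) (nat_lit 80) (nat_lit 5) (nat_lit 428) (nat_lit 415) (nat_lit 357)) (XT.lf (nat_lit 0) (nat_lit 2756111258) (nat_lit 304) (nat_lit 12057130327) (nat_lit 76) (nat_lit 8417508110) (nat_lit 72) (nat_lit 5) (nat_lit 76) (nat_lit 5) (nat_lit 73) (nat_lit 5) (nat_lit 429) (nat_lit 415) (nat_lit 356)))) (XT.nd (nat_lit 156) (nat_lit 152) (nat_lit 0) (XT.nd (nat_lit 78) (nat_lit 0) (nat_lit 0) (XT.lf (nat_lit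 0) (nat_lit 1462104052) (nat_lit 228) (nat_lit 5472870139) (nat_lit 304) (nat_lit 17361041858) (nat_lit 69) (nat_lit 5) (nat_lit 72) (nat_lit 5) (nat_lit 73) (nat_lit 5) (nat_lit 430) (nat_lit 415) (nat_lit 355)) (XT.lf (nat_lit 0) (nat_lit 11880962629) (nat_lit 304) (nat_lit 8813802795) (nat_lit 76) (nat_lit 4717114423) (nat_lit 69) (nat_lit 5) (nat_lit 73) (nat_lit 5) (nat_lit 70) (nat_lit 5) (nat_lit 431) (nat_lit 415) (nat_lit 354))) (XT.nd (nat_lit 78) (nat_lit 0) (nat_lit 0) (XT.lf (nat_lit 0) (nat_lit 6489366764) (nat_lit 152) (nat_lit 11016305721) (nat_lit 228) (nat_lit 9088698219) (nat_lit 67) (nat_lit 5) (nat_lit 69) (nat_lit 5) (nat_lit 70) (nat_lit 5) (nat_lit 432) (nat_lit 415) (nat_lit 353)) (XT.lf (nat_lit 0) (nat_lit 23497550509) (nat_lit 152) (nat_lit 309245727) (nat_lit 228) (nat_lit 4046550870) (nat_lit 67) (nat_lit 5) (nat_lit 69) (nat_lit 5) (nat_lit 70) (nat_lit 5)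 (nat_lit 433) (nat_lit 415) (nat_lit 352))))) (XT.nd (nat_lit 234) (nat_lit 456) (nat_lit 0) (XT.nd (nat_lit 78) (nat_lit 152) (nat_lit 0) (XT.lf (nat_lit 0) (nat_lit 1913838392) (nat_lit 228) (nat_lit 16202127239) (nat_lit 76) (nat_lit 11047597265) (nat_lit 64) (nat_lit 5) (nat_lit 67) (nat_lit 5) (nat_lit 65) (nat_lit 5) (nat_lit 434) (nat_lit 415) (nat_lit 351)) (XT.nd (nat_lit 78) (nat_lit 0) (nat_lit 0) (XT.lf (nat_lit 0) (nat_lit 1269869747) (nat_lit 152) (nat_lit 7009929424) (nat_lit 228) (nat_lit 22278600608) (nat_lit 62) (nat_lit 5) (nat_lit 64) (nat_lit 5) (nat_lit 65) (nat_lit 5) (nat_lit 435) (nat_lit 415) (nat_lit 350)) (XT.lf (nat_lit 0) (nat_lit 15716374729) (nat_lit 228) (nat_lit 11120193760) (nat_lit 76) (nat_lit 5183349007) (nat_lit 62) (nat_lit 5) (nat_lit 65) (nat_lit 5) (nat_lit 63) (nat_lit 5) (nat_lit 436) (nat_lit 415) (nat_lit 349)))) (XT.nd (nat_lit 156) (nat_lit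 304) (nat_lit 0) (XT.nd (nat_lit 78) (nat_lit 0) (nat_lit 0) (XT.lf (nat_lit 0) (nat_lit 8737663979) (nat_lit 152) (nat_lit 15390352785) (nat_lit 228) (nat_lit 9439929478) (nat_lit 60) (nat_lit 5) (nat_lit 62) (nat_lit 5) (nat_lit 63) (nat_lit 5) (nat_lit 437) (nat_lit 415) (nat_lit 348)) (XT.lf (nat_lit 0) (nat_lit 30798082995) (nat_lit 152) (nat_lit 2706926349) (nat_lit 228) (nat_lit 1711415194) (nat_lit 60) (nat_lit 5) (nat_lit 62) (nat_lit 5) (nat_lit 63) (nat_lit 5) (nat_lit 438) (nat_lit 415) (nat_lit 347))) (XT.nd (nat_lit 78) (nat_lit 152) (nat_lit 0) (XT.lf (nat_lit 0) (nat_lit 7013956957) (nat_lit 152) (nat_lit 18861230231) (nat_lit 76) (nat_lit 11051987672) (nat_lit 58) (nat_lit 5) (nat_lit 60) (nat_lit 5) (nat_lit 59) (nat_lit 5) (nat_lit 439) (nat_lit 415) (nat_lit 346)) (XT.lf (nat_lit 0) (nat_lit 3894084888) (nat_lit 152) (nat_lit 12727917641) (nat_lit 228) (nat_lit 22127058751)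 (nat_lit 56) (nat_lit 5) (nat_lit 58) (nat_lit 5) (nat_lit 59) (nat_lit 5) (nat_lit 440) (nat_lit 415) (nat_lit 345))))))))
noncomputable def xc129 : XT := (XT.nd (nat_lit 2184) (nat_lit 1596) (nat_lit 0) (XT.nd (nat_lit 1092) (nat_lit 988) (nat_lit 0) (XT.nd (nat_lit 546) (nat_lit 456) (nat_lit 0) (XT.nd (nat_lit 234) (nat_lit 456) (nat_lit 0) (XT.nd (nat_lit 78) (nat_lit 152) (nat_lit 0) (XT.lf (nat_lit 0) (nat_lit 27552575230) (nat_lit 228) (nat_lit 11199889341) (nat_lit 76) (nat_lit 1919923941) (nat_lit 56) (nat_lit 5) (nat_lit 59) (nat_lit 5) (nat_lit 57) (nat_lit 4) (nat_lit 441) (nat_lit 415) (nat_lit 344)) (XT.nd (nat_lit 78) (nat_lit 76) (nat_lit 0) (XT.lf (nat_lit 0) (nat_lit 14737428620) (nat_lit 76) (nat_lit 25295388899) (nat_lit 152) (nat_lit 2662747036) (nat_lit 55) (nat_lit 5) (nat_lit 56) (nat_lit 5) (nat_lit 57) (nat_lit 4) (nat_lit 442) (nat_lit 415) (nat_lit 343)) (XT.lf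 (nat_lit 0) (nat_lit 8503590337) (nat_lit 152) (nat_lit 1701837443) (nat_lit 76) (nat_lit 34634204911) (nat_lit 54) (nat_lit 5) (nat_lit 56) (nat_lit 5) (nat_lit 55) (nat_lit 5) (nat_lit 443) (nat_lit 415) (nat_lit 342)))) (XT.nd (nat_lit 156) (nat_lit 228) (nat_lit 0) (XT.nd (nat_lit 78) (nat_lit 76) (nat_lit 0) (XT.lf (nat_lit 0) (nat_lit 21248653192) (nat_lit 228) (nat_lit 19292917446) (nat_lit 76) (nat_lit 6541781002) (nat_lit 52) (nat_lit 5) (nat_lit 55) (nat_lit 5) (nat_lit 53) (nat_lit 4) (nat_lit 444) (nat_lit 415) (nat_lit 341)) (XT.lf (nat_lit 0) (nat_lit 10478114849) (nat_lit 76) (nat_lit 25091162694) (nat_lit 152) (nat_lit 13892814438) (nat_lit 51) (nat_lit 5) (nat_lit 52) (nat_lit 5) (nat_lit 53) (nat_lit 4) (nat_lit 445) (nat_lit 415) (nat_lit 340))) (XT.nd (nat_lit 78) (nat_lit 228) (nat_lit 0) (XT.lf (nat_lit 0) (nat_lit 43712649461) (nat_lit 76) (nat_lit 7841832736) (nat_lit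 152) (nat_lit 435135286) (nat_lit 51) (nat_lit 5) (nat_lit 52) (nat_lit 5) (nat_lit 53) (nat_lit 4) (nat_lit 446) (nat_lit 415) (nat_lit 339)) (XT.lf (nat_lit 0) (nat_lit 14291022771) (nat_lit 228) (nat_lit 29102706294) (nat_lit 76) (nat_lit 11226716540) (nat_lit 48) (nat_lit 5) (nat_lit 51) (nat_lit 5) (nat_lit 49) (nat_lit 4) (nat_lit 447) (nat_lit 415) (nat_lit 338))))) (XT.nd (nat_lit 234) (nat_lit 228) (nat_lit 0) (XT.nd (nat_lit 78) (nat_lit 152) (nat_lit 0) (XT.lf (nat_lit 0) (nat_lit 5060614259) (nat_lit 76) (nat_lit 25660688704) (nat_lit 152) (nat_lit 26695570077) (nat_lit 47) (nat_lit 5) (nat_lit 48) (nat_lit 5) (nat_lit 49) (nat_lit 4) (nat_lit 448) (nat_lit 415) (nat_lit 337)) (XT.nd (nat_lit 78) (nat_lit 152) (nat_lit 0) (XT.lf (nat_lit 0) (nat_lit 43597691136) (nat_lit 76) (nat_lit 5656244159) (nat_lit 152) (nat_lit 11120045263) (nat_lit 47) (nat_lit 5) (nat_lit 48) (nat_lit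 5) (nat_lit 49) (nat_lit 4) (nat_lit 449) (nat_lit 415) (nat_lit 336)) (XT.lf (nat_lit 0) (nat_lit 6354301981) (nat_lit 152) (nat_lit 41283508149) (nat_lit 76) (nat_lit 15843837546) (nat_lit 45) (nat_lit 5) (nat_lit 47) (nat_lit 5) (nat_lit 46) (nat_lit 4) (nat_lit 450) (nat_lit 415) (nat_lit 335)))) (XT.nd (nat_lit 156) (nat_lit 152) (nat_lit 0) (XT.nd (nat_lit 78) (nat_lit 76) (nat_lit 0) (XT.lf (nat_lit 0) (nat_lit 25236025441) (nat_lit 152) (nat_lit 2018095450) (nat_lit 76) (nat_lit 39511884920) (nat_lit 45) (nat_lit 5) (nat_lit 47) (nat_lit 5) (nat_lit 46) (nat_lit 4) (nat_lit 451) (nat_lit 415) (nat_lit 334)) (XT.lf (nat_lit 0) (nat_lit 42501883159) (nat_lit 76) (nat_lit 4141794078) (nat_lit 152) (nat_lit 23588204319) (nat_lit 44) (nat_lit 5) (nat_lit 45) (nat_lit 5) (nat_lit 46) (nat_lit 4) (nat_lit 452) (nat_lit 415) (nat_lit 333))) (XT.nd (nat_lit 78) (nat_lit 76) (nat_lit 0) (XT.lf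 (nat_lit 0) (nat_lit 17066358273) (nat_lit 76) (nat_lit 53658630994) (nat_lit 76) (nat_lit 3173154430) (nat_lit 43) (nat_lit 4) (nat_lit 44) (nat_lit 5) (nat_lit 44) (nat_lit 4) (nat_lit 453) (nat_lit 415) (nat_lit 332)) (XT.lf (nat_lit 0) (nat_lit 18809657462) (nat_lit 152) (nat_lit 11367689789) (nat_lit 76) (nat_lit 47573742631) (nat_lit 42) (nat_lit 5) (nat_lit 44) (nat_lit 5) (nat_lit 43) (nat_lit 4) (nat_lit 454) (nat_lit 415) (nat_lit 331)))))) (XT.nd (nat_lit 546) (nat_lit 456) (nat_lit 0) (XT.nd (nat_lit 234) (nat_lit 304) (nat_lit 0) (XT.nd (nat_lit 78) (nat_lit 152) (nat_lit 0) (XT.lf (nat_lit 0) (nat_lit 39621208533) (nat_lit 76) (nat_lit 3705147173) (nat_lit 152) (nat_lit 38503587100) (nat_lit 41) (nat_lit 5) (nat_lit 42) (nat_lit 5) (nat_lit 43) (nat_lit 4) (nat_lit 455) (nat_lit 415) (nat_lit 330)) (XT.nd (nat_lit 78) (nat_lit 76) (nat_lit 0) (XT.lf (nat_lit 0) (nat_lit 8954913849)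 (nat_lit 76) (nat_lit 61976056536) (nat_lit 76) (nat_lit 15214007265) (nat_lit 40) (nat_lit 4) (nat_lit 41) (nat_lit 5) (nat_lit 41) (nat_lit 4) (nat_lit 456) (nat_lit 415) (nat_lit 329)) (XT.lf (nat_lit 0) (nat_lit 10715705791) (nat_lit 152) (nat_lit 24478012461) (nat_lit 76) (nat_lit 55490443567) (nat_lit 39) (nat_lit 5) (nat_lit 41) (nat_lit 5) (nat_lit 40) (nat_lit 4) (nat_lit 457) (nat_lit 415) (nat_lit 328)))) (XT.nd (nat_lit 156) (nat_lit 228) (nat_lit 0) (XT.nd (nat_lit 78) (nat_lit 0) (nat_lit 0) (XT.lf (nat_lit 0) (nat_lit 33732156845) (nat_lit 76) (nat_lit 4971268893) (nat_lit 152) (nat_lit 56786995056) (nat_lit 38) (nat_lit 5) (nat_lit 39) (nat_lit 5) (nat_lit 40) (nat_lit 4) (nat_lit 458) (nat_lit 415) (nat_lit 327)) (XT.lf (nat_lit 0) (nat_lit 70276614037) (nat_lit 152) (nat_lit 3330365368) (nat_lit 0) (nat_lit 26966485119) (nat_lit 38) (nat_lit 5) (nat_lit 40) (nat_lit 4)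 (nat_lit 38) (nat_lit 4) (nat_lit 459) (nat_lit 415) (nat_lit 326))) (XT.nd (nat_lit 78) (nat_lit 76) (nat_lit 0) (XT.lf (nat_lit 0) (nat_lit 72928091) (nat_lit 152) (nat_lit 43161842584) (nat_lit 76) (nat_lit 62697547333) (nat_lit 36) (nat_lit 5) (nat_lit 38) (nat_lit 5) (nat_lit 37) (nat_lit 4) (nat_lit 460) (nat_lit 415) (nat_lit 325)) (XT.lf (nat_lit 0) (nat_lit 22986449482) (nat_lit 76) (nat_lit 8890057460) (nat_lit 152) (nat_lit 79729135625) (nat_lit 35) (nat_lit 5) (nat_lit 36) (nat_lit 5) (nat_lit 37) (nat_lit 4) (nat_lit 461) (nat_lit 415) (nat_lit 324))))) (XT.nd (nat_lit 234) (nat_lit 228) (nat_lit 0) (XT.nd (nat_lit 78) (nat_lit 228) (nat_lit 0) (XT.lf (nat_lit 0) (nat_lit 68108221481) (nat_lit 152) (nat_lit 21476426162) (nat_lit 0) (nat_lit 27997477570) (nat_lit 35) (nat_lit 5) (nat_lit 37) (nat_lit 4) (nat_lit 35) (nat_lit 4) (nat_lit 462) (nat_lit 415) (nat_lit 323)) (XT.nd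 (nat_lit 78) (nat_lit 152) (nat_lit 0) (XT.lf (nat_lit 0) (nat_lit 53472169103) (nat_lit 76) (nat_lit 55278417204) (nat_lit 76) (nat_lit 15165171179) (nat_lit 34) (nat_lit 4) (nat_lit 35) (nat_lit 5) (nat_lit 35) (nat_lit 4) (nat_lit 463) (nat_lit 415) (nat_lit 322)) (XT.lf (nat_lit 0) (nat_lit 4608199960) (nat_lit 76) (nat_lit 16893609057) (nat_lit 152) (nat_lit 109155479251) (nat_lit 32) (nat_lit 5) (nat_lit 33) (nat_lit 5) (nat_lit 34) (nat_lit 4) (nat_lit 464) (nat_lit 415) (nat_lit 321)))) (XT.nd (nat_lit 156) (nat_lit 152) (nat_lit 0) (XT.nd (nat_lit 78) (nat_lit 76) (nat_lit 0) (XT.lf (nat_lit 0) (nat_lit 62844854066) (nat_lit 152) (nat_lit 49157985709) (nat_lit 0) (nat_lit 25698828181) (nat_lit 32) (nat_lit 5) (nat_lit 34) (nat_lit 4) (nat_lit 32) (nat_lit 4) (nat_lit 465) (nat_lit 415) (nat_lit 320)) (XT.lf (nat_lit 0) (nat_lit 35197434902) (nat_lit 76) (nat_lit 73578779232) (nat_lit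 76) (nat_lit 36430914220) (nat_lit 31) (nat_lit 4) (nat_lit 32) (nat_lit 5) (nat_lit 32) (nat_lit 4) (nat_lit 466) (nat_lit 415) (nat_lit 319))) (XT.nd (nat_lit 78) (nat_lit 76) (nat_lit 0) (XT.lf (nat_lit 0) (nat_lit 6190044439) (nat_lit 152) (nat_lit 24274275475) (nat_lit 76) (nat_lit 122728987892) (nat_lit 30) (nat_lit 5) (nat_lit 32) (nat_lit 5) (nat_lit 31) (nat_lit 4) (nat_lit 467) (nat_lit 415) (nat_lit 318)) (XT.lf (nat_lit 0) (nat_lit 52409795116) (nat_lit 152) (nat_lit 91149712367) (nat_lit 0) (nat_lit 18010587093) (nat_lit 29) (nat_lit 5) (nat_lit 31) (nat_lit 4) (nat_lit 29) (nat_lit 4) (nat_lit 468) (nat_lit 415) (nat_lit 317))))))) (XT.nd (nat_lit 1092) (nat_lit 684) (nat_lit 0) (XT.nd (nat_lit 546) (nat_lit 456) (nat_lit 0) (XT.nd (nat_lit 234) (nat_lit 228) (nat_lit 0) (XT.nd (nat_lit 78) (nat_lit 152) (nat_lit 0) (XT.lf (nat_lit 0) (nat_lit 2832082429) (nat_lit 76) (nat_lit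 101031300580) (nat_lit 76) (nat_lit 66630740743) (nat_lit 28) (nat_lit 4) (nat_lit 29) (nat_lit 5) (nat_lit 29) (nat_lit 4) (nat_lit 469) (nat_lit 415) (nat_lit 316)) (XT.nd (nat_lit 78) (nat_lit 152) (nat_lit 0) (XT.lf (nat_lit 0) (nat_lit 109508140998) (nat_lit 76) (nat_lit 52413343831) (nat_lit 76) (nat_lit 18011532313) (nat_lit 28) (nat_lit 4) (nat_lit 29) (nat_lit 5) (nat_lit 29) (nat_lit 4) (nat_lit 470) (nat_lit 415) (nat_lit 315)) (XT.lf (nat_lit 0) (nat_lit 33668197511) (nat_lit 152) (nat_lit 154507122602) (nat_lit 0) (nat_lit 1813595215) (nat_lit 26) (nat_lit 5) (nat_lit 28) (nat_lit 4) (nat_lit 26) (nat_lit 4) (nat_lit 471) (nat_lit 415) (nat_lit 314)))) (XT.nd (nat_lit 156) (nat_lit 152) (nat_lit 0) (XT.nd (nat_lit 78) (nat_lit 76) (nat_lit 0) (XT.lf (nat_lit 0) (nat_lit 91842395282) (nat_lit 152) (nat_lit 48716009779) (nat_lit 0) (nat_lit 59986799362) (nat_lit 26) (nat_lit 5)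 (nat_lit 28) (nat_lit 4) (nat_lit 26) (nat_lit 4) (nat_lit 472) (nat_lit 415) (nat_lit 313)) (XT.lf (nat_lit 0) (nat_lit 68982065193) (nat_lit 76) (nat_lit 87344002170) (nat_lit 76) (nat_lit 55487486228) (nat_lit 25) (nat_lit 4) (nat_lit 26) (nat_lit 5) (nat_lit 26) (nat_lit 4) (nat_lit 473) (nat_lit 415) (nat_lit 312))) (XT.nd (nat_lit 78) (nat_lit 76) (nat_lit 0) (XT.lf (nat_lit 0) (nat_lit 3248862449) (nat_lit 152) (nat_lit 25099733920) (nat_lit 76) (nat_lit 195521907018) (nat_lit 24) (nat_lit 5) (nat_lit 26) (nat_lit 5) (nat_lit 25) (nat_lit 4) (nat_lit 474) (nat_lit 415) (nat_lit 311)) (XT.lf (nat_lit 0) (nat_lit 67184109616) (nat_lit 152) (nat_lit 131626963926) (nat_lit 0) (nat_lit 37685816482) (nat_lit 23) (nat_lit 5) (nat_lit 25) (nat_lit 4) (nat_lit 23) (nat_lit 4) (nat_lit 475) (nat_lit 415) (nat_lit 310))))) (XT.nd (nat_lit 234) (nat_lit 228) (nat_lit 0) (XT.nd (nat_lit 78) (nat_lit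 228) (nat_lit 0) (XT.lf (nat_lit 0) (nat_lit 137671385712) (nat_lit 152) (nat_lit 4174608833) (nat_lit 0) (nat_lit 108172416334) (nat_lit 23) (nat_lit 5) (nat_lit 25) (nat_lit 4) (nat_lit 23) (nat_lit 4) (nat_lit 476) (nat_lit 415) (nat_lit 309)) (XT.nd (nat_lit 78) (nat_lit 152) (nat_lit 0) (XT.lf (nat_lit 0) (nat_lit 140496028389) (nat_lit 76) (nat_lit 76677572020) (nat_lit 76) (nat_lit 47177976490) (nat_lit 22) (nat_lit 4) (nat_lit 23) (nat_lit 5) (nat_lit 23) (nat_lit 4) (nat_lit 477) (nat_lit 415) (nat_lit 308)) (XT.lf (nat_lit 0) (nat_lit 17461853049) (nat_lit 76) (nat_lit 5116045194) (nat_lit 152) (nat_lit 257166125080) (nat_lit 20) (nat_lit 5) (nat_lit 21) (nat_lit 5) (nat_lit 22) (nat_lit 4) (nat_lit 478) (nat_lit 415) (nat_lit 307)))) (XT.nd (nat_lit 156) (nat_lit 152) (nat_lit 0) (XT.nd (nat_lit 78) (nat_lit 76) (nat_lit 0) (XT.lf (nat_lit 0) (nat_lit 100572526797) (nat_lit 152)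 (nat_lit 122023684314) (nat_lit 0) (nat_lit 73257052609) (nat_lit 20) (nat_lit 5) (nat_lit 22) (nat_lit 4) (nat_lit 20) (nat_lit 4) (nat_lit 479) (nat_lit 415) (nat_lit 306)) (XT.lf (nat_lit 0) (nat_lit 30860732824) (nat_lit 76) (nat_lit 154818329032) (nat_lit 76) (nat_lit 127502394604) (nat_lit 19) (nat_lit 4) (nat_lit 20) (nat_lit 5) (nat_lit 20) (nat_lit 4) (nat_lit 480) (nat_lit 415) (nat_lit 305))) (XT.nd (nat_lit 78) (nat_lit 152) (nat_lit 0) (XT.lf (nat_lit 0) (nat_lit 202909998973) (nat_lit 76) (nat_lit 78017786488) (nat_lit 76) (nat_lit 50701425912) (nat_lit 19) (nat_lit 4) (nat_lit 20) (nat_lit 5) (nat_lit 20) (nat_lit 4) (nat_lit 481) (nat_lit 415) (nat_lit 304)) (XT.lf (nat_lit 0) (nat_lit 31711874576) (nat_lit 152) (nat_lit 313273795700) (nat_lit 0) (nat_lit 6418582763) (nat_lit 17) (nat_lit 5) (nat_lit 19) (nat_lit 4) (nat_lit 17) (nat_lit 4) (nat_lit 482) (nat_lit 415) (nat_lit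 303)))))) (XT.nd (nat_lit 546) (nat_lit 380) (nat_lit 0) (XT.nd (nat_lit 234) (nat_lit 228) (nat_lit 0) (XT.nd (nat_lit 78) (nat_lit 76) (nat_lit 0) (XT.lf (nat_lit 0) (nat_lit 123613764820) (nat_lit 152) (nat_lit 150271267327) (nat_lit 0) (nat_lit 98320134717) (nat_lit 17) (nat_lit 5) (nat_lit 19) (nat_lit 4) (nat_lit 17) (nat_lit 4) (nat_lit 483) (nat_lit 415) (nat_lit 302)) (XT.nd (nat_lit 78) (nat_lit 0) (nat_lit 0) (XT.lf (nat_lit 0) (nat_lit 27123446212) (nat_lit 76) (nat_lit 196394326794) (nat_lit 76) (nat_lit 171100383459) (nat_lit 16) (nat_lit 4) (nat_lit 17) (nat_lit 5) (nat_lit 17) (nat_lit 4) (nat_lit 484) (nat_lit 415) (nat_lit 301)) (XT.lf (nat_lit 0) (nat_lit 227251077802) (nat_lit 76) (nat_lit 108269414774) (nat_lit 76) (nat_lit 82975181410) (nat_lit 16) (nat_lit 4) (nat_lit 17) (nat_lit 5) (nat_lit 17) (nat_lit 4) (nat_lit 485) (nat_lit 415) (nat_lit 300)))) (XT.nd (nat_lit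 156) (nat_lit 76) (nat_lit 0) (XT.nd (nat_lit 78) (nat_lit 76) (nat_lit 0) (XT.lf (nat_lit 0) (nat_lit 11587564177) (nat_lit 152) (nat_lit 1192368421) (nat_lit 76) (nat_lit 431480161612) (nat_lit 15) (nat_lit 5) (nat_lit 17) (nat_lit 5) (nat_lit 16) (nat_lit 4) (nat_lit 486) (nat_lit 415) (nat_lit 299)) (XT.lf (nat_lit 0) (nat_lit 116703592326) (nat_lit 152) (nat_lit 261329446546) (nat_lit 0) (nat_lit 93282526990) (nat_lit 14) (nat_lit 5) (nat_lit 16) (nat_lit 4) (nat_lit 14) (nat_lit 4) (nat_lit 487) (nat_lit 415) (nat_lit 298))) (XT.nd (nat_lit 78) (nat_lit 76) (nat_lit 0) (XT.lf (nat_lit 0) (nat_lit 230592283114) (nat_lit 152) (nat_lit 62743117111) (nat_lit 0) (nat_lit 207171004598) (nat_lit 14) (nat_lit 5) (nat_lit 16) (nat_lit 4) (nat_lit 14) (nat_lit 4) (nat_lit 488) (nat_lit 415) (nat_lit 297)) (XT.lf (nat_lit 0) (nat_lit 159715908995) (nat_lit 76) (nat_lit 197715466648) (nat_lit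 76) (nat_lit 174293990743) (nat_lit 13) (nat_lit 4) (nat_lit 14) (nat_lit 5) (nat_lit 14) (nat_lit 4) (nat_lit 489) (nat_lit 415) (nat_lit 296))))) (XT.nd (nat_lit 312) (nat_lit 228) (nat_lit 0) (XT.nd (nat_lit 156) (nat_lit 0) (nat_lit 0) (XT.nd (nat_lit 78) (nat_lit 152) (nat_lit 0) (XT.lf (nat_lit 0) (nat_lit 403536164925) (nat_lit 76) (nat_lit 92595121673) (nat_lit 76) (nat_lit 69173463000) (nat_lit 13) (nat_lit 4) (nat_lit 14) (nat_lit 5) (nat_lit 14) (nat_lit 4) (nat_lit 490) (nat_lit 415) (nat_lit 295)) (XT.lf (nat_lit 0) (nat_lit 44335310341) (nat_lit 152) (nat_lit 534325597647) (nat_lit 0) (nat_lit 22648432653) (nat_lit 11) (nat_lit 5) (nat_lit 13) (nat_lit 4) (nat_lit 11) (nat_lit 4) (nat_lit 491) (nat_lit 415) (nat_lit 294))) (XT.nd (nat_lit 78) (nat_lit 0) (nat_lit 0) (XT.lf (nat_lit 0) (nat_lit 170128889068) (nat_lit 152) (nat_lit 320924505166) (nat_lit 0) (nat_lit 148441866293)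 (nat_lit 11) (nat_lit 5) (nat_lit 13) (nat_lit 4) (nat_lit 11) (nat_lit 4) (nat_lit 492) (nat_lit 415) (nat_lit 293)) (XT.lf (nat_lit 0) (nat_lit 305984357059) (nat_lit 152) (nat_lit 90454624766) (nat_lit 0) (nat_lit 284297199945) (nat_lit 11) (nat_lit 5) (nat_lit 13) (nat_lit 4) (nat_lit 11) (nat_lit 4) (nat_lit 493) (nat_lit 415) (nat_lit 292)))) (XT.nd (nat_lit 156) (nat_lit 152) (nat_lit 0) (XT.nd (nat_lit 78) (nat_lit 0) (nat_lit 0) (XT.lf (nat_lit 0) (nat_lit 166793476189) (nat_lit 76) (nat_lit 289924694680) (nat_lit 76) (nat_lit 268237413177) (nat_lit 10) (nat_lit 4) (nat_lit 11) (nat_lit 5) (nat_lit 11) (nat_lit 4) (nat_lit 494) (nat_lit 415) (nat_lit 291)) (XT.lf (nat_lit 0) (nat_lit 449762682152) (nat_lit 76) (nat_lit 172219756559) (nat_lit 76) (nat_lit 150532359882) (nat_lit 10) (nat_lit 4) (nat_lit 11) (nat_lit 5) (nat_lit 11) (nat_lit 4) (nat_lit 495) (nat_lit 415) (nat_lit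 290))) (XT.nd (nat_lit 78) (nat_lit 152) (nat_lit 0) (XT.lf (nat_lit 0) (nat_lit 755366667435) (nat_lit 76) (nat_lit 45099846459) (nat_lit 76) (nat_lit 23412343139) (nat_lit 10) (nat_lit 4) (nat_lit 11) (nat_lit 5) (nat_lit 11) (nat_lit 4) (nat_lit 496) (nat_lit 415) (nat_lit 289)) (XT.lf (nat_lit 0) (nat_lit 115748855809) (nat_lit 152) (nat_lit 667110886789) (nat_lit 0) (nat_lit 95667742787) (nat_lit 8) (nat_lit 5) (nat_lit 10) (nat_lit 4) (nat_lit 8) (nat_lit 4) (nat_lit 497) (nat_lit 415) (nat_lit 288))))))))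
noncomputable def xc130 : XT := (XT.nd (nat_lit 2184) (nat_lit 76) (nat_lit 0) (XT.nd (nat_lit 1092) (nat_lit 152) (nat_lit 0) (XT.nd (nat_lit 546) (nat_lit 76) (nat_lit 0) (XT.nd (nat_lit 234) (nat_lit 152) (nat_lit 0) (XT.nd (nat_lit 78) (nat_lit 76) (nat_lit 0) (XT.lf (nat_lit 0) (nat_lit 267870134406) (nat_lit 152) (nat_lit 421592919178) (nat_lit 0) (nat_lit 247788936727) (nat_lit 8) (nat_lit 5) (nat_lit 10) (nat_lit 4) (nat_lit 8) (nat_lit 4) (nat_lit 498) (nat_lit 415) (nat_lit 287)) (XT.nd (nat_lit 78) (nat_lit 76) (nat_lit 0) (XT.lf (nat_lit 0) (nat_lit 432159942522) (nat_lit 152) (nat_lit 156435940479) (nat_lit 0) (nat_lit 412078666457) (nat_lit 8) (nat_lit 5) (nat_lit 10) (nat_lit 4) (nat_lit 8) (nat_lit 4) (nat_lit 499) (nat_lit 415) (nat_lit 286)) (XT.lf (nat_lit 0) (nat_lit 136773304552) (nat_lit 76) (nat_lit 476107946100) (nat_lit 76) (nat_lit 456026597456) (nat_lit 7) (nat_lit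 4) (nat_lit 8) (nat_lit 5) (nat_lit 8) (nat_lit 4) (nat_lit 500) (nat_lit 415) (nat_lit 285)))) (XT.nd (nat_lit 156) (nat_lit 152) (nat_lit 0) (XT.nd (nat_lit 78) (nat_lit 0) (nat_lit 0) (XT.lf (nat_lit 0) (nat_lit 462333750018) (nat_lit 76) (nat_lit 350002691132) (nat_lit 76) (nat_lit 329921275284) (nat_lit 7) (nat_lit 4) (nat_lit 8) (nat_lit 5) (nat_lit 8) (nat_lit 4) (nat_lit 501) (nat_lit 415) (nat_lit 284)) (XT.lf (nat_lit 0) (nat_lit 813937003607) (nat_lit 76) (nat_lit 213810063537) (nat_lit 76) (nat_lit 193728585464) (nat_lit 7) (nat_lit 4) (nat_lit 8) (nat_lit 5) (nat_lit 8) (nat_lit 4) (nat_lit 502) (nat_lit 415) (nat_lit 283))) (XT.nd (nat_lit 78) (nat_lit 152) (nat_lit 0) (XT.lf (nat_lit 0) (nat_lit 1193666640153) (nat_lit 76) (nat_lit 66722995894) (nat_lit 76) (nat_lit 46641460205) (nat_lit 7) (nat_lit 4) (nat_lit 8) (nat_lit 5) (nat_lit 8) (nat_lit 4) (nat_lit 503) (nat_lit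 415) (nat_lit 282)) (XT.lf (nat_lit 0) (nat_lit 114121755823) (nat_lit 152) (nat_lit 1188963834241) (nat_lit 0) (nat_lit 95527691900) (nat_lit 5) (nat_lit 5) (nat_lit 7) (nat_lit 4) (nat_lit 5) (nat_lit 4) (nat_lit 504) (nat_lit 415) (nat_lit 281))))) (XT.nd (nat_lit 234) (nat_lit 76) (nat_lit 0) (XT.nd (nat_lit 78) (nat_lit 0) (nat_lit 0) (XT.lf (nat_lit 0) (nat_lit 290138476098) (nat_lit 152) (nat_lit 935349298897) (nat_lit 0) (nat_lit 271544366438) (nat_lit 5) (nat_lit 5) (nat_lit 7) (nat_lit 4) (nat_lit 5) (nat_lit 4) (nat_lit 505) (nat_lit 415) (nat_lit 280)) (XT.nd (nat_lit 78) (nat_lit 0) (nat_lit 0) (XT.lf (nat_lit 0) (nat_lit 480235736421) (nat_lit 152) (nat_lit 661447252634) (nat_lit 0) (nat_lit 461641584411) (nat_lit 5) (nat_lit 5) (nat_lit 7) (nat_lit 4) (nat_lit 5) (nat_lit 4) (nat_lit 506) (nat_lit 415) (nat_lit 279)) (XT.lf (nat_lit 0) (nat_lit 685540039075) (nat_lit 152)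 (nat_lit 365634572215) (nat_lit 0) (nat_lit 666945847852) (nat_lit 5) (nat_lit 5) (nat_lit 7) (nat_lit 4) (nat_lit 5) (nat_lit 4) (nat_lit 507) (nat_lit 415) (nat_lit 278)))) (XT.nd (nat_lit 156) (nat_lit 0) (nat_lit 0) (XT.nd (nat_lit 78) (nat_lit 76) (nat_lit 0) (XT.lf (nat_lit 0) (nat_lit 907268002149) (nat_lit 152) (nat_lit 46158293609) (nat_lit 0) (nat_lit 888673774618) (nat_lit 5) (nat_lit 5) (nat_lit 7) (nat_lit 4) (nat_lit 5) (nat_lit 4) (nat_lit 508) (nat_lit 415) (nat_lit 277)) (XT.lf (nat_lit 0) (nat_lit 314612991996) (nat_lit 76) (nat_lit 839687027157) (nat_lit 76) (nat_lit 821092766008) (nat_lit 4) (nat_lit 4) (nat_lit 5) (nat_lit 5) (nat_lit 5) (nat_lit 4) (nat_lit 509) (nat_lit 415) (nat_lit 276))) (XT.nd (nat_lit 78) (nat_lit 0) (nat_lit 0) (XT.lf (nat_lit 0) (nat_lit 706869765367) (nat_lit 76) (nat_lit 715486264716) (nat_lit 76) (nat_lit 696891972439) (nat_lit 4) (nat_lit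 4) (nat_lit 5) (nat_lit 5) (nat_lit 5) (nat_lit 4) (nat_lit 510) (nat_lit 415) (nat_lit 275)) (XT.lf (nat_lit 0) (nat_lit 1130505897144) (nat_lit 76) (nat_lit 581350053465) (nat_lit 76) (nat_lit 562755732366) (nat_lit 4) (nat_lit 4) (nat_lit 5) (nat_lit 5) (nat_lit 5) (nat_lit 4) (nat_lit 511) (nat_lit 415) (nat_lit 274)))))) (XT.nd (nat_lit 546) (nat_lit 0) (nat_lit 0) (XT.nd (nat_lit 234) (nat_lit 152) (nat_lit 0) (XT.nd (nat_lit 78) (nat_lit 0) (nat_lit 0) (XT.lf (nat_lit 0) (nat_lit 1588031823665) (nat_lit 76) (nat_lit 436483512152) (nat_lit 76) (nat_lit 417889164366) (nat_lit 4) (nat_lit 4) (nat_lit 5) (nat_lit 5) (nat_lit 5) (nat_lit 4) (nat_lit 512) (nat_lit 415) (nat_lit 273)) (XT.nd (nat_lit 78) (nat_lit 0) (nat_lit 0) (XT.lf (nat_lit 0) (nat_lit 2082158809678) (nat_lit 76) (nat_lit 280028172385) (nat_lit 76) (nat_lit 261433799887) (nat_lit 4) (nat_lit 4) (nat_lit 5) (nat_lit 5)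 (nat_lit 5) (nat_lit 4) (nat_lit 513) (nat_lit 415) (nat_lit 272)) (XT.lf (nat_lit 0) (nat_lit 2615815015101) (nat_lit 76) (nat_lit 111056891408) (nat_lit 76) (nat_lit 92462496030) (nat_lit 4) (nat_lit 4) (nat_lit 5) (nat_lit 5) (nat_lit 5) (nat_lit 4) (nat_lit 514) (nat_lit 415) (nat_lit 271)))) (XT.nd (nat_lit 156) (nat_lit 0) (nat_lit 0) (XT.nd (nat_lit 78) (nat_lit 0) (nat_lit 0) (XT.lf (nat_lit 0) (nat_lit 91434229796) (nat_lit 152) (nat_lit 2864407597702) (nat_lit 0) (nat_lit 74217177423) (nat_lit 2) (nat_lit 5) (nat_lit 4) (nat_lit 4) (nat_lit 2) (nat_lit 4) (nat_lit 515) (nat_lit 415) (nat_lit 270)) (XT.lf (nat_lit 0) (nat_lit 293640596496) (nat_lit 152) (nat_lit 2686697860839) (nat_lit 0) (nat_lit 276423525960) (nat_lit 2) (nat_lit 5) (nat_lit 4) (nat_lit 4) (nat_lit 2) (nat_lit 4) (nat_lit 516) (nat_lit 415) (nat_lit 269))) (XT.nd (nat_lit 78) (nat_lit 0) (nat_lit 0) (XT.lf (nat_lit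 0) (nat_lit 512023073781) (nat_lit 152) (nat_lit 2494772171629) (nat_lit 0) (nat_lit 494805986428) (nat_lit 2) (nat_lit 5) (nat_lit 4) (nat_lit 4) (nat_lit 2) (nat_lit 4) (nat_lit 517) (nat_lit 415) (nat_lit 268)) (XT.lf (nat_lit 0) (nat_lit 747875780036) (nat_lit 152) (nat_lit 2287493192655) (nat_lit 0) (nat_lit 730658677111) (nat_lit 2) (nat_lit 5) (nat_lit 4) (nat_lit 4) (nat_lit 2) (nat_lit 4) (nat_lit 518) (nat_lit 415) (nat_lit 267))))) (XT.nd (nat_lit 234) (nat_lit 0) (nat_lit 0) (XT.nd (nat_lit 78) (nat_lit 0) (nat_lit 0) (XT.lf (nat_lit 0) (nat_lit 1002596360928) (nat_lit 152) (nat_lit 2063632604042) (nat_lit 0) (nat_lit 985379243584) (nat_lit 2) (nat_lit 5) (nat_lit 4) (nat_lit 4) (nat_lit 2) (nat_lit 4) (nat_lit 519) (nat_lit 415) (nat_lit 266)) (XT.nd (nat_lit 78) (nat_lit 0) (nat_lit 0) (XT.lf (nat_lit 0) (nat_lit 1277694271749) (nat_lit 152) (nat_lit 1821863824524) (nat_lit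 0) (nat_lit 1260477141056) (nat_lit 2) (nat_lit 5) (nat_lit 4) (nat_lit 4) (nat_lit 2) (nat_lit 4) (nat_lit 520) (nat_lit 415) (nat_lit 265)) (XT.lf (nat_lit 0) (nat_lit 1574799722343) (nat_lit 152) (nat_lit 1560754150222) (nat_lit 0) (nat_lit 1557582579288) (nat_lit 2) (nat_lit 5) (nat_lit 4) (nat_lit 4) (nat_lit 2) (nat_lit 4) (nat_lit 521) (nat_lit 415) (nat_lit 264)))) (XT.nd (nat_lit 156) (nat_lit 0) (nat_lit 0) (XT.nd (nat_lit 78) (nat_lit 0) (nat_lit 0) (XT.lf (nat_lit 0) (nat_lit 1895673337602) (nat_lit 152) (nat_lit 1278756264549) (nat_lit 0) (nat_lit 1878456183101) (nat_lit 2) (nat_lit 5) (nat_lit 4) (nat_lit 4) (nat_lit 2) (nat_lit 4) (nat_lit 522) (nat_lit 415) (nat_lit 263)) (XT.lf (nat_lit 0) (nat_lit 2242216590801) (nat_lit 152) (nat_lit 974199068921) (nat_lit 0) (nat_lit 2224999425702) (nat_lit 2) (nat_lit 5) (nat_lit 4) (nat_lit 4) (nat_lit 2) (nat_lit 4) (nat_lit 523) (nat_lit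 415) (nat_lit 262))) (XT.nd (nat_lit 78) (nat_lit 0) (nat_lit 0) (XT.lf (nat_lit 0) (nat_lit 2616483071589) (nat_lit 152) (nat_lit 645277779957) (nat_lit 0) (nat_lit 2599265896678) (nat_lit 2) (nat_lit 5) (nat_lit 4) (nat_lit 4) (nat_lit 2) (nat_lit 4) (nat_lit 524) (nat_lit 415) (nat_lit 261)) (XT.lf (nat_lit 0) (nat_lit 3020690655408) (nat_lit 152) (nat_lit 290043234465) (nat_lit 0) (nat_lit 3003473471410) (nat_lit 2) (nat_lit 5) (nat_lit 4) (nat_lit 4) (nat_lit 2) (nat_lit 4) (nat_lit 525) (nat_lit 415) (nat_lit 260))))))) (XT.nd (nat_lit 1092) (nat_lit 0) (nat_lit 0) (XT.nd (nat_lit 546) (nat_lit 0) (nat_lit 0) (XT.nd (nat_lit 234) (nat_lit 0) (nat_lit 0) (XT.nd (nat_lit 78) (nat_lit 0) (nat_lit 0) (XT.lf (nat_lit 0) (nat_lit 98538980025) (nat_lit 76) (nat_lit 3361065531271) (nat_lit 76) (nat_lit 3343848338861) (nat_lit 1) (nat_lit 4) (nat_lit 2) (nat_lit 5) (nat_lit 2) (nat_lit 4) (nat_lit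 526) (nat_lit 415) (nat_lit 259)) (XT.nd (nat_lit 78) (nat_lit 0) (nat_lit 0) (XT.lf (nat_lit 0) (nat_lit 534702384381) (nat_lit 76) (nat_lit 3406859192915) (nat_lit 76) (nat_lit 3389641992715) (nat_lit 1) (nat_lit 4) (nat_lit 2) (nat_lit 5) (nat_lit 2) (nat_lit 4) (nat_lit 527) (nat_lit 415) (nat_lit 258)) (XT.lf (nat_lit 0) (nat_lit 1005758487902) (nat_lit 76) (nat_lit 3456316540682) (nat_lit 76) (nat_lit 3439099333268) (nat_lit 1) (nat_lit 4) (nat_lit 2) (nat_lit 5) (nat_lit 2) (nat_lit 4) (nat_lit 528) (nat_lit 415) (nat_lit 257)))) (XT.nd (nat_lit 156) (nat_lit 0) (nat_lit 0) (XT.nd (nat_lit 78) (nat_lit 0) (nat_lit 0) (XT.lf (nat_lit 0) (nat_lit 1514498734164) (nat_lit 76) (nat_lit 3509730655151) (nat_lit 76) (nat_lit 3492513441059) (nat_lit 1) (nat_lit 4) (nat_lit 2) (nat_lit 5) (nat_lit 2) (nat_lit 4) (nat_lit 529) (nat_lit 415) (nat_lit 256)) (XT.lf (nat_lit 0) (nat_lit 2063937880181)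 (nat_lit 76) (nat_lit 3567418064408) (nat_lit 76) (nat_lit 3550200844133) (nat_lit 1) (nat_lit 4) (nat_lit 2) (nat_lit 5) (nat_lit 2) (nat_lit 4) (nat_lit 530) (nat_lit 415) (nat_lit 255))) (XT.nd (nat_lit 78) (nat_lit 0) (nat_lit 0) (XT.lf (nat_lit 0) (nat_lit 2657331861634) (nat_lit 76) (nat_lit 3629720619768) (nat_lit 76) (nat_lit 3612503393767) (nat_lit 1) (nat_lit 4) (nat_lit 2) (nat_lit 5) (nat_lit 2) (nat_lit 4) (nat_lit 531) (nat_lit 415) (nat_lit 254)) (XT.lf (nat_lit 0) (nat_lit 3298197087303) (nat_lit 76) (nat_lit 3697007521558) (nat_lit 76) (nat_lit 3679790290256) (nat_lit 1) (nat_lit 4) (nat_lit 2) (nat_lit 5) (nat_lit 2) (nat_lit 4) (nat_lit 532) (nat_lit 415) (nat_lit 253))))) (XT.nd (nat_lit 234) (nat_lit 0) (nat_lit 0) (XT.nd (nat_lit 78) (nat_lit 0) (nat_lit 0) (XT.lf (nat_lit 0) (nat_lit 3990331277042) (nat_lit 76) (nat_lit 3769677506975) (nat_lit 76) (nat_lit 3752460270763)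 (nat_lit 1) (nat_lit 4) (nat_lit 2) (nat_lit 5) (nat_lit 2) (nat_lit 4) (nat_lit 533) (nat_lit 415) (nat_lit 252)) (XT.nd (nat_lit 78) (nat_lit 0) (nat_lit 0) (XT.lf (nat_lit 0) (nat_lit 4737835966791) (nat_lit 76) (nat_lit 3848161212968) (nat_lit 76) (nat_lit 3830943972211) (nat_lit 1) (nat_lit 4) (nat_lit 2) (nat_lit 5) (nat_lit 2) (nat_lit 4) (nat_lit 534) (nat_lit 415) (nat_lit 251)) (XT.lf (nat_lit 0) (nat_lit 5545140813971) (nat_lit 76) (nat_lit 3932923728166) (nat_lit 76) (nat_lit 3915706483201) (nat_lit 1) (nat_lit 4) (nat_lit 2) (nat_lit 5) (nat_lit 2) (nat_lit 4) (nat_lit 535) (nat_lit 415) (nat_lit 250)))) (XT.nd (nat_lit 156) (nat_lit 0) (nat_lit 0) (XT.nd (nat_lit 78) (nat_lit 0) (nat_lit 0) (XT.lf (nat_lit 0) (nat_lit 6417029847305) (nat_lit 76) (nat_lit 4024467348956) (nat_lit 76) (nat_lit 4007250100093) (nat_lit 1) (nat_lit 4) (nat_lit 2) (nat_lit 5) (nat_lit 2) (nat_lit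 4) (nat_lit 536) (nat_lit 415) (nat_lit 249)) (XT.lf (nat_lit 0) (nat_lit 7358669816621) (nat_lit 76) (nat_lit 4123334556052) (nat_lit 76) (nat_lit 4106117303582) (nat_lit 1) (nat_lit 4) (nat_lit 2) (nat_lit 5) (nat_lit 2) (nat_lit 4) (nat_lit 537) (nat_lit 415) (nat_lit 248))) (XT.nd (nat_lit 78) (nat_lit 0) (nat_lit 0) (XT.lf (nat_lit 0) (nat_lit 8375640810627) (nat_lit 76) (nat_lit 4230111229202) (nat_lit 76) (nat_lit 4212893973390) (nat_lit 1) (nat_lit 4) (nat_lit 2) (nat_lit 5) (nat_lit 2) (nat_lit 4) (nat_lit 538) (nat_lit 415) (nat_lit 247)) (XT.lf (nat_lit 0) (nat_lit 9473969324100) (nat_lit 76) (nat_lit 4345430119060) (nat_lit 76) (nat_lit 4328212860155) (nat_lit 1) (nat_lit 4) (nat_lit 2) (nat_lit 5) (nat_lit 2) (nat_lit 4) (nat_lit 539) (nat_lit 415) (nat_lit 246)))))) (XT.nd (nat_lit 53118) (nat_lit 0) (nat_lit 5928) (XT.nd (nat_lit 52806) (nat_lit 0) (nat_lit 6992) (XT.nd (nat_lit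 78) (nat_lit 0) (nat_lit 0) (XT.lf (nat_lit 0) (nat_lit 10660163970455) (nat_lit 76) (nat_lit 4469974596825) (nat_lit 76) (nat_lit 4452757335056) (nat_lit 1) (nat_lit 4) (nat_lit 2) (nat_lit 5) (nat_lit 2) (nat_lit 4) (nat_lit 540) (nat_lit 415) (nat_lit 245)) (XT.nd (nat_lit 78) (nat_lit 0) (nat_lit 0) (XT.lf (nat_lit 0) (nat_lit 11941254051300) (nat_lit 76) (nat_lit 4604482703848) (nat_lit 76) (nat_lit 4587265439427) (nat_lit 1) (nat_lit 4) (nat_lit 2) (nat_lit 5) (nat_lit 2) (nat_lit 4) (nat_lit 541) (nat_lit 415) (nat_lit 244)) (XT.lf (nat_lit 0) (nat_lit 13324831211557) (nat_lit 76) (nat_lit 4749751525208) (nat_lit 76) (nat_lit 4732534258331) (nat_lit 1) (nat_lit 4) (nat_lit 2) (nat_lit 5) (nat_lit 2) (nat_lit 4) (nat_lit 542) (nat_lit 415) (nat_lit 243)))) (XT.nd (nat_lit 156) (nat_lit 0) (nat_lit 76) (XT.nd (nat_lit 78) (nat_lit 0) (nat_lit 0) (XT.lf (nat_lit 0) (nat_lit 5462525959)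 (nat_lit 532) (nat_lit 801941471) (nat_lit 532) (nat_lit 801941471) (nat_lit 93) (nat_lit 3) (nat_lit 100) (nat_lit 3) (nat_lit 100) (nat_lit 5) (nat_lit 416) (nat_lit 416) (nat_lit 368)) (XT.lf (nat_lit 76) (nat_lit 5720723054) (nat_lit 0) (nat_lit 6098351412) (nat_lit 532) (nat_lit 2842451796) (nat_lit 94) (nat_lit 5) (nat_lit 93) (nat_lit 3) (nat_lit 100) (nat_lit 5) (nat_lit 417) (nat_lit 416) (nat_lit 367))) (XT.nd (nat_lit 78) (nat_lit 0) (nat_lit 0) (XT.lf (nat_lit 0) (nat_lit 12817919643) (nat_lit 456) (nat_lit 1549120081) (nat_lit 532) (nat_lit 862831872) (nat_lit 94) (nat_lit 5) (nat_lit 100) (nat_lit 5) (nat_lit 101) (nat_lit 5) (nat_lit 418) (nat_lit 416) (nat_lit 366)) (XT.lf (nat_lit 76) (nat_lit 6585382953) (nat_lit 0) (nat_lit 7598387337) (nat_lit 532) (nat_lit 1636950387) (nat_lit 95) (nat_lit 5) (nat_lit 94) (nat_lit 5) (nat_lit 101) (nat_lit 5) (nat_lit 419) (nat_lit 416)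 (nat_lit 365))))) (XT.nd (nat_lit 312) (nat_lit 684) (nat_lit 0) (XT.nd (nat_lit 156) (nat_lit 0) (nat_lit 0) (XT.nd (nat_lit 78) (nat_lit 456) (nat_lit 0) (XT.lf (nat_lit 76) (nat_lit 15439697305) (nat_lit 0) (nat_lit 233608232) (nat_lit 532) (nat_lit 784382478) (nat_lit 95) (nat_lit 5) (nat_lit 94) (nat_lit 5) (nat_lit 101) (nat_lit 5) (nat_lit 420) (nat_lit 416) (nat_lit 364)) (XT.lf (nat_lit 0) (nat_lit 492455276) (nat_lit 532) (nat_lit 9075729797) (nat_lit 608) (nat_lit 7548137405) (nat_lit 88) (nat_lit 5) (nat_lit 95) (nat_lit 5) (nat_lit 96) (nat_lit 5) (nat_lit 421) (nat_lit 416) (nat_lit 363))) (XT.nd (nat_lit 78) (nat_lit 0) (nat_lit 76) (XT.lf (nat_lit 76) (nat_lit 8899579) (nat_lit 0) (nat_lit 1830132665) (nat_lit 608) (nat_lit 15986190933) (nat_lit 89) (nat_lit 5) (nat_lit 88) (nat_lit 5) (nat_lit 96) (nat_lit 5) (nat_lit 422) (nat_lit 416) (nat_lit 362)) (XT.lf (nat_lit 0)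 (nat_lit 3681468104) (nat_lit 532) (nat_lit 8420115291) (nat_lit 76) (nat_lit 6458204606) (nat_lit 89) (nat_lit 5) (nat_lit 96) (nat_lit 5) (nat_lit 90) (nat_lit 5) (nat_lit 423) (nat_lit 416) (nat_lit 361)))) (XT.nd (nat_lit 156) (nat_lit 228) (nat_lit 0) (XT.nd (nat_lit 78) (nat_lit 0) (nat_lit 0) (XT.lf (nat_lit 0) (nat_lit 1747137690) (nat_lit 532) (nat_lit 3992018714) (nat_lit 608) (nat_lit 13608535487) (nat_lit 82) (nat_lit 5) (nat_lit 89) (nat_lit 5) (nat_lit 90) (nat_lit 5) (nat_lit 424) (nat_lit 416) (nat_lit 360)) (XT.lf (nat_lit 0) (nat_lit 8291733384) (nat_lit 608) (nat_lit 7115847167) (nat_lit 76) (nat_lit 4764627956) (nat_lit 82) (nat_lit 5) (nat_lit 90) (nat_lit 5) (nat_lit 83) (nat_lit 5) (nat_lit 425) (nat_lit 416) (nat_lit 359))) (XT.nd (nat_lit 78) (nat_lit 0) (nat_lit 0) (XT.lf (nat_lit 0) (nat_lit 4298945120) (nat_lit 228) (nat_lit 6937615748) (nat_lit 304) (nat_lit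 9811084169) (nat_lit 79) (nat_lit 5) (nat_lit 82) (nat_lit 5) (nat_lit 83) (nat_lit 5) (nat_lit 426) (nat_lit 416) (nat_lit 358)) (XT.lf (nat_lit 0) (nat_lit 14651607974) (nat_lit 304) (nat_lit 5025109241) (nat_lit 76) (nat_lit 2297630577) (nat_lit 79) (nat_lit 5) (nat_lit 83) (nat_lit 5) (nat_lit 80) (nat_lit 5) (nat_lit 427) (nat_lit 416) (nat_lit 357))))))))
noncomputable def xc131 : XT := (XT.nd (nat_lit 2184) (nat_lit 1900) (nat_lit 0) (XT.nd (nat_lit 1092) (nat_lit 1064) (nat_lit 0) (XT.nd (nat_lit 546) (nat_lit 836) (nat_lit 0) (XT.nd (nat_lit 234) (nat_lit 380) (nat_lit 0) (XT.nd (nat_lit 78) (nat_lit 304) (nat_lit 0) (XT.lf (nat_lit 0) (nat_lit 7828370157) (nat_lit 228) (nat_lit 10863172683) (nat_lit 304) (nat_lit 4255511036) (nat_lit 76) (nat_lit 5) (nat_lit 79) (nat_lit 5) (nat_lit 80) (nat_lit 5) (nat_lit 428) (nat_lit 416) (nat_lit 356)) (XT.nd (nat_lit 78) (nat_lit 304) (nat_lit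 0) (XT.lf (nat_lit 0) (nat_lit 21976994149) (nat_lit 228) (nat_lit 1199075923) (nat_lit 304) (nat_lit 811796260) (nat_lit 76) (nat_lit 5) (nat_lit 79) (nat_lit 5) (nat_lit 80) (nat_lit 5) (nat_lit 429) (nat_lit 416) (nat_lit 355)) (XT.lf (nat_lit 0) (nat_lit 3283872116) (nat_lit 304) (nat_lit 12622753439) (nat_lit 76) (nat_lit 9157974039) (nat_lit 72) (nat_lit 5) (nat_lit 76) (nat_lit 5) (nat_lit 73) (nat_lit 5) (nat_lit 430) (nat_lit 416) (nat_lit 354)))) (XT.nd (nat_lit 156) (nat_lit 152) (nat_lit 0) (XT.nd (nat_lit 78) (nat_lit 0) (nat_lit 0) (XT.lf (nat_lit 0) (nat_lit 1967919759) (nat_lit 228) (nat_lit 5815715228) (nat_lit 304) (nat_lit 18432527096) (nat_lit 69) (nat_lit 5) (nat_lit 72) (nat_lit 5) (nat_lit 73) (nat_lit 5) (nat_lit 431) (nat_lit 416) (nat_lit 353)) (XT.lf (nat_lit 0) (nat_lit 13105650047) (nat_lit 304) (nat_lit 9139186414) (nat_lit 76) (nat_lit 5178032661) (nat_lit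 69) (nat_lit 5) (nat_lit 73) (nat_lit 5) (nat_lit 70) (nat_lit 5) (nat_lit 432) (nat_lit 416) (nat_lit 352))) (XT.nd (nat_lit 78) (nat_lit 0) (nat_lit 0) (XT.lf (nat_lit 0) (nat_lit 7378623530) (nat_lit 152) (nat_lit 11790302372) (nat_lit 228) (nat_lit 9531948008) (nat_lit 67) (nat_lit 5) (nat_lit 69) (nat_lit 5) (nat_lit 70) (nat_lit 5) (nat_lit 433) (nat_lit 416) (nat_lit 351)) (XT.lf (nat_lit 0) (nat_lit 25720046610) (nat_lit 152) (nat_lit 234626305) (nat_lit 228) (nat_lit 4107454506) (nat_lit 67) (nat_lit 5) (nat_lit 69) (nat_lit 5) (nat_lit 70) (nat_lit 5) (nat_lit 434) (nat_lit 416) (nat_lit 350))))) (XT.nd (nat_lit 234) (nat_lit 456) (nat_lit 0) (XT.nd (nat_lit 78) (nat_lit 152) (nat_lit 0) (XT.lf (nat_lit 0) (nat_lit 2309047259) (nat_lit 228) (nat_lit 17134849600) (nat_lit 76) (nat_lit 12033365077) (nat_lit 64) (nat_lit 5) (nat_lit 67) (nat_lit 5) (nat_lit 65) (nat_lit 5) (nat_lit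 435) (nat_lit 416) (nat_lit 349)) (XT.nd (nat_lit 78) (nat_lit 0) (nat_lit 0) (XT.lf (nat_lit 0) (nat_lit 1725705934) (nat_lit 152) (nat_lit 7449165140) (nat_lit 228) (nat_lit 23809569126) (nat_lit 62) (nat_lit 5) (nat_lit 64) (nat_lit 5) (nat_lit 65) (nat_lit 5) (nat_lit 436) (nat_lit 416) (nat_lit 348)) (XT.lf (nat_lit 0) (nat_lit 17191843464) (nat_lit 228) (nat_lit 11667258631) (nat_lit 76) (nat_lit 5704940800) (nat_lit 62) (nat_lit 5) (nat_lit 65) (nat_lit 5) (nat_lit 63) (nat_lit 5) (nat_lit 437) (nat_lit 416) (nat_lit 347)))) (XT.nd (nat_lit 156) (nat_lit 304) (nat_lit 0) (XT.nd (nat_lit 78) (nat_lit 0) (nat_lit 0) (XT.lf (nat_lit 0) (nat_lit 9770555559) (nat_lit 152) (nat_lit 16497731179) (nat_lit 228) (nat_lit 9968278745) (nat_lit 60) (nat_lit 5) (nat_lit 62) (nat_lit 5) (nat_lit 63) (nat_lit 5) (nat_lit 438) (nat_lit 416) (nat_lit 346)) (XT.lf (nat_lit 0) (nat_lit 33571076358) (nat_lit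 152) (nat_lit 2808804690) (nat_lit 228) (nat_lit 1638286658) (nat_lit 60) (nat_lit 5) (nat_lit 62) (nat_lit 5) (nat_lit 63) (nat_lit 5) (nat_lit 439) (nat_lit 416) (nat_lit 345))) (XT.nd (nat_lit 78) (nat_lit 152) (nat_lit 0) (XT.lf (nat_lit 0) (nat_lit 7770190910) (nat_lit 152) (nat_lit 20046034179) (nat_lit 76) (nat_lit 12049503122) (nat_lit 58) (nat_lit 5) (nat_lit 60) (nat_lit 5) (nat_lit 59) (nat_lit 5) (nat_lit 440) (nat_lit 416) (nat_lit 344)) (XT.lf (nat_lit 0) (nat_lit 4521501227) (nat_lit 152) (nat_lit 13618522912) (nat_lit 228) (nat_lit 23693890718) (nat_lit 56) (nat_lit 5) (nat_lit 58) (nat_lit 5) (nat_lit 59) (nat_lit 5) (nat_lit 441) (nat_lit 416) (nat_lit 343)))))) (XT.nd (nat_lit 546) (nat_lit 456) (nat_lit 0) (XT.nd (nat_lit 234) (nat_lit 456) (nat_lit 0) (XT.nd (nat_lit 78) (nat_lit 152) (nat_lit 0) (XT.lf (nat_lit 0) (nat_lit 29933939459) (nat_lit 228) (nat_lit 11792277328)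 (nat_lit 76) (nat_lit 2185780508) (nat_lit 56) (nat_lit 5) (nat_lit 59) (nat_lit 5) (nat_lit 57) (nat_lit 4) (nat_lit 442) (nat_lit 416) (nat_lit 342)) (XT.nd (nat_lit 78) (nat_lit 76) (nat_lit 0) (XT.lf (nat_lit 0) (nat_lit 16212339914) (nat_lit 76) (nat_lit 27194255198) (nat_lit 152) (nat_lit 2690913505) (nat_lit 55) (nat_lit 5) (nat_lit 56) (nat_lit 5) (nat_lit 57) (nat_lit 4) (nat_lit 443) (nat_lit 416) (nat_lit 341)) (XT.lf (nat_lit 0) (nat_lit 9346475882) (nat_lit 152) (nat_lit 1555417420) (nat_lit 76) (nat_lit 37511894485) (nat_lit 54) (nat_lit 5) (nat_lit 56) (nat_lit 5) (nat_lit 55) (nat_lit 5) (nat_lit 444) (nat_lit 416) (nat_lit 340)))) (XT.nd (nat_lit 156) (nat_lit 228) (nat_lit 0) (XT.nd (nat_lit 78) (nat_lit 76) (nat_lit 0) (XT.lf (nat_lit 0) (nat_lit 23108566717) (nat_lit 228) (nat_lit 20551199687) (nat_lit 76) (nat_lit 7177444579) (nat_lit 52) (nat_lit 5) (nat_lit 55) (nat_lit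 5) (nat_lit 53) (nat_lit 4) (nat_lit 445) (nat_lit 416) (nat_lit 339)) (XT.lf (nat_lit 0) (nat_lit 11594296175) (nat_lit 76) (nat_lit 26975375689) (nat_lit 152) (nat_lit 14836992745) (nat_lit 51) (nat_lit 5) (nat_lit 52) (nat_lit 5) (nat_lit 53) (nat_lit 4) (nat_lit 446) (nat_lit 416) (nat_lit 338))) (XT.nd (nat_lit 78) (nat_lit 228) (nat_lit 0) (XT.lf (nat_lit 0) (nat_lit 47467005990) (nat_lit 76) (nat_lit 8355216373) (nat_lit 152) (nat_lit 315087916) (nat_lit 51) (nat_lit 5) (nat_lit 52) (nat_lit 5) (nat_lit 53) (nat_lit 4) (nat_lit 447) (nat_lit 416) (nat_lit 337)) (XT.lf (nat_lit 0) (nat_lit 15579521944) (nat_lit 228) (nat_lit 31163926549) (nat_lit 76) (nat_lit 12235010163) (nat_lit 48) (nat_lit 5) (nat_lit 51) (nat_lit 5) (nat_lit 49) (nat_lit 4) (nat_lit 448) (nat_lit 416) (nat_lit 336))))) (XT.nd (nat_lit 234) (nat_lit 228) (nat_lit 0) (XT.nd (nat_lit 78) (nat_lit 152) (nat_lit 0)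 (XT.lf (nat_lit 0) (nat_lit 5725700249) (nat_lit 76) (nat_lit 27594026163) (nat_lit 152) (nat_lit 28679234110) (nat_lit 47) (nat_lit 5) (nat_lit 48) (nat_lit 5) (nat_lit 49) (nat_lit 4) (nat_lit 449) (nat_lit 416) (nat_lit 335)) (XT.nd (nat_lit 78) (nat_lit 152) (nat_lit 0) (XT.lf (nat_lit 0) (nat_lit 47326466473) (nat_lit 76) (nat_lit 5998079213) (nat_lit 152) (nat_lit 11868925205) (nat_lit 47) (nat_lit 5) (nat_lit 48) (nat_lit 5) (nat_lit 49) (nat_lit 4) (nat_lit 450) (nat_lit 416) (nat_lit 334)) (XT.lf (nat_lit 0) (nat_lit 6994937951) (nat_lit 152) (nat_lit 44336788924) (nat_lit 76) (nat_lit 17217865442) (nat_lit 45) (nat_lit 5) (nat_lit 47) (nat_lit 5) (nat_lit 46) (nat_lit 4) (nat_lit 451) (nat_lit 416) (nat_lit 333)))) (XT.nd (nat_lit 156) (nat_lit 152) (nat_lit 0) (XT.nd (nat_lit 78) (nat_lit 76) (nat_lit 0) (XT.lf (nat_lit 0) (nat_lit 27377399895) (nat_lit 152) (nat_lit 1948617274)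 (nat_lit 76) (nat_lit 42771466170) (nat_lit 45) (nat_lit 5) (nat_lit 47) (nat_lit 5) (nat_lit 46) (nat_lit 4) (nat_lit 452) (nat_lit 416) (nat_lit 332)) (XT.lf (nat_lit 0) (nat_lit 46127113401) (nat_lit 76) (nat_lit 4366890091) (nat_lit 152) (nat_lit 25346918741) (nat_lit 44) (nat_lit 5) (nat_lit 45) (nat_lit 5) (nat_lit 46) (nat_lit 4) (nat_lit 453) (nat_lit 416) (nat_lit 331))) (XT.nd (nat_lit 78) (nat_lit 76) (nat_lit 0) (XT.lf (nat_lit 0) (nat_lit 18657826834) (nat_lit 76) (nat_lit 57842996402) (nat_lit 76) (nat_lit 3299742132) (nat_lit 43) (nat_lit 4) (nat_lit 44) (nat_lit 5) (nat_lit 44) (nat_lit 4) (nat_lit 454) (nat_lit 416) (nat_lit 330)) (XT.lf (nat_lit 0) (nat_lit 20426372985) (nat_lit 152) (nat_lit 12061800335) (nat_lit 76) (nat_lit 51474045713) (nat_lit 42) (nat_lit 5) (nat_lit 44) (nat_lit 5) (nat_lit 43) (nat_lit 4) (nat_lit 455) (nat_lit 416) (nat_lit 329))))))) (XT.nd (nat_lit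 1092) (nat_lit 912) (nat_lit 0) (XT.nd (nat_lit 546) (nat_lit 456) (nat_lit 0) (XT.nd (nat_lit 234) (nat_lit 304) (nat_lit 0) (XT.nd (nat_lit 78) (nat_lit 152) (nat_lit 0) (XT.lf (nat_lit 0) (nat_lit 43000759101) (nat_lit 76) (nat_lit 3900402909) (nat_lit 152) (nat_lit 41466477979) (nat_lit 41) (nat_lit 5) (nat_lit 42) (nat_lit 5) (nat_lit 43) (nat_lit 4) (nat_lit 456) (nat_lit 416) (nat_lit 328)) (XT.nd (nat_lit 78) (nat_lit 76) (nat_lit 0) (XT.lf (nat_lit 0) (nat_lit 9881954903) (nat_lit 76) (nat_lit 66831457954) (nat_lit 76) (nat_lit 16314523584) (nat_lit 40) (nat_lit 4) (nat_lit 41) (nat_lit 5) (nat_lit 41) (nat_lit 4) (nat_lit 457) (nat_lit 416) (nat_lit 327)) (XT.lf (nat_lit 0) (nat_lit 11675528222) (nat_lit 152) (nat_lit 26235806206) (nat_lit 76) (nat_lit 60019353144) (nat_lit 39) (nat_lit 5) (nat_lit 41) (nat_lit 5) (nat_lit 40) (nat_lit 4) (nat_lit 458) (nat_lit 416) (nat_lit 326))))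 (XT.nd (nat_lit 156) (nat_lit 228) (nat_lit 0) (XT.nd (nat_lit 78) (nat_lit 0) (nat_lit 0) (XT.lf (nat_lit 0) (nat_lit 36626102031) (nat_lit 76) (nat_lit 5273264972) (nat_lit 152) (nat_lit 61222312306) (nat_lit 38) (nat_lit 5) (nat_lit 39) (nat_lit 5) (nat_lit 40) (nat_lit 4) (nat_lit 459) (nat_lit 416) (nat_lit 325)) (XT.lf (nat_lit 0) (nat_lit 75993158830) (nat_lit 152) (nat_lit 3410640829) (nat_lit 0) (nat_lit 29207987132) (nat_lit 38) (nat_lit 5) (nat_lit 40) (nat_lit 4) (nat_lit 38) (nat_lit 4) (nat_lit 460) (nat_lit 416) (nat_lit 324))) (XT.nd (nat_lit 78) (nat_lit 76) (nat_lit 0) (XT.lf (nat_lit 0) (nat_lit 172933401) (nat_lit 152) (nat_lit 46428388687) (nat_lit 76) (nat_lit 67798046268) (nat_lit 36) (nat_lit 5) (nat_lit 38) (nat_lit 5) (nat_lit 37) (nat_lit 4) (nat_lit 461) (nat_lit 416) (nat_lit 323)) (XT.lf (nat_lit 0) (nat_lit 25007047725) (nat_lit 76) (nat_lit 9511144664) (nat_lit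 152) (nat_lit 86008575089) (nat_lit 35) (nat_lit 5) (nat_lit 36) (nat_lit 5) (nat_lit 37) (nat_lit 4) (nat_lit 462) (nat_lit 416) (nat_lit 322))))) (XT.nd (nat_lit 234) (nat_lit 228) (nat_lit 0) (XT.nd (nat_lit 78) (nat_lit 228) (nat_lit 0) (XT.lf (nat_lit 0) (nat_lit 73643668289) (nat_lit 152) (nat_lit 23021538909) (nat_lit 0) (nat_lit 30316543697) (nat_lit 35) (nat_lit 5) (nat_lit 37) (nat_lit 4) (nat_lit 35) (nat_lit 4) (nat_lit 463) (nat_lit 416) (nat_lit 321)) (XT.nd (nat_lit 78) (nat_lit 152) (nat_lit 0) (XT.lf (nat_lit 0) (nat_lit 57918564196) (nat_lit 76) (nat_lit 59616484636) (nat_lit 76) (nat_lit 16287214885) (nat_lit 34) (nat_lit 4) (nat_lit 35) (nat_lit 5) (nat_lit 35) (nat_lit 4) (nat_lit 464) (nat_lit 416) (nat_lit 320)) (XT.lf (nat_lit 0) (nat_lit 5145654861) (nat_lit 76) (nat_lit 18160552287) (nat_lit 152) (nat_lit 117796922950) (nat_lit 32) (nat_lit 5) (nat_lit 33) (nat_lit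 5) (nat_lit 34) (nat_lit 4) (nat_lit 465) (nat_lit 416) (nat_lit 319)))) (XT.nd (nat_lit 156) (nat_lit 152) (nat_lit 0) (XT.nd (nat_lit 78) (nat_lit 76) (nat_lit 0) (XT.lf (nat_lit 0) (nat_lit 67952337513) (nat_lit 152) (nat_lit 52929970108) (nat_lit 0) (nat_lit 27829101274) (nat_lit 32) (nat_lit 5) (nat_lit 34) (nat_lit 4) (nat_lit 32) (nat_lit 4) (nat_lit 466) (nat_lit 416) (nat_lit 318)) (XT.lf (nat_lit 0) (nat_lit 38169816950) (nat_lit 76) (nat_lit 79386237207) (nat_lit 76) (nat_lit 39261424212) (nat_lit 31) (nat_lit 4) (nat_lit 32) (nat_lit 5) (nat_lit 32) (nat_lit 4) (nat_lit 467) (nat_lit 416) (nat_lit 317))) (XT.nd (nat_lit 78) (nat_lit 76) (nat_lit 0) (XT.lf (nat_lit 0) (nat_lit 6759102594) (nat_lit 152) (nat_lit 26067339556) (nat_lit 76) (nat_lit 132616421208) (nat_lit 30) (nat_lit 5) (nat_lit 32) (nat_lit 5) (nat_lit 31) (nat_lit 4) (nat_lit 468) (nat_lit 416) (nat_lit 316)) (XT.lf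 (nat_lit 0) (nat_lit 56676213794) (nat_lit 152) (nat_lit 98292591216) (nat_lit 0) (nat_lit 19521005675) (nat_lit 29) (nat_lit 5) (nat_lit 31) (nat_lit 4) (nat_lit 29) (nat_lit 4) (nat_lit 469) (nat_lit 416) (nat_lit 315)))))) (XT.nd (nat_lit 546) (nat_lit 456) (nat_lit 0) (XT.nd (nat_lit 234) (nat_lit 228) (nat_lit 0) (XT.nd (nat_lit 78) (nat_lit 152) (nat_lit 0) (XT.lf (nat_lit 0) (nat_lit 3203972528) (nat_lit 76) (nat_lit 109040156775) (nat_lit 76) (nat_lit 71883789693) (nat_lit 28) (nat_lit 4) (nat_lit 29) (nat_lit 5) (nat_lit 29) (nat_lit 4) (nat_lit 470) (nat_lit 416) (nat_lit 314)) (XT.nd (nat_lit 78) (nat_lit 152) (nat_lit 0) (XT.lf (nat_lit 0) (nat_lit 118403351078) (nat_lit 76) (nat_lit 56538218882) (nat_lit 76) (nat_lit 19380778687) (nat_lit 28) (nat_lit 4) (nat_lit 29) (nat_lit 5) (nat_lit 29) (nat_lit 4) (nat_lit 471) (nat_lit 416) (nat_lit 313)) (XT.lf (nat_lit 0) (nat_lit 36429582626)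 (nat_lit 152) (nat_lit 166729385716) (nat_lit 0) (nat_lit 2023625387) (nat_lit 26) (nat_lit 5) (nat_lit 28) (nat_lit 4) (nat_lit 26) (nat_lit 4) (nat_lit 472) (nat_lit 416) (nat_lit 312)))) (XT.nd (nat_lit 156) (nat_lit 152) (nat_lit 0) (XT.nd (nat_lit 78) (nat_lit 76) (nat_lit 0) (XT.lf (nat_lit 0) (nat_lit 99252684418) (nat_lit 152) (nat_lit 52485228807) (nat_lit 0) (nat_lit 64845875306) (nat_lit 26) (nat_lit 5) (nat_lit 28) (nat_lit 4) (nat_lit 26) (nat_lit 4) (nat_lit 473) (nat_lit 416) (nat_lit 311)) (XT.lf (nat_lit 0) (nat_lit 74625450093) (nat_lit 76) (nat_lit 94267943014) (nat_lit 76) (nat_lit 59860345132) (nat_lit 25) (nat_lit 4) (nat_lit 26) (nat_lit 5) (nat_lit 26) (nat_lit 4) (nat_lit 474) (nat_lit 416) (nat_lit 310))) (XT.nd (nat_lit 78) (nat_lit 76) (nat_lit 0) (XT.lf (nat_lit 0) (nat_lit 3566948670) (nat_lit 152) (nat_lit 26989074989) (nat_lit 76) (nat_lit 211219465467) (nat_lit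 24) (nat_lit 5) (nat_lit 26) (nat_lit 5) (nat_lit 25) (nat_lit 4) (nat_lit 475) (nat_lit 416) (nat_lit 309)) (XT.lf (nat_lit 0) (nat_lit 72616905791) (nat_lit 152) (nat_lit 142038373249) (nat_lit 0) (nat_lit 40756716468) (nat_lit 23) (nat_lit 5) (nat_lit 25) (nat_lit 4) (nat_lit 23) (nat_lit 4) (nat_lit 476) (nat_lit 416) (nat_lit 308))))) (XT.nd (nat_lit 312) (nat_lit 228) (nat_lit 0) (XT.nd (nat_lit 156) (nat_lit 152) (nat_lit 0) (XT.nd (nat_lit 78) (nat_lit 76) (nat_lit 0) (XT.lf (nat_lit 0) (nat_lit 148738862685) (nat_lit 152) (nat_lit 4398625882) (nat_lit 0) (nat_lit 116878093592) (nat_lit 23) (nat_lit 5) (nat_lit 25) (nat_lit 4) (nat_lit 23) (nat_lit 4) (nat_lit 477) (nat_lit 416) (nat_lit 307)) (XT.lf (nat_lit 0) (nat_lit 151842878732) (nat_lit 76) (nat_lit 82756970545) (nat_lit 76) (nat_lit 50895664628) (nat_lit 22) (nat_lit 4) (nat_lit 23) (nat_lit 5) (nat_lit 23) (nat_lit 4) (nat_lit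 478) (nat_lit 416) (nat_lit 306))) (XT.nd (nat_lit 78) (nat_lit 0) (nat_lit 0) (XT.lf (nat_lit 0) (nat_lit 18966013744) (nat_lit 76) (nat_lit 5470436601) (nat_lit 152) (nat_lit 277682908985) (nat_lit 20) (nat_lit 5) (nat_lit 21) (nat_lit 5) (nat_lit 22) (nat_lit 4) (nat_lit 479) (nat_lit 416) (nat_lit 305)) (XT.lf (nat_lit 0) (nat_lit 108667995978) (nat_lit 152) (nat_lit 131683654845) (nat_lit 0) (nat_lit 79165900408) (nat_lit 20) (nat_lit 5) (nat_lit 22) (nat_lit 4) (nat_lit 20) (nat_lit 4) (nat_lit 480) (nat_lit 416) (nat_lit 304)))) (XT.nd (nat_lit 156) (nat_lit 152) (nat_lit 0) (XT.nd (nat_lit 78) (nat_lit 0) (nat_lit 0) (XT.lf (nat_lit 0) (nat_lit 33428935304) (nat_lit 76) (nat_lit 167152828721) (nat_lit 76) (nat_lit 137650338569) (nat_lit 19) (nat_lit 4) (nat_lit 20) (nat_lit 5) (nat_lit 20) (nat_lit 4) (nat_lit 481) (nat_lit 416) (nat_lit 303)) (XT.lf (nat_lit 0) (nat_lit 219234783941)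 (nat_lit 76) (nat_lit 84212018080) (nat_lit 76) (nat_lit 54709162574) (nat_lit 19) (nat_lit 4) (nat_lit 20) (nat_lit 5) (nat_lit 20) (nat_lit 4) (nat_lit 482) (nat_lit 416) (nat_lit 302))) (XT.nd (nat_lit 78) (nat_lit 0) (nat_lit 0) (XT.lf (nat_lit 0) (nat_lit 34294726981) (nat_lit 152) (nat_lit 338241238995) (nat_lit 0) (nat_lit 6976954948) (nat_lit 17) (nat_lit 5) (nat_lit 19) (nat_lit 4) (nat_lit 17) (nat_lit 4) (nat_lit 483) (nat_lit 416) (nat_lit 301)) (XT.lf (nat_lit 0) (nat_lit 133545368264) (nat_lit 152) (nat_lit 162205505415) (nat_lit 0) (nat_lit 106227306202) (nat_lit 17) (nat_lit 5) (nat_lit 19) (nat_lit 4) (nat_lit 17) (nat_lit 4) (nat_lit 484) (nat_lit 416) (nat_lit 300))))))))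
noncomputable def xc132 : XT := (XT.nd (nat_lit 2184) (nat_lit 228) (nat_lit 0) (XT.nd (nat_lit 1092) (nat_lit 304) (nat_lit 0) (XT.nd (nat_lit 546) (nat_lit 380) (nat_lit 0) (XT.nd (nat_lit 234) (nat_lit 152) (nat_lit 0) (XT.nd (nat_lit 78) (nat_lit 76) (nat_lit 0) (XT.lf (nat_lit 0) (nat_lit 29378570946) (nat_lit 76) (nat_lit 212062028085) (nat_lit 76) (nat_lit 184743697477) (nat_lit 16) (nat_lit 4) (nat_lit 17) (nat_lit 5) (nat_lit 17) (nat_lit 4) (nat_lit 485) (nat_lit 416) (nat_lit 299)) (XT.nd (nat_lit 78) (nat_lit 76) (nat_lit 0) (XT.lf (nat_lit 0) (nat_lit 245510098320) (nat_lit 76) (nat_lit 116890370870) (nat_lit 76) (nat_lit 89571791609) (nat_lit 16) (nat_lit 4) (nat_lit 17) (nat_lit 5) (nat_lit 17) (nat_lit 4) (nat_lit 486) (nat_lit 416) (nat_lit 298)) (XT.lf (nat_lit 0) (nat_lit 12550988850) (nat_lit 152) (nat_lit 1212752686) (nat_lit 76) (nat_lit 466034246535) (nat_lit 15) (nat_lit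 5) (nat_lit 17) (nat_lit 5) (nat_lit 16) (nat_lit 4) (nat_lit 487) (nat_lit 416) (nat_lit 297)))) (XT.nd (nat_lit 156) (nat_lit 76) (nat_lit 0) (XT.nd (nat_lit 78) (nat_lit 0) (nat_lit 0) (XT.lf (nat_lit 0) (nat_lit 126076264631) (nat_lit 152) (nat_lit 282160762339) (nat_lit 0) (nat_lit 100780873264) (nat_lit 14) (nat_lit 5) (nat_lit 16) (nat_lit 4) (nat_lit 14) (nat_lit 4) (nat_lit 488) (nat_lit 416) (nat_lit 296)) (XT.lf (nat_lit 0) (nat_lit 249073355503) (nat_lit 152) (nat_lit 67693085062) (nat_lit 0) (nat_lit 223777781369) (nat_lit 14) (nat_lit 5) (nat_lit 16) (nat_lit 4) (nat_lit 14) (nat_lit 4) (nat_lit 489) (nat_lit 416) (nat_lit 295))) (XT.nd (nat_lit 78) (nat_lit 0) (nat_lit 0) (XT.lf (nat_lit 0) (nat_lit 172560904109) (nat_lit 76) (nat_lit 213497804515) (nat_lit 76) (nat_lit 188202061151) (nat_lit 13) (nat_lit 4) (nat_lit 14) (nat_lit 5) (nat_lit 14) (nat_lit 4) (nat_lit 490) (nat_lit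 416) (nat_lit 294)) (XT.lf (nat_lit 0) (nat_lit 435881764040) (nat_lit 76) (nat_lit 99970417087) (nat_lit 76) (nat_lit 74674517030) (nat_lit 13) (nat_lit 4) (nat_lit 14) (nat_lit 5) (nat_lit 14) (nat_lit 4) (nat_lit 491) (nat_lit 416) (nat_lit 293))))) (XT.nd (nat_lit 234) (nat_lit 228) (nat_lit 0) (XT.nd (nat_lit 78) (nat_lit 0) (nat_lit 0) (XT.lf (nat_lit 0) (nat_lit 47913292677) (nat_lit 152) (nat_lit 577007273891) (nat_lit 0) (nat_lit 24491028654) (nat_lit 11) (nat_lit 5) (nat_lit 13) (nat_lit 4) (nat_lit 11) (nat_lit 4) (nat_lit 492) (nat_lit 416) (nat_lit 292)) (XT.nd (nat_lit 78) (nat_lit 0) (nat_lit 0) (XT.lf (nat_lit 0) (nat_lit 183768049738) (nat_lit 152) (nat_lit 346538862276) (nat_lit 0) (nat_lit 160345661327) (nat_lit 11) (nat_lit 5) (nat_lit 13) (nat_lit 4) (nat_lit 11) (nat_lit 4) (nat_lit 493) (nat_lit 416) (nat_lit 291)) (XT.lf (nat_lit 0) (nat_lit 330489818166) (nat_lit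 152) (nat_lit 97635806503) (nat_lit 0) (nat_lit 307067314580) (nat_lit 11) (nat_lit 5) (nat_lit 13) (nat_lit 4) (nat_lit 11) (nat_lit 4) (nat_lit 494) (nat_lit 416) (nat_lit 290)))) (XT.nd (nat_lit 156) (nat_lit 152) (nat_lit 0) (XT.nd (nat_lit 78) (nat_lit 0) (nat_lit 0) (XT.lf (nat_lit 0) (nat_lit 180190745358) (nat_lit 76) (nat_lit 313090906692) (nat_lit 76) (nat_lit 289668296463) (nat_lit 10) (nat_lit 4) (nat_lit 11) (nat_lit 5) (nat_lit 11) (nat_lit 4) (nat_lit 495) (nat_lit 416) (nat_lit 289)) (XT.lf (nat_lit 0) (nat_lit 485793503273) (nat_lit 76) (nat_lit 185971630082) (nat_lit 76) (nat_lit 162548921109) (nat_lit 10) (nat_lit 4) (nat_lit 11) (nat_lit 5) (nat_lit 11) (nat_lit 4) (nat_lit 496) (nat_lit 416) (nat_lit 288))) (XT.nd (nat_lit 78) (nat_lit 152) (nat_lit 0) (XT.lf (nat_lit 0) (nat_lit 815842118005) (nat_lit 76) (nat_lit 48684031396) (nat_lit 76) (nat_lit 25261230994) (nat_lit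 10) (nat_lit 4) (nat_lit 11) (nat_lit 5) (nat_lit 11) (nat_lit 4) (nat_lit 497) (nat_lit 416) (nat_lit 287)) (XT.lf (nat_lit 0) (nat_lit 125031644562) (nat_lit 152) (nat_lit 720432421164) (nat_lit 0) (nat_lit 103343788026) (nat_lit 8) (nat_lit 5) (nat_lit 10) (nat_lit 4) (nat_lit 8) (nat_lit 4) (nat_lit 498) (nat_lit 416) (nat_lit 286)))))) (XT.nd (nat_lit 546) (nat_lit 76) (nat_lit 0) (XT.nd (nat_lit 234) (nat_lit 152) (nat_lit 0) (XT.nd (nat_lit 78) (nat_lit 76) (nat_lit 0) (XT.lf (nat_lit 0) (nat_lit 289320930611) (nat_lit 152) (nat_lit 455276522557) (nat_lit 0) (nat_lit 267633001495) (nat_lit 8) (nat_lit 5) (nat_lit 10) (nat_lit 4) (nat_lit 8) (nat_lit 4) (nat_lit 499) (nat_lit 416) (nat_lit 285)) (XT.nd (nat_lit 78) (nat_lit 76) (nat_lit 0) (XT.lf (nat_lit 0) (nat_lit 466752354083) (nat_lit 152) (nat_lit 168910232240) (nat_lit 0) (nat_lit 445064357764) (nat_lit 8) (nat_lit 5) (nat_lit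 10) (nat_lit 4) (nat_lit 8) (nat_lit 4) (nat_lit 500) (nat_lit 416) (nat_lit 284)) (XT.lf (nat_lit 0) (nat_lit 147754724963) (nat_lit 76) (nat_lit 514176140175) (nat_lit 76) (nat_lit 492488081631) (nat_lit 7) (nat_lit 4) (nat_lit 8) (nat_lit 5) (nat_lit 8) (nat_lit 4) (nat_lit 501) (nat_lit 416) (nat_lit 283)))) (XT.nd (nat_lit 156) (nat_lit 152) (nat_lit 0) (XT.nd (nat_lit 78) (nat_lit 0) (nat_lit 0) (XT.lf (nat_lit 0) (nat_lit 499357075990) (nat_lit 76) (nat_lit 377983979003) (nat_lit 76) (nat_lit 356295862843) (nat_lit 7) (nat_lit 4) (nat_lit 8) (nat_lit 5) (nat_lit 8) (nat_lit 4) (nat_lit 502) (nat_lit 416) (nat_lit 282)) (XT.lf (nat_lit 0) (nat_lit 879085876831) (nat_lit 76) (nat_lit 230897343232) (nat_lit 76) (nat_lit 209209173724) (nat_lit 7) (nat_lit 4) (nat_lit 8) (nat_lit 5) (nat_lit 8) (nat_lit 4) (nat_lit 503) (nat_lit 416) (nat_lit 281))) (XT.nd (nat_lit 78) (nat_lit 152) (nat_lit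 0) (XT.lf (nat_lit 0) (nat_lit 1289191372232) (nat_lit 76) (nat_lit 72044608354) (nat_lit 76) (nat_lit 50356389449) (nat_lit 7) (nat_lit 4) (nat_lit 8) (nat_lit 5) (nat_lit 8) (nat_lit 4) (nat_lit 504) (nat_lit 416) (nat_lit 280)) (XT.lf (nat_lit 0) (nat_lit 123267056661) (nat_lit 152) (nat_lit 1284048712868) (nat_lit 0) (nat_lit 103185330141) (nat_lit 5) (nat_lit 5) (nat_lit 7) (nat_lit 4) (nat_lit 5) (nat_lit 4) (nat_lit 505) (nat_lit 416) (nat_lit 279))))) (XT.nd (nat_lit 234) (nat_lit 76) (nat_lit 0) (XT.nd (nat_lit 78) (nat_lit 0) (nat_lit 0) (XT.lf (nat_lit 0) (nat_lit 313363961938) (nat_lit 152) (nat_lit 1010147401964) (nat_lit 0) (nat_lit 293282196205) (nat_lit 5) (nat_lit 5) (nat_lit 7) (nat_lit 4) (nat_lit 5) (nat_lit 4) (nat_lit 506) (nat_lit 416) (nat_lit 278)) (XT.nd (nat_lit 78) (nat_lit 0) (nat_lit 0) (XT.lf (nat_lit 0) (nat_lit 518667935846) (nat_lit 152) (nat_lit 714335402433)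 (nat_lit 0) (nat_lit 498586133805) (nat_lit 5) (nat_lit 5) (nat_lit 7) (nat_lit 4) (nat_lit 5) (nat_lit 4) (nat_lit 507) (nat_lit 416) (nat_lit 277)) (XT.lf (nat_lit 0) (nat_lit 740395594525) (nat_lit 152) (nat_lit 394859754278) (nat_lit 0) (nat_lit 720313758866) (nat_lit 5) (nat_lit 5) (nat_lit 7) (nat_lit 4) (nat_lit 5) (nat_lit 4) (nat_lit 508) (nat_lit 416) (nat_lit 276)))) (XT.nd (nat_lit 156) (nat_lit 0) (nat_lit 0) (XT.nd (nat_lit 78) (nat_lit 76) (nat_lit 0) (XT.lf (nat_lit 0) (nat_lit 979860879659) (nat_lit 152) (nat_lit 49827268473) (nat_lit 0) (nat_lit 959779012871) (nat_lit 5) (nat_lit 5) (nat_lit 7) (nat_lit 4) (nat_lit 5) (nat_lit 4) (nat_lit 509) (nat_lit 416) (nat_lit 275)) (XT.lf (nat_lit 0) (nat_lit 339805120268) (nat_lit 76) (nat_lit 906850045833) (nat_lit 76) (nat_lit 886768150224) (nat_lit 4) (nat_lit 4) (nat_lit 5) (nat_lit 5) (nat_lit 5) (nat_lit 4) (nat_lit 510) (nat_lit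 416) (nat_lit 274))) (XT.nd (nat_lit 78) (nat_lit 0) (nat_lit 0) (XT.lf (nat_lit 0) (nat_lit 763440725219) (nat_lit 76) (nat_lit 772714107101) (nat_lit 76) (nat_lit 752632184804) (nat_lit 4) (nat_lit 4) (nat_lit 5) (nat_lit 5) (nat_lit 5) (nat_lit 4) (nat_lit 511) (nat_lit 416) (nat_lit 273)) (XT.lf (nat_lit 0) (nat_lit 1220966163937) (nat_lit 76) (nat_lit 627847818120) (nat_lit 76) (nat_lit 607765871112) (nat_lit 4) (nat_lit 4) (nat_lit 5) (nat_lit 5) (nat_lit 5) (nat_lit 4) (nat_lit 512) (nat_lit 416) (nat_lit 272))))))) (XT.nd (nat_lit 1092) (nat_lit 76) (nat_lit 0) (XT.nd (nat_lit 546) (nat_lit 0) (nat_lit 0) (XT.nd (nat_lit 234) (nat_lit 152) (nat_lit 0) (XT.nd (nat_lit 78) (nat_lit 0) (nat_lit 0) (XT.lf (nat_lit 0) (nat_lit 1715092698281) (nat_lit 76) (nat_lit 471392711992) (nat_lit 76) (nat_lit 451310742105) (nat_lit 4) (nat_lit 4) (nat_lit 5) (nat_lit 5) (nat_lit 5) (nat_lit 4) (nat_lit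 513) (nat_lit 416) (nat_lit 271)) (XT.nd (nat_lit 78) (nat_lit 0) (nat_lit 0) (XT.lf (nat_lit 0) (nat_lit 2248748485492) (nat_lit 76) (nat_lit 302421647349) (nat_lit 76) (nat_lit 282339656276) (nat_lit 4) (nat_lit 4) (nat_lit 5) (nat_lit 5) (nat_lit 5) (nat_lit 4) (nat_lit 514) (nat_lit 416) (nat_lit 270)) (XT.lf (nat_lit 0) (nat_lit 2825095930235) (nat_lit 76) (nat_lit 119933314178) (nat_lit 76) (nat_lit 99851303489) (nat_lit 4) (nat_lit 4) (nat_lit 5) (nat_lit 5) (nat_lit 5) (nat_lit 4) (nat_lit 515) (nat_lit 416) (nat_lit 269)))) (XT.nd (nat_lit 156) (nat_lit 0) (nat_lit 0) (XT.nd (nat_lit 78) (nat_lit 0) (nat_lit 0) (XT.lf (nat_lit 0) (nat_lit 98756747646) (nat_lit 152) (nat_lit 3093544078816) (nat_lit 0) (nat_lit 80162276487) (nat_lit 2) (nat_lit 5) (nat_lit 4) (nat_lit 4) (nat_lit 2) (nat_lit 4) (nat_lit 516) (nat_lit 416) (nat_lit 268)) (XT.lf (nat_lit 0) (nat_lit 317139047425) (nat_lit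 152) (nat_lit 2901618757574) (nat_lit 0) (nat_lit 298544560694) (nat_lit 2) (nat_lit 5) (nat_lit 4) (nat_lit 4) (nat_lit 2) (nat_lit 4) (nat_lit 517) (nat_lit 416) (nat_lit 267))) (XT.nd (nat_lit 78) (nat_lit 0) (nat_lit 0) (XT.lf (nat_lit 0) (nat_lit 552991589322) (nat_lit 152) (nat_lit 2694340119311) (nat_lit 0) (nat_lit 534397088173) (nat_lit 2) (nat_lit 5) (nat_lit 4) (nat_lit 4) (nat_lit 2) (nat_lit 4) (nat_lit 518) (nat_lit 416) (nat_lit 266)) (XT.lf (nat_lit 0) (nat_lit 807712018030) (nat_lit 152) (nat_lit 2470479846172) (nat_lit 0) (nat_lit 789117503531) (nat_lit 2) (nat_lit 5) (nat_lit 4) (nat_lit 4) (nat_lit 2) (nat_lit 4) (nat_lit 519) (nat_lit 416) (nat_lit 265))))) (XT.nd (nat_lit 234) (nat_lit 0) (nat_lit 0) (XT.nd (nat_lit 78) (nat_lit 0) (nat_lit 0) (XT.lf (nat_lit 0) (nat_lit 1082809787942) (nat_lit 152) (nat_lit 2228711358758) (nat_lit 0) (nat_lit 1064215261081) (nat_lit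 2) (nat_lit 5) (nat_lit 4) (nat_lit 4) (nat_lit 2) (nat_lit 4) (nat_lit 520) (nat_lit 416) (nat_lit 264)) (XT.nd (nat_lit 78) (nat_lit 0) (nat_lit 0) (XT.lf (nat_lit 0) (nat_lit 1379915108063) (nat_lit 152) (nat_lit 1967601954924) (nat_lit 0) (nat_lit 1361320569757) (nat_lit 2) (nat_lit 5) (nat_lit 4) (nat_lit 4) (nat_lit 2) (nat_lit 4) (nat_lit 521) (nat_lit 416) (nat_lit 263)) (XT.lf (nat_lit 0) (nat_lit 1700788602514) (nat_lit 152) (nat_lit 1685604319683) (nat_lit 0) (nat_lit 1682194053610) (nat_lit 2) (nat_lit 5) (nat_lit 4) (nat_lit 4) (nat_lit 2) (nat_lit 4) (nat_lit 522) (nat_lit 416) (nat_lit 262)))) (XT.nd (nat_lit 156) (nat_lit 0) (nat_lit 0) (XT.nd (nat_lit 78) (nat_lit 0) (nat_lit 0) (XT.lf (nat_lit 0) (nat_lit 2047331743854) (nat_lit 152) (nat_lit 1381047355937) (nat_lit 0) (nat_lit 2028737185137) (nat_lit 2) (nat_lit 5) (nat_lit 4) (nat_lit 4) (nat_lit 2) (nat_lit 4) (nat_lit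 523) (nat_lit 416) (nat_lit 261)) (XT.lf (nat_lit 0) (nat_lit 2421598121069) (nat_lit 152) (nat_lit 1052126281679) (nat_lit 0) (nat_lit 2403003553265) (nat_lit 2) (nat_lit 5) (nat_lit 4) (nat_lit 4) (nat_lit 2) (nat_lit 4) (nat_lit 524) (nat_lit 416) (nat_lit 260))) (XT.nd (nat_lit 78) (nat_lit 0) (nat_lit 0) (XT.lf (nat_lit 0) (nat_lit 2825805608986) (nat_lit 152) (nat_lit 696891934988) (nat_lit 0) (nat_lit 2807211032770) (nat_lit 2) (nat_lit 5) (nat_lit 4) (nat_lit 4) (nat_lit 2) (nat_lit 4) (nat_lit 525) (nat_lit 416) (nat_lit 259)) (XT.lf (nat_lit 0) (nat_lit 3262349511239) (nat_lit 152) (nat_lit 313239223439) (nat_lit 0) (nat_lit 3243754927233) (nat_lit 2) (nat_lit 5) (nat_lit 4) (nat_lit 4) (nat_lit 2) (nat_lit 4) (nat_lit 526) (nat_lit 416) (nat_lit 258)))))) (XT.nd (nat_lit 546) (nat_lit 0) (nat_lit 0) (XT.nd (nat_lit 234) (nat_lit 0) (nat_lit 0) (XT.nd (nat_lit 78) (nat_lit 0) (nat_lit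 0) (XT.lf (nat_lit 0) (nat_lit 106429379102) (nat_lit 76) (nat_lit 3629947004678) (nat_lit 76) (nat_lit 3611352413459) (nat_lit 1) (nat_lit 4) (nat_lit 2) (nat_lit 5) (nat_lit 2) (nat_lit 4) (nat_lit 527) (nat_lit 416) (nat_lit 257)) (XT.nd (nat_lit 78) (nat_lit 0) (nat_lit 0) (XT.lf (nat_lit 0) (nat_lit 577485316498) (nat_lit 76) (nat_lit 3679404438446) (nat_lit 76) (nat_lit 3660809840548) (nat_lit 1) (nat_lit 4) (nat_lit 2) (nat_lit 5) (nat_lit 2) (nat_lit 4) (nat_lit 528) (nat_lit 416) (nat_lit 256)) (XT.lf (nat_lit 0) (nat_lit 1086225408939) (nat_lit 76) (nat_lit 3732818632545) (nat_lit 76) (nat_lit 3714224028464) (nat_lit 1) (nat_lit 4) (nat_lit 2) (nat_lit 5) (nat_lit 2) (nat_lit 4) (nat_lit 529) (nat_lit 416) (nat_lit 255)))) (XT.nd (nat_lit 156) (nat_lit 0) (nat_lit 0) (XT.nd (nat_lit 78) (nat_lit 0) (nat_lit 0) (XT.lf (nat_lit 0) (nat_lit 1635664412531) (nat_lit 76) (nat_lit 3790506115534)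 (nat_lit 76) (nat_lit 3771911505727) (nat_lit 1) (nat_lit 4) (nat_lit 2) (nat_lit 5) (nat_lit 2) (nat_lit 4) (nat_lit 530) (nat_lit 416) (nat_lit 254)) (XT.lf (nat_lit 0) (nat_lit 2229058262109) (nat_lit 76) (nat_lit 3852808739164) (nat_lit 76) (nat_lit 3834214124055) (nat_lit 1) (nat_lit 4) (nat_lit 2) (nat_lit 5) (nat_lit 2) (nat_lit 4) (nat_lit 531) (nat_lit 416) (nat_lit 253))) (XT.nd (nat_lit 78) (nat_lit 0) (nat_lit 0) (XT.lf (nat_lit 0) (nat_lit 2869923365670) (nat_lit 76) (nat_lit 3920095704167) (nat_lit 76) (nat_lit 3901501084150) (nat_lit 1) (nat_lit 4) (nat_lit 2) (nat_lit 5) (nat_lit 2) (nat_lit 4) (nat_lit 532) (nat_lit 416) (nat_lit 252)) (XT.lf (nat_lit 0) (nat_lit 3562057442347) (nat_lit 76) (nat_lit 3992765748114) (nat_lit 76) (nat_lit 3974171123551) (nat_lit 1) (nat_lit 4) (nat_lit 2) (nat_lit 5) (nat_lit 2) (nat_lit 4) (nat_lit 533) (nat_lit 416) (nat_lit 251))))) (XT.nd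 (nat_lit 312) (nat_lit 0) (nat_lit 0) (XT.nd (nat_lit 156) (nat_lit 0) (nat_lit 0) (XT.nd (nat_lit 78) (nat_lit 0) (nat_lit 0) (XT.lf (nat_lit 0) (nat_lit 4309562027409) (nat_lit 76) (nat_lit 4071249508302) (nat_lit 76) (nat_lit 4052654879531) (nat_lit 1) (nat_lit 4) (nat_lit 2) (nat_lit 5) (nat_lit 2) (nat_lit 4) (nat_lit 534) (nat_lit 416) (nat_lit 250)) (XT.lf (nat_lit 0) (nat_lit 5116866777656) (nat_lit 76) (nat_lit 4156012073681) (nat_lit 76) (nat_lit 4137417441013) (nat_lit 1) (nat_lit 4) (nat_lit 2) (nat_lit 5) (nat_lit 2) (nat_lit 4) (nat_lit 535) (nat_lit 416) (nat_lit 249))) (XT.nd (nat_lit 78) (nat_lit 0) (nat_lit 0) (XT.lf (nat_lit 0) (nat_lit 5988755721238) (nat_lit 76) (nat_lit 4247555740934) (nat_lit 76) (nat_lit 4228961104658) (nat_lit 1) (nat_lit 4) (nat_lit 2) (nat_lit 5) (nat_lit 2) (nat_lit 4) (nat_lit 536) (nat_lit 416) (nat_lit 248)) (XT.lf (nat_lit 0) (nat_lit 6930395607451)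 (nat_lit 76) (nat_lit 4346422991052) (nat_lit 76) (nat_lit 4327828351435) (nat_lit 1) (nat_lit 4) (nat_lit 2) (nat_lit 5) (nat_lit 2) (nat_lit 4) (nat_lit 537) (nat_lit 416) (nat_lit 247)))) (XT.nd (nat_lit 156) (nat_lit 0) (nat_lit 0) (XT.nd (nat_lit 78) (nat_lit 0) (nat_lit 0) (XT.lf (nat_lit 0) (nat_lit 7947366524508) (nat_lit 76) (nat_lit 4453199704036) (nat_lit 76) (nat_lit 4434605061326) (nat_lit 1) (nat_lit 4) (nat_lit 2) (nat_lit 5) (nat_lit 2) (nat_lit 4) (nat_lit 538) (nat_lit 416) (nat_lit 246)) (XT.lf (nat_lit 0) (nat_lit 9045694966733) (nat_lit 76) (nat_lit 4568518630779) (nat_lit 76) (nat_lit 4549923985204) (nat_lit 1) (nat_lit 4) (nat_lit 2) (nat_lit 5) (nat_lit 2) (nat_lit 4) (nat_lit 539) (nat_lit 416) (nat_lit 245))) (XT.nd (nat_lit 78) (nat_lit 0) (nat_lit 0) (XT.lf (nat_lit 0) (nat_lit 10231889547117) (nat_lit 76) (nat_lit 4693063142696) (nat_lit 76) (nat_lit 4674468494469)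 (nat_lit 1) (nat_lit 4) (nat_lit 2) (nat_lit 5) (nat_lit 2) (nat_lit 4) (nat_lit 540) (nat_lit 416) (nat_lit 244)) (XT.lf (nat_lit 0) (nat_lit 11512979566878) (nat_lit 76) (nat_lit 4827571281341) (nat_lit 76) (nat_lit 4808976630659) (nat_lit 1) (nat_lit 4) (nat_lit 2) (nat_lit 5) (nat_lit 2) (nat_lit 4) (nat_lit 541) (nat_lit 416) (nat_lit 243))))))))
noncomputable def xc133 : XT := (XT.nd (nat_lit 54834) (nat_lit 0) (nat_lit 2052) (XT.nd (nat_lit 53742) (nat_lit 0) (nat_lit 4180) (XT.nd (nat_lit 53196) (nat_lit 0) (nat_lit 5700) (XT.nd (nat_lit 52884) (nat_lit 0) (nat_lit 6612) (XT.nd (nat_lit 52728) (nat_lit 0) (nat_lit 6992) (XT.lf (nat_lit 0) (nat_lit 12896556670576) (nat_lit 76) (nat_lit 4972840131980) (nat_lit 76) (nat_lit 4954245479024) (nat_lit 1) (nat_lit 4) (nat_lit 2) (nat_lit 5) (nat_lit 2) (nat_lit 4) (nat_lit 542) (nat_lit 416) (nat_lit 242)) (XT.nd (nat_lit 78) (nat_lit 0)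 (nat_lit 0) (XT.lf (nat_lit 0) (nat_lit 6211282514) (nat_lit 532) (nat_lit 697728576) (nat_lit 532) (nat_lit 697728576) (nat_lit 93) (nat_lit 3) (nat_lit 100) (nat_lit 3) (nat_lit 100) (nat_lit 5) (nat_lit 417) (nat_lit 417) (nat_lit 366)) (XT.lf (nat_lit 76) (nat_lit 6506592351) (nat_lit 0) (nat_lit 6843224673) (nat_lit 532) (nat_lit 2437736994) (nat_lit 94) (nat_lit 5) (nat_lit 93) (nat_lit 3) (nat_lit 100) (nat_lit 5) (nat_lit 418) (nat_lit 417) (nat_lit 365)))) (XT.nd (nat_lit 156) (nat_lit 456) (nat_lit 0) (XT.nd (nat_lit 78) (nat_lit 0) (nat_lit 0) (XT.lf (nat_lit 0) (nat_lit 14379497308) (nat_lit 456) (nat_lit 1320006374) (nat_lit 532) (nat_lit 705794803) (nat_lit 94) (nat_lit 5) (nat_lit 100) (nat_lit 5) (nat_lit 101) (nat_lit 5) (nat_lit 419) (nat_lit 417) (nat_lit 364)) (XT.lf (nat_lit 76) (nat_lit 7456319098) (nat_lit 0) (nat_lit 8366858277) (nat_lit 532) (nat_lit 1222758489)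 (nat_lit 95) (nat_lit 5) (nat_lit 94) (nat_lit 5) (nat_lit 101) (nat_lit 5) (nat_lit 420) (nat_lit 417) (nat_lit 363))) (XT.nd (nat_lit 78) (nat_lit 456) (nat_lit 0) (XT.lf (nat_lit 76) (nat_lit 16993489301) (nat_lit 0) (nat_lit 401000551) (nat_lit 532) (nat_lit 342366475) (nat_lit 95) (nat_lit 5) (nat_lit 94) (nat_lit 5) (nat_lit 101) (nat_lit 5) (nat_lit 421) (nat_lit 417) (nat_lit 362)) (XT.lf (nat_lit 0) (nat_lit 981100025) (nat_lit 532) (nat_lit 9427544667) (nat_lit 608) (nat_lit 8040991302) (nat_lit 88) (nat_lit 5) (nat_lit 95) (nat_lit 5) (nat_lit 96) (nat_lit 5) (nat_lit 422) (nat_lit 417) (nat_lit 361))))) (XT.nd (nat_lit 234) (nat_lit 456) (nat_lit 0) (XT.nd (nat_lit 78) (nat_lit 456) (nat_lit 0) (XT.lf (nat_lit 76) (nat_lit 374380540) (nat_lit 0) (nat_lit 2036517659) (nat_lit 608) (nat_lit 16806314827) (nat_lit 89) (nat_lit 5) (nat_lit 88) (nat_lit 5) (nat_lit 96) (nat_lit 5)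 (nat_lit 423) (nat_lit 417) (nat_lit 360)) (XT.nd (nat_lit 78) (nat_lit 532) (nat_lit 0) (XT.lf (nat_lit 0) (nat_lit 4367930914) (nat_lit 532) (nat_lit 8723132491) (nat_lit 76) (nat_lit 6922107067) (nat_lit 89) (nat_lit 5) (nat_lit 96) (nat_lit 5) (nat_lit 90) (nat_lit 5) (nat_lit 424) (nat_lit 417) (nat_lit 359)) (XT.lf (nat_lit 0) (nat_lit 2248118651) (nat_lit 532) (nat_lit 4321769745) (nat_lit 608) (nat_lit 14295849278) (nat_lit 82) (nat_lit 5) (nat_lit 89) (nat_lit 5) (nat_lit 90) (nat_lit 5) (nat_lit 425) (nat_lit 417) (nat_lit 358)))) (XT.nd (nat_lit 156) (nat_lit 228) (nat_lit 0) (XT.nd (nat_lit 78) (nat_lit 228) (nat_lit 0) (XT.lf (nat_lit 0) (nat_lit 9298914287) (nat_lit 608) (nat_lit 7322865511) (nat_lit 76) (nat_lit 5136659482) (nat_lit 82) (nat_lit 5) (nat_lit 90) (nat_lit 5) (nat_lit 83) (nat_lit 5) (nat_lit 426) (nat_lit 417) (nat_lit 357)) (XT.lf (nat_lit 0) (nat_lit 4995939288)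 (nat_lit 228) (nat_lit 7466410436) (nat_lit 304) (nat_lit 10242922124) (nat_lit 79) (nat_lit 5) (nat_lit 82) (nat_lit 5) (nat_lit 83) (nat_lit 5) (nat_lit 427) (nat_lit 417) (nat_lit 356))) (XT.nd (nat_lit 78) (nat_lit 228) (nat_lit 0) (XT.lf (nat_lit 0) (nat_lit 16126972210) (nat_lit 304) (nat_lit 5076531971) (nat_lit 76) (nat_lit 2504499554) (nat_lit 79) (nat_lit 5) (nat_lit 83) (nat_lit 5) (nat_lit 80) (nat_lit 5) (nat_lit 428) (nat_lit 417) (nat_lit 355)) (XT.lf (nat_lit 0) (nat_lit 8796350183) (nat_lit 228) (nat_lit 11679507930) (nat_lit 304) (nat_lit 4283810140) (nat_lit 76) (nat_lit 5) (nat_lit 79) (nat_lit 5) (nat_lit 80) (nat_lit 5) (nat_lit 429) (nat_lit 417) (nat_lit 354)))))) (XT.nd (nat_lit 546) (nat_lit 608) (nat_lit 0) (XT.nd (nat_lit 234) (nat_lit 380) (nat_lit 0) (XT.nd (nat_lit 78) (nat_lit 532) (nat_lit 0) (XT.lf (nat_lit 0) (nat_lit 24051552213) (nat_lit 228) (nat_lit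 1246188508) (nat_lit 304) (nat_lit 587719796) (nat_lit 76) (nat_lit 5) (nat_lit 79) (nat_lit 5) (nat_lit 80) (nat_lit 5) (nat_lit 430) (nat_lit 417) (nat_lit 353)) (XT.nd (nat_lit 78) (nat_lit 228) (nat_lit 0) (XT.lf (nat_lit 0) (nat_lit 3810018063) (nat_lit 304) (nat_lit 13290540694) (nat_lit 76) (nat_lit 9948109631) (nat_lit 72) (nat_lit 5) (nat_lit 76) (nat_lit 5) (nat_lit 73) (nat_lit 5) (nat_lit 431) (nat_lit 417) (nat_lit 352)) (XT.lf (nat_lit 0) (nat_lit 2458727296) (nat_lit 228) (nat_lit 6199538529) (nat_lit 304) (nat_lit 19635011541) (nat_lit 69) (nat_lit 5) (nat_lit 72) (nat_lit 5) (nat_lit 73) (nat_lit 5) (nat_lit 432) (nat_lit 417) (nat_lit 351)))) (XT.nd (nat_lit 156) (nat_lit 228) (nat_lit 0) (XT.nd (nat_lit 78) (nat_lit 152) (nat_lit 0) (XT.lf (nat_lit 0) (nat_lit 14389193279) (nat_lit 304) (nat_lit 9544772113) (nat_lit 76) (nat_lit 5663905147) (nat_lit 69) (nat_lit 5) (nat_lit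 73) (nat_lit 5) (nat_lit 70) (nat_lit 5) (nat_lit 433) (nat_lit 417) (nat_lit 350)) (XT.lf (nat_lit 0) (nat_lit 8286220875) (nat_lit 152) (nat_lit 12641527414) (nat_lit 228) (nat_lit 10051151595) (nat_lit 67) (nat_lit 5) (nat_lit 69) (nat_lit 5) (nat_lit 70) (nat_lit 5) (nat_lit 434) (nat_lit 417) (nat_lit 349))) (XT.nd (nat_lit 78) (nat_lit 228) (nat_lit 0) (XT.lf (nat_lit 0) (nat_lit 28071453545) (nat_lit 152) (nat_lit 168212013) (nat_lit 228) (nat_lit 4210724705) (nat_lit 67) (nat_lit 5) (nat_lit 69) (nat_lit 5) (nat_lit 70) (nat_lit 5) (nat_lit 435) (nat_lit 417) (nat_lit 348)) (XT.lf (nat_lit 0) (nat_lit 2701334309) (nat_lit 228) (nat_lit 18194039645) (nat_lit 76) (nat_lit 13083448577) (nat_lit 64) (nat_lit 5) (nat_lit 67) (nat_lit 5) (nat_lit 65) (nat_lit 5) (nat_lit 436) (nat_lit 417) (nat_lit 347))))) (XT.nd (nat_lit 234) (nat_lit 304) (nat_lit 0) (XT.nd (nat_lit 78) (nat_lit 152)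 (nat_lit 0) (XT.lf (nat_lit 0) (nat_lit 2167471777) (nat_lit 152) (nat_lit 7940881412) (nat_lit 228) (nat_lit 25498868666) (nat_lit 62) (nat_lit 5) (nat_lit 64) (nat_lit 5) (nat_lit 65) (nat_lit 5) (nat_lit 437) (nat_lit 417) (nat_lit 346)) (XT.nd (nat_lit 78) (nat_lit 152) (nat_lit 0) (XT.lf (nat_lit 0) (nat_lit 18754226912) (nat_lit 228) (nat_lit 12306957369) (nat_lit 76) (nat_lit 6253006051) (nat_lit 62) (nat_lit 5) (nat_lit 65) (nat_lit 5) (nat_lit 63) (nat_lit 5) (nat_lit 438) (nat_lit 417) (nat_lit 345)) (XT.lf (nat_lit 0) (nat_lit 10838446971) (nat_lit 152) (nat_lit 17711368408) (nat_lit 228) (nat_lit 10571257942) (nat_lit 60) (nat_lit 5) (nat_lit 62) (nat_lit 5) (nat_lit 63) (nat_lit 5) (nat_lit 439) (nat_lit 417) (nat_lit 344)))) (XT.nd (nat_lit 156) (nat_lit 152) (nat_lit 0) (XT.nd (nat_lit 78) (nat_lit 152) (nat_lit 0) (XT.lf (nat_lit 0) (nat_lit 36521805955) (nat_lit 152) (nat_lit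 2935193079) (nat_lit 228) (nat_lit 1589272643) (nat_lit 60) (nat_lit 5) (nat_lit 62) (nat_lit 5) (nat_lit 63) (nat_lit 5) (nat_lit 440) (nat_lit 417) (nat_lit 343)) (XT.lf (nat_lit 0) (nat_lit 8559087902) (nat_lit 152) (nat_lit 21371858142) (nat_lit 76) (nat_lit 13110648244) (nat_lit 58) (nat_lit 5) (nat_lit 60) (nat_lit 5) (nat_lit 59) (nat_lit 5) (nat_lit 441) (nat_lit 417) (nat_lit 342))) (XT.nd (nat_lit 78) (nat_lit 0) (nat_lit 0) (XT.lf (nat_lit 0) (nat_lit 5154045697) (nat_lit 152) (nat_lit 14598584186) (nat_lit 228) (nat_lit 25415076930) (nat_lit 56) (nat_lit 5) (nat_lit 58) (nat_lit 5) (nat_lit 59) (nat_lit 5) (nat_lit 442) (nat_lit 417) (nat_lit 341)) (XT.lf (nat_lit 0) (nat_lit 32480539227) (nat_lit 228) (nat_lit 12475368739) (nat_lit 76) (nat_lit 2456890078) (nat_lit 56) (nat_lit 5) (nat_lit 59) (nat_lit 5) (nat_lit 57) (nat_lit 4) (nat_lit 443) (nat_lit 417) (nat_lit 340)))))))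 (XT.nd (nat_lit 1092) (nat_lit 988) (nat_lit 0) (XT.nd (nat_lit 546) (nat_lit 456) (nat_lit 0) (XT.nd (nat_lit 234) (nat_lit 380) (nat_lit 0) (XT.nd (nat_lit 78) (nat_lit 228) (nat_lit 0) (XT.lf (nat_lit 0) (nat_lit 17763028242) (nat_lit 76) (nat_lit 29262829896) (nat_lit 152) (nat_lit 2747704681) (nat_lit 55) (nat_lit 5) (nat_lit 56) (nat_lit 5) (nat_lit 57) (nat_lit 4) (nat_lit 444) (nat_lit 417) (nat_lit 339)) (XT.nd (nat_lit 78) (nat_lit 152) (nat_lit 0) (XT.lf (nat_lit 0) (nat_lit 10233595803) (nat_lit 152) (nat_lit 1437595138) (nat_lit 76) (nat_lit 40604541159) (nat_lit 54) (nat_lit 5) (nat_lit 56) (nat_lit 5) (nat_lit 55) (nat_lit 5) (nat_lit 445) (nat_lit 417) (nat_lit 338)) (XT.lf (nat_lit 0) (nat_lit 25094444501) (nat_lit 228) (nat_lit 21950824508) (nat_lit 76) (nat_lit 7847937381) (nat_lit 52) (nat_lit 5) (nat_lit 55) (nat_lit 5) (nat_lit 53) (nat_lit 4) (nat_lit 446) (nat_lit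 417) (nat_lit 337)))) (XT.nd (nat_lit 156) (nat_lit 304) (nat_lit 0) (XT.nd (nat_lit 78) (nat_lit 0) (nat_lit 0) (XT.lf (nat_lit 0) (nat_lit 12760121880) (nat_lit 76) (nat_lit 29027884464) (nat_lit 152) (nat_lit 15880564949) (nat_lit 51) (nat_lit 5) (nat_lit 52) (nat_lit 5) (nat_lit 53) (nat_lit 4) (nat_lit 447) (nat_lit 417) (nat_lit 336)) (XT.lf (nat_lit 0) (nat_lit 51484997962) (nat_lit 76) (nat_lit 8925928794) (nat_lit 152) (nat_lit 207529009) (nat_lit 51) (nat_lit 5) (nat_lit 52) (nat_lit 5) (nat_lit 53) (nat_lit 4) (nat_lit 448) (nat_lit 417) (nat_lit 335))) (XT.nd (nat_lit 78) (nat_lit 76) (nat_lit 0) (XT.lf (nat_lit 0) (nat_lit 16950384173) (nat_lit 228) (nat_lit 33428134424) (nat_lit 76) (nat_lit 13308252248) (nat_lit 48) (nat_lit 5) (nat_lit 51) (nat_lit 5) (nat_lit 49) (nat_lit 4) (nat_lit 449) (nat_lit 417) (nat_lit 334)) (XT.lf (nat_lit 0) (nat_lit 6406867423) (nat_lit 76) (nat_lit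 29699081146) (nat_lit 152) (nat_lit 30843273136) (nat_lit 47) (nat_lit 5) (nat_lit 48) (nat_lit 5) (nat_lit 49) (nat_lit 4) (nat_lit 450) (nat_lit 417) (nat_lit 333))))) (XT.nd (nat_lit 234) (nat_lit 304) (nat_lit 0) (XT.nd (nat_lit 78) (nat_lit 152) (nat_lit 0) (XT.lf (nat_lit 0) (nat_lit 51319168193) (nat_lit 76) (nat_lit 6383048596) (nat_lit 152) (nat_lit 12697791348) (nat_lit 47) (nat_lit 5) (nat_lit 48) (nat_lit 5) (nat_lit 49) (nat_lit 4) (nat_lit 451) (nat_lit 417) (nat_lit 332)) (XT.nd (nat_lit 78) (nat_lit 0) (nat_lit 0) (XT.lf (nat_lit 0) (nat_lit 7667951893) (nat_lit 152) (nat_lit 47669911841) (nat_lit 76) (nat_lit 18686619173) (nat_lit 45) (nat_lit 5) (nat_lit 47) (nat_lit 5) (nat_lit 46) (nat_lit 4) (nat_lit 452) (nat_lit 417) (nat_lit 331)) (XT.lf (nat_lit 0) (nat_lit 29672609391) (nat_lit 152) (nat_lit 1906524992) (nat_lit 76) (nat_lit 46277743182) (nat_lit 45) (nat_lit 5)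 (nat_lit 47) (nat_lit 5) (nat_lit 46) (nat_lit 4) (nat_lit 453) (nat_lit 417) (nat_lit 330)))) (XT.nd (nat_lit 156) (nat_lit 152) (nat_lit 0) (XT.nd (nat_lit 78) (nat_lit 76) (nat_lit 0) (XT.lf (nat_lit 0) (nat_lit 50010251943) (nat_lit 76) (nat_lit 4625151179) (nat_lit 152) (nat_lit 27264639727) (nat_lit 44) (nat_lit 5) (nat_lit 45) (nat_lit 5) (nat_lit 46) (nat_lit 4) (nat_lit 454) (nat_lit 417) (nat_lit 329)) (XT.lf (nat_lit 0) (nat_lit 20344348642) (nat_lit 76) (nat_lit 62377564824) (nat_lit 76) (nat_lit 3454612575) (nat_lit 43) (nat_lit 4) (nat_lit 44) (nat_lit 5) (nat_lit 44) (nat_lit 4) (nat_lit 455) (nat_lit 417) (nat_lit 328))) (XT.nd (nat_lit 78) (nat_lit 76) (nat_lit 0) (XT.lf (nat_lit 0) (nat_lit 22156455839) (nat_lit 152) (nat_lit 12842155339) (nat_lit 76) (nat_lit 55672905302) (nat_lit 42) (nat_lit 5) (nat_lit 44) (nat_lit 5) (nat_lit 43) (nat_lit 4) (nat_lit 456) (nat_lit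 417) (nat_lit 327)) (XT.lf (nat_lit 0) (nat_lit 46620735713) (nat_lit 76) (nat_lit 4125710143) (nat_lit 152) (nat_lit 44683147993) (nat_lit 41) (nat_lit 5) (nat_lit 42) (nat_lit 5) (nat_lit 43) (nat_lit 4) (nat_lit 457) (nat_lit 417) (nat_lit 326)))))) (XT.nd (nat_lit 546) (nat_lit 532) (nat_lit 0) (XT.nd (nat_lit 234) (nat_lit 228) (nat_lit 0) (XT.nd (nat_lit 78) (nat_lit 152) (nat_lit 0) (XT.lf (nat_lit 0) (nat_lit 10853107957) (nat_lit 76) (nat_lit 72089940378) (nat_lit 76) (nat_lit 17519716110) (nat_lit 40) (nat_lit 4) (nat_lit 41) (nat_lit 5) (nat_lit 41) (nat_lit 4) (nat_lit 458) (nat_lit 417) (nat_lit 325)) (XT.nd (nat_lit 78) (nat_lit 76) (nat_lit 0) (XT.lf (nat_lit 0) (nat_lit 12697504266) (nat_lit 152) (nat_lit 28162819492) (nat_lit 76) (nat_lit 64897782476) (nat_lit 39) (nat_lit 5) (nat_lit 41) (nat_lit 5) (nat_lit 40) (nat_lit 4) (nat_lit 459) (nat_lit 417) (nat_lit 324)) (XT.lf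 (nat_lit 0) (nat_lit 39723690740) (nat_lit 76) (nat_lit 5613074186) (nat_lit 152) (nat_lit 66027811321) (nat_lit 38) (nat_lit 5) (nat_lit 39) (nat_lit 5) (nat_lit 40) (nat_lit 4) (nat_lit 460) (nat_lit 417) (nat_lit 323)))) (XT.nd (nat_lit 156) (nat_lit 76) (nat_lit 0) (XT.nd (nat_lit 78) (nat_lit 152) (nat_lit 0) (XT.lf (nat_lit 0) (nat_lit 82153557755) (nat_lit 152) (nat_lit 3523895243) (nat_lit 0) (nat_lit 31616799631) (nat_lit 38) (nat_lit 5) (nat_lit 40) (nat_lit 4) (nat_lit 38) (nat_lit 4) (nat_lit 461) (nat_lit 417) (nat_lit 322)) (XT.lf (nat_lit 0) (nat_lit 267504581) (nat_lit 152) (nat_lit 49982850708) (nat_lit 76) (nat_lit 73294502409) (nat_lit 36) (nat_lit 5) (nat_lit 38) (nat_lit 5) (nat_lit 37) (nat_lit 4) (nat_lit 462) (nat_lit 417) (nat_lit 321))) (XT.nd (nat_lit 78) (nat_lit 0) (nat_lit 0) (XT.lf (nat_lit 0) (nat_lit 27163374818) (nat_lit 76) (nat_lit 10194775098) (nat_lit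 152) (nat_lit 92804477672) (nat_lit 35) (nat_lit 5) (nat_lit 36) (nat_lit 5) (nat_lit 37) (nat_lit 4) (nat_lit 463) (nat_lit 417) (nat_lit 320)) (XT.lf (nat_lit 0) (nat_lit 79609569408) (nat_lit 152) (nat_lit 24714941252) (nat_lit 0) (nat_lit 32809826659) (nat_lit 35) (nat_lit 5) (nat_lit 37) (nat_lit 4) (nat_lit 35) (nat_lit 4) (nat_lit 464) (nat_lit 417) (nat_lit 319))))) (XT.nd (nat_lit 312) (nat_lit 228) (nat_lit 0) (XT.nd (nat_lit 156) (nat_lit 76) (nat_lit 0) (XT.nd (nat_lit 78) (nat_lit 152) (nat_lit 0) (XT.lf (nat_lit 0) (nat_lit 62696615145) (nat_lit 76) (nat_lit 64313610383) (nat_lit 76) (nat_lit 17512028506) (nat_lit 34) (nat_lit 4) (nat_lit 35) (nat_lit 5) (nat_lit 35) (nat_lit 4) (nat_lit 465) (nat_lit 417) (nat_lit 318)) (XT.lf (nat_lit 0) (nat_lit 5702025104) (nat_lit 76) (nat_lit 19540912336) (nat_lit 152) (nat_lit 127142663547) (nat_lit 32) (nat_lit 5) (nat_lit 33) (nat_lit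 5) (nat_lit 34) (nat_lit 4) (nat_lit 466) (nat_lit 417) (nat_lit 317))) (XT.nd (nat_lit 78) (nat_lit 76) (nat_lit 0) (XT.lf (nat_lit 0) (nat_lit 73457021703) (nat_lit 152) (nat_lit 57026632413) (nat_lit 0) (nat_lit 30119186954) (nat_lit 32) (nat_lit 5) (nat_lit 34) (nat_lit 4) (nat_lit 32) (nat_lit 4) (nat_lit 467) (nat_lit 417) (nat_lit 316)) (XT.lf (nat_lit 0) (nat_lit 41357650640) (nat_lit 76) (nat_lit 85669539849) (nat_lit 76) (nat_lit 42330353286) (nat_lit 31) (nat_lit 4) (nat_lit 32) (nat_lit 5) (nat_lit 32) (nat_lit 4) (nat_lit 468) (nat_lit 417) (nat_lit 315)))) (XT.nd (nat_lit 156) (nat_lit 76) (nat_lit 0) (XT.nd (nat_lit 78) (nat_lit 76) (nat_lit 0) (XT.lf (nat_lit 0) (nat_lit 7363149218) (nat_lit 152) (nat_lit 28025087868) (nat_lit 76) (nat_lit 143284989264) (nat_lit 30) (nat_lit 5) (nat_lit 32) (nat_lit 5) (nat_lit 31) (nat_lit 4) (nat_lit 469) (nat_lit 417) (nat_lit 314)) (XT.lf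 (nat_lit 0) (nat_lit 61273441100) (nat_lit 152) (nat_lit 106028170889) (nat_lit 0) (nat_lit 21142332576) (nat_lit 29) (nat_lit 5) (nat_lit 31) (nat_lit 4) (nat_lit 29) (nat_lit 4) (nat_lit 470) (nat_lit 417) (nat_lit 313))) (XT.nd (nat_lit 78) (nat_lit 0) (nat_lit 0) (XT.lf (nat_lit 0) (nat_lit 3584881812) (nat_lit 76) (nat_lit 117700228154) (nat_lit 76) (nat_lit 77568126006) (nat_lit 28) (nat_lit 4) (nat_lit 29) (nat_lit 5) (nat_lit 29) (nat_lit 4) (nat_lit 471) (nat_lit 417) (nat_lit 312)) (XT.lf (nat_lit 0) (nat_lit 127990981648) (nat_lit 76) (nat_lit 61002812353) (nat_lit 76) (nat_lit 20869790183) (nat_lit 28) (nat_lit 4) (nat_lit 29) (nat_lit 5) (nat_lit 29) (nat_lit 4) (nat_lit 472) (nat_lit 417) (nat_lit 311))))))))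
noncomputable def xc134 : XT := (XT.nd (nat_lit 2184) (nat_lit 532) (nat_lit 0) (XT.nd (nat_lit 1092) (nat_lit 608) (nat_lit 0) (XT.nd (nat_lit 546) (nat_lit 456) (nat_lit 0) (XT.nd (nat_lit 234) (nat_lit 228) (nat_lit 0) (XT.nd (nat_lit 78) (nat_lit 76) (nat_lit 0) (XT.lf (nat_lit 0) (nat_lit 39402187675) (nat_lit 152) (nat_lit 179949160875) (nat_lit 0) (nat_lit 2241193192) (nat_lit 26) (nat_lit 5) (nat_lit 28) (nat_lit 4) (nat_lit 26) (nat_lit 4) (nat_lit 473) (nat_lit 417) (nat_lit 310)) (XT.nd (nat_lit 78) (nat_lit 76) (nat_lit 0) (XT.lf (nat_lit 0) (nat_lit 107246823652) (nat_lit 152) (nat_lit 56574254799) (nat_lit 0) (nat_lit 70085098825) (nat_lit 26) (nat_lit 5) (nat_lit 28) (nat_lit 4) (nat_lit 26) (nat_lit 4) (nat_lit 474) (nat_lit 417) (nat_lit 309)) (XT.lf (nat_lit 0) (nat_lit 80702498862) (nat_lit 76) (nat_lit 101754869428) (nat_lit 76) (nat_lit 64592468358) (nat_lit 25) (nat_lit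 4) (nat_lit 26) (nat_lit 5) (nat_lit 26) (nat_lit 4) (nat_lit 475) (nat_lit 417) (nat_lit 308)))) (XT.nd (nat_lit 156) (nat_lit 76) (nat_lit 0) (XT.nd (nat_lit 78) (nat_lit 76) (nat_lit 0) (XT.lf (nat_lit 0) (nat_lit 3902182158) (nat_lit 152) (nat_lit 29046488331) (nat_lit 76) (nat_lit 228164867258) (nat_lit 24) (nat_lit 5) (nat_lit 26) (nat_lit 5) (nat_lit 25) (nat_lit 4) (nat_lit 476) (nat_lit 417) (nat_lit 307)) (XT.lf (nat_lit 0) (nat_lit 78476041695) (nat_lit 152) (nat_lit 153299636019) (nat_lit 0) (nat_lit 44065294480) (nat_lit 23) (nat_lit 5) (nat_lit 25) (nat_lit 4) (nat_lit 23) (nat_lit 4) (nat_lit 477) (nat_lit 417) (nat_lit 306))) (XT.nd (nat_lit 78) (nat_lit 76) (nat_lit 0) (XT.lf (nat_lit 0) (nat_lit 160684067478) (nat_lit 152) (nat_lit 4656250128) (nat_lit 0) (nat_lit 126272823205) (nat_lit 23) (nat_lit 5) (nat_lit 25) (nat_lit 4) (nat_lit 23) (nat_lit 4) (nat_lit 478) (nat_lit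 417) (nat_lit 305)) (XT.lf (nat_lit 0) (nat_lit 164082188379) (nat_lit 76) (nat_lit 89330539817) (nat_lit 76) (nat_lit 54918835303) (nat_lit 22) (nat_lit 4) (nat_lit 23) (nat_lit 5) (nat_lit 23) (nat_lit 4) (nat_lit 479) (nat_lit 417) (nat_lit 304))))) (XT.nd (nat_lit 234) (nat_lit 228) (nat_lit 0) (XT.nd (nat_lit 78) (nat_lit 76) (nat_lit 0) (XT.lf (nat_lit 0) (nat_lit 20575212240) (nat_lit 76) (nat_lit 5861010308) (nat_lit 152) (nat_lit 299849096830) (nat_lit 20) (nat_lit 5) (nat_lit 21) (nat_lit 5) (nat_lit 22) (nat_lit 4) (nat_lit 480) (nat_lit 417) (nat_lit 303)) (XT.nd (nat_lit 78) (nat_lit 76) (nat_lit 0) (XT.lf (nat_lit 0) (nat_lit 117404017137) (nat_lit 152) (nat_lit 142130963647) (nat_lit 0) (nat_lit 85540567837) (nat_lit 20) (nat_lit 5) (nat_lit 22) (nat_lit 4) (nat_lit 20) (nat_lit 4) (nat_lit 481) (nat_lit 417) (nat_lit 302)) (XT.lf (nat_lit 0) (nat_lit 36188421471) (nat_lit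 76) (nat_lit 180481359345) (nat_lit 76) (nat_lit 148617571756) (nat_lit 19) (nat_lit 4) (nat_lit 20) (nat_lit 5) (nat_lit 20) (nat_lit 4) (nat_lit 482) (nat_lit 417) (nat_lit 301)))) (XT.nd (nat_lit 156) (nat_lit 76) (nat_lit 0) (XT.nd (nat_lit 78) (nat_lit 152) (nat_lit 0) (XT.lf (nat_lit 0) (nat_lit 236852429011) (nat_lit 76) (nat_lit 90908520569) (nat_lit 76) (nat_lit 59044419748) (nat_lit 19) (nat_lit 4) (nat_lit 20) (nat_lit 5) (nat_lit 20) (nat_lit 4) (nat_lit 483) (nat_lit 417) (nat_lit 300)) (XT.lf (nat_lit 0) (nat_lit 37077659082) (nat_lit 152) (nat_lit 365219553580) (nat_lit 0) (nat_lit 7573593480) (nat_lit 17) (nat_lit 5) (nat_lit 19) (nat_lit 4) (nat_lit 17) (nat_lit 4) (nat_lit 484) (nat_lit 417) (nat_lit 299))) (XT.nd (nat_lit 78) (nat_lit 76) (nat_lit 0) (XT.lf (nat_lit 0) (nat_lit 144265436562) (nat_lit 152) (nat_lit 175106960168) (nat_lit 0) (nat_lit 114761122306) (nat_lit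 17) (nat_lit 5) (nat_lit 19) (nat_lit 4) (nat_lit 17) (nat_lit 4) (nat_lit 485) (nat_lit 417) (nat_lit 298)) (XT.lf (nat_lit 0) (nat_lit 31801943930) (nat_lit 76) (nat_lit 228989400438) (nat_lit 76) (nat_lit 199484855948) (nat_lit 16) (nat_lit 4) (nat_lit 17) (nat_lit 5) (nat_lit 17) (nat_lit 4) (nat_lit 486) (nat_lit 417) (nat_lit 297)))))) (XT.nd (nat_lit 546) (nat_lit 228) (nat_lit 0) (XT.nd (nat_lit 234) (nat_lit 228) (nat_lit 0) (XT.nd (nat_lit 78) (nat_lit 152) (nat_lit 0) (XT.lf (nat_lit 0) (nat_lit 265218579619) (nat_lit 76) (nat_lit 126206795082) (nat_lit 76) (nat_lit 96702037412) (nat_lit 16) (nat_lit 4) (nat_lit 17) (nat_lit 5) (nat_lit 17) (nat_lit 4) (nat_lit 487) (nat_lit 417) (nat_lit 296)) (XT.nd (nat_lit 78) (nat_lit 76) (nat_lit 0) (XT.lf (nat_lit 0) (nat_lit 13586291843) (nat_lit 152) (nat_lit 1245468025) (nat_lit 76) (nat_lit 503347569244) (nat_lit 15) (nat_lit 5) (nat_lit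 17) (nat_lit 5) (nat_lit 16) (nat_lit 4) (nat_lit 488) (nat_lit 417) (nat_lit 295)) (XT.lf (nat_lit 0) (nat_lit 136193560006) (nat_lit 152) (nat_lit 304669288680) (nat_lit 0) (nat_lit 108873987943) (nat_lit 14) (nat_lit 5) (nat_lit 16) (nat_lit 4) (nat_lit 14) (nat_lit 4) (nat_lit 489) (nat_lit 417) (nat_lit 294)))) (XT.nd (nat_lit 156) (nat_lit 152) (nat_lit 0) (XT.nd (nat_lit 78) (nat_lit 76) (nat_lit 0) (XT.lf (nat_lit 0) (nat_lit 269028107465) (nat_lit 152) (nat_lit 73048962750) (nat_lit 0) (nat_lit 241708378709) (nat_lit 14) (nat_lit 5) (nat_lit 16) (nat_lit 4) (nat_lit 14) (nat_lit 4) (nat_lit 490) (nat_lit 417) (nat_lit 293)) (XT.lf (nat_lit 0) (nat_lit 186423837475) (nat_lit 76) (nat_lit 230547708210) (nat_lit 76) (nat_lit 203227834367) (nat_lit 13) (nat_lit 4) (nat_lit 14) (nat_lit 5) (nat_lit 14) (nat_lit 4) (nat_lit 491) (nat_lit 417) (nat_lit 292))) (XT.nd (nat_lit 78) (nat_lit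 152) (nat_lit 0) (XT.lf (nat_lit 0) (nat_lit 470806065383) (nat_lit 76) (nat_lit 107940346133) (nat_lit 76) (nat_lit 80620337951) (nat_lit 13) (nat_lit 4) (nat_lit 14) (nat_lit 5) (nat_lit 14) (nat_lit 4) (nat_lit 492) (nat_lit 417) (nat_lit 291)) (XT.lf (nat_lit 0) (nat_lit 51773068633) (nat_lit 152) (nat_lit 623112667558) (nat_lit 0) (nat_lit 26476649586) (nat_lit 11) (nat_lit 5) (nat_lit 13) (nat_lit 4) (nat_lit 11) (nat_lit 4) (nat_lit 493) (nat_lit 417) (nat_lit 290))))) (XT.nd (nat_lit 234) (nat_lit 152) (nat_lit 0) (XT.nd (nat_lit 78) (nat_lit 76) (nat_lit 0) (XT.lf (nat_lit 0) (nat_lit 198494227552) (nat_lit 152) (nat_lit 374210871032) (nat_lit 0) (nat_lit 173197701862) (nat_lit 11) (nat_lit 5) (nat_lit 13) (nat_lit 4) (nat_lit 11) (nat_lit 4) (nat_lit 494) (nat_lit 417) (nat_lit 289)) (XT.nd (nat_lit 78) (nat_lit 76) (nat_lit 0) (XT.lf (nat_lit 0) (nat_lit 356951905318) (nat_lit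 152) (nat_lit 105399355999) (nat_lit 0) (nat_lit 331655280884) (nat_lit 11) (nat_lit 5) (nat_lit 13) (nat_lit 4) (nat_lit 11) (nat_lit 4) (nat_lit 495) (nat_lit 417) (nat_lit 288)) (XT.lf (nat_lit 0) (nat_lit 194652122162) (nat_lit 76) (nat_lit 338114376448) (nat_lit 76) (nat_lit 312817660585) (nat_lit 10) (nat_lit 4) (nat_lit 11) (nat_lit 5) (nat_lit 11) (nat_lit 4) (nat_lit 496) (nat_lit 417) (nat_lit 287)))) (XT.nd (nat_lit 156) (nat_lit 152) (nat_lit 0) (XT.nd (nat_lit 78) (nat_lit 0) (nat_lit 0) (XT.lf (nat_lit 0) (nat_lit 524699684624) (nat_lit 76) (nat_lit 200827320878) (nat_lit 76) (nat_lit 175530520358) (nat_lit 10) (nat_lit 4) (nat_lit 11) (nat_lit 5) (nat_lit 11) (nat_lit 4) (nat_lit 497) (nat_lit 417) (nat_lit 286)) (XT.lf (nat_lit 0) (nat_lit 881149025490) (nat_lit 76) (nat_lit 52558346861) (nat_lit 76) (nat_lit 27261467955) (nat_lit 10) (nat_lit 4) (nat_lit 11) (nat_lit 5)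 (nat_lit 11) (nat_lit 4) (nat_lit 498) (nat_lit 417) (nat_lit 285))) (XT.nd (nat_lit 78) (nat_lit 0) (nat_lit 0) (XT.lf (nat_lit 0) (nat_lit 135053792286) (nat_lit 152) (nat_lit 778026431380) (nat_lit 0) (nat_lit 111630689058) (nat_lit 8) (nat_lit 5) (nat_lit 10) (nat_lit 4) (nat_lit 8) (nat_lit 4) (nat_lit 499) (nat_lit 417) (nat_lit 284)) (XT.lf (nat_lit 0) (nat_lit 312484768170) (nat_lit 152) (nat_lit 491661067068) (nat_lit 0) (nat_lit 289061602717) (nat_lit 8) (nat_lit 5) (nat_lit 10) (nat_lit 4) (nat_lit 8) (nat_lit 4) (nat_lit 500) (nat_lit 417) (nat_lit 283))))))) (XT.nd (nat_lit 1092) (nat_lit 228) (nat_lit 0) (XT.nd (nat_lit 546) (nat_lit 76) (nat_lit 0) (XT.nd (nat_lit 234) (nat_lit 152) (nat_lit 0) (XT.nd (nat_lit 78) (nat_lit 76) (nat_lit 0) (XT.lf (nat_lit 0) (nat_lit 504109360104) (nat_lit 152) (nat_lit 182388257029) (nat_lit 0) (nat_lit 480686137035) (nat_lit 8) (nat_lit 5)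 (nat_lit 10) (nat_lit 4) (nat_lit 8) (nat_lit 4) (nat_lit 501) (nat_lit 417) (nat_lit 282)) (XT.nd (nat_lit 78) (nat_lit 0) (nat_lit 0) (XT.lf (nat_lit 0) (nat_lit 159609015896) (nat_lit 76) (nat_lit 555292706001) (nat_lit 76) (nat_lit 531869429584) (nat_lit 7) (nat_lit 4) (nat_lit 8) (nat_lit 5) (nat_lit 8) (nat_lit 4) (nat_lit 502) (nat_lit 417) (nat_lit 281)) (XT.lf (nat_lit 0) (nat_lit 539337042935) (nat_lit 76) (nat_lit 408206470112) (nat_lit 76) (nat_lit 384783144298) (nat_lit 7) (nat_lit 4) (nat_lit 8) (nat_lit 5) (nat_lit 8) (nat_lit 4) (nat_lit 503) (nat_lit 417) (nat_lit 280)))) (XT.nd (nat_lit 156) (nat_lit 152) (nat_lit 0) (XT.nd (nat_lit 78) (nat_lit 0) (nat_lit 0) (XT.lf (nat_lit 0) (nat_lit 949441821853) (nat_lit 76) (nat_lit 249354105494) (nat_lit 76) (nat_lit 225930733944) (nat_lit 7) (nat_lit 4) (nat_lit 8) (nat_lit 5) (nat_lit 8) (nat_lit 4) (nat_lit 504) (nat_lit 417)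 (nat_lit 279)) (XT.lf (nat_lit 0) (nat_lit 1392353603191) (nat_lit 76) (nat_lit 77794264803) (nat_lit 76) (nat_lit 54370850903) (nat_lit 7) (nat_lit 4) (nat_lit 8) (nat_lit 5) (nat_lit 8) (nat_lit 4) (nat_lit 505) (nat_lit 417) (nat_lit 278))) (XT.nd (nat_lit 78) (nat_lit 0) (nat_lit 0) (XT.lf (nat_lit 0) (nat_lit 133141761705) (nat_lit 152) (nat_lit 1386744979486) (nat_lit 0) (nat_lit 111453379193) (nat_lit 5) (nat_lit 5) (nat_lit 7) (nat_lit 4) (nat_lit 5) (nat_lit 4) (nat_lit 506) (nat_lit 417) (nat_lit 277)) (XT.lf (nat_lit 0) (nat_lit 338445431218) (nat_lit 152) (nat_lit 1090933610407) (nat_lit 0) (nat_lit 316757015088) (nat_lit 5) (nat_lit 5) (nat_lit 7) (nat_lit 4) (nat_lit 5) (nat_lit 4) (nat_lit 507) (nat_lit 417) (nat_lit 276))))) (XT.nd (nat_lit 234) (nat_lit 76) (nat_lit 0) (XT.nd (nat_lit 78) (nat_lit 0) (nat_lit 0) (XT.lf (nat_lit 0) (nat_lit 560172808051) (nat_lit 152) (nat_lit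 771458546003) (nat_lit 0) (nat_lit 538484360793) (nat_lit 5) (nat_lit 5) (nat_lit 7) (nat_lit 4) (nat_lit 5) (nat_lit 4) (nat_lit 508) (nat_lit 417) (nat_lit 275)) (XT.nd (nat_lit 78) (nat_lit 0) (nat_lit 0) (XT.lf (nat_lit 0) (nat_lit 799637832215) (nat_lit 152) (nat_lit 426426600709) (nat_lit 0) (nat_lit 777949356134) (nat_lit 5) (nat_lit 5) (nat_lit 7) (nat_lit 4) (nat_lit 5) (nat_lit 4) (nat_lit 509) (nat_lit 417) (nat_lit 274)) (XT.lf (nat_lit 0) (nat_lit 1058259555705) (nat_lit 152) (nat_lit 53793140774) (nat_lit 0) (nat_lit 1036571052937) (nat_lit 5) (nat_lit 5) (nat_lit 7) (nat_lit 4) (nat_lit 5) (nat_lit 4) (nat_lit 510) (nat_lit 417) (nat_lit 273)))) (XT.nd (nat_lit 156) (nat_lit 0) (nat_lit 0) (XT.nd (nat_lit 78) (nat_lit 0) (nat_lit 0) (XT.lf (nat_lit 0) (nat_lit 367009324910) (nat_lit 76) (nat_lit 979387809877) (nat_lit 76) (nat_lit 957699282399) (nat_lit 4) (nat_lit 4) (nat_lit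 5) (nat_lit 5) (nat_lit 5) (nat_lit 4) (nat_lit 511) (nat_lit 417) (nat_lit 272)) (XT.lf (nat_lit 0) (nat_lit 824534311959) (nat_lit 76) (nat_lit 834521754537) (nat_lit 76) (nat_lit 812833204178) (nat_lit 4) (nat_lit 4) (nat_lit 5) (nat_lit 5) (nat_lit 5) (nat_lit 4) (nat_lit 512) (nat_lit 417) (nat_lit 271))) (XT.nd (nat_lit 78) (nat_lit 0) (nat_lit 0) (XT.lf (nat_lit 0) (nat_lit 1318660428092) (nat_lit 76) (nat_lit 678066864743) (nat_lit 76) (nat_lit 656378293199) (nat_lit 4) (nat_lit 4) (nat_lit 5) (nat_lit 5) (nat_lit 5) (nat_lit 4) (nat_lit 513) (nat_lit 417) (nat_lit 270)) (XT.lf (nat_lit 0) (nat_lit 1852315828070) (nat_lit 76) (nat_lit 509096000409) (nat_lit 76) (nat_lit 487407409249) (nat_lit 4) (nat_lit 4) (nat_lit 5) (nat_lit 5) (nat_lit 5) (nat_lit 4) (nat_lit 514) (nat_lit 417) (nat_lit 269)))))) (XT.nd (nat_lit 546) (nat_lit 76) (nat_lit 0) (XT.nd (nat_lit 234) (nat_lit 0) (nat_lit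 0) (XT.nd (nat_lit 78) (nat_lit 152) (nat_lit 0) (XT.lf (nat_lit 0) (nat_lit 2428662914263) (nat_lit 76) (nat_lit 326607852709) (nat_lit 76) (nat_lit 304919243386) (nat_lit 4) (nat_lit 4) (nat_lit 5) (nat_lit 5) (nat_lit 5) (nat_lit 4) (nat_lit 515) (nat_lit 417) (nat_lit 268)) (XT.nd (nat_lit 78) (nat_lit 152) (nat_lit 0) (XT.lf (nat_lit 0) (nat_lit 3051117076813) (nat_lit 76) (nat_lit 129521010397) (nat_lit 76) (nat_lit 107832384256) (nat_lit 4) (nat_lit 4) (nat_lit 5) (nat_lit 5) (nat_lit 5) (nat_lit 4) (nat_lit 516) (nat_lit 417) (nat_lit 267)) (XT.lf (nat_lit 0) (nat_lit 106663957096) (nat_lit 152) (nat_lit 3341013779074) (nat_lit 0) (nat_lit 86581881436) (nat_lit 2) (nat_lit 5) (nat_lit 4) (nat_lit 4) (nat_lit 2) (nat_lit 4) (nat_lit 517) (nat_lit 417) (nat_lit 266)))) (XT.nd (nat_lit 156) (nat_lit 0) (nat_lit 0) (XT.nd (nat_lit 78) (nat_lit 0) (nat_lit 0) (XT.lf (nat_lit 0) (nat_lit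 342516346810) (nat_lit 152) (nat_lit 3133735456284) (nat_lit 0) (nat_lit 322434257800) (nat_lit 2) (nat_lit 5) (nat_lit 4) (nat_lit 4) (nat_lit 2) (nat_lit 4) (nat_lit 518) (nat_lit 417) (nat_lit 265)) (XT.lf (nat_lit 0) (nat_lit 597236634608) (nat_lit 152) (nat_lit 2909875475249) (nat_lit 0) (nat_lit 577154533237) (nat_lit 2) (nat_lit 5) (nat_lit 4) (nat_lit 4) (nat_lit 2) (nat_lit 4) (nat_lit 519) (nat_lit 417) (nat_lit 264))) (XT.nd (nat_lit 78) (nat_lit 0) (nat_lit 0) (XT.lf (nat_lit 0) (nat_lit 872334274047) (nat_lit 152) (nat_lit 2668107258303) (nat_lit 0) (nat_lit 852252161230) (nat_lit 2) (nat_lit 5) (nat_lit 4) (nat_lit 4) (nat_lit 2) (nat_lit 4) (nat_lit 520) (nat_lit 417) (nat_lit 263)) (XT.lf (nat_lit 0) (nat_lit 1169439473360) (nat_lit 152) (nat_lit 2406998104901) (nat_lit 0) (nat_lit 1149357349945) (nat_lit 2) (nat_lit 5) (nat_lit 4) (nat_lit 4) (nat_lit 2) (nat_lit 4) (nat_lit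 521) (nat_lit 417) (nat_lit 262))))) (XT.nd (nat_lit 312) (nat_lit 76) (nat_lit 0) (XT.nd (nat_lit 156) (nat_lit 0) (nat_lit 0) (XT.nd (nat_lit 78) (nat_lit 0) (nat_lit 0) (XT.lf (nat_lit 0) (nat_lit 1490312855952) (nat_lit 152) (nat_lit 2125000701542) (nat_lit 0) (nat_lit 1470230722724) (nat_lit 2) (nat_lit 5) (nat_lit 4) (nat_lit 4) (nat_lit 2) (nat_lit 4) (nat_lit 522) (nat_lit 417) (nat_lit 261)) (XT.lf (nat_lit 0) (nat_lit 1836855893719) (nat_lit 152) (nat_lit 1820443952502) (nat_lit 0) (nat_lit 1816773751405) (nat_lit 2) (nat_lit 5) (nat_lit 4) (nat_lit 4) (nat_lit 2) (nat_lit 4) (nat_lit 523) (nat_lit 417) (nat_lit 260))) (XT.nd (nat_lit 78) (nat_lit 0) (nat_lit 0) (XT.lf (nat_lit 0) (nat_lit 2211122175032) (nat_lit 152) (nat_lit 1491523077046) (nat_lit 0) (nat_lit 2191040024306) (nat_lit 2) (nat_lit 5) (nat_lit 4) (nat_lit 4) (nat_lit 2) (nat_lit 4) (nat_lit 524) (nat_lit 417) (nat_lit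 259)) (XT.lf (nat_lit 0) (nat_lit 2615329574153) (nat_lit 152) (nat_lit 1136288914430) (nat_lit 0) (nat_lit 2595247415636) (nat_lit 2) (nat_lit 5) (nat_lit 4) (nat_lit 4) (nat_lit 2) (nat_lit 4) (nat_lit 525) (nat_lit 417) (nat_lit 258)))) (XT.nd (nat_lit 156) (nat_lit 76) (nat_lit 0) (XT.nd (nat_lit 78) (nat_lit 0) (nat_lit 0) (XT.lf (nat_lit 0) (nat_lit 3051873394185) (nat_lit 152) (nat_lit 752636373321) (nat_lit 0) (nat_lit 3031791228456) (nat_lit 2) (nat_lit 5) (nat_lit 4) (nat_lit 4) (nat_lit 2) (nat_lit 4) (nat_lit 526) (nat_lit 417) (nat_lit 257)) (XT.lf (nat_lit 0) (nat_lit 3523340561471) (nat_lit 152) (nat_lit 338291957178) (nat_lit 0) (nat_lit 3503258389063) (nat_lit 2) (nat_lit 5) (nat_lit 4) (nat_lit 4) (nat_lit 2) (nat_lit 4) (nat_lit 527) (nat_lit 417) (nat_lit 256))) (XT.nd (nat_lit 78) (nat_lit 0) (nat_lit 0) (XT.lf (nat_lit 0) (nat_lit 114949971436) (nat_lit 76) (nat_lit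 3920339533661) (nat_lit 76) (nat_lit 3900257355070) (nat_lit 1) (nat_lit 4) (nat_lit 2) (nat_lit 5) (nat_lit 2) (nat_lit 4) (nat_lit 528) (nat_lit 417) (nat_lit 255)) (XT.lf (nat_lit 0) (nat_lit 623689921452) (nat_lit 76) (nat_lit 3973753801492) (nat_lit 76) (nat_lit 3953671617175) (nat_lit 1) (nat_lit 4) (nat_lit 2) (nat_lit 5) (nat_lit 2) (nat_lit 4) (nat_lit 529) (nat_lit 417) (nat_lit 254))))))))
noncomputable def xc135 : XT := (XT.nd (nat_lit 54912) (nat_lit 0) (nat_lit 2812) (XT.nd (nat_lit 53820) (nat_lit 0) (nat_lit 5396) (XT.nd (nat_lit 546) (nat_lit 0) (nat_lit 0) (XT.nd (nat_lit 234) (nat_lit 0) (nat_lit 0) (XT.nd (nat_lit 78) (nat_lit 0) (nat_lit 0) (XT.lf (nat_lit 0) (nat_lit 1173128793168) (nat_lit 76) (nat_lit 4031441352751) (nat_lit 76) (nat_lit 4011359163133) (nat_lit 1) (nat_lit 4) (nat_lit 2) (nat_lit 5) (nat_lit 2) (nat_lit 4) (nat_lit 530) (nat_lit 417) (nat_lit 253))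 (XT.nd (nat_lit 78) (nat_lit 0) (nat_lit 0) (XT.lf (nat_lit 0) (nat_lit 1766522520639) (nat_lit 76) (nat_lit 4093744039594) (nat_lit 76) (nat_lit 4073661845066) (nat_lit 1) (nat_lit 4) (nat_lit 2) (nat_lit 5) (nat_lit 2) (nat_lit 4) (nat_lit 531) (nat_lit 417) (nat_lit 252)) (XT.lf (nat_lit 0) (nat_lit 2407387511138) (nat_lit 76) (nat_lit 4161031063128) (nat_lit 76) (nat_lit 4140948864055) (nat_lit 1) (nat_lit 4) (nat_lit 2) (nat_lit 5) (nat_lit 2) (nat_lit 4) (nat_lit 532) (nat_lit 417) (nat_lit 251)))) (XT.nd (nat_lit 156) (nat_lit 0) (nat_lit 0) (XT.nd (nat_lit 78) (nat_lit 0) (nat_lit 0) (XT.lf (nat_lit 0) (nat_lit 3099521483128) (nat_lit 76) (nat_lit 4233701161270) (nat_lit 76) (nat_lit 4213618957988) (nat_lit 1) (nat_lit 4) (nat_lit 2) (nat_lit 5) (nat_lit 2) (nat_lit 4) (nat_lit 533) (nat_lit 417) (nat_lit 250)) (XT.lf (nat_lit 0) (nat_lit 3847025971257) (nat_lit 76) (nat_lit 4312184971639)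 (nat_lit 76) (nat_lit 4292102764460) (nat_lit 1) (nat_lit 4) (nat_lit 2) (nat_lit 5) (nat_lit 2) (nat_lit 4) (nat_lit 534) (nat_lit 417) (nat_lit 249))) (XT.nd (nat_lit 78) (nat_lit 0) (nat_lit 0) (XT.lf (nat_lit 0) (nat_lit 4654330631752) (nat_lit 76) (nat_lit 4396947583481) (nat_lit 76) (nat_lit 4376865372694) (nat_lit 1) (nat_lit 4) (nat_lit 2) (nat_lit 5) (nat_lit 2) (nat_lit 4) (nat_lit 535) (nat_lit 417) (nat_lit 248)) (XT.lf (nat_lit 0) (nat_lit 5526219492230) (nat_lit 76) (nat_lit 4488491293755) (nat_lit 76) (nat_lit 4468409079628) (nat_lit 1) (nat_lit 4) (nat_lit 2) (nat_lit 5) (nat_lit 2) (nat_lit 4) (nat_lit 536) (nat_lit 417) (nat_lit 247))))) (XT.nd (nat_lit 234) (nat_lit 0) (nat_lit 0) (XT.nd (nat_lit 78) (nat_lit 0) (nat_lit 0) (XT.lf (nat_lit 0) (nat_lit 6467859301494) (nat_lit 76) (nat_lit 4587358583708) (nat_lit 76) (nat_lit 4567276366488) (nat_lit 1) (nat_lit 4) (nat_lit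 2) (nat_lit 5) (nat_lit 2) (nat_lit 4) (nat_lit 537) (nat_lit 417) (nat_lit 246)) (XT.nd (nat_lit 78) (nat_lit 0) (nat_lit 0) (XT.lf (nat_lit 0) (nat_lit 7484830147303) (nat_lit 76) (nat_lit 4694135333577) (nat_lit 76) (nat_lit 4674053113492) (nat_lit 1) (nat_lit 4) (nat_lit 2) (nat_lit 5) (nat_lit 2) (nat_lit 4) (nat_lit 538) (nat_lit 417) (nat_lit 245)) (XT.lf (nat_lit 0) (nat_lit 8583158523558) (nat_lit 76) (nat_lit 4809454294471) (nat_lit 76) (nat_lit 4789372071734) (nat_lit 1) (nat_lit 4) (nat_lit 2) (nat_lit 5) (nat_lit 2) (nat_lit 4) (nat_lit 539) (nat_lit 417) (nat_lit 244)))) (XT.nd (nat_lit 156) (nat_lit 0) (nat_lit 0) (XT.nd (nat_lit 78) (nat_lit 0) (nat_lit 0) (XT.lf (nat_lit 0) (nat_lit 9769353042858) (nat_lit 76) (nat_lit 4933998838011) (nat_lit 76) (nat_lit 4913916612818) (nat_lit 1) (nat_lit 4) (nat_lit 2) (nat_lit 5) (nat_lit 2) (nat_lit 4) (nat_lit 540) (nat_lit 417) (nat_lit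 243)) (XT.lf (nat_lit 0) (nat_lit 11050443006059) (nat_lit 76) (nat_lit 5068507005936) (nat_lit 76) (nat_lit 5048424778469) (nat_lit 1) (nat_lit 4) (nat_lit 2) (nat_lit 5) (nat_lit 2) (nat_lit 4) (nat_lit 541) (nat_lit 417) (nat_lit 242))) (XT.nd (nat_lit 52806) (nat_lit 0) (nat_lit 6992) (XT.lf (nat_lit 0) (nat_lit 12434020057388) (nat_lit 76) (nat_lit 5213775883686) (nat_lit 76) (nat_lit 5193693654114) (nat_lit 1) (nat_lit 4) (nat_lit 2) (nat_lit 5) (nat_lit 2) (nat_lit 4) (nat_lit 542) (nat_lit 417) (nat_lit 241)) (XT.lf (nat_lit 0) (nat_lit 6975464331) (nat_lit 532) (nat_lit 609198257) (nat_lit 532) (nat_lit 609198257) (nat_lit 93) (nat_lit 3) (nat_lit 100) (nat_lit 3) (nat_lit 100) (nat_lit 5) (nat_lit 418) (nat_lit 418) (nat_lit 364)))))) (XT.nd (nat_lit 546) (nat_lit 1140) (nat_lit 0) (XT.nd (nat_lit 234) (nat_lit 456) (nat_lit 0) (XT.nd (nat_lit 78) (nat_lit 0) (nat_lit 76) (XT.lf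 (nat_lit 76) (nat_lit 7308508159) (nat_lit 0) (nat_lit 7611023136) (nat_lit 532) (nat_lit 2090822700) (nat_lit 94) (nat_lit 5) (nat_lit 93) (nat_lit 3) (nat_lit 100) (nat_lit 5) (nat_lit 419) (nat_lit 418) (nat_lit 363)) (XT.nd (nat_lit 78) (nat_lit 0) (nat_lit 0) (XT.lf (nat_lit 0) (nat_lit 15989514236) (nat_lit 456) (nat_lit 1122929145) (nat_lit 532) (nat_lit 568445270) (nat_lit 94) (nat_lit 5) (nat_lit 100) (nat_lit 5) (nat_lit 101) (nat_lit 5) (nat_lit 420) (nat_lit 418) (nat_lit 362)) (XT.lf (nat_lit 76) (nat_lit 8347839637) (nat_lit 0) (nat_lit 9173895513) (nat_lit 532) (nat_lit 853202685) (nat_lit 95) (nat_lit 5) (nat_lit 94) (nat_lit 5) (nat_lit 101) (nat_lit 5) (nat_lit 421) (nat_lit 418) (nat_lit 361)))) (XT.nd (nat_lit 156) (nat_lit 0) (nat_lit 76) (XT.nd (nat_lit 78) (nat_lit 0) (nat_lit 76) (XT.lf (nat_lit 0) (nat_lit 59848682) (nat_lit 532) (nat_lit 499084964) (nat_lit 608)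 (nat_lit 18564645440) (nat_lit 87) (nat_lit 5) (nat_lit 94) (nat_lit 5) (nat_lit 95) (nat_lit 5) (nat_lit 422) (nat_lit 418) (nat_lit 360)) (XT.lf (nat_lit 0) (nat_lit 1444746057) (nat_lit 532) (nat_lit 9860894748) (nat_lit 608) (nat_lit 8589108487) (nat_lit 88) (nat_lit 5) (nat_lit 95) (nat_lit 5) (nat_lit 96) (nat_lit 5) (nat_lit 423) (nat_lit 418) (nat_lit 359))) (XT.nd (nat_lit 78) (nat_lit 0) (nat_lit 76) (XT.lf (nat_lit 76) (nat_lit 717061603) (nat_lit 0) (nat_lit 2250857438) (nat_lit 608) (nat_lit 17757497499) (nat_lit 89) (nat_lit 5) (nat_lit 88) (nat_lit 5) (nat_lit 96) (nat_lit 5) (nat_lit 424) (nat_lit 418) (nat_lit 358)) (XT.lf (nat_lit 0) (nat_lit 5053395361) (nat_lit 532) (nat_lit 9103260163) (nat_lit 76) (nat_lit 7430647660) (nat_lit 89) (nat_lit 5) (nat_lit 96) (nat_lit 5) (nat_lit 90) (nat_lit 5) (nat_lit 425) (nat_lit 418) (nat_lit 357))))) (XT.nd (nat_lit 234) (nat_lit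 532) (nat_lit 0) (XT.nd (nat_lit 78) (nat_lit 228) (nat_lit 0) (XT.lf (nat_lit 0) (nat_lit 2737647452) (nat_lit 532) (nat_lit 4676418675) (nat_lit 608) (nat_lit 15095407953) (nat_lit 82) (nat_lit 5) (nat_lit 89) (nat_lit 5) (nat_lit 90) (nat_lit 5) (nat_lit 426) (nat_lit 418) (nat_lit 356)) (XT.nd (nat_lit 78) (nat_lit 228) (nat_lit 0) (XT.lf (nat_lit 0) (nat_lit 10337616724) (nat_lit 608) (nat_lit 7598124254) (nat_lit 76) (nat_lit 5539757270) (nat_lit 82) (nat_lit 5) (nat_lit 90) (nat_lit 5) (nat_lit 83) (nat_lit 5) (nat_lit 427) (nat_lit 418) (nat_lit 355)) (XT.lf (nat_lit 0) (nat_lit 5698322385) (nat_lit 228) (nat_lit 8041248500) (nat_lit 304) (nat_lit 10759673471) (nat_lit 79) (nat_lit 5) (nat_lit 82) (nat_lit 5) (nat_lit 83) (nat_lit 5) (nat_lit 428) (nat_lit 418) (nat_lit 354)))) (XT.nd (nat_lit 156) (nat_lit 304) (nat_lit 0) (XT.nd (nat_lit 78) (nat_lit 228) (nat_lit 0) (XT.lf (nat_lit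 0) (nat_lit 17677105638) (nat_lit 304) (nat_lit 5182083534) (nat_lit 76) (nat_lit 2724628492) (nat_lit 79) (nat_lit 5) (nat_lit 83) (nat_lit 5) (nat_lit 80) (nat_lit 5) (nat_lit 429) (nat_lit 418) (nat_lit 353)) (XT.lf (nat_lit 0) (nat_lit 9793019800) (nat_lit 228) (nat_lit 12568670890) (nat_lit 304) (nat_lit 4358903687) (nat_lit 76) (nat_lit 5) (nat_lit 79) (nat_lit 5) (nat_lit 80) (nat_lit 5) (nat_lit 430) (nat_lit 418) (nat_lit 352))) (XT.nd (nat_lit 78) (nat_lit 304) (nat_lit 0) (XT.lf (nat_lit 0) (nat_lit 26246937133) (nat_lit 228) (nat_lit 1304033890) (nat_lit 304) (nat_lit 386949172) (nat_lit 76) (nat_lit 5) (nat_lit 79) (nat_lit 5) (nat_lit 80) (nat_lit 5) (nat_lit 431) (nat_lit 418) (nat_lit 351)) (XT.lf (nat_lit 0) (nat_lit 4340673570) (nat_lit 304) (nat_lit 14060545764) (nat_lit 76) (nat_lit 10793253385) (nat_lit 72) (nat_lit 5) (nat_lit 76) (nat_lit 5) (nat_lit 73) (nat_lit 5)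 (nat_lit 432) (nat_lit 418) (nat_lit 350))))))) (XT.nd (nat_lit 1092) (nat_lit 1216) (nat_lit 0) (XT.nd (nat_lit 546) (nat_lit 608) (nat_lit 0) (XT.nd (nat_lit 234) (nat_lit 380) (nat_lit 0) (XT.nd (nat_lit 78) (nat_lit 152) (nat_lit 0) (XT.lf (nat_lit 0) (nat_lit 2941239914) (nat_lit 228) (nat_lit 6625685153) (nat_lit 304) (nat_lit 20972515377) (nat_lit 69) (nat_lit 5) (nat_lit 72) (nat_lit 5) (nat_lit 73) (nat_lit 5) (nat_lit 433) (nat_lit 418) (nat_lit 349)) (XT.nd (nat_lit 78) (nat_lit 152) (nat_lit 0) (XT.lf (nat_lit 0) (nat_lit 15741881577) (nat_lit 304) (nat_lit 10029247902) (nat_lit 76) (nat_lit 6178428630) (nat_lit 69) (nat_lit 5) (nat_lit 73) (nat_lit 5) (nat_lit 70) (nat_lit 5) (nat_lit 434) (nat_lit 418) (nat_lit 348)) (XT.lf (nat_lit 0) (nat_lit 9221158551) (nat_lit 152) (nat_lit 13573975167) (nat_lit 228) (nat_lit 10646608388) (nat_lit 67) (nat_lit 5) (nat_lit 69) (nat_lit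 5) (nat_lit 70) (nat_lit 5) (nat_lit 435) (nat_lit 418) (nat_lit 347)))) (XT.nd (nat_lit 156) (nat_lit 152) (nat_lit 0) (XT.nd (nat_lit 78) (nat_lit 228) (nat_lit 0) (XT.lf (nat_lit 0) (nat_lit 30569058723) (nat_lit 152) (nat_lit 108637085) (nat_lit 228) (nat_lit 4354401817) (nat_lit 67) (nat_lit 5) (nat_lit 69) (nat_lit 5) (nat_lit 70) (nat_lit 5) (nat_lit 436) (nat_lit 418) (nat_lit 346)) (XT.lf (nat_lit 0) (nat_lit 3095393101) (nat_lit 228) (nat_lit 19382417821) (nat_lit 76) (nat_lit 14205068130) (nat_lit 64) (nat_lit 5) (nat_lit 67) (nat_lit 5) (nat_lit 65) (nat_lit 5) (nat_lit 437) (nat_lit 418) (nat_lit 345))) (XT.nd (nat_lit 78) (nat_lit 0) (nat_lit 0) (XT.lf (nat_lit 0) (nat_lit 2601251351) (nat_lit 152) (nat_lit 8486802698) (nat_lit 228) (nat_lit 27354050801) (nat_lit 62) (nat_lit 5) (nat_lit 64) (nat_lit 5) (nat_lit 65) (nat_lit 5) (nat_lit 438) (nat_lit 418) (nat_lit 344)) (XT.lf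 (nat_lit 0) (nat_lit 20414918264) (nat_lit 228) (nat_lit 13039729019) (nat_lit 76) (nat_lit 6831838773) (nat_lit 62) (nat_lit 5) (nat_lit 65) (nat_lit 5) (nat_lit 63) (nat_lit 5) (nat_lit 439) (nat_lit 418) (nat_lit 343))))) (XT.nd (nat_lit 234) (nat_lit 304) (nat_lit 0) (XT.nd (nat_lit 78) (nat_lit 152) (nat_lit 0) (XT.lf (nat_lit 0) (nat_lit 11950933366) (nat_lit 152) (nat_lit 19037244560) (nat_lit 228) (nat_lit 11250220663) (nat_lit 60) (nat_lit 5) (nat_lit 62) (nat_lit 5) (nat_lit 63) (nat_lit 5) (nat_lit 440) (nat_lit 418) (nat_lit 342)) (XT.nd (nat_lit 78) (nat_lit 152) (nat_lit 0) (XT.lf (nat_lit 0) (nat_lit 39670782503) (nat_lit 152) (nat_lit 3085718413) (nat_lit 228) (nat_lit 1562027497) (nat_lit 60) (nat_lit 5) (nat_lit 62) (nat_lit 5) (nat_lit 63) (nat_lit 5) (nat_lit 441) (nat_lit 418) (nat_lit 341)) (XT.lf (nat_lit 0) (nat_lit 9387232045) (nat_lit 152) (nat_lit 22843387682)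 (nat_lit 76) (nat_lit 14242820469) (nat_lit 58) (nat_lit 5) (nat_lit 60) (nat_lit 5) (nat_lit 59) (nat_lit 5) (nat_lit 442) (nat_lit 418) (nat_lit 340)))) (XT.nd (nat_lit 156) (nat_lit 152) (nat_lit 0) (XT.nd (nat_lit 78) (nat_lit 0) (nat_lit 0) (XT.lf (nat_lit 0) (nat_lit 5798557600) (nat_lit 152) (nat_lit 15672660429) (nat_lit 228) (nat_lit 27298827456) (nat_lit 56) (nat_lit 5) (nat_lit 58) (nat_lit 5) (nat_lit 59) (nat_lit 5) (nat_lit 443) (nat_lit 418) (nat_lit 339)) (XT.lf (nat_lit 0) (nat_lit 35209198939) (nat_lit 228) (nat_lit 13250240852) (nat_lit 76) (nat_lit 2735957684) (nat_lit 56) (nat_lit 5) (nat_lit 59) (nat_lit 5) (nat_lit 57) (nat_lit 4) (nat_lit 444) (nat_lit 418) (nat_lit 338))) (XT.nd (nat_lit 78) (nat_lit 76) (nat_lit 0) (XT.lf (nat_lit 0) (nat_lit 19401578334) (nat_lit 76) (nat_lit 31512150426) (nat_lit 152) (nat_lit 2831648366) (nat_lit 55) (nat_lit 5) (nat_lit 56)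 (nat_lit 5) (nat_lit 57) (nat_lit 4) (nat_lit 445) (nat_lit 418) (nat_lit 337)) (XT.lf (nat_lit 0) (nat_lit 11171798085) (nat_lit 152) (nat_lit 1344907555) (nat_lit 76) (nat_lit 43931518234) (nat_lit 54) (nat_lit 5) (nat_lit 56) (nat_lit 5) (nat_lit 55) (nat_lit 5) (nat_lit 446) (nat_lit 418) (nat_lit 336)))))) (XT.nd (nat_lit 546) (nat_lit 532) (nat_lit 0) (XT.nd (nat_lit 234) (nat_lit 456) (nat_lit 0) (XT.nd (nat_lit 78) (nat_lit 76) (nat_lit 0) (XT.lf (nat_lit 0) (nat_lit 27219620472) (nat_lit 228) (nat_lit 23497295858) (nat_lit 76) (nat_lit 8558331731) (nat_lit 52) (nat_lit 5) (nat_lit 55) (nat_lit 5) (nat_lit 53) (nat_lit 4) (nat_lit 447) (nat_lit 418) (nat_lit 335)) (XT.nd (nat_lit 78) (nat_lit 0) (nat_lit 0) (XT.lf (nat_lit 0) (nat_lit 13985220049) (nat_lit 76) (nat_lit 31259647731) (nat_lit 152) (nat_lit 17028078719) (nat_lit 51) (nat_lit 5) (nat_lit 52) (nat_lit 5) (nat_lit 53)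 (nat_lit 4) (nat_lit 448) (nat_lit 418) (nat_lit 334)) (XT.lf (nat_lit 0) (nat_lit 55792953742) (nat_lit 76) (nat_lit 9556236903) (nat_lit 152) (nat_lit 110305936) (nat_lit 51) (nat_lit 5) (nat_lit 52) (nat_lit 5) (nat_lit 53) (nat_lit 4) (nat_lit 449) (nat_lit 418) (nat_lit 333)))) (XT.nd (nat_lit 156) (nat_lit 152) (nat_lit 0) (XT.nd (nat_lit 78) (nat_lit 76) (nat_lit 0) (XT.lf (nat_lit 0) (nat_lit 18413153995) (nat_lit 228) (nat_lit 35906134965) (nat_lit 76) (nat_lit 14453880597) (nat_lit 48) (nat_lit 5) (nat_lit 51) (nat_lit 5) (nat_lit 49) (nat_lit 4) (nat_lit 450) (nat_lit 418) (nat_lit 332)) (XT.lf (nat_lit 0) (nat_lit 7110698670) (nat_lit 76) (nat_lit 31987158607) (nat_lit 152) (nat_lit 33199023994) (nat_lit 47) (nat_lit 5) (nat_lit 48) (nat_lit 5) (nat_lit 49) (nat_lit 4) (nat_lit 451) (nat_lit 418) (nat_lit 331))) (XT.nd (nat_lit 78) (nat_lit 152) (nat_lit 0) (XT.lf (nat_lit 0)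 (nat_lit 55601814476) (nat_lit 76) (nat_lit 6812350789) (nat_lit 152) (nat_lit 13610178551) (nat_lit 47) (nat_lit 5) (nat_lit 48) (nat_lit 5) (nat_lit 49) (nat_lit 4) (nat_lit 452) (nat_lit 418) (nat_lit 330)) (XT.lf (nat_lit 0) (nat_lit 8378626475) (nat_lit 152) (nat_lit 51300188433) (nat_lit 76) (nat_lit 20259844742) (nat_lit 45) (nat_lit 5) (nat_lit 47) (nat_lit 5) (nat_lit 46) (nat_lit 4) (nat_lit 453) (nat_lit 418) (nat_lit 329))))) (XT.nd (nat_lit 312) (nat_lit 304) (nat_lit 0) (XT.nd (nat_lit 156) (nat_lit 152) (nat_lit 0) (XT.nd (nat_lit 78) (nat_lit 76) (nat_lit 0) (XT.lf (nat_lit 0) (nat_lit 32136453727) (nat_lit 152) (nat_lit 1889309625) (nat_lit 76) (nat_lit 50052458966) (nat_lit 45) (nat_lit 5) (nat_lit 47) (nat_lit 5) (nat_lit 46) (nat_lit 4) (nat_lit 454) (nat_lit 418) (nat_lit 328)) (XT.lf (nat_lit 0) (nat_lit 54176512316) (nat_lit 76) (nat_lit 4917068179) (nat_lit 152) (nat_lit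 29351475760) (nat_lit 44) (nat_lit 5) (nat_lit 45) (nat_lit 5) (nat_lit 46) (nat_lit 4) (nat_lit 455) (nat_lit 418) (nat_lit 327))) (XT.nd (nat_lit 78) (nat_lit 76) (nat_lit 0) (XT.lf (nat_lit 0) (nat_lit 22138130812) (nat_lit 76) (nat_lit 67288147848) (nat_lit 76) (nat_lit 3637438262) (nat_lit 43) (nat_lit 4) (nat_lit 44) (nat_lit 5) (nat_lit 44) (nat_lit 4) (nat_lit 456) (nat_lit 418) (nat_lit 326)) (XT.lf (nat_lit 0) (nat_lit 24011253699) (nat_lit 152) (nat_lit 13711272431) (nat_lit 76) (nat_lit 60196127242) (nat_lit 42) (nat_lit 5) (nat_lit 44) (nat_lit 5) (nat_lit 43) (nat_lit 4) (nat_lit 457) (nat_lit 418) (nat_lit 325)))) (XT.nd (nat_lit 156) (nat_lit 152) (nat_lit 0) (XT.nd (nat_lit 78) (nat_lit 76) (nat_lit 0) (XT.lf (nat_lit 0) (nat_lit 50504643441) (nat_lit 76) (nat_lit 4381414247) (nat_lit 152) (nat_lit 48171510203) (nat_lit 41) (nat_lit 5) (nat_lit 42) (nat_lit 5) (nat_lit 43)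 (nat_lit 4) (nat_lit 458) (nat_lit 418) (nat_lit 324)) (XT.lf (nat_lit 0) (nat_lit 11876189123) (nat_lit 76) (nat_lit 77781660460) (nat_lit 76) (nat_lit 18835585785) (nat_lit 40) (nat_lit 4) (nat_lit 41) (nat_lit 5) (nat_lit 41) (nat_lit 4) (nat_lit 459) (nat_lit 418) (nat_lit 323))) (XT.nd (nat_lit 78) (nat_lit 76) (nat_lit 0) (XT.lf (nat_lit 0) (nat_lit 13788693655) (nat_lit 152) (nat_lit 30268510337) (nat_lit 76) (nat_lit 70155518209) (nat_lit 39) (nat_lit 5) (nat_lit 41) (nat_lit 5) (nat_lit 40) (nat_lit 4) (nat_lit 460) (nat_lit 418) (nat_lit 322)) (XT.lf (nat_lit 0) (nat_lit 43045190721) (nat_lit 76) (nat_lit 5991773771) (nat_lit 152) (nat_lit 71230915882) (nat_lit 38) (nat_lit 5) (nat_lit 39) (nat_lit 5) (nat_lit 40) (nat_lit 4) (nat_lit 461) (nat_lit 418) (nat_lit 321))))))))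
noncomputable def xc136 : XT := (XT.nd (nat_lit 2184) (nat_lit 836) (nat_lit 0) (XT.nd (nat_lit 1092) (nat_lit 836) (nat_lit 0) (XT.nd (nat_lit 546) (nat_lit 456) (nat_lit 0) (XT.nd (nat_lit 234) (nat_lit 228) (nat_lit 0) (XT.nd (nat_lit 78) (nat_lit 228) (nat_lit 0) (XT.lf (nat_lit 0) (nat_lit 88795240711) (nat_lit 152) (nat_lit 3668978285) (nat_lit 0) (nat_lit 34208020769) (nat_lit 38) (nat_lit 5) (nat_lit 40) (nat_lit 4) (nat_lit 38) (nat_lit 4) (nat_lit 462) (nat_lit 418) (nat_lit 320)) (XT.nd (nat_lit 78) (nat_lit 76) (nat_lit 0) (XT.lf (nat_lit 0) (nat_lit 358123490) (nat_lit 152) (nat_lit 53844468241) (nat_lit 76) (nat_lit 79220316065) (nat_lit 36) (nat_lit 5) (nat_lit 38) (nat_lit 5) (nat_lit 37) (nat_lit 4) (nat_lit 463) (nat_lit 418) (nat_lit 319)) (XT.lf (nat_lit 0) (nat_lit 29469986705) (nat_lit 76) (nat_lit 10944118133) (nat_lit 152) (nat_lit 100156147764) (nat_lit 35) (nat_lit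 5) (nat_lit 36) (nat_lit 5) (nat_lit 37) (nat_lit 4) (nat_lit 464) (nat_lit 418) (nat_lit 318)))) (XT.nd (nat_lit 156) (nat_lit 152) (nat_lit 0) (XT.nd (nat_lit 78) (nat_lit 76) (nat_lit 0) (XT.lf (nat_lit 0) (nat_lit 86042127532) (nat_lit 152) (nat_lit 26564975399) (nat_lit 0) (nat_lit 35492877081) (nat_lit 35) (nat_lit 5) (nat_lit 37) (nat_lit 4) (nat_lit 35) (nat_lit 4) (nat_lit 465) (nat_lit 418) (nat_lit 317)) (XT.lf (nat_lit 0) (nat_lit 67836286240) (nat_lit 76) (nat_lit 69396805331) (nat_lit 76) (nat_lit 18845978124) (nat_lit 34) (nat_lit 4) (nat_lit 35) (nat_lit 5) (nat_lit 35) (nat_lit 4) (nat_lit 466) (nat_lit 418) (nat_lit 316))) (XT.nd (nat_lit 78) (nat_lit 0) (nat_lit 0) (XT.lf (nat_lit 0) (nat_lit 6282259346) (nat_lit 76) (nat_lit 21042041861) (nat_lit 152) (nat_lit 137247192853) (nat_lit 32) (nat_lit 5) (nat_lit 33) (nat_lit 5) (nat_lit 34) (nat_lit 4) (nat_lit 467) (nat_lit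 418) (nat_lit 315)) (XT.lf (nat_lit 0) (nat_lit 79392308739) (nat_lit 152) (nat_lit 61470677184) (nat_lit 0) (nat_lit 32583383757) (nat_lit 32) (nat_lit 5) (nat_lit 34) (nat_lit 4) (nat_lit 32) (nat_lit 4) (nat_lit 468) (nat_lit 418) (nat_lit 314))))) (XT.nd (nat_lit 234) (nat_lit 228) (nat_lit 0) (XT.nd (nat_lit 78) (nat_lit 152) (nat_lit 0) (XT.lf (nat_lit 0) (nat_lit 44781358999) (nat_lit 76) (nat_lit 92465150076) (nat_lit 76) (nat_lit 45655066131) (nat_lit 31) (nat_lit 4) (nat_lit 32) (nat_lit 5) (nat_lit 32) (nat_lit 4) (nat_lit 469) (nat_lit 418) (nat_lit 313)) (XT.nd (nat_lit 78) (nat_lit 76) (nat_lit 0) (XT.lf (nat_lit 0) (nat_lit 8006486491) (nat_lit 152) (nat_lit 30157665155) (nat_lit 76) (nat_lit 154798589467) (nat_lit 30) (nat_lit 5) (nat_lit 32) (nat_lit 5) (nat_lit 31) (nat_lit 4) (nat_lit 470) (nat_lit 418) (nat_lit 312)) (XT.lf (nat_lit 0) (nat_lit 66229440361) (nat_lit 152)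 (nat_lit 114400832975) (nat_lit 0) (nat_lit 22884856396) (nat_lit 29) (nat_lit 5) (nat_lit 31) (nat_lit 4) (nat_lit 29) (nat_lit 4) (nat_lit 471) (nat_lit 418) (nat_lit 311)))) (XT.nd (nat_lit 156) (nat_lit 152) (nat_lit 0) (XT.nd (nat_lit 78) (nat_lit 0) (nat_lit 0) (XT.lf (nat_lit 0) (nat_lit 3978489471) (nat_lit 76) (nat_lit 127062113037) (nat_lit 76) (nat_lit 83716677199) (nat_lit 28) (nat_lit 4) (nat_lit 29) (nat_lit 5) (nat_lit 29) (nat_lit 4) (nat_lit 472) (nat_lit 418) (nat_lit 310)) (XT.lf (nat_lit 0) (nat_lit 138329164915) (nat_lit 76) (nat_lit 65832913851) (nat_lit 76) (nat_lit 22486689243) (nat_lit 28) (nat_lit 4) (nat_lit 29) (nat_lit 5) (nat_lit 29) (nat_lit 4) (nat_lit 473) (nat_lit 418) (nat_lit 309))) (XT.nd (nat_lit 78) (nat_lit 0) (nat_lit 0) (XT.lf (nat_lit 0) (nat_lit 42604292763) (nat_lit 152) (nat_lit 194243434196) (nat_lit 0) (nat_lit 2468223364) (nat_lit 26) (nat_lit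 5) (nat_lit 28) (nat_lit 4) (nat_lit 26) (nat_lit 4) (nat_lit 474) (nat_lit 418) (nat_lit 308)) (XT.lf (nat_lit 0) (nat_lit 115872801094) (nat_lit 152) (nat_lit 61006065971) (nat_lit 0) (nat_lit 75736105543) (nat_lit 26) (nat_lit 5) (nat_lit 28) (nat_lit 4) (nat_lit 26) (nat_lit 4) (nat_lit 475) (nat_lit 418) (nat_lit 307)))))) (XT.nd (nat_lit 546) (nat_lit 380) (nat_lit 0) (XT.nd (nat_lit 234) (nat_lit 228) (nat_lit 0) (XT.nd (nat_lit 78) (nat_lit 152) (nat_lit 0) (XT.lf (nat_lit 0) (nat_lit 87250444965) (nat_lit 76) (nat_lit 109848526277) (nat_lit 76) (nat_lit 69711250956) (nat_lit 25) (nat_lit 4) (nat_lit 26) (nat_lit 5) (nat_lit 26) (nat_lit 4) (nat_lit 476) (nat_lit 418) (nat_lit 306)) (XT.nd (nat_lit 78) (nat_lit 76) (nat_lit 0) (XT.lf (nat_lit 0) (nat_lit 4257118728) (nat_lit 152) (nat_lit 31283005188) (nat_lit 76) (nat_lit 246459075632) (nat_lit 24) (nat_lit 5) (nat_lit 26) (nat_lit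 5) (nat_lit 25) (nat_lit 4) (nat_lit 477) (nat_lit 418) (nat_lit 305)) (XT.lf (nat_lit 0) (nat_lit 84796806307) (nat_lit 152) (nat_lit 165476323729) (nat_lit 0) (nat_lit 47631705192) (nat_lit 23) (nat_lit 5) (nat_lit 25) (nat_lit 4) (nat_lit 23) (nat_lit 4) (nat_lit 478) (nat_lit 418) (nat_lit 304)))) (XT.nd (nat_lit 156) (nat_lit 152) (nat_lit 0) (XT.nd (nat_lit 78) (nat_lit 76) (nat_lit 0) (XT.lf (nat_lit 0) (nat_lit 173578312577) (nat_lit 152) (nat_lit 4947932387) (nat_lit 0) (nat_lit 136412785314) (nat_lit 23) (nat_lit 5) (nat_lit 25) (nat_lit 4) (nat_lit 23) (nat_lit 4) (nat_lit 479) (nat_lit 418) (nat_lit 303)) (XT.lf (nat_lit 0) (nat_lit 177287535181) (nat_lit 76) (nat_lit 96436698047) (nat_lit 76) (nat_lit 59270776203) (nat_lit 22) (nat_lit 4) (nat_lit 23) (nat_lit 5) (nat_lit 23) (nat_lit 4) (nat_lit 480) (nat_lit 418) (nat_lit 302))) (XT.nd (nat_lit 78) (nat_lit 0) (nat_lit 0)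 (XT.lf (nat_lit 0) (nat_lit 22300033571) (nat_lit 76) (nat_lit 6289543721) (nat_lit 152) (nat_lit 323795490904) (nat_lit 20) (nat_lit 5) (nat_lit 21) (nat_lit 5) (nat_lit 22) (nat_lit 4) (nat_lit 481) (nat_lit 418) (nat_lit 301)) (XT.lf (nat_lit 0) (nat_lit 126832845263) (nat_lit 152) (nat_lit 153426523399) (nat_lit 0) (nat_lit 92419303145) (nat_lit 20) (nat_lit 5) (nat_lit 22) (nat_lit 4) (nat_lit 20) (nat_lit 4) (nat_lit 482) (nat_lit 418) (nat_lit 300))))) (XT.nd (nat_lit 234) (nat_lit 152) (nat_lit 0) (XT.nd (nat_lit 78) (nat_lit 152) (nat_lit 0) (XT.lf (nat_lit 0) (nat_lit 39156515887) (nat_lit 76) (nat_lit 194882406096) (nat_lit 76) (nat_lit 160468573948) (nat_lit 19) (nat_lit 4) (nat_lit 20) (nat_lit 5) (nat_lit 20) (nat_lit 4) (nat_lit 483) (nat_lit 418) (nat_lit 299)) (XT.nd (nat_lit 78) (nat_lit 152) (nat_lit 0) (XT.lf (nat_lit 0) (nat_lit 255868235089) (nat_lit 76) (nat_lit 98146515180)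 (nat_lit 76) (nat_lit 63732414486) (nat_lit 19) (nat_lit 4) (nat_lit 20) (nat_lit 5) (nat_lit 20) (nat_lit 4) (nat_lit 484) (nat_lit 418) (nat_lit 298)) (XT.lf (nat_lit 0) (nat_lit 40077611472) (nat_lit 152) (nat_lit 394367686681) (nat_lit 0) (nat_lit 8212473188) (nat_lit 17) (nat_lit 5) (nat_lit 19) (nat_lit 4) (nat_lit 17) (nat_lit 4) (nat_lit 485) (nat_lit 418) (nat_lit 297)))) (XT.nd (nat_lit 156) (nat_lit 76) (nat_lit 0) (XT.nd (nat_lit 78) (nat_lit 76) (nat_lit 0) (XT.lf (nat_lit 0) (nat_lit 155837911915) (nat_lit 152) (nat_lit 189051228847) (nat_lit 0) (nat_lit 123972560451) (nat_lit 17) (nat_lit 5) (nat_lit 19) (nat_lit 4) (nat_lit 17) (nat_lit 4) (nat_lit 486) (nat_lit 418) (nat_lit 296)) (XT.lf (nat_lit 0) (nat_lit 34408760032) (nat_lit 76) (nat_lit 247276325198) (nat_lit 76) (nat_lit 215410776344) (nat_lit 16) (nat_lit 4) (nat_lit 17) (nat_lit 5) (nat_lit 17) (nat_lit 4) (nat_lit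 487) (nat_lit 418) (nat_lit 295))) (XT.nd (nat_lit 78) (nat_lit 76) (nat_lit 0) (XT.lf (nat_lit 0) (nat_lit 286494085051) (nat_lit 76) (nat_lit 136273498619) (nat_lit 76) (nat_lit 104407766998) (nat_lit 16) (nat_lit 4) (nat_lit 17) (nat_lit 5) (nat_lit 17) (nat_lit 4) (nat_lit 488) (nat_lit 418) (nat_lit 294)) (XT.lf (nat_lit 0) (nat_lit 14699964639) (nat_lit 152) (nat_lit 1289974400) (nat_lit 76) (nat_lit 543641594764) (nat_lit 15) (nat_lit 5) (nat_lit 17) (nat_lit 5) (nat_lit 16) (nat_lit 4) (nat_lit 489) (nat_lit 418) (nat_lit 293))))))) (XT.nd (nat_lit 1092) (nat_lit 228) (nat_lit 0) (XT.nd (nat_lit 546) (nat_lit 304) (nat_lit 0) (XT.nd (nat_lit 234) (nat_lit 152) (nat_lit 0) (XT.nd (nat_lit 78) (nat_lit 76) (nat_lit 0) (XT.lf (nat_lit 0) (nat_lit 147115788808) (nat_lit 152) (nat_lit 328987675185) (nat_lit 0) (nat_lit 117610179971) (nat_lit 14) (nat_lit 5) (nat_lit 16) (nat_lit 4) (nat_lit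 14) (nat_lit 4) (nat_lit 490) (nat_lit 418) (nat_lit 292)) (XT.nd (nat_lit 78) (nat_lit 76) (nat_lit 0) (XT.lf (nat_lit 0) (nat_lit 290575119027) (nat_lit 152) (nat_lit 78841808854) (nat_lit 0) (nat_lit 261069375850) (nat_lit 14) (nat_lit 5) (nat_lit 16) (nat_lit 4) (nat_lit 14) (nat_lit 4) (nat_lit 491) (nat_lit 418) (nat_lit 291)) (XT.lf (nat_lit 0) (nat_lit 201387522455) (nat_lit 76) (nat_lit 248965872717) (nat_lit 76) (nat_lit 219460005152) (nat_lit 13) (nat_lit 4) (nat_lit 14) (nat_lit 5) (nat_lit 14) (nat_lit 4) (nat_lit 492) (nat_lit 418) (nat_lit 290)))) (XT.nd (nat_lit 156) (nat_lit 0) (nat_lit 0) (XT.nd (nat_lit 78) (nat_lit 152) (nat_lit 0) (XT.lf (nat_lit 0) (nat_lit 508516641337) (nat_lit 76) (nat_lit 116551821834) (nat_lit 76) (nat_lit 87045839094) (nat_lit 13) (nat_lit 4) (nat_lit 14) (nat_lit 5) (nat_lit 14) (nat_lit 4) (nat_lit 493) (nat_lit 418) (nat_lit 289)) (XT.lf (nat_lit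 0) (nat_lit 55937815823) (nat_lit 152) (nat_lit 672914365939) (nat_lit 0) (nat_lit 28617362690) (nat_lit 11) (nat_lit 5) (nat_lit 13) (nat_lit 4) (nat_lit 11) (nat_lit 4) (nat_lit 494) (nat_lit 418) (nat_lit 288))) (XT.nd (nat_lit 78) (nat_lit 0) (nat_lit 0) (XT.lf (nat_lit 0) (nat_lit 214394971034) (nat_lit 152) (nat_lit 404103930507) (nat_lit 0) (nat_lit 187074426472) (nat_lit 11) (nat_lit 5) (nat_lit 13) (nat_lit 4) (nat_lit 11) (nat_lit 4) (nat_lit 495) (nat_lit 418) (nat_lit 287)) (XT.lf (nat_lit 0) (nat_lit 385527692259) (nat_lit 152) (nat_lit 113790739472) (nat_lit 0) (nat_lit 358207063041) (nat_lit 11) (nat_lit 5) (nat_lit 13) (nat_lit 4) (nat_lit 11) (nat_lit 4) (nat_lit 496) (nat_lit 418) (nat_lit 286))))) (XT.nd (nat_lit 234) (nat_lit 228) (nat_lit 0) (XT.nd (nat_lit 78) (nat_lit 0) (nat_lit 0) (XT.lf (nat_lit 0) (nat_lit 210263829979) (nat_lit 76) (nat_lit 365143119518) (nat_lit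 76) (nat_lit 337822411913) (nat_lit 10) (nat_lit 4) (nat_lit 11) (nat_lit 5) (nat_lit 11) (nat_lit 4) (nat_lit 497) (nat_lit 418) (nat_lit 285)) (XT.nd (nat_lit 78) (nat_lit 0) (nat_lit 0) (XT.lf (nat_lit 0) (nat_lit 566712268694) (nat_lit 76) (nat_lit 216874611135) (nat_lit 76) (nat_lit 189553830950) (nat_lit 10) (nat_lit 4) (nat_lit 11) (nat_lit 5) (nat_lit 11) (nat_lit 4) (nat_lit 498) (nat_lit 418) (nat_lit 284)) (XT.lf (nat_lit 0) (nat_lit 951674845030) (nat_lit 76) (nat_lit 56745518857) (nat_lit 76) (nat_lit 29424671469) (nat_lit 10) (nat_lit 4) (nat_lit 11) (nat_lit 5) (nat_lit 11) (nat_lit 4) (nat_lit 499) (nat_lit 418) (nat_lit 283)))) (XT.nd (nat_lit 156) (nat_lit 76) (nat_lit 0) (XT.nd (nat_lit 78) (nat_lit 0) (nat_lit 0) (XT.lf (nat_lit 0) (nat_lit 145874913363) (nat_lit 152) (nat_lit 840233752100) (nat_lit 0) (nat_lit 120577774833) (nat_lit 8) (nat_lit 5) (nat_lit 10) (nat_lit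 4) (nat_lit 8) (nat_lit 4) (nat_lit 500) (nat_lit 418) (nat_lit 282)) (XT.lf (nat_lit 0) (nat_lit 337499121563) (nat_lit 152) (nat_lit 530961735961) (nat_lit 0) (nat_lit 312201929685) (nat_lit 8) (nat_lit 5) (nat_lit 10) (nat_lit 4) (nat_lit 8) (nat_lit 4) (nat_lit 501) (nat_lit 418) (nat_lit 281))) (XT.nd (nat_lit 78) (nat_lit 76) (nat_lit 0) (XT.lf (nat_lit 0) (nat_lit 544452527375) (nat_lit 152) (nat_lit 196949487524) (nat_lit 0) (nat_lit 519155286100) (nat_lit 8) (nat_lit 5) (nat_lit 10) (nat_lit 4) (nat_lit 8) (nat_lit 4) (nat_lit 502) (nat_lit 418) (nat_lit 280)) (XT.lf (nat_lit 0) (nat_lit 172406812043) (nat_lit 76) (nat_lit 599701097285) (nat_lit 76) (nat_lit 574403810273) (nat_lit 7) (nat_lit 4) (nat_lit 8) (nat_lit 5) (nat_lit 8) (nat_lit 4) (nat_lit 503) (nat_lit 418) (nat_lit 279)))))) (XT.nd (nat_lit 546) (nat_lit 76) (nat_lit 0) (XT.nd (nat_lit 234) (nat_lit 152) (nat_lit 0)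 (XT.nd (nat_lit 78) (nat_lit 0) (nat_lit 0) (XT.lf (nat_lit 0) (nat_lit 582510927551) (nat_lit 76) (nat_lit 440849075502) (nat_lit 76) (nat_lit 415551746140) (nat_lit 7) (nat_lit 4) (nat_lit 8) (nat_lit 5) (nat_lit 8) (nat_lit 4) (nat_lit 504) (nat_lit 418) (nat_lit 278)) (XT.nd (nat_lit 78) (nat_lit 0) (nat_lit 0) (XT.lf (nat_lit 0) (nat_lit 1025422094621) (nat_lit 76) (nat_lit 269289552250) (nat_lit 76) (nat_lit 243992183676) (nat_lit 7) (nat_lit 4) (nat_lit 8) (nat_lit 5) (nat_lit 8) (nat_lit 4) (nat_lit 505) (nat_lit 418) (nat_lit 277)) (XT.lf (nat_lit 0) (nat_lit 1503764972020) (nat_lit 76) (nat_lit 84005878503) (nat_lit 76) (nat_lit 58708473621) (nat_lit 7) (nat_lit 4) (nat_lit 8) (nat_lit 5) (nat_lit 8) (nat_lit 4) (nat_lit 506) (nat_lit 418) (nat_lit 276)))) (XT.nd (nat_lit 156) (nat_lit 0) (nat_lit 0) (XT.nd (nat_lit 78) (nat_lit 0) (nat_lit 0) (XT.lf (nat_lit 0) (nat_lit 143804539979)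 (nat_lit 152) (nat_lit 1497660889221) (nat_lit 0) (nat_lit 120380985812) (nat_lit 5) (nat_lit 5) (nat_lit 7) (nat_lit 4) (nat_lit 5) (nat_lit 4) (nat_lit 507) (nat_lit 418) (nat_lit 275)) (XT.lf (nat_lit 0) (nat_lit 365531655843) (nat_lit 152) (nat_lit 1178186365328) (nat_lit 0) (nat_lit 342108072853) (nat_lit 5) (nat_lit 5) (nat_lit 7) (nat_lit 4) (nat_lit 5) (nat_lit 4) (nat_lit 508) (nat_lit 418) (nat_lit 274))) (XT.nd (nat_lit 78) (nat_lit 0) (nat_lit 0) (XT.lf (nat_lit 0) (nat_lit 604996438369) (nat_lit 152) (nat_lit 833154920506) (nat_lit 0) (nat_lit 581572828692) (nat_lit 5) (nat_lit 5) (nat_lit 7) (nat_lit 4) (nat_lit 5) (nat_lit 4) (nat_lit 509) (nat_lit 418) (nat_lit 273)) (XT.lf (nat_lit 0) (nat_lit 863617938120) (nat_lit 152) (nat_lit 460521923972) (nat_lit 0) (nat_lit 840194303732) (nat_lit 5) (nat_lit 5) (nat_lit 7) (nat_lit 4) (nat_lit 5) (nat_lit 4) (nat_lit 510) (nat_lit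 418) (nat_lit 272))))) (XT.nd (nat_lit 234) (nat_lit 0) (nat_lit 0) (XT.nd (nat_lit 78) (nat_lit 76) (nat_lit 0) (XT.lf (nat_lit 0) (nat_lit 1142928726946) (nat_lit 152) (nat_lit 58079180190) (nat_lit 0) (nat_lit 1119505069679) (nat_lit 5) (nat_lit 5) (nat_lit 7) (nat_lit 4) (nat_lit 5) (nat_lit 4) (nat_lit 511) (nat_lit 418) (nat_lit 271)) (XT.nd (nat_lit 78) (nat_lit 0) (nat_lit 0) (XT.lf (nat_lit 0) (nat_lit 396387041943) (nat_lit 76) (nat_lit 1057730055841) (nat_lit 76) (nat_lit 1034306377389) (nat_lit 4) (nat_lit 4) (nat_lit 5) (nat_lit 5) (nat_lit 5) (nat_lit 4) (nat_lit 512) (nat_lit 418) (nat_lit 270)) (XT.lf (nat_lit 0) (nat_lit 890512770842) (nat_lit 76) (nat_lit 901275366357) (nat_lit 76) (nat_lit 877851668288) (nat_lit 4) (nat_lit 4) (nat_lit 5) (nat_lit 5) (nat_lit 5) (nat_lit 4) (nat_lit 513) (nat_lit 418) (nat_lit 269)))) (XT.nd (nat_lit 156) (nat_lit 0) (nat_lit 0) (XT.nd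 (nat_lit 78) (nat_lit 0) (nat_lit 0) (XT.lf (nat_lit 0) (nat_lit 1424167812270) (nat_lit 76) (nat_lit 732304687494) (nat_lit 76) (nat_lit 708880971263) (nat_lit 4) (nat_lit 4) (nat_lit 5) (nat_lit 5) (nat_lit 5) (nat_lit 4) (nat_lit 514) (nat_lit 418) (nat_lit 268)) (XT.lf (nat_lit 0) (nat_lit 2000514566474) (nat_lit 76) (nat_lit 549816711527) (nat_lit 76) (nat_lit 526392978477) (nat_lit 4) (nat_lit 4) (nat_lit 5) (nat_lit 5) (nat_lit 5) (nat_lit 4) (nat_lit 515) (nat_lit 418) (nat_lit 267))) (XT.nd (nat_lit 78) (nat_lit 0) (nat_lit 0) (XT.lf (nat_lit 0) (nat_lit 2622968421625) (nat_lit 76) (nat_lit 352730028226) (nat_lit 76) (nat_lit 329306279605) (nat_lit 4) (nat_lit 4) (nat_lit 5) (nat_lit 5) (nat_lit 5) (nat_lit 4) (nat_lit 516) (nat_lit 418) (nat_lit 266)) (XT.lf (nat_lit 0) (nat_lit 3295217993162) (nat_lit 76) (nat_lit 139876716507) (nat_lit 76) (nat_lit 116452953468) (nat_lit 4) (nat_lit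 4) (nat_lit 5) (nat_lit 5) (nat_lit 5) (nat_lit 4) (nat_lit 517) (nat_lit 418) (nat_lit 265))))))))
noncomputable def xc137 : XT := (XT.nd (nat_lit 55068) (nat_lit 0) (nat_lit 3572) (XT.nd (nat_lit 1092) (nat_lit 0) (nat_lit 0) (XT.nd (nat_lit 546) (nat_lit 76) (nat_lit 0) (XT.nd (nat_lit 234) (nat_lit 0) (nat_lit 0) (XT.nd (nat_lit 78) (nat_lit 0) (nat_lit 0) (XT.lf (nat_lit 0) (nat_lit 115202791803) (nat_lit 152) (nat_lit 3608283027793) (nat_lit 0) (nat_lit 93514109961) (nat_lit 2) (nat_lit 5) (nat_lit 4) (nat_lit 4) (nat_lit 2) (nat_lit 4) (nat_lit 518) (nat_lit 418) (nat_lit 264)) (XT.nd (nat_lit 78) (nat_lit 0) (nat_lit 0) (XT.lf (nat_lit 0) (nat_lit 369922949129) (nat_lit 152) (nat_lit 3384423317225) (nat_lit 0) (nat_lit 348234255841) (nat_lit 2) (nat_lit 5) (nat_lit 4) (nat_lit 4) (nat_lit 2) (nat_lit 4) (nat_lit 519) (nat_lit 418) (nat_lit 263)) (XT.lf (nat_lit 0) (nat_lit 645020467760)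 (nat_lit 152) (nat_lit 3142655350711) (nat_lit 0) (nat_lit 623331763874) (nat_lit 2) (nat_lit 5) (nat_lit 4) (nat_lit 4) (nat_lit 2) (nat_lit 4) (nat_lit 520) (nat_lit 418) (nat_lit 262)))) (XT.nd (nat_lit 156) (nat_lit 0) (nat_lit 0) (XT.nd (nat_lit 78) (nat_lit 0) (nat_lit 0) (XT.lf (nat_lit 0) (nat_lit 942125555214) (nat_lit 152) (nat_lit 2881546429192) (nat_lit 0) (nat_lit 920436841515) (nat_lit 2) (nat_lit 5) (nat_lit 4) (nat_lit 4) (nat_lit 2) (nat_lit 4) (nat_lit 521) (nat_lit 418) (nat_lit 261)) (XT.lf (nat_lit 0) (nat_lit 1262998834233) (nat_lit 152) (nat_lit 2599549240538) (nat_lit 0) (nat_lit 1241310111448) (nat_lit 2) (nat_lit 5) (nat_lit 4) (nat_lit 4) (nat_lit 2) (nat_lit 4) (nat_lit 522) (nat_lit 418) (nat_lit 260))) (XT.nd (nat_lit 78) (nat_lit 0) (nat_lit 0) (XT.lf (nat_lit 0) (nat_lit 1609541776098) (nat_lit 152) (nat_lit 2294992690300) (nat_lit 0) (nat_lit 1587853044900)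 (nat_lit 2) (nat_lit 5) (nat_lit 4) (nat_lit 4) (nat_lit 2) (nat_lit 4) (nat_lit 523) (nat_lit 418) (nat_lit 259)) (XT.lf (nat_lit 0) (nat_lit 1983807968614) (nat_lit 152) (nat_lit 1966071998919) (nat_lit 0) (nat_lit 1962119229627) (nat_lit 2) (nat_lit 5) (nat_lit 4) (nat_lit 4) (nat_lit 2) (nat_lit 4) (nat_lit 524) (nat_lit 418) (nat_lit 258))))) (XT.nd (nat_lit 234) (nat_lit 76) (nat_lit 0) (XT.nd (nat_lit 78) (nat_lit 0) (nat_lit 0) (XT.lf (nat_lit 0) (nat_lit 2388015285515) (nat_lit 152) (nat_lit 1610838006743) (nat_lit 0) (nat_lit 2366326539314) (nat_lit 2) (nat_lit 5) (nat_lit 4) (nat_lit 4) (nat_lit 2) (nat_lit 4) (nat_lit 525) (nat_lit 418) (nat_lit 257)) (XT.nd (nat_lit 78) (nat_lit 0) (nat_lit 0) (XT.lf (nat_lit 0) (nat_lit 2824559029418) (nat_lit 152) (nat_lit 1227185623449) (nat_lit 0) (nat_lit 2802870276539) (nat_lit 2) (nat_lit 5) (nat_lit 4) (nat_lit 4) (nat_lit 2) (nat_lit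 4) (nat_lit 526) (nat_lit 418) (nat_lit 256)) (XT.lf (nat_lit 0) (nat_lit 3296026126214) (nat_lit 152) (nat_lit 812841353432) (nat_lit 0) (nat_lit 3274337367151) (nat_lit 2) (nat_lit 5) (nat_lit 4) (nat_lit 4) (nat_lit 2) (nat_lit 4) (nat_lit 527) (nat_lit 418) (nat_lit 255)))) (XT.nd (nat_lit 156) (nat_lit 0) (nat_lit 0) (XT.nd (nat_lit 78) (nat_lit 76) (nat_lit 0) (XT.lf (nat_lit 0) (nat_lit 3805210454994) (nat_lit 152) (nat_lit 365349823239) (nat_lit 0) (nat_lit 3783521690206) (nat_lit 2) (nat_lit 5) (nat_lit 4) (nat_lit 4) (nat_lit 2) (nat_lit 4) (nat_lit 528) (nat_lit 418) (nat_lit 254)) (XT.lf (nat_lit 0) (nat_lit 124151320664) (nat_lit 76) (nat_lit 4233963925957) (nat_lit 76) (nat_lit 4212275155867) (nat_lit 1) (nat_lit 4) (nat_lit 2) (nat_lit 5) (nat_lit 2) (nat_lit 4) (nat_lit 529) (nat_lit 418) (nat_lit 253))) (XT.nd (nat_lit 78) (nat_lit 0) (nat_lit 0) (XT.lf (nat_lit 0) (nat_lit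 673590070273) (nat_lit 76) (nat_lit 4291651540429) (nat_lit 76) (nat_lit 4269962765430) (nat_lit 1) (nat_lit 4) (nat_lit 2) (nat_lit 5) (nat_lit 2) (nat_lit 4) (nat_lit 530) (nat_lit 418) (nat_lit 252)) (XT.lf (nat_lit 0) (nat_lit 1266983684682) (nat_lit 76) (nat_lit 4353954285803) (nat_lit 76) (nat_lit 4332265506258) (nat_lit 1) (nat_lit 4) (nat_lit 2) (nat_lit 5) (nat_lit 2) (nat_lit 4) (nat_lit 531) (nat_lit 418) (nat_lit 251)))))) (XT.nd (nat_lit 546) (nat_lit 0) (nat_lit 0) (XT.nd (nat_lit 234) (nat_lit 0) (nat_lit 0) (XT.nd (nat_lit 78) (nat_lit 0) (nat_lit 0) (XT.lf (nat_lit 0) (nat_lit 1907848570494) (nat_lit 76) (nat_lit 4421241363531) (nat_lit 76) (nat_lit 4399552579779) (nat_lit 1) (nat_lit 4) (nat_lit 2) (nat_lit 5) (nat_lit 2) (nat_lit 4) (nat_lit 532) (nat_lit 418) (nat_lit 250)) (XT.nd (nat_lit 78) (nat_lit 0) (nat_lit 0) (XT.lf (nat_lit 0) (nat_lit 2599982445551) (nat_lit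 76) (nat_lit 4493911511854) (nat_lit 76) (nat_lit 4472222724204) (nat_lit 1) (nat_lit 4) (nat_lit 2) (nat_lit 5) (nat_lit 2) (nat_lit 4) (nat_lit 533) (nat_lit 418) (nat_lit 249)) (XT.lf (nat_lit 0) (nat_lit 3347486843928) (nat_lit 76) (nat_lit 4572395368686) (nat_lit 76) (nat_lit 4550706577428) (nat_lit 1) (nat_lit 4) (nat_lit 2) (nat_lit 5) (nat_lit 2) (nat_lit 4) (nat_lit 534) (nat_lit 418) (nat_lit 248)))) (XT.nd (nat_lit 156) (nat_lit 0) (nat_lit 0) (XT.nd (nat_lit 78) (nat_lit 0) (nat_lit 0) (XT.lf (nat_lit 0) (nat_lit 4154791421319) (nat_lit 76) (nat_lit 4657158023550) (nat_lit 76) (nat_lit 4635469228951) (nat_lit 1) (nat_lit 4) (nat_lit 2) (nat_lit 5) (nat_lit 2) (nat_lit 4) (nat_lit 535) (nat_lit 418) (nat_lit 247)) (XT.lf (nat_lit 0) (nat_lit 5026680204849) (nat_lit 76) (nat_lit 4748701773659) (nat_lit 76) (nat_lit 4727012975967) (nat_lit 1) (nat_lit 4) (nat_lit 2) (nat_lit 5)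 (nat_lit 2) (nat_lit 4) (nat_lit 536) (nat_lit 418) (nat_lit 246))) (XT.nd (nat_lit 78) (nat_lit 0) (nat_lit 0) (XT.lf (nat_lit 0) (nat_lit 5968319942865) (nat_lit 76) (nat_lit 4847569100496) (nat_lit 76) (nat_lit 4825880299940) (nat_lit 1) (nat_lit 4) (nat_lit 2) (nat_lit 5) (nat_lit 2) (nat_lit 4) (nat_lit 537) (nat_lit 418) (nat_lit 245)) (XT.lf (nat_lit 0) (nat_lit 6985290722703) (nat_lit 76) (nat_lit 4954345884517) (nat_lit 76) (nat_lit 4932657081308) (nat_lit 1) (nat_lit 4) (nat_lit 2) (nat_lit 5) (nat_lit 2) (nat_lit 4) (nat_lit 538) (nat_lit 418) (nat_lit 244))))) (XT.nd (nat_lit 53118) (nat_lit 0) (nat_lit 6992) (XT.nd (nat_lit 78) (nat_lit 0) (nat_lit 0) (XT.lf (nat_lit 0) (nat_lit 8083619037874) (nat_lit 76) (nat_lit 5069664877033) (nat_lit 76) (nat_lit 5047976071369) (nat_lit 1) (nat_lit 4) (nat_lit 2) (nat_lit 5) (nat_lit 2) (nat_lit 4) (nat_lit 539) (nat_lit 418) (nat_lit 243))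 (XT.nd (nat_lit 78) (nat_lit 0) (nat_lit 0) (XT.lf (nat_lit 0) (nat_lit 9269813500615) (nat_lit 76) (nat_lit 5194209449853) (nat_lit 76) (nat_lit 5172520641915) (nat_lit 1) (nat_lit 4) (nat_lit 2) (nat_lit 5) (nat_lit 2) (nat_lit 4) (nat_lit 540) (nat_lit 418) (nat_lit 242)) (XT.lf (nat_lit 0) (nat_lit 10550903411446) (nat_lit 76) (nat_lit 5328717644889) (nat_lit 76) (nat_lit 5307028834846) (nat_lit 1) (nat_lit 4) (nat_lit 2) (nat_lit 5) (nat_lit 2) (nat_lit 4) (nat_lit 541) (nat_lit 418) (nat_lit 241)))) (XT.nd (nat_lit 156) (nat_lit 0) (nat_lit 76) (XT.nd (nat_lit 78) (nat_lit 0) (nat_lit 0) (XT.lf (nat_lit 0) (nat_lit 7762650325) (nat_lit 532) (nat_lit 534178454) (nat_lit 532) (nat_lit 534178454) (nat_lit 93) (nat_lit 3) (nat_lit 100) (nat_lit 3) (nat_lit 100) (nat_lit 5) (nat_lit 419) (nat_lit 419) (nat_lit 362)) (XT.lf (nat_lit 76) (nat_lit 8134434028) (nat_lit 0) (nat_lit 8408811443)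 (nat_lit 532) (nat_lit 1793468100) (nat_lit 94) (nat_lit 5) (nat_lit 93) (nat_lit 3) (nat_lit 100) (nat_lit 5) (nat_lit 420) (nat_lit 419) (nat_lit 361))) (XT.nd (nat_lit 78) (nat_lit 0) (nat_lit 0) (XT.lf (nat_lit 0) (nat_lit 17662757289) (nat_lit 456) (nat_lit 953266102) (nat_lit 532) (nat_lit 447757383) (nat_lit 94) (nat_lit 5) (nat_lit 100) (nat_lit 5) (nat_lit 101) (nat_lit 5) (nat_lit 421) (nat_lit 419) (nat_lit 360)) (XT.lf (nat_lit 76) (nat_lit 9268594629) (nat_lit 0) (nat_lit 10025852914) (nat_lit 532) (nat_lit 520758898) (nat_lit 95) (nat_lit 5) (nat_lit 94) (nat_lit 5) (nat_lit 101) (nat_lit 5) (nat_lit 422) (nat_lit 419) (nat_lit 359))))))) (XT.nd (nat_lit 1092) (nat_lit 1444) (nat_lit 0) (XT.nd (nat_lit 546) (nat_lit 912) (nat_lit 0) (XT.nd (nat_lit 234) (nat_lit 608) (nat_lit 0) (XT.nd (nat_lit 78) (nat_lit 0) (nat_lit 76) (XT.lf (nat_lit 0) (nat_lit 417095248) (nat_lit 532)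 (nat_lit 286217874) (nat_lit 608) (nat_lit 19921913987) (nat_lit 87) (nat_lit 5) (nat_lit 94) (nat_lit 5) (nat_lit 95) (nat_lit 5) (nat_lit 423) (nat_lit 419) (nat_lit 358)) (XT.nd (nat_lit 78) (nat_lit 0) (nat_lit 0) (XT.lf (nat_lit 0) (nat_lit 1890536673) (nat_lit 532) (nat_lit 10374686173) (nat_lit 608) (nat_lit 9194650986) (nat_lit 88) (nat_lit 5) (nat_lit 95) (nat_lit 5) (nat_lit 96) (nat_lit 5) (nat_lit 424) (nat_lit 419) (nat_lit 357)) (XT.lf (nat_lit 76) (nat_lit 1042542632) (nat_lit 0) (nat_lit 2475008993) (nat_lit 608) (nat_lit 18840886639) (nat_lit 89) (nat_lit 5) (nat_lit 88) (nat_lit 5) (nat_lit 96) (nat_lit 5) (nat_lit 425) (nat_lit 419) (nat_lit 356)))) (XT.nd (nat_lit 156) (nat_lit 228) (nat_lit 0) (XT.nd (nat_lit 78) (nat_lit 532) (nat_lit 0) (XT.lf (nat_lit 0) (nat_lit 5745758531) (nat_lit 532) (nat_lit 9559124777) (nat_lit 76) (nat_lit 7986323776) (nat_lit 89) (nat_lit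 5) (nat_lit 96) (nat_lit 5) (nat_lit 90) (nat_lit 5) (nat_lit 426) (nat_lit 419) (nat_lit 355)) (XT.lf (nat_lit 0) (nat_lit 3222159341) (nat_lit 532) (nat_lit 5058168787) (nat_lit 608) (nat_lit 16008022357) (nat_lit 82) (nat_lit 5) (nat_lit 89) (nat_lit 5) (nat_lit 90) (nat_lit 5) (nat_lit 427) (nat_lit 419) (nat_lit 354))) (XT.nd (nat_lit 78) (nat_lit 228) (nat_lit 0) (XT.lf (nat_lit 0) (nat_lit 11417360368) (nat_lit 608) (nat_lit 7939710050) (nat_lit 76) (nat_lit 5976220627) (nat_lit 82) (nat_lit 5) (nat_lit 90) (nat_lit 5) (nat_lit 83) (nat_lit 5) (nat_lit 428) (nat_lit 419) (nat_lit 353)) (XT.lf (nat_lit 0) (nat_lit 6413711455) (nat_lit 228) (nat_lit 8665279887) (nat_lit 304) (nat_lit 11360945957) (nat_lit 79) (nat_lit 5) (nat_lit 82) (nat_lit 5) (nat_lit 83) (nat_lit 5) (nat_lit 429) (nat_lit 419) (nat_lit 352))))) (XT.nd (nat_lit 234) (nat_lit 684) (nat_lit 0) (XT.nd (nat_lit 78) (nat_lit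 228) (nat_lit 0) (XT.lf (nat_lit 0) (nat_lit 19314161306) (nat_lit 304) (nat_lit 5338959034) (nat_lit 76) (nat_lit 2959547479) (nat_lit 79) (nat_lit 5) (nat_lit 83) (nat_lit 5) (nat_lit 80) (nat_lit 5) (nat_lit 430) (nat_lit 419) (nat_lit 351)) (XT.nd (nat_lit 78) (nat_lit 0) (nat_lit 0) (XT.lf (nat_lit 0) (nat_lit 10827628739) (nat_lit 228) (nat_lit 13535414840) (nat_lit 304) (nat_lit 4478182457) (nat_lit 76) (nat_lit 5) (nat_lit 79) (nat_lit 5) (nat_lit 80) (nat_lit 5) (nat_lit 431) (nat_lit 419) (nat_lit 350)) (XT.lf (nat_lit 0) (nat_lit 28579254469) (nat_lit 228) (nat_lit 1372477230) (nat_lit 304) (nat_lit 205466656) (nat_lit 76) (nat_lit 5) (nat_lit 79) (nat_lit 5) (nat_lit 80) (nat_lit 5) (nat_lit 432) (nat_lit 419) (nat_lit 349)))) (XT.nd (nat_lit 156) (nat_lit 152) (nat_lit 0) (XT.nd (nat_lit 78) (nat_lit 228) (nat_lit 0) (XT.lf (nat_lit 0) (nat_lit 4881560910) (nat_lit 304) (nat_lit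 14933984945) (nat_lit 76) (nat_lit 11698976159) (nat_lit 72) (nat_lit 5) (nat_lit 76) (nat_lit 5) (nat_lit 73) (nat_lit 5) (nat_lit 433) (nat_lit 419) (nat_lit 348)) (XT.lf (nat_lit 0) (nat_lit 3421578916) (nat_lit 228) (nat_lit 7095883604) (nat_lit 304) (nat_lit 22450301958) (nat_lit 69) (nat_lit 5) (nat_lit 72) (nat_lit 5) (nat_lit 73) (nat_lit 5) (nat_lit 434) (nat_lit 419) (nat_lit 347))) (XT.nd (nat_lit 78) (nat_lit 152) (nat_lit 0) (XT.lf (nat_lit 0) (nat_lit 17174031174) (nat_lit 304) (nat_lit 10592299342) (nat_lit 76) (nat_lit 6725353016) (nat_lit 69) (nat_lit 5) (nat_lit 73) (nat_lit 5) (nat_lit 70) (nat_lit 5) (nat_lit 435) (nat_lit 419) (nat_lit 346)) (XT.lf (nat_lit 0) (nat_lit 10192081693) (nat_lit 152) (nat_lit 14592271060) (nat_lit 228) (nat_lit 11319465888) (nat_lit 67) (nat_lit 5) (nat_lit 69) (nat_lit 5) (nat_lit 70) (nat_lit 5) (nat_lit 436) (nat_lit 419) (nat_lit 345))))))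 (XT.nd (nat_lit 546) (nat_lit 760) (nat_lit 0) (XT.nd (nat_lit 234) (nat_lit 304) (nat_lit 0) (XT.nd (nat_lit 78) (nat_lit 380) (nat_lit 0) (XT.lf (nat_lit 0) (nat_lit 33230537549) (nat_lit 152) (nat_lit 54714977) (nat_lit 228) (nat_lit 4537132507) (nat_lit 67) (nat_lit 5) (nat_lit 69) (nat_lit 5) (nat_lit 70) (nat_lit 5) (nat_lit 437) (nat_lit 419) (nat_lit 344)) (XT.nd (nat_lit 78) (nat_lit 152) (nat_lit 0) (XT.lf (nat_lit 0) (nat_lit 3495589748) (nat_lit 228) (nat_lit 20703977471) (nat_lit 76) (nat_lit 15405725695) (nat_lit 64) (nat_lit 5) (nat_lit 67) (nat_lit 5) (nat_lit 65) (nat_lit 5) (nat_lit 438) (nat_lit 419) (nat_lit 343)) (XT.lf (nat_lit 0) (nat_lit 3032586911) (nat_lit 152) (nat_lit 9089144352) (nat_lit 228) (nat_lit 29384000931) (nat_lit 62) (nat_lit 5) (nat_lit 64) (nat_lit 5) (nat_lit 65) (nat_lit 5) (nat_lit 439) (nat_lit 419) (nat_lit 342)))) (XT.nd (nat_lit 156) (nat_lit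 152) (nat_lit 0) (XT.nd (nat_lit 78) (nat_lit 152) (nat_lit 0) (XT.lf (nat_lit 0) (nat_lit 22185588748) (nat_lit 228) (nat_lit 13867042338) (nat_lit 76) (nat_lit 7445766052) (nat_lit 62) (nat_lit 5) (nat_lit 65) (nat_lit 5) (nat_lit 63) (nat_lit 5) (nat_lit 440) (nat_lit 419) (nat_lit 341)) (XT.lf (nat_lit 0) (nat_lit 13117408101) (nat_lit 152) (nat_lit 20482177725) (nat_lit 228) (nat_lit 12007287429) (nat_lit 60) (nat_lit 5) (nat_lit 62) (nat_lit 5) (nat_lit 63) (nat_lit 5) (nat_lit 441) (nat_lit 419) (nat_lit 340))) (XT.nd (nat_lit 78) (nat_lit 152) (nat_lit 0) (XT.lf (nat_lit 0) (nat_lit 43039259979) (nat_lit 152) (nat_lit 3260310701) (nat_lit 228) (nat_lit 1554627765) (nat_lit 60) (nat_lit 5) (nat_lit 62) (nat_lit 5) (nat_lit 63) (nat_lit 5) (nat_lit 442) (nat_lit 419) (nat_lit 339)) (XT.lf (nat_lit 0) (nat_lit 10261167666) (nat_lit 152) (nat_lit 24466624205) (nat_lit 76) (nat_lit 15453679889)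 (nat_lit 58) (nat_lit 5) (nat_lit 60) (nat_lit 5) (nat_lit 59) (nat_lit 5) (nat_lit 443) (nat_lit 419) (nat_lit 338))))) (XT.nd (nat_lit 312) (nat_lit 456) (nat_lit 0) (XT.nd (nat_lit 156) (nat_lit 152) (nat_lit 0) (XT.nd (nat_lit 78) (nat_lit 0) (nat_lit 0) (XT.lf (nat_lit 0) (nat_lit 6461506206) (nat_lit 152) (nat_lit 16846045886) (nat_lit 228) (nat_lit 29354599540) (nat_lit 56) (nat_lit 5) (nat_lit 58) (nat_lit 5) (nat_lit 59) (nat_lit 5) (nat_lit 444) (nat_lit 419) (nat_lit 337)) (XT.lf (nat_lit 0) (nat_lit 38137574577) (nat_lit 228) (nat_lit 14118938630) (nat_lit 76) (nat_lit 3025578812) (nat_lit 56) (nat_lit 5) (nat_lit 59) (nat_lit 5) (nat_lit 57) (nat_lit 4) (nat_lit 445) (nat_lit 419) (nat_lit 336))) (XT.nd (nat_lit 78) (nat_lit 76) (nat_lit 0) (XT.lf (nat_lit 0) (nat_lit 21140182509) (nat_lit 76) (nat_lit 33954499464) (nat_lit 152) (nat_lit 2941691304) (nat_lit 55) (nat_lit 5)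 (nat_lit 56) (nat_lit 5) (nat_lit 57) (nat_lit 4) (nat_lit 446) (nat_lit 419) (nat_lit 335)) (XT.lf (nat_lit 0) (nat_lit 12168006453) (nat_lit 152) (nat_lit 1274435006) (nat_lit 76) (nat_lit 47513438339) (nat_lit 54) (nat_lit 5) (nat_lit 56) (nat_lit 5) (nat_lit 55) (nat_lit 5) (nat_lit 447) (nat_lit 419) (nat_lit 334)))) (XT.nd (nat_lit 156) (nat_lit 228) (nat_lit 0) (XT.nd (nat_lit 78) (nat_lit 76) (nat_lit 0) (XT.lf (nat_lit 0) (nat_lit 29498030653) (nat_lit 228) (nat_lit 25197385930) (nat_lit 76) (nat_lit 9313779613) (nat_lit 52) (nat_lit 5) (nat_lit 55) (nat_lit 5) (nat_lit 53) (nat_lit 4) (nat_lit 448) (nat_lit 419) (nat_lit 333)) (XT.lf (nat_lit 0) (nat_lit 15279182045) (nat_lit 76) (nat_lit 33682858259) (nat_lit 152) (nat_lit 18284931132) (nat_lit 51) (nat_lit 5) (nat_lit 52) (nat_lit 5) (nat_lit 53) (nat_lit 4) (nat_lit 449) (nat_lit 419) (nat_lit 332))) (XT.nd (nat_lit 78) (nat_lit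 228) (nat_lit 0) (XT.lf (nat_lit 0) (nat_lit 60418560774) (nat_lit 76) (nat_lit 10248919845) (nat_lit 152) (nat_lit 21543481) (nat_lit 51) (nat_lit 5) (nat_lit 52) (nat_lit 5) (nat_lit 53) (nat_lit 4) (nat_lit 450) (nat_lit 419) (nat_lit 331)) (XT.lf (nat_lit 0) (nat_lit 19977717879) (nat_lit 228) (nat_lit 38610372836) (nat_lit 76) (nat_lit 15679608199) (nat_lit 48) (nat_lit 5) (nat_lit 51) (nat_lit 5) (nat_lit 49) (nat_lit 4) (nat_lit 451) (nat_lit 419) (nat_lit 330))))))))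
noncomputable def xc138 : XT := (XT.nd (nat_lit 2184) (nat_lit 1368) (nat_lit 0) (XT.nd (nat_lit 1092) (nat_lit 912) (nat_lit 0) (XT.nd (nat_lit 546) (nat_lit 532) (nat_lit 0) (XT.nd (nat_lit 234) (nat_lit 228) (nat_lit 0) (XT.nd (nat_lit 78) (nat_lit 152) (nat_lit 0) (XT.lf (nat_lit 0) (nat_lit 7843547922) (nat_lit 76) (nat_lit 34470814911) (nat_lit 152) (nat_lit 35759171742) (nat_lit 47) (nat_lit 5) (nat_lit 48) (nat_lit 5) (nat_lit 49) (nat_lit 4) (nat_lit 452) (nat_lit 419) (nat_lit 329)) (XT.nd (nat_lit 78) (nat_lit 152) (nat_lit 0) (XT.lf (nat_lit 0) (nat_lit 60201805336) (nat_lit 76) (nat_lit 7287601459) (nat_lit 152) (nat_lit 14610313047) (nat_lit 47) (nat_lit 5) (nat_lit 48) (nat_lit 5) (nat_lit 49) (nat_lit 4) (nat_lit 453) (nat_lit 419) (nat_lit 328)) (XT.lf (nat_lit 0) (nat_lit 9132282875) (nat_lit 152) (nat_lit 55247039280) (nat_lit 76) (nat_lit 21947758553) (nat_lit 45) (nat_lit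 5) (nat_lit 47) (nat_lit 5) (nat_lit 46) (nat_lit 4) (nat_lit 454) (nat_lit 419) (nat_lit 327)))) (XT.nd (nat_lit 156) (nat_lit 152) (nat_lit 0) (XT.nd (nat_lit 78) (nat_lit 76) (nat_lit 0) (XT.lf (nat_lit 0) (nat_lit 34784561027) (nat_lit 152) (nat_lit 1894931962) (nat_lit 76) (nat_lit 54118809600) (nat_lit 45) (nat_lit 5) (nat_lit 47) (nat_lit 5) (nat_lit 46) (nat_lit 4) (nat_lit 455) (nat_lit 419) (nat_lit 326)) (XT.lf (nat_lit 0) (nat_lit 58652471622) (nat_lit 76) (nat_lit 5243479677) (nat_lit 152) (nat_lit 31618716638) (nat_lit 44) (nat_lit 5) (nat_lit 45) (nat_lit 5) (nat_lit 46) (nat_lit 4) (nat_lit 456) (nat_lit 419) (nat_lit 325))) (XT.nd (nat_lit 78) (nat_lit 76) (nat_lit 0) (XT.lf (nat_lit 0) (nat_lit 24051700376) (nat_lit 76) (nat_lit 72602936506) (nat_lit 76) (nat_lit 3848235004) (nat_lit 43) (nat_lit 4) (nat_lit 44) (nat_lit 5) (nat_lit 44) (nat_lit 4) (nat_lit 457) (nat_lit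 419) (nat_lit 324)) (XT.lf (nat_lit 0) (nat_lit 26002697026) (nat_lit 152) (nat_lit 14672495783) (nat_lit 76) (nat_lit 65071307747) (nat_lit 42) (nat_lit 5) (nat_lit 44) (nat_lit 5) (nat_lit 43) (nat_lit 4) (nat_lit 458) (nat_lit 419) (nat_lit 323))))) (XT.nd (nat_lit 234) (nat_lit 304) (nat_lit 0) (XT.nd (nat_lit 78) (nat_lit 152) (nat_lit 0) (XT.lf (nat_lit 0) (nat_lit 54677258461) (nat_lit 76) (nat_lit 4668181924) (nat_lit 152) (nat_lit 51951251570) (nat_lit 41) (nat_lit 5) (nat_lit 42) (nat_lit 5) (nat_lit 43) (nat_lit 4) (nat_lit 459) (nat_lit 419) (nat_lit 322)) (XT.nd (nat_lit 78) (nat_lit 76) (nat_lit 0) (XT.lf (nat_lit 0) (nat_lit 12959028191) (nat_lit 76) (nat_lit 83939485523) (nat_lit 76) (nat_lit 20268952183) (nat_lit 40) (nat_lit 4) (nat_lit 41) (nat_lit 5) (nat_lit 41) (nat_lit 4) (nat_lit 460) (nat_lit 419) (nat_lit 321)) (XT.lf (nat_lit 0) (nat_lit 14956423105) (nat_lit 152)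 (nat_lit 32563675394) (nat_lit 76) (nat_lit 75824469554) (nat_lit 39) (nat_lit 5) (nat_lit 41) (nat_lit 5) (nat_lit 40) (nat_lit 4) (nat_lit 461) (nat_lit 419) (nat_lit 320)))) (XT.nd (nat_lit 156) (nat_lit 228) (nat_lit 0) (XT.nd (nat_lit 78) (nat_lit 0) (nat_lit 0) (XT.lf (nat_lit 0) (nat_lit 46611923881) (nat_lit 76) (nat_lit 6410805016) (nat_lit 152) (nat_lit 76861556210) (nat_lit 38) (nat_lit 5) (nat_lit 39) (nat_lit 5) (nat_lit 40) (nat_lit 4) (nat_lit 462) (nat_lit 419) (nat_lit 319)) (XT.lf (nat_lit 0) (nat_lit 95958357855) (nat_lit 152) (nat_lit 3845188097) (nat_lit 0) (nat_lit 36997712129) (nat_lit 38) (nat_lit 5) (nat_lit 40) (nat_lit 4) (nat_lit 38) (nat_lit 4) (nat_lit 463) (nat_lit 419) (nat_lit 318))) (XT.nd (nat_lit 78) (nat_lit 76) (nat_lit 0) (XT.lf (nat_lit 0) (nat_lit 446117112) (nat_lit 152) (nat_lit 58034561260) (nat_lit 76) (nat_lit 85611313660) (nat_lit 36) (nat_lit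 5) (nat_lit 38) (nat_lit 5) (nat_lit 37) (nat_lit 4) (nat_lit 464) (nat_lit 419) (nat_lit 317)) (XT.lf (nat_lit 0) (nat_lit 31942076299) (nat_lit 76) (nat_lit 11762858340) (nat_lit 152) (nat_lit 108106321237) (nat_lit 35) (nat_lit 5) (nat_lit 36) (nat_lit 5) (nat_lit 37) (nat_lit 4) (nat_lit 465) (nat_lit 419) (nat_lit 316)))))) (XT.nd (nat_lit 546) (nat_lit 456) (nat_lit 0) (XT.nd (nat_lit 234) (nat_lit 228) (nat_lit 0) (XT.nd (nat_lit 78) (nat_lit 228) (nat_lit 0) (XT.lf (nat_lit 0) (nat_lit 92980189583) (nat_lit 152) (nat_lit 28581153238) (nat_lit 0) (nat_lit 38382259484) (nat_lit 35) (nat_lit 5) (nat_lit 37) (nat_lit 4) (nat_lit 35) (nat_lit 4) (nat_lit 466) (nat_lit 419) (nat_lit 315)) (XT.nd (nat_lit 78) (nat_lit 152) (nat_lit 0) (XT.lf (nat_lit 0) (nat_lit 73369449328) (nat_lit 76) (nat_lit 74895485730) (nat_lit 76) (nat_lit 20296203816) (nat_lit 34) (nat_lit 4) (nat_lit 35) (nat_lit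 5) (nat_lit 35) (nat_lit 4) (nat_lit 467) (nat_lit 419) (nat_lit 314)) (XT.lf (nat_lit 0) (nat_lit 6891212036) (nat_lit 76) (nat_lit 22672127208) (nat_lit 152) (nat_lit 148169626222) (nat_lit 32) (nat_lit 5) (nat_lit 33) (nat_lit 5) (nat_lit 34) (nat_lit 4) (nat_lit 468) (nat_lit 419) (nat_lit 313)))) (XT.nd (nat_lit 156) (nat_lit 152) (nat_lit 0) (XT.nd (nat_lit 78) (nat_lit 76) (nat_lit 0) (XT.lf (nat_lit 0) (nat_lit 85794040918) (nat_lit 152) (nat_lit 66287091799) (nat_lit 0) (nat_lit 35236918181) (nat_lit 32) (nat_lit 5) (nat_lit 34) (nat_lit 4) (nat_lit 32) (nat_lit 4) (nat_lit 469) (nat_lit 419) (nat_lit 312)) (XT.lf (nat_lit 0) (nat_lit 48462544251) (nat_lit 76) (nat_lit 99812676758) (nat_lit 76) (nat_lit 49254560398) (nat_lit 31) (nat_lit 4) (nat_lit 32) (nat_lit 5) (nat_lit 32) (nat_lit 4) (nat_lit 470) (nat_lit 419) (nat_lit 311))) (XT.nd (nat_lit 78) (nat_lit 76) (nat_lit 0) (XT.lf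 (nat_lit 0) (nat_lit 8693546337) (nat_lit 152) (nat_lit 32476460001) (nat_lit 76) (nat_lit 167226030347) (nat_lit 30) (nat_lit 5) (nat_lit 32) (nat_lit 5) (nat_lit 31) (nat_lit 4) (nat_lit 471) (nat_lit 419) (nat_lit 310)) (XT.lf (nat_lit 0) (nat_lit 71574198174) (nat_lit 152) (nat_lit 123458942494) (nat_lit 0) (nat_lit 24759486826) (nat_lit 29) (nat_lit 5) (nat_lit 31) (nat_lit 4) (nat_lit 29) (nat_lit 4) (nat_lit 472) (nat_lit 419) (nat_lit 309))))) (XT.nd (nat_lit 234) (nat_lit 228) (nat_lit 0) (XT.nd (nat_lit 78) (nat_lit 152) (nat_lit 0) (XT.lf (nat_lit 0) (nat_lit 4388347087) (nat_lit 76) (nat_lit 137180671440) (nat_lit 76) (nat_lit 90365229750) (nat_lit 28) (nat_lit 4) (nat_lit 29) (nat_lit 5) (nat_lit 29) (nat_lit 4) (nat_lit 473) (nat_lit 419) (nat_lit 308)) (XT.nd (nat_lit 78) (nat_lit 152) (nat_lit 0) (XT.lf (nat_lit 0) (nat_lit 149480292977) (nat_lit 76) (nat_lit 71056574145)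 (nat_lit 76) (nat_lit 24240456211) (nat_lit 28) (nat_lit 4) (nat_lit 29) (nat_lit 5) (nat_lit 29) (nat_lit 4) (nat_lit 474) (nat_lit 419) (nat_lit 307)) (XT.lf (nat_lit 0) (nat_lit 46055443175) (nat_lit 152) (nat_lit 209695752254) (nat_lit 0) (nat_lit 2706606059) (nat_lit 26) (nat_lit 5) (nat_lit 28) (nat_lit 4) (nat_lit 26) (nat_lit 4) (nat_lit 475) (nat_lit 419) (nat_lit 306)))) (XT.nd (nat_lit 156) (nat_lit 152) (nat_lit 0) (XT.nd (nat_lit 78) (nat_lit 76) (nat_lit 0) (XT.lf (nat_lit 0) (nat_lit 125182261284) (nat_lit 152) (nat_lit 65805850620) (nat_lit 0) (nat_lit 81832887344) (nat_lit 26) (nat_lit 5) (nat_lit 28) (nat_lit 4) (nat_lit 26) (nat_lit 4) (nat_lit 476) (nat_lit 419) (nat_lit 305)) (XT.lf (nat_lit 0) (nat_lit 94309138136) (nat_lit 76) (nat_lit 118596342617) (nat_lit 76) (nat_lit 75246471618) (nat_lit 25) (nat_lit 4) (nat_lit 26) (nat_lit 5) (nat_lit 26) (nat_lit 4) (nat_lit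 477) (nat_lit 419) (nat_lit 304))) (XT.nd (nat_lit 78) (nat_lit 76) (nat_lit 0) (XT.lf (nat_lit 0) (nat_lit 4634349747) (nat_lit 152) (nat_lit 33710883763) (nat_lit 76) (nat_lit 266210968858) (nat_lit 24) (nat_lit 5) (nat_lit 26) (nat_lit 5) (nat_lit 25) (nat_lit 4) (nat_lit 478) (nat_lit 419) (nat_lit 303)) (XT.lf (nat_lit 0) (nat_lit 91617143126) (nat_lit 152) (nat_lit 178639598377) (nat_lit 0) (nat_lit 51477552952) (nat_lit 23) (nat_lit 5) (nat_lit 25) (nat_lit 4) (nat_lit 23) (nat_lit 4) (nat_lit 479) (nat_lit 419) (nat_lit 302))))))) (XT.nd (nat_lit 1092) (nat_lit 608) (nat_lit 0) (XT.nd (nat_lit 546) (nat_lit 304) (nat_lit 0) (XT.nd (nat_lit 234) (nat_lit 228) (nat_lit 0) (XT.nd (nat_lit 78) (nat_lit 228) (nat_lit 0) (XT.lf (nat_lit 0) (nat_lit 187498459356) (nat_lit 152) (nat_lit 5274478783) (nat_lit 0) (nat_lit 147358503829) (nat_lit 23) (nat_lit 5) (nat_lit 25) (nat_lit 4) (nat_lit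 23) (nat_lit 4) (nat_lit 480) (nat_lit 419) (nat_lit 301)) (XT.nd (nat_lit 78) (nat_lit 152) (nat_lit 0) (XT.lf (nat_lit 0) (nat_lit 191538072059) (nat_lit 76) (nat_lit 104117096036) (nat_lit 76) (nat_lit 63976802218) (nat_lit 22) (nat_lit 4) (nat_lit 23) (nat_lit 5) (nat_lit 23) (nat_lit 4) (nat_lit 481) (nat_lit 419) (nat_lit 300)) (XT.lf (nat_lit 0) (nat_lit 24151598287) (nat_lit 76) (nat_lit 6758115816) (nat_lit 152) (nat_lit 349663521748) (nat_lit 20) (nat_lit 5) (nat_lit 21) (nat_lit 5) (nat_lit 22) (nat_lit 4) (nat_lit 482) (nat_lit 419) (nat_lit 299)))) (XT.nd (nat_lit 156) (nat_lit 152) (nat_lit 0) (XT.nd (nat_lit 78) (nat_lit 76) (nat_lit 0) (XT.lf (nat_lit 0) (nat_lit 137010771543) (nat_lit 152) (nat_lit 165636415727) (nat_lit 0) (nat_lit 99843274249) (nat_lit 20) (nat_lit 5) (nat_lit 22) (nat_lit 4) (nat_lit 20) (nat_lit 4) (nat_lit 483) (nat_lit 419) (nat_lit 298)) (XT.lf (nat_lit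 0) (nat_lit 42351640637) (nat_lit 76) (nat_lit 210440880959) (nat_lit 76) (nat_lit 173273135011) (nat_lit 19) (nat_lit 4) (nat_lit 20) (nat_lit 5) (nat_lit 20) (nat_lit 4) (nat_lit 484) (nat_lit 419) (nat_lit 297))) (XT.nd (nat_lit 78) (nat_lit 152) (nat_lit 0) (XT.lf (nat_lit 0) (nat_lit 276395660081) (nat_lit 76) (nat_lit 105968497853) (nat_lit 76) (nat_lit 68800521671) (nat_lit 19) (nat_lit 4) (nat_lit 20) (nat_lit 5) (nat_lit 20) (nat_lit 4) (nat_lit 485) (nat_lit 419) (nat_lit 296)) (XT.lf (nat_lit 0) (nat_lit 43312746713) (nat_lit 152) (nat_lit 425857575565) (nat_lit 0) (nat_lit 8897756562) (nat_lit 17) (nat_lit 5) (nat_lit 19) (nat_lit 4) (nat_lit 17) (nat_lit 4) (nat_lit 486) (nat_lit 419) (nat_lit 295))))) (XT.nd (nat_lit 234) (nat_lit 228) (nat_lit 0) (XT.nd (nat_lit 78) (nat_lit 76) (nat_lit 0) (XT.lf (nat_lit 0) (nat_lit 168331728501) (nat_lit 152) (nat_lit 204120210442) (nat_lit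 0) (nat_lit 133916555582) (nat_lit 17) (nat_lit 5) (nat_lit 19) (nat_lit 4) (nat_lit 17) (nat_lit 4) (nat_lit 487) (nat_lit 419) (nat_lit 294)) (XT.nd (nat_lit 78) (nat_lit 0) (nat_lit 0) (XT.lf (nat_lit 0) (nat_lit 37215182188) (nat_lit 76) (nat_lit 267030801519) (nat_lit 76) (nat_lit 232615459372) (nat_lit 16) (nat_lit 4) (nat_lit 17) (nat_lit 5) (nat_lit 17) (nat_lit 4) (nat_lit 488) (nat_lit 419) (nat_lit 293)) (XT.lf (nat_lit 0) (nat_lit 309463353849) (nat_lit 76) (nat_lit 147149795458) (nat_lit 76) (nat_lit 112734296617) (nat_lit 16) (nat_lit 4) (nat_lit 17) (nat_lit 5) (nat_lit 17) (nat_lit 4) (nat_lit 489) (nat_lit 419) (nat_lit 292)))) (XT.nd (nat_lit 156) (nat_lit 76) (nat_lit 0) (XT.nd (nat_lit 78) (nat_lit 76) (nat_lit 0) (XT.lf (nat_lit 0) (nat_lit 15898912298) (nat_lit 152) (nat_lit 1345906348) (nat_lit 76) (nat_lit 587155401753) (nat_lit 15) (nat_lit 5) (nat_lit 17) (nat_lit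 5) (nat_lit 16) (nat_lit 4) (nat_lit 490) (nat_lit 419) (nat_lit 291)) (XT.lf (nat_lit 0) (nat_lit 158907980583) (nat_lit 152) (nat_lit 355259401315) (nat_lit 0) (nat_lit 127041519224) (nat_lit 14) (nat_lit 5) (nat_lit 16) (nat_lit 4) (nat_lit 14) (nat_lit 4) (nat_lit 491) (nat_lit 419) (nat_lit 290))) (XT.nd (nat_lit 78) (nat_lit 76) (nat_lit 0) (XT.lf (nat_lit 0) (nat_lit 313842358800) (nat_lit 152) (nat_lit 85105368484) (nat_lit 0) (nat_lit 281975782266) (nat_lit 14) (nat_lit 5) (nat_lit 16) (nat_lit 4) (nat_lit 14) (nat_lit 4) (nat_lit 492) (nat_lit 419) (nat_lit 289)) (XT.lf (nat_lit 0) (nat_lit 217541200847) (nat_lit 76) (nat_lit 268861149952) (nat_lit 76) (nat_lit 236994466775) (nat_lit 13) (nat_lit 4) (nat_lit 14) (nat_lit 5) (nat_lit 14) (nat_lit 4) (nat_lit 493) (nat_lit 419) (nat_lit 288)))))) (XT.nd (nat_lit 546) (nat_lit 380) (nat_lit 0) (XT.nd (nat_lit 234) (nat_lit 76) (nat_lit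 0) (XT.nd (nat_lit 78) (nat_lit 152) (nat_lit 0) (XT.lf (nat_lit 0) (nat_lit 549237488011) (nat_lit 76) (nat_lit 125855604078) (nat_lit 76) (nat_lit 93988822158) (nat_lit 13) (nat_lit 4) (nat_lit 14) (nat_lit 5) (nat_lit 14) (nat_lit 4) (nat_lit 494) (nat_lit 419) (nat_lit 287)) (XT.nd (nat_lit 78) (nat_lit 0) (nat_lit 0) (XT.lf (nat_lit 0) (nat_lit 60432475604) (nat_lit 152) (nat_lit 726706950207) (nat_lit 0) (nat_lit 30926111391) (nat_lit 11) (nat_lit 5) (nat_lit 13) (nat_lit 4) (nat_lit 11) (nat_lit 4) (nat_lit 495) (nat_lit 419) (nat_lit 286)) (XT.lf (nat_lit 0) (nat_lit 231564748824) (nat_lit 152) (nat_lit 436394684756) (nat_lit 0) (nat_lit 202058306225) (nat_lit 11) (nat_lit 5) (nat_lit 13) (nat_lit 4) (nat_lit 11) (nat_lit 4) (nat_lit 496) (nat_lit 419) (nat_lit 285)))) (XT.nd (nat_lit 156) (nat_lit 0) (nat_lit 0) (XT.nd (nat_lit 78) (nat_lit 76) (nat_lit 0) (XT.lf (nat_lit 0) (nat_lit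 416386741073) (nat_lit 152) (nat_lit 122859220675) (nat_lit 0) (nat_lit 386880225894) (nat_lit 11) (nat_lit 5) (nat_lit 13) (nat_lit 4) (nat_lit 11) (nat_lit 4) (nat_lit 497) (nat_lit 419) (nat_lit 284)) (XT.lf (nat_lit 0) (nat_lit 227118833878) (nat_lit 76) (nat_lit 394337073326) (nat_lit 76) (nat_lit 364830490944) (nat_lit 10) (nat_lit 4) (nat_lit 11) (nat_lit 5) (nat_lit 11) (nat_lit 4) (nat_lit 498) (nat_lit 419) (nat_lit 283))) (XT.nd (nat_lit 78) (nat_lit 0) (nat_lit 0) (XT.lf (nat_lit 0) (nat_lit 612080636765) (nat_lit 76) (nat_lit 234208380254) (nat_lit 76) (nat_lit 204701735647) (nat_lit 10) (nat_lit 4) (nat_lit 11) (nat_lit 5) (nat_lit 11) (nat_lit 4) (nat_lit 499) (nat_lit 419) (nat_lit 282)) (XT.lf (nat_lit 0) (nat_lit 1027837894275) (nat_lit 76) (nat_lit 61270160577) (nat_lit 76) (nat_lit 31763458354) (nat_lit 10) (nat_lit 4) (nat_lit 11) (nat_lit 5) (nat_lit 11) (nat_lit 4)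 (nat_lit 500) (nat_lit 419) (nat_lit 281))))) (XT.nd (nat_lit 312) (nat_lit 152) (nat_lit 0) (XT.nd (nat_lit 156) (nat_lit 76) (nat_lit 0) (XT.nd (nat_lit 78) (nat_lit 0) (nat_lit 0) (XT.lf (nat_lit 0) (nat_lit 157559324895) (nat_lit 152) (nat_lit 907422622201) (nat_lit 0) (nat_lit 130238254922) (nat_lit 8) (nat_lit 5) (nat_lit 10) (nat_lit 4) (nat_lit 8) (nat_lit 4) (nat_lit 501) (nat_lit 419) (nat_lit 280)) (XT.lf (nat_lit 0) (nat_lit 364512401717) (nat_lit 152) (nat_lit 573411054405) (nat_lit 0) (nat_lit 337191286006) (nat_lit 8) (nat_lit 5) (nat_lit 10) (nat_lit 4) (nat_lit 8) (nat_lit 4) (nat_lit 502) (nat_lit 419) (nat_lit 279))) (XT.nd (nat_lit 78) (nat_lit 76) (nat_lit 0) (XT.lf (nat_lit 0) (nat_lit 588021091073) (nat_lit 152) (nat_lit 212679872051) (nat_lit 0) (nat_lit 560699933013) (nat_lit 8) (nat_lit 5) (nat_lit 10) (nat_lit 4) (nat_lit 8) (nat_lit 4) (nat_lit 503) (nat_lit 419)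 (nat_lit 278)) (XT.lf (nat_lit 0) (nat_lit 186224284026) (nat_lit 76) (nat_lit 647664303384) (nat_lit 76) (nat_lit 620343106111) (nat_lit 7) (nat_lit 4) (nat_lit 8) (nat_lit 5) (nat_lit 8) (nat_lit 4) (nat_lit 504) (nat_lit 419) (nat_lit 277)))) (XT.nd (nat_lit 156) (nat_lit 152) (nat_lit 0) (XT.nd (nat_lit 78) (nat_lit 0) (nat_lit 0) (XT.lf (nat_lit 0) (nat_lit 629134882329) (nat_lit 76) (nat_lit 476105074057) (nat_lit 76) (nat_lit 448783840477) (nat_lit 7) (nat_lit 4) (nat_lit 8) (nat_lit 5) (nat_lit 8) (nat_lit 4) (nat_lit 505) (nat_lit 419) (nat_lit 276)) (XT.lf (nat_lit 0) (nat_lit 1107477233092) (nat_lit 76) (nat_lit 290821672463) (nat_lit 76) (nat_lit 263500405264) (nat_lit 7) (nat_lit 4) (nat_lit 8) (nat_lit 5) (nat_lit 8) (nat_lit 4) (nat_lit 506) (nat_lit 419) (nat_lit 275))) (XT.nd (nat_lit 78) (nat_lit 152) (nat_lit 0) (XT.lf (nat_lit 0) (nat_lit 1624085957654) (nat_lit 76) (nat_lit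 90716122887) (nat_lit 76) (nat_lit 63394824560) (nat_lit 7) (nat_lit 4) (nat_lit 8) (nat_lit 5) (nat_lit 8) (nat_lit 4) (nat_lit 507) (nat_lit 419) (nat_lit 274)) (XT.lf (nat_lit 0) (nat_lit 155318708851) (nat_lit 152) (nat_lit 1617453451181) (nat_lit 0) (nat_lit 130021183713) (nat_lit 5) (nat_lit 5) (nat_lit 7) (nat_lit 4) (nat_lit 5) (nat_lit 4) (nat_lit 508) (nat_lit 419) (nat_lit 273))))))))
noncomputable def xc139 : XT := (XT.nd (nat_lit 2184) (nat_lit 0) (nat_lit 0) (XT.nd (nat_lit 1092) (nat_lit 76) (nat_lit 0) (XT.nd (nat_lit 546) (nat_lit 152) (nat_lit 0) (XT.nd (nat_lit 234) (nat_lit 76) (nat_lit 0) (XT.nd (nat_lit 78) (nat_lit 0) (nat_lit 0) (XT.lf (nat_lit 0) (nat_lit 394783267638) (nat_lit 152) (nat_lit 1272422469760) (nat_lit 0) (nat_lit 369485717789) (nat_lit 5) (nat_lit 5) (nat_lit 7) (nat_lit 4) (nat_lit 5) (nat_lit 4) (nat_lit 509) (nat_lit 419) (nat_lit 272)) (XT.nd (nat_lit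 78) (nat_lit 0) (nat_lit 0) (XT.lf (nat_lit 0) (nat_lit 653404560223) (nat_lit 152) (nat_lit 899789902300) (nat_lit 0) (nat_lit 628106987494) (nat_lit 5) (nat_lit 5) (nat_lit 7) (nat_lit 4) (nat_lit 5) (nat_lit 4) (nat_lit 510) (nat_lit 419) (nat_lit 271)) (XT.lf (nat_lit 0) (nat_lit 932715157229) (nat_lit 152) (nat_lit 497347555810) (nat_lit 0) (nat_lit 907417563315) (nat_lit 5) (nat_lit 5) (nat_lit 7) (nat_lit 4) (nat_lit 5) (nat_lit 4) (nat_lit 511) (nat_lit 419) (nat_lit 270)))) (XT.nd (nat_lit 156) (nat_lit 0) (nat_lit 0) (XT.nd (nat_lit 78) (nat_lit 76) (nat_lit 0) (XT.lf (nat_lit 0) (nat_lit 1234370232565) (nat_lit 152) (nat_lit 62710586753) (nat_lit 0) (nat_lit 1209072619035) (nat_lit 5) (nat_lit 5) (nat_lit 7) (nat_lit 4) (nat_lit 5) (nat_lit 4) (nat_lit 512) (nat_lit 419) (nat_lit 269)) (XT.lf (nat_lit 0) (nat_lit 428112555230) (nat_lit 76) (nat_lit 1142340933880) (nat_lit 76)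 (nat_lit 1117043302187) (nat_lit 4) (nat_lit 4) (nat_lit 5) (nat_lit 5) (nat_lit 5) (nat_lit 4) (nat_lit 513) (nat_lit 419) (nat_lit 268))) (XT.nd (nat_lit 78) (nat_lit 0) (nat_lit 0) (XT.lf (nat_lit 0) (nat_lit 961767264668) (nat_lit 76) (nat_lit 973370426750) (nat_lit 76) (nat_lit 948072778240) (nat_lit 4) (nat_lit 4) (nat_lit 5) (nat_lit 5) (nat_lit 5) (nat_lit 4) (nat_lit 514) (nat_lit 419) (nat_lit 267)) (XT.lf (nat_lit 0) (nat_lit 1538113711473) (nat_lit 76) (nat_lit 790882609795) (nat_lit 76) (nat_lit 765584945712) (nat_lit 4) (nat_lit 4) (nat_lit 5) (nat_lit 5) (nat_lit 5) (nat_lit 4) (nat_lit 515) (nat_lit 419) (nat_lit 266))))) (XT.nd (nat_lit 234) (nat_lit 152) (nat_lit 0) (XT.nd (nat_lit 78) (nat_lit 0) (nat_lit 0) (XT.lf (nat_lit 0) (nat_lit 2160567281996) (nat_lit 76) (nat_lit 593796073727) (nat_lit 76) (nat_lit 568498395226) (nat_lit 4) (nat_lit 4) (nat_lit 5) (nat_lit 5)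 (nat_lit 5) (nat_lit 4) (nat_lit 516) (nat_lit 419) (nat_lit 265)) (XT.nd (nat_lit 78) (nat_lit 0) (nat_lit 0) (XT.lf (nat_lit 0) (nat_lit 2832816589989) (nat_lit 76) (nat_lit 380942898335) (nat_lit 76) (nat_lit 355645206484) (nat_lit 4) (nat_lit 4) (nat_lit 5) (nat_lit 5) (nat_lit 5) (nat_lit 4) (nat_lit 517) (nat_lit 419) (nat_lit 264)) (XT.lf (nat_lit 0) (nat_lit 3558845335054) (nat_lit 76) (nat_lit 151061731467) (nat_lit 76) (nat_lit 125764027254) (nat_lit 4) (nat_lit 4) (nat_lit 5) (nat_lit 5) (nat_lit 5) (nat_lit 4) (nat_lit 518) (nat_lit 419) (nat_lit 263)))) (XT.nd (nat_lit 156) (nat_lit 0) (nat_lit 0) (XT.nd (nat_lit 78) (nat_lit 0) (nat_lit 0) (XT.lf (nat_lit 0) (nat_lit 124423917531) (nat_lit 152) (nat_lit 3896935507458) (nat_lit 0) (nat_lit 101000106736) (nat_lit 2) (nat_lit 5) (nat_lit 4) (nat_lit 4) (nat_lit 2) (nat_lit 4) (nat_lit 519) (nat_lit 419) (nat_lit 262)) (XT.lf (nat_lit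 0) (nat_lit 399521324303) (nat_lit 152) (nat_lit 3655167772827) (nat_lit 0) (nat_lit 376097503695) (nat_lit 2) (nat_lit 5) (nat_lit 4) (nat_lit 4) (nat_lit 2) (nat_lit 4) (nat_lit 520) (nat_lit 419) (nat_lit 261))) (XT.nd (nat_lit 78) (nat_lit 0) (nat_lit 0) (XT.lf (nat_lit 0) (nat_lit 696626308184) (nat_lit 152) (nat_lit 3394059066013) (nat_lit 0) (nat_lit 673202478490) (nat_lit 2) (nat_lit 5) (nat_lit 4) (nat_lit 4) (nat_lit 2) (nat_lit 4) (nat_lit 521) (nat_lit 419) (nat_lit 260)) (XT.lf (nat_lit 0) (nat_lit 1017499491301) (nat_lit 152) (nat_lit 3112062076161) (nat_lit 0) (nat_lit 994075653195) (nat_lit 2) (nat_lit 5) (nat_lit 4) (nat_lit 4) (nat_lit 2) (nat_lit 4) (nat_lit 522) (nat_lit 419) (nat_lit 259)))))) (XT.nd (nat_lit 546) (nat_lit 76) (nat_lit 0) (XT.nd (nat_lit 234) (nat_lit 0) (nat_lit 0) (XT.nd (nat_lit 78) (nat_lit 0) (nat_lit 0) (XT.lf (nat_lit 0) (nat_lit 1364042344369)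 (nat_lit 152) (nat_lit 2807505709998) (nat_lit 0) (nat_lit 1340618498473) (nat_lit 2) (nat_lit 5) (nat_lit 4) (nat_lit 4) (nat_lit 2) (nat_lit 4) (nat_lit 523) (nat_lit 419) (nat_lit 258)) (XT.nd (nat_lit 78) (nat_lit 0) (nat_lit 0) (XT.lf (nat_lit 0) (nat_lit 1738308454666) (nat_lit 152) (nat_lit 2478585189057) (nat_lit 0) (nat_lit 1714884601557) (nat_lit 2) (nat_lit 5) (nat_lit 4) (nat_lit 4) (nat_lit 2) (nat_lit 4) (nat_lit 524) (nat_lit 419) (nat_lit 257)) (XT.lf (nat_lit 0) (nat_lit 2142515695437) (nat_lit 152) (nat_lit 2123351354697) (nat_lit 0) (nat_lit 2119091835649) (nat_lit 2) (nat_lit 5) (nat_lit 4) (nat_lit 4) (nat_lit 2) (nat_lit 4) (nat_lit 525) (nat_lit 419) (nat_lit 256)))) (XT.nd (nat_lit 156) (nat_lit 0) (nat_lit 0) (XT.nd (nat_lit 78) (nat_lit 0) (nat_lit 0) (XT.lf (nat_lit 0) (nat_lit 2579059368850) (nat_lit 152) (nat_lit 1739699117528) (nat_lit 0) (nat_lit 2555635502878)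 (nat_lit 2) (nat_lit 5) (nat_lit 4) (nat_lit 4) (nat_lit 2) (nat_lit 4) (nat_lit 526) (nat_lit 419) (nat_lit 255)) (XT.lf (nat_lit 0) (nat_lit 3050526400377) (nat_lit 152) (nat_lit 1325354982812) (nat_lit 0) (nat_lit 3027102528679) (nat_lit 2) (nat_lit 5) (nat_lit 4) (nat_lit 4) (nat_lit 2) (nat_lit 4) (nat_lit 527) (nat_lit 419) (nat_lit 254))) (XT.nd (nat_lit 78) (nat_lit 0) (nat_lit 0) (XT.lf (nat_lit 0) (nat_lit 3559710668723) (nat_lit 152) (nat_lit 877863577897) (nat_lit 0) (nat_lit 3536286791724) (nat_lit 2) (nat_lit 5) (nat_lit 4) (nat_lit 4) (nat_lit 2) (nat_lit 4) (nat_lit 528) (nat_lit 419) (nat_lit 253)) (XT.lf (nat_lit 0) (nat_lit 4109629562145) (nat_lit 152) (nat_lit 394573101868) (nat_lit 0) (nat_lit 4086205680238) (nat_lit 2) (nat_lit 5) (nat_lit 4) (nat_lit 4) (nat_lit 2) (nat_lit 4) (nat_lit 529) (nat_lit 419) (nat_lit 252))))) (XT.nd (nat_lit 234) (nat_lit 0) (nat_lit 0)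 (XT.nd (nat_lit 78) (nat_lit 0) (nat_lit 0) (XT.lf (nat_lit 0) (nat_lit 134088014377) (nat_lit 76) (nat_lit 4572678664865) (nat_lit 76) (nat_lit 4549254778412) (nat_lit 1) (nat_lit 4) (nat_lit 2) (nat_lit 5) (nat_lit 2) (nat_lit 4) (nat_lit 530) (nat_lit 419) (nat_lit 251)) (XT.nd (nat_lit 78) (nat_lit 0) (nat_lit 0) (XT.lf (nat_lit 0) (nat_lit 727481524099) (nat_lit 76) (nat_lit 4634981464433) (nat_lit 76) (nat_lit 4611557573771) (nat_lit 1) (nat_lit 4) (nat_lit 2) (nat_lit 5) (nat_lit 2) (nat_lit 4) (nat_lit 531) (nat_lit 419) (nat_lit 250)) (XT.lf (nat_lit 0) (nat_lit 1368346312978) (nat_lit 76) (nat_lit 4702268592342) (nat_lit 76) (nat_lit 4678844697784) (nat_lit 1) (nat_lit 4) (nat_lit 2) (nat_lit 5) (nat_lit 2) (nat_lit 4) (nat_lit 532) (nat_lit 419) (nat_lit 249)))) (XT.nd (nat_lit 156) (nat_lit 0) (nat_lit 0) (XT.nd (nat_lit 78) (nat_lit 0) (nat_lit 0) (XT.lf (nat_lit 0) (nat_lit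 2060480098283) (nat_lit 76) (nat_lit 4774938787128) (nat_lit 76) (nat_lit 4751514888962) (nat_lit 1) (nat_lit 4) (nat_lit 2) (nat_lit 5) (nat_lit 2) (nat_lit 4) (nat_lit 533) (nat_lit 419) (nat_lit 248)) (XT.lf (nat_lit 0) (nat_lit 2807984413556) (nat_lit 76) (nat_lit 4853422686982) (nat_lit 76) (nat_lit 4829998785474) (nat_lit 1) (nat_lit 4) (nat_lit 2) (nat_lit 5) (nat_lit 2) (nat_lit 4) (nat_lit 534) (nat_lit 419) (nat_lit 247))) (XT.nd (nat_lit 78) (nat_lit 0) (nat_lit 0) (XT.lf (nat_lit 0) (nat_lit 3615288913999) (nat_lit 76) (nat_lit 4938185381681) (nat_lit 76) (nat_lit 4914761477080) (nat_lit 1) (nat_lit 4) (nat_lit 2) (nat_lit 5) (nat_lit 2) (nat_lit 4) (nat_lit 535) (nat_lit 419) (nat_lit 246)) (XT.lf (nat_lit 0) (nat_lit 4487177626281) (nat_lit 76) (nat_lit 5029729168674) (nat_lit 76) (nat_lit 5006305261209) (nat_lit 1) (nat_lit 4) (nat_lit 2) (nat_lit 5) (nat_lit 2) (nat_lit 4)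 (nat_lit 536) (nat_lit 419) (nat_lit 245))))))) (XT.nd (nat_lit 54054) (nat_lit 0) (nat_lit 4484) (XT.nd (nat_lit 53508) (nat_lit 0) (nat_lit 6156) (XT.nd (nat_lit 234) (nat_lit 0) (nat_lit 0) (XT.nd (nat_lit 78) (nat_lit 0) (nat_lit 0) (XT.lf (nat_lit 0) (nat_lit 5428817298326) (nat_lit 76) (nat_lit 5128596529663) (nat_lit 76) (nat_lit 5105172619546) (nat_lit 1) (nat_lit 4) (nat_lit 2) (nat_lit 5) (nat_lit 2) (nat_lit 4) (nat_lit 537) (nat_lit 419) (nat_lit 244)) (XT.nd (nat_lit 78) (nat_lit 0) (nat_lit 0) (XT.lf (nat_lit 0) (nat_lit 6445788017080) (nat_lit 76) (nat_lit 5235373345306) (nat_lit 76) (nat_lit 5211949432733) (nat_lit 1) (nat_lit 4) (nat_lit 2) (nat_lit 5) (nat_lit 2) (nat_lit 4) (nat_lit 538) (nat_lit 419) (nat_lit 243)) (XT.lf (nat_lit 0) (nat_lit 7544116275691) (nat_lit 76) (nat_lit 5350692367102) (nat_lit 76) (nat_lit 5327268452256) (nat_lit 1) (nat_lit 4) (nat_lit 2) (nat_lit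 5) (nat_lit 2) (nat_lit 4) (nat_lit 539) (nat_lit 419) (nat_lit 242)))) (XT.nd (nat_lit 53118) (nat_lit 0) (nat_lit 6992) (XT.nd (nat_lit 78) (nat_lit 0) (nat_lit 0) (XT.lf (nat_lit 0) (nat_lit 8730310686063) (nat_lit 76) (nat_lit 5475236967033) (nat_lit 76) (nat_lit 5451813050081) (nat_lit 1) (nat_lit 4) (nat_lit 2) (nat_lit 5) (nat_lit 2) (nat_lit 4) (nat_lit 540) (nat_lit 419) (nat_lit 241)) (XT.lf (nat_lit 0) (nat_lit 10011400548404) (nat_lit 76) (nat_lit 5609745187172) (nat_lit 76) (nat_lit 5586321268271) (nat_lit 1) (nat_lit 4) (nat_lit 2) (nat_lit 5) (nat_lit 2) (nat_lit 4) (nat_lit 541) (nat_lit 419) (nat_lit 240))) (XT.nd (nat_lit 78) (nat_lit 0) (nat_lit 0) (XT.lf (nat_lit 0) (nat_lit 8580120554) (nat_lit 532) (nat_lit 470812197) (nat_lit 532) (nat_lit 470812197) (nat_lit 93) (nat_lit 3) (nat_lit 100) (nat_lit 3) (nat_lit 100) (nat_lit 5) (nat_lit 420) (nat_lit 420) (nat_lit 360))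 (XT.lf (nat_lit 76) (nat_lit 8992017639) (nat_lit 0) (nat_lit 9243473196) (nat_lit 532) (nat_lit 1538608429) (nat_lit 94) (nat_lit 5) (nat_lit 93) (nat_lit 3) (nat_lit 100) (nat_lit 5) (nat_lit 421) (nat_lit 420) (nat_lit 359))))) (XT.nd (nat_lit 234) (nat_lit 380) (nat_lit 0) (XT.nd (nat_lit 78) (nat_lit 532) (nat_lit 0) (XT.lf (nat_lit 0) (nat_lit 19413639595) (nat_lit 456) (nat_lit 807050217) (nat_lit 532) (nat_lit 341119547) (nat_lit 94) (nat_lit 5) (nat_lit 100) (nat_lit 5) (nat_lit 101) (nat_lit 5) (nat_lit 422) (nat_lit 420) (nat_lit 358)) (XT.nd (nat_lit 78) (nat_lit 532) (nat_lit 0) (XT.lf (nat_lit 76) (nat_lit 10226927039) (nat_lit 0) (nat_lit 10929126359) (nat_lit 532) (nat_lit 218883943) (nat_lit 95) (nat_lit 5) (nat_lit 94) (nat_lit 5) (nat_lit 101) (nat_lit 5) (nat_lit 423) (nat_lit 420) (nat_lit 357)) (XT.lf (nat_lit 0) (nat_lit 752639369) (nat_lit 532) (nat_lit 92385292)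 (nat_lit 608) (nat_lit 21406010822) (nat_lit 87) (nat_lit 5) (nat_lit 94) (nat_lit 5) (nat_lit 95) (nat_lit 5) (nat_lit 424) (nat_lit 420) (nat_lit 356)))) (XT.nd (nat_lit 156) (nat_lit 456) (nat_lit 0) (XT.nd (nat_lit 78) (nat_lit 0) (nat_lit 0) (XT.lf (nat_lit 0) (nat_lit 2324882257) (nat_lit 532) (nat_lit 10968824171) (nat_lit 608) (nat_lit 9860276067) (nat_lit 88) (nat_lit 5) (nat_lit 95) (nat_lit 5) (nat_lit 96) (nat_lit 5) (nat_lit 425) (nat_lit 420) (nat_lit 355)) (XT.lf (nat_lit 76) (nat_lit 1355812383) (nat_lit 0) (nat_lit 2710803746) (nat_lit 608) (nat_lit 20059053781) (nat_lit 89) (nat_lit 5) (nat_lit 88) (nat_lit 5) (nat_lit 96) (nat_lit 5) (nat_lit 426) (nat_lit 420) (nat_lit 354))) (XT.nd (nat_lit 78) (nat_lit 532) (nat_lit 0) (XT.lf (nat_lit 0) (nat_lit 6452411276) (nat_lit 532) (nat_lit 10090318922) (nat_lit 76) (nat_lit 8591985768) (nat_lit 89) (nat_lit 5) (nat_lit 96) (nat_lit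 5) (nat_lit 90) (nat_lit 5) (nat_lit 427) (nat_lit 420) (nat_lit 353)) (XT.lf (nat_lit 0) (nat_lit 3707555626) (nat_lit 532) (nat_lit 5469369458) (nat_lit 608) (nat_lit 17035733562) (nat_lit 82) (nat_lit 5) (nat_lit 89) (nat_lit 5) (nat_lit 90) (nat_lit 5) (nat_lit 428) (nat_lit 420) (nat_lit 352)))))) (XT.nd (nat_lit 546) (nat_lit 684) (nat_lit 0) (XT.nd (nat_lit 234) (nat_lit 760) (nat_lit 0) (XT.nd (nat_lit 78) (nat_lit 228) (nat_lit 0) (XT.lf (nat_lit 0) (nat_lit 12547428128) (nat_lit 608) (nat_lit 8346608266) (nat_lit 76) (nat_lit 6448559339) (nat_lit 82) (nat_lit 5) (nat_lit 90) (nat_lit 5) (nat_lit 83) (nat_lit 5) (nat_lit 429) (nat_lit 420) (nat_lit 351)) (XT.nd (nat_lit 78) (nat_lit 0) (nat_lit 0) (XT.lf (nat_lit 0) (nat_lit 7149307755) (nat_lit 228) (nat_lit 9341982651) (nat_lit 304) (nat_lit 12047341016) (nat_lit 79) (nat_lit 5) (nat_lit 82) (nat_lit 5) (nat_lit 83) (nat_lit 5)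 (nat_lit 430) (nat_lit 420) (nat_lit 350)) (XT.lf (nat_lit 0) (nat_lit 21050384075) (nat_lit 304) (nat_lit 5545147103) (nat_lit 76) (nat_lit 3210842063) (nat_lit 79) (nat_lit 5) (nat_lit 83) (nat_lit 5) (nat_lit 80) (nat_lit 5) (nat_lit 431) (nat_lit 420) (nat_lit 349)))) (XT.nd (nat_lit 156) (nat_lit 532) (nat_lit 0) (XT.nd (nat_lit 78) (nat_lit 0) (nat_lit 0) (XT.lf (nat_lit 0) (nat_lit 11909174562) (nat_lit 228) (nat_lit 14585026387) (nat_lit 304) (nat_lit 4639734785) (nat_lit 76) (nat_lit 5) (nat_lit 79) (nat_lit 5) (nat_lit 80) (nat_lit 5) (nat_lit 432) (nat_lit 420) (nat_lit 348)) (XT.lf (nat_lit 0) (nat_lit 31064979571) (nat_lit 228) (nat_lit 1451514631) (nat_lit 304) (nat_lit 39772258) (nat_lit 76) (nat_lit 5) (nat_lit 79) (nat_lit 5) (nat_lit 80) (nat_lit 5) (nat_lit 433) (nat_lit 420) (nat_lit 347))) (XT.nd (nat_lit 78) (nat_lit 228) (nat_lit 0) (XT.lf (nat_lit 0) (nat_lit 5438095261)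 (nat_lit 304) (nat_lit 15913164920) (nat_lit 76) (nat_lit 12671127536) (nat_lit 72) (nat_lit 5) (nat_lit 76) (nat_lit 5) (nat_lit 73) (nat_lit 5) (nat_lit 434) (nat_lit 420) (nat_lit 346)) (XT.lf (nat_lit 0) (nat_lit 3905387371) (nat_lit 228) (nat_lit 7612237111) (nat_lit 304) (nat_lit 24074845791) (nat_lit 69) (nat_lit 5) (nat_lit 72) (nat_lit 5) (nat_lit 73) (nat_lit 5) (nat_lit 435) (nat_lit 420) (nat_lit 345))))) (XT.nd (nat_lit 312) (nat_lit 304) (nat_lit 0) (XT.nd (nat_lit 156) (nat_lit 228) (nat_lit 0) (XT.nd (nat_lit 78) (nat_lit 152) (nat_lit 0) (XT.lf (nat_lit 0) (nat_lit 18696101019) (nat_lit 304) (nat_lit 11234532062) (nat_lit 76) (nat_lit 7308520228) (nat_lit 69) (nat_lit 5) (nat_lit 73) (nat_lit 5) (nat_lit 70) (nat_lit 5) (nat_lit 436) (nat_lit 420) (nat_lit 344)) (XT.lf (nat_lit 0) (nat_lit 11207405754) (nat_lit 152) (nat_lit 15701677676) (nat_lit 228) (nat_lit 12071669960)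 (nat_lit 67) (nat_lit 5) (nat_lit 69) (nat_lit 5) (nat_lit 70) (nat_lit 5) (nat_lit 437) (nat_lit 420) (nat_lit 343))) (XT.nd (nat_lit 78) (nat_lit 228) (nat_lit 0) (XT.lf (nat_lit 0) (nat_lit 36074126410) (nat_lit 152) (nat_lit 5411556) (nat_lit 228) (nat_lit 4758109405) (nat_lit 67) (nat_lit 5) (nat_lit 69) (nat_lit 5) (nat_lit 70) (nat_lit 5) (nat_lit 438) (nat_lit 420) (nat_lit 342)) (XT.lf (nat_lit 0) (nat_lit 3906036995) (nat_lit 228) (nat_lit 22163936122) (nat_lit 76) (nat_lit 16693269584) (nat_lit 64) (nat_lit 5) (nat_lit 67) (nat_lit 5) (nat_lit 65) (nat_lit 5) (nat_lit 439) (nat_lit 420) (nat_lit 341)))) (XT.nd (nat_lit 156) (nat_lit 152) (nat_lit 0) (XT.nd (nat_lit 78) (nat_lit 0) (nat_lit 0) (XT.lf (nat_lit 0) (nat_lit 3466582283) (nat_lit 152) (nat_lit 9750601551) (nat_lit 228) (nat_lit 31598940882) (nat_lit 62) (nat_lit 5) (nat_lit 64) (nat_lit 5) (nat_lit 65) (nat_lit 5) (nat_lit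 440) (nat_lit 420) (nat_lit 340)) (XT.lf (nat_lit 0) (nat_lit 24078300236) (nat_lit 228) (nat_lit 14791336278) (nat_lit 76) (nat_lit 8099194977) (nat_lit 62) (nat_lit 5) (nat_lit 65) (nat_lit 5) (nat_lit 63) (nat_lit 5) (nat_lit 441) (nat_lit 420) (nat_lit 339))) (XT.nd (nat_lit 78) (nat_lit 0) (nat_lit 0) (XT.lf (nat_lit 0) (nat_lit 14347184893) (nat_lit 152) (nat_lit 22053839734) (nat_lit 228) (nat_lit 12845313079) (nat_lit 60) (nat_lit 5) (nat_lit 62) (nat_lit 5) (nat_lit 63) (nat_lit 5) (nat_lit 442) (nat_lit 420) (nat_lit 338)) (XT.lf (nat_lit 0) (nat_lit 46649423133) (nat_lit 152) (nat_lit 3459179809) (nat_lit 228) (nat_lit 1565518963) (nat_lit 60) (nat_lit 5) (nat_lit 62) (nat_lit 5) (nat_lit 63) (nat_lit 5) (nat_lit 443) (nat_lit 420) (nat_lit 337))))))))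
noncomputable def xc140 : XT := (XT.nd (nat_lit 2184) (nat_lit 1596) (nat_lit 0) (XT.nd (nat_lit 1092) (nat_lit 988) (nat_lit 0) (XT.nd (nat_lit 546) (nat_lit 532) (nat_lit 0) (XT.nd (nat_lit 234) (nat_lit 380) (nat_lit 0) (XT.nd (nat_lit 78) (nat_lit 152) (nat_lit 0) (XT.lf (nat_lit 0) (nat_lit 11187476938) (nat_lit 152) (nat_lit 26248855984) (nat_lit 76) (nat_lit 16751217236) (nat_lit 58) (nat_lit 5) (nat_lit 60) (nat_lit 5) (nat_lit 59) (nat_lit 5) (nat_lit 444) (nat_lit 420) (nat_lit 336)) (XT.nd (nat_lit 78) (nat_lit 0) (nat_lit 0) (XT.lf (nat_lit 0) (nat_lit 7149091996) (nat_lit 152) (nat_lit 18124776044) (nat_lit 228) (nat_lit 31593113154) (nat_lit 56) (nat_lit 5) (nat_lit 58) (nat_lit 5) (nat_lit 59) (nat_lit 5) (nat_lit 445) (nat_lit 420) (nat_lit 335)) (XT.lf (nat_lit 0) (nat_lit 41284293612) (nat_lit 228) (nat_lit 15084426380) (nat_lit 76) (nat_lit 3328277134) (nat_lit 56) (nat_lit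 5) (nat_lit 59) (nat_lit 5) (nat_lit 57) (nat_lit 4) (nat_lit 446) (nat_lit 420) (nat_lit 334)))) (XT.nd (nat_lit 156) (nat_lit 228) (nat_lit 0) (XT.nd (nat_lit 78) (nat_lit 76) (nat_lit 0) (XT.lf (nat_lit 0) (nat_lit 22991271859) (nat_lit 76) (nat_lit 36603452875) (nat_lit 152) (nat_lit 3077156126) (nat_lit 55) (nat_lit 5) (nat_lit 56) (nat_lit 5) (nat_lit 57) (nat_lit 4) (nat_lit 447) (nat_lit 420) (nat_lit 333)) (XT.lf (nat_lit 0) (nat_lit 13229293781) (nat_lit 152) (nat_lit 1223727638) (nat_lit 76) (nat_lit 51372296883) (nat_lit 54) (nat_lit 5) (nat_lit 56) (nat_lit 5) (nat_lit 55) (nat_lit 5) (nat_lit 448) (nat_lit 420) (nat_lit 332))) (XT.nd (nat_lit 78) (nat_lit 76) (nat_lit 0) (XT.lf (nat_lit 0) (nat_lit 31944327619) (nat_lit 228) (nat_lit 27059118508) (nat_lit 76) (nat_lit 10119565575) (nat_lit 52) (nat_lit 5) (nat_lit 55) (nat_lit 5) (nat_lit 53) (nat_lit 4) (nat_lit 449) (nat_lit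 420) (nat_lit 331)) (XT.lf (nat_lit 0) (nat_lit 16651674695) (nat_lit 76) (nat_lit 36310990614) (nat_lit 152) (nat_lit 19657367355) (nat_lit 51) (nat_lit 5) (nat_lit 52) (nat_lit 5) (nat_lit 53) (nat_lit 4) (nat_lit 450) (nat_lit 420) (nat_lit 330))))) (XT.nd (nat_lit 234) (nat_lit 228) (nat_lit 0) (XT.nd (nat_lit 78) (nat_lit 228) (nat_lit 0) (XT.lf (nat_lit 0) (nat_lit 57376745) (nat_lit 152) (nat_lit 10948317252) (nat_lit 76) (nat_lit 65332135374) (nat_lit 50) (nat_lit 5) (nat_lit 52) (nat_lit 5) (nat_lit 51) (nat_lit 5) (nat_lit 451) (nat_lit 420) (nat_lit 329)) (XT.nd (nat_lit 78) (nat_lit 76) (nat_lit 0) (XT.lf (nat_lit 0) (nat_lit 21654391726) (nat_lit 228) (nat_lit 41554952898) (nat_lit 76) (nat_lit 16993490876) (nat_lit 48) (nat_lit 5) (nat_lit 51) (nat_lit 5) (nat_lit 49) (nat_lit 4) (nat_lit 452) (nat_lit 420) (nat_lit 328)) (XT.lf (nat_lit 0) (nat_lit 8611629629) (nat_lit 76)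 (nat_lit 37163908444) (nat_lit 152) (nat_lit 38537794566) (nat_lit 47) (nat_lit 5) (nat_lit 48) (nat_lit 5) (nat_lit 49) (nat_lit 4) (nat_lit 453) (nat_lit 420) (nat_lit 327)))) (XT.nd (nat_lit 156) (nat_lit 76) (nat_lit 0) (XT.nd (nat_lit 78) (nat_lit 152) (nat_lit 0) (XT.lf (nat_lit 0) (nat_lit 65148132979) (nat_lit 76) (nat_lit 7810821001) (nat_lit 152) (nat_lit 15703109466) (nat_lit 47) (nat_lit 5) (nat_lit 48) (nat_lit 5) (nat_lit 49) (nat_lit 4) (nat_lit 454) (nat_lit 420) (nat_lit 326)) (XT.lf (nat_lit 0) (nat_lit 9934338655) (nat_lit 152) (nat_lit 59532059429) (nat_lit 76) (nat_lit 23761129161) (nat_lit 45) (nat_lit 5) (nat_lit 47) (nat_lit 5) (nat_lit 46) (nat_lit 4) (nat_lit 455) (nat_lit 420) (nat_lit 325))) (XT.nd (nat_lit 78) (nat_lit 76) (nat_lit 0) (XT.lf (nat_lit 0) (nat_lit 37633504751) (nat_lit 152) (nat_lit 1921764488) (nat_lit 76) (nat_lit 58501601335) (nat_lit 45) (nat_lit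 5) (nat_lit 47) (nat_lit 5) (nat_lit 46) (nat_lit 4) (nat_lit 456) (nat_lit 420) (nat_lit 324)) (XT.lf (nat_lit 0) (nat_lit 63466272851) (nat_lit 76) (nat_lit 5605555825) (nat_lit 152) (nat_lit 34078874821) (nat_lit 44) (nat_lit 5) (nat_lit 45) (nat_lit 5) (nat_lit 46) (nat_lit 4) (nat_lit 457) (nat_lit 420) (nat_lit 323)))))) (XT.nd (nat_lit 546) (nat_lit 532) (nat_lit 0) (XT.nd (nat_lit 234) (nat_lit 228) (nat_lit 0) (XT.nd (nat_lit 78) (nat_lit 152) (nat_lit 0) (XT.lf (nat_lit 0) (nat_lit 26098023563) (nat_lit 76) (nat_lit 78352646760) (nat_lit 76) (nat_lit 4087336672) (nat_lit 43) (nat_lit 4) (nat_lit 44) (nat_lit 5) (nat_lit 44) (nat_lit 4) (nat_lit 458) (nat_lit 420) (nat_lit 322)) (XT.nd (nat_lit 78) (nat_lit 76) (nat_lit 0) (XT.lf (nat_lit 0) (nat_lit 28143392068) (nat_lit 152) (nat_lit 15729973050) (nat_lit 76) (nat_lit 70328015733) (nat_lit 42) (nat_lit 5) (nat_lit 44) (nat_lit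 5) (nat_lit 43) (nat_lit 4) (nat_lit 459) (nat_lit 420) (nat_lit 321)) (XT.lf (nat_lit 0) (nat_lit 59164816663) (nat_lit 76) (nat_lit 4986985019) (nat_lit 152) (nat_lit 56043926241) (nat_lit 41) (nat_lit 5) (nat_lit 42) (nat_lit 5) (nat_lit 43) (nat_lit 4) (nat_lit 460) (nat_lit 420) (nat_lit 320)))) (XT.nd (nat_lit 156) (nat_lit 76) (nat_lit 0) (XT.nd (nat_lit 78) (nat_lit 76) (nat_lit 0) (XT.lf (nat_lit 0) (nat_lit 14109556977) (nat_lit 76) (nat_lit 90599167878) (nat_lit 76) (nat_lit 21827470703) (nat_lit 40) (nat_lit 4) (nat_lit 41) (nat_lit 5) (nat_lit 41) (nat_lit 4) (nat_lit 461) (nat_lit 420) (nat_lit 319)) (XT.lf (nat_lit 0) (nat_lit 16208350155) (nat_lit 152) (nat_lit 35060474012) (nat_lit 76) (nat_lit 81938875240) (nat_lit 39) (nat_lit 5) (nat_lit 41) (nat_lit 5) (nat_lit 40) (nat_lit 4) (nat_lit 462) (nat_lit 420) (nat_lit 318))) (XT.nd (nat_lit 78) (nat_lit 0) (nat_lit 0) (XT.lf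 (nat_lit 0) (nat_lit 50446431549) (nat_lit 76) (nat_lit 6871962749) (nat_lit 152) (nat_lit 82952324891) (nat_lit 38) (nat_lit 5) (nat_lit 39) (nat_lit 5) (nat_lit 40) (nat_lit 4) (nat_lit 463) (nat_lit 420) (nat_lit 317)) (XT.lf (nat_lit 0) (nat_lit 103686036332) (nat_lit 152) (nat_lit 4052230056) (nat_lit 0) (nat_lit 40003010664) (nat_lit 38) (nat_lit 5) (nat_lit 40) (nat_lit 4) (nat_lit 38) (nat_lit 4) (nat_lit 464) (nat_lit 420) (nat_lit 316))))) (XT.nd (nat_lit 234) (nat_lit 304) (nat_lit 0) (XT.nd (nat_lit 78) (nat_lit 76) (nat_lit 0) (XT.lf (nat_lit 0) (nat_lit 532684176) (nat_lit 152) (nat_lit 62576619336) (nat_lit 76) (nat_lit 92505976907) (nat_lit 36) (nat_lit 5) (nat_lit 38) (nat_lit 5) (nat_lit 37) (nat_lit 4) (nat_lit 465) (nat_lit 420) (nat_lit 315)) (XT.nd (nat_lit 78) (nat_lit 0) (nat_lit 0) (XT.lf (nat_lit 0) (nat_lit 34595599688) (nat_lit 76) (nat_lit 12655199384) (nat_lit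 152) (nat_lit 116701398997) (nat_lit 35) (nat_lit 5) (nat_lit 36) (nat_lit 5) (nat_lit 37) (nat_lit 4) (nat_lit 466) (nat_lit 420) (nat_lit 314)) (XT.lf (nat_lit 0) (nat_lit 100465494195) (nat_lit 152) (nat_lit 30774178253) (nat_lit 0) (nat_lit 41495666234) (nat_lit 35) (nat_lit 5) (nat_lit 37) (nat_lit 4) (nat_lit 35) (nat_lit 4) (nat_lit 467) (nat_lit 420) (nat_lit 313)))) (XT.nd (nat_lit 156) (nat_lit 76) (nat_lit 0) (XT.nd (nat_lit 78) (nat_lit 152) (nat_lit 0) (XT.lf (nat_lit 0) (nat_lit 79330106259) (nat_lit 76) (nat_lit 80841630737) (nat_lit 76) (nat_lit 21870643813) (nat_lit 34) (nat_lit 4) (nat_lit 35) (nat_lit 5) (nat_lit 35) (nat_lit 4) (nat_lit 468) (nat_lit 420) (nat_lit 312)) (XT.lf (nat_lit 0) (nat_lit 7533705795) (nat_lit 76) (nat_lit 24440220085) (nat_lit 152) (nat_lit 159974034747) (nat_lit 32) (nat_lit 5) (nat_lit 33) (nat_lit 5) (nat_lit 34) (nat_lit 4) (nat_lit 469)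 (nat_lit 420) (nat_lit 311))) (XT.nd (nat_lit 78) (nat_lit 76) (nat_lit 0) (XT.lf (nat_lit 0) (nat_lit 92700729040) (nat_lit 152) (nat_lit 71503262539) (nat_lit 0) (nat_lit 38096049724) (nat_lit 32) (nat_lit 5) (nat_lit 34) (nat_lit 4) (nat_lit 32) (nat_lit 4) (nat_lit 470) (nat_lit 420) (nat_lit 310)) (XT.lf (nat_lit 0) (nat_lit 52424147014) (nat_lit 76) (nat_lit 107755093742) (nat_lit 76) (nat_lit 53149562555) (nat_lit 31) (nat_lit 4) (nat_lit 32) (nat_lit 5) (nat_lit 32) (nat_lit 4) (nat_lit 471) (nat_lit 420) (nat_lit 309))))))) (XT.nd (nat_lit 1092) (nat_lit 684) (nat_lit 0) (XT.nd (nat_lit 546) (nat_lit 456) (nat_lit 0) (XT.nd (nat_lit 234) (nat_lit 228) (nat_lit 0) (XT.nd (nat_lit 78) (nat_lit 152) (nat_lit 0) (XT.lf (nat_lit 0) (nat_lit 9428931386) (nat_lit 152) (nat_lit 34994142673) (nat_lit 76) (nat_lit 180641453072) (nat_lit 30) (nat_lit 5) (nat_lit 32) (nat_lit 5) (nat_lit 31)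 (nat_lit 4) (nat_lit 472) (nat_lit 420) (nat_lit 308)) (XT.nd (nat_lit 78) (nat_lit 76) (nat_lit 0) (XT.lf (nat_lit 0) (nat_lit 77339916764) (nat_lit 152) (nat_lit 133255104807) (nat_lit 0) (nat_lit 26777833151) (nat_lit 29) (nat_lit 5) (nat_lit 31) (nat_lit 4) (nat_lit 29) (nat_lit 4) (nat_lit 473) (nat_lit 420) (nat_lit 307)) (XT.lf (nat_lit 0) (nat_lit 4817928622) (nat_lit 76) (nat_lit 148115335513) (nat_lit 76) (nat_lit 97552625749) (nat_lit 28) (nat_lit 4) (nat_lit 29) (nat_lit 5) (nat_lit 29) (nat_lit 4) (nat_lit 474) (nat_lit 420) (nat_lit 306)))) (XT.nd (nat_lit 156) (nat_lit 76) (nat_lit 0) (XT.nd (nat_lit 78) (nat_lit 152) (nat_lit 0) (XT.lf (nat_lit 0) (nat_lit 161511414349) (nat_lit 76) (nat_lit 76704257814) (nat_lit 76) (nat_lit 26140968281) (nat_lit 28) (nat_lit 4) (nat_lit 29) (nat_lit 5) (nat_lit 29) (nat_lit 4) (nat_lit 475) (nat_lit 420) (nat_lit 305)) (XT.lf (nat_lit 0)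 (nat_lit 49776578724) (nat_lit 152) (nat_lit 226396689630) (nat_lit 0) (nat_lit 2958220986) (nat_lit 26) (nat_lit 5) (nat_lit 28) (nat_lit 4) (nat_lit 26) (nat_lit 4) (nat_lit 476) (nat_lit 420) (nat_lit 304))) (XT.nd (nat_lit 78) (nat_lit 76) (nat_lit 0) (XT.lf (nat_lit 0) (nat_lit 135230823756) (nat_lit 152) (nat_lit 71001130889) (nat_lit 0) (nat_lit 88412005778) (nat_lit 26) (nat_lit 5) (nat_lit 28) (nat_lit 4) (nat_lit 26) (nat_lit 4) (nat_lit 477) (nat_lit 420) (nat_lit 303)) (XT.lf (nat_lit 0) (nat_lit 101921305379) (nat_lit 76) (nat_lit 128049700093) (nat_lit 76) (nat_lit 81230455966) (nat_lit 25) (nat_lit 4) (nat_lit 26) (nat_lit 5) (nat_lit 26) (nat_lit 4) (nat_lit 478) (nat_lit 420) (nat_lit 302))))) (XT.nd (nat_lit 234) (nat_lit 304) (nat_lit 0) (XT.nd (nat_lit 78) (nat_lit 76) (nat_lit 0) (XT.lf (nat_lit 0) (nat_lit 5036529072) (nat_lit 152) (nat_lit 36343658237) (nat_lit 76)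 (nat_lit 287537996552) (nat_lit 24) (nat_lit 5) (nat_lit 26) (nat_lit 5) (nat_lit 25) (nat_lit 4) (nat_lit 479) (nat_lit 420) (nat_lit 301)) (XT.nd (nat_lit 78) (nat_lit 0) (nat_lit 0) (XT.lf (nat_lit 0) (nat_lit 98977886588) (nat_lit 152) (nat_lit 192866610510) (nat_lit 0) (nat_lit 55626030976) (nat_lit 23) (nat_lit 5) (nat_lit 25) (nat_lit 4) (nat_lit 23) (nat_lit 4) (nat_lit 480) (nat_lit 420) (nat_lit 300)) (XT.lf (nat_lit 0) (nat_lit 202527384264) (nat_lit 152) (nat_lit 5637033626) (nat_lit 0) (nat_lit 159175215419) (nat_lit 23) (nat_lit 5) (nat_lit 25) (nat_lit 4) (nat_lit 23) (nat_lit 4) (nat_lit 481) (nat_lit 420) (nat_lit 299)))) (XT.nd (nat_lit 156) (nat_lit 76) (nat_lit 0) (XT.nd (nat_lit 78) (nat_lit 152) (nat_lit 0) (XT.lf (nat_lit 0) (nat_lit 206919017399) (nat_lit 76) (nat_lit 112416853074) (nat_lit 76) (nat_lit 69064394200) (nat_lit 22) (nat_lit 4) (nat_lit 23) (nat_lit 5)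 (nat_lit 23) (nat_lit 4) (nat_lit 482) (nat_lit 420) (nat_lit 298)) (XT.lf (nat_lit 0) (nat_lit 26141649701) (nat_lit 76) (nat_lit 7269108529) (nat_lit 152) (nat_lit 377606074999) (nat_lit 20) (nat_lit 5) (nat_lit 21) (nat_lit 5) (nat_lit 22) (nat_lit 4) (nat_lit 483) (nat_lit 420) (nat_lit 297))) (XT.nd (nat_lit 78) (nat_lit 76) (nat_lit 0) (XT.lf (nat_lit 0) (nat_lit 147998466822) (nat_lit 152) (nat_lit 178832262504) (nat_lit 0) (nat_lit 107856822310) (nat_lit 20) (nat_lit 5) (nat_lit 22) (nat_lit 4) (nat_lit 20) (nat_lit 4) (nat_lit 484) (nat_lit 420) (nat_lit 296)) (XT.lf (nat_lit 0) (nat_lit 45793444282) (nat_lit 76) (nat_lit 227248615749) (nat_lit 76) (nat_lit 187106758057) (nat_lit 19) (nat_lit 4) (nat_lit 20) (nat_lit 5) (nat_lit 20) (nat_lit 4) (nat_lit 485) (nat_lit 420) (nat_lit 295)))))) (XT.nd (nat_lit 546) (nat_lit 304) (nat_lit 0) (XT.nd (nat_lit 234) (nat_lit 228) (nat_lit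 0) (XT.nd (nat_lit 78) (nat_lit 152) (nat_lit 0) (XT.lf (nat_lit 0) (nat_lit 298557009548) (nat_lit 76) (nat_lit 114420481676) (nat_lit 76) (nat_lit 74278426595) (nat_lit 19) (nat_lit 4) (nat_lit 20) (nat_lit 5) (nat_lit 20) (nat_lit 4) (nat_lit 486) (nat_lit 420) (nat_lit 294)) (XT.nd (nat_lit 78) (nat_lit 0) (nat_lit 0) (XT.lf (nat_lit 0) (nat_lit 46802566109) (nat_lit 152) (nat_lit 459875147616) (nat_lit 0) (nat_lit 9633827360) (nat_lit 17) (nat_lit 5) (nat_lit 19) (nat_lit 4) (nat_lit 17) (nat_lit 4) (nat_lit 487) (nat_lit 420) (nat_lit 293)) (XT.lf (nat_lit 0) (nat_lit 181821229429) (nat_lit 152) (nat_lit 220402573579) (nat_lit 0) (nat_lit 144652333986) (nat_lit 17) (nat_lit 5) (nat_lit 19) (nat_lit 4) (nat_lit 17) (nat_lit 4) (nat_lit 488) (nat_lit 420) (nat_lit 292)))) (XT.nd (nat_lit 156) (nat_lit 152) (nat_lit 0) (XT.nd (nat_lit 78) (nat_lit 0) (nat_lit 0) (XT.lf (nat_lit 0) (nat_lit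 40238454165) (nat_lit 76) (nat_lit 288369577632) (nat_lit 76) (nat_lit 251200537102) (nat_lit 16) (nat_lit 4) (nat_lit 17) (nat_lit 5) (nat_lit 17) (nat_lit 4) (nat_lit 489) (nat_lit 420) (nat_lit 291)) (XT.lf (nat_lit 0) (nat_lit 334263067899) (nat_lit 76) (nat_lit 158899845753) (nat_lit 76) (nat_lit 121730670884) (nat_lit 16) (nat_lit 4) (nat_lit 17) (nat_lit 5) (nat_lit 17) (nat_lit 4) (nat_lit 490) (nat_lit 420) (nat_lit 290))) (XT.nd (nat_lit 78) (nat_lit 76) (nat_lit 0) (XT.lf (nat_lit 0) (nat_lit 17190501625) (nat_lit 152) (nat_lit 1413055875) (nat_lit 76) (nat_lit 634147106362) (nat_lit 15) (nat_lit 5) (nat_lit 17) (nat_lit 5) (nat_lit 16) (nat_lit 4) (nat_lit 491) (nat_lit 420) (nat_lit 289)) (XT.lf (nat_lit 0) (nat_lit 171640276670) (nat_lit 152) (nat_lit 383639611680) (nat_lit 0) (nat_lit 137224152195) (nat_lit 14) (nat_lit 5) (nat_lit 16) (nat_lit 4) (nat_lit 14) (nat_lit 4)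 (nat_lit 492) (nat_lit 420) (nat_lit 288))))) (XT.nd (nat_lit 312) (nat_lit 76) (nat_lit 0) (XT.nd (nat_lit 156) (nat_lit 152) (nat_lit 0) (XT.nd (nat_lit 78) (nat_lit 76) (nat_lit 0) (XT.lf (nat_lit 0) (nat_lit 338967949023) (nat_lit 152) (nat_lit 91876259315) (nat_lit 0) (nat_lit 304551725805) (nat_lit 14) (nat_lit 5) (nat_lit 16) (nat_lit 4) (nat_lit 14) (nat_lit 4) (nat_lit 493) (nat_lit 420) (nat_lit 287)) (XT.lf (nat_lit 0) (nat_lit 234981085217) (nat_lit 76) (nat_lit 290351186853) (nat_lit 76) (nat_lit 255934872205) (nat_lit 13) (nat_lit 4) (nat_lit 14) (nat_lit 5) (nat_lit 14) (nat_lit 4) (nat_lit 494) (nat_lit 420) (nat_lit 286))) (XT.nd (nat_lit 78) (nat_lit 152) (nat_lit 0) (XT.lf (nat_lit 0) (nat_lit 593210365110) (nat_lit 76) (nat_lit 135906593983) (nat_lit 76) (nat_lit 101490194679) (nat_lit 13) (nat_lit 4) (nat_lit 14) (nat_lit 5) (nat_lit 14) (nat_lit 4) (nat_lit 495) (nat_lit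 420) (nat_lit 285)) (XT.lf (nat_lit 0) (nat_lit 65283907085) (nat_lit 152) (nat_lit 784808728268) (nat_lit 0) (nat_lit 33416798113) (nat_lit 11) (nat_lit 5) (nat_lit 13) (nat_lit 4) (nat_lit 11) (nat_lit 4) (nat_lit 496) (nat_lit 420) (nat_lit 284)))) (XT.nd (nat_lit 156) (nat_lit 76) (nat_lit 0) (XT.nd (nat_lit 78) (nat_lit 0) (nat_lit 0) (XT.lf (nat_lit 0) (nat_lit 250105515241) (nat_lit 152) (nat_lit 471274057726) (nat_lit 0) (nat_lit 218238339065) (nat_lit 11) (nat_lit 5) (nat_lit 13) (nat_lit 4) (nat_lit 11) (nat_lit 4) (nat_lit 497) (nat_lit 420) (nat_lit 283)) (XT.lf (nat_lit 0) (nat_lit 449712112314) (nat_lit 152) (nat_lit 132658141838) (nat_lit 0) (nat_lit 417844873913) (nat_lit 11) (nat_lit 5) (nat_lit 13) (nat_lit 4) (nat_lit 11) (nat_lit 4) (nat_lit 498) (nat_lit 420) (nat_lit 282))) (XT.nd (nat_lit 78) (nat_lit 0) (nat_lit 0) (XT.lf (nat_lit 0) (nat_lit 245317402232) (nat_lit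 76) (nat_lit 425869039403) (nat_lit 76) (nat_lit 394001743386) (nat_lit 10) (nat_lit 4) (nat_lit 11) (nat_lit 5) (nat_lit 11) (nat_lit 4) (nat_lit 499) (nat_lit 420) (nat_lit 281)) (XT.lf (nat_lit 0) (nat_lit 661073996635) (nat_lit 76) (nat_lit 252931161981) (nat_lit 76) (nat_lit 221063812616) (nat_lit 10) (nat_lit 4) (nat_lit 11) (nat_lit 5) (nat_lit 11) (nat_lit 4) (nat_lit 500) (nat_lit 420) (nat_lit 280))))))))
noncomputable def xc141 : XT := (XT.nd (nat_lit 2184) (nat_lit 76) (nat_lit 0) (XT.nd (nat_lit 1092) (nat_lit 152) (nat_lit 0) (XT.nd (nat_lit 546) (nat_lit 228) (nat_lit 0) (XT.nd (nat_lit 234) (nat_lit 76) (nat_lit 0) (XT.nd (nat_lit 78) (nat_lit 152) (nat_lit 0) (XT.lf (nat_lit 0) (nat_lit 1110089841492) (nat_lit 76) (nat_lit 66158913522) (nat_lit 76) (nat_lit 34291514761) (nat_lit 10) (nat_lit 4) (nat_lit 11) (nat_lit 5) (nat_lit 11) (nat_lit 4) (nat_lit 501) (nat_lit 420)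 (nat_lit 279)) (XT.nd (nat_lit 78) (nat_lit 0) (nat_lit 0) (XT.lf (nat_lit 0) (nat_lit 170176432394) (nat_lit 152) (nat_lit 979990857502) (nat_lit 0) (nat_lit 140669539340) (nat_lit 8) (nat_lit 5) (nat_lit 10) (nat_lit 4) (nat_lit 8) (nat_lit 4) (nat_lit 502) (nat_lit 420) (nat_lit 278)) (XT.lf (nat_lit 0) (nat_lit 393684839694) (nat_lit 152) (nat_lit 619260258688) (nat_lit 0) (nat_lit 364177907427) (nat_lit 8) (nat_lit 5) (nat_lit 10) (nat_lit 4) (nat_lit 8) (nat_lit 4) (nat_lit 503) (nat_lit 420) (nat_lit 277)))) (XT.nd (nat_lit 156) (nat_lit 0) (nat_lit 0) (XT.nd (nat_lit 78) (nat_lit 76) (nat_lit 0) (XT.lf (nat_lit 0) (nat_lit 635073376359) (nat_lit 152) (nat_lit 229672335825) (nat_lit 0) (nat_lit 605566407784) (nat_lit 8) (nat_lit 5) (nat_lit 10) (nat_lit 4) (nat_lit 8) (nat_lit 4) (nat_lit 504) (nat_lit 420) (nat_lit 276)) (XT.lf (nat_lit 0) (nat_lit 201143597650) (nat_lit 76) (nat_lit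 699466403687) (nat_lit 76) (nat_lit 669959401494) (nat_lit 7) (nat_lit 4) (nat_lit 8) (nat_lit 5) (nat_lit 8) (nat_lit 4) (nat_lit 505) (nat_lit 420) (nat_lit 275))) (XT.nd (nat_lit 78) (nat_lit 0) (nat_lit 0) (XT.lf (nat_lit 0) (nat_lit 679485460787) (nat_lit 76) (nat_lit 514183254086) (nat_lit 76) (nat_lit 484676220765) (nat_lit 7) (nat_lit 4) (nat_lit 8) (nat_lit 5) (nat_lit 8) (nat_lit 4) (nat_lit 506) (nat_lit 420) (nat_lit 274)) (XT.lf (nat_lit 0) (nat_lit 1196093733843) (nat_lit 76) (nat_lit 314077937838) (nat_lit 76) (nat_lit 284570875694) (nat_lit 7) (nat_lit 4) (nat_lit 8) (nat_lit 5) (nat_lit 8) (nat_lit 4) (nat_lit 507) (nat_lit 420) (nat_lit 273))))) (XT.nd (nat_lit 234) (nat_lit 76) (nat_lit 0) (XT.nd (nat_lit 78) (nat_lit 152) (nat_lit 0) (XT.lf (nat_lit 0) (nat_lit 1754029799177) (nat_lit 76) (nat_lit 97964645661) (nat_lit 76) (nat_lit 68457556830) (nat_lit 7) (nat_lit 4)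 (nat_lit 8) (nat_lit 5) (nat_lit 8) (nat_lit 4) (nat_lit 508) (nat_lit 420) (nat_lit 272)) (XT.nd (nat_lit 78) (nat_lit 0) (nat_lit 0) (XT.lf (nat_lit 0) (nat_lit 167752612344) (nat_lit 152) (nat_lit 1746832315429) (nat_lit 0) (nat_lit 140431210916) (nat_lit 5) (nat_lit 5) (nat_lit 7) (nat_lit 4) (nat_lit 5) (nat_lit 4) (nat_lit 509) (nat_lit 420) (nat_lit 271)) (XT.lf (nat_lit 0) (nat_lit 426373713109) (nat_lit 152) (nat_lit 1374200145261) (nat_lit 0) (nat_lit 399052290496) (nat_lit 5) (nat_lit 5) (nat_lit 7) (nat_lit 4) (nat_lit 5) (nat_lit 4) (nat_lit 510) (nat_lit 420) (nat_lit 270)))) (XT.nd (nat_lit 156) (nat_lit 76) (nat_lit 0) (XT.nd (nat_lit 78) (nat_lit 0) (nat_lit 0) (XT.lf (nat_lit 0) (nat_lit 705684132504) (nat_lit 152) (nat_lit 971758166633) (nat_lit 0) (nat_lit 678362690275) (nat_lit 5) (nat_lit 5) (nat_lit 7) (nat_lit 4) (nat_lit 5) (nat_lit 4) (nat_lit 511) (nat_lit 420)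 (nat_lit 269)) (XT.lf (nat_lit 0) (nat_lit 1007339043384) (nat_lit 152) (nat_lit 537121538190) (nat_lit 0) (nat_lit 980017582993) (nat_lit 5) (nat_lit 5) (nat_lit 7) (nat_lit 4) (nat_lit 5) (nat_lit 4) (nat_lit 512) (nat_lit 420) (nat_lit 268))) (XT.nd (nat_lit 78) (nat_lit 76) (nat_lit 0) (XT.lf (nat_lit 0) (nat_lit 1333126030408) (nat_lit 152) (nat_lit 67714635467) (nat_lit 0) (nat_lit 1305804553199) (nat_lit 5) (nat_lit 5) (nat_lit 7) (nat_lit 4) (nat_lit 5) (nat_lit 4) (nat_lit 513) (nat_lit 420) (nat_lit 267)) (XT.lf (nat_lit 0) (nat_lit 462374033869) (nat_lit 76) (nat_lit 1233721755891) (nat_lit 76) (nat_lit 1206400263110) (nat_lit 4) (nat_lit 4) (nat_lit 5) (nat_lit 5) (nat_lit 5) (nat_lit 4) (nat_lit 514) (nat_lit 420) (nat_lit 266)))))) (XT.nd (nat_lit 546) (nat_lit 0) (nat_lit 0) (XT.nd (nat_lit 234) (nat_lit 152) (nat_lit 0) (XT.nd (nat_lit 78) (nat_lit 0) (nat_lit 0) (XT.lf (nat_lit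 0) (nat_lit 1038720196046) (nat_lit 76) (nat_lit 1051234086169) (nat_lit 76) (nat_lit 1023912578970) (nat_lit 4) (nat_lit 4) (nat_lit 5) (nat_lit 5) (nat_lit 5) (nat_lit 4) (nat_lit 515) (nat_lit 420) (nat_lit 265)) (XT.nd (nat_lit 78) (nat_lit 0) (nat_lit 0) (XT.lf (nat_lit 0) (nat_lit 1661173503025) (nat_lit 76) (nat_lit 854147686429) (nat_lit 76) (nat_lit 826826165879) (nat_lit 4) (nat_lit 4) (nat_lit 5) (nat_lit 5) (nat_lit 5) (nat_lit 4) (nat_lit 516) (nat_lit 420) (nat_lit 264)) (XT.lf (nat_lit 0) (nat_lit 2333422566995) (nat_lit 76) (nat_lit 641294637265) (nat_lit 76) (nat_lit 613973104354) (nat_lit 4) (nat_lit 4) (nat_lit 5) (nat_lit 5) (nat_lit 5) (nat_lit 4) (nat_lit 517) (nat_lit 420) (nat_lit 263)))) (XT.nd (nat_lit 156) (nat_lit 152) (nat_lit 0) (XT.nd (nat_lit 78) (nat_lit 0) (nat_lit 0) (XT.lf (nat_lit 0) (nat_lit 3059451086113) (nat_lit 76) (nat_lit 411413587275) (nat_lit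 76) (nat_lit 384092042918) (nat_lit 4) (nat_lit 4) (nat_lit 5) (nat_lit 5) (nat_lit 5) (nat_lit 4) (nat_lit 518) (nat_lit 420) (nat_lit 262)) (XT.lf (nat_lit 0) (nat_lit 3843561451604) (nat_lit 76) (nat_lit 163142278386) (nat_lit 76) (nat_lit 135820723431) (nat_lit 4) (nat_lit 4) (nat_lit 5) (nat_lit 5) (nat_lit 5) (nat_lit 4) (nat_lit 519) (nat_lit 420) (nat_lit 261))) (XT.nd (nat_lit 78) (nat_lit 0) (nat_lit 0) (XT.lf (nat_lit 0) (nat_lit 134382033937) (nat_lit 152) (nat_lit 4208681635300) (nat_lit 0) (nat_lit 109084288782) (nat_lit 2) (nat_lit 5) (nat_lit 4) (nat_lit 4) (nat_lit 2) (nat_lit 4) (nat_lit 520) (nat_lit 420) (nat_lit 260)) (XT.lf (nat_lit 0) (nat_lit 431486921917) (nat_lit 152) (nat_lit 3947573127287) (nat_lit 0) (nat_lit 406189168349) (nat_lit 2) (nat_lit 5) (nat_lit 4) (nat_lit 4) (nat_lit 2) (nat_lit 4) (nat_lit 521) (nat_lit 420) (nat_lit 259))))) (XT.nd (nat_lit 234)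 (nat_lit 0) (nat_lit 0) (XT.nd (nat_lit 78) (nat_lit 0) (nat_lit 0) (XT.lf (nat_lit 0) (nat_lit 752360016237) (nat_lit 152) (nat_lit 3665576321511) (nat_lit 0) (nat_lit 727062254879) (nat_lit 2) (nat_lit 5) (nat_lit 4) (nat_lit 4) (nat_lit 2) (nat_lit 4) (nat_lit 522) (nat_lit 420) (nat_lit 258)) (XT.nd (nat_lit 78) (nat_lit 0) (nat_lit 0) (XT.lf (nat_lit 0) (nat_lit 1098902787085) (nat_lit 152) (nat_lit 3361020125788) (nat_lit 0) (nat_lit 1073605018515) (nat_lit 2) (nat_lit 5) (nat_lit 4) (nat_lit 4) (nat_lit 2) (nat_lit 4) (nat_lit 523) (nat_lit 420) (nat_lit 257)) (XT.lf (nat_lit 0) (nat_lit 1473168821252) (nat_lit 152) (nat_lit 3032099762663) (nat_lit 0) (nat_lit 1447871046003) (nat_lit 2) (nat_lit 5) (nat_lit 4) (nat_lit 4) (nat_lit 2) (nat_lit 4) (nat_lit 524) (nat_lit 420) (nat_lit 256)))) (XT.nd (nat_lit 156) (nat_lit 0) (nat_lit 0) (XT.nd (nat_lit 78) (nat_lit 0) (nat_lit 0) (XT.lf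 (nat_lit 0) (nat_lit 1877375991533) (nat_lit 152) (nat_lit 2676866074427) (nat_lit 0) (nat_lit 1852078210100) (nat_lit 2) (nat_lit 5) (nat_lit 4) (nat_lit 4) (nat_lit 2) (nat_lit 4) (nat_lit 525) (nat_lit 420) (nat_lit 255)) (XT.lf (nat_lit 0) (nat_lit 2313919599677) (nat_lit 152) (nat_lit 2293213972559) (nat_lit 0) (nat_lit 2288621812518) (nat_lit 2) (nat_lit 5) (nat_lit 4) (nat_lit 4) (nat_lit 2) (nat_lit 4) (nat_lit 526) (nat_lit 420) (nat_lit 254))) (XT.nd (nat_lit 78) (nat_lit 0) (nat_lit 0) (XT.lf (nat_lit 0) (nat_lit 2785386570770) (nat_lit 152) (nat_lit 1878869963121) (nat_lit 0) (nat_lit 2760088778310) (nat_lit 2) (nat_lit 5) (nat_lit 4) (nat_lit 4) (nat_lit 2) (nat_lit 4) (nat_lit 527) (nat_lit 420) (nat_lit 253)) (XT.lf (nat_lit 0) (nat_lit 3294570783159) (nat_lit 152) (nat_lit 1431378674206) (nat_lit 0) (nat_lit 3269272985790) (nat_lit 2) (nat_lit 5) (nat_lit 4) (nat_lit 4) (nat_lit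 2) (nat_lit 4) (nat_lit 528) (nat_lit 420) (nat_lit 252))))))) (XT.nd (nat_lit 54132) (nat_lit 0) (nat_lit 5168) (XT.nd (nat_lit 546) (nat_lit 0) (nat_lit 0) (XT.nd (nat_lit 234) (nat_lit 0) (nat_lit 0) (XT.nd (nat_lit 78) (nat_lit 76) (nat_lit 0) (XT.lf (nat_lit 0) (nat_lit 3844489624769) (nat_lit 152) (nat_lit 948088305582) (nat_lit 0) (nat_lit 3819191822854) (nat_lit 2) (nat_lit 5) (nat_lit 4) (nat_lit 4) (nat_lit 2) (nat_lit 4) (nat_lit 529) (nat_lit 420) (nat_lit 251)) (XT.nd (nat_lit 78) (nat_lit 76) (nat_lit 0) (XT.lf (nat_lit 0) (nat_lit 4438401873921) (nat_lit 152) (nat_lit 426134914326) (nat_lit 0) (nat_lit 4413104067798) (nat_lit 2) (nat_lit 5) (nat_lit 4) (nat_lit 4) (nat_lit 2) (nat_lit 4) (nat_lit 530) (nat_lit 420) (nat_lit 250)) (XT.lf (nat_lit 0) (nat_lit 144818989050) (nat_lit 76) (nat_lit 4938490921729) (nat_lit 76) (nat_lit 4913193111709) (nat_lit 1) (nat_lit 4) (nat_lit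 2) (nat_lit 5) (nat_lit 2) (nat_lit 4) (nat_lit 531) (nat_lit 420) (nat_lit 249)))) (XT.nd (nat_lit 156) (nat_lit 0) (nat_lit 0) (XT.nd (nat_lit 78) (nat_lit 0) (nat_lit 0) (XT.lf (nat_lit 0) (nat_lit 785683688177) (nat_lit 76) (nat_lit 5005778096102) (nat_lit 76) (nat_lit 4980480282474) (nat_lit 1) (nat_lit 4) (nat_lit 2) (nat_lit 5) (nat_lit 2) (nat_lit 4) (nat_lit 532) (nat_lit 420) (nat_lit 248)) (XT.lf (nat_lit 0) (nat_lit 1477817390378) (nat_lit 76) (nat_lit 5078448333909) (nat_lit 76) (nat_lit 5053150516941) (nat_lit 1) (nat_lit 4) (nat_lit 2) (nat_lit 5) (nat_lit 2) (nat_lit 4) (nat_lit 533) (nat_lit 420) (nat_lit 247))) (XT.nd (nat_lit 78) (nat_lit 0) (nat_lit 0) (XT.lf (nat_lit 0) (nat_lit 2225321628703) (nat_lit 76) (nat_lit 5156932273598) (nat_lit 76) (nat_lit 5131634453536) (nat_lit 1) (nat_lit 4) (nat_lit 2) (nat_lit 5) (nat_lit 2) (nat_lit 4) (nat_lit 534) (nat_lit 420) (nat_lit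 246)) (XT.lf (nat_lit 0) (nat_lit 3032626057897) (nat_lit 76) (nat_lit 5241695005181) (nat_lit 76) (nat_lit 5216397182254) (nat_lit 1) (nat_lit 4) (nat_lit 2) (nat_lit 5) (nat_lit 2) (nat_lit 4) (nat_lit 535) (nat_lit 420) (nat_lit 245))))) (XT.nd (nat_lit 234) (nat_lit 0) (nat_lit 0) (XT.nd (nat_lit 78) (nat_lit 0) (nat_lit 0) (XT.lf (nat_lit 0) (nat_lit 3904514704208) (nat_lit 76) (nat_lit 5333238826327) (nat_lit 76) (nat_lit 5307941000748) (nat_lit 1) (nat_lit 4) (nat_lit 2) (nat_lit 5) (nat_lit 2) (nat_lit 4) (nat_lit 536) (nat_lit 420) (nat_lit 244)) (XT.nd (nat_lit 78) (nat_lit 0) (nat_lit 0) (XT.lf (nat_lit 0) (nat_lit 4846154315169) (nat_lit 76) (nat_lit 5432106218938) (nat_lit 76) (nat_lit 5406808390904) (nat_lit 1) (nat_lit 4) (nat_lit 2) (nat_lit 5) (nat_lit 2) (nat_lit 4) (nat_lit 537) (nat_lit 420) (nat_lit 243)) (XT.lf (nat_lit 0) (nat_lit 5863124977364) (nat_lit 76) (nat_lit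 5538883063861) (nat_lit 76) (nat_lit 5513585233553) (nat_lit 1) (nat_lit 4) (nat_lit 2) (nat_lit 5) (nat_lit 2) (nat_lit 4) (nat_lit 538) (nat_lit 420) (nat_lit 242)))) (XT.nd (nat_lit 156) (nat_lit 0) (nat_lit 0) (XT.nd (nat_lit 78) (nat_lit 0) (nat_lit 0) (XT.lf (nat_lit 0) (nat_lit 6961453183606) (nat_lit 76) (nat_lit 5654202112768) (nat_lit 76) (nat_lit 5628904280354) (nat_lit 1) (nat_lit 4) (nat_lit 2) (nat_lit 5) (nat_lit 2) (nat_lit 4) (nat_lit 539) (nat_lit 420) (nat_lit 241)) (XT.lf (nat_lit 0) (nat_lit 8147647545487) (nat_lit 76) (nat_lit 5778746737801) (nat_lit 76) (nat_lit 5753448903438) (nat_lit 1) (nat_lit 4) (nat_lit 2) (nat_lit 5) (nat_lit 2) (nat_lit 4) (nat_lit 540) (nat_lit 420) (nat_lit 240))) (XT.nd (nat_lit 53118) (nat_lit 0) (nat_lit 6992) (XT.lf (nat_lit 0) (nat_lit 9428737362930) (nat_lit 76) (nat_lit 5913254981183) (nat_lit 76) (nat_lit 5887957145016) (nat_lit 1)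 (nat_lit 4) (nat_lit 2) (nat_lit 5) (nat_lit 2) (nat_lit 4) (nat_lit 541) (nat_lit 420) (nat_lit 239)) (XT.lf (nat_lit 0) (nat_lit 9434961443) (nat_lit 532) (nat_lit 417513066) (nat_lit 532) (nat_lit 417513066) (nat_lit 93) (nat_lit 3) (nat_lit 100) (nat_lit 3) (nat_lit 100) (nat_lit 5) (nat_lit 421) (nat_lit 421) (nat_lit 358)))))) (XT.nd (nat_lit 546) (nat_lit 1368) (nat_lit 0) (XT.nd (nat_lit 234) (nat_lit 0) (nat_lit 0) (XT.nd (nat_lit 78) (nat_lit 456) (nat_lit 0) (XT.lf (nat_lit 76) (nat_lit 9888701486) (nat_lit 0) (nat_lit 10121802936) (nat_lit 532) (nat_lit 1320187228) (nat_lit 94) (nat_lit 5) (nat_lit 93) (nat_lit 3) (nat_lit 100) (nat_lit 5) (nat_lit 422) (nat_lit 421) (nat_lit 357)) (XT.nd (nat_lit 78) (nat_lit 532) (nat_lit 0) (XT.lf (nat_lit 0) (nat_lit 21256392734) (nat_lit 456) (nat_lit 680875917) (nat_lit 532) (nat_lit 246273971) (nat_lit 94) (nat_lit 5) (nat_lit 100) (nat_lit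 5) (nat_lit 101) (nat_lit 5) (nat_lit 423) (nat_lit 421) (nat_lit 356)) (XT.lf (nat_lit 0) (nat_lit 55223815) (nat_lit 532) (nat_lit 11833489893) (nat_lit 608) (nat_lit 11174256969) (nat_lit 87) (nat_lit 5) (nat_lit 94) (nat_lit 5) (nat_lit 95) (nat_lit 5) (nat_lit 424) (nat_lit 421) (nat_lit 355)))) (XT.nd (nat_lit 156) (nat_lit 0) (nat_lit 76) (XT.nd (nat_lit 78) (nat_lit 0) (nat_lit 76) (XT.lf (nat_lit 76) (nat_lit 90565385) (nat_lit 0) (nat_lit 983530879) (nat_lit 608) (nat_lit 22936091814) (nat_lit 88) (nat_lit 5) (nat_lit 87) (nat_lit 5) (nat_lit 95) (nat_lit 5) (nat_lit 425) (nat_lit 421) (nat_lit 354)) (XT.lf (nat_lit 0) (nat_lit 2753587730) (nat_lit 532) (nat_lit 11644137979) (nat_lit 608) (nat_lit 10589129875) (nat_lit 88) (nat_lit 5) (nat_lit 95) (nat_lit 5) (nat_lit 96) (nat_lit 5) (nat_lit 426) (nat_lit 421) (nat_lit 353))) (XT.nd (nat_lit 78) (nat_lit 0) (nat_lit 76) (XT.lf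 (nat_lit 76) (nat_lit 1661350712) (nat_lit 0) (nat_lit 2960070338) (nat_lit 608) (nat_lit 21415918181) (nat_lit 89) (nat_lit 5) (nat_lit 88) (nat_lit 5) (nat_lit 96) (nat_lit 5) (nat_lit 427) (nat_lit 421) (nat_lit 352)) (XT.lf (nat_lit 0) (nat_lit 7180360061) (nat_lit 532) (nat_lit 10697325097) (nat_lit 76) (nat_lit 9250843334) (nat_lit 89) (nat_lit 5) (nat_lit 96) (nat_lit 5) (nat_lit 90) (nat_lit 5) (nat_lit 428) (nat_lit 421) (nat_lit 351))))) (XT.nd (nat_lit 312) (nat_lit 760) (nat_lit 0) (XT.nd (nat_lit 156) (nat_lit 228) (nat_lit 0) (XT.nd (nat_lit 78) (nat_lit 0) (nat_lit 0) (XT.lf (nat_lit 0) (nat_lit 4199310570) (nat_lit 532) (nat_lit 5912532157) (nat_lit 608) (nat_lit 18181745039) (nat_lit 82) (nat_lit 5) (nat_lit 89) (nat_lit 5) (nat_lit 90) (nat_lit 5) (nat_lit 429) (nat_lit 421) (nat_lit 350)) (XT.lf (nat_lit 0) (nat_lit 13736989638) (nat_lit 608) (nat_lit 8818624833) (nat_lit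 76) (nat_lit 6959506726) (nat_lit 82) (nat_lit 5) (nat_lit 90) (nat_lit 5) (nat_lit 83) (nat_lit 5) (nat_lit 430) (nat_lit 421) (nat_lit 349))) (XT.nd (nat_lit 78) (nat_lit 0) (nat_lit 0) (XT.lf (nat_lit 0) (nat_lit 7912009734) (nat_lit 228) (nat_lit 10075178346) (nat_lit 304) (nat_lit 12820387028) (nat_lit 79) (nat_lit 5) (nat_lit 82) (nat_lit 5) (nat_lit 83) (nat_lit 5) (nat_lit 431) (nat_lit 421) (nat_lit 348)) (XT.lf (nat_lit 0) (nat_lit 22898243559) (nat_lit 304) (nat_lit 5799348159) (nat_lit 76) (nat_lit 3480167235) (nat_lit 79) (nat_lit 5) (nat_lit 83) (nat_lit 5) (nat_lit 80) (nat_lit 5) (nat_lit 432) (nat_lit 421) (nat_lit 347)))) (XT.nd (nat_lit 156) (nat_lit 456) (nat_lit 0) (XT.nd (nat_lit 78) (nat_lit 76) (nat_lit 0) (XT.lf (nat_lit 0) (nat_lit 13046524031) (nat_lit 228) (nat_lit 15723346296) (nat_lit 304) (nat_lit 4842273077) (nat_lit 76) (nat_lit 5) (nat_lit 79) (nat_lit 5)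 (nat_lit 80) (nat_lit 5) (nat_lit 433) (nat_lit 421) (nat_lit 346)) (XT.lf (nat_lit 0) (nat_lit 107532112) (nat_lit 304) (nat_lit 1430791162) (nat_lit 76) (nat_lit 33610645988) (nat_lit 75) (nat_lit 5) (nat_lit 79) (nat_lit 5) (nat_lit 76) (nat_lit 5) (nat_lit 434) (nat_lit 421) (nat_lit 345))) (XT.nd (nat_lit 78) (nat_lit 228) (nat_lit 0) (XT.lf (nat_lit 0) (nat_lit 6015469252) (nat_lit 304) (nat_lit 17001428316) (nat_lit 76) (nat_lit 13715881940) (nat_lit 72) (nat_lit 5) (nat_lit 76) (nat_lit 5) (nat_lit 73) (nat_lit 5) (nat_lit 435) (nat_lit 421) (nat_lit 344)) (XT.lf (nat_lit 0) (nat_lit 4397929936) (nat_lit 228) (nat_lit 8177219868) (nat_lit 304) (nat_lit 25853816716) (nat_lit 69) (nat_lit 5) (nat_lit 72) (nat_lit 5) (nat_lit 73) (nat_lit 5) (nat_lit 436) (nat_lit 421) (nat_lit 343))))))))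
noncomputable def xc142 : XT := (XT.nd (nat_lit 2184) (nat_lit 1824) (nat_lit 0) (XT.nd (nat_lit 1092) (nat_lit 1064) (nat_lit 0) (XT.nd (nat_lit 546) (nat_lit 608) (nat_lit 0) (XT.nd (nat_lit 234) (nat_lit 532) (nat_lit 0) (XT.nd (nat_lit 78) (nat_lit 152) (nat_lit 0) (XT.lf (nat_lit 0) (nat_lit 20318801576) (nat_lit 304) (nat_lit 11957410516) (nat_lit 76) (nat_lit 7931901238) (nat_lit 69) (nat_lit 5) (nat_lit 73) (nat_lit 5) (nat_lit 70) (nat_lit 5) (nat_lit 437) (nat_lit 421) (nat_lit 342)) (XT.nd (nat_lit 78) (nat_lit 0) (nat_lit 0) (XT.lf (nat_lit 0) (nat_lit 12275429563) (nat_lit 152) (nat_lit 16908107613) (nat_lit 228) (nat_lit 12905927906) (nat_lit 67) (nat_lit 5) (nat_lit 69) (nat_lit 5) (nat_lit 70) (nat_lit 5) (nat_lit 438) (nat_lit 421) (nat_lit 341)) (XT.lf (nat_lit 0) (nat_lit 39079577537) (nat_lit 228) (nat_lit 4977809728) (nat_lit 76) (nat_lit 38168131) (nat_lit 67) (nat_lit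 5) (nat_lit 70) (nat_lit 5) (nat_lit 68) (nat_lit 5) (nat_lit 439) (nat_lit 421) (nat_lit 340)))) (XT.nd (nat_lit 156) (nat_lit 152) (nat_lit 0) (XT.nd (nat_lit 78) (nat_lit 152) (nat_lit 0) (XT.lf (nat_lit 0) (nat_lit 4330659930) (nat_lit 228) (nat_lit 23768704350) (nat_lit 76) (nat_lit 18075958373) (nat_lit 64) (nat_lit 5) (nat_lit 67) (nat_lit 5) (nat_lit 65) (nat_lit 5) (nat_lit 440) (nat_lit 421) (nat_lit 339)) (XT.lf (nat_lit 0) (nat_lit 3907993587) (nat_lit 152) (nat_lit 10474344506) (nat_lit 228) (nat_lit 34010446583) (nat_lit 62) (nat_lit 5) (nat_lit 64) (nat_lit 5) (nat_lit 65) (nat_lit 5) (nat_lit 441) (nat_lit 421) (nat_lit 338))) (XT.nd (nat_lit 78) (nat_lit 152) (nat_lit 0) (XT.lf (nat_lit 0) (nat_lit 26105613970) (nat_lit 228) (nat_lit 15815975960) (nat_lit 76) (nat_lit 8796657017) (nat_lit 62) (nat_lit 5) (nat_lit 65) (nat_lit 5) (nat_lit 63) (nat_lit 5) (nat_lit 442) (nat_lit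 421) (nat_lit 337)) (XT.lf (nat_lit 0) (nat_lit 15649610014) (nat_lit 152) (nat_lit 23760780479) (nat_lit 228) (nat_lit 13767864956) (nat_lit 60) (nat_lit 5) (nat_lit 62) (nat_lit 5) (nat_lit 63) (nat_lit 5) (nat_lit 443) (nat_lit 421) (nat_lit 336))))) (XT.nd (nat_lit 234) (nat_lit 304) (nat_lit 0) (XT.nd (nat_lit 78) (nat_lit 304) (nat_lit 0) (XT.lf (nat_lit 0) (nat_lit 50524571733) (nat_lit 152) (nat_lit 3682797125) (nat_lit 228) (nat_lit 1593470509) (nat_lit 60) (nat_lit 5) (nat_lit 62) (nat_lit 5) (nat_lit 63) (nat_lit 5) (nat_lit 444) (nat_lit 421) (nat_lit 335)) (XT.nd (nat_lit 78) (nat_lit 152) (nat_lit 0) (XT.lf (nat_lit 0) (nat_lit 12172852200) (nat_lit 152) (nat_lit 28198646014) (nat_lit 76) (nat_lit 18143820577) (nat_lit 58) (nat_lit 5) (nat_lit 60) (nat_lit 5) (nat_lit 59) (nat_lit 5) (nat_lit 445) (nat_lit 421) (nat_lit 334)) (XT.lf (nat_lit 0) (nat_lit 7867337337) (nat_lit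 152) (nat_lit 19515641604) (nat_lit 228) (nat_lit 34026379809) (nat_lit 56) (nat_lit 5) (nat_lit 58) (nat_lit 5) (nat_lit 59) (nat_lit 5) (nat_lit 446) (nat_lit 421) (nat_lit 333)))) (XT.nd (nat_lit 156) (nat_lit 228) (nat_lit 0) (XT.nd (nat_lit 78) (nat_lit 76) (nat_lit 0) (XT.lf (nat_lit 0) (nat_lit 44669095631) (nat_lit 228) (nat_lit 16150553483) (nat_lit 76) (nat_lit 3646538634) (nat_lit 56) (nat_lit 5) (nat_lit 59) (nat_lit 5) (nat_lit 57) (nat_lit 4) (nat_lit 447) (nat_lit 421) (nat_lit 332)) (XT.lf (nat_lit 0) (nat_lit 24967640437) (nat_lit 76) (nat_lit 39473938856) (nat_lit 152) (nat_lit 3237705774) (nat_lit 55) (nat_lit 5) (nat_lit 56) (nat_lit 5) (nat_lit 57) (nat_lit 4) (nat_lit 448) (nat_lit 421) (nat_lit 331))) (XT.nd (nat_lit 78) (nat_lit 152) (nat_lit 0) (XT.lf (nat_lit 0) (nat_lit 14362951766) (nat_lit 152) (nat_lit 1190742646) (nat_lit 76) (nat_lit 55531620651) (nat_lit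 54) (nat_lit 5) (nat_lit 56) (nat_lit 5) (nat_lit 55) (nat_lit 5) (nat_lit 449) (nat_lit 421) (nat_lit 330)) (XT.lf (nat_lit 0) (nat_lit 34573994638) (nat_lit 228) (nat_lit 29091767831) (nat_lit 76) (nat_lit 10981157222) (nat_lit 52) (nat_lit 5) (nat_lit 55) (nat_lit 5) (nat_lit 53) (nat_lit 4) (nat_lit 450) (nat_lit 421) (nat_lit 329)))))) (XT.nd (nat_lit 546) (nat_lit 532) (nat_lit 0) (XT.nd (nat_lit 234) (nat_lit 228) (nat_lit 0) (XT.nd (nat_lit 78) (nat_lit 228) (nat_lit 0) (XT.lf (nat_lit 0) (nat_lit 18112545027) (nat_lit 76) (nat_lit 39158859999) (nat_lit 152) (nat_lit 21152489092) (nat_lit 51) (nat_lit 5) (nat_lit 52) (nat_lit 5) (nat_lit 53) (nat_lit 4) (nat_lit 451) (nat_lit 421) (nat_lit 328)) (XT.nd (nat_lit 78) (nat_lit 152) (nat_lit 0) (XT.lf (nat_lit 0) (nat_lit 130108001) (nat_lit 152) (nat_lit 11701391506) (nat_lit 76) (nat_lit 70607902319) (nat_lit 50) (nat_lit 5) (nat_lit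 52) (nat_lit 5) (nat_lit 51) (nat_lit 5) (nat_lit 452) (nat_lit 421) (nat_lit 327)) (XT.lf (nat_lit 0) (nat_lit 23454006795) (nat_lit 228) (nat_lit 44755678206) (nat_lit 76) (nat_lit 18403993827) (nat_lit 48) (nat_lit 5) (nat_lit 51) (nat_lit 5) (nat_lit 49) (nat_lit 4) (nat_lit 453) (nat_lit 421) (nat_lit 326)))) (XT.nd (nat_lit 156) (nat_lit 152) (nat_lit 0) (XT.nd (nat_lit 78) (nat_lit 0) (nat_lit 0) (XT.lf (nat_lit 0) (nat_lit 9421100013) (nat_lit 76) (nat_lit 40081661328) (nat_lit 152) (nat_lit 41550421257) (nat_lit 47) (nat_lit 5) (nat_lit 48) (nat_lit 5) (nat_lit 49) (nat_lit 4) (nat_lit 454) (nat_lit 421) (nat_lit 325)) (XT.lf (nat_lit 0) (nat_lit 70471594741) (nat_lit 76) (nat_lit 8384427615) (nat_lit 152) (nat_lit 16894175931) (nat_lit 47) (nat_lit 5) (nat_lit 48) (nat_lit 5) (nat_lit 49) (nat_lit 4) (nat_lit 455) (nat_lit 421) (nat_lit 324))) (XT.nd (nat_lit 78) (nat_lit 0) (nat_lit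 0) (XT.lf (nat_lit 0) (nat_lit 10790362453) (nat_lit 152) (nat_lit 64179103784) (nat_lit 76) (nat_lit 25711359277) (nat_lit 45) (nat_lit 5) (nat_lit 47) (nat_lit 5) (nat_lit 46) (nat_lit 4) (nat_lit 456) (nat_lit 421) (nat_lit 323)) (XT.lf (nat_lit 0) (nat_lit 40700922821) (nat_lit 152) (nat_lit 1968542315) (nat_lit 76) (nat_lit 63227414426) (nat_lit 45) (nat_lit 5) (nat_lit 47) (nat_lit 5) (nat_lit 46) (nat_lit 4) (nat_lit 457) (nat_lit 421) (nat_lit 322))))) (XT.nd (nat_lit 234) (nat_lit 304) (nat_lit 0) (XT.nd (nat_lit 78) (nat_lit 152) (nat_lit 0) (XT.lf (nat_lit 0) (nat_lit 68647830079) (nat_lit 76) (nat_lit 6004787135) (nat_lit 152) (nat_lit 36745737664) (nat_lit 44) (nat_lit 5) (nat_lit 45) (nat_lit 5) (nat_lit 46) (nat_lit 4) (nat_lit 458) (nat_lit 421) (nat_lit 321)) (XT.nd (nat_lit 78) (nat_lit 76) (nat_lit 0) (XT.lf (nat_lit 0) (nat_lit 28290621241) (nat_lit 76) (nat_lit 84570683033)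 (nat_lit 76) (nat_lit 4355375447) (nat_lit 43) (nat_lit 4) (nat_lit 44) (nat_lit 5) (nat_lit 44) (nat_lit 4) (nat_lit 459) (nat_lit 421) (nat_lit 320)) (XT.lf (nat_lit 0) (nat_lit 30446714668) (nat_lit 152) (nat_lit 16888643189) (nat_lit 76) (nat_lit 75997984158) (nat_lit 42) (nat_lit 5) (nat_lit 44) (nat_lit 5) (nat_lit 43) (nat_lit 4) (nat_lit 460) (nat_lit 421) (nat_lit 319)))) (XT.nd (nat_lit 156) (nat_lit 152) (nat_lit 0) (XT.nd (nat_lit 78) (nat_lit 76) (nat_lit 0) (XT.lf (nat_lit 0) (nat_lit 63995204950) (nat_lit 76) (nat_lit 5339089002) (nat_lit 152) (nat_lit 60473063237) (nat_lit 41) (nat_lit 5) (nat_lit 42) (nat_lit 5) (nat_lit 43) (nat_lit 4) (nat_lit 461) (nat_lit 421) (nat_lit 318)) (XT.lf (nat_lit 0) (nat_lit 15335892292) (nat_lit 76) (nat_lit 97799539163) (nat_lit 76) (nat_lit 23519658024) (nat_lit 40) (nat_lit 4) (nat_lit 41) (nat_lit 5) (nat_lit 41) (nat_lit 4) (nat_lit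 462) (nat_lit 421) (nat_lit 317))) (XT.nd (nat_lit 78) (nat_lit 76) (nat_lit 0) (XT.lf (nat_lit 0) (nat_lit 17552526055) (nat_lit 152) (nat_lit 37772466071) (nat_lit 76) (nat_lit 88535521715) (nat_lit 39) (nat_lit 5) (nat_lit 41) (nat_lit 5) (nat_lit 40) (nat_lit 4) (nat_lit 463) (nat_lit 421) (nat_lit 316)) (XT.lf (nat_lit 0) (nat_lit 54572641407) (nat_lit 76) (nat_lit 7377389636) (nat_lit 152) (nat_lit 89538651645) (nat_lit 38) (nat_lit 5) (nat_lit 39) (nat_lit 5) (nat_lit 40) (nat_lit 4) (nat_lit 464) (nat_lit 421) (nat_lit 315))))))) (XT.nd (nat_lit 1092) (nat_lit 912) (nat_lit 0) (XT.nd (nat_lit 546) (nat_lit 456) (nat_lit 0) (XT.nd (nat_lit 234) (nat_lit 228) (nat_lit 0) (XT.nd (nat_lit 78) (nat_lit 228) (nat_lit 0) (XT.lf (nat_lit 0) (nat_lit 112024651962) (nat_lit 152) (nat_lit 4290183247) (nat_lit 0) (nat_lit 43242244629) (nat_lit 38) (nat_lit 5) (nat_lit 40) (nat_lit 4) (nat_lit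 38) (nat_lit 4) (nat_lit 465) (nat_lit 421) (nat_lit 314)) (XT.nd (nat_lit 78) (nat_lit 76) (nat_lit 0) (XT.lf (nat_lit 0) (nat_lit 618918333) (nat_lit 152) (nat_lit 67496409013) (nat_lit 76) (nat_lit 99945685301) (nat_lit 36) (nat_lit 5) (nat_lit 38) (nat_lit 5) (nat_lit 37) (nat_lit 4) (nat_lit 466) (nat_lit 421) (nat_lit 313)) (XT.lf (nat_lit 0) (nat_lit 37447401714) (nat_lit 76) (nat_lit 13625873546) (nat_lit 152) (nat_lit 125991705071) (nat_lit 35) (nat_lit 5) (nat_lit 36) (nat_lit 5) (nat_lit 37) (nat_lit 4) (nat_lit 467) (nat_lit 421) (nat_lit 312)))) (XT.nd (nat_lit 156) (nat_lit 152) (nat_lit 0) (XT.nd (nat_lit 78) (nat_lit 76) (nat_lit 0) (XT.lf (nat_lit 0) (nat_lit 108542933872) (nat_lit 152) (nat_lit 33155979416) (nat_lit 0) (nat_lit 44852035918) (nat_lit 35) (nat_lit 5) (nat_lit 37) (nat_lit 4) (nat_lit 35) (nat_lit 4) (nat_lit 468) (nat_lit 421) (nat_lit 311)) (XT.lf (nat_lit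 0) (nat_lit 85754619170) (nat_lit 76) (nat_lit 87269957551) (nat_lit 76) (nat_lit 23578065974) (nat_lit 34) (nat_lit 4) (nat_lit 35) (nat_lit 5) (nat_lit 35) (nat_lit 4) (nat_lit 469) (nat_lit 421) (nat_lit 310))) (XT.nd (nat_lit 78) (nat_lit 0) (nat_lit 0) (XT.lf (nat_lit 0) (nat_lit 8214588812) (nat_lit 76) (nat_lit 26356276770) (nat_lit 152) (nat_lit 172729809401) (nat_lit 32) (nat_lit 5) (nat_lit 33) (nat_lit 5) (nat_lit 34) (nat_lit 4) (nat_lit 470) (nat_lit 421) (nat_lit 309)) (XT.lf (nat_lit 0) (nat_lit 100153794263) (nat_lit 152) (nat_lit 77149109443) (nat_lit 0) (nat_lit 41178179938) (nat_lit 32) (nat_lit 5) (nat_lit 34) (nat_lit 4) (nat_lit 32) (nat_lit 4) (nat_lit 471) (nat_lit 421) (nat_lit 308))))) (XT.nd (nat_lit 234) (nat_lit 228) (nat_lit 0) (XT.nd (nat_lit 78) (nat_lit 152) (nat_lit 0) (XT.lf (nat_lit 0) (nat_lit 56690608972) (nat_lit 76) (nat_lit 116338981046) (nat_lit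 76) (nat_lit 57362636377) (nat_lit 31) (nat_lit 4) (nat_lit 32) (nat_lit 5) (nat_lit 32) (nat_lit 4) (nat_lit 472) (nat_lit 421) (nat_lit 307)) (XT.nd (nat_lit 78) (nat_lit 76) (nat_lit 0) (XT.lf (nat_lit 0) (nat_lit 10217454867) (nat_lit 152) (nat_lit 37724714787) (nat_lit 76) (nat_lit 195124782604) (nat_lit 30) (nat_lit 5) (nat_lit 32) (nat_lit 5) (nat_lit 31) (nat_lit 4) (nat_lit 473) (nat_lit 421) (nat_lit 306)) (XT.lf (nat_lit 0) (nat_lit 83561217389) (nat_lit 152) (nat_lit 143846451903) (nat_lit 0) (nat_lit 28952284923) (nat_lit 29) (nat_lit 5) (nat_lit 31) (nat_lit 4) (nat_lit 29) (nat_lit 4) (nat_lit 474) (nat_lit 421) (nat_lit 305)))) (XT.nd (nat_lit 156) (nat_lit 152) (nat_lit 0) (XT.nd (nat_lit 78) (nat_lit 0) (nat_lit 0) (XT.lf (nat_lit 0) (nat_lit 5270675813) (nat_lit 76) (nat_lit 159930449148) (nat_lit 76) (nat_lit 105320979858) (nat_lit 28) (nat_lit 4) (nat_lit 29) (nat_lit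 5) (nat_lit 29) (nat_lit 4) (nat_lit 475) (nat_lit 421) (nat_lit 304)) (XT.lf (nat_lit 0) (nat_lit 174494654257) (nat_lit 76) (nat_lit 82809012138) (nat_lit 76) (nat_lit 28199045789) (nat_lit 28) (nat_lit 4) (nat_lit 29) (nat_lit 5) (nat_lit 29) (nat_lit 4) (nat_lit 476) (nat_lit 421) (nat_lit 303))) (XT.nd (nat_lit 78) (nat_lit 0) (nat_lit 0) (XT.lf (nat_lit 0) (nat_lit 53790169439) (nat_lit 152) (nat_lit 244444362041) (nat_lit 0) (nat_lit 3224959633) (nat_lit 26) (nat_lit 5) (nat_lit 28) (nat_lit 4) (nat_lit 26) (nat_lit 4) (nat_lit 477) (nat_lit 421) (nat_lit 302)) (XT.lf (nat_lit 0) (nat_lit 146078423376) (nat_lit 152) (nat_lit 76621903990) (nat_lit 0) (nat_lit 95512818989) (nat_lit 26) (nat_lit 5) (nat_lit 28) (nat_lit 4) (nat_lit 26) (nat_lit 4) (nat_lit 478) (nat_lit 421) (nat_lit 301)))))) (XT.nd (nat_lit 546) (nat_lit 456) (nat_lit 0) (XT.nd (nat_lit 234) (nat_lit 228) (nat_lit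 0) (XT.nd (nat_lit 78) (nat_lit 152) (nat_lit 0) (XT.lf (nat_lit 0) (nat_lit 110132825474) (nat_lit 76) (nat_lit 138264226569) (nat_lit 76) (nat_lit 87698256829) (nat_lit 25) (nat_lit 4) (nat_lit 26) (nat_lit 5) (nat_lit 26) (nat_lit 4) (nat_lit 479) (nat_lit 421) (nat_lit 300)) (XT.nd (nat_lit 78) (nat_lit 76) (nat_lit 0) (XT.lf (nat_lit 0) (nat_lit 5466398710) (nat_lit 152) (nat_lit 39196198712) (nat_lit 76) (nat_lit 310566885200) (nat_lit 24) (nat_lit 5) (nat_lit 26) (nat_lit 5) (nat_lit 25) (nat_lit 4) (nat_lit 480) (nat_lit 421) (nat_lit 299)) (XT.lf (nat_lit 0) (nat_lit 106923013959) (nat_lit 152) (nat_lit 208240936148) (nat_lit 0) (nat_lit 60102068347) (nat_lit 23) (nat_lit 5) (nat_lit 25) (nat_lit 4) (nat_lit 23) (nat_lit 4) (nat_lit 481) (nat_lit 421) (nat_lit 298)))) (XT.nd (nat_lit 156) (nat_lit 152) (nat_lit 0) (XT.nd (nat_lit 78) (nat_lit 76) (nat_lit 0) (XT.lf (nat_lit 0) (nat_lit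 218754479120) (nat_lit 152) (nat_lit 6037067424) (nat_lit 0) (nat_lit 171933264961) (nat_lit 23) (nat_lit 5) (nat_lit 25) (nat_lit 4) (nat_lit 23) (nat_lit 4) (nat_lit 482) (nat_lit 421) (nat_lit 297)) (XT.lf (nat_lit 0) (nat_lit 223522178344) (nat_lit 76) (nat_lit 121384814965) (nat_lit 76) (nat_lit 74563352153) (nat_lit 22) (nat_lit 4) (nat_lit 23) (nat_lit 5) (nat_lit 23) (nat_lit 4) (nat_lit 483) (nat_lit 421) (nat_lit 296))) (XT.nd (nat_lit 78) (nat_lit 0) (nat_lit 0) (XT.lf (nat_lit 0) (nat_lit 28282641786) (nat_lit 76) (nat_lit 7825211498) (nat_lit 152) (nat_lit 407788387741) (nat_lit 20) (nat_lit 5) (nat_lit 21) (nat_lit 5) (nat_lit 22) (nat_lit 4) (nat_lit 484) (nat_lit 421) (nat_lit 295)) (XT.lf (nat_lit 0) (nat_lit 159861349617) (nat_lit 152) (nat_lit 193091632872) (nat_lit 0) (nat_lit 116507732740) (nat_lit 20) (nat_lit 5) (nat_lit 22) (nat_lit 4) (nat_lit 20) (nat_lit 4) (nat_lit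 485) (nat_lit 421) (nat_lit 294))))) (XT.nd (nat_lit 312) (nat_lit 228) (nat_lit 0) (XT.nd (nat_lit 156) (nat_lit 152) (nat_lit 0) (XT.nd (nat_lit 78) (nat_lit 0) (nat_lit 0) (XT.lf (nat_lit 0) (nat_lit 49502935250) (nat_lit 76) (nat_lit 245404897596) (nat_lit 76) (nat_lit 202051097952) (nat_lit 19) (nat_lit 4) (nat_lit 20) (nat_lit 5) (nat_lit 20) (nat_lit 4) (nat_lit 486) (nat_lit 421) (nat_lit 293)) (XT.lf (nat_lit 0) (nat_lit 322484177188) (nat_lit 76) (nat_lit 123552261494) (nat_lit 76) (nat_lit 80198292621) (nat_lit 19) (nat_lit 4) (nat_lit 20) (nat_lit 5) (nat_lit 20) (nat_lit 4) (nat_lit 487) (nat_lit 421) (nat_lit 292))) (XT.nd (nat_lit 78) (nat_lit 0) (nat_lit 0) (XT.lf (nat_lit 0) (nat_lit 50568033109) (nat_lit 152) (nat_lit 496621406002) (nat_lit 0) (nat_lit 10425324250) (nat_lit 17) (nat_lit 5) (nat_lit 19) (nat_lit 4) (nat_lit 17) (nat_lit 4) (nat_lit 488) (nat_lit 421) (nat_lit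 291)) (XT.lf (nat_lit 0) (nat_lit 196386614552) (nat_lit 152) (nat_lit 237994267036) (nat_lit 0) (nat_lit 156243771354) (nat_lit 17) (nat_lit 5) (nat_lit 19) (nat_lit 4) (nat_lit 17) (nat_lit 4) (nat_lit 489) (nat_lit 421) (nat_lit 290)))) (XT.nd (nat_lit 156) (nat_lit 152) (nat_lit 0) (XT.nd (nat_lit 78) (nat_lit 0) (nat_lit 0) (XT.lf (nat_lit 0) (nat_lit 43497017297) (nat_lit 76) (nat_lit 311418835192) (nat_lit 76) (nat_lit 271275867605) (nat_lit 16) (nat_lit 4) (nat_lit 17) (nat_lit 5) (nat_lit 17) (nat_lit 4) (nat_lit 490) (nat_lit 421) (nat_lit 289)) (XT.lf (nat_lit 0) (nat_lit 361040675182) (nat_lit 76) (nat_lit 171593029108) (nat_lit 76) (nat_lit 131449946346) (nat_lit 16) (nat_lit 4) (nat_lit 17) (nat_lit 5) (nat_lit 17) (nat_lit 4) (nat_lit 491) (nat_lit 421) (nat_lit 288))) (XT.nd (nat_lit 78) (nat_lit 76) (nat_lit 0) (XT.lf (nat_lit 0) (nat_lit 18582611049) (nat_lit 152) (nat_lit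 1491358422) (nat_lit 76) (nat_lit 684895397906) (nat_lit 15) (nat_lit 5) (nat_lit 17) (nat_lit 5) (nat_lit 16) (nat_lit 4) (nat_lit 492) (nat_lit 421) (nat_lit 287)) (XT.lf (nat_lit 0) (nat_lit 185388352061) (nat_lit 152) (nat_lit 414296022608) (nat_lit 0) (nat_lit 148218640813) (nat_lit 14) (nat_lit 5) (nat_lit 16) (nat_lit 4) (nat_lit 14) (nat_lit 4) (nat_lit 493) (nat_lit 421) (nat_lit 286))))))))
noncomputable def xc143 : XT := (XT.nd (nat_lit 2184) (nat_lit 76) (nat_lit 0) (XT.nd (nat_lit 1092) (nat_lit 380) (nat_lit 0) (XT.nd (nat_lit 546) (nat_lit 228) (nat_lit 0) (XT.nd (nat_lit 234) (nat_lit 228) (nat_lit 0) (XT.nd (nat_lit 78) (nat_lit 76) (nat_lit 0) (XT.lf (nat_lit 0) (nat_lit 366100989813) (nat_lit 152) (nat_lit 99194176720) (nat_lit 0) (nat_lit 328931193907) (nat_lit 14) (nat_lit 5) (nat_lit 16) (nat_lit 4) (nat_lit 14) (nat_lit 4) (nat_lit 494) (nat_lit 421) (nat_lit 285))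 (XT.nd (nat_lit 78) (nat_lit 0) (nat_lit 0) (XT.lf (nat_lit 0) (nat_lit 253810940607) (nat_lit 76) (nat_lit 313563116596) (nat_lit 76) (nat_lit 276393242305) (nat_lit 13) (nat_lit 4) (nat_lit 14) (nat_lit 5) (nat_lit 14) (nat_lit 4) (nat_lit 495) (nat_lit 421) (nat_lit 284)) (XT.lf (nat_lit 0) (nat_lit 640696239293) (nat_lit 76) (nat_lit 146764153719) (nat_lit 76) (nat_lit 109594206849) (nat_lit 13) (nat_lit 4) (nat_lit 14) (nat_lit 5) (nat_lit 14) (nat_lit 4) (nat_lit 496) (nat_lit 421) (nat_lit 283)))) (XT.nd (nat_lit 156) (nat_lit 76) (nat_lit 0) (XT.nd (nat_lit 78) (nat_lit 0) (nat_lit 0) (XT.lf (nat_lit 0) (nat_lit 70521051607) (nat_lit 152) (nat_lit 847563610039) (nat_lit 0) (nat_lit 36104371909) (nat_lit 11) (nat_lit 5) (nat_lit 13) (nat_lit 4) (nat_lit 11) (nat_lit 4) (nat_lit 497) (nat_lit 421) (nat_lit 282)) (XT.lf (nat_lit 0) (nat_lit 270127319382) (nat_lit 152) (nat_lit 508948374482)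 (nat_lit 0) (nat_lit 235710582068) (nat_lit 11) (nat_lit 5) (nat_lit 13) (nat_lit 4) (nat_lit 11) (nat_lit 4) (nat_lit 498) (nat_lit 421) (nat_lit 281))) (XT.nd (nat_lit 78) (nat_lit 76) (nat_lit 0) (XT.lf (nat_lit 0) (nat_lit 485701454374) (nat_lit 152) (nat_lit 143245230349) (nat_lit 0) (nat_lit 451284663712) (nat_lit 11) (nat_lit 5) (nat_lit 13) (nat_lit 4) (nat_lit 11) (nat_lit 4) (nat_lit 499) (nat_lit 421) (nat_lit 280)) (XT.lf (nat_lit 0) (nat_lit 264967710085) (nat_lit 76) (nat_lit 459925702655) (nat_lit 76) (nat_lit 425508862596) (nat_lit 10) (nat_lit 4) (nat_lit 11) (nat_lit 5) (nat_lit 11) (nat_lit 4) (nat_lit 500) (nat_lit 421) (nat_lit 279))))) (XT.nd (nat_lit 234) (nat_lit 76) (nat_lit 0) (XT.nd (nat_lit 78) (nat_lit 152) (nat_lit 0) (XT.lf (nat_lit 0) (nat_lit 713982986435) (nat_lit 76) (nat_lit 273153747624) (nat_lit 76) (nat_lit 238736861828) (nat_lit 10) (nat_lit 4) (nat_lit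 11) (nat_lit 5) (nat_lit 11) (nat_lit 4) (nat_lit 501) (nat_lit 421) (nat_lit 278)) (XT.nd (nat_lit 78) (nat_lit 152) (nat_lit 0) (XT.lf (nat_lit 0) (nat_lit 1198918389987) (nat_lit 76) (nat_lit 71440601312) (nat_lit 76) (nat_lit 37023673166) (nat_lit 10) (nat_lit 4) (nat_lit 11) (nat_lit 5) (nat_lit 11) (nat_lit 4) (nat_lit 502) (nat_lit 421) (nat_lit 277)) (XT.lf (nat_lit 0) (nat_lit 183801144986) (nat_lit 152) (nat_lit 1058368200112) (nat_lit 0) (nat_lit 151933582618) (nat_lit 8) (nat_lit 5) (nat_lit 10) (nat_lit 4) (nat_lit 8) (nat_lit 4) (nat_lit 503) (nat_lit 421) (nat_lit 276)))) (XT.nd (nat_lit 156) (nat_lit 76) (nat_lit 0) (XT.nd (nat_lit 78) (nat_lit 0) (nat_lit 0) (XT.lf (nat_lit 0) (nat_lit 425189439833) (nat_lit 152) (nat_lit 668780777541) (nat_lit 0) (nat_lit 393321843846) (nat_lit 8) (nat_lit 5) (nat_lit 10) (nat_lit 4) (nat_lit 8) (nat_lit 4) (nat_lit 504) (nat_lit 421) (nat_lit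 275)) (XT.lf (nat_lit 0) (nat_lit 685888332545) (nat_lit 152) (nat_lit 248027324689) (nat_lit 0) (nat_lit 654020705430) (nat_lit 8) (nat_lit 5) (nat_lit 10) (nat_lit 4) (nat_lit 8) (nat_lit 4) (nat_lit 505) (nat_lit 421) (nat_lit 274))) (XT.nd (nat_lit 78) (nat_lit 0) (nat_lit 0) (XT.lf (nat_lit 0) (nat_lit 217253407565) (nat_lit 76) (nat_lit 755414247560) (nat_lit 76) (nat_lit 723546591622) (nat_lit 7) (nat_lit 4) (nat_lit 8) (nat_lit 5) (nat_lit 8) (nat_lit 4) (nat_lit 506) (nat_lit 421) (nat_lit 273)) (XT.lf (nat_lit 0) (nat_lit 733861262561) (nat_lit 76) (nat_lit 555309147355) (nat_lit 76) (nat_lit 523441464731) (nat_lit 7) (nat_lit 4) (nat_lit 8) (nat_lit 5) (nat_lit 8) (nat_lit 4) (nat_lit 507) (nat_lit 421) (nat_lit 272)))))) (XT.nd (nat_lit 546) (nat_lit 228) (nat_lit 0) (XT.nd (nat_lit 234) (nat_lit 0) (nat_lit 0) (XT.nd (nat_lit 78) (nat_lit 152) (nat_lit 0) (XT.lf (nat_lit 0)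 (nat_lit 1291796940801) (nat_lit 76) (nat_lit 339196055219) (nat_lit 76) (nat_lit 307328347884) (nat_lit 7) (nat_lit 4) (nat_lit 8) (nat_lit 5) (nat_lit 8) (nat_lit 4) (nat_lit 508) (nat_lit 421) (nat_lit 271)) (XT.nd (nat_lit 78) (nat_lit 152) (nat_lit 0) (XT.lf (nat_lit 0) (nat_lit 1894366727788) (nat_lit 76) (nat_lit 105794300975) (nat_lit 76) (nat_lit 73926570759) (nat_lit 7) (nat_lit 4) (nat_lit 8) (nat_lit 5) (nat_lit 8) (nat_lit 4) (nat_lit 509) (nat_lit 421) (nat_lit 270)) (XT.lf (nat_lit 0) (nat_lit 181180028794) (nat_lit 152) (nat_lit 1886563972812) (nat_lit 0) (nat_lit 151672851571) (nat_lit 5) (nat_lit 5) (nat_lit 7) (nat_lit 4) (nat_lit 5) (nat_lit 4) (nat_lit 510) (nat_lit 421) (nat_lit 269)))) (XT.nd (nat_lit 156) (nat_lit 0) (nat_lit 0) (XT.nd (nat_lit 78) (nat_lit 0) (nat_lit 0) (XT.lf (nat_lit 0) (nat_lit 460490283734) (nat_lit 152) (nat_lit 1484122334797) (nat_lit 0) (nat_lit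 430983088348) (nat_lit 5) (nat_lit 5) (nat_lit 7) (nat_lit 4) (nat_lit 5) (nat_lit 4) (nat_lit 511) (nat_lit 421) (nat_lit 268)) (XT.lf (nat_lit 0) (nat_lit 762145042342) (nat_lit 152) (nat_lit 1049486021737) (nat_lit 0) (nat_lit 732637830139) (nat_lit 5) (nat_lit 5) (nat_lit 7) (nat_lit 4) (nat_lit 5) (nat_lit 4) (nat_lit 512) (nat_lit 421) (nat_lit 267))) (XT.nd (nat_lit 78) (nat_lit 0) (nat_lit 0) (XT.lf (nat_lit 0) (nat_lit 1087931888372) (nat_lit 152) (nat_lit 580079411035) (nat_lit 0) (nat_lit 1058424660596) (nat_lit 5) (nat_lit 5) (nat_lit 7) (nat_lit 4) (nat_lit 5) (nat_lit 4) (nat_lit 513) (nat_lit 421) (nat_lit 266)) (XT.lf (nat_lit 0) (nat_lit 1439781410541) (nat_lit 152) (nat_lit 73120833888) (nat_lit 0) (nat_lit 1410274168347) (nat_lit 5) (nat_lit 5) (nat_lit 7) (nat_lit 4) (nat_lit 5) (nat_lit 4) (nat_lit 514) (nat_lit 421) (nat_lit 265))))) (XT.nd (nat_lit 234) (nat_lit 152)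 (nat_lit 0) (XT.nd (nat_lit 78) (nat_lit 0) (nat_lit 0) (XT.lf (nat_lit 0) (nat_lit 499374651213) (nat_lit 76) (nat_lit 1332413964213) (nat_lit 76) (nat_lit 1302906708669) (nat_lit 4) (nat_lit 4) (nat_lit 5) (nat_lit 5) (nat_lit 5) (nat_lit 4) (nat_lit 515) (nat_lit 421) (nat_lit 264)) (XT.nd (nat_lit 78) (nat_lit 0) (nat_lit 0) (XT.lf (nat_lit 0) (nat_lit 1121827714169) (nat_lit 76) (nat_lit 1135327690702) (nat_lit 76) (nat_lit 1105820422796) (nat_lit 4) (nat_lit 4) (nat_lit 5) (nat_lit 5) (nat_lit 5) (nat_lit 4) (nat_lit 516) (nat_lit 421) (nat_lit 263)) (XT.lf (nat_lit 0) (nat_lit 1794076552192) (nat_lit 76) (nat_lit 922474758416) (nat_lit 76) (nat_lit 892967479065) (nat_lit 4) (nat_lit 4) (nat_lit 5) (nat_lit 5) (nat_lit 5) (nat_lit 4) (nat_lit 517) (nat_lit 421) (nat_lit 262)))) (XT.nd (nat_lit 156) (nat_lit 152) (nat_lit 0) (XT.nd (nat_lit 78) (nat_lit 0) (nat_lit 0) (XT.lf (nat_lit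 0) (nat_lit 2520104862100) (nat_lit 76) (nat_lit 692593816647) (nat_lit 76) (nat_lit 663086526698) (nat_lit 4) (nat_lit 4) (nat_lit 5) (nat_lit 5) (nat_lit 5) (nat_lit 4) (nat_lit 518) (nat_lit 421) (nat_lit 261)) (XT.lf (nat_lit 0) (nat_lit 3304215033877) (nat_lit 76) (nat_lit 444322607962) (nat_lit 76) (nat_lit 414815308200) (nat_lit 4) (nat_lit 4) (nat_lit 5) (nat_lit 5) (nat_lit 5) (nat_lit 4) (nat_lit 519) (nat_lit 421) (nat_lit 260))) (XT.nd (nat_lit 78) (nat_lit 152) (nat_lit 0) (XT.lf (nat_lit 0) (nat_lit 4151053646320) (nat_lit 76) (nat_lit 176189895568) (nat_lit 76) (nat_lit 146682586721) (nat_lit 4) (nat_lit 4) (nat_lit 5) (nat_lit 5) (nat_lit 5) (nat_lit 4) (nat_lit 520) (nat_lit 421) (nat_lit 259)) (XT.lf (nat_lit 0) (nat_lit 145136200050) (nat_lit 152) (nat_lit 4545368696340) (nat_lit 0) (nat_lit 117814609994) (nat_lit 2) (nat_lit 5) (nat_lit 4) (nat_lit 4) (nat_lit 2) (nat_lit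 4) (nat_lit 521) (nat_lit 421) (nat_lit 258))))))) (XT.nd (nat_lit 1092) (nat_lit 0) (nat_lit 0) (XT.nd (nat_lit 546) (nat_lit 76) (nat_lit 0) (XT.nd (nat_lit 234) (nat_lit 0) (nat_lit 0) (XT.nd (nat_lit 78) (nat_lit 0) (nat_lit 0) (XT.lf (nat_lit 0) (nat_lit 466009212150) (nat_lit 152) (nat_lit 4263372061004) (nat_lit 0) (nat_lit 438687614881) (nat_lit 2) (nat_lit 5) (nat_lit 4) (nat_lit 4) (nat_lit 2) (nat_lit 4) (nat_lit 522) (nat_lit 421) (nat_lit 257)) (XT.nd (nat_lit 78) (nat_lit 0) (nat_lit 0) (XT.lf (nat_lit 0) (nat_lit 812551906869) (nat_lit 152) (nat_lit 3958816023096) (nat_lit 0) (nat_lit 785230302921) (nat_lit 2) (nat_lit 5) (nat_lit 4) (nat_lit 4) (nat_lit 2) (nat_lit 4) (nat_lit 523) (nat_lit 421) (nat_lit 256)) (XT.lf (nat_lit 0) (nat_lit 1186817870546) (nat_lit 152) (nat_lit 3629895806096) (nat_lit 0) (nat_lit 1159496260414) (nat_lit 2) (nat_lit 5) (nat_lit 4) (nat_lit 4)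 (nat_lit 2) (nat_lit 4) (nat_lit 524) (nat_lit 421) (nat_lit 255)))) (XT.nd (nat_lit 156) (nat_lit 0) (nat_lit 0) (XT.nd (nat_lit 78) (nat_lit 0) (nat_lit 0) (XT.lf (nat_lit 0) (nat_lit 1591024975558) (nat_lit 152) (nat_lit 3274662253162) (nat_lit 0) (nat_lit 1563703359700) (nat_lit 2) (nat_lit 5) (nat_lit 4) (nat_lit 4) (nat_lit 2) (nat_lit 4) (nat_lit 525) (nat_lit 421) (nat_lit 254)) (XT.lf (nat_lit 0) (nat_lit 2027568523268) (nat_lit 152) (nat_lit 2891010276572) (nat_lit 0) (nat_lit 2000246902109) (nat_lit 2) (nat_lit 5) (nat_lit 4) (nat_lit 4) (nat_lit 2) (nat_lit 4) (nat_lit 526) (nat_lit 421) (nat_lit 253))) (XT.nd (nat_lit 78) (nat_lit 0) (nat_lit 0) (XT.lf (nat_lit 0) (nat_lit 2499035438403) (nat_lit 152) (nat_lit 2476666383133) (nat_lit 0) (nat_lit 2471713812336) (nat_lit 2) (nat_lit 5) (nat_lit 4) (nat_lit 4) (nat_lit 2) (nat_lit 4) (nat_lit 527) (nat_lit 421) (nat_lit 252)) (XT.lf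 (nat_lit 0) (nat_lit 3008219598980) (nat_lit 152) (nat_lit 2029175201624) (nat_lit 0) (nat_lit 2980897968367) (nat_lit 2) (nat_lit 5) (nat_lit 4) (nat_lit 4) (nat_lit 2) (nat_lit 4) (nat_lit 528) (nat_lit 421) (nat_lit 251))))) (XT.nd (nat_lit 234) (nat_lit 76) (nat_lit 0) (XT.nd (nat_lit 78) (nat_lit 0) (nat_lit 0) (XT.lf (nat_lit 0) (nat_lit 3558138392615) (nat_lit 152) (nat_lit 1545884932451) (nat_lit 0) (nat_lit 3530816757794) (nat_lit 2) (nat_lit 5) (nat_lit 4) (nat_lit 4) (nat_lit 2) (nat_lit 4) (nat_lit 529) (nat_lit 421) (nat_lit 250)) (XT.nd (nat_lit 78) (nat_lit 0) (nat_lit 0) (XT.lf (nat_lit 0) (nat_lit 4152050597347) (nat_lit 152) (nat_lit 1023931633278) (nat_lit 0) (nat_lit 4124728958628) (nat_lit 2) (nat_lit 5) (nat_lit 4) (nat_lit 4) (nat_lit 2) (nat_lit 4) (nat_lit 530) (nat_lit 421) (nat_lit 249)) (XT.lf (nat_lit 0) (nat_lit 4793475692905) (nat_lit 152) (nat_lit 460222247517)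 (nat_lit 0) (nat_lit 4766154050579) (nat_lit 2) (nat_lit 5) (nat_lit 4) (nat_lit 4) (nat_lit 2) (nat_lit 4) (nat_lit 531) (nat_lit 421) (nat_lit 248)))) (XT.nd (nat_lit 156) (nat_lit 0) (nat_lit 0) (XT.nd (nat_lit 78) (nat_lit 0) (nat_lit 0) (XT.lf (nat_lit 0) (nat_lit 156407880535) (nat_lit 76) (nat_lit 5333568449648) (nat_lit 76) (nat_lit 5306246803980) (nat_lit 1) (nat_lit 4) (nat_lit 2) (nat_lit 5) (nat_lit 2) (nat_lit 4) (nat_lit 532) (nat_lit 421) (nat_lit 247)) (XT.lf (nat_lit 0) (nat_lit 848541505788) (nat_lit 76) (nat_lit 5406238727290) (nat_lit 76) (nat_lit 5378917078529) (nat_lit 1) (nat_lit 4) (nat_lit 2) (nat_lit 5) (nat_lit 2) (nat_lit 4) (nat_lit 533) (nat_lit 421) (nat_lit 246))) (XT.nd (nat_lit 78) (nat_lit 0) (nat_lit 0) (XT.lf (nat_lit 0) (nat_lit 1596045672864) (nat_lit 76) (nat_lit 5484722703863) (nat_lit 76) (nat_lit 5457401052238) (nat_lit 1) (nat_lit 4) (nat_lit 2)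 (nat_lit 5) (nat_lit 2) (nat_lit 4) (nat_lit 534) (nat_lit 421) (nat_lit 245)) (XT.lf (nat_lit 0) (nat_lit 2403350036088) (nat_lit 76) (nat_lit 5569485469598) (nat_lit 76) (nat_lit 5542163815321) (nat_lit 1) (nat_lit 4) (nat_lit 2) (nat_lit 5) (nat_lit 2) (nat_lit 4) (nat_lit 535) (nat_lit 421) (nat_lit 244)))))) (XT.nd (nat_lit 53664) (nat_lit 0) (nat_lit 6156) (XT.nd (nat_lit 234) (nat_lit 0) (nat_lit 0) (XT.nd (nat_lit 78) (nat_lit 0) (nat_lit 0) (XT.lf (nat_lit 0) (nat_lit 3275238621315) (nat_lit 76) (nat_lit 5661029322366) (nat_lit 76) (nat_lit 5633707665633) (nat_lit 1) (nat_lit 4) (nat_lit 2) (nat_lit 5) (nat_lit 2) (nat_lit 4) (nat_lit 536) (nat_lit 421) (nat_lit 243)) (XT.nd (nat_lit 78) (nat_lit 0) (nat_lit 0) (XT.lf (nat_lit 0) (nat_lit 4216878175717) (nat_lit 76) (nat_lit 5759896744257) (nat_lit 76) (nat_lit 5732575085250) (nat_lit 1) (nat_lit 4) (nat_lit 2) (nat_lit 5) (nat_lit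 2) (nat_lit 4) (nat_lit 537) (nat_lit 421) (nat_lit 242)) (XT.lf (nat_lit 0) (nat_lit 5233848785543) (nat_lit 76) (nat_lit 5866673616290) (nat_lit 76) (nat_lit 5839351955179) (nat_lit 1) (nat_lit 4) (nat_lit 2) (nat_lit 5) (nat_lit 2) (nat_lit 4) (nat_lit 538) (nat_lit 421) (nat_lit 241)))) (XT.nd (nat_lit 156) (nat_lit 0) (nat_lit 0) (XT.nd (nat_lit 78) (nat_lit 0) (nat_lit 0) (XT.lf (nat_lit 0) (nat_lit 6332176943294) (nat_lit 76) (nat_lit 5981992690300) (nat_lit 76) (nat_lit 5954671027239) (nat_lit 1) (nat_lit 4) (nat_lit 2) (nat_lit 5) (nat_lit 2) (nat_lit 4) (nat_lit 539) (nat_lit 421) (nat_lit 240)) (XT.lf (nat_lit 0) (nat_lit 7518371260277) (nat_lit 76) (nat_lit 6106537338577) (nat_lit 76) (nat_lit 6079215673711) (nat_lit 1) (nat_lit 4) (nat_lit 2) (nat_lit 5) (nat_lit 2) (nat_lit 4) (nat_lit 540) (nat_lit 421) (nat_lit 239))) (XT.nd (nat_lit 53196) (nat_lit 0) (nat_lit 6992) (XT.lf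 (nat_lit 0) (nat_lit 8799461036146) (nat_lit 76) (nat_lit 6241045603481) (nat_lit 76) (nat_lit 6213723936943) (nat_lit 1) (nat_lit 4) (nat_lit 2) (nat_lit 5) (nat_lit 2) (nat_lit 4) (nat_lit 541) (nat_lit 421) (nat_lit 238)) (XT.lf (nat_lit 0) (nat_lit 10334161002) (nat_lit 532) (nat_lit 372927052) (nat_lit 532) (nat_lit 372927052) (nat_lit 93) (nat_lit 3) (nat_lit 100) (nat_lit 3) (nat_lit 100) (nat_lit 5) (nat_lit 422) (nat_lit 422) (nat_lit 356))))) (XT.nd (nat_lit 312) (nat_lit 380) (nat_lit 0) (XT.nd (nat_lit 156) (nat_lit 456) (nat_lit 0) (XT.nd (nat_lit 78) (nat_lit 0) (nat_lit 76) (XT.lf (nat_lit 76) (nat_lit 10831823013) (nat_lit 0) (nat_lit 11050590282) (nat_lit 532) (nat_lit 1133012532) (nat_lit 94) (nat_lit 5) (nat_lit 93) (nat_lit 3) (nat_lit 100) (nat_lit 5) (nat_lit 423) (nat_lit 422) (nat_lit 355)) (XT.lf (nat_lit 0) (nat_lit 23205242605) (nat_lit 456) (nat_lit 571818626)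 (nat_lit 532) (nat_lit 161264693) (nat_lit 94) (nat_lit 5) (nat_lit 100) (nat_lit 5) (nat_lit 101) (nat_lit 5) (nat_lit 424) (nat_lit 422) (nat_lit 354))) (XT.nd (nat_lit 78) (nat_lit 0) (nat_lit 0) (XT.lf (nat_lit 0) (nat_lit 299519170) (nat_lit 532) (nat_lit 12608121813) (nat_lit 608) (nat_lit 11981148833) (nat_lit 87) (nat_lit 5) (nat_lit 94) (nat_lit 5) (nat_lit 95) (nat_lit 5) (nat_lit 425) (nat_lit 422) (nat_lit 353)) (XT.lf (nat_lit 76) (nat_lit 265502260) (nat_lit 0) (nat_lit 1120663442) (nat_lit 608) (nat_lit 24526719861) (nat_lit 88) (nat_lit 5) (nat_lit 87) (nat_lit 5) (nat_lit 95) (nat_lit 5) (nat_lit 426) (nat_lit 422) (nat_lit 352)))) (XT.nd (nat_lit 156) (nat_lit 456) (nat_lit 0) (XT.nd (nat_lit 78) (nat_lit 0) (nat_lit 0) (XT.lf (nat_lit 0) (nat_lit 3181963647) (nat_lit 532) (nat_lit 12402321859) (nat_lit 608) (nat_lit 11384847133) (nat_lit 88) (nat_lit 5) (nat_lit 95) (nat_lit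 5) (nat_lit 96) (nat_lit 5) (nat_lit 427) (nat_lit 422) (nat_lit 351)) (XT.lf (nat_lit 76) (nat_lit 1963217392) (nat_lit 0) (nat_lit 3224655708) (nat_lit 608) (nat_lit 22916691720) (nat_lit 89) (nat_lit 5) (nat_lit 88) (nat_lit 5) (nat_lit 96) (nat_lit 5) (nat_lit 428) (nat_lit 422) (nat_lit 350))) (XT.nd (nat_lit 78) (nat_lit 532) (nat_lit 0) (XT.lf (nat_lit 0) (nat_lit 7936335405) (nat_lit 532) (nat_lit 11381455294) (nat_lit 76) (nat_lit 9966475535) (nat_lit 89) (nat_lit 5) (nat_lit 96) (nat_lit 5) (nat_lit 90) (nat_lit 5) (nat_lit 429) (nat_lit 422) (nat_lit 349)) (XT.lf (nat_lit 0) (nat_lit 4702565511) (nat_lit 532) (nat_lit 6390347093) (nat_lit 608) (nat_lit 19450373112) (nat_lit 82) (nat_lit 5) (nat_lit 89) (nat_lit 5) (nat_lit 90) (nat_lit 5) (nat_lit 430) (nat_lit 422) (nat_lit 348))))))))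
noncomputable def xc144 : XT := (XT.nd (nat_lit 2184) (nat_lit 1900) (nat_lit 0) (XT.nd (nat_lit 1092) (nat_lit 1140) (nat_lit 0) (XT.nd (nat_lit 546) (nat_lit 684) (nat_lit 0) (XT.nd (nat_lit 234) (nat_lit 760) (nat_lit 0) (XT.nd (nat_lit 78) (nat_lit 228) (nat_lit 0) (XT.lf (nat_lit 0) (nat_lit 14995214292) (nat_lit 608) (nat_lit 9356323243) (nat_lit 76) (nat_lit 7512034273) (nat_lit 82) (nat_lit 5) (nat_lit 90) (nat_lit 5) (nat_lit 83) (nat_lit 5) (nat_lit 431) (nat_lit 422) (nat_lit 347)) (XT.nd (nat_lit 78) (nat_lit 0) (nat_lit 0) (XT.lf (nat_lit 0) (nat_lit 8708514201) (nat_lit 228) (nat_lit 10869050195) (nat_lit 304) (nat_lit 13682488095) (nat_lit 79) (nat_lit 5) (nat_lit 82) (nat_lit 5) (nat_lit 83) (nat_lit 5) (nat_lit 432) (nat_lit 422) (nat_lit 346)) (XT.lf (nat_lit 0) (nat_lit 24870559799) (nat_lit 304) (nat_lit 6100906855) (nat_lit 76) (nat_lit 3769261175) (nat_lit 79) (nat_lit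 5) (nat_lit 83) (nat_lit 5) (nat_lit 80) (nat_lit 5) (nat_lit 433) (nat_lit 422) (nat_lit 345)))) (XT.nd (nat_lit 156) (nat_lit 456) (nat_lit 0) (XT.nd (nat_lit 78) (nat_lit 76) (nat_lit 0) (XT.lf (nat_lit 0) (nat_lit 14248523992) (nat_lit 228) (nat_lit 16956795103) (nat_lit 304) (nat_lit 5085072884) (nat_lit 76) (nat_lit 5) (nat_lit 79) (nat_lit 5) (nat_lit 80) (nat_lit 5) (nat_lit 434) (nat_lit 422) (nat_lit 344)) (XT.lf (nat_lit 0) (nat_lit 243310107) (nat_lit 304) (nat_lit 1391991737) (nat_lit 76) (nat_lit 36315398779) (nat_lit 75) (nat_lit 5) (nat_lit 79) (nat_lit 5) (nat_lit 76) (nat_lit 5) (nat_lit 435) (nat_lit 422) (nat_lit 343))) (XT.nd (nat_lit 78) (nat_lit 228) (nat_lit 0) (XT.lf (nat_lit 0) (nat_lit 6618728714) (nat_lit 304) (nat_lit 18203115113) (nat_lit 76) (nat_lit 14839785041) (nat_lit 72) (nat_lit 5) (nat_lit 76) (nat_lit 5) (nat_lit 73) (nat_lit 5) (nat_lit 436) (nat_lit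 422) (nat_lit 342)) (XT.lf (nat_lit 0) (nat_lit 4904180977) (nat_lit 228) (nat_lit 8793677797) (nat_lit 304) (nat_lit 27796078897) (nat_lit 69) (nat_lit 5) (nat_lit 72) (nat_lit 5) (nat_lit 73) (nat_lit 5) (nat_lit 437) (nat_lit 422) (nat_lit 341))))) (XT.nd (nat_lit 234) (nat_lit 532) (nat_lit 0) (XT.nd (nat_lit 78) (nat_lit 152) (nat_lit 0) (XT.lf (nat_lit 0) (nat_lit 22053198428) (nat_lit 304) (nat_lit 12763211080) (nat_lit 76) (nat_lit 8599631828) (nat_lit 69) (nat_lit 5) (nat_lit 73) (nat_lit 5) (nat_lit 70) (nat_lit 5) (nat_lit 438) (nat_lit 422) (nat_lit 340)) (XT.nd (nat_lit 78) (nat_lit 0) (nat_lit 0) (XT.lf (nat_lit 0) (nat_lit 13404438679) (nat_lit 152) (nat_lit 18218142816) (nat_lit 228) (nat_lit 13825682959) (nat_lit 67) (nat_lit 5) (nat_lit 69) (nat_lit 5) (nat_lit 70) (nat_lit 5) (nat_lit 439) (nat_lit 422) (nat_lit 339)) (XT.lf (nat_lit 0) (nat_lit 42303523553) (nat_lit 228)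 (nat_lit 5233156977) (nat_lit 76) (nat_lit 78704647) (nat_lit 67) (nat_lit 5) (nat_lit 70) (nat_lit 5) (nat_lit 68) (nat_lit 5) (nat_lit 440) (nat_lit 422) (nat_lit 338)))) (XT.nd (nat_lit 156) (nat_lit 152) (nat_lit 0) (XT.nd (nat_lit 78) (nat_lit 152) (nat_lit 0) (XT.lf (nat_lit 0) (nat_lit 4773254679) (nat_lit 228) (nat_lit 25525870569) (nat_lit 76) (nat_lit 19562524774) (nat_lit 64) (nat_lit 5) (nat_lit 67) (nat_lit 5) (nat_lit 65) (nat_lit 5) (nat_lit 441) (nat_lit 422) (nat_lit 337)) (XT.lf (nat_lit 0) (nat_lit 4361309276) (nat_lit 152) (nat_lit 11264019459) (nat_lit 228) (nat_lit 36631479866) (nat_lit 62) (nat_lit 5) (nat_lit 64) (nat_lit 5) (nat_lit 65) (nat_lit 5) (nat_lit 442) (nat_lit 422) (nat_lit 336))) (XT.nd (nat_lit 78) (nat_lit 152) (nat_lit 0) (XT.lf (nat_lit 0) (nat_lit 28280696932) (nat_lit 228) (nat_lit 16945222468) (nat_lit 76) (nat_lit 9542850519) (nat_lit 62) (nat_lit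 5) (nat_lit 65) (nat_lit 5) (nat_lit 63) (nat_lit 5) (nat_lit 443) (nat_lit 422) (nat_lit 335)) (XT.lf (nat_lit 0) (nat_lit 17034166547) (nat_lit 152) (nat_lit 25612460447) (nat_lit 228) (nat_lit 14779210846) (nat_lit 60) (nat_lit 5) (nat_lit 62) (nat_lit 5) (nat_lit 63) (nat_lit 5) (nat_lit 444) (nat_lit 422) (nat_lit 334)))))) (XT.nd (nat_lit 546) (nat_lit 532) (nat_lit 0) (XT.nd (nat_lit 234) (nat_lit 304) (nat_lit 0) (XT.nd (nat_lit 78) (nat_lit 304) (nat_lit 0) (XT.lf (nat_lit 0) (nat_lit 54689303889) (nat_lit 152) (nat_lit 3931881571) (nat_lit 228) (nat_lit 1637537680) (nat_lit 60) (nat_lit 5) (nat_lit 62) (nat_lit 5) (nat_lit 63) (nat_lit 5) (nat_lit 445) (nat_lit 422) (nat_lit 333)) (XT.nd (nat_lit 78) (nat_lit 152) (nat_lit 0) (XT.lf (nat_lit 0) (nat_lit 13224164179) (nat_lit 152) (nat_lit 30325835322) (nat_lit 76) (nat_lit 19640341624) (nat_lit 58) (nat_lit 5) (nat_lit 60) (nat_lit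 5) (nat_lit 59) (nat_lit 5) (nat_lit 446) (nat_lit 422) (nat_lit 332)) (XT.lf (nat_lit 0) (nat_lit 8622168409) (nat_lit 152) (nat_lit 21026210042) (nat_lit 228) (nat_lit 36667743967) (nat_lit 56) (nat_lit 5) (nat_lit 58) (nat_lit 5) (nat_lit 59) (nat_lit 5) (nat_lit 447) (nat_lit 422) (nat_lit 331)))) (XT.nd (nat_lit 156) (nat_lit 228) (nat_lit 0) (XT.nd (nat_lit 78) (nat_lit 76) (nat_lit 0) (XT.lf (nat_lit 0) (nat_lit 48312975244) (nat_lit 228) (nat_lit 17322032770) (nat_lit 76) (nat_lit 3982842768) (nat_lit 56) (nat_lit 5) (nat_lit 59) (nat_lit 5) (nat_lit 57) (nat_lit 4) (nat_lit 448) (nat_lit 422) (nat_lit 330)) (XT.lf (nat_lit 0) (nat_lit 27082564386) (nat_lit 76) (nat_lit 42582308141) (nat_lit 152) (nat_lit 3423314449) (nat_lit 55) (nat_lit 5) (nat_lit 56) (nat_lit 5) (nat_lit 57) (nat_lit 4) (nat_lit 449) (nat_lit 422) (nat_lit 329))) (XT.nd (nat_lit 78) (nat_lit 152) (nat_lit 0)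 (XT.lf (nat_lit 0) (nat_lit 15576557936) (nat_lit 152) (nat_lit 1173790807) (nat_lit 76) (nat_lit 60016622883) (nat_lit 54) (nat_lit 5) (nat_lit 56) (nat_lit 5) (nat_lit 55) (nat_lit 5) (nat_lit 450) (nat_lit 422) (nat_lit 328)) (XT.lf (nat_lit 0) (nat_lit 37403460857) (nat_lit 228) (nat_lit 31305871810) (nat_lit 76) (nat_lit 11904254052) (nat_lit 52) (nat_lit 5) (nat_lit 55) (nat_lit 5) (nat_lit 53) (nat_lit 4) (nat_lit 451) (nat_lit 422) (nat_lit 327))))) (XT.nd (nat_lit 234) (nat_lit 228) (nat_lit 0) (XT.nd (nat_lit 78) (nat_lit 228) (nat_lit 0) (XT.lf (nat_lit 0) (nat_lit 19671919305) (nat_lit 76) (nat_lit 42242692029) (nat_lit 152) (nat_lit 22778272195) (nat_lit 51) (nat_lit 5) (nat_lit 52) (nat_lit 5) (nat_lit 53) (nat_lit 4) (nat_lit 452) (nat_lit 422) (nat_lit 326)) (XT.nd (nat_lit 78) (nat_lit 152) (nat_lit 0) (XT.lf (nat_lit 0) (nat_lit 198936665) (nat_lit 152) (nat_lit 12532229227)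 (nat_lit 76) (nat_lit 76298712243) (nat_lit 50) (nat_lit 5) (nat_lit 52) (nat_lit 5) (nat_lit 51) (nat_lit 5) (nat_lit 453) (nat_lit 422) (nat_lit 325)) (XT.lf (nat_lit 0) (nat_lit 25387995147) (nat_lit 228) (nat_lit 48230104579) (nat_lit 76) (nat_lit 19920057916) (nat_lit 48) (nat_lit 5) (nat_lit 51) (nat_lit 5) (nat_lit 49) (nat_lit 4) (nat_lit 454) (nat_lit 422) (nat_lit 324)))) (XT.nd (nat_lit 156) (nat_lit 152) (nat_lit 0) (XT.nd (nat_lit 78) (nat_lit 0) (nat_lit 0) (XT.lf (nat_lit 0) (nat_lit 10278131648) (nat_lit 76) (nat_lit 43240732137) (nat_lit 152) (nat_lit 44814100983) (nat_lit 47) (nat_lit 5) (nat_lit 48) (nat_lit 5) (nat_lit 49) (nat_lit 4) (nat_lit 455) (nat_lit 422) (nat_lit 323)) (XT.lf (nat_lit 0) (nat_lit 76205010870) (nat_lit 76) (nat_lit 9011235438) (nat_lit 152) (nat_lit 18189826697) (nat_lit 47) (nat_lit 5) (nat_lit 48) (nat_lit 5) (nat_lit 49) (nat_lit 4) (nat_lit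 456) (nat_lit 422) (nat_lit 322))) (XT.nd (nat_lit 78) (nat_lit 0) (nat_lit 0) (XT.lf (nat_lit 0) (nat_lit 11706126347) (nat_lit 152) (nat_lit 69214391964) (nat_lit 76) (nat_lit 27810568931) (nat_lit 45) (nat_lit 5) (nat_lit 47) (nat_lit 5) (nat_lit 46) (nat_lit 4) (nat_lit 457) (nat_lit 422) (nat_lit 321)) (XT.lf (nat_lit 0) (nat_lit 44005640072) (nat_lit 152) (nat_lit 2034321883) (nat_lit 76) (nat_lit 68324775091) (nat_lit 45) (nat_lit 5) (nat_lit 47) (nat_lit 5) (nat_lit 46) (nat_lit 4) (nat_lit 458) (nat_lit 422) (nat_lit 320))))))) (XT.nd (nat_lit 1092) (nat_lit 912) (nat_lit 0) (XT.nd (nat_lit 546) (nat_lit 456) (nat_lit 0) (XT.nd (nat_lit 234) (nat_lit 304) (nat_lit 0) (XT.nd (nat_lit 78) (nat_lit 152) (nat_lit 0) (XT.lf (nat_lit 0) (nat_lit 74229038687) (nat_lit 76) (nat_lit 6442977756) (nat_lit 152) (nat_lit 39634430333) (nat_lit 44) (nat_lit 5) (nat_lit 45) (nat_lit 5) (nat_lit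 46) (nat_lit 4) (nat_lit 459) (nat_lit 422) (nat_lit 319)) (XT.nd (nat_lit 78) (nat_lit 76) (nat_lit 0) (XT.lf (nat_lit 0) (nat_lit 30643682148) (nat_lit 76) (nat_lit 91293320299) (nat_lit 76) (nat_lit 4653266938) (nat_lit 43) (nat_lit 4) (nat_lit 44) (nat_lit 5) (nat_lit 44) (nat_lit 4) (nat_lit 460) (nat_lit 422) (nat_lit 318)) (XT.lf (nat_lit 0) (nat_lit 32926905917) (nat_lit 152) (nat_lit 18154234210) (nat_lit 76) (nat_lit 82115311887) (nat_lit 42) (nat_lit 5) (nat_lit 44) (nat_lit 5) (nat_lit 43) (nat_lit 4) (nat_lit 461) (nat_lit 422) (nat_lit 317)))) (XT.nd (nat_lit 156) (nat_lit 152) (nat_lit 0) (XT.nd (nat_lit 78) (nat_lit 76) (nat_lit 0) (XT.lf (nat_lit 0) (nat_lit 69198157211) (nat_lit 76) (nat_lit 5726045668) (nat_lit 152) (nat_lit 65264288694) (nat_lit 41) (nat_lit 5) (nat_lit 42) (nat_lit 5) (nat_lit 43) (nat_lit 4) (nat_lit 462) (nat_lit 422) (nat_lit 316)) (XT.lf (nat_lit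 0) (nat_lit 16646414873) (nat_lit 76) (nat_lit 105582725422) (nat_lit 76) (nat_lit 25354925509) (nat_lit 40) (nat_lit 4) (nat_lit 41) (nat_lit 5) (nat_lit 41) (nat_lit 4) (nat_lit 463) (nat_lit 422) (nat_lit 315))) (XT.nd (nat_lit 78) (nat_lit 76) (nat_lit 0) (XT.lf (nat_lit 0) (nat_lit 18997458497) (nat_lit 152) (nat_lit 40714662995) (nat_lit 76) (nat_lit 95653974268) (nat_lit 39) (nat_lit 5) (nat_lit 41) (nat_lit 5) (nat_lit 40) (nat_lit 4) (nat_lit 464) (nat_lit 422) (nat_lit 314)) (XT.lf (nat_lit 0) (nat_lit 59016037882) (nat_lit 76) (nat_lit 7929574863) (nat_lit 152) (nat_lit 96658997516) (nat_lit 38) (nat_lit 5) (nat_lit 39) (nat_lit 5) (nat_lit 40) (nat_lit 4) (nat_lit 465) (nat_lit 422) (nat_lit 313))))) (XT.nd (nat_lit 234) (nat_lit 228) (nat_lit 0) (XT.nd (nat_lit 78) (nat_lit 228) (nat_lit 0) (XT.lf (nat_lit 0) (nat_lit 121024117881) (nat_lit 152) (nat_lit 4559473684) (nat_lit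 0) (nat_lit 46735054508) (nat_lit 38) (nat_lit 5) (nat_lit 40) (nat_lit 4) (nat_lit 38) (nat_lit 4) (nat_lit 466) (nat_lit 422) (nat_lit 312)) (XT.nd (nat_lit 78) (nat_lit 76) (nat_lit 0) (XT.lf (nat_lit 0) (nat_lit 705828424) (nat_lit 152) (nat_lit 72822099211) (nat_lit 76) (nat_lit 107974973734) (nat_lit 36) (nat_lit 5) (nat_lit 38) (nat_lit 5) (nat_lit 37) (nat_lit 4) (nat_lit 467) (nat_lit 422) (nat_lit 311)) (XT.lf (nat_lit 0) (nat_lit 40515342385) (nat_lit 76) (nat_lit 14680156573) (nat_lit 152) (nat_lit 136031770346) (nat_lit 35) (nat_lit 5) (nat_lit 36) (nat_lit 5) (nat_lit 37) (nat_lit 4) (nat_lit 468) (nat_lit 422) (nat_lit 310)))) (XT.nd (nat_lit 156) (nat_lit 152) (nat_lit 0) (XT.nd (nat_lit 78) (nat_lit 76) (nat_lit 0) (XT.lf (nat_lit 0) (nat_lit 117260833723) (nat_lit 152) (nat_lit 35739756555) (nat_lit 0) (nat_lit 48471677174) (nat_lit 35) (nat_lit 5) (nat_lit 37) (nat_lit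 4) (nat_lit 35) (nat_lit 4) (nat_lit 469) (nat_lit 422) (nat_lit 309)) (XT.lf (nat_lit 0) (nat_lit 92681950647) (nat_lit 76) (nat_lit 94218114816) (nat_lit 76) (nat_lit 25428106395) (nat_lit 34) (nat_lit 4) (nat_lit 35) (nat_lit 5) (nat_lit 35) (nat_lit 4) (nat_lit 470) (nat_lit 422) (nat_lit 308))) (XT.nd (nat_lit 78) (nat_lit 0) (nat_lit 0) (XT.lf (nat_lit 0) (nat_lit 8938788284) (nat_lit 76) (nat_lit 28431204732) (nat_lit 152) (nat_lit 186512058929) (nat_lit 32) (nat_lit 5) (nat_lit 33) (nat_lit 5) (nat_lit 34) (nat_lit 4) (nat_lit 471) (nat_lit 422) (nat_lit 307)) (XT.lf (nat_lit 0) (nat_lit 108197825256) (nat_lit 152) (nat_lit 83257240103) (nat_lit 0) (nat_lit 44501966428) (nat_lit 32) (nat_lit 5) (nat_lit 34) (nat_lit 4) (nat_lit 32) (nat_lit 4) (nat_lit 472) (nat_lit 422) (nat_lit 306)))))) (XT.nd (nat_lit 546) (nat_lit 456) (nat_lit 0) (XT.nd (nat_lit 234) (nat_lit 228) (nat_lit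 0) (XT.nd (nat_lit 78) (nat_lit 152) (nat_lit 0) (XT.lf (nat_lit 0) (nat_lit 61288040644) (nat_lit 76) (nat_lit 125614789348) (nat_lit 76) (nat_lit 61918304367) (nat_lit 31) (nat_lit 4) (nat_lit 32) (nat_lit 5) (nat_lit 32) (nat_lit 4) (nat_lit 473) (nat_lit 422) (nat_lit 305)) (XT.nd (nat_lit 78) (nat_lit 76) (nat_lit 0) (XT.lf (nat_lit 0) (nat_lit 11064179934) (nat_lit 152) (nat_lit 40683570485) (nat_lit 76) (nat_lit 210762211446) (nat_lit 30) (nat_lit 5) (nat_lit 32) (nat_lit 5) (nat_lit 31) (nat_lit 4) (nat_lit 474) (nat_lit 422) (nat_lit 304)) (XT.lf (nat_lit 0) (nat_lit 90275356279) (nat_lit 152) (nat_lit 155294959133) (nat_lit 0) (nat_lit 31296095562) (nat_lit 29) (nat_lit 5) (nat_lit 31) (nat_lit 4) (nat_lit 29) (nat_lit 4) (nat_lit 475) (nat_lit 422) (nat_lit 303)))) (XT.nd (nat_lit 156) (nat_lit 152) (nat_lit 0) (XT.nd (nat_lit 78) (nat_lit 0) (nat_lit 0) (XT.lf (nat_lit 0) (nat_lit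 5750039841) (nat_lit 76) (nat_lit 172695638505) (nat_lit 76) (nat_lit 113715917548) (nat_lit 28) (nat_lit 4) (nat_lit 29) (nat_lit 5) (nat_lit 29) (nat_lit 4) (nat_lit 476) (nat_lit 422) (nat_lit 302)) (XT.lf (nat_lit 0) (nat_lit 188507661748) (nat_lit 76) (nat_lit 89406652947) (nat_lit 76) (nat_lit 30426505842) (nat_lit 28) (nat_lit 4) (nat_lit 29) (nat_lit 5) (nat_lit 29) (nat_lit 4) (nat_lit 477) (nat_lit 422) (nat_lit 301))) (XT.nd (nat_lit 78) (nat_lit 0) (nat_lit 0) (XT.lf (nat_lit 0) (nat_lit 58120358659) (nat_lit 152) (nat_lit 263944987513) (nat_lit 0) (nat_lit 3508745986) (nat_lit 26) (nat_lit 5) (nat_lit 28) (nat_lit 4) (nat_lit 26) (nat_lit 4) (nat_lit 478) (nat_lit 422) (nat_lit 300)) (XT.lf (nat_lit 0) (nat_lit 157789674714) (nat_lit 152) (nat_lit 82700801224) (nat_lit 0) (nat_lit 103177723751) (nat_lit 26) (nat_lit 5) (nat_lit 28) (nat_lit 4) (nat_lit 26) (nat_lit 4) (nat_lit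 479) (nat_lit 422) (nat_lit 299))))) (XT.nd (nat_lit 234) (nat_lit 228) (nat_lit 0) (XT.nd (nat_lit 78) (nat_lit 152) (nat_lit 0) (XT.lf (nat_lit 0) (nat_lit 118993019126) (nat_lit 76) (nat_lit 149300116468) (nat_lit 76) (nat_lit 94687852273) (nat_lit 25) (nat_lit 4) (nat_lit 26) (nat_lit 5) (nat_lit 26) (nat_lit 4) (nat_lit 480) (nat_lit 422) (nat_lit 298)) (XT.nd (nat_lit 78) (nat_lit 76) (nat_lit 0) (XT.lf (nat_lit 0) (nat_lit 5926813584) (nat_lit 152) (nat_lit 42284781968) (nat_lit 76) (nat_lit 335434397301) (nat_lit 24) (nat_lit 5) (nat_lit 26) (nat_lit 5) (nat_lit 25) (nat_lit 4) (nat_lit 481) (nat_lit 422) (nat_lit 297)) (XT.lf (nat_lit 0) (nat_lit 115499914442) (nat_lit 152) (nat_lit 224853054658) (nat_lit 0) (nat_lit 64932485951) (nat_lit 23) (nat_lit 5) (nat_lit 25) (nat_lit 4) (nat_lit 23) (nat_lit 4) (nat_lit 482) (nat_lit 422) (nat_lit 296)))) (XT.nd (nat_lit 156) (nat_lit 152)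 (nat_lit 0) (XT.nd (nat_lit 78) (nat_lit 76) (nat_lit 0) (XT.lf (nat_lit 0) (nat_lit 236276188714) (nat_lit 152) (nat_lit 6476369502) (nat_lit 0) (nat_lit 185708529989) (nat_lit 23) (nat_lit 5) (nat_lit 25) (nat_lit 4) (nat_lit 23) (nat_lit 4) (nat_lit 483) (nat_lit 422) (nat_lit 295)) (XT.lf (nat_lit 0) (nat_lit 241446510527) (nat_lit 76) (nat_lit 131073835454) (nat_lit 76) (nat_lit 80505963549) (nat_lit 22) (nat_lit 4) (nat_lit 23) (nat_lit 5) (nat_lit 23) (nat_lit 4) (nat_lit 484) (nat_lit 422) (nat_lit 294))) (XT.nd (nat_lit 78) (nat_lit 0) (nat_lit 0) (XT.lf (nat_lit 0) (nat_lit 30587828668) (nat_lit 76) (nat_lit 8429429967) (nat_lit 152) (nat_lit 440389019410) (nat_lit 20) (nat_lit 5) (nat_lit 21) (nat_lit 5) (nat_lit 22) (nat_lit 4) (nat_lit 485) (nat_lit 422) (nat_lit 293)) (XT.lf (nat_lit 0) (nat_lit 172669981050) (nat_lit 152) (nat_lit 208498487995) (nat_lit 0) (nat_lit 125847525438)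 (nat_lit 20) (nat_lit 5) (nat_lit 22) (nat_lit 4) (nat_lit 20) (nat_lit 4) (nat_lit 486) (nat_lit 422) (nat_lit 292))))))))
noncomputable def xc145 : XT := (XT.nd (nat_lit 2184) (nat_lit 304) (nat_lit 0) (XT.nd (nat_lit 1092) (nat_lit 456) (nat_lit 0) (XT.nd (nat_lit 546) (nat_lit 304) (nat_lit 0) (XT.nd (nat_lit 234) (nat_lit 152) (nat_lit 0) (XT.nd (nat_lit 78) (nat_lit 152) (nat_lit 0) (XT.lf (nat_lit 0) (nat_lit 53502620882) (nat_lit 76) (nat_lit 265017049853) (nat_lit 76) (nat_lit 218194437546) (nat_lit 19) (nat_lit 4) (nat_lit 20) (nat_lit 5) (nat_lit 20) (nat_lit 4) (nat_lit 487) (nat_lit 422) (nat_lit 291)) (XT.nd (nat_lit 78) (nat_lit 152) (nat_lit 0) (XT.lf (nat_lit 0) (nat_lit 348319439892) (nat_lit 76) (nat_lit 133417702088) (nat_lit 76) (nat_lit 86594944695) (nat_lit 19) (nat_lit 4) (nat_lit 20) (nat_lit 5) (nat_lit 20) (nat_lit 4) (nat_lit 488) (nat_lit 422) (nat_lit 290))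 (XT.lf (nat_lit 0) (nat_lit 54631704248) (nat_lit 152) (nat_lit 536313606973) (nat_lit 0) (nat_lit 11277174865) (nat_lit 17) (nat_lit 5) (nat_lit 19) (nat_lit 4) (nat_lit 17) (nat_lit 4) (nat_lit 489) (nat_lit 422) (nat_lit 289)))) (XT.nd (nat_lit 156) (nat_lit 76) (nat_lit 0) (XT.nd (nat_lit 78) (nat_lit 76) (nat_lit 0) (XT.lf (nat_lit 0) (nat_lit 212114421948) (nat_lit 152) (nat_lit 256999075520) (nat_lit 0) (nat_lit 168759777391) (nat_lit 17) (nat_lit 5) (nat_lit 19) (nat_lit 4) (nat_lit 17) (nat_lit 4) (nat_lit 490) (nat_lit 422) (nat_lit 288)) (XT.lf (nat_lit 0) (nat_lit 47010632246) (nat_lit 76) (nat_lit 336314930613) (nat_lit 76) (nat_lit 292960179413) (nat_lit 16) (nat_lit 4) (nat_lit 17) (nat_lit 5) (nat_lit 17) (nat_lit 4) (nat_lit 491) (nat_lit 422) (nat_lit 287))) (XT.nd (nat_lit 78) (nat_lit 76) (nat_lit 0) (XT.lf (nat_lit 0) (nat_lit 389955275090) (nat_lit 76) (nat_lit 185304349775)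 (nat_lit 76) (nat_lit 141949499831) (nat_lit 16) (nat_lit 4) (nat_lit 17) (nat_lit 5) (nat_lit 17) (nat_lit 4) (nat_lit 492) (nat_lit 422) (nat_lit 286)) (XT.lf (nat_lit 0) (nat_lit 20083682633) (nat_lit 152) (nat_lit 1580881495) (nat_lit 76) (nat_lit 739701195579) (nat_lit 15) (nat_lit 5) (nat_lit 17) (nat_lit 5) (nat_lit 16) (nat_lit 4) (nat_lit 493) (nat_lit 422) (nat_lit 285))))) (XT.nd (nat_lit 234) (nat_lit 152) (nat_lit 0) (XT.nd (nat_lit 78) (nat_lit 76) (nat_lit 0) (XT.lf (nat_lit 0) (nat_lit 200233869178) (nat_lit 152) (nat_lit 447409905027) (nat_lit 0) (nat_lit 160090326558) (nat_lit 14) (nat_lit 5) (nat_lit 16) (nat_lit 4) (nat_lit 14) (nat_lit 4) (nat_lit 494) (nat_lit 422) (nat_lit 284)) (XT.nd (nat_lit 78) (nat_lit 76) (nat_lit 0) (XT.lf (nat_lit 0) (nat_lit 395402447657) (nat_lit 152) (nat_lit 107102118831) (nat_lit 0) (nat_lit 355258832457) (nat_lit 14) (nat_lit 5) (nat_lit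 16) (nat_lit 4) (nat_lit 14) (nat_lit 4) (nat_lit 495) (nat_lit 422) (nat_lit 283)) (XT.lf (nat_lit 0) (nat_lit 274142709350) (nat_lit 76) (nat_lit 338634306866) (nat_lit 76) (nat_lit 298490624463) (nat_lit 13) (nat_lit 4) (nat_lit 14) (nat_lit 5) (nat_lit 14) (nat_lit 4) (nat_lit 496) (nat_lit 422) (nat_lit 282)))) (XT.nd (nat_lit 156) (nat_lit 0) (nat_lit 0) (XT.nd (nat_lit 78) (nat_lit 152) (nat_lit 0) (XT.lf (nat_lit 0) (nat_lit 691976839820) (nat_lit 76) (nat_lit 158492453556) (nat_lit 76) (nat_lit 118348708927) (nat_lit 13) (nat_lit 4) (nat_lit 14) (nat_lit 5) (nat_lit 14) (nat_lit 4) (nat_lit 497) (nat_lit 422) (nat_lit 281)) (XT.lf (nat_lit 0) (nat_lit 76175108811) (nat_lit 152) (nat_lit 915343136007) (nat_lit 0) (nat_lit 39004921548) (nat_lit 11) (nat_lit 5) (nat_lit 13) (nat_lit 4) (nat_lit 11) (nat_lit 4) (nat_lit 498) (nat_lit 422) (nat_lit 280))) (XT.nd (nat_lit 78) (nat_lit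 0) (nat_lit 0) (XT.lf (nat_lit 0) (nat_lit 291748961484) (nat_lit 152) (nat_lit 549640575149) (nat_lit 0) (nat_lit 254578724824) (nat_lit 11) (nat_lit 5) (nat_lit 13) (nat_lit 4) (nat_lit 11) (nat_lit 4) (nat_lit 499) (nat_lit 422) (nat_lit 279)) (XT.lf (nat_lit 0) (nat_lit 524568178642) (nat_lit 152) (nat_lit 154682932766) (nat_lit 0) (nat_lit 487397896245) (nat_lit 11) (nat_lit 5) (nat_lit 13) (nat_lit 4) (nat_lit 11) (nat_lit 4) (nat_lit 500) (nat_lit 422) (nat_lit 278)))))) (XT.nd (nat_lit 546) (nat_lit 152) (nat_lit 0) (XT.nd (nat_lit 234) (nat_lit 228) (nat_lit 0) (XT.nd (nat_lit 78) (nat_lit 0) (nat_lit 0) (XT.lf (nat_lit 0) (nat_lit 286186488068) (nat_lit 76) (nat_lit 496708733575) (nat_lit 76) (nat_lit 459538408828) (nat_lit 10) (nat_lit 4) (nat_lit 11) (nat_lit 5) (nat_lit 11) (nat_lit 4) (nat_lit 501) (nat_lit 422) (nat_lit 277)) (XT.nd (nat_lit 78) (nat_lit 0) (nat_lit 0) (XT.lf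 (nat_lit 0) (nat_lit 771121404216) (nat_lit 76) (nat_lit 294995838830) (nat_lit 76) (nat_lit 257825474871) (nat_lit 10) (nat_lit 4) (nat_lit 11) (nat_lit 5) (nat_lit 11) (nat_lit 4) (nat_lit 502) (nat_lit 422) (nat_lit 276)) (XT.lf (nat_lit 0) (nat_lit 1294850174951) (nat_lit 76) (nat_lit 77146397006) (nat_lit 76) (nat_lit 39975996738) (nat_lit 10) (nat_lit 4) (nat_lit 11) (nat_lit 5) (nat_lit 11) (nat_lit 4) (nat_lit 503) (nat_lit 422) (nat_lit 275)))) (XT.nd (nat_lit 156) (nat_lit 76) (nat_lit 0) (XT.nd (nat_lit 78) (nat_lit 0) (nat_lit 0) (XT.lf (nat_lit 0) (nat_lit 198514322662) (nat_lit 152) (nat_lit 1143018858119) (nat_lit 0) (nat_lit 164097254250) (nat_lit 8) (nat_lit 5) (nat_lit 10) (nat_lit 4) (nat_lit 8) (nat_lit 4) (nat_lit 504) (nat_lit 422) (nat_lit 274)) (XT.lf (nat_lit 0) (nat_lit 459213008054) (nat_lit 152) (nat_lit 722265834187) (nat_lit 0) (nat_lit 424795910820) (nat_lit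 8) (nat_lit 5) (nat_lit 10) (nat_lit 4) (nat_lit 8) (nat_lit 4) (nat_lit 505) (nat_lit 422) (nat_lit 273))) (XT.nd (nat_lit 78) (nat_lit 76) (nat_lit 0) (XT.lf (nat_lit 0) (nat_lit 740767188995) (nat_lit 152) (nat_lit 267853394407) (nat_lit 0) (nat_lit 706350065073) (nat_lit 8) (nat_lit 5) (nat_lit 10) (nat_lit 4) (nat_lit 8) (nat_lit 4) (nat_lit 506) (nat_lit 422) (nat_lit 272)) (XT.lf (nat_lit 0) (nat_lit 234649388421) (nat_lit 76) (nat_lit 815839269719) (nat_lit 76) (nat_lit 781422121086) (nat_lit 7) (nat_lit 4) (nat_lit 8) (nat_lit 5) (nat_lit 8) (nat_lit 4) (nat_lit 507) (nat_lit 422) (nat_lit 271))))) (XT.nd (nat_lit 234) (nat_lit 152) (nat_lit 0) (XT.nd (nat_lit 78) (nat_lit 0) (nat_lit 0) (XT.lf (nat_lit 0) (nat_lit 792584708242) (nat_lit 76) (nat_lit 599726362805) (nat_lit 76) (nat_lit 565309191292) (nat_lit 7) (nat_lit 4) (nat_lit 8) (nat_lit 5) (nat_lit 8) (nat_lit 4) (nat_lit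 508) (nat_lit 422) (nat_lit 270)) (XT.nd (nat_lit 78) (nat_lit 0) (nat_lit 0) (XT.lf (nat_lit 0) (nat_lit 1395154163358) (nat_lit 76) (nat_lit 366324780063) (nat_lit 76) (nat_lit 331907587365) (nat_lit 7) (nat_lit 4) (nat_lit 8) (nat_lit 5) (nat_lit 8) (nat_lit 4) (nat_lit 509) (nat_lit 422) (nat_lit 269)) (XT.lf (nat_lit 0) (nat_lit 2045928535727) (nat_lit 76) (nat_lit 114251401004) (nat_lit 76) (nat_lit 79834188690) (nat_lit 7) (nat_lit 4) (nat_lit 8) (nat_lit 5) (nat_lit 8) (nat_lit 4) (nat_lit 510) (nat_lit 422) (nat_lit 268)))) (XT.nd (nat_lit 156) (nat_lit 0) (nat_lit 0) (XT.nd (nat_lit 78) (nat_lit 0) (nat_lit 0) (XT.lf (nat_lit 0) (nat_lit 195680610335) (nat_lit 152) (nat_lit 2037476292411) (nat_lit 0) (nat_lit 163812804338) (nat_lit 5) (nat_lit 5) (nat_lit 7) (nat_lit 4) (nat_lit 5) (nat_lit 4) (nat_lit 511) (nat_lit 422) (nat_lit 267)) (XT.lf (nat_lit 0) (nat_lit 497335227950)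 (nat_lit 152) (nat_lit 1602840271371) (nat_lit 0) (nat_lit 465467406380) (nat_lit 5) (nat_lit 5) (nat_lit 7) (nat_lit 4) (nat_lit 5) (nat_lit 4) (nat_lit 512) (nat_lit 422) (nat_lit 266))) (XT.nd (nat_lit 78) (nat_lit 0) (nat_lit 0) (XT.lf (nat_lit 0) (nat_lit 823121943430) (nat_lit 152) (nat_lit 1133433931059) (nat_lit 0) (nat_lit 791254107442) (nat_lit 5) (nat_lit 5) (nat_lit 7) (nat_lit 4) (nat_lit 5) (nat_lit 4) (nat_lit 513) (nat_lit 422) (nat_lit 265)) (XT.lf (nat_lit 0) (nat_lit 1174971344720) (nat_lit 152) (nat_lit 626475604273) (nat_lit 0) (nat_lit 1143103495382) (nat_lit 5) (nat_lit 5) (nat_lit 7) (nat_lit 4) (nat_lit 5) (nat_lit 4) (nat_lit 514) (nat_lit 422) (nat_lit 264))))))) (XT.nd (nat_lit 1092) (nat_lit 76) (nat_lit 0) (XT.nd (nat_lit 546) (nat_lit 152) (nat_lit 0) (XT.nd (nat_lit 234) (nat_lit 0) (nat_lit 0) (XT.nd (nat_lit 78) (nat_lit 76) (nat_lit 0) (XT.lf (nat_lit 0)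 (nat_lit 1554968465308) (nat_lit 152) (nat_lit 78961093520) (nat_lit 0) (nat_lit 1523100603609) (nat_lit 5) (nat_lit 5) (nat_lit 7) (nat_lit 4) (nat_lit 5) (nat_lit 4) (nat_lit 515) (nat_lit 422) (nat_lit 263)) (XT.nd (nat_lit 78) (nat_lit 0) (nat_lit 0) (XT.lf (nat_lit 0) (nat_lit 539333792234) (nat_lit 76) (nat_lit 1439002338424) (nat_lit 76) (nat_lit 1407134465279) (nat_lit 4) (nat_lit 4) (nat_lit 5) (nat_lit 5) (nat_lit 5) (nat_lit 4) (nat_lit 516) (nat_lit 422) (nat_lit 262)) (XT.lf (nat_lit 0) (nat_lit 1211582421047) (nat_lit 76) (nat_lit 1226149514359) (nat_lit 76) (nat_lit 1194281630616) (nat_lit 4) (nat_lit 4) (nat_lit 5) (nat_lit 5) (nat_lit 5) (nat_lit 4) (nat_lit 517) (nat_lit 422) (nat_lit 261)))) (XT.nd (nat_lit 156) (nat_lit 0) (nat_lit 0) (XT.nd (nat_lit 78) (nat_lit 0) (nat_lit 0) (XT.lf (nat_lit 0) (nat_lit 1937610537242) (nat_lit 76) (nat_lit 996268672795) (nat_lit 76)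 (nat_lit 964400779239) (nat_lit 4) (nat_lit 4) (nat_lit 5) (nat_lit 5) (nat_lit 5) (nat_lit 4) (nat_lit 518) (nat_lit 422) (nat_lit 260)) (XT.lf (nat_lit 0) (nat_lit 2721720529656) (nat_lit 76) (nat_lit 747997556891) (nat_lit 76) (nat_lit 716129654250) (nat_lit 4) (nat_lit 4) (nat_lit 5) (nat_lit 5) (nat_lit 5) (nat_lit 4) (nat_lit 519) (nat_lit 422) (nat_lit 259))) (XT.nd (nat_lit 78) (nat_lit 0) (nat_lit 0) (XT.lf (nat_lit 0) (nat_lit 3568558976021) (nat_lit 76) (nat_lit 479864930407) (nat_lit 76) (nat_lit 447997019352) (nat_lit 4) (nat_lit 4) (nat_lit 5) (nat_lit 5) (nat_lit 5) (nat_lit 4) (nat_lit 520) (nat_lit 422) (nat_lit 258)) (XT.lf (nat_lit 0) (nat_lit 4483144178242) (nat_lit 76) (nat_lit 190281859258) (nat_lit 76) (nat_lit 158413940413) (nat_lit 4) (nat_lit 4) (nat_lit 5) (nat_lit 5) (nat_lit 5) (nat_lit 4) (nat_lit 521) (nat_lit 422) (nat_lit 257))))) (XT.nd (nat_lit 234) (nat_lit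 0) (nat_lit 0) (XT.nd (nat_lit 78) (nat_lit 0) (nat_lit 0) (XT.lf (nat_lit 0) (nat_lit 156750185387) (nat_lit 152) (nat_lit 4908991787913) (nat_lit 0) (nat_lit 127242846445) (nat_lit 2) (nat_lit 5) (nat_lit 4) (nat_lit 4) (nat_lit 2) (nat_lit 4) (nat_lit 522) (nat_lit 422) (nat_lit 256)) (XT.nd (nat_lit 78) (nat_lit 0) (nat_lit 0) (XT.lf (nat_lit 0) (nat_lit 503292809616) (nat_lit 152) (nat_lit 4604435896130) (nat_lit 0) (nat_lit 473785464490) (nat_lit 2) (nat_lit 5) (nat_lit 4) (nat_lit 4) (nat_lit 2) (nat_lit 4) (nat_lit 523) (nat_lit 422) (nat_lit 255)) (XT.lf (nat_lit 0) (nat_lit 877558708024) (nat_lit 152) (nat_lit 4275515814430) (nat_lit 0) (nat_lit 848051357172) (nat_lit 2) (nat_lit 5) (nat_lit 4) (nat_lit 4) (nat_lit 2) (nat_lit 4) (nat_lit 524) (nat_lit 422) (nat_lit 254)))) (XT.nd (nat_lit 156) (nat_lit 0) (nat_lit 0) (XT.nd (nat_lit 78) (nat_lit 0) (nat_lit 0) (XT.lf (nat_lit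 0) (nat_lit 1281765752602) (nat_lit 152) (nat_lit 3920282386775) (nat_lit 0) (nat_lit 1252258396449) (nat_lit 2) (nat_lit 5) (nat_lit 4) (nat_lit 4) (nat_lit 2) (nat_lit 4) (nat_lit 525) (nat_lit 422) (nat_lit 253)) (XT.lf (nat_lit 0) (nat_lit 1718309244354) (nat_lit 152) (nat_lit 3536630526184) (nat_lit 0) (nat_lit 1688801883292) (nat_lit 2) (nat_lit 5) (nat_lit 4) (nat_lit 4) (nat_lit 2) (nat_lit 4) (nat_lit 526) (nat_lit 422) (nat_lit 252))) (XT.nd (nat_lit 78) (nat_lit 0) (nat_lit 0) (XT.lf (nat_lit 0) (nat_lit 2189776107677) (nat_lit 152) (nat_lit 3122286740152) (nat_lit 0) (nat_lit 2160268742070) (nat_lit 2) (nat_lit 5) (nat_lit 4) (nat_lit 4) (nat_lit 2) (nat_lit 4) (nat_lit 527) (nat_lit 422) (nat_lit 251)) (XT.lf (nat_lit 0) (nat_lit 2698960220279) (nat_lit 152) (nat_lit 2674795658093) (nat_lit 0) (nat_lit 2669452850464) (nat_lit 2) (nat_lit 5) (nat_lit 4) (nat_lit 4) (nat_lit 2)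 (nat_lit 4) (nat_lit 528) (nat_lit 422) (nat_lit 250)))))) (XT.nd (nat_lit 546) (nat_lit 0) (nat_lit 0) (XT.nd (nat_lit 234) (nat_lit 76) (nat_lit 0) (XT.nd (nat_lit 78) (nat_lit 0) (nat_lit 0) (XT.lf (nat_lit 0) (nat_lit 3248878969494) (nat_lit 152) (nat_lit 2191505481003) (nat_lit 0) (nat_lit 3219371595782) (nat_lit 2) (nat_lit 5) (nat_lit 4) (nat_lit 4) (nat_lit 2) (nat_lit 4) (nat_lit 529) (nat_lit 422) (nat_lit 249)) (XT.nd (nat_lit 78) (nat_lit 0) (nat_lit 0) (XT.lf (nat_lit 0) (nat_lit 3842791133095) (nat_lit 152) (nat_lit 1669552267092) (nat_lit 0) (nat_lit 3813283755774) (nat_lit 2) (nat_lit 5) (nat_lit 4) (nat_lit 4) (nat_lit 2) (nat_lit 4) (nat_lit 530) (nat_lit 422) (nat_lit 248)) (XT.lf (nat_lit 0) (nat_lit 4484216190570) (nat_lit 152) (nat_lit 1105842960278) (nat_lit 0) (nat_lit 4454708809908) (nat_lit 2) (nat_lit 5) (nat_lit 4) (nat_lit 4) (nat_lit 2) (nat_lit 4) (nat_lit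 531) (nat_lit 422) (nat_lit 247)))) (XT.nd (nat_lit 156) (nat_lit 0) (nat_lit 0) (XT.nd (nat_lit 78) (nat_lit 76) (nat_lit 0) (XT.lf (nat_lit 0) (nat_lit 5176955179297) (nat_lit 152) (nat_lit 497037060964) (nat_lit 0) (nat_lit 5147447795542) (nat_lit 2) (nat_lit 5) (nat_lit 4) (nat_lit 4) (nat_lit 2) (nat_lit 4) (nat_lit 532) (nat_lit 422) (nat_lit 246)) (XT.lf (nat_lit 0) (nat_lit 168923402234) (nat_lit 76) (nat_lit 5760252428860) (nat_lit 76) (nat_lit 5730745042241) (nat_lit 1) (nat_lit 4) (nat_lit 2) (nat_lit 5) (nat_lit 2) (nat_lit 4) (nat_lit 533) (nat_lit 422) (nat_lit 245))) (XT.nd (nat_lit 78) (nat_lit 0) (nat_lit 0) (XT.lf (nat_lit 0) (nat_lit 916427503340) (nat_lit 76) (nat_lit 5838736439585) (nat_lit 76) (nat_lit 5809229050313) (nat_lit 1) (nat_lit 4) (nat_lit 2) (nat_lit 5) (nat_lit 2) (nat_lit 4) (nat_lit 534) (nat_lit 422) (nat_lit 244)) (XT.lf (nat_lit 0) (nat_lit 1723731805480)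 (nat_lit 76) (nat_lit 5923499236942) (nat_lit 76) (nat_lit 5893991845215) (nat_lit 1) (nat_lit 4) (nat_lit 2) (nat_lit 5) (nat_lit 2) (nat_lit 4) (nat_lit 535) (nat_lit 422) (nat_lit 243))))) (XT.nd (nat_lit 312) (nat_lit 0) (nat_lit 0) (XT.nd (nat_lit 156) (nat_lit 0) (nat_lit 0) (XT.nd (nat_lit 78) (nat_lit 0) (nat_lit 0) (XT.lf (nat_lit 0) (nat_lit 2595620334147) (nat_lit 76) (nat_lit 6015043118990) (nat_lit 76) (nat_lit 5985535724989) (nat_lit 1) (nat_lit 4) (nat_lit 2) (nat_lit 5) (nat_lit 2) (nat_lit 4) (nat_lit 536) (nat_lit 422) (nat_lit 242)) (XT.lf (nat_lit 0) (nat_lit 3537259836180) (nat_lit 76) (nat_lit 6113910567992) (nat_lit 76) (nat_lit 6084403171886) (nat_lit 1) (nat_lit 4) (nat_lit 2) (nat_lit 5) (nat_lit 2) (nat_lit 4) (nat_lit 537) (nat_lit 422) (nat_lit 241))) (XT.nd (nat_lit 78) (nat_lit 0) (nat_lit 0) (XT.lf (nat_lit 0) (nat_lit 4554230397515) (nat_lit 76) (nat_lit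 6220687465128) (nat_lit 76) (nat_lit 6191180067073) (nat_lit 1) (nat_lit 4) (nat_lit 2) (nat_lit 5) (nat_lit 2) (nat_lit 4) (nat_lit 538) (nat_lit 422) (nat_lit 240)) (XT.lf (nat_lit 0) (nat_lit 5652558510368) (nat_lit 76) (nat_lit 6336006562381) (nat_lit 76) (nat_lit 6306499162521) (nat_lit 1) (nat_lit 4) (nat_lit 2) (nat_lit 5) (nat_lit 2) (nat_lit 4) (nat_lit 539) (nat_lit 422) (nat_lit 239)))) (XT.nd (nat_lit 53352) (nat_lit 0) (nat_lit 6992) (XT.nd (nat_lit 78) (nat_lit 0) (nat_lit 0) (XT.lf (nat_lit 0) (nat_lit 6838752785778) (nat_lit 76) (nat_lit 6460551232180) (nat_lit 76) (nat_lit 6431043830648) (nat_lit 1) (nat_lit 4) (nat_lit 2) (nat_lit 5) (nat_lit 2) (nat_lit 4) (nat_lit 540) (nat_lit 422) (nat_lit 238)) (XT.lf (nat_lit 0) (nat_lit 8119842523154) (nat_lit 76) (nat_lit 6595059517011) (nat_lit 76) (nat_lit 6565552113931) (nat_lit 1) (nat_lit 4) (nat_lit 2) (nat_lit 5) (nat_lit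 2) (nat_lit 4) (nat_lit 541) (nat_lit 422) (nat_lit 237))) (XT.nd (nat_lit 78) (nat_lit 0) (nat_lit 0) (XT.lf (nat_lit 0) (nat_lit 11284695875) (nat_lit 532) (nat_lit 335899882) (nat_lit 532) (nat_lit 335899882) (nat_lit 93) (nat_lit 3) (nat_lit 100) (nat_lit 3) (nat_lit 100) (nat_lit 5) (nat_lit 423) (nat_lit 423) (nat_lit 354)) (XT.lf (nat_lit 76) (nat_lit 11828706137) (nat_lit 0) (nat_lit 12036697784) (nat_lit 532) (nat_lit 972633580) (nat_lit 94) (nat_lit 5) (nat_lit 93) (nat_lit 3) (nat_lit 100) (nat_lit 5) (nat_lit 424) (nat_lit 423) (nat_lit 353))))))))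
noncomputable def xc146 : XT := (XT.nd (nat_lit 2184) (nat_lit 2052) (nat_lit 0) (XT.nd (nat_lit 1092) (nat_lit 1292) (nat_lit 0) (XT.nd (nat_lit 546) (nat_lit 988) (nat_lit 0) (XT.nd (nat_lit 234) (nat_lit 380) (nat_lit 0) (XT.nd (nat_lit 78) (nat_lit 532) (nat_lit 0) (XT.lf (nat_lit 0) (nat_lit 25274572209) (nat_lit 456) (nat_lit 477365759) (nat_lit 532) (nat_lit 84392895) (nat_lit 94) (nat_lit 5) (nat_lit 100) (nat_lit 5) (nat_lit 101) (nat_lit 5) (nat_lit 425) (nat_lit 423) (nat_lit 352)) (XT.nd (nat_lit 78) (nat_lit 0) (nat_lit 0) (XT.lf (nat_lit 0) (nat_lit 529136953) (nat_lit 532) (nat_lit 13469268753) (nat_lit 608) (nat_lit 12865010516) (nat_lit 87) (nat_lit 5) (nat_lit 94) (nat_lit 5) (nat_lit 95) (nat_lit 5) (nat_lit 426) (nat_lit 423) (nat_lit 351)) (XT.lf (nat_lit 76) (nat_lit 430510997) (nat_lit 0) (nat_lit 1260428051) (nat_lit 608) (nat_lit 26279444471) (nat_lit 88) (nat_lit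 5) (nat_lit 87) (nat_lit 5) (nat_lit 95) (nat_lit 5) (nat_lit 427) (nat_lit 423) (nat_lit 350)))) (XT.nd (nat_lit 156) (nat_lit 456) (nat_lit 0) (XT.nd (nat_lit 78) (nat_lit 0) (nat_lit 0) (XT.lf (nat_lit 0) (nat_lit 3614923431) (nat_lit 532) (nat_lit 13245890359) (nat_lit 608) (nat_lit 12251556429) (nat_lit 88) (nat_lit 5) (nat_lit 95) (nat_lit 5) (nat_lit 96) (nat_lit 5) (nat_lit 428) (nat_lit 423) (nat_lit 349)) (XT.lf (nat_lit 76) (nat_lit 2265129569) (nat_lit 0) (nat_lit 3506444817) (nat_lit 608) (nat_lit 24567842630) (nat_lit 89) (nat_lit 5) (nat_lit 88) (nat_lit 5) (nat_lit 96) (nat_lit 5) (nat_lit 429) (nat_lit 423) (nat_lit 348))) (XT.nd (nat_lit 78) (nat_lit 532) (nat_lit 0) (XT.lf (nat_lit 0) (nat_lit 8726889133) (nat_lit 532) (nat_lit 12144804526) (nat_lit 76) (nat_lit 10742844275) (nat_lit 89) (nat_lit 5) (nat_lit 96) (nat_lit 5) (nat_lit 90) (nat_lit 5) (nat_lit 430) (nat_lit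 423) (nat_lit 347)) (XT.lf (nat_lit 0) (nat_lit 5222212191) (nat_lit 532) (nat_lit 6905700688) (nat_lit 608) (nat_lit 20847013790) (nat_lit 82) (nat_lit 5) (nat_lit 89) (nat_lit 5) (nat_lit 90) (nat_lit 5) (nat_lit 431) (nat_lit 423) (nat_lit 346))))) (XT.nd (nat_lit 234) (nat_lit 760) (nat_lit 0) (XT.nd (nat_lit 78) (nat_lit 228) (nat_lit 0) (XT.lf (nat_lit 0) (nat_lit 16331375917) (nat_lit 608) (nat_lit 9960974870) (nat_lit 76) (nat_lit 8109367907) (nat_lit 82) (nat_lit 5) (nat_lit 90) (nat_lit 5) (nat_lit 83) (nat_lit 5) (nat_lit 432) (nat_lit 423) (nat_lit 345)) (XT.nd (nat_lit 78) (nat_lit 0) (nat_lit 0) (XT.lf (nat_lit 0) (nat_lit 9545407690) (nat_lit 228) (nat_lit 11728164043) (nat_lit 304) (nat_lit 14636886615) (nat_lit 79) (nat_lit 5) (nat_lit 82) (nat_lit 5) (nat_lit 83) (nat_lit 5) (nat_lit 433) (nat_lit 423) (nat_lit 344)) (XT.lf (nat_lit 0) (nat_lit 26980623611) (nat_lit 304)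 (nat_lit 6449756876) (nat_lit 76) (nat_lit 4079958929) (nat_lit 79) (nat_lit 5) (nat_lit 83) (nat_lit 5) (nat_lit 80) (nat_lit 5) (nat_lit 434) (nat_lit 423) (nat_lit 343)))) (XT.nd (nat_lit 156) (nat_lit 456) (nat_lit 0) (XT.nd (nat_lit 78) (nat_lit 76) (nat_lit 0) (XT.lf (nat_lit 0) (nat_lit 15524103819) (nat_lit 228) (nat_lit 18292403443) (nat_lit 304) (nat_lit 5367922920) (nat_lit 76) (nat_lit 5) (nat_lit 79) (nat_lit 5) (nat_lit 80) (nat_lit 5) (nat_lit 435) (nat_lit 423) (nat_lit 342)) (XT.lf (nat_lit 0) (nat_lit 371807345) (nat_lit 304) (nat_lit 1371952999) (nat_lit 76) (nat_lit 39234263321) (nat_lit 75) (nat_lit 5) (nat_lit 79) (nat_lit 5) (nat_lit 76) (nat_lit 5) (nat_lit 436) (nat_lit 423) (nat_lit 341))) (XT.nd (nat_lit 78) (nat_lit 228) (nat_lit 0) (XT.lf (nat_lit 0) (nat_lit 7252841142) (nat_lit 304) (nat_lit 19523538304) (nat_lit 76) (nat_lit 16049800960) (nat_lit 72) (nat_lit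 5) (nat_lit 76) (nat_lit 5) (nat_lit 73) (nat_lit 5) (nat_lit 437) (nat_lit 423) (nat_lit 340)) (XT.lf (nat_lit 0) (nat_lit 5428902840) (nat_lit 228) (nat_lit 9464833492) (nat_lit 304) (nat_lit 29911703517) (nat_lit 69) (nat_lit 5) (nat_lit 72) (nat_lit 5) (nat_lit 73) (nat_lit 5) (nat_lit 438) (nat_lit 423) (nat_lit 339)))))) (XT.nd (nat_lit 546) (nat_lit 608) (nat_lit 0) (XT.nd (nat_lit 234) (nat_lit 532) (nat_lit 0) (XT.nd (nat_lit 78) (nat_lit 152) (nat_lit 0) (XT.lf (nat_lit 0) (nat_lit 23910812264) (nat_lit 304) (nat_lit 13654987895) (nat_lit 76) (nat_lit 9316047583) (nat_lit 69) (nat_lit 5) (nat_lit 73) (nat_lit 5) (nat_lit 70) (nat_lit 5) (nat_lit 439) (nat_lit 423) (nat_lit 338)) (XT.nd (nat_lit 78) (nat_lit 0) (nat_lit 0) (XT.lf (nat_lit 0) (nat_lit 14602800933) (nat_lit 152) (nat_lit 19639060114) (nat_lit 228) (nat_lit 14835099068) (nat_lit 67) (nat_lit 5) (nat_lit 69) (nat_lit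 5) (nat_lit 70) (nat_lit 5) (nat_lit 440) (nat_lit 423) (nat_lit 337)) (XT.lf (nat_lit 0) (nat_lit 45771464399) (nat_lit 228) (nat_lit 5529315082) (nat_lit 76) (nat_lit 117136706) (nat_lit 67) (nat_lit 5) (nat_lit 70) (nat_lit 5) (nat_lit 68) (nat_lit 5) (nat_lit 441) (nat_lit 423) (nat_lit 336)))) (XT.nd (nat_lit 156) (nat_lit 152) (nat_lit 0) (XT.nd (nat_lit 78) (nat_lit 152) (nat_lit 0) (XT.lf (nat_lit 0) (nat_lit 5237541283) (nat_lit 228) (nat_lit 27444200392) (nat_lit 76) (nat_lit 21162240175) (nat_lit 64) (nat_lit 5) (nat_lit 67) (nat_lit 5) (nat_lit 65) (nat_lit 5) (nat_lit 442) (nat_lit 423) (nat_lit 335)) (XT.lf (nat_lit 0) (nat_lit 4830821186) (nat_lit 152) (nat_lit 12123755035) (nat_lit 228) (nat_lit 39476433746) (nat_lit 62) (nat_lit 5) (nat_lit 64) (nat_lit 5) (nat_lit 65) (nat_lit 5) (nat_lit 443) (nat_lit 423) (nat_lit 334))) (XT.nd (nat_lit 78) (nat_lit 152) (nat_lit 0) (XT.lf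 (nat_lit 0) (nat_lit 30617427244) (nat_lit 228) (nat_lit 18184215121) (nat_lit 76) (nat_lit 10342681974) (nat_lit 62) (nat_lit 5) (nat_lit 65) (nat_lit 5) (nat_lit 63) (nat_lit 5) (nat_lit 444) (nat_lit 423) (nat_lit 333)) (XT.lf (nat_lit 0) (nat_lit 18510572479) (nat_lit 152) (nat_lit 27619291241) (nat_lit 228) (nat_lit 15884315798) (nat_lit 60) (nat_lit 5) (nat_lit 62) (nat_lit 5) (nat_lit 63) (nat_lit 5) (nat_lit 445) (nat_lit 423) (nat_lit 332))))) (XT.nd (nat_lit 234) (nat_lit 304) (nat_lit 0) (XT.nd (nat_lit 78) (nat_lit 304) (nat_lit 0) (XT.lf (nat_lit 0) (nat_lit 59169700616) (nat_lit 152) (nat_lit 4207389465) (nat_lit 228) (nat_lit 1697029661) (nat_lit 60) (nat_lit 5) (nat_lit 62) (nat_lit 5) (nat_lit 63) (nat_lit 5) (nat_lit 446) (nat_lit 423) (nat_lit 331)) (XT.nd (nat_lit 78) (nat_lit 152) (nat_lit 0) (XT.lf (nat_lit 0) (nat_lit 14348527186) (nat_lit 152) (nat_lit 32641560607)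 (nat_lit 76) (nat_lit 21250162404) (nat_lit 58) (nat_lit 5) (nat_lit 60) (nat_lit 5) (nat_lit 59) (nat_lit 5) (nat_lit 447) (nat_lit 423) (nat_lit 330)) (XT.lf (nat_lit 0) (nat_lit 9419489966) (nat_lit 152) (nat_lit 22664854436) (nat_lit 228) (nat_lit 39531936611) (nat_lit 56) (nat_lit 5) (nat_lit 58) (nat_lit 5) (nat_lit 59) (nat_lit 5) (nat_lit 448) (nat_lit 423) (nat_lit 329)))) (XT.nd (nat_lit 156) (nat_lit 228) (nat_lit 0) (XT.nd (nat_lit 78) (nat_lit 76) (nat_lit 0) (XT.lf (nat_lit 0) (nat_lit 52238328732) (nat_lit 228) (nat_lit 18604430344) (nat_lit 76) (nat_lit 4339691249) (nat_lit 56) (nat_lit 5) (nat_lit 59) (nat_lit 5) (nat_lit 57) (nat_lit 4) (nat_lit 449) (nat_lit 423) (nat_lit 328)) (XT.lf (nat_lit 0) (nat_lit 29349917749) (nat_lit 76) (nat_lit 45946415234) (nat_lit 152) (nat_lit 3634244260) (nat_lit 55) (nat_lit 5) (nat_lit 56) (nat_lit 5) (nat_lit 57) (nat_lit 4) (nat_lit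 450) (nat_lit 423) (nat_lit 327))) (XT.nd (nat_lit 78) (nat_lit 152) (nat_lit 0) (XT.lf (nat_lit 0) (nat_lit 16878040964) (nat_lit 152) (nat_lit 1171491010) (nat_lit 76) (nat_lit 64854366105) (nat_lit 54) (nat_lit 5) (nat_lit 56) (nat_lit 5) (nat_lit 55) (nat_lit 5) (nat_lit 451) (nat_lit 423) (nat_lit 326)) (XT.lf (nat_lit 0) (nat_lit 40450218734) (nat_lit 228) (nat_lit 33713258696) (nat_lit 76) (nat_lit 12894835334) (nat_lit 52) (nat_lit 5) (nat_lit 55) (nat_lit 5) (nat_lit 53) (nat_lit 4) (nat_lit 452) (nat_lit 423) (nat_lit 325))))))) (XT.nd (nat_lit 1092) (nat_lit 988) (nat_lit 0) (XT.nd (nat_lit 546) (nat_lit 532) (nat_lit 0) (XT.nd (nat_lit 234) (nat_lit 228) (nat_lit 0) (XT.nd (nat_lit 78) (nat_lit 228) (nat_lit 0) (XT.lf (nat_lit 0) (nat_lit 21340297914) (nat_lit 76) (nat_lit 45580203439) (nat_lit 152) (nat_lit 24543592935) (nat_lit 51) (nat_lit 5) (nat_lit 52) (nat_lit 5) (nat_lit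 53) (nat_lit 4) (nat_lit 453) (nat_lit 423) (nat_lit 324)) (XT.nd (nat_lit 78) (nat_lit 152) (nat_lit 0) (XT.lf (nat_lit 0) (nat_lit 264937352) (nat_lit 152) (nat_lit 13444552422) (nat_lit 76) (nat_lit 82438769836) (nat_lit 50) (nat_lit 5) (nat_lit 52) (nat_lit 5) (nat_lit 51) (nat_lit 5) (nat_lit 454) (nat_lit 423) (nat_lit 323)) (XT.lf (nat_lit 0) (nat_lit 27468475609) (nat_lit 228) (nat_lit 51997611124) (nat_lit 76) (nat_lit 21551166478) (nat_lit 48) (nat_lit 5) (nat_lit 51) (nat_lit 5) (nat_lit 49) (nat_lit 4) (nat_lit 455) (nat_lit 423) (nat_lit 322)))) (XT.nd (nat_lit 156) (nat_lit 152) (nat_lit 0) (XT.nd (nat_lit 78) (nat_lit 0) (nat_lit 0) (XT.lf (nat_lit 0) (nat_lit 11188982689) (nat_lit 76) (nat_lit 46659299609) (nat_lit 152) (nat_lit 48347485257) (nat_lit 47) (nat_lit 5) (nat_lit 48) (nat_lit 5) (nat_lit 49) (nat_lit 4) (nat_lit 456) (nat_lit 423) (nat_lit 321)) (XT.lf (nat_lit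 0) (nat_lit 82383449248) (nat_lit 76) (nat_lit 9694457329) (nat_lit 152) (nat_lit 19597101902) (nat_lit 47) (nat_lit 5) (nat_lit 48) (nat_lit 5) (nat_lit 49) (nat_lit 4) (nat_lit 457) (nat_lit 423) (nat_lit 320))) (XT.nd (nat_lit 78) (nat_lit 0) (nat_lit 0) (XT.lf (nat_lit 0) (nat_lit 12687656663) (nat_lit 152) (nat_lit 74666632379) (nat_lit 76) (nat_lit 30071680659) (nat_lit 45) (nat_lit 5) (nat_lit 47) (nat_lit 5) (nat_lit 46) (nat_lit 4) (nat_lit 458) (nat_lit 423) (nat_lit 319)) (XT.lf (nat_lit 0) (nat_lit 47567795174) (nat_lit 152) (nat_lit 2118446391) (nat_lit 76) (nat_lit 73824336926) (nat_lit 45) (nat_lit 5) (nat_lit 47) (nat_lit 5) (nat_lit 46) (nat_lit 4) (nat_lit 459) (nat_lit 423) (nat_lit 318))))) (XT.nd (nat_lit 234) (nat_lit 304) (nat_lit 0) (XT.nd (nat_lit 78) (nat_lit 152) (nat_lit 0) (XT.lf (nat_lit 0) (nat_lit 80243992614) (nat_lit 76) (nat_lit 6922242837) (nat_lit 152)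 (nat_lit 42761489335) (nat_lit 44) (nat_lit 5) (nat_lit 45) (nat_lit 5) (nat_lit 46) (nat_lit 4) (nat_lit 460) (nat_lit 423) (nat_lit 317)) (XT.nd (nat_lit 78) (nat_lit 76) (nat_lit 0) (XT.lf (nat_lit 0) (nat_lit 33172175355) (nat_lit 76) (nat_lit 98559905456) (nat_lit 76) (nat_lit 4982199637) (nat_lit 43) (nat_lit 4) (nat_lit 44) (nat_lit 5) (nat_lit 44) (nat_lit 4) (nat_lit 461) (nat_lit 423) (nat_lit 316)) (XT.lf (nat_lit 0) (nat_lit 35599170596) (nat_lit 152) (nat_lit 19533270107) (nat_lit 76) (nat_lit 88716677610) (nat_lit 42) (nat_lit 5) (nat_lit 44) (nat_lit 5) (nat_lit 43) (nat_lit 4) (nat_lit 462) (nat_lit 423) (nat_lit 315)))) (XT.nd (nat_lit 156) (nat_lit 152) (nat_lit 0) (XT.nd (nat_lit 78) (nat_lit 76) (nat_lit 0) (XT.lf (nat_lit 0) (nat_lit 74805456861) (nat_lit 76) (nat_lit 6149689631) (nat_lit 152) (nat_lit 70445462995) (nat_lit 41) (nat_lit 5) (nat_lit 42) (nat_lit 5) (nat_lit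 43) (nat_lit 4) (nat_lit 463) (nat_lit 423) (nat_lit 314)) (XT.lf (nat_lit 0) (nat_lit 18049845483) (nat_lit 76) (nat_lit 113994383859) (nat_lit 76) (nat_lit 27343620341) (nat_lit 40) (nat_lit 4) (nat_lit 41) (nat_lit 5) (nat_lit 41) (nat_lit 4) (nat_lit 464) (nat_lit 423) (nat_lit 313))) (XT.nd (nat_lit 78) (nat_lit 76) (nat_lit 0) (XT.lf (nat_lit 0) (nat_lit 20552174893) (nat_lit 152) (nat_lit 43903591554) (nat_lit 76) (nat_lit 103336822744) (nat_lit 39) (nat_lit 5) (nat_lit 41) (nat_lit 5) (nat_lit 40) (nat_lit 4) (nat_lit 465) (nat_lit 423) (nat_lit 312)) (XT.lf (nat_lit 0) (nat_lit 63803837685) (nat_lit 76) (nat_lit 8531356880) (nat_lit 152) (nat_lit 104355069289) (nat_lit 38) (nat_lit 5) (nat_lit 39) (nat_lit 5) (nat_lit 40) (nat_lit 4) (nat_lit 466) (nat_lit 423) (nat_lit 311)))))) (XT.nd (nat_lit 546) (nat_lit 532) (nat_lit 0) (XT.nd (nat_lit 234) (nat_lit 228) (nat_lit 0) (XT.nd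 (nat_lit 78) (nat_lit 228) (nat_lit 0) (XT.lf (nat_lit 0) (nat_lit 130738192169) (nat_lit 152) (nat_lit 4860853473) (nat_lit 0) (nat_lit 50502519970) (nat_lit 38) (nat_lit 5) (nat_lit 40) (nat_lit 4) (nat_lit 38) (nat_lit 4) (nat_lit 467) (nat_lit 423) (nat_lit 310)) (XT.nd (nat_lit 78) (nat_lit 76) (nat_lit 0) (XT.lf (nat_lit 0) (nat_lit 794356276) (nat_lit 152) (nat_lit 78584404766) (nat_lit 76) (nat_lit 116641807031) (nat_lit 36) (nat_lit 5) (nat_lit 38) (nat_lit 5) (nat_lit 37) (nat_lit 4) (nat_lit 468) (nat_lit 423) (nat_lit 309)) (XT.lf (nat_lit 0) (nat_lit 43818425516) (nat_lit 76) (nat_lit 15823887638) (nat_lit 152) (nat_lit 146880643310) (nat_lit 35) (nat_lit 5) (nat_lit 36) (nat_lit 5) (nat_lit 37) (nat_lit 4) (nat_lit 469) (nat_lit 423) (nat_lit 308)))) (XT.nd (nat_lit 156) (nat_lit 152) (nat_lit 0) (XT.nd (nat_lit 78) (nat_lit 76) (nat_lit 0) (XT.lf (nat_lit 0) (nat_lit 126671248725)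 (nat_lit 152) (nat_lit 38540036861) (nat_lit 0) (nat_lit 52376398987) (nat_lit 35) (nat_lit 5) (nat_lit 37) (nat_lit 4) (nat_lit 35) (nat_lit 4) (nat_lit 470) (nat_lit 423) (nat_lit 307)) (XT.lf (nat_lit 0) (nat_lit 100153915773) (nat_lit 76) (nat_lit 101726895158) (nat_lit 76) (nat_lit 27431315077) (nat_lit 34) (nat_lit 4) (nat_lit 35) (nat_lit 5) (nat_lit 35) (nat_lit 4) (nat_lit 471) (nat_lit 423) (nat_lit 306))) (XT.nd (nat_lit 78) (nat_lit 0) (nat_lit 0) (XT.lf (nat_lit 0) (nat_lit 9711360798) (nat_lit 76) (nat_lit 30676916664) (nat_lit 152) (nat_lit 201402043513) (nat_lit 32) (nat_lit 5) (nat_lit 33) (nat_lit 5) (nat_lit 34) (nat_lit 4) (nat_lit 472) (nat_lit 423) (nat_lit 305)) (XT.lf (nat_lit 0) (nat_lit 116880852453) (nat_lit 152) (nat_lit 89863122727) (nat_lit 0) (nat_lit 48087442753) (nat_lit 32) (nat_lit 5) (nat_lit 34) (nat_lit 4) (nat_lit 32) (nat_lit 4) (nat_lit 473) (nat_lit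 423) (nat_lit 304))))) (XT.nd (nat_lit 312) (nat_lit 228) (nat_lit 0) (XT.nd (nat_lit 156) (nat_lit 152) (nat_lit 0) (XT.nd (nat_lit 78) (nat_lit 76) (nat_lit 0) (XT.lf (nat_lit 0) (nat_lit 66244395756) (nat_lit 76) (nat_lit 135637129061) (nat_lit 76) (nat_lit 66843182537) (nat_lit 31) (nat_lit 4) (nat_lit 32) (nat_lit 5) (nat_lit 32) (nat_lit 4) (nat_lit 474) (nat_lit 423) (nat_lit 303)) (XT.lf (nat_lit 0) (nat_lit 11974458943) (nat_lit 152) (nat_lit 43887568980) (nat_lit 76) (nat_lit 227646719083) (nat_lit 30) (nat_lit 5) (nat_lit 32) (nat_lit 5) (nat_lit 31) (nat_lit 4) (nat_lit 475) (nat_lit 423) (nat_lit 302))) (XT.nd (nat_lit 78) (nat_lit 76) (nat_lit 0) (XT.lf (nat_lit 0) (nat_lit 97522454653) (nat_lit 152) (nat_lit 167667793755) (nat_lit 0) (nat_lit 33823469632) (nat_lit 29) (nat_lit 5) (nat_lit 31) (nat_lit 4) (nat_lit 29) (nat_lit 4) (nat_lit 476) (nat_lit 423) (nat_lit 301)) (XT.lf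 (nat_lit 0) (nat_lit 6259520020) (nat_lit 76) (nat_lit 186486215361) (nat_lit 76) (nat_lit 122786835758) (nat_lit 28) (nat_lit 4) (nat_lit 29) (nat_lit 5) (nat_lit 29) (nat_lit 4) (nat_lit 477) (nat_lit 423) (nat_lit 300)))) (XT.nd (nat_lit 156) (nat_lit 76) (nat_lit 0) (XT.nd (nat_lit 78) (nat_lit 152) (nat_lit 0) (XT.lf (nat_lit 0) (nat_lit 203634086717) (nat_lit 76) (nat_lit 96535968308) (nat_lit 76) (nat_lit 32836223352) (nat_lit 28) (nat_lit 4) (nat_lit 29) (nat_lit 5) (nat_lit 29) (nat_lit 4) (nat_lit 478) (nat_lit 423) (nat_lit 299)) (XT.lf (nat_lit 0) (nat_lit 62793114637) (nat_lit 152) (nat_lit 285013498472) (nat_lit 0) (nat_lit 3811556075) (nat_lit 26) (nat_lit 5) (nat_lit 28) (nat_lit 4) (nat_lit 26) (nat_lit 4) (nat_lit 479) (nat_lit 423) (nat_lit 298))) (XT.nd (nat_lit 78) (nat_lit 76) (nat_lit 0) (XT.lf (nat_lit 0) (nat_lit 170434262844) (nat_lit 152) (nat_lit 89273265284)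 (nat_lit 0) (nat_lit 111452414253) (nat_lit 26) (nat_lit 5) (nat_lit 28) (nat_lit 4) (nat_lit 26) (nat_lit 4) (nat_lit 480) (nat_lit 423) (nat_lit 297)) (XT.lf (nat_lit 0) (nat_lit 128554956896) (nat_lit 76) (nat_lit 161222479501) (nat_lit 76) (nat_lit 102240362364) (nat_lit 25) (nat_lit 4) (nat_lit 26) (nat_lit 5) (nat_lit 26) (nat_lit 4) (nat_lit 481) (nat_lit 423) (nat_lit 296))))))))
noncomputable def xc147 : XT := (XT.nd (nat_lit 2184) (nat_lit 456) (nat_lit 0) (XT.nd (nat_lit 1092) (nat_lit 532) (nat_lit 0) (XT.nd (nat_lit 546) (nat_lit 380) (nat_lit 0) (XT.nd (nat_lit 234) (nat_lit 304) (nat_lit 0) (XT.nd (nat_lit 78) (nat_lit 76) (nat_lit 0) (XT.lf (nat_lit 0) (nat_lit 6420765749) (nat_lit 152) (nat_lit 45627173030) (nat_lit 76) (nat_lit 362288148816) (nat_lit 24) (nat_lit 5) (nat_lit 26) (nat_lit 5) (nat_lit 25) (nat_lit 4) (nat_lit 482) (nat_lit 423) (nat_lit 295)) (XT.nd (nat_lit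 78) (nat_lit 0) (nat_lit 0) (XT.lf (nat_lit 0) (nat_lit 124759677286) (nat_lit 152) (nat_lit 242800870035) (nat_lit 0) (nat_lit 70146162449) (nat_lit 23) (nat_lit 5) (nat_lit 25) (nat_lit 4) (nat_lit 23) (nat_lit 4) (nat_lit 483) (nat_lit 423) (nat_lit 294)) (XT.lf (nat_lit 0) (nat_lit 255196589079) (nat_lit 152) (nat_lit 6957044806) (nat_lit 0) (nat_lit 200582876852) (nat_lit 23) (nat_lit 5) (nat_lit 25) (nat_lit 4) (nat_lit 23) (nat_lit 4) (nat_lit 484) (nat_lit 423) (nat_lit 293)))) (XT.nd (nat_lit 156) (nat_lit 76) (nat_lit 0) (XT.nd (nat_lit 78) (nat_lit 152) (nat_lit 0) (XT.lf (nat_lit 0) (nat_lit 260798717922) (nat_lit 76) (nat_lit 141541082562) (nat_lit 76) (nat_lit 86927187568) (nat_lit 22) (nat_lit 4) (nat_lit 23) (nat_lit 5) (nat_lit 23) (nat_lit 4) (nat_lit 485) (nat_lit 423) (nat_lit 292)) (XT.lf (nat_lit 0) (nat_lit 33071356625) (nat_lit 76) (nat_lit 9085095706) (nat_lit 152)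 (nat_lit 475600902837) (nat_lit 20) (nat_lit 5) (nat_lit 21) (nat_lit 5) (nat_lit 22) (nat_lit 4) (nat_lit 486) (nat_lit 423) (nat_lit 291))) (XT.nd (nat_lit 78) (nat_lit 76) (nat_lit 0) (XT.lf (nat_lit 0) (nat_lit 186500489226) (nat_lit 152) (nat_lit 225143665810) (nat_lit 0) (nat_lit 135931766154) (nat_lit 20) (nat_lit 5) (nat_lit 22) (nat_lit 4) (nat_lit 20) (nat_lit 4) (nat_lit 487) (nat_lit 423) (nat_lit 290)) (XT.lf (nat_lit 0) (nat_lit 57816653264) (nat_lit 76) (nat_lit 286201061688) (nat_lit 76) (nat_lit 235632204276) (nat_lit 19) (nat_lit 4) (nat_lit 20) (nat_lit 5) (nat_lit 20) (nat_lit 4) (nat_lit 488) (nat_lit 423) (nat_lit 289))))) (XT.nd (nat_lit 234) (nat_lit 228) (nat_lit 0) (XT.nd (nat_lit 78) (nat_lit 152) (nat_lit 0) (XT.lf (nat_lit 0) (nat_lit 376216312410) (nat_lit 76) (nat_lit 144075051447) (nat_lit 76) (nat_lit 93506069647) (nat_lit 19) (nat_lit 4) (nat_lit 20) (nat_lit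 5) (nat_lit 20) (nat_lit 4) (nat_lit 489) (nat_lit 423) (nat_lit 288)) (XT.nd (nat_lit 78) (nat_lit 0) (nat_lit 0) (XT.lf (nat_lit 0) (nat_lit 59017868580) (nat_lit 152) (nat_lit 579186535458) (nat_lit 0) (nat_lit 12194630640) (nat_lit 17) (nat_lit 5) (nat_lit 19) (nat_lit 4) (nat_lit 17) (nat_lit 4) (nat_lit 490) (nat_lit 423) (nat_lit 287)) (XT.lf (nat_lit 0) (nat_lit 229098046067) (nat_lit 152) (nat_lit 277529223716) (nat_lit 0) (nat_lit 182274709384) (nat_lit 17) (nat_lit 5) (nat_lit 19) (nat_lit 4) (nat_lit 17) (nat_lit 4) (nat_lit 491) (nat_lit 423) (nat_lit 286)))) (XT.nd (nat_lit 156) (nat_lit 152) (nat_lit 0) (XT.nd (nat_lit 78) (nat_lit 0) (nat_lit 0) (XT.lf (nat_lit 0) (nat_lit 50800506802) (nat_lit 76) (nat_lit 363205197598) (nat_lit 76) (nat_lit 316381769486) (nat_lit 16) (nat_lit 4) (nat_lit 17) (nat_lit 5) (nat_lit 17) (nat_lit 4) (nat_lit 492) (nat_lit 423) (nat_lit 285))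 (XT.lf (nat_lit 0) (nat_lit 421178571149) (nat_lit 76) (nat_lit 200114876031) (nat_lit 76) (nat_lit 153291363262) (nat_lit 16) (nat_lit 4) (nat_lit 17) (nat_lit 5) (nat_lit 17) (nat_lit 4) (nat_lit 493) (nat_lit 423) (nat_lit 284))) (XT.nd (nat_lit 78) (nat_lit 76) (nat_lit 0) (XT.lf (nat_lit 0) (nat_lit 21702776678) (nat_lit 152) (nat_lit 1681815664) (nat_lit 76) (nat_lit 798889436149) (nat_lit 15) (nat_lit 5) (nat_lit 17) (nat_lit 5) (nat_lit 16) (nat_lit 4) (nat_lit 494) (nat_lit 423) (nat_lit 283)) (XT.lf (nat_lit 0) (nat_lit 216264966360) (nat_lit 152) (nat_lit 483177149256) (nat_lit 0) (nat_lit 172909722161) (nat_lit 14) (nat_lit 5) (nat_lit 16) (nat_lit 4) (nat_lit 14) (nat_lit 4) (nat_lit 495) (nat_lit 423) (nat_lit 282)))))) (XT.nd (nat_lit 546) (nat_lit 228) (nat_lit 0) (XT.nd (nat_lit 234) (nat_lit 228) (nat_lit 0) (XT.nd (nat_lit 78) (nat_lit 76) (nat_lit 0) (XT.lf (nat_lit 0)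 (nat_lit 427046113514) (nat_lit 152) (nat_lit 115646632621) (nat_lit 0) (nat_lit 383690807089) (nat_lit 14) (nat_lit 5) (nat_lit 16) (nat_lit 4) (nat_lit 14) (nat_lit 4) (nat_lit 496) (nat_lit 423) (nat_lit 281)) (XT.nd (nat_lit 78) (nat_lit 0) (nat_lit 0) (XT.lf (nat_lit 0) (nat_lit 296097182935) (nat_lit 76) (nat_lit 365713169507) (nat_lit 76) (nat_lit 322357805467) (nat_lit 13) (nat_lit 4) (nat_lit 14) (nat_lit 5) (nat_lit 14) (nat_lit 4) (nat_lit 497) (nat_lit 423) (nat_lit 280)) (XT.lf (nat_lit 0) (nat_lit 747356335929) (nat_lit 76) (nat_lit 171160848073) (nat_lit 76) (nat_lit 127805430685) (nat_lit 13) (nat_lit 4) (nat_lit 14) (nat_lit 5) (nat_lit 14) (nat_lit 4) (nat_lit 498) (nat_lit 423) (nat_lit 279)))) (XT.nd (nat_lit 156) (nat_lit 76) (nat_lit 0) (XT.nd (nat_lit 78) (nat_lit 0) (nat_lit 0) (XT.lf (nat_lit 0) (nat_lit 82279725434) (nat_lit 152) (nat_lit 988548670876) (nat_lit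 0) (nat_lit 42135774708) (nat_lit 11) (nat_lit 5) (nat_lit 13) (nat_lit 4) (nat_lit 11) (nat_lit 4) (nat_lit 499) (nat_lit 423) (nat_lit 278)) (XT.lf (nat_lit 0) (nat_lit 315098700549) (nat_lit 152) (nat_lit 593591528558) (nat_lit 0) (nat_lit 274954707473) (nat_lit 11) (nat_lit 5) (nat_lit 13) (nat_lit 4) (nat_lit 11) (nat_lit 4) (nat_lit 500) (nat_lit 423) (nat_lit 277))) (XT.nd (nat_lit 78) (nat_lit 76) (nat_lit 0) (XT.lf (nat_lit 0) (nat_lit 566542727514) (nat_lit 152) (nat_lit 167038777941) (nat_lit 0) (nat_lit 526398695225) (nat_lit 11) (nat_lit 5) (nat_lit 13) (nat_lit 4) (nat_lit 11) (nat_lit 4) (nat_lit 501) (nat_lit 423) (nat_lit 276)) (XT.lf (nat_lit 0) (nat_lit 309099720878) (nat_lit 76) (nat_lit 536435979849) (nat_lit 76) (nat_lit 496291911253) (nat_lit 10) (nat_lit 4) (nat_lit 11) (nat_lit 5) (nat_lit 11) (nat_lit 4) (nat_lit 502) (nat_lit 423) (nat_lit 275))))) (XT.nd (nat_lit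 234) (nat_lit 76) (nat_lit 0) (XT.nd (nat_lit 78) (nat_lit 152) (nat_lit 0) (XT.lf (nat_lit 0) (nat_lit 832828073743) (nat_lit 76) (nat_lit 318586753704) (nat_lit 76) (nat_lit 278442651489) (nat_lit 10) (nat_lit 4) (nat_lit 11) (nat_lit 5) (nat_lit 11) (nat_lit 4) (nat_lit 503) (nat_lit 423) (nat_lit 274)) (XT.nd (nat_lit 78) (nat_lit 152) (nat_lit 0) (XT.lf (nat_lit 0) (nat_lit 1398453890049) (nat_lit 76) (nat_lit 83310004847) (nat_lit 76) (nat_lit 43165871504) (nat_lit 10) (nat_lit 4) (nat_lit 11) (nat_lit 5) (nat_lit 11) (nat_lit 4) (nat_lit 504) (nat_lit 423) (nat_lit 273)) (XT.lf (nat_lit 0) (nat_lit 214403258322) (nat_lit 152) (nat_lit 1234444250511) (nat_lit 0) (nat_lit 177232737799) (nat_lit 8) (nat_lit 5) (nat_lit 10) (nat_lit 4) (nat_lit 8) (nat_lit 4) (nat_lit 505) (nat_lit 423) (nat_lit 272)))) (XT.nd (nat_lit 156) (nat_lit 76) (nat_lit 0) (XT.nd (nat_lit 78) (nat_lit 0) (nat_lit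 0) (XT.lf (nat_lit 0) (nat_lit 495957261520) (nat_lit 152) (nat_lit 780032178461) (nat_lit 0) (nat_lit 458786716286) (nat_lit 8) (nat_lit 5) (nat_lit 10) (nat_lit 4) (nat_lit 8) (nat_lit 4) (nat_lit 506) (nat_lit 423) (nat_lit 271)) (XT.lf (nat_lit 0) (nat_lit 800035242653) (nat_lit 152) (nat_lit 289267848867) (nat_lit 0) (nat_lit 762864674539) (nat_lit 8) (nat_lit 5) (nat_lit 10) (nat_lit 4) (nat_lit 8) (nat_lit 4) (nat_lit 507) (nat_lit 423) (nat_lit 270))) (XT.nd (nat_lit 78) (nat_lit 0) (nat_lit 0) (XT.lf (nat_lit 0) (nat_lit 253434806788) (nat_lit 76) (nat_lit 881099451724) (nat_lit 76) (nat_lit 843928862424) (nat_lit 7) (nat_lit 4) (nat_lit 8) (nat_lit 5) (nat_lit 8) (nat_lit 4) (nat_lit 508) (nat_lit 423) (nat_lit 269)) (XT.lf (nat_lit 0) (nat_lit 856003954617) (nat_lit 76) (nat_lit 647698027781) (nat_lit 76) (nat_lit 610527418865) (nat_lit 7) (nat_lit 4) (nat_lit 8) (nat_lit 5) (nat_lit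 8) (nat_lit 4) (nat_lit 509) (nat_lit 423) (nat_lit 268))))))) (XT.nd (nat_lit 1092) (nat_lit 76) (nat_lit 0) (XT.nd (nat_lit 546) (nat_lit 228) (nat_lit 0) (XT.nd (nat_lit 234) (nat_lit 0) (nat_lit 0) (XT.nd (nat_lit 78) (nat_lit 152) (nat_lit 0) (XT.lf (nat_lit 0) (nat_lit 1506778042460) (nat_lit 76) (nat_lit 395624795757) (nat_lit 76) (nat_lit 358454168678) (nat_lit 7) (nat_lit 4) (nat_lit 8) (nat_lit 5) (nat_lit 8) (nat_lit 4) (nat_lit 510) (nat_lit 423) (nat_lit 267)) (XT.nd (nat_lit 78) (nat_lit 152) (nat_lit 0) (XT.lf (nat_lit 0) (nat_lit 2209613509356) (nat_lit 76) (nat_lit 123385988351) (nat_lit 76) (nat_lit 86215344455) (nat_lit 7) (nat_lit 4) (nat_lit 8) (nat_lit 5) (nat_lit 8) (nat_lit 4) (nat_lit 511) (nat_lit 423) (nat_lit 266)) (XT.lf (nat_lit 0) (nat_lit 211340356863) (nat_lit 152) (nat_lit 2200463423387) (nat_lit 0) (nat_lit 176923079578) (nat_lit 5) (nat_lit 5) (nat_lit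 7) (nat_lit 4) (nat_lit 5) (nat_lit 4) (nat_lit 512) (nat_lit 423) (nat_lit 265)))) (XT.nd (nat_lit 156) (nat_lit 0) (nat_lit 0) (XT.nd (nat_lit 78) (nat_lit 0) (nat_lit 0) (XT.lf (nat_lit 0) (nat_lit 537126951464) (nat_lit 152) (nat_lit 1731057333436) (nat_lit 0) (nat_lit 502709660829) (nat_lit 5) (nat_lit 5) (nat_lit 7) (nat_lit 4) (nat_lit 5) (nat_lit 4) (nat_lit 513) (nat_lit 423) (nat_lit 264)) (XT.lf (nat_lit 0) (nat_lit 888976240828) (nat_lit 152) (nat_lit 1224099238465) (nat_lit 0) (nat_lit 854558937832) (nat_lit 5) (nat_lit 5) (nat_lit 7) (nat_lit 4) (nat_lit 5) (nat_lit 4) (nat_lit 514) (nat_lit 423) (nat_lit 263))) (XT.nd (nat_lit 78) (nat_lit 0) (nat_lit 0) (XT.lf (nat_lit 0) (nat_lit 1268973257783) (nat_lit 152) (nat_lit 676584942357) (nat_lit 0) (nat_lit 1234555943340) (nat_lit 5) (nat_lit 5) (nat_lit 7) (nat_lit 4) (nat_lit 5) (nat_lit 4) (nat_lit 515) (nat_lit 423) (nat_lit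 262)) (XT.lf (nat_lit 0) (nat_lit 1679369836501) (nat_lit 152) (nat_lit 85269915948) (nat_lit 0) (nat_lit 1644952511461) (nat_lit 5) (nat_lit 5) (nat_lit 7) (nat_lit 4) (nat_lit 5) (nat_lit 4) (nat_lit 516) (nat_lit 423) (nat_lit 261))))) (XT.nd (nat_lit 234) (nat_lit 152) (nat_lit 0) (XT.nd (nat_lit 78) (nat_lit 0) (nat_lit 0) (XT.lf (nat_lit 0) (nat_lit 582488356488) (nat_lit 76) (nat_lit 1554118459203) (nat_lit 76) (nat_lit 1519701124349) (nat_lit 4) (nat_lit 4) (nat_lit 5) (nat_lit 5) (nat_lit 5) (nat_lit 4) (nat_lit 517) (nat_lit 423) (nat_lit 260)) (XT.nd (nat_lit 78) (nat_lit 0) (nat_lit 0) (XT.lf (nat_lit 0) (nat_lit 1308516293319) (nat_lit 76) (nat_lit 1324237710420) (nat_lit 76) (nat_lit 1289820366481) (nat_lit 4) (nat_lit 4) (nat_lit 5) (nat_lit 5) (nat_lit 5) (nat_lit 4) (nat_lit 518) (nat_lit 423) (nat_lit 259)) (XT.lf (nat_lit 0) (nat_lit 2092626119655) (nat_lit 76) (nat_lit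 1075966680426) (nat_lit 76) (nat_lit 1041549328074) (nat_lit 4) (nat_lit 4) (nat_lit 5) (nat_lit 5) (nat_lit 5) (nat_lit 4) (nat_lit 519) (nat_lit 423) (nat_lit 258)))) (XT.nd (nat_lit 156) (nat_lit 152) (nat_lit 0) (XT.nd (nat_lit 78) (nat_lit 0) (nat_lit 0) (XT.lf (nat_lit 0) (nat_lit 2939464412245) (nat_lit 76) (nat_lit 807834133486) (nat_lit 76) (nat_lit 773416773345) (nat_lit 4) (nat_lit 4) (nat_lit 5) (nat_lit 5) (nat_lit 5) (nat_lit 4) (nat_lit 520) (nat_lit 423) (nat_lit 257)) (XT.lf (nat_lit 0) (nat_lit 3854049472081) (nat_lit 76) (nat_lit 518251135991) (nat_lit 76) (nat_lit 483833768636) (nat_lit 4) (nat_lit 4) (nat_lit 5) (nat_lit 5) (nat_lit 5) (nat_lit 4) (nat_lit 521) (nat_lit 423) (nat_lit 256))) (XT.nd (nat_lit 78) (nat_lit 152) (nat_lit 0) (XT.lf (nat_lit 0) (nat_lit 4841801062481) (nat_lit 76) (nat_lit 205501640546) (nat_lit 76) (nat_lit 171084266513) (nat_lit 4) (nat_lit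 4) (nat_lit 5) (nat_lit 5) (nat_lit 5) (nat_lit 4) (nat_lit 522) (nat_lit 423) (nat_lit 255)) (XT.lf (nat_lit 0) (nat_lit 169292848823) (nat_lit 152) (nat_lit 5301705640432) (nat_lit 0) (nat_lit 137424904178) (nat_lit 2) (nat_lit 5) (nat_lit 4) (nat_lit 4) (nat_lit 2) (nat_lit 4) (nat_lit 523) (nat_lit 423) (nat_lit 254)))))) (XT.nd (nat_lit 546) (nat_lit 76) (nat_lit 0) (XT.nd (nat_lit 234) (nat_lit 0) (nat_lit 0) (XT.nd (nat_lit 78) (nat_lit 0) (nat_lit 0) (XT.lf (nat_lit 0) (nat_lit 543558686797) (nat_lit 152) (nat_lit 4972785684011) (nat_lit 0) (nat_lit 511690736850) (nat_lit 2) (nat_lit 5) (nat_lit 4) (nat_lit 4) (nat_lit 2) (nat_lit 4) (nat_lit 524) (nat_lit 423) (nat_lit 253)) (XT.nd (nat_lit 78) (nat_lit 0) (nat_lit 0) (XT.lf (nat_lit 0) (nat_lit 947765675418) (nat_lit 152) (nat_lit 4617552372354) (nat_lit 0) (nat_lit 915897720562) (nat_lit 2) (nat_lit 5) (nat_lit 4) (nat_lit 4)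 (nat_lit 2) (nat_lit 4) (nat_lit 525) (nat_lit 423) (nat_lit 252)) (XT.lf (nat_lit 0) (nat_lit 1384309115358) (nat_lit 152) (nat_lit 4233900619170) (nat_lit 0) (nat_lit 1352441155957) (nat_lit 2) (nat_lit 5) (nat_lit 4) (nat_lit 4) (nat_lit 2) (nat_lit 4) (nat_lit 526) (nat_lit 423) (nat_lit 251)))) (XT.nd (nat_lit 156) (nat_lit 0) (nat_lit 0) (XT.nd (nat_lit 78) (nat_lit 0) (nat_lit 0) (XT.lf (nat_lit 0) (nat_lit 1855775930706) (nat_lit 152) (nat_lit 3819556932588) (nat_lit 0) (nat_lit 1823907967097) (nat_lit 2) (nat_lit 5) (nat_lit 4) (nat_lit 4) (nat_lit 2) (nat_lit 4) (nat_lit 527) (nat_lit 423) (nat_lit 250)) (XT.lf (nat_lit 0) (nat_lit 2364959998888) (nat_lit 152) (nat_lit 3372065942612) (nat_lit 0) (nat_lit 2333092031381) (nat_lit 2) (nat_lit 5) (nat_lit 4) (nat_lit 4) (nat_lit 2) (nat_lit 4) (nat_lit 528) (nat_lit 423) (nat_lit 249))) (XT.nd (nat_lit 78) (nat_lit 0) (nat_lit 0) (XT.lf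 (nat_lit 0) (nat_lit 2914878706972) (nat_lit 152) (nat_lit 2888775850785) (nat_lit 0) (nat_lit 2883010735858) (nat_lit 2) (nat_lit 5) (nat_lit 4) (nat_lit 4) (nat_lit 2) (nat_lit 4) (nat_lit 529) (nat_lit 423) (nat_lit 248)) (XT.lf (nat_lit 0) (nat_lit 3508790832489) (nat_lit 152) (nat_lit 2366822715821) (nat_lit 0) (nat_lit 3476922858034) (nat_lit 2) (nat_lit 5) (nat_lit 4) (nat_lit 4) (nat_lit 2) (nat_lit 4) (nat_lit 530) (nat_lit 423) (nat_lit 247))))) (XT.nd (nat_lit 312) (nat_lit 0) (nat_lit 0) (XT.nd (nat_lit 156) (nat_lit 76) (nat_lit 0) (XT.nd (nat_lit 78) (nat_lit 0) (nat_lit 0) (XT.lf (nat_lit 0) (nat_lit 4150215854702) (nat_lit 152) (nat_lit 1803113482106) (nat_lit 0) (nat_lit 4118347877153) (nat_lit 2) (nat_lit 5) (nat_lit 4) (nat_lit 4) (nat_lit 2) (nat_lit 4) (nat_lit 531) (nat_lit 423) (nat_lit 246)) (XT.lf (nat_lit 0) (nat_lit 4842954810778) (nat_lit 152) (nat_lit 1194307650476)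 (nat_lit 0) (nat_lit 4811086830365) (nat_lit 2) (nat_lit 5) (nat_lit 4) (nat_lit 4) (nat_lit 2) (nat_lit 4) (nat_lit 532) (nat_lit 423) (nat_lit 245))) (XT.nd (nat_lit 78) (nat_lit 76) (nat_lit 0) (XT.lf (nat_lit 0) (nat_lit 5591112820457) (nat_lit 152) (nat_lit 536797482671) (nat_lit 0) (nat_lit 5559244837392) (nat_lit 2) (nat_lit 5) (nat_lit 4) (nat_lit 4) (nat_lit 2) (nat_lit 4) (nat_lit 533) (nat_lit 423) (nat_lit 244)) (XT.lf (nat_lit 0) (nat_lit 182439753199) (nat_lit 76) (nat_lit 6221071339939) (nat_lit 76) (nat_lit 6189203354418) (nat_lit 1) (nat_lit 4) (nat_lit 2) (nat_lit 5) (nat_lit 2) (nat_lit 4) (nat_lit 534) (nat_lit 423) (nat_lit 243)))) (XT.nd (nat_lit 156) (nat_lit 0) (nat_lit 0) (XT.nd (nat_lit 78) (nat_lit 0) (nat_lit 0) (XT.lf (nat_lit 0) (nat_lit 989743998779) (nat_lit 76) (nat_lit 6305834166576) (nat_lit 76) (nat_lit 6273966178781) (nat_lit 1) (nat_lit 4) (nat_lit 2)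 (nat_lit 5) (nat_lit 2) (nat_lit 4) (nat_lit 535) (nat_lit 423) (nat_lit 242)) (XT.lf (nat_lit 0) (nat_lit 1861632475078) (nat_lit 76) (nat_lit 6397378075735) (nat_lit 76) (nat_lit 6365510085835) (nat_lit 1) (nat_lit 4) (nat_lit 2) (nat_lit 5) (nat_lit 2) (nat_lit 4) (nat_lit 536) (nat_lit 423) (nat_lit 241))) (XT.nd (nat_lit 78) (nat_lit 0) (nat_lit 0) (XT.lf (nat_lit 0) (nat_lit 2803271928620) (nat_lit 76) (nat_lit 6496245549840) (nat_lit 76) (nat_lit 6464377557990) (nat_lit 1) (nat_lit 4) (nat_lit 2) (nat_lit 5) (nat_lit 2) (nat_lit 4) (nat_lit 537) (nat_lit 423) (nat_lit 240)) (XT.lf (nat_lit 0) (nat_lit 3820242445056) (nat_lit 76) (nat_lit 6603022470219) (nat_lit 76) (nat_lit 6571154476565) (nat_lit 1) (nat_lit 4) (nat_lit 2) (nat_lit 5) (nat_lit 2) (nat_lit 4) (nat_lit 538) (nat_lit 423) (nat_lit 239))))))))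
noncomputable def xc148 : XT := (XT.nd (nat_lit 55458) (nat_lit 0) (nat_lit 2128) (XT.nd (nat_lit 54366) (nat_lit 0) (nat_lit 4332) (XT.nd (nat_lit 53820) (nat_lit 0) (nat_lit 5928) (XT.nd (nat_lit 53508) (nat_lit 0) (nat_lit 6536) (XT.nd (nat_lit 78) (nat_lit 0) (nat_lit 0) (XT.lf (nat_lit 0) (nat_lit 4918570516336) (nat_lit 76) (nat_lit 6718341588994) (nat_lit 76) (nat_lit 6686473593668) (nat_lit 1) (nat_lit 4) (nat_lit 2) (nat_lit 5) (nat_lit 2) (nat_lit 4) (nat_lit 539) (nat_lit 423) (nat_lit 238)) (XT.nd (nat_lit 78) (nat_lit 0) (nat_lit 0) (XT.lf (nat_lit 0) (nat_lit 6104764753253) (nat_lit 76) (nat_lit 6842886278719) (nat_lit 76) (nat_lit 6811018281846) (nat_lit 1) (nat_lit 4) (nat_lit 2) (nat_lit 5) (nat_lit 2) (nat_lit 4) (nat_lit 540) (nat_lit 423) (nat_lit 237)) (XT.lf (nat_lit 0) (nat_lit 7385854454988) (nat_lit 76) (nat_lit 6977394582002) (nat_lit 76) (nat_lit 6945526583696)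 (nat_lit 1) (nat_lit 4) (nat_lit 2) (nat_lit 5) (nat_lit 2) (nat_lit 4) (nat_lit 541) (nat_lit 423) (nat_lit 236)))) (XT.nd (nat_lit 156) (nat_lit 456) (nat_lit 0) (XT.nd (nat_lit 78) (nat_lit 0) (nat_lit 0) (XT.lf (nat_lit 0) (nat_lit 12293611799) (nat_lit 532) (nat_lit 305449056) (nat_lit 532) (nat_lit 305449056) (nat_lit 93) (nat_lit 3) (nat_lit 100) (nat_lit 3) (nat_lit 100) (nat_lit 5) (nat_lit 424) (nat_lit 424) (nat_lit 352)) (XT.lf (nat_lit 76) (nat_lit 12886745841) (nat_lit 0) (nat_lit 13087133847) (nat_lit 532) (nat_lit 835235116) (nat_lit 94) (nat_lit 5) (nat_lit 93) (nat_lit 3) (nat_lit 100) (nat_lit 5) (nat_lit 425) (nat_lit 424) (nat_lit 351))) (XT.nd (nat_lit 78) (nat_lit 532) (nat_lit 0) (XT.lf (nat_lit 0) (nat_lit 27479074162) (nat_lit 456) (nat_lit 395357525) (nat_lit 532) (nat_lit 14178471) (nat_lit 94) (nat_lit 5) (nat_lit 100) (nat_lit 5) (nat_lit 101) (nat_lit 5) (nat_lit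 426) (nat_lit 424) (nat_lit 350)) (XT.lf (nat_lit 0) (nat_lit 747784996) (nat_lit 532) (nat_lit 14420350372) (nat_lit 608) (nat_lit 13830227969) (nat_lit 87) (nat_lit 5) (nat_lit 94) (nat_lit 5) (nat_lit 95) (nat_lit 5) (nat_lit 427) (nat_lit 424) (nat_lit 349))))) (XT.nd (nat_lit 234) (nat_lit 608) (nat_lit 0) (XT.nd (nat_lit 78) (nat_lit 0) (nat_lit 76) (XT.lf (nat_lit 76) (nat_lit 588210242) (nat_lit 0) (nat_lit 1404224859) (nat_lit 608) (nat_lit 28202262153) (nat_lit 88) (nat_lit 5) (nat_lit 87) (nat_lit 5) (nat_lit 95) (nat_lit 5) (nat_lit 428) (nat_lit 424) (nat_lit 348)) (XT.nd (nat_lit 78) (nat_lit 0) (nat_lit 0) (XT.lf (nat_lit 0) (nat_lit 4057068858) (nat_lit 532) (nat_lit 14178146251) (nat_lit 608) (nat_lit 13193890757) (nat_lit 88) (nat_lit 5) (nat_lit 95) (nat_lit 5) (nat_lit 96) (nat_lit 5) (nat_lit 429) (nat_lit 424) (nat_lit 347)) (XT.lf (nat_lit 76) (nat_lit 2570529567)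 (nat_lit 0) (nat_lit 3807379342) (nat_lit 608) (nat_lit 26377076259) (nat_lit 89) (nat_lit 5) (nat_lit 88) (nat_lit 5) (nat_lit 96) (nat_lit 5) (nat_lit 430) (nat_lit 424) (nat_lit 346)))) (XT.nd (nat_lit 156) (nat_lit 228) (nat_lit 0) (XT.nd (nat_lit 78) (nat_lit 532) (nat_lit 0) (XT.lf (nat_lit 0) (nat_lit 9558482390) (nat_lit 532) (nat_lit 12990216743) (nat_lit 76) (nat_lit 11584311167) (nat_lit 89) (nat_lit 5) (nat_lit 96) (nat_lit 5) (nat_lit 90) (nat_lit 5) (nat_lit 431) (nat_lit 424) (nat_lit 345)) (XT.lf (nat_lit 0) (nat_lit 5762967081) (nat_lit 532) (nat_lit 7461693974) (nat_lit 608) (nat_lit 22378124369) (nat_lit 82) (nat_lit 5) (nat_lit 89) (nat_lit 5) (nat_lit 90) (nat_lit 5) (nat_lit 432) (nat_lit 424) (nat_lit 344))) (XT.nd (nat_lit 78) (nat_lit 228) (nat_lit 0) (XT.lf (nat_lit 0) (nat_lit 17754950875) (nat_lit 608) (nat_lit 10634521042) (nat_lit 76) (nat_lit 8755005965) (nat_lit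 82) (nat_lit 5) (nat_lit 90) (nat_lit 5) (nat_lit 83) (nat_lit 5) (nat_lit 433) (nat_lit 424) (nat_lit 343)) (XT.lf (nat_lit 0) (nat_lit 10429249799) (nat_lit 228) (nat_lit 12657492126) (nat_lit 304) (nat_lit 15687638190) (nat_lit 79) (nat_lit 5) (nat_lit 82) (nat_lit 5) (nat_lit 83) (nat_lit 5) (nat_lit 434) (nat_lit 424) (nat_lit 342)))))) (XT.nd (nat_lit 546) (nat_lit 684) (nat_lit 0) (XT.nd (nat_lit 234) (nat_lit 608) (nat_lit 0) (XT.nd (nat_lit 78) (nat_lit 304) (nat_lit 0) (XT.lf (nat_lit 0) (nat_lit 29242313407) (nat_lit 304) (nat_lit 6846376549) (nat_lit 76) (nat_lit 4414206175) (nat_lit 79) (nat_lit 5) (nat_lit 83) (nat_lit 5) (nat_lit 80) (nat_lit 5) (nat_lit 435) (nat_lit 424) (nat_lit 341)) (XT.nd (nat_lit 78) (nat_lit 76) (nat_lit 0) (XT.lf (nat_lit 0) (nat_lit 16882371207) (nat_lit 228) (nat_lit 19737847100) (nat_lit 304) (nat_lit 5691084639) (nat_lit 76) (nat_lit 5) (nat_lit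 79) (nat_lit 5) (nat_lit 80) (nat_lit 5) (nat_lit 436) (nat_lit 424) (nat_lit 340)) (XT.lf (nat_lit 0) (nat_lit 495029667) (nat_lit 304) (nat_lit 1369056566) (nat_lit 76) (nat_lit 42384692179) (nat_lit 75) (nat_lit 5) (nat_lit 79) (nat_lit 5) (nat_lit 76) (nat_lit 5) (nat_lit 437) (nat_lit 424) (nat_lit 339)))) (XT.nd (nat_lit 156) (nat_lit 152) (nat_lit 0) (XT.nd (nat_lit 78) (nat_lit 228) (nat_lit 0) (XT.lf (nat_lit 0) (nat_lit 7922758189) (nat_lit 304) (nat_lit 20968972451) (nat_lit 76) (nat_lit 17353360753) (nat_lit 72) (nat_lit 5) (nat_lit 76) (nat_lit 5) (nat_lit 73) (nat_lit 5) (nat_lit 438) (nat_lit 424) (nat_lit 338)) (XT.lf (nat_lit 0) (nat_lit 5976715911) (nat_lit 228) (nat_lit 10194295095) (nat_lit 304) (nat_lit 32211994315) (nat_lit 69) (nat_lit 5) (nat_lit 72) (nat_lit 5) (nat_lit 73) (nat_lit 5) (nat_lit 439) (nat_lit 424) (nat_lit 337))) (XT.nd (nat_lit 78) (nat_lit 152)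 (nat_lit 0) (XT.lf (nat_lit 0) (nat_lit 25903716649) (nat_lit 304) (nat_lit 14636550101) (nat_lit 76) (nat_lit 10085718571) (nat_lit 69) (nat_lit 5) (nat_lit 73) (nat_lit 5) (nat_lit 70) (nat_lit 5) (nat_lit 440) (nat_lit 424) (nat_lit 336)) (XT.lf (nat_lit 0) (nat_lit 15879055836) (nat_lit 152) (nat_lit 21178862797) (nat_lit 228) (nat_lit 15939055031) (nat_lit 67) (nat_lit 5) (nat_lit 69) (nat_lit 5) (nat_lit 70) (nat_lit 5) (nat_lit 441) (nat_lit 424) (nat_lit 335))))) (XT.nd (nat_lit 234) (nat_lit 304) (nat_lit 0) (XT.nd (nat_lit 78) (nat_lit 380) (nat_lit 0) (XT.lf (nat_lit 0) (nat_lit 49504905626) (nat_lit 228) (nat_lit 5866641039) (nat_lit 76) (nat_lit 154058815) (nat_lit 67) (nat_lit 5) (nat_lit 70) (nat_lit 5) (nat_lit 68) (nat_lit 5) (nat_lit 442) (nat_lit 424) (nat_lit 334)) (XT.nd (nat_lit 78) (nat_lit 152) (nat_lit 0) (XT.lf (nat_lit 0) (nat_lit 5727211792) (nat_lit 228) (nat_lit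 29533649470) (nat_lit 76) (nat_lit 22884980550) (nat_lit 64) (nat_lit 5) (nat_lit 67) (nat_lit 5) (nat_lit 65) (nat_lit 5) (nat_lit 443) (nat_lit 424) (nat_lit 333)) (XT.lf (nat_lit 0) (nat_lit 5320688089) (nat_lit 152) (nat_lit 13058173630) (nat_lit 228) (nat_lit 42561190670) (nat_lit 62) (nat_lit 5) (nat_lit 64) (nat_lit 5) (nat_lit 65) (nat_lit 5) (nat_lit 444) (nat_lit 424) (nat_lit 332)))) (XT.nd (nat_lit 156) (nat_lit 152) (nat_lit 0) (XT.nd (nat_lit 78) (nat_lit 152) (nat_lit 0) (XT.lf (nat_lit 0) (nat_lit 33130499885) (nat_lit 228) (nat_lit 19538965068) (nat_lit 76) (nat_lit 11201306591) (nat_lit 62) (nat_lit 5) (nat_lit 65) (nat_lit 5) (nat_lit 63) (nat_lit 5) (nat_lit 445) (nat_lit 424) (nat_lit 331)) (XT.lf (nat_lit 0) (nat_lit 20088874218) (nat_lit 152) (nat_lit 29792683956) (nat_lit 228) (nat_lit 17088847142) (nat_lit 60) (nat_lit 5) (nat_lit 62) (nat_lit 5) (nat_lit 63) (nat_lit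 5) (nat_lit 446) (nat_lit 424) (nat_lit 330))) (XT.nd (nat_lit 78) (nat_lit 152) (nat_lit 0) (XT.lf (nat_lit 0) (nat_lit 63993513647) (nat_lit 152) (nat_lit 4510507859) (nat_lit 228) (nat_lit 1771482849) (nat_lit 60) (nat_lit 5) (nat_lit 62) (nat_lit 5) (nat_lit 63) (nat_lit 5) (nat_lit 447) (nat_lit 424) (nat_lit 329)) (XT.lf (nat_lit 0) (nat_lit 15553362269) (nat_lit 152) (nat_lit 35158285369) (nat_lit 76) (nat_lit 22983263060) (nat_lit 58) (nat_lit 5) (nat_lit 60) (nat_lit 5) (nat_lit 59) (nat_lit 5) (nat_lit 448) (nat_lit 424) (nat_lit 328))))))) (XT.nd (nat_lit 1092) (nat_lit 1064) (nat_lit 0) (XT.nd (nat_lit 546) (nat_lit 532) (nat_lit 0) (XT.nd (nat_lit 234) (nat_lit 380) (nat_lit 0) (XT.nd (nat_lit 78) (nat_lit 76) (nat_lit 0) (XT.lf (nat_lit 0) (nat_lit 10265254311) (nat_lit 152) (nat_lit 24440789354) (nat_lit 228) (nat_lit 42635140653) (nat_lit 56) (nat_lit 5) (nat_lit 58) (nat_lit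 5) (nat_lit 59) (nat_lit 5) (nat_lit 449) (nat_lit 424) (nat_lit 327)) (XT.nd (nat_lit 78) (nat_lit 76) (nat_lit 0) (XT.lf (nat_lit 0) (nat_lit 56469105824) (nat_lit 228) (nat_lit 20004165903) (nat_lit 76) (nat_lit 4719634946) (nat_lit 56) (nat_lit 5) (nat_lit 59) (nat_lit 5) (nat_lit 57) (nat_lit 4) (nat_lit 450) (nat_lit 424) (nat_lit 326)) (XT.lf (nat_lit 0) (nat_lit 31784286521) (nat_lit 76) (nat_lit 49585710793) (nat_lit 152) (nat_lit 3871026887) (nat_lit 55) (nat_lit 5) (nat_lit 56) (nat_lit 5) (nat_lit 57) (nat_lit 4) (nat_lit 451) (nat_lit 424) (nat_lit 325)))) (XT.nd (nat_lit 156) (nat_lit 152) (nat_lit 0) (XT.nd (nat_lit 78) (nat_lit 152) (nat_lit 0) (XT.lf (nat_lit 0) (nat_lit 18275745140) (nat_lit 152) (nat_lit 1182731671) (nat_lit 76) (nat_lit 70073934008) (nat_lit 54) (nat_lit 5) (nat_lit 56) (nat_lit 5) (nat_lit 55) (nat_lit 5) (nat_lit 452) (nat_lit 424) (nat_lit 324)) (XT.lf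 (nat_lit 0) (nat_lit 43732944916) (nat_lit 228) (nat_lit 36327086488) (nat_lit 76) (nat_lit 13959207618) (nat_lit 52) (nat_lit 5) (nat_lit 55) (nat_lit 5) (nat_lit 53) (nat_lit 4) (nat_lit 453) (nat_lit 424) (nat_lit 323))) (XT.nd (nat_lit 78) (nat_lit 76) (nat_lit 0) (XT.lf (nat_lit 0) (nat_lit 23128647489) (nat_lit 76) (nat_lit 49190693829) (nat_lit 152) (nat_lit 26458262609) (nat_lit 51) (nat_lit 5) (nat_lit 52) (nat_lit 5) (nat_lit 53) (nat_lit 4) (nat_lit 454) (nat_lit 424) (nat_lit 322)) (XT.lf (nat_lit 0) (nat_lit 329072802) (nat_lit 152) (nat_lit 14442737378) (nat_lit 76) (nat_lit 89064873321) (nat_lit 50) (nat_lit 5) (nat_lit 52) (nat_lit 5) (nat_lit 51) (nat_lit 5) (nat_lit 455) (nat_lit 424) (nat_lit 321))))) (XT.nd (nat_lit 234) (nat_lit 304) (nat_lit 0) (XT.nd (nat_lit 78) (nat_lit 76) (nat_lit 0) (XT.lf (nat_lit 0) (nat_lit 29708341219) (nat_lit 228) (nat_lit 56079486354) (nat_lit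 76) (nat_lit 23307413370) (nat_lit 48) (nat_lit 5) (nat_lit 51) (nat_lit 5) (nat_lit 49) (nat_lit 4) (nat_lit 456) (nat_lit 424) (nat_lit 320)) (XT.nd (nat_lit 78) (nat_lit 0) (nat_lit 0) (XT.lf (nat_lit 0) (nat_lit 12160061960) (nat_lit 76) (nat_lit 50357157518) (nat_lit 152) (nat_lit 52170922106) (nat_lit 47) (nat_lit 5) (nat_lit 48) (nat_lit 5) (nat_lit 49) (nat_lit 4) (nat_lit 457) (nat_lit 424) (nat_lit 319)) (XT.lf (nat_lit 0) (nat_lit 89044459128) (nat_lit 76) (nat_lit 10437712009) (nat_lit 152) (nat_lit 21123794154) (nat_lit 47) (nat_lit 5) (nat_lit 48) (nat_lit 5) (nat_lit 49) (nat_lit 4) (nat_lit 458) (nat_lit 424) (nat_lit 318)))) (XT.nd (nat_lit 156) (nat_lit 152) (nat_lit 0) (XT.nd (nat_lit 78) (nat_lit 0) (nat_lit 0) (XT.lf (nat_lit 0) (nat_lit 13741283915) (nat_lit 152) (nat_lit 80567165522) (nat_lit 76) (nat_lit 32508507545) (nat_lit 45) (nat_lit 5) (nat_lit 47) (nat_lit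 5) (nat_lit 46) (nat_lit 4) (nat_lit 459) (nat_lit 424) (nat_lit 317)) (XT.lf (nat_lit 0) (nat_lit 51408973157) (nat_lit 152) (nat_lit 2220517059) (nat_lit 76) (nat_lit 79759073170) (nat_lit 45) (nat_lit 5) (nat_lit 47) (nat_lit 5) (nat_lit 46) (nat_lit 4) (nat_lit 460) (nat_lit 424) (nat_lit 316))) (XT.nd (nat_lit 78) (nat_lit 76) (nat_lit 0) (XT.lf (nat_lit 0) (nat_lit 86729210609) (nat_lit 76) (nat_lit 7445009628) (nat_lit 152) (nat_lit 46144946698) (nat_lit 44) (nat_lit 5) (nat_lit 45) (nat_lit 5) (nat_lit 46) (nat_lit 4) (nat_lit 461) (nat_lit 424) (nat_lit 315)) (XT.lf (nat_lit 0) (nat_lit 35891963302) (nat_lit 76) (nat_lit 106413078837) (nat_lit 76) (nat_lit 5343628269) (nat_lit 43) (nat_lit 4) (nat_lit 44) (nat_lit 5) (nat_lit 44) (nat_lit 4) (nat_lit 462) (nat_lit 424) (nat_lit 314)))))) (XT.nd (nat_lit 546) (nat_lit 532) (nat_lit 0) (XT.nd (nat_lit 234) (nat_lit 304) (nat_lit 0)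 (XT.nd (nat_lit 78) (nat_lit 152) (nat_lit 0) (XT.lf (nat_lit 0) (nat_lit 38479779316) (nat_lit 152) (nat_lit 21033086344) (nat_lit 76) (nat_lit 95841567350) (nat_lit 42) (nat_lit 5) (nat_lit 44) (nat_lit 5) (nat_lit 43) (nat_lit 4) (nat_lit 463) (nat_lit 424) (nat_lit 313)) (XT.nd (nat_lit 78) (nat_lit 76) (nat_lit 0) (XT.lf (nat_lit 0) (nat_lit 80851147758) (nat_lit 76) (nat_lit 6612138318) (nat_lit 152) (nat_lit 76046833235) (nat_lit 41) (nat_lit 5) (nat_lit 42) (nat_lit 5) (nat_lit 43) (nat_lit 4) (nat_lit 464) (nat_lit 424) (nat_lit 312)) (XT.lf (nat_lit 0) (nat_lit 19555319249) (nat_lit 76) (nat_lit 123083962348) (nat_lit 76) (nat_lit 29497074296) (nat_lit 40) (nat_lit 4) (nat_lit 41) (nat_lit 5) (nat_lit 41) (nat_lit 4) (nat_lit 465) (nat_lit 424) (nat_lit 311)))) (XT.nd (nat_lit 156) (nat_lit 152) (nat_lit 0) (XT.nd (nat_lit 78) (nat_lit 76) (nat_lit 0) (XT.lf (nat_lit 0) (nat_lit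 22226286912) (nat_lit 152) (nat_lit 47357370236) (nat_lit 76) (nat_lit 111629943576) (nat_lit 39) (nat_lit 5) (nat_lit 41) (nat_lit 5) (nat_lit 40) (nat_lit 4) (nat_lit 466) (nat_lit 424) (nat_lit 310)) (XT.lf (nat_lit 0) (nat_lit 68965172110) (nat_lit 76) (nat_lit 9185929927) (nat_lit 152) (nat_lit 112672055055) (nat_lit 38) (nat_lit 5) (nat_lit 39) (nat_lit 5) (nat_lit 40) (nat_lit 4) (nat_lit 467) (nat_lit 424) (nat_lit 309))) (XT.nd (nat_lit 78) (nat_lit 152) (nat_lit 0) (XT.lf (nat_lit 0) (nat_lit 141224806576) (nat_lit 152) (nat_lit 5195385240) (nat_lit 0) (nat_lit 54567293842) (nat_lit 38) (nat_lit 5) (nat_lit 40) (nat_lit 4) (nat_lit 38) (nat_lit 4) (nat_lit 468) (nat_lit 424) (nat_lit 308)) (XT.lf (nat_lit 0) (nat_lit 885392414) (nat_lit 152) (nat_lit 84816748384) (nat_lit 76) (nat_lit 125997873300) (nat_lit 36) (nat_lit 5) (nat_lit 38) (nat_lit 5) (nat_lit 37) (nat_lit 4) (nat_lit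 469) (nat_lit 424) (nat_lit 307))))) (XT.nd (nat_lit 312) (nat_lit 228) (nat_lit 0) (XT.nd (nat_lit 156) (nat_lit 228) (nat_lit 0) (XT.nd (nat_lit 78) (nat_lit 0) (nat_lit 0) (XT.lf (nat_lit 0) (nat_lit 47376930884) (nat_lit 76) (nat_lit 17063494241) (nat_lit 152) (nat_lit 158602229321) (nat_lit 35) (nat_lit 5) (nat_lit 36) (nat_lit 5) (nat_lit 37) (nat_lit 4) (nat_lit 470) (nat_lit 424) (nat_lit 306)) (XT.lf (nat_lit 0) (nat_lit 136830281531) (nat_lit 152) (nat_lit 41572742366) (nat_lit 0) (nat_lit 56589648457) (nat_lit 35) (nat_lit 5) (nat_lit 37) (nat_lit 4) (nat_lit 35) (nat_lit 4) (nat_lit 471) (nat_lit 424) (nat_lit 305))) (XT.nd (nat_lit 78) (nat_lit 152) (nat_lit 0) (XT.lf (nat_lit 0) (nat_lit 108215448062) (nat_lit 76) (nat_lit 109840467859) (nat_lit 76) (nat_lit 29599208633) (nat_lit 34) (nat_lit 4) (nat_lit 35) (nat_lit 5) (nat_lit 35) (nat_lit 4) (nat_lit 472) (nat_lit 424) (nat_lit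 304)) (XT.lf (nat_lit 0) (nat_lit 10537540453) (nat_lit 76) (nat_lit 33106391973) (nat_lit 152) (nat_lit 217487646526) (nat_lit 32) (nat_lit 5) (nat_lit 33) (nat_lit 5) (nat_lit 34) (nat_lit 4) (nat_lit 473) (nat_lit 424) (nat_lit 303)))) (XT.nd (nat_lit 156) (nat_lit 152) (nat_lit 0) (XT.nd (nat_lit 78) (nat_lit 76) (nat_lit 0) (XT.lf (nat_lit 0) (nat_lit 126254641274) (nat_lit 152) (nat_lit 97005279041) (nat_lit 0) (nat_lit 51956145145) (nat_lit 32) (nat_lit 5) (nat_lit 34) (nat_lit 4) (nat_lit 32) (nat_lit 4) (nat_lit 474) (nat_lit 424) (nat_lit 302)) (XT.lf (nat_lit 0) (nat_lit 71589653744) (nat_lit 76) (nat_lit 146465085468) (nat_lit 76) (nat_lit 72166129099) (nat_lit 31) (nat_lit 4) (nat_lit 32) (nat_lit 5) (nat_lit 32) (nat_lit 4) (nat_lit 475) (nat_lit 424) (nat_lit 301))) (XT.nd (nat_lit 78) (nat_lit 76) (nat_lit 0) (XT.lf (nat_lit 0) (nat_lit 12953973112) (nat_lit 152) (nat_lit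 47355118442) (nat_lit 76) (nat_lit 245878630410) (nat_lit 30) (nat_lit 5) (nat_lit 32) (nat_lit 5) (nat_lit 31) (nat_lit 4) (nat_lit 476) (nat_lit 424) (nat_lit 300)) (XT.lf (nat_lit 0) (nat_lit 105345744400) (nat_lit 152) (nat_lit 181037696929) (nat_lit 0) (nat_lit 36549654494) (nat_lit 29) (nat_lit 5) (nat_lit 31) (nat_lit 4) (nat_lit 29) (nat_lit 4) (nat_lit 477) (nat_lit 424) (nat_lit 299))))))))
noncomputable def xc149 : XT := (XT.nd (nat_lit 2184) (nat_lit 608) (nat_lit 0) (XT.nd (nat_lit 1092) (nat_lit 532) (nat_lit 0) (XT.nd (nat_lit 546) (nat_lit 456) (nat_lit 0) (XT.nd (nat_lit 234) (nat_lit 228) (nat_lit 0) (XT.nd (nat_lit 78) (nat_lit 152) (nat_lit 0) (XT.lf (nat_lit 0) (nat_lit 6802700167) (nat_lit 76) (nat_lit 201383615484) (nat_lit 76) (nat_lit 132587187287) (nat_lit 28) (nat_lit 4) (nat_lit 29) (nat_lit 5) (nat_lit 29) (nat_lit 4) (nat_lit 478) (nat_lit 424) (nat_lit 298))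 (XT.nd (nat_lit 78) (nat_lit 152) (nat_lit 0) (XT.lf (nat_lit 0) (nat_lit 219964090086) (nat_lit 76) (nat_lit 104238941045) (nat_lit 76) (nat_lit 35442199617) (nat_lit 28) (nat_lit 4) (nat_lit 29) (nat_lit 5) (nat_lit 29) (nat_lit 4) (nat_lit 479) (nat_lit 424) (nat_lit 297)) (XT.lf (nat_lit 0) (nat_lit 67836391727) (nat_lit 152) (nat_lit 307774207945) (nat_lit 0) (nat_lit 4135436674) (nat_lit 26) (nat_lit 5) (nat_lit 28) (nat_lit 4) (nat_lit 26) (nat_lit 4) (nat_lit 480) (nat_lit 424) (nat_lit 296)))) (XT.nd (nat_lit 156) (nat_lit 152) (nat_lit 0) (XT.nd (nat_lit 78) (nat_lit 76) (nat_lit 0) (XT.lf (nat_lit 0) (nat_lit 184087363056) (nat_lit 152) (nat_lit 96377746502) (nat_lit 0) (nat_lit 120386159349) (nat_lit 26) (nat_lit 5) (nat_lit 28) (nat_lit 4) (nat_lit 26) (nat_lit 4) (nat_lit 481) (nat_lit 424) (nat_lit 295)) (XT.lf (nat_lit 0) (nat_lit 138875787123) (nat_lit 76) (nat_lit 174101719661)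 (nat_lit 76) (nat_lit 110400285719) (nat_lit 25) (nat_lit 4) (nat_lit 26) (nat_lit 5) (nat_lit 26) (nat_lit 4) (nat_lit 482) (nat_lit 424) (nat_lit 294))) (XT.nd (nat_lit 78) (nat_lit 76) (nat_lit 0) (XT.lf (nat_lit 0) (nat_lit 6951408387) (nat_lit 152) (nat_lit 49242717675) (nat_lit 76) (nat_lit 391287489928) (nat_lit 24) (nat_lit 5) (nat_lit 26) (nat_lit 5) (nat_lit 25) (nat_lit 4) (nat_lit 483) (nat_lit 424) (nat_lit 293)) (XT.lf (nat_lit 0) (nat_lit 134757400791) (nat_lit 152) (nat_lit 262190278289) (nat_lit 0) (nat_lit 75774211430) (nat_lit 23) (nat_lit 5) (nat_lit 25) (nat_lit 4) (nat_lit 23) (nat_lit 4) (nat_lit 484) (nat_lit 424) (nat_lit 292))))) (XT.nd (nat_lit 234) (nat_lit 228) (nat_lit 0) (XT.nd (nat_lit 78) (nat_lit 228) (nat_lit 0) (XT.lf (nat_lit 0) (nat_lit 275628010022) (nat_lit 152) (nat_lit 7481514550) (nat_lit 0) (nat_lit 216644651431) (nat_lit 23) (nat_lit 5) (nat_lit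 25) (nat_lit 4) (nat_lit 23) (nat_lit 4) (nat_lit 485) (nat_lit 424) (nat_lit 291)) (XT.nd (nat_lit 78) (nat_lit 152) (nat_lit 0) (XT.lf (nat_lit 0) (nat_lit 281693896695) (nat_lit 76) (nat_lit 152848371457) (nat_lit 76) (nat_lit 93864856173) (nat_lit 22) (nat_lit 4) (nat_lit 23) (nat_lit 5) (nat_lit 23) (nat_lit 4) (nat_lit 486) (nat_lit 424) (nat_lit 290)) (XT.lf (nat_lit 0) (nat_lit 35748359447) (nat_lit 76) (nat_lit 9795880850) (nat_lit 152) (nat_lit 513632481472) (nat_lit 20) (nat_lit 5) (nat_lit 21) (nat_lit 5) (nat_lit 22) (nat_lit 4) (nat_lit 487) (nat_lit 424) (nat_lit 289)))) (XT.nd (nat_lit 156) (nat_lit 152) (nat_lit 0) (XT.nd (nat_lit 78) (nat_lit 76) (nat_lit 0) (XT.lf (nat_lit 0) (nat_lit 201435025699) (nat_lit 152) (nat_lit 243125408369) (nat_lit 0) (nat_lit 146820400966) (nat_lit 20) (nat_lit 5) (nat_lit 22) (nat_lit 4) (nat_lit 20) (nat_lit 4) (nat_lit 488) (nat_lit 424)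 (nat_lit 288)) (XT.lf (nat_lit 0) (nat_lit 62470983050) (nat_lit 76) (nat_lit 309082269948) (nat_lit 76) (nat_lit 254467530041) (nat_lit 19) (nat_lit 4) (nat_lit 20) (nat_lit 5) (nat_lit 20) (nat_lit 4) (nat_lit 489) (nat_lit 424) (nat_lit 287))) (XT.nd (nat_lit 78) (nat_lit 152) (nat_lit 0) (XT.lf (nat_lit 0) (nat_lit 406340466962) (nat_lit 76) (nat_lit 155587280864) (nat_lit 76) (nat_lit 100972434314) (nat_lit 19) (nat_lit 4) (nat_lit 20) (nat_lit 5) (nat_lit 20) (nat_lit 4) (nat_lit 490) (nat_lit 424) (nat_lit 286)) (XT.lf (nat_lit 0) (nat_lit 63752696551) (nat_lit 152) (nat_lit 625493886215) (nat_lit 0) (nat_lit 13183302760) (nat_lit 17) (nat_lit 5) (nat_lit 19) (nat_lit 4) (nat_lit 17) (nat_lit 4) (nat_lit 491) (nat_lit 424) (nat_lit 285)))))) (XT.nd (nat_lit 546) (nat_lit 228) (nat_lit 0) (XT.nd (nat_lit 234) (nat_lit 228) (nat_lit 0) (XT.nd (nat_lit 78) (nat_lit 76) (nat_lit 0) (XT.lf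 (nat_lit 0) (nat_lit 247438295757) (nat_lit 152) (nat_lit 299706031910) (nat_lit 0) (nat_lit 196868817309) (nat_lit 17) (nat_lit 5) (nat_lit 19) (nat_lit 4) (nat_lit 17) (nat_lit 4) (nat_lit 492) (nat_lit 424) (nat_lit 284)) (XT.nd (nat_lit 78) (nat_lit 0) (nat_lit 0) (XT.lf (nat_lit 0) (nat_lit 54889430727) (nat_lit 76) (nat_lit 392248815512) (nat_lit 76) (nat_lit 341679258678) (nat_lit 16) (nat_lit 4) (nat_lit 17) (nat_lit 5) (nat_lit 17) (nat_lit 4) (nat_lit 493) (nat_lit 424) (nat_lit 283)) (XT.lf (nat_lit 0) (nat_lit 454895897009) (nat_lit 76) (nat_lit 216112216211) (nat_lit 76) (nat_lit 165542586798) (nat_lit 16) (nat_lit 4) (nat_lit 17) (nat_lit 5) (nat_lit 17) (nat_lit 4) (nat_lit 494) (nat_lit 424) (nat_lit 282)))) (XT.nd (nat_lit 156) (nat_lit 76) (nat_lit 0) (XT.nd (nat_lit 78) (nat_lit 76) (nat_lit 0) (XT.lf (nat_lit 0) (nat_lit 23449629328) (nat_lit 152) (nat_lit 1794467612)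 (nat_lit 76) (nat_lit 862811003357) (nat_lit 15) (nat_lit 5) (nat_lit 17) (nat_lit 5) (nat_lit 16) (nat_lit 4) (nat_lit 495) (nat_lit 424) (nat_lit 281)) (XT.lf (nat_lit 0) (nat_lit 233576784080) (nat_lit 152) (nat_lit 521809417756) (nat_lit 0) (nat_lit 186752933300) (nat_lit 14) (nat_lit 5) (nat_lit 16) (nat_lit 4) (nat_lit 14) (nat_lit 4) (nat_lit 496) (nat_lit 424) (nat_lit 280))) (XT.nd (nat_lit 78) (nat_lit 76) (nat_lit 0) (XT.lf (nat_lit 0) (nat_lit 461219636309) (nat_lit 152) (nat_lit 124878082268) (nat_lit 0) (nat_lit 414395732181) (nat_lit 14) (nat_lit 5) (nat_lit 16) (nat_lit 4) (nat_lit 14) (nat_lit 4) (nat_lit 497) (nat_lit 424) (nat_lit 279)) (XT.lf (nat_lit 0) (nat_lit 319804725091) (nat_lit 76) (nat_lit 394960036246) (nat_lit 76) (nat_lit 348136082722) (nat_lit 13) (nat_lit 4) (nat_lit 14) (nat_lit 5) (nat_lit 14) (nat_lit 4) (nat_lit 498) (nat_lit 424) (nat_lit 278))))) (XT.nd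 (nat_lit 234) (nat_lit 76) (nat_lit 0) (XT.nd (nat_lit 78) (nat_lit 152) (nat_lit 0) (XT.lf (nat_lit 0) (nat_lit 807163146063) (nat_lit 76) (nat_lit 184844283677) (nat_lit 76) (nat_lit 138020284416) (nat_lit 13) (nat_lit 4) (nat_lit 14) (nat_lit 5) (nat_lit 14) (nat_lit 4) (nat_lit 499) (nat_lit 424) (nat_lit 277)) (XT.nd (nat_lit 78) (nat_lit 0) (nat_lit 0) (XT.lf (nat_lit 0) (nat_lit 88871198049) (nat_lit 152) (nat_lit 1067613775099) (nat_lit 0) (nat_lit 45515603965) (nat_lit 11) (nat_lit 5) (nat_lit 13) (nat_lit 4) (nat_lit 11) (nat_lit 4) (nat_lit 500) (nat_lit 424) (nat_lit 276)) (XT.lf (nat_lit 0) (nat_lit 340315017500) (nat_lit 152) (nat_lit 641061453206) (nat_lit 0) (nat_lit 296959387108) (nat_lit 11) (nat_lit 5) (nat_lit 13) (nat_lit 4) (nat_lit 11) (nat_lit 4) (nat_lit 501) (nat_lit 424) (nat_lit 275)))) (XT.nd (nat_lit 156) (nat_lit 0) (nat_lit 0) (XT.nd (nat_lit 78) (nat_lit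 76) (nat_lit 0) (XT.lf (nat_lit 0) (nat_lit 611873942851) (nat_lit 152) (nat_lit 180385771253) (nat_lit 0) (nat_lit 568518278841) (nat_lit 11) (nat_lit 5) (nat_lit 13) (nat_lit 4) (nat_lit 11) (nat_lit 4) (nat_lit 502) (nat_lit 424) (nat_lit 274)) (XT.lf (nat_lit 0) (nat_lit 333843399650) (nat_lit 76) (nat_lit 579342754318) (nat_lit 76) (nat_lit 535987059180) (nat_lit 10) (nat_lit 4) (nat_lit 11) (nat_lit 5) (nat_lit 11) (nat_lit 4) (nat_lit 503) (nat_lit 424) (nat_lit 273))) (XT.nd (nat_lit 78) (nat_lit 0) (nat_lit 0) (XT.lf (nat_lit 0) (nat_lit 899468857699) (nat_lit 76) (nat_lit 344066190371) (nat_lit 76) (nat_lit 300710466411) (nat_lit 10) (nat_lit 4) (nat_lit 11) (nat_lit 5) (nat_lit 11) (nat_lit 4) (nat_lit 504) (nat_lit 424) (nat_lit 272)) (XT.lf (nat_lit 0) (nat_lit 1510343662417) (nat_lit 76) (nat_lit 89967857430) (nat_lit 76) (nat_lit 46612106782) (nat_lit 10) (nat_lit 4) (nat_lit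 11) (nat_lit 5) (nat_lit 11) (nat_lit 4) (nat_lit 505) (nat_lit 424) (nat_lit 271))))))) (XT.nd (nat_lit 1092) (nat_lit 152) (nat_lit 0) (XT.nd (nat_lit 546) (nat_lit 228) (nat_lit 0) (XT.nd (nat_lit 234) (nat_lit 76) (nat_lit 0) (XT.nd (nat_lit 78) (nat_lit 0) (nat_lit 0) (XT.lf (nat_lit 0) (nat_lit 231562197526) (nat_lit 152) (nat_lit 1333185973459) (nat_lit 0) (nat_lit 191417961083) (nat_lit 8) (nat_lit 5) (nat_lit 10) (nat_lit 4) (nat_lit 8) (nat_lit 4) (nat_lit 506) (nat_lit 424) (nat_lit 270)) (XT.nd (nat_lit 78) (nat_lit 0) (nat_lit 0) (XT.lf (nat_lit 0) (nat_lit 535640026273) (nat_lit 152) (nat_lit 842421959134) (nat_lit 0) (nat_lit 495495768645) (nat_lit 8) (nat_lit 5) (nat_lit 10) (nat_lit 4) (nat_lit 8) (nat_lit 4) (nat_lit 507) (nat_lit 424) (nat_lit 269)) (XT.lf (nat_lit 0) (nat_lit 864043787835) (nat_lit 152) (nat_lit 312397430846) (nat_lit 0) (nat_lit 823899510591) (nat_lit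 8) (nat_lit 5) (nat_lit 10) (nat_lit 4) (nat_lit 8) (nat_lit 4) (nat_lit 508) (nat_lit 424) (nat_lit 268)))) (XT.nd (nat_lit 156) (nat_lit 0) (nat_lit 0) (XT.nd (nat_lit 78) (nat_lit 0) (nat_lit 0) (XT.lf (nat_lit 0) (nat_lit 273721137364) (nat_lit 76) (nat_lit 951581441149) (nat_lit 76) (nat_lit 911437145742) (nat_lit 7) (nat_lit 4) (nat_lit 8) (nat_lit 5) (nat_lit 8) (nat_lit 4) (nat_lit 509) (nat_lit 424) (nat_lit 267)) (XT.lf (nat_lit 0) (nat_lit 924494961758) (nat_lit 76) (nat_lit 699508345270) (nat_lit 76) (nat_lit 659364033045) (nat_lit 7) (nat_lit 4) (nat_lit 8) (nat_lit 5) (nat_lit 8) (nat_lit 4) (nat_lit 510) (nat_lit 424) (nat_lit 266))) (XT.nd (nat_lit 78) (nat_lit 0) (nat_lit 0) (XT.lf (nat_lit 0) (nat_lit 1627330184720) (nat_lit 76) (nat_lit 427269663923) (nat_lit 76) (nat_lit 387125336127) (nat_lit 7) (nat_lit 4) (nat_lit 8) (nat_lit 5) (nat_lit 8) (nat_lit 4) (nat_lit 511)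 (nat_lit 424) (nat_lit 265)) (XT.lf (nat_lit 0) (nat_lit 2386391755718) (nat_lit 76) (nat_lit 133252130850) (nat_lit 76) (nat_lit 93107788635) (nat_lit 7) (nat_lit 4) (nat_lit 8) (nat_lit 5) (nat_lit 8) (nat_lit 4) (nat_lit 512) (nat_lit 424) (nat_lit 264))))) (XT.nd (nat_lit 234) (nat_lit 76) (nat_lit 0) (XT.nd (nat_lit 78) (nat_lit 0) (nat_lit 0) (XT.lf (nat_lit 0) (nat_lit 228252127336) (nat_lit 152) (nat_lit 2376491090179) (nat_lit 0) (nat_lit 191081427738) (nat_lit 5) (nat_lit 5) (nat_lit 7) (nat_lit 4) (nat_lit 5) (nat_lit 4) (nat_lit 513) (nat_lit 424) (nat_lit 263)) (XT.nd (nat_lit 78) (nat_lit 0) (nat_lit 0) (XT.lf (nat_lit 0) (nat_lit 580101313066) (nat_lit 152) (nat_lit 1869533209853) (nat_lit 0) (nat_lit 542930602023) (nat_lit 5) (nat_lit 5) (nat_lit 7) (nat_lit 4) (nat_lit 5) (nat_lit 4) (nat_lit 514) (nat_lit 424) (nat_lit 262)) (XT.lf (nat_lit 0) (nat_lit 960098234063) (nat_lit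 152) (nat_lit 1322019112489) (nat_lit 0) (nat_lit 922927512421) (nat_lit 5) (nat_lit 5) (nat_lit 7) (nat_lit 4) (nat_lit 5) (nat_lit 4) (nat_lit 515) (nat_lit 424) (nat_lit 261)))) (XT.nd (nat_lit 156) (nat_lit 76) (nat_lit 0) (XT.nd (nat_lit 78) (nat_lit 0) (nat_lit 0) (XT.lf (nat_lit 0) (nat_lit 1370494723931) (nat_lit 152) (nat_lit 730704270103) (nat_lit 0) (nat_lit 1333323992477) (nat_lit 5) (nat_lit 5) (nat_lit 7) (nat_lit 4) (nat_lit 5) (nat_lit 4) (nat_lit 516) (nat_lit 424) (nat_lit 260)) (XT.lf (nat_lit 0) (nat_lit 1813722761871) (nat_lit 152) (nat_lit 92084594740) (nat_lit 0) (nat_lit 1776552021331) (nat_lit 5) (nat_lit 5) (nat_lit 7) (nat_lit 4) (nat_lit 5) (nat_lit 4) (nat_lit 517) (nat_lit 424) (nat_lit 259))) (XT.nd (nat_lit 78) (nat_lit 0) (nat_lit 0) (XT.lf (nat_lit 0) (nat_lit 629094164441) (nat_lit 76) (nat_lit 1678444449746) (nat_lit 76) (nat_lit 1641273700793) (nat_lit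 4) (nat_lit 4) (nat_lit 5) (nat_lit 5) (nat_lit 5) (nat_lit 4) (nat_lit 518) (nat_lit 424) (nat_lit 258)) (XT.lf (nat_lit 0) (nat_lit 1413203837001) (nat_lit 76) (nat_lit 1430173499297) (nat_lit 76) (nat_lit 1393002742554) (nat_lit 4) (nat_lit 4) (nat_lit 5) (nat_lit 5) (nat_lit 5) (nat_lit 4) (nat_lit 519) (nat_lit 424) (nat_lit 257)))))) (XT.nd (nat_lit 546) (nat_lit 0) (nat_lit 0) (XT.nd (nat_lit 234) (nat_lit 152) (nat_lit 0) (XT.nd (nat_lit 78) (nat_lit 0) (nat_lit 0) (XT.lf (nat_lit 0) (nat_lit 2260041987206) (nat_lit 76) (nat_lit 1162041026011) (nat_lit 76) (nat_lit 1124870262056) (nat_lit 4) (nat_lit 4) (nat_lit 5) (nat_lit 5) (nat_lit 5) (nat_lit 4) (nat_lit 520) (nat_lit 424) (nat_lit 256)) (XT.nd (nat_lit 78) (nat_lit 0) (nat_lit 0) (XT.lf (nat_lit 0) (nat_lit 3174626915204) (nat_lit 76) (nat_lit 872458096713) (nat_lit 76) (nat_lit 835287326079) (nat_lit 4) (nat_lit 4) (nat_lit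 5) (nat_lit 5) (nat_lit 5) (nat_lit 4) (nat_lit 521) (nat_lit 424) (nat_lit 255)) (XT.lf (nat_lit 0) (nat_lit 4162378383532) (nat_lit 76) (nat_lit 559708664415) (nat_lit 76) (nat_lit 522537887597) (nat_lit 4) (nat_lit 4) (nat_lit 5) (nat_lit 5) (nat_lit 5) (nat_lit 4) (nat_lit 522) (nat_lit 424) (nat_lit 254)))) (XT.nd (nat_lit 156) (nat_lit 0) (nat_lit 0) (XT.nd (nat_lit 78) (nat_lit 152) (nat_lit 0) (XT.lf (nat_lit 0) (nat_lit 5229149734224) (nat_lit 76) (nat_lit 221939399146) (nat_lit 76) (nat_lit 184768616602) (nat_lit 4) (nat_lit 4) (nat_lit 5) (nat_lit 5) (nat_lit 5) (nat_lit 4) (nat_lit 523) (nat_lit 424) (nat_lit 253)) (XT.lf (nat_lit 0) (nat_lit 182838547481) (nat_lit 152) (nat_lit 5725837384436) (nat_lit 0) (nat_lit 148421151328) (nat_lit 2) (nat_lit 5) (nat_lit 4) (nat_lit 4) (nat_lit 2) (nat_lit 4) (nat_lit 524) (nat_lit 424) (nat_lit 252))) (XT.nd (nat_lit 78) (nat_lit 0) (nat_lit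 0) (XT.lf (nat_lit 0) (nat_lit 587045484289) (nat_lit 152) (nat_lit 5370604180185) (nat_lit 0) (nat_lit 552628083591) (nat_lit 2) (nat_lit 5) (nat_lit 4) (nat_lit 4) (nat_lit 2) (nat_lit 4) (nat_lit 525) (nat_lit 424) (nat_lit 251)) (XT.lf (nat_lit 0) (nat_lit 1023588876255) (nat_lit 152) (nat_lit 4986952526451) (nat_lit 0) (nat_lit 989171471348) (nat_lit 2) (nat_lit 5) (nat_lit 4) (nat_lit 4) (nat_lit 2) (nat_lit 4) (nat_lit 526) (nat_lit 424) (nat_lit 250))))) (XT.nd (nat_lit 312) (nat_lit 0) (nat_lit 0) (XT.nd (nat_lit 156) (nat_lit 0) (nat_lit 0) (XT.nd (nat_lit 78) (nat_lit 0) (nat_lit 0) (XT.lf (nat_lit 0) (nat_lit 1495055647183) (nat_lit 152) (nat_lit 4572608931952) (nat_lit 0) (nat_lit 1460638238379) (nat_lit 2) (nat_lit 5) (nat_lit 4) (nat_lit 4) (nat_lit 2) (nat_lit 4) (nat_lit 527) (nat_lit 424) (nat_lit 249)) (XT.lf (nat_lit 0) (nat_lit 2004239674234) (nat_lit 152) (nat_lit 4125118027240)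 (nat_lit 0) (nat_lit 1969822261822) (nat_lit 2) (nat_lit 5) (nat_lit 4) (nat_lit 4) (nat_lit 2) (nat_lit 4) (nat_lit 528) (nat_lit 424) (nat_lit 248))) (XT.nd (nat_lit 78) (nat_lit 0) (nat_lit 0) (XT.lf (nat_lit 0) (nat_lit 2554158344234) (nat_lit 152) (nat_lit 3641828014359) (nat_lit 0) (nat_lit 2519740928482) (nat_lit 2) (nat_lit 5) (nat_lit 4) (nat_lit 4) (nat_lit 2) (nat_lit 4) (nat_lit 529) (nat_lit 424) (nat_lit 247)) (XT.lf (nat_lit 0) (nat_lit 3148070434489) (nat_lit 152) (nat_lit 3119874952494) (nat_lit 0) (nat_lit 3113653015643) (nat_lit 2) (nat_lit 5) (nat_lit 4) (nat_lit 4) (nat_lit 2) (nat_lit 4) (nat_lit 530) (nat_lit 424) (nat_lit 246)))) (XT.nd (nat_lit 156) (nat_lit 0) (nat_lit 0) (XT.nd (nat_lit 78) (nat_lit 0) (nat_lit 0) (XT.lf (nat_lit 0) (nat_lit 3789495424051) (nat_lit 152) (nat_lit 2556165786463) (nat_lit 0) (nat_lit 3755078002340) (nat_lit 2) (nat_lit 5) (nat_lit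 4) (nat_lit 4) (nat_lit 2) (nat_lit 4) (nat_lit 531) (nat_lit 424) (nat_lit 245)) (XT.lf (nat_lit 0) (nat_lit 4482234349895) (nat_lit 152) (nat_lit 1947360017504) (nat_lit 0) (nat_lit 4447816925532) (nat_lit 2) (nat_lit 5) (nat_lit 4) (nat_lit 4) (nat_lit 2) (nat_lit 4) (nat_lit 532) (nat_lit 424) (nat_lit 244))) (XT.nd (nat_lit 78) (nat_lit 0) (nat_lit 0) (XT.lf (nat_lit 0) (nat_lit 5230392331581) (nat_lit 152) (nat_lit 1289849907727) (nat_lit 0) (nat_lit 5195974904763) (nat_lit 2) (nat_lit 5) (nat_lit 4) (nat_lit 4) (nat_lit 2) (nat_lit 4) (nat_lit 533) (nat_lit 424) (nat_lit 243)) (XT.lf (nat_lit 0) (nat_lit 6038402897891) (nat_lit 152) (nat_lit 579739100926) (nat_lit 0) (nat_lit 6003985468799) (nat_lit 2) (nat_lit 5) (nat_lit 4) (nat_lit 4) (nat_lit 2) (nat_lit 4) (nat_lit 534) (nat_lit 424) (nat_lit 242))))))))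
noncomputable def xc150 : XT := (XT.nd (nat_lit 55536) (nat_lit 0) (nat_lit 2356) (XT.nd (nat_lit 54444) (nat_lit 0) (nat_lit 4636) (XT.nd (nat_lit 53898) (nat_lit 0) (nat_lit 6536) (XT.nd (nat_lit 234) (nat_lit 0) (nat_lit 0) (XT.nd (nat_lit 78) (nat_lit 0) (nat_lit 0) (XT.lf (nat_lit 0) (nat_lit 197037058614) (nat_lit 76) (nat_lit 6718755946971) (nat_lit 76) (nat_lit 6684338515774) (nat_lit 1) (nat_lit 4) (nat_lit 2) (nat_lit 5) (nat_lit 2) (nat_lit 4) (nat_lit 535) (nat_lit 424) (nat_lit 241)) (XT.nd (nat_lit 78) (nat_lit 0) (nat_lit 0) (XT.lf (nat_lit 0) (nat_lit 1068925486422) (nat_lit 76) (nat_lit 6810299881233) (nat_lit 76) (nat_lit 6775882448086) (nat_lit 1) (nat_lit 4) (nat_lit 2) (nat_lit 5) (nat_lit 2) (nat_lit 4) (nat_lit 536) (nat_lit 424) (nat_lit 240)) (XT.lf (nat_lit 0) (nat_lit 2010564895066) (nat_lit 76) (nat_lit 6909167378581) (nat_lit 76) (nat_lit 6874749943629) (nat_lit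 1) (nat_lit 4) (nat_lit 2) (nat_lit 5) (nat_lit 2) (nat_lit 4) (nat_lit 537) (nat_lit 424) (nat_lit 239)))) (XT.nd (nat_lit 156) (nat_lit 0) (nat_lit 0) (XT.nd (nat_lit 78) (nat_lit 0) (nat_lit 0) (XT.lf (nat_lit 0) (nat_lit 3027535369929) (nat_lit 76) (nat_lit 7015944320482) (nat_lit 76) (nat_lit 6981526883859) (nat_lit 1) (nat_lit 4) (nat_lit 2) (nat_lit 5) (nat_lit 2) (nat_lit 4) (nat_lit 538) (nat_lit 424) (nat_lit 238)) (XT.lf (nat_lit 0) (nat_lit 4125863402716) (nat_lit 76) (nat_lit 7131263459184) (nat_lit 76) (nat_lit 7096846021014) (nat_lit 1) (nat_lit 4) (nat_lit 2) (nat_lit 5) (nat_lit 2) (nat_lit 4) (nat_lit 539) (nat_lit 424) (nat_lit 237))) (XT.nd (nat_lit 78) (nat_lit 0) (nat_lit 0) (XT.lf (nat_lit 0) (nat_lit 5312057603991) (nat_lit 76) (nat_lit 7255808167361) (nat_lit 76) (nat_lit 7221390727758) (nat_lit 1) (nat_lit 4) (nat_lit 2) (nat_lit 5) (nat_lit 2) (nat_lit 4) (nat_lit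 540) (nat_lit 424) (nat_lit 236)) (XT.lf (nat_lit 0) (nat_lit 6593147272724) (nat_lit 76) (nat_lit 7390316487728) (nat_lit 76) (nat_lit 7355899046798) (nat_lit 1) (nat_lit 4) (nat_lit 2) (nat_lit 5) (nat_lit 2) (nat_lit 4) (nat_lit 541) (nat_lit 424) (nat_lit 235))))) (XT.nd (nat_lit 234) (nat_lit 456) (nat_lit 0) (XT.nd (nat_lit 78) (nat_lit 0) (nat_lit 0) (XT.lf (nat_lit 0) (nat_lit 13368098903) (nat_lit 532) (nat_lit 280739904) (nat_lit 532) (nat_lit 280739904) (nat_lit 93) (nat_lit 3) (nat_lit 100) (nat_lit 3) (nat_lit 100) (nat_lit 5) (nat_lit 425) (nat_lit 425) (nat_lit 350)) (XT.nd (nat_lit 78) (nat_lit 0) (nat_lit 0) (XT.lf (nat_lit 76) (nat_lit 14013487303) (nat_lit 0) (nat_lit 14209121908) (nat_lit 532) (nat_lit 717546765) (nat_lit 94) (nat_lit 5) (nat_lit 93) (nat_lit 3) (nat_lit 100) (nat_lit 5) (nat_lit 426) (nat_lit 425) (nat_lit 349)) (XT.lf (nat_lit 76) (nat_lit 29781836887)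 (nat_lit 0) (nat_lit 53341420) (nat_lit 532) (nat_lit 271877591) (nat_lit 94) (nat_lit 5) (nat_lit 93) (nat_lit 3) (nat_lit 100) (nat_lit 5) (nat_lit 427) (nat_lit 425) (nat_lit 348)))) (XT.nd (nat_lit 156) (nat_lit 0) (nat_lit 76) (XT.nd (nat_lit 78) (nat_lit 0) (nat_lit 0) (XT.lf (nat_lit 0) (nat_lit 958771278) (nat_lit 532) (nat_lit 15465559437) (nat_lit 608) (nat_lit 14881790764) (nat_lit 87) (nat_lit 5) (nat_lit 94) (nat_lit 5) (nat_lit 95) (nat_lit 5) (nat_lit 428) (nat_lit 425) (nat_lit 347)) (XT.lf (nat_lit 76) (nat_lit 740941242) (nat_lit 0) (nat_lit 1553396321) (nat_lit 608) (nat_lit 30304518335) (nat_lit 88) (nat_lit 5) (nat_lit 87) (nat_lit 5) (nat_lit 95) (nat_lit 5) (nat_lit 429) (nat_lit 425) (nat_lit 346))) (XT.nd (nat_lit 78) (nat_lit 0) (nat_lit 0) (XT.lf (nat_lit 0) (nat_lit 4512765671) (nat_lit 532) (nat_lit 15203159837) (nat_lit 608) (nat_lit 14217003023) (nat_lit 88)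 (nat_lit 5) (nat_lit 95) (nat_lit 5) (nat_lit 96) (nat_lit 5) (nat_lit 430) (nat_lit 425) (nat_lit 345)) (XT.lf (nat_lit 76) (nat_lit 2882644524) (nat_lit 0) (nat_lit 4129475640) (nat_lit 608) (nat_lit 28353331367) (nat_lit 89) (nat_lit 5) (nat_lit 88) (nat_lit 5) (nat_lit 96) (nat_lit 5) (nat_lit 431) (nat_lit 425) (nat_lit 344)))))) (XT.nd (nat_lit 546) (nat_lit 988) (nat_lit 0) (XT.nd (nat_lit 234) (nat_lit 532) (nat_lit 0) (XT.nd (nat_lit 78) (nat_lit 532) (nat_lit 0) (XT.lf (nat_lit 0) (nat_lit 10437566096) (nat_lit 532) (nat_lit 13921261803) (nat_lit 76) (nat_lit 12495657698) (nat_lit 89) (nat_lit 5) (nat_lit 96) (nat_lit 5) (nat_lit 90) (nat_lit 5) (nat_lit 432) (nat_lit 425) (nat_lit 343)) (XT.nd (nat_lit 78) (nat_lit 0) (nat_lit 0) (XT.lf (nat_lit 0) (nat_lit 6329438187) (nat_lit 532) (nat_lit 8061662098) (nat_lit 608) (nat_lit 24051218519) (nat_lit 82) (nat_lit 5) (nat_lit 89)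 (nat_lit 5) (nat_lit 90) (nat_lit 5) (nat_lit 433) (nat_lit 425) (nat_lit 342)) (XT.lf (nat_lit 0) (nat_lit 19275711215) (nat_lit 608) (nat_lit 11379545570) (nat_lit 76) (nat_lit 9452738939) (nat_lit 82) (nat_lit 5) (nat_lit 90) (nat_lit 5) (nat_lit 83) (nat_lit 5) (nat_lit 434) (nat_lit 425) (nat_lit 341)))) (XT.nd (nat_lit 156) (nat_lit 304) (nat_lit 0) (XT.nd (nat_lit 78) (nat_lit 0) (nat_lit 0) (XT.lf (nat_lit 0) (nat_lit 11366650048) (nat_lit 228) (nat_lit 13662439712) (nat_lit 304) (nat_lit 16839597672) (nat_lit 79) (nat_lit 5) (nat_lit 82) (nat_lit 5) (nat_lit 83) (nat_lit 5) (nat_lit 435) (nat_lit 425) (nat_lit 340)) (XT.lf (nat_lit 0) (nat_lit 31670210061) (nat_lit 304) (nat_lit 7291753959) (nat_lit 76) (nat_lit 4774073234) (nat_lit 79) (nat_lit 5) (nat_lit 83) (nat_lit 5) (nat_lit 80) (nat_lit 5) (nat_lit 436) (nat_lit 425) (nat_lit 339))) (XT.nd (nat_lit 78) (nat_lit 76) (nat_lit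 0) (XT.lf (nat_lit 0) (nat_lit 18332702916) (nat_lit 228) (nat_lit 21301486820) (nat_lit 304) (nat_lit 6055260200) (nat_lit 76) (nat_lit 5) (nat_lit 79) (nat_lit 5) (nat_lit 80) (nat_lit 5) (nat_lit 437) (nat_lit 425) (nat_lit 338)) (XT.lf (nat_lit 0) (nat_lit 614774132) (nat_lit 304) (nat_lit 1381999582) (nat_lit 76) (nat_lit 45785487951) (nat_lit 75) (nat_lit 5) (nat_lit 79) (nat_lit 5) (nat_lit 76) (nat_lit 5) (nat_lit 438) (nat_lit 425) (nat_lit 337))))) (XT.nd (nat_lit 234) (nat_lit 532) (nat_lit 0) (XT.nd (nat_lit 78) (nat_lit 228) (nat_lit 0) (XT.lf (nat_lit 0) (nat_lit 8633473353) (nat_lit 304) (nat_lit 22546654069) (nat_lit 76) (nat_lit 18758412635) (nat_lit 72) (nat_lit 5) (nat_lit 76) (nat_lit 5) (nat_lit 73) (nat_lit 5) (nat_lit 439) (nat_lit 425) (nat_lit 336)) (XT.nd (nat_lit 78) (nat_lit 0) (nat_lit 0) (XT.lf (nat_lit 0) (nat_lit 6552161864) (nat_lit 228) (nat_lit 10986068918)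 (nat_lit 304) (nat_lit 34709525291) (nat_lit 69) (nat_lit 5) (nat_lit 72) (nat_lit 5) (nat_lit 73) (nat_lit 5) (nat_lit 440) (nat_lit 425) (nat_lit 335)) (XT.lf (nat_lit 0) (nat_lit 28044634869) (nat_lit 304) (nat_lit 15712449397) (nat_lit 76) (nat_lit 10913484134) (nat_lit 69) (nat_lit 5) (nat_lit 73) (nat_lit 5) (nat_lit 70) (nat_lit 5) (nat_lit 441) (nat_lit 425) (nat_lit 334)))) (XT.nd (nat_lit 156) (nat_lit 380) (nat_lit 0) (XT.nd (nat_lit 78) (nat_lit 0) (nat_lit 0) (XT.lf (nat_lit 0) (nat_lit 17241999327) (nat_lit 152) (nat_lit 22846318147) (nat_lit 228) (nat_lit 17143147231) (nat_lit 67) (nat_lit 5) (nat_lit 69) (nat_lit 5) (nat_lit 70) (nat_lit 5) (nat_lit 442) (nat_lit 425) (nat_lit 333)) (XT.lf (nat_lit 0) (nat_lit 53526789911) (nat_lit 228) (nat_lit 6245935243) (nat_lit 76) (nat_lit 190004210) (nat_lit 67) (nat_lit 5) (nat_lit 70) (nat_lit 5) (nat_lit 68) (nat_lit 5) (nat_lit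 443) (nat_lit 425) (nat_lit 332))) (XT.nd (nat_lit 78) (nat_lit 152) (nat_lit 0) (XT.lf (nat_lit 0) (nat_lit 6245974475) (nat_lit 228) (nat_lit 31805388964) (nat_lit 76) (nat_lit 24741294393) (nat_lit 64) (nat_lit 5) (nat_lit 67) (nat_lit 5) (nat_lit 65) (nat_lit 5) (nat_lit 444) (nat_lit 425) (nat_lit 331)) (XT.lf (nat_lit 0) (nat_lit 5834993006) (nat_lit 152) (nat_lit 14072407590) (nat_lit 228) (nat_lit 45903193456) (nat_lit 62) (nat_lit 5) (nat_lit 64) (nat_lit 5) (nat_lit 65) (nat_lit 5) (nat_lit 445) (nat_lit 425) (nat_lit 330))))))) (XT.nd (nat_lit 1092) (nat_lit 1140) (nat_lit 0) (XT.nd (nat_lit 546) (nat_lit 608) (nat_lit 0) (XT.nd (nat_lit 234) (nat_lit 380) (nat_lit 0) (XT.nd (nat_lit 78) (nat_lit 152) (nat_lit 0) (XT.lf (nat_lit 0) (nat_lit 35835533893) (nat_lit 228) (nat_lit 21016359310) (nat_lit 76) (nat_lit 12124168713) (nat_lit 62) (nat_lit 5) (nat_lit 65) (nat_lit 5) (nat_lit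 63) (nat_lit 5) (nat_lit 446) (nat_lit 425) (nat_lit 329)) (XT.nd (nat_lit 78) (nat_lit 0) (nat_lit 0) (XT.lf (nat_lit 0) (nat_lit 21779536917) (nat_lit 152) (nat_lit 32145105373) (nat_lit 228) (nat_lit 18399187149) (nat_lit 60) (nat_lit 5) (nat_lit 62) (nat_lit 5) (nat_lit 63) (nat_lit 5) (nat_lit 447) (nat_lit 425) (nat_lit 328)) (XT.lf (nat_lit 0) (nat_lit 69190358407) (nat_lit 152) (nat_lit 4842650989) (nat_lit 228) (nat_lit 1860638733) (nat_lit 60) (nat_lit 5) (nat_lit 62) (nat_lit 5) (nat_lit 63) (nat_lit 5) (nat_lit 448) (nat_lit 425) (nat_lit 327)))) (XT.nd (nat_lit 156) (nat_lit 76) (nat_lit 0) (XT.nd (nat_lit 78) (nat_lit 152) (nat_lit 0) (XT.lf (nat_lit 0) (nat_lit 16846459190) (nat_lit 152) (nat_lit 37889843872) (nat_lit 76) (nat_lit 24850291443) (nat_lit 58) (nat_lit 5) (nat_lit 60) (nat_lit 5) (nat_lit 59) (nat_lit 5) (nat_lit 449) (nat_lit 425) (nat_lit 326)) (XT.lf (nat_lit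 0) (nat_lit 11165525709) (nat_lit 152) (nat_lit 26364113684) (nat_lit 228) (nat_lit 45995068086) (nat_lit 56) (nat_lit 5) (nat_lit 58) (nat_lit 5) (nat_lit 59) (nat_lit 5) (nat_lit 450) (nat_lit 425) (nat_lit 325))) (XT.nd (nat_lit 78) (nat_lit 76) (nat_lit 0) (XT.lf (nat_lit 0) (nat_lit 61030967960) (nat_lit 228) (nat_lit 21528522779) (nat_lit 76) (nat_lit 5125299362) (nat_lit 56) (nat_lit 5) (nat_lit 59) (nat_lit 5) (nat_lit 57) (nat_lit 4) (nat_lit 451) (nat_lit 425) (nat_lit 324)) (XT.lf (nat_lit 0) (nat_lit 34401082386) (nat_lit 76) (nat_lit 53521345383) (nat_lit 152) (nat_lit 4134449681) (nat_lit 55) (nat_lit 5) (nat_lit 56) (nat_lit 5) (nat_lit 57) (nat_lit 4) (nat_lit 452) (nat_lit 425) (nat_lit 323))))) (XT.nd (nat_lit 234) (nat_lit 304) (nat_lit 0) (XT.nd (nat_lit 78) (nat_lit 228) (nat_lit 0) (XT.lf (nat_lit 0) (nat_lit 19778494822) (nat_lit 152) (nat_lit 1206638083) (nat_lit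 76) (nat_lit 75706613659) (nat_lit 54) (nat_lit 5) (nat_lit 56) (nat_lit 5) (nat_lit 55) (nat_lit 5) (nat_lit 453) (nat_lit 425) (nat_lit 322)) (XT.nd (nat_lit 78) (nat_lit 76) (nat_lit 0) (XT.lf (nat_lit 0) (nat_lit 47271625677) (nat_lit 228) (nat_lit 39161894608) (nat_lit 76) (nat_lit 15104052473) (nat_lit 52) (nat_lit 5) (nat_lit 55) (nat_lit 5) (nat_lit 53) (nat_lit 4) (nat_lit 454) (nat_lit 425) (nat_lit 321)) (XT.lf (nat_lit 0) (nat_lit 25048491536) (nat_lit 76) (nat_lit 53095148680) (nat_lit 152) (nat_lit 28533070256) (nat_lit 51) (nat_lit 5) (nat_lit 52) (nat_lit 5) (nat_lit 53) (nat_lit 4) (nat_lit 455) (nat_lit 425) (nat_lit 320)))) (XT.nd (nat_lit 156) (nat_lit 76) (nat_lit 0) (XT.nd (nat_lit 78) (nat_lit 152) (nat_lit 0) (XT.lf (nat_lit 0) (nat_lit 392213151) (nat_lit 152) (nat_lit 15531816143) (nat_lit 76) (nat_lit 96216642316) (nat_lit 50) (nat_lit 5) (nat_lit 52) (nat_lit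 5) (nat_lit 51) (nat_lit 5) (nat_lit 456) (nat_lit 425) (nat_lit 319)) (XT.lf (nat_lit 0) (nat_lit 32121349018) (nat_lit 228) (nat_lit 60499029711) (nat_lit 76) (nat_lit 25199572947) (nat_lit 48) (nat_lit 5) (nat_lit 51) (nat_lit 5) (nat_lit 49) (nat_lit 4) (nat_lit 457) (nat_lit 425) (nat_lit 318))) (XT.nd (nat_lit 78) (nat_lit 0) (nat_lit 0) (XT.lf (nat_lit 0) (nat_lit 13197990935) (nat_lit 76) (nat_lit 54355820947) (nat_lit 152) (nat_lit 56306562633) (nat_lit 47) (nat_lit 5) (nat_lit 48) (nat_lit 5) (nat_lit 49) (nat_lit 4) (nat_lit 458) (nat_lit 425) (nat_lit 317)) (XT.lf (nat_lit 0) (nat_lit 96228315876) (nat_lit 76) (nat_lit 11245035292) (nat_lit 152) (nat_lit 22778481722) (nat_lit 47) (nat_lit 5) (nat_lit 48) (nat_lit 5) (nat_lit 49) (nat_lit 4) (nat_lit 459) (nat_lit 425) (nat_lit 316)))))) (XT.nd (nat_lit 546) (nat_lit 608) (nat_lit 0) (XT.nd (nat_lit 234) (nat_lit 304) (nat_lit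 0) (XT.nd (nat_lit 78) (nat_lit 76) (nat_lit 0) (XT.lf (nat_lit 0) (nat_lit 14873692526) (nat_lit 152) (nat_lit 86950126687) (nat_lit 76) (nat_lit 35135844899) (nat_lit 45) (nat_lit 5) (nat_lit 47) (nat_lit 5) (nat_lit 46) (nat_lit 4) (nat_lit 460) (nat_lit 425) (nat_lit 315)) (XT.nd (nat_lit 78) (nat_lit 76) (nat_lit 0) (XT.lf (nat_lit 0) (nat_lit 55552344618) (nat_lit 152) (nat_lit 2340369463) (nat_lit 76) (nat_lit 86164481200) (nat_lit 45) (nat_lit 5) (nat_lit 47) (nat_lit 5) (nat_lit 46) (nat_lit 4) (nat_lit 461) (nat_lit 425) (nat_lit 314)) (XT.lf (nat_lit 0) (nat_lit 93723873407) (nat_lit 76) (nat_lit 8014022060) (nat_lit 152) (nat_lit 49804424992) (nat_lit 44) (nat_lit 5) (nat_lit 45) (nat_lit 5) (nat_lit 46) (nat_lit 4) (nat_lit 462) (nat_lit 425) (nat_lit 313)))) (XT.nd (nat_lit 156) (nat_lit 152) (nat_lit 0) (XT.nd (nat_lit 78) (nat_lit 76) (nat_lit 0) (XT.lf (nat_lit 0) (nat_lit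 38819916661) (nat_lit 76) (nat_lit 114899016900) (nat_lit 76) (nat_lit 5739270675) (nat_lit 43) (nat_lit 4) (nat_lit 44) (nat_lit 5) (nat_lit 44) (nat_lit 4) (nat_lit 463) (nat_lit 425) (nat_lit 312)) (XT.lf (nat_lit 0) (nat_lit 41586175270) (nat_lit 152) (nat_lit 22661853476) (nat_lit 76) (nat_lit 103532517165) (nat_lit 42) (nat_lit 5) (nat_lit 44) (nat_lit 5) (nat_lit 43) (nat_lit 4) (nat_lit 464) (nat_lit 425) (nat_lit 311))) (XT.nd (nat_lit 78) (nat_lit 76) (nat_lit 0) (XT.lf (nat_lit 0) (nat_lit 87371755310) (nat_lit 76) (nat_lit 7115795184) (nat_lit 152) (nat_lit 82101201637) (nat_lit 41) (nat_lit 5) (nat_lit 42) (nat_lit 5) (nat_lit 43) (nat_lit 4) (nat_lit 465) (nat_lit 425) (nat_lit 310)) (XT.lf (nat_lit 0) (nat_lit 21172459233) (nat_lit 76) (nat_lit 132904982989) (nat_lit 76) (nat_lit 31827660136) (nat_lit 40) (nat_lit 4) (nat_lit 41) (nat_lit 5) (nat_lit 41) (nat_lit 4) (nat_lit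 466) (nat_lit 425) (nat_lit 309))))) (XT.nd (nat_lit 312) (nat_lit 304) (nat_lit 0) (XT.nd (nat_lit 156) (nat_lit 152) (nat_lit 0) (XT.nd (nat_lit 78) (nat_lit 76) (nat_lit 0) (XT.lf (nat_lit 0) (nat_lit 24030056899) (nat_lit 152) (nat_lit 51095798125) (nat_lit 76) (nat_lit 120582779917) (nat_lit 39) (nat_lit 5) (nat_lit 41) (nat_lit 5) (nat_lit 40) (nat_lit 4) (nat_lit 467) (nat_lit 425) (nat_lit 308)) (XT.lf (nat_lit 0) (nat_lit 74531277692) (nat_lit 76) (nat_lit 9896854130) (nat_lit 152) (nat_lit 121658882065) (nat_lit 38) (nat_lit 5) (nat_lit 39) (nat_lit 5) (nat_lit 40) (nat_lit 4) (nat_lit 468) (nat_lit 425) (nat_lit 307))) (XT.nd (nat_lit 78) (nat_lit 152) (nat_lit 0) (XT.lf (nat_lit 0) (nat_lit 152546418532) (nat_lit 152) (nat_lit 5564431259) (nat_lit 0) (nat_lit 58953744114) (nat_lit 38) (nat_lit 5) (nat_lit 40) (nat_lit 4) (nat_lit 38) (nat_lit 4) (nat_lit 469) (nat_lit 425) (nat_lit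 306)) (XT.lf (nat_lit 0) (nat_lit 979790024) (nat_lit 152) (nat_lit 91555441509) (nat_lit 76) (nat_lit 136098898043) (nat_lit 36) (nat_lit 5) (nat_lit 38) (nat_lit 5) (nat_lit 37) (nat_lit 4) (nat_lit 470) (nat_lit 425) (nat_lit 305)))) (XT.nd (nat_lit 156) (nat_lit 228) (nat_lit 0) (XT.nd (nat_lit 78) (nat_lit 0) (nat_lit 0) (XT.lf (nat_lit 0) (nat_lit 51212551170) (nat_lit 76) (nat_lit 18406021990) (nat_lit 152) (nat_lit 171265660194) (nat_lit 35) (nat_lit 5) (nat_lit 36) (nat_lit 5) (nat_lit 37) (nat_lit 4) (nat_lit 471) (nat_lit 425) (nat_lit 304)) (XT.lf (nat_lit 0) (nat_lit 147798422939) (nat_lit 152) (nat_lit 44855268337) (nat_lit 0) (nat_lit 61136657054) (nat_lit 35) (nat_lit 5) (nat_lit 37) (nat_lit 4) (nat_lit 35) (nat_lit 4) (nat_lit 472) (nat_lit 425) (nat_lit 303))) (XT.nd (nat_lit 78) (nat_lit 152) (nat_lit 0) (XT.lf (nat_lit 0) (nat_lit 116914881290) (nat_lit 76) (nat_lit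 118606632832) (nat_lit 76) (nat_lit 31944330123) (nat_lit 34) (nat_lit 4) (nat_lit 35) (nat_lit 5) (nat_lit 35) (nat_lit 4) (nat_lit 473) (nat_lit 425) (nat_lit 302)) (XT.lf (nat_lit 0) (nat_lit 11422785451) (nat_lit 76) (nat_lit 35733745904) (nat_lit 152) (nat_lit 234863886927) (nat_lit 32) (nat_lit 5) (nat_lit 33) (nat_lit 5) (nat_lit 34) (nat_lit 4) (nat_lit 474) (nat_lit 425) (nat_lit 301))))))))
noncomputable def xc151 : XT := (XT.nd (nat_lit 2184) (nat_lit 684) (nat_lit 0) (XT.nd (nat_lit 1092) (nat_lit 684) (nat_lit 0) (XT.nd (nat_lit 546) (nat_lit 456) (nat_lit 0) (XT.nd (nat_lit 234) (nat_lit 304) (nat_lit 0) (XT.nd (nat_lit 78) (nat_lit 152) (nat_lit 0) (XT.lf (nat_lit 0) (nat_lit 136375006253) (nat_lit 152) (nat_lit 104725497742) (nat_lit 0) (nat_lit 56131246986) (nat_lit 32) (nat_lit 5) (nat_lit 34) (nat_lit 4) (nat_lit 32) (nat_lit 4) (nat_lit 475) (nat_lit 425) (nat_lit 300))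 (XT.nd (nat_lit 78) (nat_lit 76) (nat_lit 0) (XT.lf (nat_lit 0) (nat_lit 77356011852) (nat_lit 76) (nat_lit 158162561580) (nat_lit 76) (nat_lit 77918407731) (nat_lit 31) (nat_lit 4) (nat_lit 32) (nat_lit 5) (nat_lit 32) (nat_lit 4) (nat_lit 476) (nat_lit 425) (nat_lit 299)) (XT.lf (nat_lit 0) (nat_lit 14008773003) (nat_lit 152) (nat_lit 51106271353) (nat_lit 76) (nat_lit 265566216626) (nat_lit 30) (nat_lit 5) (nat_lit 32) (nat_lit 5) (nat_lit 31) (nat_lit 4) (nat_lit 477) (nat_lit 425) (nat_lit 298)))) (XT.nd (nat_lit 156) (nat_lit 152) (nat_lit 0) (XT.nd (nat_lit 78) (nat_lit 76) (nat_lit 0) (XT.lf (nat_lit 0) (nat_lit 113791831056) (nat_lit 152) (nat_lit 195483401019) (nat_lit 0) (nat_lit 39491037082) (nat_lit 29) (nat_lit 5) (nat_lit 31) (nat_lit 4) (nat_lit 29) (nat_lit 4) (nat_lit 478) (nat_lit 425) (nat_lit 297)) (XT.lf (nat_lit 0) (nat_lit 7383283246) (nat_lit 76) (nat_lit 217475874419)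 (nat_lit 76) (nat_lit 143174790416) (nat_lit 28) (nat_lit 4) (nat_lit 29) (nat_lit 5) (nat_lit 29) (nat_lit 4) (nat_lit 479) (nat_lit 425) (nat_lit 296))) (XT.nd (nat_lit 78) (nat_lit 152) (nat_lit 0) (XT.lf (nat_lit 0) (nat_lit 237594890502) (nat_lit 76) (nat_lit 112560991233) (nat_lit 76) (nat_lit 38259638684) (nat_lit 28) (nat_lit 4) (nat_lit 29) (nat_lit 5) (nat_lit 29) (nat_lit 4) (nat_lit 480) (nat_lit 425) (nat_lit 295)) (XT.lf (nat_lit 0) (nat_lit 73280302311) (nat_lit 152) (nat_lit 332361533464) (nat_lit 0) (nat_lit 4482523420) (nat_lit 26) (nat_lit 5) (nat_lit 28) (nat_lit 4) (nat_lit 26) (nat_lit 4) (nat_lit 481) (nat_lit 425) (nat_lit 294))))) (XT.nd (nat_lit 234) (nat_lit 304) (nat_lit 0) (XT.nd (nat_lit 78) (nat_lit 152) (nat_lit 0) (XT.lf (nat_lit 0) (nat_lit 198830092142) (nat_lit 152) (nat_lit 104055918892) (nat_lit 0) (nat_lit 130032100071) (nat_lit 26) (nat_lit 5) (nat_lit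 28) (nat_lit 4) (nat_lit 26) (nat_lit 4) (nat_lit 482) (nat_lit 425) (nat_lit 293)) (XT.nd (nat_lit 78) (nat_lit 76) (nat_lit 0) (XT.lf (nat_lit 0) (nat_lit 150017086098) (nat_lit 76) (nat_lit 188013946568) (nat_lit 76) (nat_lit 119215757108) (nat_lit 25) (nat_lit 4) (nat_lit 26) (nat_lit 5) (nat_lit 26) (nat_lit 4) (nat_lit 483) (nat_lit 425) (nat_lit 292)) (XT.lf (nat_lit 0) (nat_lit 7522079852) (nat_lit 152) (nat_lit 53152446134) (nat_lit 76) (nat_lit 422604454491) (nat_lit 24) (nat_lit 5) (nat_lit 26) (nat_lit 5) (nat_lit 25) (nat_lit 4) (nat_lit 484) (nat_lit 425) (nat_lit 291)))) (XT.nd (nat_lit 156) (nat_lit 228) (nat_lit 0) (XT.nd (nat_lit 78) (nat_lit 0) (nat_lit 0) (XT.lf (nat_lit 0) (nat_lit 145552524166) (nat_lit 152) (nat_lit 283135784033) (nat_lit 0) (nat_lit 81850170965) (nat_lit 23) (nat_lit 5) (nat_lit 25) (nat_lit 4) (nat_lit 23) (nat_lit 4) (nat_lit 485) (nat_lit 425)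 (nat_lit 290)) (XT.lf (nat_lit 0) (nat_lit 297691705742) (nat_lit 152) (nat_lit 8052520418) (nat_lit 0) (nat_lit 233989207454) (nat_lit 23) (nat_lit 5) (nat_lit 25) (nat_lit 4) (nat_lit 23) (nat_lit 4) (nat_lit 486) (nat_lit 425) (nat_lit 289))) (XT.nd (nat_lit 78) (nat_lit 152) (nat_lit 0) (XT.lf (nat_lit 0) (nat_lit 304256227136) (nat_lit 76) (nat_lit 165062525716) (nat_lit 76) (nat_lit 101359893088) (nat_lit 22) (nat_lit 4) (nat_lit 23) (nat_lit 5) (nat_lit 23) (nat_lit 4) (nat_lit 487) (nat_lit 425) (nat_lit 288)) (XT.lf (nat_lit 0) (nat_lit 38635058014) (nat_lit 76) (nat_lit 10565814596) (nat_lit 152) (nat_lit 554708939392) (nat_lit 20) (nat_lit 5) (nat_lit 21) (nat_lit 5) (nat_lit 22) (nat_lit 4) (nat_lit 488) (nat_lit 425) (nat_lit 287)))))) (XT.nd (nat_lit 546) (nat_lit 380) (nat_lit 0) (XT.nd (nat_lit 234) (nat_lit 228) (nat_lit 0) (XT.nd (nat_lit 78) (nat_lit 76) (nat_lit 0) (XT.lf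 (nat_lit 0) (nat_lit 217562256883) (nat_lit 152) (nat_lit 262549934602) (nat_lit 0) (nat_lit 158578115965) (nat_lit 20) (nat_lit 5) (nat_lit 22) (nat_lit 4) (nat_lit 20) (nat_lit 4) (nat_lit 489) (nat_lit 425) (nat_lit 286)) (XT.nd (nat_lit 78) (nat_lit 0) (nat_lit 0) (XT.lf (nat_lit 0) (nat_lit 67493522397) (nat_lit 76) (nat_lit 333796097194) (nat_lit 76) (nat_lit 274811857532) (nat_lit 19) (nat_lit 4) (nat_lit 20) (nat_lit 5) (nat_lit 20) (nat_lit 4) (nat_lit 490) (nat_lit 425) (nat_lit 285)) (XT.lf (nat_lit 0) (nat_lit 438870723488) (nat_lit 76) (nat_lit 168022453749) (nat_lit 76) (nat_lit 109038122659) (nat_lit 19) (nat_lit 4) (nat_lit 20) (nat_lit 5) (nat_lit 20) (nat_lit 4) (nat_lit 491) (nat_lit 425) (nat_lit 284)))) (XT.nd (nat_lit 156) (nat_lit 76) (nat_lit 0) (XT.nd (nat_lit 78) (nat_lit 0) (nat_lit 0) (XT.lf (nat_lit 0) (nat_lit 68864399316) (nat_lit 152) (nat_lit 675509758499)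 (nat_lit 0) (nat_lit 14249199549) (nat_lit 17) (nat_lit 5) (nat_lit 19) (nat_lit 4) (nat_lit 17) (nat_lit 4) (nat_lit 492) (nat_lit 425) (nat_lit 283)) (XT.lf (nat_lit 0) (nat_lit 267243995566) (nat_lit 152) (nat_lit 323660626858) (nat_lit 0) (nat_lit 212628723220) (nat_lit 17) (nat_lit 5) (nat_lit 19) (nat_lit 4) (nat_lit 17) (nat_lit 4) (nat_lit 493) (nat_lit 425) (nat_lit 282))) (XT.nd (nat_lit 78) (nat_lit 0) (nat_lit 0) (XT.lf (nat_lit 0) (nat_lit 59301918674) (nat_lit 76) (nat_lit 423617748621) (nat_lit 76) (nat_lit 369002409072) (nat_lit 16) (nat_lit 4) (nat_lit 17) (nat_lit 5) (nat_lit 17) (nat_lit 4) (nat_lit 494) (nat_lit 425) (nat_lit 281)) (XT.lf (nat_lit 0) (nat_lit 491307322000) (nat_lit 76) (nat_lit 233391034127) (nat_lit 76) (nat_lit 178775632353) (nat_lit 16) (nat_lit 4) (nat_lit 17) (nat_lit 5) (nat_lit 17) (nat_lit 4) (nat_lit 495) (nat_lit 425) (nat_lit 280))))) (XT.nd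 (nat_lit 234) (nat_lit 228) (nat_lit 0) (XT.nd (nat_lit 78) (nat_lit 76) (nat_lit 0) (XT.lf (nat_lit 0) (nat_lit 25334713629) (nat_lit 152) (nat_lit 1919255040) (nat_lit 76) (nat_lit 931844810507) (nat_lit 15) (nat_lit 5) (nat_lit 17) (nat_lit 5) (nat_lit 16) (nat_lit 4) (nat_lit 496) (nat_lit 425) (nat_lit 279)) (XT.nd (nat_lit 78) (nat_lit 0) (nat_lit 0) (XT.lf (nat_lit 0) (nat_lit 252272032097) (nat_lit 152) (nat_lit 563535392507) (nat_lit 0) (nat_lit 201702112895) (nat_lit 14) (nat_lit 5) (nat_lit 16) (nat_lit 4) (nat_lit 14) (nat_lit 4) (nat_lit 497) (nat_lit 425) (nat_lit 278)) (XT.lf (nat_lit 0) (nat_lit 498125638038) (nat_lit 152) (nat_lit 134850941192) (nat_lit 0) (nat_lit 447555673098) (nat_lit 14) (nat_lit 5) (nat_lit 16) (nat_lit 4) (nat_lit 14) (nat_lit 4) (nat_lit 498) (nat_lit 425) (nat_lit 277)))) (XT.nd (nat_lit 156) (nat_lit 152) (nat_lit 0) (XT.nd (nat_lit 78) (nat_lit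 0) (nat_lit 0) (XT.lf (nat_lit 0) (nat_lit 345406050562) (nat_lit 76) (nat_lit 426548105589) (nat_lit 76) (nat_lit 375978098299) (nat_lit 13) (nat_lit 4) (nat_lit 14) (nat_lit 5) (nat_lit 14) (nat_lit 4) (nat_lit 499) (nat_lit 425) (nat_lit 276)) (XT.lf (nat_lit 0) (nat_lit 871751889844) (nat_lit 76) (nat_lit 199623739745) (nat_lit 76) (nat_lit 149053693243) (nat_lit 13) (nat_lit 4) (nat_lit 14) (nat_lit 5) (nat_lit 14) (nat_lit 4) (nat_lit 500) (nat_lit 425) (nat_lit 275))) (XT.nd (nat_lit 78) (nat_lit 0) (nat_lit 0) (XT.lf (nat_lit 0) (nat_lit 95988691029) (nat_lit 152) (nat_lit 1153006768185) (nat_lit 0) (nat_lit 49164540280) (nat_lit 11) (nat_lit 5) (nat_lit 13) (nat_lit 4) (nat_lit 11) (nat_lit 4) (nat_lit 501) (nat_lit 425) (nat_lit 274)) (XT.lf (nat_lit 0) (nat_lit 367547438471) (nat_lit 152) (nat_lit 692331453794) (nat_lit 0) (nat_lit 320723256593) (nat_lit 11) (nat_lit 5) (nat_lit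 13) (nat_lit 4) (nat_lit 11) (nat_lit 4) (nat_lit 502) (nat_lit 425) (nat_lit 273))))))) (XT.nd (nat_lit 1092) (nat_lit 228) (nat_lit 0) (XT.nd (nat_lit 546) (nat_lit 228) (nat_lit 0) (XT.nd (nat_lit 234) (nat_lit 152) (nat_lit 0) (XT.nd (nat_lit 78) (nat_lit 76) (nat_lit 0) (XT.lf (nat_lit 0) (nat_lit 660830543067) (nat_lit 152) (nat_lit 194802822149) (nat_lit 0) (nat_lit 614006332367) (nat_lit 11) (nat_lit 5) (nat_lit 13) (nat_lit 4) (nat_lit 11) (nat_lit 4) (nat_lit 503) (nat_lit 425) (nat_lit 272)) (XT.nd (nat_lit 78) (nat_lit 0) (nat_lit 0) (XT.lf (nat_lit 0) (nat_lit 360564332786) (nat_lit 76) (nat_lit 625683226860) (nat_lit 76) (nat_lit 578858989472) (nat_lit 10) (nat_lit 4) (nat_lit 11) (nat_lit 5) (nat_lit 11) (nat_lit 4) (nat_lit 504) (nat_lit 425) (nat_lit 271)) (XT.lf (nat_lit 0) (nat_lit 971438830356) (nat_lit 76) (nat_lit 371585052449) (nat_lit 76) (nat_lit 324760790351) (nat_lit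 10) (nat_lit 4) (nat_lit 11) (nat_lit 5) (nat_lit 11) (nat_lit 4) (nat_lit 505) (nat_lit 425) (nat_lit 270)))) (XT.nd (nat_lit 156) (nat_lit 0) (nat_lit 0) (XT.nd (nat_lit 78) (nat_lit 152) (nat_lit 0) (XT.lf (nat_lit 0) (nat_lit 1631182696188) (nat_lit 76) (nat_lit 97159329403) (nat_lit 76) (nat_lit 50335044425) (nat_lit 10) (nat_lit 4) (nat_lit 11) (nat_lit 5) (nat_lit 11) (nat_lit 4) (nat_lit 506) (nat_lit 425) (nat_lit 269)) (XT.lf (nat_lit 0) (nat_lit 250092899098) (nat_lit 152) (nat_lit 1439829005406) (nat_lit 0) (nat_lit 206737060058) (nat_lit 8) (nat_lit 5) (nat_lit 10) (nat_lit 4) (nat_lit 8) (nat_lit 4) (nat_lit 507) (nat_lit 425) (nat_lit 268))) (XT.nd (nat_lit 78) (nat_lit 0) (nat_lit 0) (XT.lf (nat_lit 0) (nat_lit 578496530014) (nat_lit 152) (nat_lit 909804747410) (nat_lit 0) (nat_lit 535140672811) (nat_lit 8) (nat_lit 5) (nat_lit 10) (nat_lit 4) (nat_lit 8) (nat_lit 4) (nat_lit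 508) (nat_lit 425) (nat_lit 267)) (XT.lf (nat_lit 0) (nat_lit 933172199787) (nat_lit 152) (nat_lit 337379069338) (nat_lit 0) (nat_lit 889816325766) (nat_lit 8) (nat_lit 5) (nat_lit 10) (nat_lit 4) (nat_lit 8) (nat_lit 4) (nat_lit 509) (nat_lit 425) (nat_lit 266))))) (XT.nd (nat_lit 234) (nat_lit 152) (nat_lit 0) (XT.nd (nat_lit 78) (nat_lit 0) (nat_lit 0) (XT.lf (nat_lit 0) (nat_lit 295628727216) (nat_lit 76) (nat_lit 1027702840948) (nat_lit 76) (nat_lit 984346951355) (nat_lit 7) (nat_lit 4) (nat_lit 8) (nat_lit 5) (nat_lit 8) (nat_lit 4) (nat_lit 510) (nat_lit 425) (nat_lit 265)) (XT.nd (nat_lit 78) (nat_lit 0) (nat_lit 0) (XT.lf (nat_lit 0) (nat_lit 998463724312) (nat_lit 76) (nat_lit 755464276323) (nat_lit 76) (nat_lit 712108372312) (nat_lit 7) (nat_lit 4) (nat_lit 8) (nat_lit 5) (nat_lit 8) (nat_lit 4) (nat_lit 511) (nat_lit 425) (nat_lit 264)) (XT.lf (nat_lit 0) (nat_lit 1757525086176)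 (nat_lit 76) (nat_lit 461446851326) (nat_lit 76) (nat_lit 418090933965) (nat_lit 7) (nat_lit 4) (nat_lit 8) (nat_lit 5) (nat_lit 8) (nat_lit 4) (nat_lit 512) (nat_lit 425) (nat_lit 263)))) (XT.nd (nat_lit 156) (nat_lit 0) (nat_lit 0) (XT.nd (nat_lit 78) (nat_lit 152) (nat_lit 0) (XT.lf (nat_lit 0) (nat_lit 2577310954212) (nat_lit 76) (nat_lit 143908240474) (nat_lit 76) (nat_lit 100552310752) (nat_lit 7) (nat_lit 4) (nat_lit 8) (nat_lit 5) (nat_lit 8) (nat_lit 4) (nat_lit 513) (nat_lit 425) (nat_lit 262)) (XT.lf (nat_lit 0) (nat_lit 246516191491) (nat_lit 152) (nat_lit 2566602312340) (nat_lit 0) (nat_lit 206371801520) (nat_lit 5) (nat_lit 5) (nat_lit 7) (nat_lit 4) (nat_lit 5) (nat_lit 4) (nat_lit 514) (nat_lit 425) (nat_lit 261))) (XT.nd (nat_lit 78) (nat_lit 0) (nat_lit 0) (XT.lf (nat_lit 0) (nat_lit 626513023637) (nat_lit 152) (nat_lit 2019088398998) (nat_lit 0) (nat_lit 586368623854)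 (nat_lit 5) (nat_lit 5) (nat_lit 7) (nat_lit 4) (nat_lit 5) (nat_lit 4) (nat_lit 515) (nat_lit 425) (nat_lit 260)) (XT.lf (nat_lit 0) (nat_lit 1036909431237) (nat_lit 152) (nat_lit 1427773727004) (nat_lit 0) (nat_lit 996765022368) (nat_lit 5) (nat_lit 5) (nat_lit 7) (nat_lit 4) (nat_lit 5) (nat_lit 4) (nat_lit 516) (nat_lit 425) (nat_lit 259)))))) (XT.nd (nat_lit 546) (nat_lit 152) (nat_lit 0) (XT.nd (nat_lit 234) (nat_lit 0) (nat_lit 0) (XT.nd (nat_lit 78) (nat_lit 76) (nat_lit 0) (XT.lf (nat_lit 0) (nat_lit 1480137393003) (nat_lit 152) (nat_lit 789154209411) (nat_lit 0) (nat_lit 1439992975720) (nat_lit 5) (nat_lit 5) (nat_lit 7) (nat_lit 4) (nat_lit 5) (nat_lit 4) (nat_lit 517) (nat_lit 425) (nat_lit 258)) (XT.nd (nat_lit 78) (nat_lit 76) (nat_lit 0) (XT.lf (nat_lit 0) (nat_lit 1958823445003) (nat_lit 152) (nat_lit 99445434264) (nat_lit 0) (nat_lit 1918679019931) (nat_lit 5) (nat_lit 5)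 (nat_lit 7) (nat_lit 4) (nat_lit 5) (nat_lit 4) (nat_lit 518) (nat_lit 425) (nat_lit 257)) (XT.lf (nat_lit 0) (nat_lit 679427475574) (nat_lit 76) (nat_lit 1812717016878) (nat_lit 76) (nat_lit 1772572584593) (nat_lit 4) (nat_lit 4) (nat_lit 5) (nat_lit 5) (nat_lit 5) (nat_lit 4) (nat_lit 519) (nat_lit 425) (nat_lit 256)))) (XT.nd (nat_lit 156) (nat_lit 0) (nat_lit 0) (XT.nd (nat_lit 78) (nat_lit 0) (nat_lit 0) (XT.lf (nat_lit 0) (nat_lit 1526265493941) (nat_lit 76) (nat_lit 1544584611789) (nat_lit 76) (nat_lit 1504440172826) (nat_lit 4) (nat_lit 4) (nat_lit 5) (nat_lit 5) (nat_lit 5) (nat_lit 4) (nat_lit 520) (nat_lit 425) (nat_lit 255)) (XT.lf (nat_lit 0) (nat_lit 2440850299867) (nat_lit 76) (nat_lit 1255001745637) (nat_lit 76) (nat_lit 1214857300490) (nat_lit 4) (nat_lit 4) (nat_lit 5) (nat_lit 5) (nat_lit 5) (nat_lit 4) (nat_lit 521) (nat_lit 425) (nat_lit 254))) (XT.nd (nat_lit 78) (nat_lit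 0) (nat_lit 0) (XT.lf (nat_lit 0) (nat_lit 3428601655165) (nat_lit 76) (nat_lit 942252371806) (nat_lit 76) (nat_lit 902107920933) (nat_lit 4) (nat_lit 4) (nat_lit 5) (nat_lit 5) (nat_lit 5) (nat_lit 4) (nat_lit 522) (nat_lit 425) (nat_lit 253)) (XT.lf (nat_lit 0) (nat_lit 4495372901201) (nat_lit 76) (nat_lit 604483160675) (nat_lit 76) (nat_lit 564338704501) (nat_lit 4) (nat_lit 4) (nat_lit 5) (nat_lit 5) (nat_lit 5) (nat_lit 4) (nat_lit 523) (nat_lit 425) (nat_lit 252))))) (XT.nd (nat_lit 312) (nat_lit 0) (nat_lit 0) (XT.nd (nat_lit 156) (nat_lit 0) (nat_lit 0) (XT.nd (nat_lit 78) (nat_lit 152) (nat_lit 0) (XT.lf (nat_lit 0) (nat_lit 5647485645357) (nat_lit 76) (nat_lit 239692516918) (nat_lit 76) (nat_lit 199548055834) (nat_lit 4) (nat_lit 4) (nat_lit 5) (nat_lit 5) (nat_lit 5) (nat_lit 4) (nat_lit 524) (nat_lit 425) (nat_lit 251)) (XT.lf (nat_lit 0) (nat_lit 197467578083) (nat_lit 152)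 (nat_lit 6183900339499) (nat_lit 0) (nat_lit 160296776575) (nat_lit 2) (nat_lit 5) (nat_lit 4) (nat_lit 4) (nat_lit 2) (nat_lit 4) (nat_lit 525) (nat_lit 425) (nat_lit 250))) (XT.nd (nat_lit 78) (nat_lit 0) (nat_lit 0) (XT.lf (nat_lit 0) (nat_lit 634010925628) (nat_lit 152) (nat_lit 5800248777849) (nat_lit 0) (nat_lit 596840120224) (nat_lit 2) (nat_lit 5) (nat_lit 4) (nat_lit 4) (nat_lit 2) (nat_lit 4) (nat_lit 526) (nat_lit 425) (nat_lit 249)) (XT.lf (nat_lit 0) (nat_lit 1105477655426) (nat_lit 152) (nat_lit 5385905268612) (nat_lit 0) (nat_lit 1068306846413) (nat_lit 2) (nat_lit 5) (nat_lit 4) (nat_lit 4) (nat_lit 2) (nat_lit 4) (nat_lit 527) (nat_lit 425) (nat_lit 248)))) (XT.nd (nat_lit 156) (nat_lit 0) (nat_lit 0) (XT.nd (nat_lit 78) (nat_lit 0) (nat_lit 0) (XT.lf (nat_lit 0) (nat_lit 1614661644393) (nat_lit 152) (nat_lit 4938414442847) (nat_lit 0) (nat_lit 1577490832039) (nat_lit 2)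 (nat_lit 5) (nat_lit 4) (nat_lit 4) (nat_lit 2) (nat_lit 4) (nat_lit 528) (nat_lit 425) (nat_lit 247)) (XT.lf (nat_lit 0) (nat_lit 2164580279131) (nat_lit 152) (nat_lit 4455124503065) (nat_lit 0) (nat_lit 2127409463684) (nat_lit 2) (nat_lit 5) (nat_lit 4) (nat_lit 4) (nat_lit 2) (nat_lit 4) (nat_lit 529) (nat_lit 425) (nat_lit 246))) (XT.nd (nat_lit 78) (nat_lit 0) (nat_lit 0) (XT.lf (nat_lit 0) (nat_lit 2758492336735) (nat_lit 152) (nat_lit 3933171508884) (nat_lit 0) (nat_lit 2721321518424) (nat_lit 2) (nat_lit 5) (nat_lit 4) (nat_lit 4) (nat_lit 2) (nat_lit 4) (nat_lit 530) (nat_lit 425) (nat_lit 245)) (XT.lf (nat_lit 0) (nat_lit 3399917296065) (nat_lit 152) (nat_lit 3369462405524) (nat_lit 0) (nat_lit 3362746475101) (nat_lit 2) (nat_lit 5) (nat_lit 4) (nat_lit 4) (nat_lit 2) (nat_lit 4) (nat_lit 531) (nat_lit 425) (nat_lit 244))))))))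
noncomputable def xc152 : XT := (XT.nd (nat_lit 55614) (nat_lit 0) (nat_lit 2660) (XT.nd (nat_lit 54522) (nat_lit 0) (nat_lit 5016) (XT.nd (nat_lit 546) (nat_lit 0) (nat_lit 0) (XT.nd (nat_lit 234) (nat_lit 76) (nat_lit 0) (XT.nd (nat_lit 78) (nat_lit 0) (nat_lit 0) (XT.lf (nat_lit 0) (nat_lit 4092656193916) (nat_lit 152) (nat_lit 2760656694593) (nat_lit 0) (nat_lit 4055485370497) (nat_lit 2) (nat_lit 5) (nat_lit 4) (nat_lit 4) (nat_lit 2) (nat_lit 4) (nat_lit 532) (nat_lit 425) (nat_lit 243)) (XT.nd (nat_lit 78) (nat_lit 0) (nat_lit 0) (XT.lf (nat_lit 0) (nat_lit 4840814149684) (nat_lit 152) (nat_lit 2103146638546) (nat_lit 0) (nat_lit 4803643323991) (nat_lit 2) (nat_lit 5) (nat_lit 4) (nat_lit 4) (nat_lit 2) (nat_lit 4) (nat_lit 533) (nat_lit 425) (nat_lit 242)) (XT.lf (nat_lit 0) (nat_lit 5648824691994) (nat_lit 152) (nat_lit 1393035881495) (nat_lit 0) (nat_lit 5611653864196) (nat_lit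 2) (nat_lit 5) (nat_lit 4) (nat_lit 4) (nat_lit 2) (nat_lit 4) (nat_lit 534) (nat_lit 425) (nat_lit 241)))) (XT.nd (nat_lit 156) (nat_lit 0) (nat_lit 0) (XT.nd (nat_lit 78) (nat_lit 76) (nat_lit 0) (XT.lf (nat_lit 0) (nat_lit 6521476031469) (nat_lit 152) (nat_lit 626116359695) (nat_lit 0) (nat_lit 6484305201722) (nat_lit 2) (nat_lit 5) (nat_lit 4) (nat_lit 4) (nat_lit 2) (nat_lit 4) (nat_lit 535) (nat_lit 425) (nat_lit 240)) (XT.lf (nat_lit 0) (nat_lit 212801845285) (nat_lit 76) (nat_lit 7256255479517) (nat_lit 76) (nat_lit 7219084647964) (nat_lit 1) (nat_lit 4) (nat_lit 2) (nat_lit 5) (nat_lit 2) (nat_lit 4) (nat_lit 536) (nat_lit 425) (nat_lit 239))) (XT.nd (nat_lit 78) (nat_lit 0) (nat_lit 0) (XT.lf (nat_lit 0) (nat_lit 1154441212356) (nat_lit 76) (nat_lit 7355122998387) (nat_lit 76) (nat_lit 7317952165162) (nat_lit 1) (nat_lit 4) (nat_lit 2) (nat_lit 5) (nat_lit 2) (nat_lit 4) (nat_lit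 537) (nat_lit 425) (nat_lit 238)) (XT.lf (nat_lit 0) (nat_lit 2171411648727) (nat_lit 76) (nat_lit 7461899960215) (nat_lit 76) (nat_lit 7424729125443) (nat_lit 1) (nat_lit 4) (nat_lit 2) (nat_lit 5) (nat_lit 2) (nat_lit 4) (nat_lit 538) (nat_lit 425) (nat_lit 237))))) (XT.nd (nat_lit 53664) (nat_lit 0) (nat_lit 6536) (XT.nd (nat_lit 78) (nat_lit 0) (nat_lit 0) (XT.lf (nat_lit 0) (nat_lit 3269739645872) (nat_lit 76) (nat_lit 7577219117368) (nat_lit 76) (nat_lit 7540048281164) (nat_lit 1) (nat_lit 4) (nat_lit 2) (nat_lit 5) (nat_lit 2) (nat_lit 4) (nat_lit 539) (nat_lit 425) (nat_lit 236)) (XT.nd (nat_lit 78) (nat_lit 0) (nat_lit 0) (XT.lf (nat_lit 0) (nat_lit 4455933814145) (nat_lit 76) (nat_lit 7701763842630) (nat_lit 76) (nat_lit 7664593005099) (nat_lit 1) (nat_lit 4) (nat_lit 2) (nat_lit 5) (nat_lit 2) (nat_lit 4) (nat_lit 540) (nat_lit 425) (nat_lit 235)) (XT.lf (nat_lit 0) (nat_lit 5737023452321)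 (nat_lit 76) (nat_lit 7836272178816) (nat_lit 76) (nat_lit 7799101340056) (nat_lit 1) (nat_lit 4) (nat_lit 2) (nat_lit 5) (nat_lit 2) (nat_lit 4) (nat_lit 541) (nat_lit 425) (nat_lit 234)))) (XT.nd (nat_lit 156) (nat_lit 456) (nat_lit 0) (XT.nd (nat_lit 78) (nat_lit 0) (nat_lit 0) (XT.lf (nat_lit 0) (nat_lit 14515563071) (nat_lit 532) (nat_lit 261065114) (nat_lit 532) (nat_lit 261065114) (nat_lit 93) (nat_lit 3) (nat_lit 100) (nat_lit 3) (nat_lit 100) (nat_lit 5) (nat_lit 426) (nat_lit 426) (nat_lit 348)) (XT.lf (nat_lit 76) (nat_lit 15216700885) (nat_lit 0) (nat_lit 15410166949) (nat_lit 532) (nat_lit 616765356) (nat_lit 94) (nat_lit 5) (nat_lit 93) (nat_lit 3) (nat_lit 100) (nat_lit 5) (nat_lit 427) (nat_lit 426) (nat_lit 347))) (XT.nd (nat_lit 78) (nat_lit 456) (nat_lit 0) (XT.lf (nat_lit 76) (nat_lit 32240434391) (nat_lit 0) (nat_lit 117159927) (nat_lit 532) (nat_lit 147160066) (nat_lit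 94) (nat_lit 5) (nat_lit 93) (nat_lit 3) (nat_lit 100) (nat_lit 5) (nat_lit 428) (nat_lit 426) (nat_lit 346)) (XT.lf (nat_lit 0) (nat_lit 1165071302) (nat_lit 532) (nat_lit 16609852405) (nat_lit 608) (nat_lit 16025304325) (nat_lit 87) (nat_lit 5) (nat_lit 94) (nat_lit 5) (nat_lit 95) (nat_lit 5) (nat_lit 429) (nat_lit 426) (nat_lit 345)))))) (XT.nd (nat_lit 546) (nat_lit 912) (nat_lit 0) (XT.nd (nat_lit 234) (nat_lit 608) (nat_lit 0) (XT.nd (nat_lit 78) (nat_lit 0) (nat_lit 76) (XT.lf (nat_lit 76) (nat_lit 890815120) (nat_lit 0) (nat_lit 1709246793) (nat_lit 608) (nat_lit 32596914103) (nat_lit 88) (nat_lit 5) (nat_lit 87) (nat_lit 5) (nat_lit 95) (nat_lit 5) (nat_lit 430) (nat_lit 426) (nat_lit 344)) (XT.nd (nat_lit 78) (nat_lit 0) (nat_lit 0) (XT.lf (nat_lit 0) (nat_lit 4986210882) (nat_lit 532) (nat_lit 16325758548) (nat_lit 608) (nat_lit 15326586350) (nat_lit 88) (nat_lit 5) (nat_lit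 95) (nat_lit 5) (nat_lit 96) (nat_lit 5) (nat_lit 431) (nat_lit 426) (nat_lit 343)) (XT.lf (nat_lit 76) (nat_lit 3204539173) (nat_lit 0) (nat_lit 4474842222) (nat_lit 608) (nat_lit 30506790784) (nat_lit 89) (nat_lit 5) (nat_lit 88) (nat_lit 5) (nat_lit 96) (nat_lit 5) (nat_lit 432) (nat_lit 426) (nat_lit 342)))) (XT.nd (nat_lit 156) (nat_lit 228) (nat_lit 0) (XT.nd (nat_lit 78) (nat_lit 532) (nat_lit 0) (XT.lf (nat_lit 0) (nat_lit 11370655330) (nat_lit 532) (nat_lit 14942222454) (nat_lit 76) (nat_lit 13482108700) (nat_lit 89) (nat_lit 5) (nat_lit 96) (nat_lit 5) (nat_lit 90) (nat_lit 5) (nat_lit 433) (nat_lit 426) (nat_lit 341)) (XT.lf (nat_lit 0) (nat_lit 6926185681) (nat_lit 532) (nat_lit 8709195037) (nat_lit 608) (nat_lit 25874873786) (nat_lit 82) (nat_lit 5) (nat_lit 89) (nat_lit 5) (nat_lit 90) (nat_lit 5) (nat_lit 434) (nat_lit 426) (nat_lit 340))) (XT.nd (nat_lit 78) (nat_lit 228)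 (nat_lit 0) (XT.lf (nat_lit 0) (nat_lit 20903814297) (nat_lit 608) (nat_lit 12199256648) (nat_lit 76) (nat_lit 10206671101) (nat_lit 82) (nat_lit 5) (nat_lit 90) (nat_lit 5) (nat_lit 83) (nat_lit 5) (nat_lit 435) (nat_lit 426) (nat_lit 339)) (XT.lf (nat_lit 0) (nat_lit 12364339618) (nat_lit 228) (nat_lit 14748874718) (nat_lit 304) (nat_lit 18098415372) (nat_lit 79) (nat_lit 5) (nat_lit 82) (nat_lit 5) (nat_lit 83) (nat_lit 5) (nat_lit 436) (nat_lit 426) (nat_lit 338))))) (XT.nd (nat_lit 234) (nat_lit 608) (nat_lit 0) (XT.nd (nat_lit 78) (nat_lit 304) (nat_lit 0) (XT.lf (nat_lit 0) (nat_lit 34279711280) (nat_lit 304) (nat_lit 7787360467) (nat_lit 76) (nat_lit 5161769467) (nat_lit 79) (nat_lit 5) (nat_lit 83) (nat_lit 5) (nat_lit 80) (nat_lit 5) (nat_lit 437) (nat_lit 426) (nat_lit 337)) (XT.nd (nat_lit 78) (nat_lit 76) (nat_lit 0) (XT.lf (nat_lit 0) (nat_lit 19884831849) (nat_lit 228) (nat_lit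 22992412996) (nat_lit 304) (nat_lit 6461567839) (nat_lit 76) (nat_lit 5) (nat_lit 79) (nat_lit 5) (nat_lit 80) (nat_lit 5) (nat_lit 438) (nat_lit 426) (nat_lit 336)) (XT.lf (nat_lit 0) (nat_lit 732664988) (nat_lit 304) (nat_lit 1409756471) (nat_lit 76) (nat_lit 49456917863) (nat_lit 75) (nat_lit 5) (nat_lit 79) (nat_lit 5) (nat_lit 76) (nat_lit 5) (nat_lit 439) (nat_lit 426) (nat_lit 335)))) (XT.nd (nat_lit 156) (nat_lit 152) (nat_lit 0) (XT.nd (nat_lit 78) (nat_lit 228) (nat_lit 0) (XT.lf (nat_lit 0) (nat_lit 9390075869) (nat_lit 304) (nat_lit 24264792963) (nat_lit 76) (nat_lit 20273474381) (nat_lit 72) (nat_lit 5) (nat_lit 76) (nat_lit 5) (nat_lit 73) (nat_lit 5) (nat_lit 440) (nat_lit 426) (nat_lit 334)) (XT.lf (nat_lit 0) (nat_lit 7159761322) (nat_lit 228) (nat_lit 11844575673) (nat_lit 304) (nat_lit 37418190119) (nat_lit 69) (nat_lit 5) (nat_lit 72) (nat_lit 5) (nat_lit 73) (nat_lit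 5) (nat_lit 441) (nat_lit 426) (nat_lit 333))) (XT.nd (nat_lit 78) (nat_lit 152) (nat_lit 0) (XT.lf (nat_lit 0) (nat_lit 30347037010) (nat_lit 304) (nat_lit 16887976974) (nat_lit 76) (nat_lit 11804488171) (nat_lit 69) (nat_lit 5) (nat_lit 73) (nat_lit 5) (nat_lit 70) (nat_lit 5) (nat_lit 442) (nat_lit 426) (nat_lit 332)) (XT.lf (nat_lit 0) (nat_lit 18700765158) (nat_lit 152) (nat_lit 24651000901) (nat_lit 228) (nat_lit 18453700344) (nat_lit 67) (nat_lit 5) (nat_lit 69) (nat_lit 5) (nat_lit 70) (nat_lit 5) (nat_lit 443) (nat_lit 426) (nat_lit 331))))))) (XT.nd (nat_lit 1092) (nat_lit 1064) (nat_lit 0) (XT.nd (nat_lit 546) (nat_lit 608) (nat_lit 0) (XT.nd (nat_lit 234) (nat_lit 304) (nat_lit 0) (XT.nd (nat_lit 78) (nat_lit 380) (nat_lit 0) (XT.lf (nat_lit 0) (nat_lit 57861652440) (nat_lit 228) (nat_lit 6668417779) (nat_lit 76) (nat_lit 225455481) (nat_lit 67) (nat_lit 5) (nat_lit 70) (nat_lit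 5) (nat_lit 68) (nat_lit 5) (nat_lit 444) (nat_lit 426) (nat_lit 330)) (XT.nd (nat_lit 78) (nat_lit 152) (nat_lit 0) (XT.lf (nat_lit 0) (nat_lit 6797594939) (nat_lit 228) (nat_lit 34271843003) (nat_lit 76) (nat_lit 26742473286) (nat_lit 64) (nat_lit 5) (nat_lit 67) (nat_lit 5) (nat_lit 65) (nat_lit 5) (nat_lit 445) (nat_lit 426) (nat_lit 329)) (XT.lf (nat_lit 0) (nat_lit 6377795421) (nat_lit 152) (nat_lit 15172120009) (nat_lit 228) (nat_lit 49521528777) (nat_lit 62) (nat_lit 5) (nat_lit 64) (nat_lit 5) (nat_lit 65) (nat_lit 5) (nat_lit 446) (nat_lit 426) (nat_lit 328)))) (XT.nd (nat_lit 156) (nat_lit 152) (nat_lit 0) (XT.nd (nat_lit 78) (nat_lit 152) (nat_lit 0) (XT.lf (nat_lit 0) (nat_lit 38749182175) (nat_lit 228) (nat_lit 22624174432) (nat_lit 76) (nat_lit 13117042536) (nat_lit 62) (nat_lit 5) (nat_lit 65) (nat_lit 5) (nat_lit 63) (nat_lit 5) (nat_lit 447) (nat_lit 426) (nat_lit 327))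 (XT.lf (nat_lit 0) (nat_lit 23593532896) (nat_lit 152) (nat_lit 34690142045) (nat_lit 228) (nat_lit 19822452913) (nat_lit 60) (nat_lit 5) (nat_lit 62) (nat_lit 5) (nat_lit 63) (nat_lit 5) (nat_lit 448) (nat_lit 426) (nat_lit 326))) (XT.nd (nat_lit 78) (nat_lit 152) (nat_lit 0) (XT.lf (nat_lit 0) (nat_lit 74791913955) (nat_lit 152) (nat_lit 5205459588) (nat_lit 228) (nat_lit 1964425750) (nat_lit 60) (nat_lit 5) (nat_lit 62) (nat_lit 5) (nat_lit 63) (nat_lit 5) (nat_lit 449) (nat_lit 426) (nat_lit 325)) (XT.lf (nat_lit 0) (nat_lit 18236038012) (nat_lit 152) (nat_lit 40851497494) (nat_lit 76) (nat_lit 26862635178) (nat_lit 58) (nat_lit 5) (nat_lit 60) (nat_lit 5) (nat_lit 59) (nat_lit 5) (nat_lit 450) (nat_lit 426) (nat_lit 324))))) (XT.nd (nat_lit 234) (nat_lit 380) (nat_lit 0) (XT.nd (nat_lit 78) (nat_lit 76) (nat_lit 0) (XT.lf (nat_lit 0) (nat_lit 12126541301) (nat_lit 152) (nat_lit 28445860390)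 (nat_lit 228) (nat_lit 49631048860) (nat_lit 56) (nat_lit 5) (nat_lit 58) (nat_lit 5) (nat_lit 59) (nat_lit 5) (nat_lit 451) (nat_lit 426) (nat_lit 323)) (XT.nd (nat_lit 78) (nat_lit 76) (nat_lit 0) (XT.lf (nat_lit 0) (nat_lit 65951454373) (nat_lit 228) (nat_lit 23185667088) (nat_lit 76) (nat_lit 5559409061) (nat_lit 56) (nat_lit 5) (nat_lit 59) (nat_lit 5) (nat_lit 57) (nat_lit 4) (nat_lit 452) (nat_lit 426) (nat_lit 322)) (XT.lf (nat_lit 0) (nat_lit 37216657440) (nat_lit 76) (nat_lit 57776284947) (nat_lit 152) (nat_lit 4425545712) (nat_lit 55) (nat_lit 5) (nat_lit 56) (nat_lit 5) (nat_lit 57) (nat_lit 4) (nat_lit 453) (nat_lit 426) (nat_lit 321)))) (XT.nd (nat_lit 156) (nat_lit 152) (nat_lit 0) (XT.nd (nat_lit 78) (nat_lit 152) (nat_lit 0) (XT.lf (nat_lit 0) (nat_lit 21395659586) (nat_lit 152) (nat_lit 1242544882) (nat_lit 76) (nat_lit 81786089365) (nat_lit 54) (nat_lit 5) (nat_lit 56)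 (nat_lit 5) (nat_lit 55) (nat_lit 5) (nat_lit 454) (nat_lit 426) (nat_lit 320)) (XT.lf (nat_lit 0) (nat_lit 51087688007) (nat_lit 228) (nat_lit 42233667507) (nat_lit 76) (nat_lit 16336474960) (nat_lit 52) (nat_lit 5) (nat_lit 55) (nat_lit 5) (nat_lit 53) (nat_lit 4) (nat_lit 455) (nat_lit 426) (nat_lit 319))) (XT.nd (nat_lit 78) (nat_lit 76) (nat_lit 0) (XT.lf (nat_lit 0) (nat_lit 27112000701) (nat_lit 76) (nat_lit 57316353976) (nat_lit 152) (nat_lit 30779833365) (nat_lit 51) (nat_lit 5) (nat_lit 52) (nat_lit 5) (nat_lit 53) (nat_lit 4) (nat_lit 456) (nat_lit 426) (nat_lit 318)) (XT.lf (nat_lit 0) (nat_lit 455152725) (nat_lit 152) (nat_lit 16717485384) (nat_lit 76) (nat_lit 103936761022) (nat_lit 50) (nat_lit 5) (nat_lit 52) (nat_lit 5) (nat_lit 51) (nat_lit 5) (nat_lit 457) (nat_lit 426) (nat_lit 317)))))) (XT.nd (nat_lit 546) (nat_lit 532) (nat_lit 0) (XT.nd (nat_lit 234) (nat_lit 304)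 (nat_lit 0) (XT.nd (nat_lit 78) (nat_lit 76) (nat_lit 0) (XT.lf (nat_lit 0) (nat_lit 34722213061) (nat_lit 228) (nat_lit 65281668521) (nat_lit 76) (nat_lit 27239172619) (nat_lit 48) (nat_lit 5) (nat_lit 51) (nat_lit 5) (nat_lit 49) (nat_lit 4) (nat_lit 458) (nat_lit 426) (nat_lit 316)) (XT.nd (nat_lit 78) (nat_lit 0) (nat_lit 0) (XT.lf (nat_lit 0) (nat_lit 14309663560) (nat_lit 76) (nat_lit 58678644328) (nat_lit 152) (nat_lit 60778480270) (nat_lit 47) (nat_lit 5) (nat_lit 48) (nat_lit 5) (nat_lit 49) (nat_lit 4) (nat_lit 459) (nat_lit 426) (nat_lit 315)) (XT.lf (nat_lit 0) (nat_lit 103978278692) (nat_lit 76) (nat_lit 12120895249) (nat_lit 152) (nat_lit 24570568247) (nat_lit 47) (nat_lit 5) (nat_lit 48) (nat_lit 5) (nat_lit 49) (nat_lit 4) (nat_lit 460) (nat_lit 426) (nat_lit 314)))) (XT.nd (nat_lit 156) (nat_lit 152) (nat_lit 0) (XT.nd (nat_lit 78) (nat_lit 0) (nat_lit 0) (XT.lf (nat_lit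 0) (nat_lit 16091970899) (nat_lit 152) (nat_lit 93852628525) (nat_lit 76) (nat_lit 37969566357) (nat_lit 45) (nat_lit 5) (nat_lit 47) (nat_lit 5) (nat_lit 46) (nat_lit 4) (nat_lit 461) (nat_lit 426) (nat_lit 313)) (XT.lf (nat_lit 0) (nat_lit 60022812716) (nat_lit 152) (nat_lit 2478054301) (nat_lit 76) (nat_lit 93078800683) (nat_lit 45) (nat_lit 5) (nat_lit 47) (nat_lit 5) (nat_lit 46) (nat_lit 4) (nat_lit 462) (nat_lit 426) (nat_lit 312))) (XT.nd (nat_lit 78) (nat_lit 76) (nat_lit 0) (XT.lf (nat_lit 0) (nat_lit 101270073702) (nat_lit 76) (nat_lit 8632348612) (nat_lit 152) (nat_lit 53761243461) (nat_lit 44) (nat_lit 5) (nat_lit 45) (nat_lit 5) (nat_lit 46) (nat_lit 4) (nat_lit 463) (nat_lit 426) (nat_lit 311)) (XT.lf (nat_lit 0) (nat_lit 41974032195) (nat_lit 76) (nat_lit 124067697302) (nat_lit 76) (nat_lit 6171107926) (nat_lit 43) (nat_lit 4) (nat_lit 44) (nat_lit 5) (nat_lit 44) (nat_lit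 4) (nat_lit 464) (nat_lit 426) (nat_lit 310))))) (XT.nd (nat_lit 234) (nat_lit 304) (nat_lit 0) (XT.nd (nat_lit 78) (nat_lit 152) (nat_lit 0) (XT.lf (nat_lit 0) (nat_lit 44937086446) (nat_lit 152) (nat_lit 24428608530) (nat_lit 76) (nat_lit 111835372677) (nat_lit 42) (nat_lit 5) (nat_lit 44) (nat_lit 5) (nat_lit 43) (nat_lit 4) (nat_lit 465) (nat_lit 426) (nat_lit 309)) (XT.nd (nat_lit 78) (nat_lit 76) (nat_lit 0) (XT.lf (nat_lit 0) (nat_lit 94406519510) (nat_lit 76) (nat_lit 7663355952) (nat_lit 152) (nat_lit 88644110647) (nat_lit 41) (nat_lit 5) (nat_lit 42) (nat_lit 5) (nat_lit 43) (nat_lit 4) (nat_lit 466) (nat_lit 426) (nat_lit 308)) (XT.lf (nat_lit 0) (nat_lit 22911450111) (nat_lit 76) (nat_lit 143515351152) (nat_lit 76) (nat_lit 34348855711) (nat_lit 40) (nat_lit 4) (nat_lit 41) (nat_lit 5) (nat_lit 41) (nat_lit 4) (nat_lit 467) (nat_lit 426) (nat_lit 307)))) (XT.nd (nat_lit 156)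 (nat_lit 152) (nat_lit 0) (XT.nd (nat_lit 78) (nat_lit 76) (nat_lit 0) (XT.lf (nat_lit 0) (nat_lit 25974466796) (nat_lit 152) (nat_lit 55140456376) (nat_lit 76) (nat_lit 130248641726) (nat_lit 39) (nat_lit 5) (nat_lit 41) (nat_lit 5) (nat_lit 40) (nat_lit 4) (nat_lit 468) (nat_lit 426) (nat_lit 306)) (XT.lf (nat_lit 0) (nat_lit 80535696757) (nat_lit 76) (nat_lit 10668069031) (nat_lit 152) (nat_lit 131368498156) (nat_lit 38) (nat_lit 5) (nat_lit 39) (nat_lit 5) (nat_lit 40) (nat_lit 4) (nat_lit 469) (nat_lit 426) (nat_lit 305))) (XT.nd (nat_lit 78) (nat_lit 152) (nat_lit 0) (XT.lf (nat_lit 0) (nat_lit 164770388727) (nat_lit 152) (nat_lit 5969646803) (nat_lit 0) (nat_lit 63688104999) (nat_lit 38) (nat_lit 5) (nat_lit 40) (nat_lit 4) (nat_lit 38) (nat_lit 4) (nat_lit 470) (nat_lit 426) (nat_lit 304)) (XT.lf (nat_lit 0) (nat_lit 1078377459) (nat_lit 152) (nat_lit 98839884764) (nat_lit 76) (nat_lit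 147004981079) (nat_lit 36) (nat_lit 5) (nat_lit 38) (nat_lit 5) (nat_lit 37) (nat_lit 4) (nat_lit 471) (nat_lit 426) (nat_lit 303))))))))
noncomputable def xc153 : XT := (XT.nd (nat_lit 2184) (nat_lit 912) (nat_lit 0) (XT.nd (nat_lit 1092) (nat_lit 760) (nat_lit 0) (XT.nd (nat_lit 546) (nat_lit 456) (nat_lit 0) (XT.nd (nat_lit 234) (nat_lit 304) (nat_lit 0) (XT.nd (nat_lit 78) (nat_lit 76) (nat_lit 0) (XT.lf (nat_lit 0) (nat_lit 55348534872) (nat_lit 76) (nat_lit 19859169224) (nat_lit 152) (nat_lit 184945696040) (nat_lit 35) (nat_lit 5) (nat_lit 36) (nat_lit 5) (nat_lit 37) (nat_lit 4) (nat_lit 472) (nat_lit 426) (nat_lit 302)) (XT.nd (nat_lit 78) (nat_lit 76) (nat_lit 0) (XT.lf (nat_lit 0) (nat_lit 159640917218) (nat_lit 152) (nat_lit 48406572675) (nat_lit 0) (nat_lit 66044596409) (nat_lit 35) (nat_lit 5) (nat_lit 37) (nat_lit 4) (nat_lit 35) (nat_lit 4) (nat_lit 473) (nat_lit 426) (nat_lit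 301)) (XT.lf (nat_lit 0) (nat_lit 126304249248) (nat_lit 76) (nat_lit 128077097224) (nat_lit 76) (nat_lit 34480316175) (nat_lit 34) (nat_lit 4) (nat_lit 35) (nat_lit 5) (nat_lit 35) (nat_lit 4) (nat_lit 474) (nat_lit 426) (nat_lit 300)))) (XT.nd (nat_lit 156) (nat_lit 152) (nat_lit 0) (XT.nd (nat_lit 78) (nat_lit 0) (nat_lit 0) (XT.lf (nat_lit 0) (nat_lit 12372823790) (nat_lit 76) (nat_lit 38574306492) (nat_lit 152) (nat_lit 253633475144) (nat_lit 32) (nat_lit 5) (nat_lit 33) (nat_lit 5) (nat_lit 34) (nat_lit 4) (nat_lit 475) (nat_lit 426) (nat_lit 299)) (XT.lf (nat_lit 0) (nat_lit 147302148108) (nat_lit 152) (nat_lit 113069069436) (nat_lit 0) (nat_lit 60637702017) (nat_lit 32) (nat_lit 5) (nat_lit 34) (nat_lit 4) (nat_lit 32) (nat_lit 4) (nat_lit 476) (nat_lit 426) (nat_lit 298))) (XT.nd (nat_lit 78) (nat_lit 76) (nat_lit 0) (XT.lf (nat_lit 0) (nat_lit 83578088316) (nat_lit 76) (nat_lit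 170798650589) (nat_lit 76) (nat_lit 84133866207) (nat_lit 31) (nat_lit 4) (nat_lit 32) (nat_lit 5) (nat_lit 32) (nat_lit 4) (nat_lit 477) (nat_lit 426) (nat_lit 297)) (XT.lf (nat_lit 0) (nat_lit 15145320216) (nat_lit 152) (nat_lit 55162831563) (nat_lit 76) (nat_lit 286826342302) (nat_lit 30) (nat_lit 5) (nat_lit 32) (nat_lit 5) (nat_lit 31) (nat_lit 4) (nat_lit 478) (nat_lit 426) (nat_lit 296))))) (XT.nd (nat_lit 234) (nat_lit 304) (nat_lit 0) (XT.nd (nat_lit 78) (nat_lit 76) (nat_lit 0) (XT.lf (nat_lit 0) (nat_lit 122910975813) (nat_lit 152) (nat_lit 211090084361) (nat_lit 0) (nat_lit 42665246514) (nat_lit 29) (nat_lit 5) (nat_lit 31) (nat_lit 4) (nat_lit 29) (nat_lit 4) (nat_lit 479) (nat_lit 426) (nat_lit 295)) (XT.nd (nat_lit 78) (nat_lit 0) (nat_lit 0) (XT.lf (nat_lit 0) (nat_lit 8005124803) (nat_lit 76) (nat_lit 234858143358) (nat_lit 76) (nat_lit 154612165406) (nat_lit 28) (nat_lit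 4) (nat_lit 29) (nat_lit 5) (nat_lit 29) (nat_lit 4) (nat_lit 480) (nat_lit 426) (nat_lit 294)) (XT.lf (nat_lit 0) (nat_lit 256631351092) (nat_lit 76) (nat_lit 121551239963) (nat_lit 76) (nat_lit 41305031776) (nat_lit 28) (nat_lit 4) (nat_lit 29) (nat_lit 5) (nat_lit 29) (nat_lit 4) (nat_lit 481) (nat_lit 426) (nat_lit 293)))) (XT.nd (nat_lit 156) (nat_lit 152) (nat_lit 0) (XT.nd (nat_lit 78) (nat_lit 0) (nat_lit 0) (XT.lf (nat_lit 0) (nat_lit 79157300608) (nat_lit 152) (nat_lit 358920782688) (nat_lit 0) (nat_lit 4855058602) (nat_lit 26) (nat_lit 5) (nat_lit 28) (nat_lit 4) (nat_lit 26) (nat_lit 4) (nat_lit 482) (nat_lit 426) (nat_lit 292)) (XT.lf (nat_lit 0) (nat_lit 214749994062) (nat_lit 152) (nat_lit 112352916984) (nat_lit 0) (nat_lit 140447569288) (nat_lit 26) (nat_lit 5) (nat_lit 28) (nat_lit 4) (nat_lit 26) (nat_lit 4) (nat_lit 483) (nat_lit 426) (nat_lit 291))) (XT.nd (nat_lit 78)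 (nat_lit 76) (nat_lit 0) (XT.lf (nat_lit 0) (nat_lit 162045232826) (nat_lit 76) (nat_lit 203041421462) (nat_lit 76) (nat_lit 128738827459) (nat_lit 25) (nat_lit 4) (nat_lit 26) (nat_lit 5) (nat_lit 26) (nat_lit 4) (nat_lit 484) (nat_lit 426) (nat_lit 290)) (XT.lf (nat_lit 0) (nat_lit 8136328060) (nat_lit 152) (nat_lit 57379188331) (nat_lit 76) (nat_lit 456424783904) (nat_lit 24) (nat_lit 5) (nat_lit 26) (nat_lit 5) (nat_lit 25) (nat_lit 4) (nat_lit 485) (nat_lit 426) (nat_lit 289)))))) (XT.nd (nat_lit 546) (nat_lit 380) (nat_lit 0) (XT.nd (nat_lit 234) (nat_lit 228) (nat_lit 0) (XT.nd (nat_lit 78) (nat_lit 76) (nat_lit 0) (XT.lf (nat_lit 0) (nat_lit 157209184357) (nat_lit 152) (nat_lit 305761169630) (nat_lit 0) (nat_lit 88410206780) (nat_lit 23) (nat_lit 5) (nat_lit 25) (nat_lit 4) (nat_lit 23) (nat_lit 4) (nat_lit 486) (nat_lit 426) (nat_lit 288)) (XT.nd (nat_lit 78) (nat_lit 76) (nat_lit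 0) (XT.lf (nat_lit 0) (nat_lit 321518577625) (nat_lit 152) (nat_lit 8673132120) (nat_lit 0) (nat_lit 252719475659) (nat_lit 23) (nat_lit 5) (nat_lit 25) (nat_lit 4) (nat_lit 23) (nat_lit 4) (nat_lit 487) (nat_lit 426) (nat_lit 287)) (XT.lf (nat_lit 0) (nat_lit 328619718025) (nat_lit 76) (nat_lit 178255768979) (nat_lit 76) (nat_lit 109456551838) (nat_lit 22) (nat_lit 4) (nat_lit 23) (nat_lit 5) (nat_lit 23) (nat_lit 4) (nat_lit 488) (nat_lit 426) (nat_lit 286)))) (XT.nd (nat_lit 156) (nat_lit 76) (nat_lit 0) (XT.nd (nat_lit 78) (nat_lit 0) (nat_lit 0) (XT.lf (nat_lit 0) (nat_lit 41748864895) (nat_lit 76) (nat_lit 11399302739) (nat_lit 152) (nat_lit 599073531261) (nat_lit 20) (nat_lit 5) (nat_lit 21) (nat_lit 5) (nat_lit 22) (nat_lit 4) (nat_lit 489) (nat_lit 426) (nat_lit 285)) (XT.lf (nat_lit 0) (nat_lit 234977893408) (nat_lit 152) (nat_lit 283532061713) (nat_lit 0) (nat_lit 171274724401)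 (nat_lit 20) (nat_lit 5) (nat_lit 22) (nat_lit 4) (nat_lit 20) (nat_lit 4) (nat_lit 490) (nat_lit 426) (nat_lit 284))) (XT.nd (nat_lit 78) (nat_lit 0) (nat_lit 0) (XT.lf (nat_lit 0) (nat_lit 72914318234) (nat_lit 76) (nat_lit 360488850169) (nat_lit 76) (nat_lit 296785596505) (nat_lit 19) (nat_lit 4) (nat_lit 20) (nat_lit 5) (nat_lit 20) (nat_lit 4) (nat_lit 491) (nat_lit 426) (nat_lit 283)) (XT.lf (nat_lit 0) (nat_lit 474000116595) (nat_lit 76) (nat_lit 181454125235) (nat_lit 76) (nat_lit 117750793185) (nat_lit 19) (nat_lit 4) (nat_lit 20) (nat_lit 5) (nat_lit 20) (nat_lit 4) (nat_lit 492) (nat_lit 426) (nat_lit 282))))) (XT.nd (nat_lit 234) (nat_lit 152) (nat_lit 0) (XT.nd (nat_lit 78) (nat_lit 76) (nat_lit 0) (XT.lf (nat_lit 0) (nat_lit 74383399547) (nat_lit 152) (nat_lit 729530272878) (nat_lit 0) (nat_lit 15398765631) (nat_lit 17) (nat_lit 5) (nat_lit 19) (nat_lit 4) (nat_lit 17) (nat_lit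 4) (nat_lit 493) (nat_lit 426) (nat_lit 281)) (XT.nd (nat_lit 78) (nat_lit 76) (nat_lit 0) (XT.lf (nat_lit 0) (nat_lit 288632633995) (nat_lit 152) (nat_lit 349534711913) (nat_lit 0) (nat_lit 229647937853) (nat_lit 17) (nat_lit 5) (nat_lit 19) (nat_lit 4) (nat_lit 17) (nat_lit 4) (nat_lit 494) (nat_lit 426) (nat_lit 280)) (XT.lf (nat_lit 0) (nat_lit 64064362196) (nat_lit 76) (nat_lit 457497761676) (nat_lit 76) (nat_lit 398513007919) (nat_lit 16) (nat_lit 4) (nat_lit 17) (nat_lit 5) (nat_lit 17) (nat_lit 4) (nat_lit 495) (nat_lit 426) (nat_lit 279)))) (XT.nd (nat_lit 156) (nat_lit 76) (nat_lit 0) (XT.nd (nat_lit 78) (nat_lit 76) (nat_lit 0) (XT.lf (nat_lit 0) (nat_lit 530628842971) (nat_lit 76) (nat_lit 252053606825) (nat_lit 76) (nat_lit 193068799720) (nat_lit 16) (nat_lit 4) (nat_lit 17) (nat_lit 5) (nat_lit 17) (nat_lit 4) (nat_lit 496) (nat_lit 426) (nat_lit 278)) (XT.lf (nat_lit 0) (nat_lit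 27369304466) (nat_lit 152) (nat_lit 2056703210) (nat_lit 76) (nat_lit 1006400048710) (nat_lit 15) (nat_lit 5) (nat_lit 17) (nat_lit 5) (nat_lit 16) (nat_lit 4) (nat_lit 497) (nat_lit 426) (nat_lit 277))) (XT.nd (nat_lit 78) (nat_lit 0) (nat_lit 0) (XT.lf (nat_lit 0) (nat_lit 272461600984) (nat_lit 152) (nat_lit 608602124225) (nat_lit 0) (nat_lit 217845950762) (nat_lit 14) (nat_lit 5) (nat_lit 16) (nat_lit 4) (nat_lit 14) (nat_lit 4) (nat_lit 498) (nat_lit 426) (nat_lit 276)) (XT.lf (nat_lit 0) (nat_lit 537982917155) (nat_lit 152) (nat_lit 145624109374) (nat_lit 0) (nat_lit 483367227720) (nat_lit 14) (nat_lit 5) (nat_lit 16) (nat_lit 4) (nat_lit 14) (nat_lit 4) (nat_lit 499) (nat_lit 426) (nat_lit 275))))))) (XT.nd (nat_lit 1092) (nat_lit 380) (nat_lit 0) (XT.nd (nat_lit 546) (nat_lit 228) (nat_lit 0) (XT.nd (nat_lit 234) (nat_lit 76) (nat_lit 0) (XT.nd (nat_lit 78) (nat_lit 152) (nat_lit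 0) (XT.lf (nat_lit 0) (nat_lit 373053064325) (nat_lit 76) (nat_lit 460664466418) (nat_lit 76) (nat_lit 406048740676) (nat_lit 13) (nat_lit 4) (nat_lit 14) (nat_lit 5) (nat_lit 14) (nat_lit 4) (nat_lit 500) (nat_lit 426) (nat_lit 274)) (XT.nd (nat_lit 78) (nat_lit 152) (nat_lit 0) (XT.lf (nat_lit 0) (nat_lit 941505494475) (nat_lit 76) (nat_lit 215586705945) (nat_lit 76) (nat_lit 160970946584) (nat_lit 13) (nat_lit 4) (nat_lit 14) (nat_lit 5) (nat_lit 14) (nat_lit 4) (nat_lit 501) (nat_lit 426) (nat_lit 273)) (XT.lf (nat_lit 0) (nat_lit 103674471099) (nat_lit 152) (nat_lit 1245233498835) (nat_lit 0) (nat_lit 53104294721) (nat_lit 11) (nat_lit 5) (nat_lit 13) (nat_lit 4) (nat_lit 11) (nat_lit 4) (nat_lit 502) (nat_lit 426) (nat_lit 272)))) (XT.nd (nat_lit 156) (nat_lit 76) (nat_lit 0) (XT.nd (nat_lit 78) (nat_lit 0) (nat_lit 0) (XT.lf (nat_lit 0) (nat_lit 396957423166) (nat_lit 152) (nat_lit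 747705182315) (nat_lit 0) (nat_lit 346387220101) (nat_lit 11) (nat_lit 5) (nat_lit 13) (nat_lit 4) (nat_lit 11) (nat_lit 4) (nat_lit 503) (nat_lit 426) (nat_lit 271)) (XT.lf (nat_lit 0) (nat_lit 713702717640) (nat_lit 152) (nat_lit 210375207382) (nat_lit 0) (nat_lit 663132489864) (nat_lit 11) (nat_lit 5) (nat_lit 13) (nat_lit 4) (nat_lit 11) (nat_lit 4) (nat_lit 504) (nat_lit 426) (nat_lit 270))) (XT.nd (nat_lit 78) (nat_lit 0) (nat_lit 0) (XT.lf (nat_lit 0) (nat_lit 389421020187) (nat_lit 76) (nat_lit 675731928386) (nat_lit 76) (nat_lit 625161677730) (nat_lit 10) (nat_lit 4) (nat_lit 11) (nat_lit 5) (nat_lit 11) (nat_lit 4) (nat_lit 505) (nat_lit 426) (nat_lit 269)) (XT.lf (nat_lit 0) (nat_lit 1049164622690) (nat_lit 76) (nat_lit 401306341254) (nat_lit 76) (nat_lit 350736069412) (nat_lit 10) (nat_lit 4) (nat_lit 11) (nat_lit 5) (nat_lit 11) (nat_lit 4) (nat_lit 506) (nat_lit 426) (nat_lit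 268))))) (XT.nd (nat_lit 234) (nat_lit 76) (nat_lit 0) (XT.nd (nat_lit 78) (nat_lit 152) (nat_lit 0) (XT.lf (nat_lit 0) (nat_lit 1761687206241) (nat_lit 76) (nat_lit 104926968911) (nat_lit 76) (nat_lit 54356677454) (nat_lit 10) (nat_lit 4) (nat_lit 11) (nat_lit 5) (nat_lit 11) (nat_lit 4) (nat_lit 507) (nat_lit 426) (nat_lit 267)) (XT.nd (nat_lit 78) (nat_lit 0) (nat_lit 0) (XT.lf (nat_lit 0) (nat_lit 270105239950) (nat_lit 152) (nat_lit 1555005169863) (nat_lit 0) (nat_lit 223280879191) (nat_lit 8) (nat_lit 5) (nat_lit 10) (nat_lit 4) (nat_lit 8) (nat_lit 4) (nat_lit 508) (nat_lit 426) (nat_lit 266)) (XT.lf (nat_lit 0) (nat_lit 624780797715) (nat_lit 152) (nat_lit 982579723522) (nat_lit 0) (nat_lit 577956421384) (nat_lit 8) (nat_lit 5) (nat_lit 10) (nat_lit 4) (nat_lit 8) (nat_lit 4) (nat_lit 509) (nat_lit 426) (nat_lit 265)))) (XT.nd (nat_lit 156) (nat_lit 0) (nat_lit 0) (XT.nd (nat_lit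 78) (nat_lit 76) (nat_lit 0) (XT.lf (nat_lit 0) (nat_lit 1007830184382) (nat_lit 152) (nat_lit 364360687773) (nat_lit 0) (nat_lit 961005793632) (nat_lit 8) (nat_lit 5) (nat_lit 10) (nat_lit 4) (nat_lit 8) (nat_lit 4) (nat_lit 510) (nat_lit 426) (nat_lit 264)) (XT.lf (nat_lit 0) (nat_lit 319287512072) (nat_lit 76) (nat_lit 1109914682512) (nat_lit 76) (nat_lit 1063090278412) (nat_lit 7) (nat_lit 4) (nat_lit 8) (nat_lit 5) (nat_lit 8) (nat_lit 4) (nat_lit 511) (nat_lit 426) (nat_lit 263))) (XT.nd (nat_lit 78) (nat_lit 0) (nat_lit 0) (XT.lf (nat_lit 0) (nat_lit 1078348680293) (nat_lit 76) (nat_lit 815897357585) (nat_lit 76) (nat_lit 769072941123) (nat_lit 7) (nat_lit 4) (nat_lit 8) (nat_lit 5) (nat_lit 8) (nat_lit 4) (nat_lit 512) (nat_lit 426) (nat_lit 262)) (XT.lf (nat_lit 0) (nat_lit 1898134369030) (nat_lit 76) (nat_lit 498358839391) (nat_lit 76) (nat_lit 451534411484) (nat_lit 7) (nat_lit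 4) (nat_lit 8) (nat_lit 5) (nat_lit 8) (nat_lit 4) (nat_lit 513) (nat_lit 426) (nat_lit 261)))))) (XT.nd (nat_lit 546) (nat_lit 152) (nat_lit 0) (XT.nd (nat_lit 234) (nat_lit 76) (nat_lit 0) (XT.nd (nat_lit 78) (nat_lit 152) (nat_lit 0) (XT.lf (nat_lit 0) (nat_lit 2783502567548) (nat_lit 76) (nat_lit 155417418193) (nat_lit 76) (nat_lit 108592979688) (nat_lit 7) (nat_lit 4) (nat_lit 8) (nat_lit 5) (nat_lit 8) (nat_lit 4) (nat_lit 514) (nat_lit 426) (nat_lit 260)) (XT.nd (nat_lit 78) (nat_lit 0) (nat_lit 0) (XT.lf (nat_lit 0) (nat_lit 266240825260) (nat_lit 152) (nat_lit 2771923582843) (nat_lit 0) (nat_lit 222884854595) (nat_lit 5) (nat_lit 5) (nat_lit 7) (nat_lit 4) (nat_lit 5) (nat_lit 4) (nat_lit 515) (nat_lit 426) (nat_lit 259)) (XT.lf (nat_lit 0) (nat_lit 676637156686) (nat_lit 152) (nat_lit 2180609068619) (nat_lit 0) (nat_lit 633281177608) (nat_lit 5) (nat_lit 5) (nat_lit 7) (nat_lit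 4) (nat_lit 5) (nat_lit 4) (nat_lit 516) (nat_lit 426) (nat_lit 258)))) (XT.nd (nat_lit 156) (nat_lit 76) (nat_lit 0) (XT.nd (nat_lit 78) (nat_lit 0) (nat_lit 0) (XT.lf (nat_lit 0) (nat_lit 1119865047919) (nat_lit 152) (nat_lit 1541989697109) (nat_lit 0) (nat_lit 1076509061052) (nat_lit 5) (nat_lit 5) (nat_lit 7) (nat_lit 4) (nat_lit 5) (nat_lit 4) (nat_lit 517) (nat_lit 426) (nat_lit 257)) (XT.lf (nat_lit 0) (nat_lit 1598551034612) (nat_lit 152) (nat_lit 852281057224) (nat_lit 0) (nat_lit 1555195040532) (nat_lit 5) (nat_lit 5) (nat_lit 7) (nat_lit 4) (nat_lit 5) (nat_lit 4) (nat_lit 518) (nat_lit 426) (nat_lit 256))) (XT.nd (nat_lit 78) (nat_lit 76) (nat_lit 0) (XT.lf (nat_lit 0) (nat_lit 2115531774464) (nat_lit 152) (nat_lit 107395986653) (nat_lit 0) (nat_lit 2072175773705) (nat_lit 5) (nat_lit 5) (nat_lit 7) (nat_lit 4) (nat_lit 5) (nat_lit 4) (nat_lit 519) (nat_lit 426) (nat_lit 255))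 (XT.lf (nat_lit 0) (nat_lit 733786627305) (nat_lit 76) (nat_lit 1957731815772) (nat_lit 76) (nat_lit 1914375808829) (nat_lit 4) (nat_lit 4) (nat_lit 5) (nat_lit 5) (nat_lit 5) (nat_lit 4) (nat_lit 520) (nat_lit 426) (nat_lit 254))))) (XT.nd (nat_lit 312) (nat_lit 152) (nat_lit 0) (XT.nd (nat_lit 156) (nat_lit 0) (nat_lit 0) (XT.nd (nat_lit 78) (nat_lit 0) (nat_lit 0) (XT.lf (nat_lit 0) (nat_lit 1648371320201) (nat_lit 76) (nat_lit 1668149008088) (nat_lit 76) (nat_lit 1624792995420) (nat_lit 4) (nat_lit 4) (nat_lit 5) (nat_lit 5) (nat_lit 5) (nat_lit 4) (nat_lit 521) (nat_lit 426) (nat_lit 253)) (XT.lf (nat_lit 0) (nat_lit 2636122570842) (nat_lit 76) (nat_lit 1355399688395) (nat_lit 76) (nat_lit 1312043670425) (nat_lit 4) (nat_lit 4) (nat_lit 5) (nat_lit 5) (nat_lit 5) (nat_lit 4) (nat_lit 522) (nat_lit 426) (nat_lit 252))) (XT.nd (nat_lit 78) (nat_lit 0) (nat_lit 0) (XT.lf (nat_lit 0) (nat_lit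 3702893719973) (nat_lit 76) (nat_lit 1017630527391) (nat_lit 76) (nat_lit 974274504512) (nat_lit 4) (nat_lit 4) (nat_lit 5) (nat_lit 5) (nat_lit 5) (nat_lit 4) (nat_lit 523) (nat_lit 426) (nat_lit 251)) (XT.lf (nat_lit 0) (nat_lit 4855006374403) (nat_lit 76) (nat_lit 652839930048) (nat_lit 76) (nat_lit 609483902623) (nat_lit 4) (nat_lit 4) (nat_lit 5) (nat_lit 5) (nat_lit 5) (nat_lit 4) (nat_lit 524) (nat_lit 426) (nat_lit 250)))) (XT.nd (nat_lit 156) (nat_lit 0) (nat_lit 0) (XT.nd (nat_lit 78) (nat_lit 152) (nat_lit 0) (XT.lf (nat_lit 0) (nat_lit 6099287868380) (nat_lit 76) (nat_lit 258866174307) (nat_lit 76) (nat_lit 215510142674) (nat_lit 4) (nat_lit 4) (nat_lit 5) (nat_lit 5) (nat_lit 5) (nat_lit 4) (nat_lit 525) (nat_lit 426) (nat_lit 249)) (XT.lf (nat_lit 0) (nat_lit 213266653401) (nat_lit 152) (nat_lit 6678608906704) (nat_lit 0) (nat_lit 173122176059) (nat_lit 2) (nat_lit 5) (nat_lit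 4) (nat_lit 4) (nat_lit 2) (nat_lit 4) (nat_lit 526) (nat_lit 426) (nat_lit 248))) (XT.nd (nat_lit 78) (nat_lit 0) (nat_lit 0) (XT.lf (nat_lit 0) (nat_lit 684733345114) (nat_lit 152) (nat_lit 6264265476415) (nat_lit 0) (nat_lit 644588864431) (nat_lit 2) (nat_lit 5) (nat_lit 4) (nat_lit 4) (nat_lit 2) (nat_lit 4) (nat_lit 527) (nat_lit 426) (nat_lit 247)) (XT.lf (nat_lit 0) (nat_lit 1193917298819) (nat_lit 152) (nat_lit 5816774723748) (nat_lit 0) (nat_lit 1153772815042) (nat_lit 2) (nat_lit 5) (nat_lit 4) (nat_lit 4) (nat_lit 2) (nat_lit 4) (nat_lit 528) (nat_lit 426) (nat_lit 246))))))))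
noncomputable def xc154 : XT := (XT.nd (nat_lit 55692) (nat_lit 0) (nat_lit 2812) (XT.nd (nat_lit 54600) (nat_lit 0) (nat_lit 5396) (XT.nd (nat_lit 546) (nat_lit 76) (nat_lit 0) (XT.nd (nat_lit 234) (nat_lit 0) (nat_lit 0) (XT.nd (nat_lit 78) (nat_lit 0) (nat_lit 0) (XT.lf (nat_lit 0) (nat_lit 1743835900906) (nat_lit 152) (nat_lit 5333484851650) (nat_lit 0) (nat_lit 1703691414266) (nat_lit 2) (nat_lit 5) (nat_lit 4) (nat_lit 4) (nat_lit 2) (nat_lit 4) (nat_lit 529) (nat_lit 426) (nat_lit 245)) (XT.nd (nat_lit 78) (nat_lit 0) (nat_lit 0) (XT.lf (nat_lit 0) (nat_lit 2337747928278) (nat_lit 152) (nat_lit 4811531920140) (nat_lit 0) (nat_lit 2297603438985) (nat_lit 2) (nat_lit 5) (nat_lit 4) (nat_lit 4) (nat_lit 2) (nat_lit 4) (nat_lit 530) (nat_lit 426) (nat_lit 244)) (XT.lf (nat_lit 0) (nat_lit 2979172859615) (nat_lit 152) (nat_lit 4247822874808) (nat_lit 0) (nat_lit 2939028367867) (nat_lit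 2) (nat_lit 5) (nat_lit 4) (nat_lit 4) (nat_lit 2) (nat_lit 4) (nat_lit 531) (nat_lit 426) (nat_lit 243)))) (XT.nd (nat_lit 156) (nat_lit 0) (nat_lit 0) (XT.nd (nat_lit 78) (nat_lit 0) (nat_lit 0) (XT.lf (nat_lit 0) (nat_lit 3671911731548) (nat_lit 152) (nat_lit 3639017217607) (nat_lit 0) (nat_lit 3631767237525) (nat_lit 2) (nat_lit 5) (nat_lit 4) (nat_lit 4) (nat_lit 2) (nat_lit 4) (nat_lit 532) (nat_lit 426) (nat_lit 242)) (XT.lf (nat_lit 0) (nat_lit 4420069663316) (nat_lit 152) (nat_lit 2981507211310) (nat_lit 0) (nat_lit 4379925167188) (nat_lit 2) (nat_lit 5) (nat_lit 4) (nat_lit 4) (nat_lit 2) (nat_lit 4) (nat_lit 533) (nat_lit 426) (nat_lit 241))) (XT.nd (nat_lit 78) (nat_lit 0) (nat_lit 0) (XT.lf (nat_lit 0) (nat_lit 5228080183405) (nat_lit 152) (nat_lit 2271396500324) (nat_lit 0) (nat_lit 5187935685328) (nat_lit 2) (nat_lit 5) (nat_lit 4) (nat_lit 4) (nat_lit 2) (nat_lit 4) (nat_lit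 534) (nat_lit 426) (nat_lit 240)) (XT.lf (nat_lit 0) (nat_lit 6100731502305) (nat_lit 152) (nat_lit 1504477021176) (nat_lit 0) (nat_lit 6060587002423) (nat_lit 2) (nat_lit 5) (nat_lit 4) (nat_lit 4) (nat_lit 2) (nat_lit 4) (nat_lit 535) (nat_lit 426) (nat_lit 239))))) (XT.nd (nat_lit 234) (nat_lit 0) (nat_lit 0) (XT.nd (nat_lit 78) (nat_lit 76) (nat_lit 0) (XT.lf (nat_lit 0) (nat_lit 7043194887090) (nat_lit 152) (nat_lit 676204065842) (nat_lit 0) (nat_lit 7003050385536) (nat_lit 2) (nat_lit 5) (nat_lit 4) (nat_lit 4) (nat_lit 2) (nat_lit 4) (nat_lit 536) (nat_lit 426) (nat_lit 238)) (XT.nd (nat_lit 78) (nat_lit 0) (nat_lit 0) (XT.lf (nat_lit 0) (nat_lit 229827554964) (nat_lit 76) (nat_lit 7836755109226) (nat_lit 76) (nat_lit 7796610606125) (nat_lit 1) (nat_lit 4) (nat_lit 2) (nat_lit 5) (nat_lit 2) (nat_lit 4) (nat_lit 537) (nat_lit 426) (nat_lit 237)) (XT.lf (nat_lit 0) (nat_lit 1246797955693)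 (nat_lit 76) (nat_lit 7943532089505) (nat_lit 76) (nat_lit 7903387584972) (nat_lit 1) (nat_lit 4) (nat_lit 2) (nat_lit 5) (nat_lit 2) (nat_lit 4) (nat_lit 538) (nat_lit 426) (nat_lit 236)))) (XT.nd (nat_lit 156) (nat_lit 0) (nat_lit 0) (XT.nd (nat_lit 78) (nat_lit 0) (nat_lit 0) (XT.lf (nat_lit 0) (nat_lit 2345125919836) (nat_lit 76) (nat_lit 8058851263743) (nat_lit 76) (nat_lit 8018706757883) (nat_lit 1) (nat_lit 4) (nat_lit 2) (nat_lit 5) (nat_lit 2) (nat_lit 4) (nat_lit 539) (nat_lit 426) (nat_lit 235)) (XT.lf (nat_lit 0) (nat_lit 3531320057552) (nat_lit 76) (nat_lit 8183396004823) (nat_lit 76) (nat_lit 8143251497735) (nat_lit 1) (nat_lit 4) (nat_lit 2) (nat_lit 5) (nat_lit 2) (nat_lit 4) (nat_lit 540) (nat_lit 426) (nat_lit 234))) (XT.nd (nat_lit 53586) (nat_lit 0) (nat_lit 6992) (XT.lf (nat_lit 0) (nat_lit 4812409667434) (nat_lit 76) (nat_lit 8317904355656) (nat_lit 76) (nat_lit 8277759847430)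 (nat_lit 1) (nat_lit 4) (nat_lit 2) (nat_lit 5) (nat_lit 2) (nat_lit 4) (nat_lit 541) (nat_lit 426) (nat_lit 233)) (XT.lf (nat_lit 0) (nat_lit 15743694481) (nat_lit 532) (nat_lit 245827225) (nat_lit 532) (nat_lit 245827225) (nat_lit 93) (nat_lit 3) (nat_lit 100) (nat_lit 3) (nat_lit 100) (nat_lit 5) (nat_lit 427) (nat_lit 427) (nat_lit 346)))))) (XT.nd (nat_lit 546) (nat_lit 1140) (nat_lit 0) (XT.nd (nat_lit 234) (nat_lit 0) (nat_lit 0) (XT.nd (nat_lit 78) (nat_lit 456) (nat_lit 0) (XT.lf (nat_lit 76) (nat_lit 16504454135) (nat_lit 0) (nat_lit 16698120298) (nat_lit 532) (nat_lit 530488314) (nat_lit 94) (nat_lit 5) (nat_lit 93) (nat_lit 3) (nat_lit 100) (nat_lit 5) (nat_lit 428) (nat_lit 427) (nat_lit 345)) (XT.nd (nat_lit 78) (nat_lit 456) (nat_lit 0) (XT.lf (nat_lit 76) (nat_lit 34884870234) (nat_lit 0) (nat_lit 177588270) (nat_lit 532) (nat_lit 33360399) (nat_lit 94) (nat_lit 5) (nat_lit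 93) (nat_lit 3) (nat_lit 100) (nat_lit 5) (nat_lit 429) (nat_lit 427) (nat_lit 344)) (XT.lf (nat_lit 0) (nat_lit 1369386679) (nat_lit 532) (nat_lit 17858949421) (nat_lit 608) (nat_lit 17267008284) (nat_lit 87) (nat_lit 5) (nat_lit 94) (nat_lit 5) (nat_lit 95) (nat_lit 5) (nat_lit 430) (nat_lit 427) (nat_lit 343)))) (XT.nd (nat_lit 156) (nat_lit 0) (nat_lit 76) (XT.nd (nat_lit 78) (nat_lit 0) (nat_lit 76) (XT.lf (nat_lit 76) (nat_lit 1039754007) (nat_lit 0) (nat_lit 1873060239) (nat_lit 608) (nat_lit 35091527915) (nat_lit 88) (nat_lit 5) (nat_lit 87) (nat_lit 5) (nat_lit 95) (nat_lit 5) (nat_lit 431) (nat_lit 427) (nat_lit 342)) (XT.lf (nat_lit 0) (nat_lit 5481493176) (nat_lit 532) (nat_lit 17551525957) (nat_lit 608) (nat_lit 16528899030) (nat_lit 88) (nat_lit 5) (nat_lit 95) (nat_lit 5) (nat_lit 96) (nat_lit 5) (nat_lit 432) (nat_lit 427) (nat_lit 341))) (XT.nd (nat_lit 78) (nat_lit 0) (nat_lit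 76) (XT.lf (nat_lit 76) (nat_lit 3539162841) (nat_lit 0) (nat_lit 4845696996) (nat_lit 608) (nat_lit 32848905469) (nat_lit 89) (nat_lit 5) (nat_lit 88) (nat_lit 5) (nat_lit 96) (nat_lit 5) (nat_lit 433) (nat_lit 427) (nat_lit 340)) (XT.lf (nat_lit 0) (nat_lit 12364398931) (nat_lit 532) (nat_lit 16058090396) (nat_lit 76) (nat_lit 14549359140) (nat_lit 89) (nat_lit 5) (nat_lit 96) (nat_lit 5) (nat_lit 90) (nat_lit 5) (nat_lit 434) (nat_lit 427) (nat_lit 339))))) (XT.nd (nat_lit 234) (nat_lit 532) (nat_lit 0) (XT.nd (nat_lit 78) (nat_lit 228) (nat_lit 0) (XT.lf (nat_lit 0) (nat_lit 7557777482) (nat_lit 532) (nat_lit 9408159695) (nat_lit 608) (nat_lit 27858750679) (nat_lit 82) (nat_lit 5) (nat_lit 89) (nat_lit 5) (nat_lit 90) (nat_lit 5) (nat_lit 435) (nat_lit 427) (nat_lit 338)) (XT.nd (nat_lit 78) (nat_lit 228) (nat_lit 0) (XT.lf (nat_lit 0) (nat_lit 22649890176) (nat_lit 608) (nat_lit 13097477214)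 (nat_lit 76) (nat_lit 11021244095) (nat_lit 82) (nat_lit 5) (nat_lit 90) (nat_lit 5) (nat_lit 83) (nat_lit 5) (nat_lit 436) (nat_lit 427) (nat_lit 337)) (XT.lf (nat_lit 0) (nat_lit 13429239159) (nat_lit 228) (nat_lit 15923160406) (nat_lit 304) (nat_lit 19470542619) (nat_lit 79) (nat_lit 5) (nat_lit 82) (nat_lit 5) (nat_lit 83) (nat_lit 5) (nat_lit 437) (nat_lit 427) (nat_lit 336)))) (XT.nd (nat_lit 156) (nat_lit 304) (nat_lit 0) (XT.nd (nat_lit 78) (nat_lit 228) (nat_lit 0) (XT.lf (nat_lit 0) (nat_lit 37087146836) (nat_lit 304) (nat_lit 8335131705) (nat_lit 76) (nat_lit 5579658191) (nat_lit 79) (nat_lit 5) (nat_lit 83) (nat_lit 5) (nat_lit 80) (nat_lit 5) (nat_lit 438) (nat_lit 427) (nat_lit 335)) (XT.lf (nat_lit 0) (nat_lit 21548931754) (nat_lit 228) (nat_lit 24820495361) (nat_lit 304) (nat_lit 6911523807) (nat_lit 76) (nat_lit 5) (nat_lit 79) (nat_lit 5) (nat_lit 80) (nat_lit 5) (nat_lit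 439) (nat_lit 427) (nat_lit 334))) (XT.nd (nat_lit 78) (nat_lit 228) (nat_lit 0) (XT.lf (nat_lit 0) (nat_lit 850185016) (nat_lit 304) (nat_lit 1451546696) (nat_lit 76) (nat_lit 53420836583) (nat_lit 75) (nat_lit 5) (nat_lit 79) (nat_lit 5) (nat_lit 76) (nat_lit 5) (nat_lit 440) (nat_lit 427) (nat_lit 333)) (XT.lf (nat_lit 0) (nat_lit 10197801698) (nat_lit 304) (nat_lit 26132593829) (nat_lit 76) (nat_lit 21907688353) (nat_lit 72) (nat_lit 5) (nat_lit 76) (nat_lit 5) (nat_lit 73) (nat_lit 5) (nat_lit 441) (nat_lit 427) (nat_lit 332))))))) (XT.nd (nat_lit 1092) (nat_lit 1216) (nat_lit 0) (XT.nd (nat_lit 546) (nat_lit 608) (nat_lit 0) (XT.nd (nat_lit 234) (nat_lit 380) (nat_lit 0) (XT.nd (nat_lit 78) (nat_lit 152) (nat_lit 0) (XT.lf (nat_lit 0) (nat_lit 7804067013) (nat_lit 228) (nat_lit 12774670226) (nat_lit 304) (nat_lit 40353262959) (nat_lit 69) (nat_lit 5) (nat_lit 72) (nat_lit 5) (nat_lit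 73) (nat_lit 5) (nat_lit 442) (nat_lit 427) (nat_lit 331)) (XT.nd (nat_lit 78) (nat_lit 152) (nat_lit 0) (XT.lf (nat_lit 0) (nat_lit 32825238373) (nat_lit 304) (nat_lit 18169169131) (nat_lit 76) (nat_lit 12764215285) (nat_lit 69) (nat_lit 5) (nat_lit 73) (nat_lit 5) (nat_lit 70) (nat_lit 5) (nat_lit 443) (nat_lit 427) (nat_lit 330)) (XT.lf (nat_lit 0) (nat_lit 20264904118) (nat_lit 152) (nat_lit 26603342721) (nat_lit 228) (nat_lit 19877785582) (nat_lit 67) (nat_lit 5) (nat_lit 69) (nat_lit 5) (nat_lit 70) (nat_lit 5) (nat_lit 444) (nat_lit 427) (nat_lit 329)))) (XT.nd (nat_lit 156) (nat_lit 152) (nat_lit 0) (XT.nd (nat_lit 78) (nat_lit 228) (nat_lit 0) (XT.lf (nat_lit 0) (nat_lit 62535782969) (nat_lit 228) (nat_lit 7135711260) (nat_lit 76) (nat_lit 260853831) (nat_lit 67) (nat_lit 5) (nat_lit 70) (nat_lit 5) (nat_lit 68) (nat_lit 5) (nat_lit 445) (nat_lit 427) (nat_lit 328)) (XT.lf (nat_lit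 0) (nat_lit 7385934862) (nat_lit 228) (nat_lit 36946737668) (nat_lit 76) (nat_lit 28900625729) (nat_lit 64) (nat_lit 5) (nat_lit 67) (nat_lit 5) (nat_lit 65) (nat_lit 5) (nat_lit 446) (nat_lit 427) (nat_lit 327))) (XT.nd (nat_lit 78) (nat_lit 0) (nat_lit 0) (XT.lf (nat_lit 0) (nat_lit 6953179355) (nat_lit 152) (nat_lit 16363530052) (nat_lit 228) (nat_lit 53437023237) (nat_lit 62) (nat_lit 5) (nat_lit 64) (nat_lit 5) (nat_lit 65) (nat_lit 5) (nat_lit 447) (nat_lit 427) (nat_lit 326)) (XT.lf (nat_lit 0) (nat_lit 41889244981) (nat_lit 228) (nat_lit 24371099450) (nat_lit 76) (nat_lit 14186073570) (nat_lit 62) (nat_lit 5) (nat_lit 65) (nat_lit 5) (nat_lit 63) (nat_lit 5) (nat_lit 448) (nat_lit 427) (nat_lit 325))))) (XT.nd (nat_lit 234) (nat_lit 304) (nat_lit 0) (XT.nd (nat_lit 78) (nat_lit 152) (nat_lit 0) (XT.lf (nat_lit 0) (nat_lit 25542429301) (nat_lit 152) (nat_lit 37442572408) (nat_lit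 228) (nat_lit 21366523145) (nat_lit 60) (nat_lit 5) (nat_lit 62) (nat_lit 5) (nat_lit 63) (nat_lit 5) (nat_lit 449) (nat_lit 427) (nat_lit 324)) (XT.nd (nat_lit 78) (nat_lit 152) (nat_lit 0) (XT.lf (nat_lit 0) (nat_lit 80832131677) (nat_lit 152) (nat_lit 5600802836) (nat_lit 228) (nat_lit 2082944624) (nat_lit 60) (nat_lit 5) (nat_lit 62) (nat_lit 5) (nat_lit 63) (nat_lit 5) (nat_lit 450) (nat_lit 427) (nat_lit 323)) (XT.lf (nat_lit 0) (nat_lit 19730811046) (nat_lit 152) (nat_lit 44060003192) (nat_lit 76) (nat_lit 29032496833) (nat_lit 58) (nat_lit 5) (nat_lit 60) (nat_lit 5) (nat_lit 59) (nat_lit 5) (nat_lit 451) (nat_lit 427) (nat_lit 322)))) (XT.nd (nat_lit 156) (nat_lit 152) (nat_lit 0) (XT.nd (nat_lit 78) (nat_lit 0) (nat_lit 0) (XT.lf (nat_lit 0) (nat_lit 13154769489) (nat_lit 152) (nat_lit 30698053237) (nat_lit 228) (nat_lit 53564131643) (nat_lit 56) (nat_lit 5) (nat_lit 58) (nat_lit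 5) (nat_lit 59) (nat_lit 5) (nat_lit 452) (nat_lit 427) (nat_lit 321)) (XT.lf (nat_lit 0) (nat_lit 71260157294) (nat_lit 228) (nat_lit 24984675535) (nat_lit 76) (nat_lit 6024811435) (nat_lit 56) (nat_lit 5) (nat_lit 59) (nat_lit 5) (nat_lit 57) (nat_lit 4) (nat_lit 453) (nat_lit 427) (nat_lit 320))) (XT.nd (nat_lit 78) (nat_lit 76) (nat_lit 0) (XT.lf (nat_lit 0) (nat_lit 40248421159) (nat_lit 76) (nat_lit 62375438439) (nat_lit 152) (nat_lit 4745587361) (nat_lit 55) (nat_lit 5) (nat_lit 56) (nat_lit 5) (nat_lit 57) (nat_lit 4) (nat_lit 454) (nat_lit 427) (nat_lit 319)) (XT.lf (nat_lit 0) (nat_lit 23137220770) (nat_lit 152) (nat_lit 1289972952) (nat_lit 76) (nat_lit 88348649537) (nat_lit 54) (nat_lit 5) (nat_lit 56) (nat_lit 5) (nat_lit 55) (nat_lit 5) (nat_lit 455) (nat_lit 427) (nat_lit 318)))))) (XT.nd (nat_lit 546) (nat_lit 532) (nat_lit 0) (XT.nd (nat_lit 234) (nat_lit 380) (nat_lit 0)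 (XT.nd (nat_lit 78) (nat_lit 152) (nat_lit 0) (XT.lf (nat_lit 0) (nat_lit 55204137442) (nat_lit 228) (nat_lit 45559910060) (nat_lit 76) (nat_lit 17664053357) (nat_lit 52) (nat_lit 5) (nat_lit 55) (nat_lit 5) (nat_lit 53) (nat_lit 4) (nat_lit 456) (nat_lit 427) (nat_lit 317)) (XT.nd (nat_lit 78) (nat_lit 76) (nat_lit 0) (XT.lf (nat_lit 0) (nat_lit 29332083736) (nat_lit 76) (nat_lit 61879022893) (nat_lit 152) (nat_lit 33211456564) (nat_lit 51) (nat_lit 5) (nat_lit 52) (nat_lit 5) (nat_lit 53) (nat_lit 4) (nat_lit 457) (nat_lit 427) (nat_lit 316)) (XT.lf (nat_lit 0) (nat_lit 518624717) (nat_lit 152) (nat_lit 18006122170) (nat_lit 76) (nat_lit 112271238358) (nat_lit 50) (nat_lit 5) (nat_lit 52) (nat_lit 5) (nat_lit 51) (nat_lit 5) (nat_lit 458) (nat_lit 427) (nat_lit 315)))) (XT.nd (nat_lit 156) (nat_lit 152) (nat_lit 0) (XT.nd (nat_lit 78) (nat_lit 76) (nat_lit 0) (XT.lf (nat_lit 0) (nat_lit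 37526701460) (nat_lit 228) (nat_lit 70455090577) (nat_lit 76) (nat_lit 29438568635) (nat_lit 48) (nat_lit 5) (nat_lit 51) (nat_lit 5) (nat_lit 49) (nat_lit 4) (nat_lit 459) (nat_lit 427) (nat_lit 314)) (XT.lf (nat_lit 0) (nat_lit 15502304743) (nat_lit 76) (nat_lit 63350951740) (nat_lit 152) (nat_lit 65612803124) (nat_lit 47) (nat_lit 5) (nat_lit 48) (nat_lit 5) (nat_lit 49) (nat_lit 4) (nat_lit 460) (nat_lit 427) (nat_lit 313))) (XT.nd (nat_lit 78) (nat_lit 152) (nat_lit 0) (XT.lf (nat_lit 0) (nat_lit 112340863301) (nat_lit 76) (nat_lit 13070211189) (nat_lit 152) (nat_lit 26510328922) (nat_lit 47) (nat_lit 5) (nat_lit 48) (nat_lit 5) (nat_lit 49) (nat_lit 4) (nat_lit 461) (nat_lit 427) (nat_lit 312)) (XT.lf (nat_lit 0) (nat_lit 17403662394) (nat_lit 152) (nat_lit 101314964068) (nat_lit 76) (nat_lit 41026725173) (nat_lit 45) (nat_lit 5) (nat_lit 47) (nat_lit 5) (nat_lit 46) (nat_lit 4) (nat_lit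 462) (nat_lit 427) (nat_lit 311))))) (XT.nd (nat_lit 312) (nat_lit 304) (nat_lit 0) (XT.nd (nat_lit 156) (nat_lit 152) (nat_lit 0) (XT.nd (nat_lit 78) (nat_lit 76) (nat_lit 0) (XT.lf (nat_lit 0) (nat_lit 64847169051) (nat_lit 152) (nat_lit 2633822034) (nat_lit 76) (nat_lit 100543246874) (nat_lit 45) (nat_lit 5) (nat_lit 47) (nat_lit 5) (nat_lit 46) (nat_lit 4) (nat_lit 463) (nat_lit 427) (nat_lit 310)) (XT.lf (nat_lit 0) (nat_lit 109413080852) (nat_lit 76) (nat_lit 9303393279) (nat_lit 152) (nat_lit 58038535660) (nat_lit 44) (nat_lit 5) (nat_lit 45) (nat_lit 5) (nat_lit 46) (nat_lit 4) (nat_lit 464) (nat_lit 427) (nat_lit 309))) (XT.nd (nat_lit 78) (nat_lit 76) (nat_lit 0) (XT.lf (nat_lit 0) (nat_lit 45373554738) (nat_lit 76) (nat_lit 133973187717) (nat_lit 76) (nat_lit 6641387435) (nat_lit 43) (nat_lit 4) (nat_lit 44) (nat_lit 5) (nat_lit 44) (nat_lit 4) (nat_lit 465) (nat_lit 427) (nat_lit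 308)) (XT.lf (nat_lit 0) (nat_lit 48552644200) (nat_lit 152) (nat_lit 26343293968) (nat_lit 76) (nat_lit 120799567150) (nat_lit 42) (nat_lit 5) (nat_lit 44) (nat_lit 5) (nat_lit 43) (nat_lit 4) (nat_lit 466) (nat_lit 427) (nat_lit 307)))) (XT.nd (nat_lit 156) (nat_lit 152) (nat_lit 0) (XT.nd (nat_lit 78) (nat_lit 76) (nat_lit 0) (XT.lf (nat_lit 0) (nat_lit 101997641701) (nat_lit 76) (nat_lit 8257817735) (nat_lit 152) (nat_lit 95714045603) (nat_lit 41) (nat_lit 5) (nat_lit 42) (nat_lit 5) (nat_lit 43) (nat_lit 4) (nat_lit 467) (nat_lit 427) (nat_lit 306)) (XT.lf (nat_lit 0) (nat_lit 24783112810) (nat_lit 76) (nat_lit 154977691662) (nat_lit 76) (nat_lit 37075315921) (nat_lit 40) (nat_lit 4) (nat_lit 41) (nat_lit 5) (nat_lit 41) (nat_lit 4) (nat_lit 468) (nat_lit 427) (nat_lit 305))) (XT.nd (nat_lit 78) (nat_lit 76) (nat_lit 0) (XT.lf (nat_lit 0) (nat_lit 28071290175) (nat_lit 152) (nat_lit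 59514822517) (nat_lit 76) (nat_lit 140685027762) (nat_lit 39) (nat_lit 5) (nat_lit 41) (nat_lit 5) (nat_lit 40) (nat_lit 4) (nat_lit 469) (nat_lit 427) (nat_lit 304)) (XT.lf (nat_lit 0) (nat_lit 87014489440) (nat_lit 76) (nat_lit 11503910447) (nat_lit 152) (nat_lit 141858178219) (nat_lit 38) (nat_lit 5) (nat_lit 39) (nat_lit 5) (nat_lit 40) (nat_lit 4) (nat_lit 470) (nat_lit 427) (nat_lit 303))))))))
noncomputable def xc155 : XT := (XT.nd (nat_lit 2184) (nat_lit 988) (nat_lit 0) (XT.nd (nat_lit 1092) (nat_lit 836) (nat_lit 0) (XT.nd (nat_lit 546) (nat_lit 456) (nat_lit 0) (XT.nd (nat_lit 234) (nat_lit 228) (nat_lit 0) (XT.nd (nat_lit 78) (nat_lit 228) (nat_lit 0) (XT.lf (nat_lit 0) (nat_lit 177969386692) (nat_lit 152) (nat_lit 6412977328) (nat_lit 0) (nat_lit 68798638100) (nat_lit 38) (nat_lit 5) (nat_lit 40) (nat_lit 4) (nat_lit 38) (nat_lit 4) (nat_lit 471) (nat_lit 427) (nat_lit 302))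 (XT.nd (nat_lit 78) (nat_lit 76) (nat_lit 0) (XT.lf (nat_lit 0) (nat_lit 1181969528) (nat_lit 152) (nat_lit 106712788795) (nat_lit 76) (nat_lit 158780958434) (nat_lit 36) (nat_lit 5) (nat_lit 38) (nat_lit 5) (nat_lit 37) (nat_lit 4) (nat_lit 472) (nat_lit 427) (nat_lit 301)) (XT.lf (nat_lit 0) (nat_lit 59809836393) (nat_lit 76) (nat_lit 21431326524) (nat_lit 152) (nat_lit 199723161591) (nat_lit 35) (nat_lit 5) (nat_lit 36) (nat_lit 5) (nat_lit 37) (nat_lit 4) (nat_lit 473) (nat_lit 427) (nat_lit 300)))) (XT.nd (nat_lit 156) (nat_lit 152) (nat_lit 0) (XT.nd (nat_lit 78) (nat_lit 76) (nat_lit 0) (XT.lf (nat_lit 0) (nat_lit 172428154624) (nat_lit 152) (nat_lit 52247276534) (nat_lit 0) (nat_lit 71342744703) (nat_lit 35) (nat_lit 5) (nat_lit 37) (nat_lit 4) (nat_lit 35) (nat_lit 4) (nat_lit 474) (nat_lit 427) (nat_lit 299)) (XT.lf (nat_lit 0) (nat_lit 136439605524) (nat_lit 76) (nat_lit 138307776118)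 (nat_lit 76) (nat_lit 37221971615) (nat_lit 34) (nat_lit 4) (nat_lit 35) (nat_lit 5) (nat_lit 35) (nat_lit 4) (nat_lit 475) (nat_lit 427) (nat_lit 298))) (XT.nd (nat_lit 78) (nat_lit 0) (nat_lit 0) (XT.lf (nat_lit 0) (nat_lit 13393698649) (nat_lit 76) (nat_lit 41644699670) (nat_lit 152) (nat_lit 273907415555) (nat_lit 32) (nat_lit 5) (nat_lit 33) (nat_lit 5) (nat_lit 34) (nat_lit 4) (nat_lit 476) (nat_lit 427) (nat_lit 297)) (XT.lf (nat_lit 0) (nat_lit 159101015906) (nat_lit 152) (nat_lit 122085044128) (nat_lit 0) (nat_lit 65502397252) (nat_lit 32) (nat_lit 5) (nat_lit 34) (nat_lit 4) (nat_lit 32) (nat_lit 4) (nat_lit 477) (nat_lit 427) (nat_lit 296))))) (XT.nd (nat_lit 234) (nat_lit 228) (nat_lit 0) (XT.nd (nat_lit 78) (nat_lit 152) (nat_lit 0) (XT.lf (nat_lit 0) (nat_lit 90293138120) (nat_lit 76) (nat_lit 184448039964) (nat_lit 76) (nat_lit 90849131281) (nat_lit 31) (nat_lit 4) (nat_lit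 32) (nat_lit 5) (nat_lit 32) (nat_lit 4) (nat_lit 478) (nat_lit 427) (nat_lit 295)) (XT.nd (nat_lit 78) (nat_lit 76) (nat_lit 0) (XT.lf (nat_lit 0) (nat_lit 16370530686) (nat_lit 152) (nat_lit 59548473401) (nat_lit 76) (nat_lit 309785162602) (nat_lit 30) (nat_lit 5) (nat_lit 32) (nat_lit 5) (nat_lit 31) (nat_lit 4) (nat_lit 479) (nat_lit 427) (nat_lit 294)) (XT.lf (nat_lit 0) (nat_lit 132757398350) (nat_lit 152) (nat_lit 227949865923) (nat_lit 0) (nat_lit 46091263274) (nat_lit 29) (nat_lit 5) (nat_lit 31) (nat_lit 4) (nat_lit 29) (nat_lit 4) (nat_lit 480) (nat_lit 427) (nat_lit 293)))) (XT.nd (nat_lit 156) (nat_lit 152) (nat_lit 0) (XT.nd (nat_lit 78) (nat_lit 0) (nat_lit 0) (XT.lf (nat_lit 0) (nat_lit 8672265667) (nat_lit 76) (nat_lit 253633248004) (nat_lit 76) (nat_lit 166966899747) (nat_lit 28) (nat_lit 4) (nat_lit 29) (nat_lit 5) (nat_lit 29) (nat_lit 4) (nat_lit 481) (nat_lit 427) (nat_lit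 292)) (XT.lf (nat_lit 0) (nat_lit 277186609993) (nat_lit 76) (nat_lit 131262795805) (nat_lit 76) (nat_lit 44596250159) (nat_lit 28) (nat_lit 4) (nat_lit 29) (nat_lit 5) (nat_lit 29) (nat_lit 4) (nat_lit 482) (nat_lit 427) (nat_lit 291))) (XT.nd (nat_lit 78) (nat_lit 0) (nat_lit 0) (XT.lf (nat_lit 0) (nat_lit 85502379610) (nat_lit 152) (nat_lit 387609005100) (nat_lit 0) (nat_lit 5255408857) (nat_lit 26) (nat_lit 5) (nat_lit 28) (nat_lit 4) (nat_lit 26) (nat_lit 4) (nat_lit 483) (nat_lit 427) (nat_lit 290)) (XT.lf (nat_lit 0) (nat_lit 231941562988) (nat_lit 152) (nat_lit 121317594599) (nat_lit 0) (nat_lit 151694435541) (nat_lit 26) (nat_lit 5) (nat_lit 28) (nat_lit 4) (nat_lit 26) (nat_lit 4) (nat_lit 484) (nat_lit 427) (nat_lit 289)))))) (XT.nd (nat_lit 546) (nat_lit 380) (nat_lit 0) (XT.nd (nat_lit 234) (nat_lit 228) (nat_lit 0) (XT.nd (nat_lit 78) (nat_lit 152) (nat_lit 0) (XT.lf (nat_lit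 0) (nat_lit 175031810848) (nat_lit 76) (nat_lit 219273040365) (nat_lit 76) (nat_lit 139025767832) (nat_lit 25) (nat_lit 4) (nat_lit 26) (nat_lit 5) (nat_lit 26) (nat_lit 4) (nat_lit 485) (nat_lit 427) (nat_lit 288)) (XT.nd (nat_lit 78) (nat_lit 76) (nat_lit 0) (XT.lf (nat_lit 0) (nat_lit 8797935453) (nat_lit 152) (nat_lit 61947701129) (nat_lit 76) (nat_lit 492949031580) (nat_lit 24) (nat_lit 5) (nat_lit 26) (nat_lit 5) (nat_lit 25) (nat_lit 4) (nat_lit 486) (nat_lit 427) (nat_lit 287)) (XT.lf (nat_lit 0) (nat_lit 169796600054) (nat_lit 152) (nat_lit 330200220672) (nat_lit 0) (nat_lit 95493330367) (nat_lit 23) (nat_lit 5) (nat_lit 25) (nat_lit 4) (nat_lit 23) (nat_lit 4) (nat_lit 487) (nat_lit 427) (nat_lit 286)))) (XT.nd (nat_lit 156) (nat_lit 152) (nat_lit 0) (XT.nd (nat_lit 78) (nat_lit 76) (nat_lit 0) (XT.lf (nat_lit 0) (nat_lit 347249953602) (nat_lit 152) (nat_lit 9346758126) (nat_lit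 0) (nat_lit 272946577272) (nat_lit 23) (nat_lit 5) (nat_lit 25) (nat_lit 4) (nat_lit 23) (nat_lit 4) (nat_lit 488) (nat_lit 427) (nat_lit 285)) (XT.lf (nat_lit 0) (nat_lit 354929008017) (nat_lit 76) (nat_lit 192506149227) (nat_lit 76) (nat_lit 118202674153) (nat_lit 22) (nat_lit 4) (nat_lit 23) (nat_lit 5) (nat_lit 23) (nat_lit 4) (nat_lit 489) (nat_lit 427) (nat_lit 284))) (XT.nd (nat_lit 78) (nat_lit 0) (nat_lit 0) (XT.lf (nat_lit 0) (nat_lit 45108494799) (nat_lit 76) (nat_lit 12301150057) (nat_lit 152) (nat_lit 646989020001) (nat_lit 20) (nat_lit 5) (nat_lit 21) (nat_lit 5) (nat_lit 22) (nat_lit 4) (nat_lit 490) (nat_lit 427) (nat_lit 283)) (XT.lf (nat_lit 0) (nat_lit 253785260661) (nat_lit 152) (nat_lit 306195878659) (nat_lit 0) (nat_lit 184985583661) (nat_lit 20) (nat_lit 5) (nat_lit 22) (nat_lit 4) (nat_lit 20) (nat_lit 4) (nat_lit 491) (nat_lit 427) (nat_lit 282))))) (XT.nd (nat_lit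 234) (nat_lit 152) (nat_lit 0) (XT.nd (nat_lit 78) (nat_lit 152) (nat_lit 0) (XT.lf (nat_lit 0) (nat_lit 78765737052) (nat_lit 76) (nat_lit 389318583354) (nat_lit 76) (nat_lit 320518833775) (nat_lit 19) (nat_lit 4) (nat_lit 20) (nat_lit 5) (nat_lit 20) (nat_lit 4) (nat_lit 492) (nat_lit 427) (nat_lit 281)) (XT.nd (nat_lit 78) (nat_lit 152) (nat_lit 0) (XT.lf (nat_lit 0) (nat_lit 511937045699) (nat_lit 76) (nat_lit 195961774857) (nat_lit 76) (nat_lit 127161958074) (nat_lit 19) (nat_lit 4) (nat_lit 20) (nat_lit 5) (nat_lit 20) (nat_lit 4) (nat_lit 493) (nat_lit 427) (nat_lit 280)) (XT.lf (nat_lit 0) (nat_lit 80342514829) (nat_lit 152) (nat_lit 787875319621) (nat_lit 0) (nat_lit 16638923155) (nat_lit 17) (nat_lit 5) (nat_lit 19) (nat_lit 4) (nat_lit 17) (nat_lit 4) (nat_lit 494) (nat_lit 427) (nat_lit 279)))) (XT.nd (nat_lit 156) (nat_lit 76) (nat_lit 0) (XT.nd (nat_lit 78) (nat_lit 76) (nat_lit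 0) (XT.lf (nat_lit 0) (nat_lit 311731062601) (nat_lit 152) (nat_lit 377481400823) (nat_lit 0) (nat_lit 248027417579) (nat_lit 17) (nat_lit 5) (nat_lit 19) (nat_lit 4) (nat_lit 17) (nat_lit 4) (nat_lit 495) (nat_lit 427) (nat_lit 278)) (XT.lf (nat_lit 0) (nat_lit 69205191923) (nat_lit 76) (nat_lit 494089517766) (nat_lit 76) (nat_lit 430385823347) (nat_lit 16) (nat_lit 4) (nat_lit 17) (nat_lit 5) (nat_lit 17) (nat_lit 4) (nat_lit 496) (nat_lit 427) (nat_lit 277))) (XT.nd (nat_lit 78) (nat_lit 76) (nat_lit 0) (XT.lf (nat_lit 0) (nat_lit 573093669623) (nat_lit 76) (nat_lit 272210427923) (nat_lit 76) (nat_lit 208506687767) (nat_lit 16) (nat_lit 4) (nat_lit 17) (nat_lit 5) (nat_lit 17) (nat_lit 4) (nat_lit 497) (nat_lit 427) (nat_lit 276)) (XT.lf (nat_lit 0) (nat_lit 29565547852) (nat_lit 152) (nat_lit 2207442971) (nat_lit 76) (nat_lit 1086918614132) (nat_lit 15) (nat_lit 5) (nat_lit 17) (nat_lit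 5) (nat_lit 16) (nat_lit 4) (nat_lit 498) (nat_lit 427) (nat_lit 275))))))) (XT.nd (nat_lit 1092) (nat_lit 380) (nat_lit 0) (XT.nd (nat_lit 546) (nat_lit 304) (nat_lit 0) (XT.nd (nat_lit 234) (nat_lit 152) (nat_lit 0) (XT.nd (nat_lit 78) (nat_lit 76) (nat_lit 0) (XT.lf (nat_lit 0) (nat_lit 294265221723) (nat_lit 152) (nat_lit 657276491280) (nat_lit 0) (nat_lit 235280201614) (nat_lit 14) (nat_lit 5) (nat_lit 16) (nat_lit 4) (nat_lit 14) (nat_lit 4) (nat_lit 499) (nat_lit 427) (nat_lit 274)) (XT.nd (nat_lit 78) (nat_lit 76) (nat_lit 0) (XT.lf (nat_lit 0) (nat_lit 581027747435) (nat_lit 152) (nat_lit 157261257676) (nat_lit 0) (nat_lit 522042693707) (nat_lit 14) (nat_lit 5) (nat_lit 16) (nat_lit 4) (nat_lit 14) (nat_lit 4) (nat_lit 500) (nat_lit 427) (nat_lit 273)) (XT.lf (nat_lit 0) (nat_lit 402909766363) (nat_lit 76) (nat_lit 497511204306) (nat_lit 76) (nat_lit 438526119450) (nat_lit 13) (nat_lit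 4) (nat_lit 14) (nat_lit 5) (nat_lit 14) (nat_lit 4) (nat_lit 501) (nat_lit 427) (nat_lit 272)))) (XT.nd (nat_lit 156) (nat_lit 0) (nat_lit 0) (XT.nd (nat_lit 78) (nat_lit 152) (nat_lit 0) (XT.lf (nat_lit 0) (nat_lit 1016837468192) (nat_lit 76) (nat_lit 232827698508) (nat_lit 76) (nat_lit 173842584830) (nat_lit 13) (nat_lit 4) (nat_lit 14) (nat_lit 5) (nat_lit 14) (nat_lit 4) (nat_lit 502) (nat_lit 427) (nat_lit 271)) (XT.lf (nat_lit 0) (nat_lit 111974159915) (nat_lit 152) (nat_lit 1344840338203) (nat_lit 0) (nat_lit 57358289206) (nat_lit 11) (nat_lit 5) (nat_lit 13) (nat_lit 4) (nat_lit 11) (nat_lit 4) (nat_lit 503) (nat_lit 427) (nat_lit 270))) (XT.nd (nat_lit 78) (nat_lit 0) (nat_lit 0) (XT.lf (nat_lit 0) (nat_lit 428719323620) (nat_lit 152) (nat_lit 807510633439) (nat_lit 0) (nat_lit 374103430031) (nat_lit 11) (nat_lit 5) (nat_lit 13) (nat_lit 4) (nat_lit 11) (nat_lit 4) (nat_lit 504)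 (nat_lit 427) (nat_lit 269)) (XT.lf (nat_lit 0) (nat_lit 770803848570) (nat_lit 152) (nat_lit 227195072619) (nat_lit 0) (nat_lit 716187933796) (nat_lit 11) (nat_lit 5) (nat_lit 13) (nat_lit 4) (nat_lit 11) (nat_lit 4) (nat_lit 505) (nat_lit 427) (nat_lit 268))))) (XT.nd (nat_lit 234) (nat_lit 228) (nat_lit 0) (XT.nd (nat_lit 78) (nat_lit 0) (nat_lit 0) (XT.lf (nat_lit 0) (nat_lit 420584596159) (nat_lit 76) (nat_lit 729785375813) (nat_lit 76) (nat_lit 675169441423) (nat_lit 10) (nat_lit 4) (nat_lit 11) (nat_lit 5) (nat_lit 11) (nat_lit 4) (nat_lit 506) (nat_lit 427) (nat_lit 267)) (XT.nd (nat_lit 78) (nat_lit 0) (nat_lit 0) (XT.lf (nat_lit 0) (nat_lit 1133106953947) (nat_lit 76) (nat_lit 433406119995) (nat_lit 76) (nat_lit 378790167442) (nat_lit 10) (nat_lit 4) (nat_lit 11) (nat_lit 5) (nat_lit 11) (nat_lit 4) (nat_lit 507) (nat_lit 427) (nat_lit 266)) (XT.lf (nat_lit 0) (nat_lit 1902630665557)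 (nat_lit 76) (nat_lit 113316748129) (nat_lit 76) (nat_lit 58700778758) (nat_lit 10) (nat_lit 4) (nat_lit 11) (nat_lit 5) (nat_lit 11) (nat_lit 4) (nat_lit 508) (nat_lit 427) (nat_lit 265)))) (XT.nd (nat_lit 156) (nat_lit 76) (nat_lit 0) (XT.nd (nat_lit 78) (nat_lit 0) (nat_lit 0) (XT.lf (nat_lit 0) (nat_lit 291717867758) (nat_lit 152) (nat_lit 1679396876339) (nat_lit 0) (nat_lit 241147511330) (nat_lit 8) (nat_lit 5) (nat_lit 10) (nat_lit 4) (nat_lit 8) (nat_lit 4) (nat_lit 509) (nat_lit 427) (nat_lit 264)) (XT.lf (nat_lit 0) (nat_lit 674767158395) (nat_lit 152) (nat_lit 1061178039263) (nat_lit 0) (nat_lit 624196788617) (nat_lit 8) (nat_lit 5) (nat_lit 10) (nat_lit 4) (nat_lit 8) (nat_lit 4) (nat_lit 510) (nat_lit 427) (nat_lit 263))) (XT.nd (nat_lit 78) (nat_lit 76) (nat_lit 0) (XT.lf (nat_lit 0) (nat_lit 1088460207338) (nat_lit 152) (nat_lit 393502077849) (nat_lit 0) (nat_lit 1037889825199)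 (nat_lit 8) (nat_lit 5) (nat_lit 10) (nat_lit 4) (nat_lit 8) (nat_lit 4) (nat_lit 511) (nat_lit 427) (nat_lit 262)) (XT.lf (nat_lit 0) (nat_lit 344837788998) (nat_lit 76) (nat_lit 1198704097072) (nat_lit 76) (nat_lit 1148133703487) (nat_lit 7) (nat_lit 4) (nat_lit 8) (nat_lit 5) (nat_lit 8) (nat_lit 4) (nat_lit 512) (nat_lit 427) (nat_lit 261)))))) (XT.nd (nat_lit 546) (nat_lit 228) (nat_lit 0) (XT.nd (nat_lit 234) (nat_lit 152) (nat_lit 0) (XT.nd (nat_lit 78) (nat_lit 0) (nat_lit 0) (XT.lf (nat_lit 0) (nat_lit 1164623311716) (nat_lit 76) (nat_lit 881165664672) (nat_lit 76) (nat_lit 830595260489) (nat_lit 7) (nat_lit 4) (nat_lit 8) (nat_lit 5) (nat_lit 8) (nat_lit 4) (nat_lit 513) (nat_lit 427) (nat_lit 260)) (XT.nd (nat_lit 78) (nat_lit 0) (nat_lit 0) (XT.lf (nat_lit 0) (nat_lit 2049991356515) (nat_lit 76) (nat_lit 538224322914) (nat_lit 76) (nat_lit 487653908917) (nat_lit 7) (nat_lit 4)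 (nat_lit 8) (nat_lit 5) (nat_lit 8) (nat_lit 4) (nat_lit 514) (nat_lit 427) (nat_lit 259)) (XT.lf (nat_lit 0) (nat_lit 3006188548843) (nat_lit 76) (nat_lit 167847826807) (nat_lit 76) (nat_lit 117277403725) (nat_lit 7) (nat_lit 4) (nat_lit 8) (nat_lit 5) (nat_lit 8) (nat_lit 4) (nat_lit 515) (nat_lit 427) (nat_lit 258)))) (XT.nd (nat_lit 156) (nat_lit 0) (nat_lit 0) (XT.nd (nat_lit 78) (nat_lit 0) (nat_lit 0) (XT.lf (nat_lit 0) (nat_lit 287542953463) (nat_lit 152) (nat_lit 2993671541415) (nat_lit 0) (nat_lit 240718479857) (nat_lit 5) (nat_lit 5) (nat_lit 7) (nat_lit 4) (nat_lit 5) (nat_lit 4) (nat_lit 516) (nat_lit 427) (nat_lit 257)) (XT.lf (nat_lit 0) (nat_lit 730770779390) (nat_lit 152) (nat_lit 2355052305168) (nat_lit 0) (nat_lit 683946298570) (nat_lit 5) (nat_lit 5) (nat_lit 7) (nat_lit 4) (nat_lit 5) (nat_lit 4) (nat_lit 517) (nat_lit 427) (nat_lit 256))) (XT.nd (nat_lit 78) (nat_lit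 0) (nat_lit 0) (XT.lf (nat_lit 0) (nat_lit 1209456705613) (nat_lit 152) (nat_lit 1665343790526) (nat_lit 0) (nat_lit 1162632218115) (nat_lit 5) (nat_lit 5) (nat_lit 7) (nat_lit 4) (nat_lit 5) (nat_lit 4) (nat_lit 518) (nat_lit 427) (nat_lit 255)) (XT.lf (nat_lit 0) (nat_lit 1726437389474) (nat_lit 152) (nat_lit 920458835921) (nat_lit 0) (nat_lit 1679612895792) (nat_lit 5) (nat_lit 5) (nat_lit 7) (nat_lit 4) (nat_lit 5) (nat_lit 4) (nat_lit 519) (nat_lit 427) (nat_lit 254))))) (XT.nd (nat_lit 312) (nat_lit 152) (nat_lit 0) (XT.nd (nat_lit 156) (nat_lit 0) (nat_lit 0) (XT.nd (nat_lit 78) (nat_lit 76) (nat_lit 0) (XT.lf (nat_lit 0) (nat_lit 2284776420211) (nat_lit 152) (nat_lit 115983308288) (nat_lit 0) (nat_lit 2237951920803) (nat_lit 5) (nat_lit 5) (nat_lit 7) (nat_lit 4) (nat_lit 5) (nat_lit 4) (nat_lit 520) (nat_lit 427) (nat_lit 253)) (XT.lf (nat_lit 0) (nat_lit 792493804476) (nat_lit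 76) (nat_lit 2114348164141) (nat_lit 76) (nat_lit 2067523659432) (nat_lit 4) (nat_lit 4) (nat_lit 5) (nat_lit 5) (nat_lit 5) (nat_lit 4) (nat_lit 521) (nat_lit 427) (nat_lit 252))) (XT.nd (nat_lit 78) (nat_lit 0) (nat_lit 0) (XT.lf (nat_lit 0) (nat_lit 1780244958212) (nat_lit 76) (nat_lit 1801598894575) (nat_lit 76) (nat_lit 1754774384957) (nat_lit 4) (nat_lit 4) (nat_lit 5) (nat_lit 5) (nat_lit 5) (nat_lit 4) (nat_lit 522) (nat_lit 427) (nat_lit 251)) (XT.lf (nat_lit 0) (nat_lit 2847016017616) (nat_lit 76) (nat_lit 1463829779985) (nat_lit 76) (nat_lit 1417005265822) (nat_lit 4) (nat_lit 4) (nat_lit 5) (nat_lit 5) (nat_lit 5) (nat_lit 4) (nat_lit 523) (nat_lit 427) (nat_lit 250)))) (XT.nd (nat_lit 156) (nat_lit 152) (nat_lit 0) (XT.nd (nat_lit 78) (nat_lit 0) (nat_lit 0) (XT.lf (nat_lit 0) (nat_lit 3999128588966) (nat_lit 76) (nat_lit 1099039225618) (nat_lit 76) (nat_lit 1052214707246) (nat_lit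 4) (nat_lit 4) (nat_lit 5) (nat_lit 5) (nat_lit 5) (nat_lit 4) (nat_lit 524) (nat_lit 427) (nat_lit 249)) (XT.lf (nat_lit 0) (nat_lit 5243410006017) (nat_lit 76) (nat_lit 705065509670) (nat_lit 76) (nat_lit 658240987401) (nat_lit 4) (nat_lit 4) (nat_lit 5) (nat_lit 5) (nat_lit 5) (nat_lit 4) (nat_lit 525) (nat_lit 427) (nat_lit 248))) (XT.nd (nat_lit 78) (nat_lit 152) (nat_lit 0) (XT.lf (nat_lit 0) (nat_lit 6587233788278) (nat_lit 76) (nat_lit 279573973083) (nat_lit 76) (nat_lit 232749447206) (nat_lit 4) (nat_lit 4) (nat_lit 5) (nat_lit 5) (nat_lit 5) (nat_lit 4) (nat_lit 526) (nat_lit 427) (nat_lit 247)) (XT.lf (nat_lit 0) (nat_lit 230329416632) (nat_lit 152) (nat_lit 7212894652887) (nat_lit 0) (nat_lit 186973371060) (nat_lit 2) (nat_lit 5) (nat_lit 4) (nat_lit 4) (nat_lit 2) (nat_lit 4) (nat_lit 527) (nat_lit 427) (nat_lit 246))))))))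
noncomputable def xc156 : XT := (XT.nd (nat_lit 55770) (nat_lit 0) (nat_lit 2888) (XT.nd (nat_lit 54678) (nat_lit 0) (nat_lit 5624) (XT.nd (nat_lit 546) (nat_lit 76) (nat_lit 0) (XT.nd (nat_lit 234) (nat_lit 0) (nat_lit 0) (XT.nd (nat_lit 78) (nat_lit 0) (nat_lit 0) (XT.lf (nat_lit 0) (nat_lit 739513337686) (nat_lit 152) (nat_lit 6765403967904) (nat_lit 0) (nat_lit 696157289249) (nat_lit 2) (nat_lit 5) (nat_lit 4) (nat_lit 4) (nat_lit 2) (nat_lit 4) (nat_lit 528) (nat_lit 427) (nat_lit 245)) (XT.nd (nat_lit 78) (nat_lit 0) (nat_lit 0) (XT.lf (nat_lit 0) (nat_lit 1289431909541) (nat_lit 152) (nat_lit 6282114158477) (nat_lit 0) (nat_lit 1246075858453) (nat_lit 2) (nat_lit 5) (nat_lit 4) (nat_lit 4) (nat_lit 2) (nat_lit 4) (nat_lit 529) (nat_lit 427) (nat_lit 244)) (XT.lf (nat_lit 0) (nat_lit 1883343908920) (nat_lit 152) (nat_lit 5760161284995) (nat_lit 0) (nat_lit 1839987855376) (nat_lit 2)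 (nat_lit 5) (nat_lit 4) (nat_lit 4) (nat_lit 2) (nat_lit 4) (nat_lit 530) (nat_lit 427) (nat_lit 243)))) (XT.nd (nat_lit 156) (nat_lit 0) (nat_lit 0) (XT.nd (nat_lit 78) (nat_lit 0) (nat_lit 0) (XT.lf (nat_lit 0) (nat_lit 2524768814338) (nat_lit 152) (nat_lit 5196452293393) (nat_lit 0) (nat_lit 2481412758520) (nat_lit 2) (nat_lit 5) (nat_lit 4) (nat_lit 4) (nat_lit 2) (nat_lit 4) (nat_lit 531) (nat_lit 427) (nat_lit 242)) (XT.lf (nat_lit 0) (nat_lit 3217507662271) (nat_lit 152) (nat_lit 4587646685942) (nat_lit 0) (nat_lit 3174151604348) (nat_lit 2) (nat_lit 5) (nat_lit 4) (nat_lit 4) (nat_lit 2) (nat_lit 4) (nat_lit 532) (nat_lit 427) (nat_lit 241))) (XT.nd (nat_lit 78) (nat_lit 0) (nat_lit 0) (XT.lf (nat_lit 0) (nat_lit 3965665571818) (nat_lit 152) (nat_lit 3930136725710) (nat_lit 0) (nat_lit 3922309511946) (nat_lit 2) (nat_lit 5) (nat_lit 4) (nat_lit 4) (nat_lit 2) (nat_lit 4) (nat_lit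 533) (nat_lit 427) (nat_lit 240)) (XT.lf (nat_lit 0) (nat_lit 4773676071332) (nat_lit 152) (nat_lit 3220026057376) (nat_lit 0) (nat_lit 4730320009655) (nat_lit 2) (nat_lit 5) (nat_lit 4) (nat_lit 4) (nat_lit 2) (nat_lit 4) (nat_lit 534) (nat_lit 427) (nat_lit 239))))) (XT.nd (nat_lit 234) (nat_lit 76) (nat_lit 0) (XT.nd (nat_lit 78) (nat_lit 0) (nat_lit 0) (XT.lf (nat_lit 0) (nat_lit 5646327371180) (nat_lit 152) (nat_lit 2453106617721) (nat_lit 0) (nat_lit 5602971307831) (nat_lit 2) (nat_lit 5) (nat_lit 4) (nat_lit 4) (nat_lit 2) (nat_lit 4) (nat_lit 535) (nat_lit 427) (nat_lit 238)) (XT.nd (nat_lit 78) (nat_lit 0) (nat_lit 0) (XT.lf (nat_lit 0) (nat_lit 6588790738325) (nat_lit 152) (nat_lit 1624833698955) (nat_lit 0) (nat_lit 6545434673429) (nat_lit 2) (nat_lit 5) (nat_lit 4) (nat_lit 4) (nat_lit 2) (nat_lit 4) (nat_lit 536) (nat_lit 427) (nat_lit 237)) (XT.lf (nat_lit 0) (nat_lit 7606651140868)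 (nat_lit 152) (nat_lit 730299017113) (nat_lit 0) (nat_lit 7563295074538) (nat_lit 2) (nat_lit 5) (nat_lit 4) (nat_lit 4) (nat_lit 2) (nat_lit 4) (nat_lit 537) (nat_lit 427) (nat_lit 236)))) (XT.nd (nat_lit 156) (nat_lit 0) (nat_lit 0) (XT.nd (nat_lit 78) (nat_lit 0) (nat_lit 0) (XT.lf (nat_lit 0) (nat_lit 248215098572) (nat_lit 76) (nat_lit 8463694824674) (nat_lit 76) (nat_lit 8420338757018) (nat_lit 1) (nat_lit 4) (nat_lit 2) (nat_lit 5) (nat_lit 2) (nat_lit 4) (nat_lit 538) (nat_lit 427) (nat_lit 235)) (XT.lf (nat_lit 0) (nat_lit 1346543032158) (nat_lit 76) (nat_lit 8579014014731) (nat_lit 76) (nat_lit 8535657945847) (nat_lit 1) (nat_lit 4) (nat_lit 2) (nat_lit 5) (nat_lit 2) (nat_lit 4) (nat_lit 539) (nat_lit 427) (nat_lit 234))) (XT.nd (nat_lit 78) (nat_lit 0) (nat_lit 0) (XT.lf (nat_lit 0) (nat_lit 2532737141580) (nat_lit 76) (nat_lit 8703558770459) (nat_lit 76) (nat_lit 8660202700437)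 (nat_lit 1) (nat_lit 4) (nat_lit 2) (nat_lit 5) (nat_lit 2) (nat_lit 4) (nat_lit 540) (nat_lit 427) (nat_lit 233)) (XT.lf (nat_lit 0) (nat_lit 3813826725265) (nat_lit 76) (nat_lit 8838067134854) (nat_lit 76) (nat_lit 8794711063779) (nat_lit 1) (nat_lit 4) (nat_lit 2) (nat_lit 5) (nat_lit 2) (nat_lit 4) (nat_lit 541) (nat_lit 427) (nat_lit 232)))))) (XT.nd (nat_lit 546) (nat_lit 836) (nat_lit 0) (XT.nd (nat_lit 234) (nat_lit 0) (nat_lit 76) (XT.nd (nat_lit 78) (nat_lit 532) (nat_lit 0) (XT.lf (nat_lit 0) (nat_lit 17060534316) (nat_lit 532) (nat_lit 234523669) (nat_lit 532) (nat_lit 234523669) (nat_lit 93) (nat_lit 3) (nat_lit 100) (nat_lit 3) (nat_lit 100) (nat_lit 5) (nat_lit 428) (nat_lit 428) (nat_lit 344)) (XT.nd (nat_lit 78) (nat_lit 532) (nat_lit 0) (XT.lf (nat_lit 76) (nat_lit 17885181847) (nat_lit 0) (nat_lit 18081243579) (nat_lit 532) (nat_lit 456656571) (nat_lit 94) (nat_lit 5)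 (nat_lit 93) (nat_lit 3) (nat_lit 100) (nat_lit 5) (nat_lit 429) (nat_lit 428) (nat_lit 343)) (XT.lf (nat_lit 0) (nat_lit 68045754) (nat_lit 532) (nat_lit 165660990) (nat_lit 608) (nat_lit 37661653034) (nat_lit 86) (nat_lit 5) (nat_lit 93) (nat_lit 3) (nat_lit 94) (nat_lit 5) (nat_lit 430) (nat_lit 428) (nat_lit 342)))) (XT.nd (nat_lit 156) (nat_lit 0) (nat_lit 76) (XT.nd (nat_lit 78) (nat_lit 0) (nat_lit 0) (XT.lf (nat_lit 0) (nat_lit 1574196249) (nat_lit 532) (nat_lit 19219343037) (nat_lit 608) (nat_lit 18613800713) (nat_lit 87) (nat_lit 5) (nat_lit 94) (nat_lit 5) (nat_lit 95) (nat_lit 5) (nat_lit 431) (nat_lit 428) (nat_lit 341)) (XT.lf (nat_lit 76) (nat_lit 1189526987) (nat_lit 0) (nat_lit 2046116394) (nat_lit 608) (nat_lit 37801851420) (nat_lit 88) (nat_lit 5) (nat_lit 87) (nat_lit 5) (nat_lit 95) (nat_lit 5) (nat_lit 432) (nat_lit 428) (nat_lit 340))) (XT.nd (nat_lit 78) (nat_lit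 0) (nat_lit 0) (XT.lf (nat_lit 0) (nat_lit 6002647595) (nat_lit 532) (nat_lit 18886809492) (nat_lit 608) (nat_lit 17830794090) (nat_lit 88) (nat_lit 5) (nat_lit 95) (nat_lit 5) (nat_lit 96) (nat_lit 5) (nat_lit 433) (nat_lit 428) (nat_lit 339)) (XT.lf (nat_lit 76) (nat_lit 3889391662) (nat_lit 0) (nat_lit 5244384474) (nat_lit 608) (nat_lit 35392431267) (nat_lit 89) (nat_lit 5) (nat_lit 88) (nat_lit 5) (nat_lit 96) (nat_lit 5) (nat_lit 434) (nat_lit 428) (nat_lit 338))))) (XT.nd (nat_lit 234) (nat_lit 532) (nat_lit 0) (XT.nd (nat_lit 78) (nat_lit 532) (nat_lit 0) (XT.lf (nat_lit 0) (nat_lit 13425645474) (nat_lit 532) (nat_lit 17274570743) (nat_lit 76) (nat_lit 15703604290) (nat_lit 89) (nat_lit 5) (nat_lit 96) (nat_lit 5) (nat_lit 90) (nat_lit 5) (nat_lit 435) (nat_lit 428) (nat_lit 337)) (XT.nd (nat_lit 78) (nat_lit 0) (nat_lit 0) (XT.lf (nat_lit 0) (nat_lit 8228840821) (nat_lit 532) (nat_lit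 10162723527) (nat_lit 608) (nat_lit 30013622707) (nat_lit 82) (nat_lit 5) (nat_lit 89) (nat_lit 5) (nat_lit 90) (nat_lit 5) (nat_lit 436) (nat_lit 428) (nat_lit 336)) (XT.lf (nat_lit 0) (nat_lit 24525127904) (nat_lit 608) (nat_lit 14078643047) (nat_lit 76) (nat_lit 11901262644) (nat_lit 82) (nat_lit 5) (nat_lit 90) (nat_lit 5) (nat_lit 83) (nat_lit 5) (nat_lit 437) (nat_lit 428) (nat_lit 335)))) (XT.nd (nat_lit 156) (nat_lit 304) (nat_lit 0) (XT.nd (nat_lit 78) (nat_lit 0) (nat_lit 0) (XT.lf (nat_lit 0) (nat_lit 14568523740) (nat_lit 228) (nat_lit 17192191317) (nat_lit 304) (nat_lit 20963246057) (nat_lit 79) (nat_lit 5) (nat_lit 82) (nat_lit 5) (nat_lit 83) (nat_lit 5) (nat_lit 438) (nat_lit 428) (nat_lit 334)) (XT.lf (nat_lit 0) (nat_lit 40109895893) (nat_lit 304) (nat_lit 8937455273) (nat_lit 76) (nat_lit 6030272244) (nat_lit 79) (nat_lit 5) (nat_lit 83) (nat_lit 5) (nat_lit 80) (nat_lit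 5) (nat_lit 439) (nat_lit 428) (nat_lit 333))) (XT.nd (nat_lit 78) (nat_lit 76) (nat_lit 0) (XT.lf (nat_lit 0) (nat_lit 23335700681) (nat_lit 228) (nat_lit 26796437910) (nat_lit 304) (nat_lit 7407030195) (nat_lit 76) (nat_lit 5) (nat_lit 79) (nat_lit 5) (nat_lit 80) (nat_lit 5) (nat_lit 440) (nat_lit 428) (nat_lit 332)) (XT.lf (nat_lit 0) (nat_lit 968702929) (nat_lit 304) (nat_lit 1506807698) (nat_lit 76) (nat_lit 57700818060) (nat_lit 75) (nat_lit 5) (nat_lit 79) (nat_lit 5) (nat_lit 76) (nat_lit 5) (nat_lit 441) (nat_lit 428) (nat_lit 331))))))) (XT.nd (nat_lit 1092) (nat_lit 1216) (nat_lit 0) (XT.nd (nat_lit 546) (nat_lit 532) (nat_lit 0) (XT.nd (nat_lit 234) (nat_lit 532) (nat_lit 0) (XT.nd (nat_lit 78) (nat_lit 228) (nat_lit 0) (XT.lf (nat_lit 0) (nat_lit 11062082418) (nat_lit 304) (nat_lit 28160287608) (nat_lit 76) (nat_lit 23670879572) (nat_lit 72) (nat_lit 5) (nat_lit 76) (nat_lit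 5) (nat_lit 73) (nat_lit 5) (nat_lit 442) (nat_lit 428) (nat_lit 330)) (XT.nd (nat_lit 78) (nat_lit 0) (nat_lit 0) (XT.lf (nat_lit 0) (nat_lit 8489713348) (nat_lit 228) (nat_lit 13781664848) (nat_lit 304) (nat_lit 43531470524) (nat_lit 69) (nat_lit 5) (nat_lit 72) (nat_lit 5) (nat_lit 73) (nat_lit 5) (nat_lit 443) (nat_lit 428) (nat_lit 329)) (XT.lf (nat_lit 0) (nat_lit 35494500242) (nat_lit 304) (nat_lit 19562820974) (nat_lit 76) (nat_lit 13798528143) (nat_lit 69) (nat_lit 5) (nat_lit 73) (nat_lit 5) (nat_lit 70) (nat_lit 5) (nat_lit 444) (nat_lit 428) (nat_lit 328)))) (XT.nd (nat_lit 156) (nat_lit 380) (nat_lit 0) (XT.nd (nat_lit 78) (nat_lit 0) (nat_lit 0) (XT.lf (nat_lit 0) (nat_lit 21944462143) (nat_lit 152) (nat_lit 28714687769) (nat_lit 228) (nat_lit 21423246091) (nat_lit 67) (nat_lit 5) (nat_lit 69) (nat_lit 5) (nat_lit 70) (nat_lit 5) (nat_lit 445) (nat_lit 428) (nat_lit 327)) (XT.lf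 (nat_lit 0) (nat_lit 67577395893) (nat_lit 228) (nat_lit 7649829528) (nat_lit 76) (nat_lit 296607179) (nat_lit 67) (nat_lit 5) (nat_lit 70) (nat_lit 5) (nat_lit 68) (nat_lit 5) (nat_lit 446) (nat_lit 428) (nat_lit 326))) (XT.nd (nat_lit 78) (nat_lit 152) (nat_lit 0) (XT.lf (nat_lit 0) (nat_lit 8014988944) (nat_lit 228) (nat_lit 39845161201) (nat_lit 76) (nat_lit 31228754817) (nat_lit 64) (nat_lit 5) (nat_lit 67) (nat_lit 5) (nat_lit 65) (nat_lit 5) (nat_lit 447) (nat_lit 428) (nat_lit 325)) (XT.lf (nat_lit 0) (nat_lit 7565298158) (nat_lit 152) (nat_lit 17653442740) (nat_lit 228) (nat_lit 57672352173) (nat_lit 62) (nat_lit 5) (nat_lit 64) (nat_lit 5) (nat_lit 65) (nat_lit 5) (nat_lit 448) (nat_lit 428) (nat_lit 324))))) (XT.nd (nat_lit 234) (nat_lit 380) (nat_lit 0) (XT.nd (nat_lit 78) (nat_lit 152) (nat_lit 0) (XT.lf (nat_lit 0) (nat_lit 45274788071) (nat_lit 228) (nat_lit 26266767398) (nat_lit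 76) (nat_lit 15337821279) (nat_lit 62) (nat_lit 5) (nat_lit 65) (nat_lit 5) (nat_lit 63) (nat_lit 5) (nat_lit 449) (nat_lit 428) (nat_lit 323)) (XT.nd (nat_lit 78) (nat_lit 0) (nat_lit 0) (XT.lf (nat_lit 0) (nat_lit 27638476057) (nat_lit 152) (nat_lit 40418447165) (nat_lit 228) (nat_lit 23040071677) (nat_lit 60) (nat_lit 5) (nat_lit 62) (nat_lit 5) (nat_lit 63) (nat_lit 5) (nat_lit 450) (nat_lit 428) (nat_lit 322)) (XT.lf (nat_lit 0) (nat_lit 87347454444) (nat_lit 152) (nat_lit 6030782771) (nat_lit 228) (nat_lit 2216456749) (nat_lit 60) (nat_lit 5) (nat_lit 62) (nat_lit 5) (nat_lit 63) (nat_lit 5) (nat_lit 451) (nat_lit 428) (nat_lit 321)))) (XT.nd (nat_lit 156) (nat_lit 76) (nat_lit 0) (XT.nd (nat_lit 78) (nat_lit 152) (nat_lit 0) (XT.lf (nat_lit 0) (nat_lit 21340045814) (nat_lit 152) (nat_lit 47533693964) (nat_lit 76) (nat_lit 31372972814) (nat_lit 58) (nat_lit 5) (nat_lit 60) (nat_lit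 5) (nat_lit 59) (nat_lit 5) (nat_lit 452) (nat_lit 428) (nat_lit 320)) (XT.lf (nat_lit 0) (nat_lit 14256966621) (nat_lit 152) (nat_lit 33133770623) (nat_lit 228) (nat_lit 57817196737) (nat_lit 56) (nat_lit 5) (nat_lit 58) (nat_lit 5) (nat_lit 59) (nat_lit 5) (nat_lit 453) (nat_lit 428) (nat_lit 319))) (XT.nd (nat_lit 78) (nat_lit 76) (nat_lit 0) (XT.lf (nat_lit 0) (nat_lit 76988907610) (nat_lit 228) (nat_lit 26935571561) (nat_lit 76) (nat_lit 6524500096) (nat_lit 56) (nat_lit 5) (nat_lit 59) (nat_lit 5) (nat_lit 57) (nat_lit 4) (nat_lit 454) (nat_lit 428) (nat_lit 318)) (XT.lf (nat_lit 0) (nat_lit 43514960767) (nat_lit 76) (nat_lit 67345798186) (nat_lit 152) (nat_lit 5096083108) (nat_lit 55) (nat_lit 5) (nat_lit 56) (nat_lit 5) (nat_lit 57) (nat_lit 4) (nat_lit 455) (nat_lit 428) (nat_lit 317)))))) (XT.nd (nat_lit 546) (nat_lit 608) (nat_lit 0) (XT.nd (nat_lit 234) (nat_lit 304) (nat_lit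 0) (XT.nd (nat_lit 78) (nat_lit 228) (nat_lit 0) (XT.lf (nat_lit 0) (nat_lit 25013840078) (nat_lit 152) (nat_lit 1348610156) (nat_lit 76) (nat_lit 95433407945) (nat_lit 54) (nat_lit 5) (nat_lit 56) (nat_lit 5) (nat_lit 55) (nat_lit 5) (nat_lit 456) (nat_lit 428) (nat_lit 316)) (XT.nd (nat_lit 78) (nat_lit 76) (nat_lit 0) (XT.lf (nat_lit 0) (nat_lit 59645703685) (nat_lit 228) (nat_lit 49159734717) (nat_lit 76) (nat_lit 19094890588) (nat_lit 52) (nat_lit 5) (nat_lit 55) (nat_lit 5) (nat_lit 53) (nat_lit 4) (nat_lit 457) (nat_lit 428) (nat_lit 315)) (XT.lf (nat_lit 0) (nat_lit 31722480148) (nat_lit 76) (nat_lit 66809935087) (nat_lit 152) (nat_lit 35841998373) (nat_lit 51) (nat_lit 5) (nat_lit 52) (nat_lit 5) (nat_lit 53) (nat_lit 4) (nat_lit 458) (nat_lit 428) (nat_lit 314)))) (XT.nd (nat_lit 156) (nat_lit 76) (nat_lit 0) (XT.nd (nat_lit 78) (nat_lit 152) (nat_lit 0) (XT.lf (nat_lit 0) (nat_lit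 583314090) (nat_lit 152) (nat_lit 19404806348) (nat_lit 76) (nat_lit 121269686787) (nat_lit 50) (nat_lit 5) (nat_lit 52) (nat_lit 5) (nat_lit 51) (nat_lit 5) (nat_lit 459) (nat_lit 428) (nat_lit 313)) (XT.lf (nat_lit 0) (nat_lit 40551738257) (nat_lit 228) (nat_lit 76049392692) (nat_lit 76) (nat_lit 31811025701) (nat_lit 48) (nat_lit 5) (nat_lit 51) (nat_lit 5) (nat_lit 49) (nat_lit 4) (nat_lit 460) (nat_lit 428) (nat_lit 312))) (XT.nd (nat_lit 78) (nat_lit 0) (nat_lit 0) (XT.lf (nat_lit 0) (nat_lit 16783528301) (nat_lit 76) (nat_lit 68400180027) (nat_lit 152) (nat_lit 70837859980) (nat_lit 47) (nat_lit 5) (nat_lit 48) (nat_lit 5) (nat_lit 49) (nat_lit 4) (nat_lit 461) (nat_lit 428) (nat_lit 311)) (XT.lf (nat_lit 0) (nat_lit 121366131604) (nat_lit 76) (nat_lit 14098376369) (nat_lit 152) (nat_lit 28608963205) (nat_lit 47) (nat_lit 5) (nat_lit 48) (nat_lit 5) (nat_lit 49) (nat_lit 4) (nat_lit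 462) (nat_lit 428) (nat_lit 310))))) (XT.nd (nat_lit 312) (nat_lit 304) (nat_lit 0) (XT.nd (nat_lit 156) (nat_lit 152) (nat_lit 0) (XT.nd (nat_lit 78) (nat_lit 0) (nat_lit 0) (XT.lf (nat_lit 0) (nat_lit 18816817716) (nat_lit 152) (nat_lit 109380830998) (nat_lit 76) (nat_lit 44325661461) (nat_lit 45) (nat_lit 5) (nat_lit 47) (nat_lit 5) (nat_lit 46) (nat_lit 4) (nat_lit 463) (nat_lit 428) (nat_lit 309)) (XT.lf (nat_lit 0) (nat_lit 70054259548) (nat_lit 152) (nat_lit 2808110949) (nat_lit 76) (nat_lit 108602260581) (nat_lit 45) (nat_lit 5) (nat_lit 47) (nat_lit 5) (nat_lit 46) (nat_lit 4) (nat_lit 464) (nat_lit 428) (nat_lit 308))) (XT.nd (nat_lit 78) (nat_lit 76) (nat_lit 0) (XT.lf (nat_lit 0) (nat_lit 118201622222) (nat_lit 76) (nat_lit 10030909579) (nat_lit 152) (nat_lit 62661379076) (nat_lit 44) (nat_lit 5) (nat_lit 45) (nat_lit 5) (nat_lit 46) (nat_lit 4) (nat_lit 465) (nat_lit 428) (nat_lit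 307)) (XT.lf (nat_lit 0) (nat_lit 49039104383) (nat_lit 76) (nat_lit 144673959942) (nat_lit 76) (nat_lit 7152628878) (nat_lit 43) (nat_lit 4) (nat_lit 44) (nat_lit 5) (nat_lit 44) (nat_lit 4) (nat_lit 466) (nat_lit 428) (nat_lit 306)))) (XT.nd (nat_lit 156) (nat_lit 152) (nat_lit 0) (XT.nd (nat_lit 78) (nat_lit 76) (nat_lit 0) (XT.lf (nat_lit 0) (nat_lit 52454509061) (nat_lit 152) (nat_lit 28416804087) (nat_lit 76) (nat_lit 130478419919) (nat_lit 42) (nat_lit 5) (nat_lit 44) (nat_lit 5) (nat_lit 43) (nat_lit 4) (nat_lit 467) (nat_lit 428) (nat_lit 305)) (XT.lf (nat_lit 0) (nat_lit 110190546856) (nat_lit 76) (nat_lit 8902490914) (nat_lit 152) (nat_lit 103352655966) (nat_lit 41) (nat_lit 5) (nat_lit 42) (nat_lit 5) (nat_lit 43) (nat_lit 4) (nat_lit 468) (nat_lit 428) (nat_lit 304))) (XT.nd (nat_lit 78) (nat_lit 76) (nat_lit 0) (XT.lf (nat_lit 0) (nat_lit 26798980876) (nat_lit 76) (nat_lit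 167359713937) (nat_lit 76) (nat_lit 40022952780) (nat_lit 40) (nat_lit 4) (nat_lit 41) (nat_lit 5) (nat_lit 41) (nat_lit 4) (nat_lit 469) (nat_lit 428) (nat_lit 303)) (XT.lf (nat_lit 0) (nat_lit 30333167975) (nat_lit 152) (nat_lit 64244397920) (nat_lit 76) (nat_lit 151953971527) (nat_lit 39) (nat_lit 5) (nat_lit 41) (nat_lit 5) (nat_lit 40) (nat_lit 4) (nat_lit 470) (nat_lit 428) (nat_lit 302))))))))
noncomputable def xc157 : XT := (XT.nd (nat_lit 2184) (nat_lit 912) (nat_lit 0) (XT.nd (nat_lit 1092) (nat_lit 760) (nat_lit 0) (XT.nd (nat_lit 546) (nat_lit 456) (nat_lit 0) (XT.nd (nat_lit 234) (nat_lit 304) (nat_lit 0) (XT.nd (nat_lit 78) (nat_lit 152) (nat_lit 0) (XT.lf (nat_lit 0) (nat_lit 94006458731) (nat_lit 76) (nat_lit 12409130600) (nat_lit 152) (nat_lit 153189857348) (nat_lit 38) (nat_lit 5) (nat_lit 39) (nat_lit 5) (nat_lit 40) (nat_lit 4) (nat_lit 471) (nat_lit 428) (nat_lit 301))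 (XT.nd (nat_lit 78) (nat_lit 152) (nat_lit 0) (XT.lf (nat_lit 0) (nat_lit 192221826915) (nat_lit 152) (nat_lit 6896659189) (nat_lit 0) (nat_lit 74315804783) (nat_lit 38) (nat_lit 5) (nat_lit 40) (nat_lit 4) (nat_lit 38) (nat_lit 4) (nat_lit 472) (nat_lit 428) (nat_lit 300)) (XT.lf (nat_lit 0) (nat_lit 1291377805) (nat_lit 152) (nat_lit 115220416536) (nat_lit 76) (nat_lit 171496791477) (nat_lit 36) (nat_lit 5) (nat_lit 38) (nat_lit 5) (nat_lit 37) (nat_lit 4) (nat_lit 473) (nat_lit 428) (nat_lit 299)))) (XT.nd (nat_lit 156) (nat_lit 228) (nat_lit 0) (XT.nd (nat_lit 78) (nat_lit 0) (nat_lit 0) (XT.lf (nat_lit 0) (nat_lit 64623274480) (nat_lit 76) (nat_lit 23131621192) (nat_lit 152) (nat_lit 215685419412) (nat_lit 35) (nat_lit 5) (nat_lit 36) (nat_lit 5) (nat_lit 37) (nat_lit 4) (nat_lit 474) (nat_lit 428) (nat_lit 298)) (XT.lf (nat_lit 0) (nat_lit 186236093576) (nat_lit 152) (nat_lit 56399776459)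 (nat_lit 0) (nat_lit 77062664778) (nat_lit 35) (nat_lit 5) (nat_lit 37) (nat_lit 4) (nat_lit 35) (nat_lit 4) (nat_lit 475) (nat_lit 428) (nat_lit 297))) (XT.nd (nat_lit 78) (nat_lit 152) (nat_lit 0) (XT.lf (nat_lit 0) (nat_lit 147381365474) (nat_lit 76) (nat_lit 149359118986) (nat_lit 76) (nat_lit 40185351898) (nat_lit 34) (nat_lit 4) (nat_lit 35) (nat_lit 5) (nat_lit 35) (nat_lit 4) (nat_lit 476) (nat_lit 428) (nat_lit 296)) (XT.lf (nat_lit 0) (nat_lit 14491814016) (nat_lit 76) (nat_lit 44962942875) (nat_lit 152) (nat_lit 295805659005) (nat_lit 32) (nat_lit 5) (nat_lit 33) (nat_lit 5) (nat_lit 34) (nat_lit 4) (nat_lit 477) (nat_lit 428) (nat_lit 295))))) (XT.nd (nat_lit 234) (nat_lit 304) (nat_lit 0) (XT.nd (nat_lit 78) (nat_lit 152) (nat_lit 0) (XT.lf (nat_lit 0) (nat_lit 171841696587) (nat_lit 152) (nat_lit 131826512557) (nat_lit 0) (nat_lit 70754316634) (nat_lit 32) (nat_lit 5) (nat_lit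 34) (nat_lit 4) (nat_lit 32) (nat_lit 4) (nat_lit 478) (nat_lit 428) (nat_lit 294)) (XT.nd (nat_lit 78) (nat_lit 76) (nat_lit 0) (XT.lf (nat_lit 0) (nat_lit 97541282877) (nat_lit 76) (nat_lit 199191449457) (nat_lit 76) (nat_lit 98103820851) (nat_lit 31) (nat_lit 4) (nat_lit 32) (nat_lit 5) (nat_lit 32) (nat_lit 4) (nat_lit 479) (nat_lit 428) (nat_lit 293)) (XT.lf (nat_lit 0) (nat_lit 17691819962) (nat_lit 152) (nat_lit 64288873318) (nat_lit 76) (nat_lit 334578874887) (nat_lit 30) (nat_lit 5) (nat_lit 32) (nat_lit 5) (nat_lit 31) (nat_lit 4) (nat_lit 480) (nat_lit 428) (nat_lit 292)))) (XT.nd (nat_lit 156) (nat_lit 152) (nat_lit 0) (XT.nd (nat_lit 78) (nat_lit 76) (nat_lit 0) (XT.lf (nat_lit 0) (nat_lit 143389602419) (nat_lit 152) (nat_lit 246162342518) (nat_lit 0) (nat_lit 49789535733) (nat_lit 29) (nat_lit 5) (nat_lit 31) (nat_lit 4) (nat_lit 29) (nat_lit 4) (nat_lit 481) (nat_lit 428)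 (nat_lit 291)) (XT.lf (nat_lit 0) (nat_lit 9388964340) (nat_lit 76) (nat_lit 273912293626) (nat_lit 76) (nat_lit 180312044173) (nat_lit 28) (nat_lit 4) (nat_lit 29) (nat_lit 5) (nat_lit 29) (nat_lit 4) (nat_lit 482) (nat_lit 428) (nat_lit 290))) (XT.nd (nat_lit 78) (nat_lit 152) (nat_lit 0) (XT.lf (nat_lit 0) (nat_lit 299382758626) (nat_lit 76) (nat_lit 141753065564) (nat_lit 76) (nat_lit 48152646881) (nat_lit 28) (nat_lit 4) (nat_lit 29) (nat_lit 5) (nat_lit 29) (nat_lit 4) (nat_lit 483) (nat_lit 428) (nat_lit 289)) (XT.lf (nat_lit 0) (nat_lit 92353282386) (nat_lit 152) (nat_lit 418595914633) (nat_lit 0) (nat_lit 5686082963) (nat_lit 26) (nat_lit 5) (nat_lit 28) (nat_lit 4) (nat_lit 26) (nat_lit 4) (nat_lit 484) (nat_lit 428) (nat_lit 288)))))) (XT.nd (nat_lit 546) (nat_lit 304) (nat_lit 0) (XT.nd (nat_lit 234) (nat_lit 304) (nat_lit 0) (XT.nd (nat_lit 78) (nat_lit 152) (nat_lit 0) (XT.lf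 (nat_lit 0) (nat_lit 250506806923) (nat_lit 152) (nat_lit 131002806913) (nat_lit 0) (nat_lit 163839473160) (nat_lit 26) (nat_lit 5) (nat_lit 28) (nat_lit 4) (nat_lit 26) (nat_lit 4) (nat_lit 485) (nat_lit 428) (nat_lit 287)) (XT.nd (nat_lit 78) (nat_lit 76) (nat_lit 0) (XT.lf (nat_lit 0) (nat_lit 189054039697) (nat_lit 76) (nat_lit 236804857176) (nat_lit 76) (nat_lit 150137399025) (nat_lit 25) (nat_lit 4) (nat_lit 26) (nat_lit 5) (nat_lit 26) (nat_lit 4) (nat_lit 486) (nat_lit 428) (nat_lit 286)) (XT.lf (nat_lit 0) (nat_lit 9510944799) (nat_lit 152) (nat_lit 66884808142) (nat_lit 76) (nat_lit 532393754657) (nat_lit 24) (nat_lit 5) (nat_lit 26) (nat_lit 5) (nat_lit 25) (nat_lit 4) (nat_lit 487) (nat_lit 428) (nat_lit 285)))) (XT.nd (nat_lit 156) (nat_lit 228) (nat_lit 0) (XT.nd (nat_lit 78) (nat_lit 0) (nat_lit 0) (XT.lf (nat_lit 0) (nat_lit 183389485250) (nat_lit 152) (nat_lit 356597511878)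 (nat_lit 0) (nat_lit 103141633426) (nat_lit 23) (nat_lit 5) (nat_lit 25) (nat_lit 4) (nat_lit 23) (nat_lit 4) (nat_lit 488) (nat_lit 428) (nat_lit 284)) (XT.lf (nat_lit 0) (nat_lit 375038428771) (nat_lit 152) (nat_lit 10077159473) (nat_lit 0) (nat_lit 294790485518) (nat_lit 23) (nat_lit 5) (nat_lit 25) (nat_lit 4) (nat_lit 23) (nat_lit 4) (nat_lit 489) (nat_lit 428) (nat_lit 283))) (XT.nd (nat_lit 78) (nat_lit 152) (nat_lit 0) (XT.lf (nat_lit 0) (nat_lit 383340228992) (nat_lit 76) (nat_lit 207897998100) (nat_lit 76) (nat_lit 127649970191) (nat_lit 22) (nat_lit 4) (nat_lit 23) (nat_lit 5) (nat_lit 23) (nat_lit 4) (nat_lit 490) (nat_lit 428) (nat_lit 282)) (XT.lf (nat_lit 0) (nat_lit 48734081715) (nat_lit 76) (nat_lit 13276585597) (nat_lit 152) (nat_lit 698739230626) (nat_lit 20) (nat_lit 5) (nat_lit 21) (nat_lit 5) (nat_lit 22) (nat_lit 4) (nat_lit 491) (nat_lit 428) (nat_lit 281))))) (XT.nd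 (nat_lit 234) (nat_lit 228) (nat_lit 0) (XT.nd (nat_lit 78) (nat_lit 76) (nat_lit 0) (XT.lf (nat_lit 0) (nat_lit 274095913973) (nat_lit 152) (nat_lit 330675475571) (nat_lit 0) (nat_lit 199792044644) (nat_lit 20) (nat_lit 5) (nat_lit 22) (nat_lit 4) (nat_lit 20) (nat_lit 4) (nat_lit 492) (nat_lit 428) (nat_lit 280)) (XT.nd (nat_lit 78) (nat_lit 0) (nat_lit 0) (XT.lf (nat_lit 0) (nat_lit 85082662476) (nat_lit 76) (nat_lit 420456032618) (nat_lit 76) (nat_lit 346152101065) (nat_lit 19) (nat_lit 4) (nat_lit 20) (nat_lit 5) (nat_lit 20) (nat_lit 4) (nat_lit 493) (nat_lit 428) (nat_lit 279)) (XT.lf (nat_lit 0) (nat_lit 552906515337) (nat_lit 76) (nat_lit 211631274804) (nat_lit 76) (nat_lit 137327285634) (nat_lit 19) (nat_lit 4) (nat_lit 20) (nat_lit 5) (nat_lit 20) (nat_lit 4) (nat_lit 494) (nat_lit 428) (nat_lit 278)))) (XT.nd (nat_lit 156) (nat_lit 76) (nat_lit 0) (XT.nd (nat_lit 78) (nat_lit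 0) (nat_lit 0) (XT.lf (nat_lit 0) (nat_lit 86777154799) (nat_lit 152) (nat_lit 850890448854) (nat_lit 0) (nat_lit 17977115431) (nat_lit 17) (nat_lit 5) (nat_lit 19) (nat_lit 4) (nat_lit 17) (nat_lit 4) (nat_lit 495) (nat_lit 428) (nat_lit 277)) (XT.lf (nat_lit 0) (nat_lit 336676250187) (nat_lit 152) (nat_lit 407666119985) (nat_lit 0) (nat_lit 267876165081) (nat_lit 17) (nat_lit 5) (nat_lit 19) (nat_lit 4) (nat_lit 17) (nat_lit 4) (nat_lit 496) (nat_lit 428) (nat_lit 276))) (XT.nd (nat_lit 78) (nat_lit 0) (nat_lit 0) (XT.lf (nat_lit 0) (nat_lit 74755050993) (nat_lit 76) (nat_lit 533609764883) (nat_lit 76) (nat_lit 464809637428) (nat_lit 16) (nat_lit 4) (nat_lit 17) (nat_lit 5) (nat_lit 17) (nat_lit 4) (nat_lit 497) (nat_lit 428) (nat_lit 275)) (XT.lf (nat_lit 0) (nat_lit 618953611078) (nat_lit 76) (nat_lit 293980860023) (nat_lit 76) (nat_lit 225180693355) (nat_lit 16) (nat_lit 4) (nat_lit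 17) (nat_lit 5) (nat_lit 17) (nat_lit 4) (nat_lit 498) (nat_lit 428) (nat_lit 274))))))) (XT.nd (nat_lit 1092) (nat_lit 304) (nat_lit 0) (XT.nd (nat_lit 546) (nat_lit 228) (nat_lit 0) (XT.nd (nat_lit 234) (nat_lit 228) (nat_lit 0) (XT.nd (nat_lit 78) (nat_lit 76) (nat_lit 0) (XT.lf (nat_lit 0) (nat_lit 31936535018) (nat_lit 152) (nat_lit 2372210138) (nat_lit 76) (nat_lit 1173877728712) (nat_lit 15) (nat_lit 5) (nat_lit 17) (nat_lit 5) (nat_lit 16) (nat_lit 4) (nat_lit 499) (nat_lit 428) (nat_lit 273)) (XT.nd (nat_lit 78) (nat_lit 0) (nat_lit 0) (XT.lf (nat_lit 0) (nat_lit 317812177339) (nat_lit 152) (nat_lit 709846776835) (nat_lit 0) (nat_lit 254108254566) (nat_lit 14) (nat_lit 5) (nat_lit 16) (nat_lit 4) (nat_lit 14) (nat_lit 4) (nat_lit 500) (nat_lit 428) (nat_lit 272)) (XT.lf (nat_lit 0) (nat_lit 627515280079) (nat_lit 152) (nat_lit 169831201117) (nat_lit 0) (nat_lit 563811328485) (nat_lit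 14) (nat_lit 5) (nat_lit 16) (nat_lit 4) (nat_lit 14) (nat_lit 4) (nat_lit 501) (nat_lit 428) (nat_lit 271)))) (XT.nd (nat_lit 156) (nat_lit 152) (nat_lit 0) (XT.nd (nat_lit 78) (nat_lit 0) (nat_lit 0) (XT.lf (nat_lit 0) (nat_lit 435153227448) (nat_lit 76) (nat_lit 537306597028) (nat_lit 76) (nat_lit 473602618746) (nat_lit 13) (nat_lit 4) (nat_lit 14) (nat_lit 5) (nat_lit 14) (nat_lit 4) (nat_lit 502) (nat_lit 428) (nat_lit 270)) (XT.lf (nat_lit 0) (nat_lit 1098194354329) (nat_lit 76) (nat_lit 251448818442) (nat_lit 76) (nat_lit 187744815449) (nat_lit 13) (nat_lit 4) (nat_lit 14) (nat_lit 5) (nat_lit 14) (nat_lit 4) (nat_lit 503) (nat_lit 428) (nat_lit 269))) (XT.nd (nat_lit 78) (nat_lit 0) (nat_lit 0) (XT.lf (nat_lit 0) (nat_lit 120937006227) (nat_lit 152) (nat_lit 1452417413906) (nat_lit 0) (nat_lit 61951797085) (nat_lit 11) (nat_lit 5) (nat_lit 13) (nat_lit 4) (nat_lit 11) (nat_lit 4)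 (nat_lit 504) (nat_lit 428) (nat_lit 268)) (XT.lf (nat_lit 0) (nat_lit 463021419064) (nat_lit 152) (nat_lit 872102084713) (nat_lit 0) (nat_lit 404036190306) (nat_lit 11) (nat_lit 5) (nat_lit 13) (nat_lit 4) (nat_lit 11) (nat_lit 4) (nat_lit 505) (nat_lit 428) (nat_lit 267))))) (XT.nd (nat_lit 234) (nat_lit 152) (nat_lit 0) (XT.nd (nat_lit 78) (nat_lit 76) (nat_lit 0) (XT.lf (nat_lit 0) (nat_lit 832472369006) (nat_lit 152) (nat_lit 245361975279) (nat_lit 0) (nat_lit 773487122085) (nat_lit 11) (nat_lit 5) (nat_lit 13) (nat_lit 4) (nat_lit 11) (nat_lit 4) (nat_lit 506) (nat_lit 428) (nat_lit 266)) (XT.nd (nat_lit 78) (nat_lit 0) (nat_lit 0) (XT.lf (nat_lit 0) (nat_lit 454239846669) (nat_lit 76) (nat_lit 788163827583) (nat_lit 76) (nat_lit 729178563845) (nat_lit 10) (nat_lit 4) (nat_lit 11) (nat_lit 5) (nat_lit 11) (nat_lit 4) (nat_lit 507) (nat_lit 428) (nat_lit 265)) (XT.lf (nat_lit 0) (nat_lit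 1223763364723) (nat_lit 76) (nat_lit 468074555618) (nat_lit 76) (nat_lit 409089276308) (nat_lit 10) (nat_lit 4) (nat_lit 11) (nat_lit 5) (nat_lit 11) (nat_lit 4) (nat_lit 508) (nat_lit 428) (nat_lit 264)))) (XT.nd (nat_lit 156) (nat_lit 0) (nat_lit 0) (XT.nd (nat_lit 78) (nat_lit 152) (nat_lit 0) (XT.lf (nat_lit 0) (nat_lit 2054848391449) (nat_lit 76) (nat_lit 122378334297) (nat_lit 76) (nat_lit 63393040569) (nat_lit 10) (nat_lit 4) (nat_lit 11) (nat_lit 5) (nat_lit 11) (nat_lit 4) (nat_lit 509) (nat_lit 428) (nat_lit 263)) (XT.lf (nat_lit 0) (nat_lit 315058905385) (nat_lit 152) (nat_lit 1813741161501) (nat_lit 0) (nat_lit 260442880313) (nat_lit 8) (nat_lit 5) (nat_lit 10) (nat_lit 4) (nat_lit 8) (nat_lit 4) (nat_lit 510) (nat_lit 428) (nat_lit 262))) (XT.nd (nat_lit 78) (nat_lit 0) (nat_lit 0) (XT.lf (nat_lit 0) (nat_lit 728751871999) (nat_lit 152) (nat_lit 1146065370417) (nat_lit 0) (nat_lit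 674135835481) (nat_lit 8) (nat_lit 5) (nat_lit 10) (nat_lit 4) (nat_lit 8) (nat_lit 4) (nat_lit 511) (nat_lit 428) (nat_lit 261)) (XT.lf (nat_lit 0) (nat_lit 1175540117381) (nat_lit 152) (nat_lit 424975844090) (nat_lit 0) (nat_lit 1120924070265) (nat_lit 8) (nat_lit 5) (nat_lit 10) (nat_lit 4) (nat_lit 8) (nat_lit 4) (nat_lit 512) (nat_lit 428) (nat_lit 260)))))) (XT.nd (nat_lit 546) (nat_lit 76) (nat_lit 0) (XT.nd (nat_lit 234) (nat_lit 152) (nat_lit 0) (XT.nd (nat_lit 78) (nat_lit 0) (nat_lit 0) (XT.lf (nat_lit 0) (nat_lit 372431050080) (nat_lit 76) (nat_lit 1294597201209) (nat_lit 76) (nat_lit 1239981144280) (nat_lit 7) (nat_lit 4) (nat_lit 8) (nat_lit 5) (nat_lit 8) (nat_lit 4) (nat_lit 513) (nat_lit 428) (nat_lit 259)) (XT.nd (nat_lit 78) (nat_lit 0) (nat_lit 0) (XT.lf (nat_lit 0) (nat_lit 1257798952545) (nat_lit 76) (nat_lit 951655933005) (nat_lit 76) (nat_lit 897039866990) (nat_lit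 7) (nat_lit 4) (nat_lit 8) (nat_lit 5) (nat_lit 8) (nat_lit 4) (nat_lit 514) (nat_lit 428) (nat_lit 258)) (XT.lf (nat_lit 0) (nat_lit 2213996013083) (nat_lit 76) (nat_lit 581279505005) (nat_lit 76) (nat_lit 526663430577) (nat_lit 7) (nat_lit 4) (nat_lit 8) (nat_lit 5) (nat_lit 8) (nat_lit 4) (nat_lit 515) (nat_lit 428) (nat_lit 257)))) (XT.nd (nat_lit 156) (nat_lit 0) (nat_lit 0) (XT.nd (nat_lit 78) (nat_lit 152) (nat_lit 0) (XT.lf (nat_lit 0) (nat_lit 3246688584647) (nat_lit 76) (nat_lit 181273093931) (nat_lit 76) (nat_lit 126657011714) (nat_lit 7) (nat_lit 4) (nat_lit 8) (nat_lit 5) (nat_lit 8) (nat_lit 4) (nat_lit 516) (nat_lit 428) (nat_lit 256)) (XT.lf (nat_lit 0) (nat_lit 310548843601) (nat_lit 152) (nat_lit 3233160182377) (nat_lit 0) (nat_lit 259978390424) (nat_lit 5) (nat_lit 5) (nat_lit 7) (nat_lit 4) (nat_lit 5) (nat_lit 4) (nat_lit 517) (nat_lit 428) (nat_lit 255))) (XT.nd (nat_lit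 78) (nat_lit 0) (nat_lit 0) (XT.lf (nat_lit 0) (nat_lit 789234713834) (nat_lit 152) (nat_lit 2543451783700) (nat_lit 0) (nat_lit 738664254474) (nat_lit 5) (nat_lit 5) (nat_lit 7) (nat_lit 4) (nat_lit 5) (nat_lit 4) (nat_lit 518) (nat_lit 428) (nat_lit 254)) (XT.lf (nat_lit 0) (nat_lit 1306215345852) (nat_lit 152) (nat_lit 1798566936471) (nat_lit 0) (nat_lit 1255644880766) (nat_lit 5) (nat_lit 5) (nat_lit 7) (nat_lit 4) (nat_lit 5) (nat_lit 4) (nat_lit 519) (nat_lit 428) (nat_lit 253))))) (XT.nd (nat_lit 312) (nat_lit 0) (nat_lit 0) (XT.nd (nat_lit 156) (nat_lit 76) (nat_lit 0) (XT.nd (nat_lit 78) (nat_lit 0) (nat_lit 0) (XT.lf (nat_lit 0) (nat_lit 1864554328586) (nat_lit 152) (nat_lit 994091508260) (nat_lit 0) (nat_lit 1813983858198) (nat_lit 5) (nat_lit 5) (nat_lit 7) (nat_lit 4) (nat_lit 5) (nat_lit 4) (nat_lit 520) (nat_lit 428) (nat_lit 252)) (XT.lf (nat_lit 0) (nat_lit 2467560337488)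 (nat_lit 152) (nat_lit 125258237271) (nat_lit 0) (nat_lit 2416989862192) (nat_lit 5) (nat_lit 5) (nat_lit 7) (nat_lit 4) (nat_lit 5) (nat_lit 4) (nat_lit 521) (nat_lit 428) (nat_lit 251))) (XT.nd (nat_lit 78) (nat_lit 0) (nat_lit 0) (XT.lf (nat_lit 0) (nat_lit 855896949940) (nat_lit 76) (nat_lit 2283494133791) (nat_lit 76) (nat_lit 2232923653950) (nat_lit 4) (nat_lit 4) (nat_lit 5) (nat_lit 5) (nat_lit 5) (nat_lit 4) (nat_lit 522) (nat_lit 428) (nat_lit 250)) (XT.lf (nat_lit 0) (nat_lit 1922667926264) (nat_lit 76) (nat_lit 1945725062177) (nat_lit 76) (nat_lit 1895154578127) (nat_lit 4) (nat_lit 4) (nat_lit 5) (nat_lit 5) (nat_lit 5) (nat_lit 4) (nat_lit 523) (nat_lit 428) (nat_lit 249)))) (XT.nd (nat_lit 156) (nat_lit 0) (nat_lit 0) (XT.nd (nat_lit 78) (nat_lit 0) (nat_lit 0) (XT.lf (nat_lit 0) (nat_lit 3074780420687) (nat_lit 76) (nat_lit 1580934547602) (nat_lit 76) (nat_lit 1530364059655)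 (nat_lit 4) (nat_lit 4) (nat_lit 5) (nat_lit 5) (nat_lit 5) (nat_lit 4) (nat_lit 524) (nat_lit 428) (nat_lit 248)) (XT.lf (nat_lit 0) (nat_lit 4319061766510) (nat_lit 76) (nat_lit 1186960868499) (nat_lit 76) (nat_lit 1136390376944) (nat_lit 4) (nat_lit 4) (nat_lit 5) (nat_lit 5) (nat_lit 5) (nat_lit 4) (nat_lit 525) (nat_lit 428) (nat_lit 247))) (XT.nd (nat_lit 78) (nat_lit 0) (nat_lit 0) (XT.lf (nat_lit 0) (nat_lit 5662885482820) (nat_lit 76) (nat_lit 761469366028) (nat_lit 76) (nat_lit 710898871132) (nat_lit 4) (nat_lit 4) (nat_lit 5) (nat_lit 5) (nat_lit 5) (nat_lit 4) (nat_lit 526) (nat_lit 428) (nat_lit 246)) (XT.lf (nat_lit 0) (nat_lit 7114214969416) (nat_lit 76) (nat_lit 301938609064) (nat_lit 76) (nat_lit 251368111075) (nat_lit 4) (nat_lit 4) (nat_lit 5) (nat_lit 5) (nat_lit 5) (nat_lit 4) (nat_lit 527) (nat_lit 428) (nat_lit 245))))))))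
noncomputable def xc158 : XT := (XT.nd (nat_lit 55926) (nat_lit 0) (nat_lit 2812) (XT.nd (nat_lit 54834) (nat_lit 0) (nat_lit 5396) (XT.nd (nat_lit 546) (nat_lit 76) (nat_lit 0) (XT.nd (nat_lit 234) (nat_lit 0) (nat_lit 0) (XT.nd (nat_lit 78) (nat_lit 0) (nat_lit 0) (XT.lf (nat_lit 0) (nat_lit 248756996779) (nat_lit 152) (nat_lit 7789923681948) (nat_lit 0) (nat_lit 201932458951) (nat_lit 2) (nat_lit 5) (nat_lit 4) (nat_lit 4) (nat_lit 2) (nat_lit 4) (nat_lit 528) (nat_lit 428) (nat_lit 244)) (XT.nd (nat_lit 78) (nat_lit 0) (nat_lit 0) (XT.lf (nat_lit 0) (nat_lit 798675540642) (nat_lit 152) (nat_lit 7306633930549) (nat_lit 0) (nat_lit 751851000359) (nat_lit 2) (nat_lit 5) (nat_lit 4) (nat_lit 4) (nat_lit 2) (nat_lit 4) (nat_lit 529) (nat_lit 428) (nat_lit 243)) (XT.lf (nat_lit 0) (nat_lit 1392587514102) (nat_lit 152) (nat_lit 6784681110797) (nat_lit 0) (nat_lit 1345762971545) (nat_lit 2)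 (nat_lit 5) (nat_lit 4) (nat_lit 4) (nat_lit 2) (nat_lit 4) (nat_lit 530) (nat_lit 428) (nat_lit 242)))) (XT.nd (nat_lit 156) (nat_lit 0) (nat_lit 0) (XT.nd (nat_lit 78) (nat_lit 0) (nat_lit 0) (XT.lf (nat_lit 0) (nat_lit 2034012395521) (nat_lit 152) (nat_lit 6220972168944) (nat_lit 0) (nat_lit 1987187850858) (nat_lit 2) (nat_lit 5) (nat_lit 4) (nat_lit 4) (nat_lit 2) (nat_lit 4) (nat_lit 531) (nat_lit 428) (nat_lit 241)) (XT.lf (nat_lit 0) (nat_lit 2726751221232) (nat_lit 152) (nat_lit 5612166607558) (nat_lit 0) (nat_lit 2679926674620) (nat_lit 2) (nat_lit 5) (nat_lit 4) (nat_lit 4) (nat_lit 2) (nat_lit 4) (nat_lit 532) (nat_lit 428) (nat_lit 240))) (XT.nd (nat_lit 78) (nat_lit 0) (nat_lit 0) (XT.lf (nat_lit 0) (nat_lit 3474909110204) (nat_lit 152) (nat_lit 4954656689978) (nat_lit 0) (nat_lit 3428084561787) (nat_lit 2) (nat_lit 5) (nat_lit 4) (nat_lit 4) (nat_lit 2) (nat_lit 4) (nat_lit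 533) (nat_lit 428) (nat_lit 239)) (XT.lf (nat_lit 0) (nat_lit 4282919590666) (nat_lit 152) (nat_lit 4244546061138) (nat_lit 0) (nat_lit 4236095040578) (nat_lit 2) (nat_lit 5) (nat_lit 4) (nat_lit 4) (nat_lit 2) (nat_lit 4) (nat_lit 534) (nat_lit 428) (nat_lit 238))))) (XT.nd (nat_lit 234) (nat_lit 76) (nat_lit 0) (XT.nd (nat_lit 78) (nat_lit 0) (nat_lit 0) (XT.lf (nat_lit 0) (nat_lit 5155570872874) (nat_lit 152) (nat_lit 3477626658051) (nat_lit 0) (nat_lit 5108746321239) (nat_lit 2) (nat_lit 5) (nat_lit 4) (nat_lit 4) (nat_lit 2) (nat_lit 4) (nat_lit 535) (nat_lit 428) (nat_lit 237)) (XT.nd (nat_lit 78) (nat_lit 0) (nat_lit 0) (XT.lf (nat_lit 0) (nat_lit 6098034223686) (nat_lit 152) (nat_lit 2649353773143) (nat_lit 0) (nat_lit 6051209670617) (nat_lit 2) (nat_lit 5) (nat_lit 4) (nat_lit 4) (nat_lit 2) (nat_lit 4) (nat_lit 536) (nat_lit 428) (nat_lit 236)) (XT.lf (nat_lit 0) (nat_lit 7115894611105)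 (nat_lit 152) (nat_lit 1754819122653) (nat_lit 0) (nat_lit 7069070056710) (nat_lit 2) (nat_lit 5) (nat_lit 4) (nat_lit 4) (nat_lit 2) (nat_lit 4) (nat_lit 537) (nat_lit 428) (nat_lit 235)))) (XT.nd (nat_lit 156) (nat_lit 0) (nat_lit 0) (XT.nd (nat_lit 78) (nat_lit 76) (nat_lit 0) (XT.lf (nat_lit 0) (nat_lit 8215183800391) (nat_lit 152) (nat_lit 788721760502) (nat_lit 0) (nat_lit 8168359244767) (nat_lit 2) (nat_lit 5) (nat_lit 4) (nat_lit 4) (nat_lit 2) (nat_lit 4) (nat_lit 538) (nat_lit 428) (nat_lit 234)) (XT.lf (nat_lit 0) (nat_lit 268073454616) (nat_lit 76) (nat_lit 9140789816265) (nat_lit 76) (nat_lit 9093965259504) (nat_lit 1) (nat_lit 4) (nat_lit 2) (nat_lit 5) (nat_lit 2) (nat_lit 4) (nat_lit 539) (nat_lit 428) (nat_lit 233))) (XT.nd (nat_lit 53820) (nat_lit 0) (nat_lit 6992) (XT.lf (nat_lit 0) (nat_lit 1454267537840) (nat_lit 76) (nat_lit 9265334585554) (nat_lit 76) (nat_lit 9218510027740)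 (nat_lit 1) (nat_lit 4) (nat_lit 2) (nat_lit 5) (nat_lit 2) (nat_lit 4) (nat_lit 540) (nat_lit 428) (nat_lit 232)) (XT.lf (nat_lit 0) (nat_lit 18474540536) (nat_lit 532) (nat_lit 226734007) (nat_lit 532) (nat_lit 226734007) (nat_lit 93) (nat_lit 3) (nat_lit 100) (nat_lit 3) (nat_lit 100) (nat_lit 5) (nat_lit 429) (nat_lit 429) (nat_lit 342)))))) (XT.nd (nat_lit 546) (nat_lit 1064) (nat_lit 0) (XT.nd (nat_lit 234) (nat_lit 0) (nat_lit 76) (XT.nd (nat_lit 78) (nat_lit 532) (nat_lit 0) (XT.lf (nat_lit 76) (nat_lit 19367755123) (nat_lit 0) (nat_lit 19568272607) (nat_lit 532) (nat_lit 393505620) (nat_lit 94) (nat_lit 5) (nat_lit 93) (nat_lit 3) (nat_lit 100) (nat_lit 5) (nat_lit 430) (nat_lit 429) (nat_lit 341)) (XT.nd (nat_lit 78) (nat_lit 0) (nat_lit 76) (XT.lf (nat_lit 0) (nat_lit 161171735) (nat_lit 532) (nat_lit 126361512) (nat_lit 608) (nat_lit 40632430314) (nat_lit 86) (nat_lit 5) (nat_lit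 93) (nat_lit 3) (nat_lit 94) (nat_lit 5) (nat_lit 431) (nat_lit 429) (nat_lit 340)) (XT.lf (nat_lit 0) (nat_lit 1781800875) (nat_lit 532) (nat_lit 20698315086) (nat_lit 608) (nat_lit 20073268081) (nat_lit 87) (nat_lit 5) (nat_lit 94) (nat_lit 5) (nat_lit 95) (nat_lit 5) (nat_lit 432) (nat_lit 429) (nat_lit 339)))) (XT.nd (nat_lit 156) (nat_lit 0) (nat_lit 76) (XT.nd (nat_lit 78) (nat_lit 0) (nat_lit 76) (XT.lf (nat_lit 76) (nat_lit 1341781617) (nat_lit 0) (nat_lit 2229705685) (nat_lit 608) (nat_lit 40742838759) (nat_lit 88) (nat_lit 5) (nat_lit 87) (nat_lit 5) (nat_lit 95) (nat_lit 5) (nat_lit 433) (nat_lit 429) (nat_lit 338)) (XT.lf (nat_lit 0) (nat_lit 6553705566) (nat_lit 532) (nat_lit 20338736298) (nat_lit 608) (nat_lit 19239753449) (nat_lit 88) (nat_lit 5) (nat_lit 95) (nat_lit 5) (nat_lit 96) (nat_lit 5) (nat_lit 434) (nat_lit 429) (nat_lit 337))) (XT.nd (nat_lit 78) (nat_lit 0) (nat_lit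 76) (XT.lf (nat_lit 76) (nat_lit 4258066824) (nat_lit 0) (nat_lit 5673393152) (nat_lit 608) (nat_lit 38151477825) (nat_lit 89) (nat_lit 5) (nat_lit 88) (nat_lit 5) (nat_lit 96) (nat_lit 5) (nat_lit 435) (nat_lit 429) (nat_lit 336)) (XT.lf (nat_lit 0) (nat_lit 14561506636) (nat_lit 532) (nat_lit 18598094286) (nat_lit 76) (nat_lit 16951573377) (nat_lit 89) (nat_lit 5) (nat_lit 96) (nat_lit 5) (nat_lit 90) (nat_lit 5) (nat_lit 436) (nat_lit 429) (nat_lit 335))))) (XT.nd (nat_lit 234) (nat_lit 532) (nat_lit 0) (XT.nd (nat_lit 78) (nat_lit 228) (nat_lit 0) (XT.lf (nat_lit 0) (nat_lit 8944110656) (nat_lit 532) (nat_lit 10977379832) (nat_lit 608) (nat_lit 32351416891) (nat_lit 82) (nat_lit 5) (nat_lit 89) (nat_lit 5) (nat_lit 90) (nat_lit 5) (nat_lit 437) (nat_lit 429) (nat_lit 334)) (XT.nd (nat_lit 78) (nat_lit 228) (nat_lit 0) (XT.lf (nat_lit 0) (nat_lit 26541361829) (nat_lit 608) (nat_lit 15147807996)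 (nat_lit 76) (nat_lit 12851922487) (nat_lit 82) (nat_lit 5) (nat_lit 90) (nat_lit 5) (nat_lit 83) (nat_lit 5) (nat_lit 438) (nat_lit 429) (nat_lit 333)) (XT.lf (nat_lit 0) (nat_lit 15789685894) (nat_lit 228) (nat_lit 18563432602) (nat_lit 304) (nat_lit 22584630184) (nat_lit 79) (nat_lit 5) (nat_lit 82) (nat_lit 5) (nat_lit 83) (nat_lit 5) (nat_lit 439) (nat_lit 429) (nat_lit 332)))) (XT.nd (nat_lit 156) (nat_lit 304) (nat_lit 0) (XT.nd (nat_lit 78) (nat_lit 228) (nat_lit 0) (XT.lf (nat_lit 0) (nat_lit 43366507617) (nat_lit 304) (nat_lit 9597164513) (nat_lit 76) (nat_lit 6516330339) (nat_lit 79) (nat_lit 5) (nat_lit 83) (nat_lit 5) (nat_lit 80) (nat_lit 5) (nat_lit 440) (nat_lit 429) (nat_lit 331)) (XT.lf (nat_lit 0) (nat_lit 25256444241) (nat_lit 228) (nat_lit 28931839260) (nat_lit 304) (nat_lit 7950368059) (nat_lit 76) (nat_lit 5) (nat_lit 79) (nat_lit 5) (nat_lit 80) (nat_lit 5) (nat_lit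 441) (nat_lit 429) (nat_lit 330))) (XT.nd (nat_lit 78) (nat_lit 228) (nat_lit 0) (XT.lf (nat_lit 0) (nat_lit 1089497441) (nat_lit 304) (nat_lit 1575172329) (nat_lit 76) (nat_lit 62322297214) (nat_lit 75) (nat_lit 5) (nat_lit 79) (nat_lit 5) (nat_lit 76) (nat_lit 5) (nat_lit 442) (nat_lit 429) (nat_lit 329)) (XT.lf (nat_lit 0) (nat_lit 11988592722) (nat_lit 304) (nat_lit 30359172236) (nat_lit 76) (nat_lit 25573617282) (nat_lit 72) (nat_lit 5) (nat_lit 76) (nat_lit 5) (nat_lit 73) (nat_lit 5) (nat_lit 443) (nat_lit 429) (nat_lit 328))))))) (XT.nd (nat_lit 1092) (nat_lit 1216) (nat_lit 0) (XT.nd (nat_lit 546) (nat_lit 608) (nat_lit 0) (XT.nd (nat_lit 234) (nat_lit 380) (nat_lit 0) (XT.nd (nat_lit 78) (nat_lit 152) (nat_lit 0) (XT.lf (nat_lit 0) (nat_lit 9221463268) (nat_lit 228) (nat_lit 14871355961) (nat_lit 304) (nat_lit 46971075381) (nat_lit 69) (nat_lit 5) (nat_lit 72) (nat_lit 5) (nat_lit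 73) (nat_lit 5) (nat_lit 444) (nat_lit 429) (nat_lit 327)) (XT.nd (nat_lit 78) (nat_lit 152) (nat_lit 0) (XT.lf (nat_lit 0) (nat_lit 38371133993) (nat_lit 304) (nat_lit 21076507756) (nat_lit 76) (nat_lit 14913706378) (nat_lit 69) (nat_lit 5) (nat_lit 73) (nat_lit 5) (nat_lit 70) (nat_lit 5) (nat_lit 445) (nat_lit 429) (nat_lit 326)) (XT.lf (nat_lit 0) (nat_lit 23750058291) (nat_lit 152) (nat_lit 30997354586) (nat_lit 228) (nat_lit 23098729289) (nat_lit 67) (nat_lit 5) (nat_lit 69) (nat_lit 5) (nat_lit 70) (nat_lit 5) (nat_lit 446) (nat_lit 429) (nat_lit 325)))) (XT.nd (nat_lit 156) (nat_lit 152) (nat_lit 0) (XT.nd (nat_lit 78) (nat_lit 228) (nat_lit 0) (XT.lf (nat_lit 0) (nat_lit 73016809689) (nat_lit 228) (nat_lit 8213171657) (nat_lit 76) (nat_lit 333097277) (nat_lit 67) (nat_lit 5) (nat_lit 70) (nat_lit 5) (nat_lit 68) (nat_lit 5) (nat_lit 447) (nat_lit 429) (nat_lit 324)) (XT.lf (nat_lit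 0) (nat_lit 8688920649) (nat_lit 228) (nat_lit 42983635312) (nat_lit 76) (nat_lit 33740840378) (nat_lit 64) (nat_lit 5) (nat_lit 67) (nat_lit 5) (nat_lit 65) (nat_lit 5) (nat_lit 448) (nat_lit 429) (nat_lit 323))) (XT.nd (nat_lit 78) (nat_lit 0) (nat_lit 0) (XT.lf (nat_lit 0) (nat_lit 8218416777) (nat_lit 152) (nat_lit 19049283217) (nat_lit 228) (nat_lit 62252161503) (nat_lit 62) (nat_lit 5) (nat_lit 64) (nat_lit 5) (nat_lit 65) (nat_lit 5) (nat_lit 449) (nat_lit 429) (nat_lit 322)) (XT.lf (nat_lit 0) (nat_lit 48926266566) (nat_lit 228) (nat_lit 28321795341) (nat_lit 76) (nat_lit 16579303278) (nat_lit 62) (nat_lit 5) (nat_lit 65) (nat_lit 5) (nat_lit 63) (nat_lit 5) (nat_lit 450) (nat_lit 429) (nat_lit 321))))) (XT.nd (nat_lit 234) (nat_lit 304) (nat_lit 0) (XT.nd (nat_lit 78) (nat_lit 152) (nat_lit 0) (XT.lf (nat_lit 0) (nat_lit 29894695099) (nat_lit 152) (nat_lit 43635178223) (nat_lit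 228) (nat_lit 24852607554) (nat_lit 60) (nat_lit 5) (nat_lit 62) (nat_lit 5) (nat_lit 63) (nat_lit 5) (nat_lit 451) (nat_lit 429) (nat_lit 320)) (XT.nd (nat_lit 78) (nat_lit 152) (nat_lit 0) (XT.lf (nat_lit 0) (nat_lit 94377047982) (nat_lit 152) (nat_lit 6497741026) (nat_lit 228) (nat_lit 2365375274) (nat_lit 60) (nat_lit 5) (nat_lit 62) (nat_lit 5) (nat_lit 63) (nat_lit 5) (nat_lit 452) (nat_lit 429) (nat_lit 319)) (XT.lf (nat_lit 0) (nat_lit 23073629696) (nat_lit 152) (nat_lit 51292571337) (nat_lit 76) (nat_lit 33898136630) (nat_lit 58) (nat_lit 5) (nat_lit 60) (nat_lit 5) (nat_lit 59) (nat_lit 5) (nat_lit 453) (nat_lit 429) (nat_lit 318)))) (XT.nd (nat_lit 156) (nat_lit 152) (nat_lit 0) (XT.nd (nat_lit 78) (nat_lit 0) (nat_lit 0) (XT.lf (nat_lit 0) (nat_lit 15440232774) (nat_lit 152) (nat_lit 35767216723) (nat_lit 228) (nat_lit 62415081532) (nat_lit 56) (nat_lit 5) (nat_lit 58) (nat_lit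 5) (nat_lit 59) (nat_lit 5) (nat_lit 454) (nat_lit 429) (nat_lit 317)) (XT.lf (nat_lit 0) (nat_lit 83171972322) (nat_lit 228) (nat_lit 29049369603) (nat_lit 76) (nat_lit 7061638212) (nat_lit 56) (nat_lit 5) (nat_lit 59) (nat_lit 5) (nat_lit 57) (nat_lit 4) (nat_lit 455) (nat_lit 429) (nat_lit 316))) (XT.nd (nat_lit 78) (nat_lit 76) (nat_lit 0) (XT.lf (nat_lit 0) (nat_lit 47036166129) (nat_lit 76) (nat_lit 72716593618) (nat_lit 152) (nat_lit 5478777265) (nat_lit 55) (nat_lit 5) (nat_lit 56) (nat_lit 5) (nat_lit 57) (nat_lit 4) (nat_lit 456) (nat_lit 429) (nat_lit 315)) (XT.lf (nat_lit 0) (nat_lit 27036930864) (nat_lit 152) (nat_lit 1418295409) (nat_lit 76) (nat_lit 103082540840) (nat_lit 54) (nat_lit 5) (nat_lit 56) (nat_lit 5) (nat_lit 55) (nat_lit 5) (nat_lit 457) (nat_lit 429) (nat_lit 314)))))) (XT.nd (nat_lit 546) (nat_lit 532) (nat_lit 0) (XT.nd (nat_lit 234) (nat_lit 380) (nat_lit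 0) (XT.nd (nat_lit 78) (nat_lit 152) (nat_lit 0) (XT.lf (nat_lit 0) (nat_lit 64438995138) (nat_lit 228) (nat_lit 53053960555) (nat_lit 76) (nat_lit 20637667845) (nat_lit 52) (nat_lit 5) (nat_lit 55) (nat_lit 5) (nat_lit 53) (nat_lit 4) (nat_lit 458) (nat_lit 429) (nat_lit 313)) (XT.nd (nat_lit 78) (nat_lit 76) (nat_lit 0) (XT.lf (nat_lit 0) (nat_lit 34297855476) (nat_lit 76) (nat_lit 72138089258) (nat_lit 152) (nat_lit 38686746174) (nat_lit 51) (nat_lit 5) (nat_lit 52) (nat_lit 5) (nat_lit 53) (nat_lit 4) (nat_lit 459) (nat_lit 429) (nat_lit 312)) (XT.lf (nat_lit 0) (nat_lit 649868960) (nat_lit 152) (nat_lit 20921349297) (nat_lit 76) (nat_lit 130985621607) (nat_lit 50) (nat_lit 5) (nat_lit 52) (nat_lit 5) (nat_lit 51) (nat_lit 5) (nat_lit 460) (nat_lit 429) (nat_lit 311)))) (XT.nd (nat_lit 156) (nat_lit 152) (nat_lit 0) (XT.nd (nat_lit 78) (nat_lit 76) (nat_lit 0) (XT.lf (nat_lit 0) (nat_lit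 43815510959) (nat_lit 228) (nat_lit 82097245744) (nat_lit 76) (nat_lit 34370801083) (nat_lit 48) (nat_lit 5) (nat_lit 51) (nat_lit 5) (nat_lit 49) (nat_lit 4) (nat_lit 461) (nat_lit 429) (nat_lit 310)) (XT.lf (nat_lit 0) (nat_lit 18161395046) (nat_lit 76) (nat_lit 73856035434) (nat_lit 152) (nat_lit 76484340602) (nat_lit 47) (nat_lit 5) (nat_lit 48) (nat_lit 5) (nat_lit 49) (nat_lit 4) (nat_lit 462) (nat_lit 429) (nat_lit 309))) (XT.nd (nat_lit 78) (nat_lit 152) (nat_lit 0) (XT.lf (nat_lit 0) (nat_lit 131108000356) (nat_lit 76) (nat_lit 15211284446) (nat_lit 152) (nat_lit 30878654172) (nat_lit 47) (nat_lit 5) (nat_lit 48) (nat_lit 5) (nat_lit 49) (nat_lit 4) (nat_lit 463) (nat_lit 429) (nat_lit 308)) (XT.lf (nat_lit 0) (nat_lit 20340049220) (nat_lit 152) (nat_lit 118097578174) (nat_lit 76) (nat_lit 47886116190) (nat_lit 45) (nat_lit 5) (nat_lit 47) (nat_lit 5) (nat_lit 46) (nat_lit 4) (nat_lit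 464) (nat_lit 429) (nat_lit 307))))) (XT.nd (nat_lit 312) (nat_lit 304) (nat_lit 0) (XT.nd (nat_lit 156) (nat_lit 152) (nat_lit 0) (XT.nd (nat_lit 78) (nat_lit 76) (nat_lit 0) (XT.lf (nat_lit 0) (nat_lit 75675161503) (nat_lit 152) (nat_lit 3001538248) (nat_lit 76) (nat_lit 117303776440) (nat_lit 45) (nat_lit 5) (nat_lit 47) (nat_lit 5) (nat_lit 46) (nat_lit 4) (nat_lit 465) (nat_lit 429) (nat_lit 306)) (XT.lf (nat_lit 0) (nat_lit 127688183157) (nat_lit 76) (nat_lit 10819017494) (nat_lit 152) (nat_lit 67656937348) (nat_lit 44) (nat_lit 5) (nat_lit 45) (nat_lit 5) (nat_lit 46) (nat_lit 4) (nat_lit 466) (nat_lit 429) (nat_lit 305))) (XT.nd (nat_lit 78) (nat_lit 76) (nat_lit 0) (XT.lf (nat_lit 0) (nat_lit 52992809951) (nat_lit 76) (nat_lit 156233230997) (nat_lit 76) (nat_lit 7707632783) (nat_lit 43) (nat_lit 4) (nat_lit 44) (nat_lit 5) (nat_lit 44) (nat_lit 4) (nat_lit 467) (nat_lit 429) (nat_lit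 304)) (XT.lf (nat_lit 0) (nat_lit 56666004667) (nat_lit 152) (nat_lit 30661038848) (nat_lit 76) (nat_lit 140929457055) (nat_lit 42) (nat_lit 5) (nat_lit 44) (nat_lit 5) (nat_lit 43) (nat_lit 4) (nat_lit 468) (nat_lit 429) (nat_lit 303)))) (XT.nd (nat_lit 156) (nat_lit 152) (nat_lit 0) (XT.nd (nat_lit 78) (nat_lit 76) (nat_lit 0) (XT.lf (nat_lit 0) (nat_lit 119034163220) (nat_lit 76) (nat_lit 9601013712) (nat_lit 152) (nat_lit 111604996285) (nat_lit 41) (nat_lit 5) (nat_lit 42) (nat_lit 5) (nat_lit 43) (nat_lit 4) (nat_lit 469) (nat_lit 429) (nat_lit 302)) (XT.lf (nat_lit 0) (nat_lit 28971379320) (nat_lit 76) (nat_lit 180734608115) (nat_lit 76) (nat_lit 43209023900) (nat_lit 40) (nat_lit 4) (nat_lit 41) (nat_lit 5) (nat_lit 41) (nat_lit 4) (nat_lit 470) (nat_lit 429) (nat_lit 301))) (XT.nd (nat_lit 78) (nat_lit 76) (nat_lit 0) (XT.lf (nat_lit 0) (nat_lit 32773688512) (nat_lit 152) (nat_lit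 69356848931) (nat_lit 76) (nat_lit 164122413345) (nat_lit 39) (nat_lit 5) (nat_lit 41) (nat_lit 5) (nat_lit 40) (nat_lit 4) (nat_lit 471) (nat_lit 429) (nat_lit 300)) (XT.lf (nat_lit 0) (nat_lit 101553390154) (nat_lit 76) (nat_lit 13388921505) (nat_lit 152) (nat_lit 165430492500) (nat_lit 38) (nat_lit 5) (nat_lit 39) (nat_lit 5) (nat_lit 40) (nat_lit 4) (nat_lit 472) (nat_lit 429) (nat_lit 299))))))))
noncomputable def xc159 : XT := (XT.nd (nat_lit 2184) (nat_lit 988) (nat_lit 0) (XT.nd (nat_lit 1092) (nat_lit 836) (nat_lit 0) (XT.nd (nat_lit 546) (nat_lit 456) (nat_lit 0) (XT.nd (nat_lit 234) (nat_lit 228) (nat_lit 0) (XT.nd (nat_lit 78) (nat_lit 228) (nat_lit 0) (XT.lf (nat_lit 0) (nat_lit 207612338234) (nat_lit 152) (nat_lit 7423223606) (nat_lit 0) (nat_lit 80272450884) (nat_lit 38) (nat_lit 5) (nat_lit 40) (nat_lit 4) (nat_lit 38) (nat_lit 4) (nat_lit 473) (nat_lit 429) (nat_lit 298))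 (XT.nd (nat_lit 78) (nat_lit 76) (nat_lit 0) (XT.lf (nat_lit 0) (nat_lit 1407420123) (nat_lit 152) (nat_lit 124412848074) (nat_lit 76) (nat_lit 185227985729) (nat_lit 36) (nat_lit 5) (nat_lit 38) (nat_lit 5) (nat_lit 37) (nat_lit 4) (nat_lit 474) (nat_lit 429) (nat_lit 297)) (XT.lf (nat_lit 0) (nat_lit 69817700204) (nat_lit 76) (nat_lit 24969966857) (nat_lit 152) (nat_lit 232926882676) (nat_lit 35) (nat_lit 5) (nat_lit 36) (nat_lit 5) (nat_lit 37) (nat_lit 4) (nat_lit 475) (nat_lit 429) (nat_lit 296)))) (XT.nd (nat_lit 156) (nat_lit 152) (nat_lit 0) (XT.nd (nat_lit 78) (nat_lit 76) (nat_lit 0) (XT.lf (nat_lit 0) (nat_lit 201146715100) (nat_lit 152) (nat_lit 60888368489) (nat_lit 0) (nat_lit 83238395123) (nat_lit 35) (nat_lit 5) (nat_lit 37) (nat_lit 4) (nat_lit 35) (nat_lit 4) (nat_lit 476) (nat_lit 429) (nat_lit 295)) (XT.lf (nat_lit 0) (nat_lit 159194672645) (nat_lit 76) (nat_lit 161296463713)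 (nat_lit 76) (nat_lit 43387853706) (nat_lit 34) (nat_lit 4) (nat_lit 35) (nat_lit 5) (nat_lit 35) (nat_lit 4) (nat_lit 477) (nat_lit 429) (nat_lit 294))) (XT.nd (nat_lit 78) (nat_lit 0) (nat_lit 0) (XT.lf (nat_lit 0) (nat_lit 15673981047) (nat_lit 76) (nat_lit 48548547605) (nat_lit 152) (nat_lit 319457809089) (nat_lit 32) (nat_lit 5) (nat_lit 33) (nat_lit 5) (nat_lit 34) (nat_lit 4) (nat_lit 478) (nat_lit 429) (nat_lit 293)) (XT.lf (nat_lit 0) (nat_lit 185599834275) (nat_lit 152) (nat_lit 142350912795) (nat_lit 0) (nat_lit 76424716492) (nat_lit 32) (nat_lit 5) (nat_lit 34) (nat_lit 4) (nat_lit 32) (nat_lit 4) (nat_lit 479) (nat_lit 429) (nat_lit 292))))) (XT.nd (nat_lit 234) (nat_lit 228) (nat_lit 0) (XT.nd (nat_lit 78) (nat_lit 152) (nat_lit 0) (XT.lf (nat_lit 0) (nat_lit 105365756380) (nat_lit 76) (nat_lit 215116105516) (nat_lit 76) (nat_lit 105940774554) (nat_lit 31) (nat_lit 4) (nat_lit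 32) (nat_lit 5) (nat_lit 32) (nat_lit 4) (nat_lit 480) (nat_lit 429) (nat_lit 291)) (XT.nd (nat_lit 78) (nat_lit 76) (nat_lit 0) (XT.lf (nat_lit 0) (nat_lit 19117150832) (nat_lit 152) (nat_lit 69411854621) (nat_lit 76) (nat_lit 361354529251) (nat_lit 30) (nat_lit 5) (nat_lit 32) (nat_lit 5) (nat_lit 31) (nat_lit 4) (nat_lit 481) (nat_lit 429) (nat_lit 290)) (XT.lf (nat_lit 0) (nat_lit 154870726204) (nat_lit 152) (nat_lit 265835171588) (nat_lit 0) (nat_lit 53782104797) (nat_lit 29) (nat_lit 5) (nat_lit 31) (nat_lit 4) (nat_lit 29) (nat_lit 4) (nat_lit 482) (nat_lit 429) (nat_lit 289)))) (XT.nd (nat_lit 156) (nat_lit 152) (nat_lit 0) (XT.nd (nat_lit 78) (nat_lit 0) (nat_lit 0) (XT.lf (nat_lit 0) (nat_lit 10159729482) (nat_lit 76) (nat_lit 295815319797) (nat_lit 76) (nat_lit 194726541696) (nat_lit 28) (nat_lit 4) (nat_lit 29) (nat_lit 5) (nat_lit 29) (nat_lit 4) (nat_lit 483) (nat_lit 429)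 (nat_lit 288)) (XT.lf (nat_lit 0) (nat_lit 323351571904) (nat_lit 76) (nat_lit 153084091069) (nat_lit 76) (nat_lit 51995167881) (nat_lit 28) (nat_lit 4) (nat_lit 29) (nat_lit 5) (nat_lit 29) (nat_lit 4) (nat_lit 484) (nat_lit 429) (nat_lit 287))) (XT.nd (nat_lit 78) (nat_lit 0) (nat_lit 0) (XT.lf (nat_lit 0) (nat_lit 99750729140) (nat_lit 152) (nat_lit 452064888495) (nat_lit 0) (nat_lit 6149749948) (nat_lit 26) (nat_lit 5) (nat_lit 28) (nat_lit 4) (nat_lit 26) (nat_lit 4) (nat_lit 485) (nat_lit 429) (nat_lit 286)) (XT.lf (nat_lit 0) (nat_lit 270555855332) (nat_lit 152) (nat_lit 141465717291) (nat_lit 0) (nat_lit 176954760965) (nat_lit 26) (nat_lit 5) (nat_lit 28) (nat_lit 4) (nat_lit 26) (nat_lit 4) (nat_lit 486) (nat_lit 429) (nat_lit 285)))))) (XT.nd (nat_lit 546) (nat_lit 380) (nat_lit 0) (XT.nd (nat_lit 234) (nat_lit 228) (nat_lit 0) (XT.nd (nat_lit 78) (nat_lit 152) (nat_lit 0) (XT.lf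 (nat_lit 0) (nat_lit 204195238714) (nat_lit 76) (nat_lit 255740649713) (nat_lit 76) (nat_lit 162139448703) (nat_lit 25) (nat_lit 4) (nat_lit 26) (nat_lit 5) (nat_lit 26) (nat_lit 4) (nat_lit 487) (nat_lit 429) (nat_lit 284)) (XT.nd (nat_lit 78) (nat_lit 76) (nat_lit 0) (XT.lf (nat_lit 0) (nat_lit 10279686047) (nat_lit 152) (nat_lit 72219552774) (nat_lit 76) (nat_lit 574992800085) (nat_lit 24) (nat_lit 5) (nat_lit 26) (nat_lit 5) (nat_lit 25) (nat_lit 4) (nat_lit 488) (nat_lit 429) (nat_lit 283)) (XT.lf (nat_lit 0) (nat_lit 198068494885) (nat_lit 152) (nat_lit 385109257917) (nat_lit 0) (nat_lit 111400540086) (nat_lit 23) (nat_lit 5) (nat_lit 25) (nat_lit 4) (nat_lit 23) (nat_lit 4) (nat_lit 489) (nat_lit 429) (nat_lit 282)))) (XT.nd (nat_lit 156) (nat_lit 152) (nat_lit 0) (XT.nd (nat_lit 78) (nat_lit 76) (nat_lit 0) (XT.lf (nat_lit 0) (nat_lit 405048772346) (nat_lit 152) (nat_lit 10868466573)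 (nat_lit 0) (nat_lit 318380739161) (nat_lit 23) (nat_lit 5) (nat_lit 25) (nat_lit 4) (nat_lit 23) (nat_lit 4) (nat_lit 490) (nat_lit 429) (nat_lit 281)) (XT.lf (nat_lit 0) (nat_lit 414021936624) (nat_lit 76) (nat_lit 224522427913) (nat_lit 76) (nat_lit 137854322149) (nat_lit 22) (nat_lit 4) (nat_lit 23) (nat_lit 5) (nat_lit 23) (nat_lit 4) (nat_lit 491) (nat_lit 429) (nat_lit 280))) (XT.nd (nat_lit 78) (nat_lit 0) (nat_lit 0) (XT.lf (nat_lit 0) (nat_lit 52647303565) (nat_lit 76) (nat_lit 14331290921) (nat_lit 152) (nat_lit 754630729352) (nat_lit 20) (nat_lit 5) (nat_lit 21) (nat_lit 5) (nat_lit 22) (nat_lit 4) (nat_lit 492) (nat_lit 429) (nat_lit 279)) (XT.lf (nat_lit 0) (nat_lit 296030302162) (nat_lit 152) (nat_lit 357115733283) (nat_lit 0) (nat_lit 215781936242) (nat_lit 20) (nat_lit 5) (nat_lit 22) (nat_lit 4) (nat_lit 20) (nat_lit 4) (nat_lit 493) (nat_lit 429) (nat_lit 278))))) (XT.nd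 (nat_lit 234) (nat_lit 152) (nat_lit 0) (XT.nd (nat_lit 78) (nat_lit 152) (nat_lit 0) (XT.lf (nat_lit 0) (nat_lit 91902706938) (nat_lit 76) (nat_lit 454085624449) (nat_lit 76) (nat_lit 373837205182) (nat_lit 19) (nat_lit 4) (nat_lit 20) (nat_lit 5) (nat_lit 20) (nat_lit 4) (nat_lit 494) (nat_lit 429) (nat_lit 277)) (XT.nd (nat_lit 78) (nat_lit 152) (nat_lit 0) (XT.lf (nat_lit 0) (nat_lit 597151473105) (nat_lit 76) (nat_lit 228555396438) (nat_lit 76) (nat_lit 148306927774) (nat_lit 19) (nat_lit 4) (nat_lit 20) (nat_lit 5) (nat_lit 20) (nat_lit 4) (nat_lit 495) (nat_lit 429) (nat_lit 276)) (XT.lf (nat_lit 0) (nat_lit 93725533274) (nat_lit 152) (nat_lit 918948913555) (nat_lit 0) (nat_lit 19421353272) (nat_lit 17) (nat_lit 5) (nat_lit 19) (nat_lit 4) (nat_lit 17) (nat_lit 4) (nat_lit 496) (nat_lit 429) (nat_lit 275)))) (XT.nd (nat_lit 156) (nat_lit 76) (nat_lit 0) (XT.nd (nat_lit 78) (nat_lit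 76) (nat_lit 0) (XT.lf (nat_lit 0) (nat_lit 363616096583) (nat_lit 152) (nat_lit 440267584391) (nat_lit 0) (nat_lit 289311877369) (nat_lit 17) (nat_lit 5) (nat_lit 19) (nat_lit 4) (nat_lit 17) (nat_lit 4) (nat_lit 497) (nat_lit 429) (nat_lit 274)) (XT.lf (nat_lit 0) (nat_lit 80746980893) (nat_lit 76) (nat_lit 576292618172) (nat_lit 76) (nat_lit 501988362651) (nat_lit 16) (nat_lit 4) (nat_lit 17) (nat_lit 5) (nat_lit 17) (nat_lit 4) (nat_lit 498) (nat_lit 429) (nat_lit 273))) (XT.nd (nat_lit 78) (nat_lit 76) (nat_lit 0) (XT.lf (nat_lit 0) (nat_lit 668480572020) (nat_lit 76) (nat_lit 317493840027) (nat_lit 76) (nat_lit 243189550887) (nat_lit 16) (nat_lit 4) (nat_lit 17) (nat_lit 5) (nat_lit 17) (nat_lit 4) (nat_lit 499) (nat_lit 429) (nat_lit 272)) (XT.lf (nat_lit 0) (nat_lit 34496381805) (nat_lit 152) (nat_lit 2551846112) (nat_lit 76) (nat_lit 1267792769926) (nat_lit 15) (nat_lit 5) (nat_lit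 17) (nat_lit 5) (nat_lit 16) (nat_lit 4) (nat_lit 500) (nat_lit 429) (nat_lit 271))))))) (XT.nd (nat_lit 1092) (nat_lit 380) (nat_lit 0) (XT.nd (nat_lit 546) (nat_lit 304) (nat_lit 0) (XT.nd (nat_lit 234) (nat_lit 152) (nat_lit 0) (XT.nd (nat_lit 78) (nat_lit 76) (nat_lit 0) (XT.lf (nat_lit 0) (nat_lit 343242070831) (nat_lit 152) (nat_lit 766624373451) (nat_lit 0) (nat_lit 274441747599) (nat_lit 14) (nat_lit 5) (nat_lit 16) (nat_lit 4) (nat_lit 14) (nat_lit 4) (nat_lit 501) (nat_lit 429) (nat_lit 270)) (XT.nd (nat_lit 78) (nat_lit 76) (nat_lit 0) (XT.lf (nat_lit 0) (nat_lit 677721057398) (nat_lit 152) (nat_lit 183408303196) (nat_lit 0) (nat_lit 608920709456) (nat_lit 14) (nat_lit 5) (nat_lit 16) (nat_lit 4) (nat_lit 14) (nat_lit 4) (nat_lit 502) (nat_lit 429) (nat_lit 269)) (XT.lf (nat_lit 0) (nat_lit 469974641832) (nat_lit 76) (nat_lit 580286406321) (nat_lit 76) (nat_lit 511486035499) (nat_lit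 13) (nat_lit 4) (nat_lit 14) (nat_lit 5) (nat_lit 14) (nat_lit 4) (nat_lit 503) (nat_lit 429) (nat_lit 268)))) (XT.nd (nat_lit 156) (nat_lit 0) (nat_lit 0) (XT.nd (nat_lit 78) (nat_lit 152) (nat_lit 0) (XT.lf (nat_lit 0) (nat_lit 1186058380627) (nat_lit 76) (nat_lit 271560354964) (nat_lit 76) (nat_lit 202759962956) (nat_lit 13) (nat_lit 4) (nat_lit 14) (nat_lit 5) (nat_lit 14) (nat_lit 4) (nat_lit 504) (nat_lit 429) (nat_lit 267)) (XT.lf (nat_lit 0) (nat_lit 130616179275) (nat_lit 152) (nat_lit 1568602103869) (nat_lit 0) (nat_lit 66912094438) (nat_lit 11) (nat_lit 5) (nat_lit 13) (nat_lit 4) (nat_lit 11) (nat_lit 4) (nat_lit 505) (nat_lit 429) (nat_lit 266))) (XT.nd (nat_lit 78) (nat_lit 0) (nat_lit 0) (XT.lf (nat_lit 0) (nat_lit 500067033098) (nat_lit 152) (nat_lit 941862193018) (nat_lit 0) (nat_lit 436362931444) (nat_lit 11) (nat_lit 5) (nat_lit 13) (nat_lit 4) (nat_lit 11) (nat_lit 4)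 (nat_lit 506) (nat_lit 429) (nat_lit 265)) (XT.lf (nat_lit 0) (nat_lit 899073770109) (nat_lit 152) (nat_lit 264983471754) (nat_lit 0) (nat_lit 835369652883) (nat_lit 11) (nat_lit 5) (nat_lit 13) (nat_lit 4) (nat_lit 11) (nat_lit 4) (nat_lit 507) (nat_lit 429) (nat_lit 264))))) (XT.nd (nat_lit 234) (nat_lit 228) (nat_lit 0) (XT.nd (nat_lit 78) (nat_lit 0) (nat_lit 0) (XT.lf (nat_lit 0) (nat_lit 490586307050) (nat_lit 76) (nat_lit 851213180107) (nat_lit 76) (nat_lit 787509048463) (nat_lit 10) (nat_lit 4) (nat_lit 11) (nat_lit 5) (nat_lit 11) (nat_lit 4) (nat_lit 508) (nat_lit 429) (nat_lit 263)) (XT.nd (nat_lit 78) (nat_lit 0) (nat_lit 0) (XT.lf (nat_lit 0) (nat_lit 1321671167834) (nat_lit 76) (nat_lit 505517044435) (nat_lit 76) (nat_lit 441812899440) (nat_lit 10) (nat_lit 4) (nat_lit 11) (nat_lit 5) (nat_lit 11) (nat_lit 4) (nat_lit 509) (nat_lit 429) (nat_lit 262)) (XT.lf (nat_lit 0) (nat_lit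 2219242497889) (nat_lit 76) (nat_lit 132165382863) (nat_lit 76) (nat_lit 68461225506) (nat_lit 10) (nat_lit 4) (nat_lit 11) (nat_lit 5) (nat_lit 11) (nat_lit 4) (nat_lit 510) (nat_lit 429) (nat_lit 261)))) (XT.nd (nat_lit 156) (nat_lit 76) (nat_lit 0) (XT.nd (nat_lit 78) (nat_lit 0) (nat_lit 0) (XT.lf (nat_lit 0) (nat_lit 340266711271) (nat_lit 152) (nat_lit 1958834054434) (nat_lit 0) (nat_lit 281281369788) (nat_lit 8) (nat_lit 5) (nat_lit 10) (nat_lit 4) (nat_lit 8) (nat_lit 4) (nat_lit 511) (nat_lit 429) (nat_lit 260)) (XT.lf (nat_lit 0) (nat_lit 787054886069) (nat_lit 152) (nat_lit 1237744674137) (nat_lit 0) (nat_lit 728069534773) (nat_lit 8) (nat_lit 5) (nat_lit 10) (nat_lit 4) (nat_lit 8) (nat_lit 4) (nat_lit 512) (nat_lit 429) (nat_lit 259))) (XT.nd (nat_lit 78) (nat_lit 76) (nat_lit 0) (XT.lf (nat_lit 0) (nat_lit 1269585978911) (nat_lit 152) (nat_lit 458968424659) (nat_lit 0) (nat_lit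 1210600618528) (nat_lit 8) (nat_lit 5) (nat_lit 10) (nat_lit 4) (nat_lit 8) (nat_lit 4) (nat_lit 513) (nat_lit 429) (nat_lit 258)) (XT.lf (nat_lit 0) (nat_lit 402230882134) (nat_lit 76) (nat_lit 1398162213564) (nat_lit 76) (nat_lit 1339176844769) (nat_lit 7) (nat_lit 4) (nat_lit 8) (nat_lit 5) (nat_lit 8) (nat_lit 4) (nat_lit 514) (nat_lit 429) (nat_lit 257)))))) (XT.nd (nat_lit 546) (nat_lit 228) (nat_lit 0) (XT.nd (nat_lit 234) (nat_lit 152) (nat_lit 0) (XT.nd (nat_lit 78) (nat_lit 0) (nat_lit 0) (XT.lf (nat_lit 0) (nat_lit 1358427820644) (nat_lit 76) (nat_lit 1027785848625) (nat_lit 76) (nat_lit 968800472040) (nat_lit 7) (nat_lit 4) (nat_lit 8) (nat_lit 5) (nat_lit 8) (nat_lit 4) (nat_lit 515) (nat_lit 429) (nat_lit 256)) (XT.nd (nat_lit 78) (nat_lit 0) (nat_lit 0) (XT.lf (nat_lit 0) (nat_lit 2391120279219) (nat_lit 76) (nat_lit 627779495941) (nat_lit 76) (nat_lit 568794112144) (nat_lit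 7) (nat_lit 4) (nat_lit 8) (nat_lit 5) (nat_lit 8) (nat_lit 4) (nat_lit 516) (nat_lit 429) (nat_lit 255)) (XT.lf (nat_lit 0) (nat_lit 3506427916871) (nat_lit 76) (nat_lit 195772747498) (nat_lit 76) (nat_lit 136787357022) (nat_lit 7) (nat_lit 4) (nat_lit 8) (nat_lit 5) (nat_lit 8) (nat_lit 4) (nat_lit 517) (nat_lit 429) (nat_lit 254)))) (XT.nd (nat_lit 156) (nat_lit 0) (nat_lit 0) (XT.nd (nat_lit 78) (nat_lit 0) (nat_lit 0) (XT.lf (nat_lit 0) (nat_lit 335394854879) (nat_lit 152) (nat_lit 3491808639669) (nat_lit 0) (nat_lit 280778746860) (nat_lit 5) (nat_lit 5) (nat_lit 7) (nat_lit 4) (nat_lit 5) (nat_lit 4) (nat_lit 518) (nat_lit 429) (nat_lit 253)) (XT.lf (nat_lit 0) (nat_lit 852375438894) (nat_lit 152) (nat_lit 2746923891861) (nat_lit 0) (nat_lit 797759325574) (nat_lit 5) (nat_lit 5) (nat_lit 7) (nat_lit 4) (nat_lit 5) (nat_lit 4) (nat_lit 519) (nat_lit 429) (nat_lit 252))) (XT.nd (nat_lit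 78) (nat_lit 0) (nat_lit 0) (XT.lf (nat_lit 0) (nat_lit 1410714377181) (nat_lit 152) (nat_lit 1942448555708) (nat_lit 0) (nat_lit 1356098258952) (nat_lit 5) (nat_lit 5) (nat_lit 7) (nat_lit 4) (nat_lit 5) (nat_lit 4) (nat_lit 520) (nat_lit 429) (nat_lit 251)) (XT.lf (nat_lit 0) (nat_lit 2013720344929) (nat_lit 152) (nat_lit 1073615369957) (nat_lit 0) (nat_lit 1959104222154) (nat_lit 5) (nat_lit 5) (nat_lit 7) (nat_lit 4) (nat_lit 5) (nat_lit 4) (nat_lit 521) (nat_lit 429) (nat_lit 250))))) (XT.nd (nat_lit 312) (nat_lit 152) (nat_lit 0) (XT.nd (nat_lit 156) (nat_lit 0) (nat_lit 0) (XT.nd (nat_lit 78) (nat_lit 76) (nat_lit 0) (XT.lf (nat_lit 0) (nat_lit 2664966710835) (nat_lit 152) (nat_lit 135275693509) (nat_lit 0) (nat_lit 2610350583853) (nat_lit 5) (nat_lit 5) (nat_lit 7) (nat_lit 4) (nat_lit 5) (nat_lit 4) (nat_lit 522) (nat_lit 429) (nat_lit 249)) (XT.lf (nat_lit 0) (nat_lit 924371827597)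 (nat_lit 76) (nat_lit 2466172049713) (nat_lit 76) (nat_lit 2411555918833) (nat_lit 4) (nat_lit 4) (nat_lit 5) (nat_lit 5) (nat_lit 5) (nat_lit 4) (nat_lit 523) (nat_lit 429) (nat_lit 248))) (XT.nd (nat_lit 78) (nat_lit 0) (nat_lit 0) (XT.lf (nat_lit 0) (nat_lit 2076484250792) (nat_lit 76) (nat_lit 2101381571983) (nat_lit 76) (nat_lit 2046765437495) (nat_lit 4) (nat_lit 4) (nat_lit 5) (nat_lit 5) (nat_lit 5) (nat_lit 4) (nat_lit 524) (nat_lit 429) (nat_lit 247)) (XT.lf (nat_lit 0) (nat_lit 3320765530664) (nat_lit 76) (nat_lit 1707407926996) (nat_lit 76) (nat_lit 1652791789167) (nat_lit 4) (nat_lit 4) (nat_lit 5) (nat_lit 5) (nat_lit 5) (nat_lit 4) (nat_lit 525) (nat_lit 429) (nat_lit 246)))) (XT.nd (nat_lit 156) (nat_lit 152) (nat_lit 0) (XT.nd (nat_lit 78) (nat_lit 0) (nat_lit 0) (XT.lf (nat_lit 0) (nat_lit 4664589185907) (nat_lit 76) (nat_lit 1281916456113) (nat_lit 76) (nat_lit 1227300315191)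 (nat_lit 4) (nat_lit 4) (nat_lit 5) (nat_lit 5) (nat_lit 5) (nat_lit 4) (nat_lit 526) (nat_lit 429) (nat_lit 245)) (XT.lf (nat_lit 0) (nat_lit 6115918615960) (nat_lit 76) (nat_lit 822385728398) (nat_lit 76) (nat_lit 767769584611) (nat_lit 4) (nat_lit 4) (nat_lit 5) (nat_lit 5) (nat_lit 5) (nat_lit 4) (nat_lit 527) (nat_lit 429) (nat_lit 244))) (XT.nd (nat_lit 78) (nat_lit 152) (nat_lit 0) (XT.lf (nat_lit 0) (nat_lit 7683354291520) (nat_lit 76) (nat_lit 326092598796) (nat_lit 76) (nat_lit 271476452357) (nat_lit 4) (nat_lit 4) (nat_lit 5) (nat_lit 5) (nat_lit 5) (nat_lit 4) (nat_lit 528) (nat_lit 429) (nat_lit 243)) (XT.lf (nat_lit 0) (nat_lit 268658608319) (nat_lit 152) (nat_lit 8413115396145) (nat_lit 0) (nat_lit 218088100083) (nat_lit 2) (nat_lit 5) (nat_lit 4) (nat_lit 4) (nat_lit 2) (nat_lit 4) (nat_lit 529) (nat_lit 429) (nat_lit 242))))))))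
noncomputable def xc160 : XT := (XT.nd (nat_lit 56004) (nat_lit 0) (nat_lit 2812) (XT.nd (nat_lit 54912) (nat_lit 0) (nat_lit 5168) (XT.nd (nat_lit 546) (nat_lit 76) (nat_lit 0) (XT.nd (nat_lit 234) (nat_lit 0) (nat_lit 0) (XT.nd (nat_lit 78) (nat_lit 0) (nat_lit 0) (XT.lf (nat_lit 0) (nat_lit 862570557780) (nat_lit 152) (nat_lit 7891162626143) (nat_lit 0) (nat_lit 812000047439) (nat_lit 2) (nat_lit 5) (nat_lit 4) (nat_lit 4) (nat_lit 2) (nat_lit 4) (nat_lit 530) (nat_lit 429) (nat_lit 241)) (XT.nd (nat_lit 78) (nat_lit 0) (nat_lit 0) (XT.lf (nat_lit 0) (nat_lit 1503995416977) (nat_lit 152) (nat_lit 7327453730355) (nat_lit 0) (nat_lit 1453424904687) (nat_lit 2) (nat_lit 5) (nat_lit 4) (nat_lit 4) (nat_lit 2) (nat_lit 4) (nat_lit 531) (nat_lit 429) (nat_lit 240)) (XT.lf (nat_lit 0) (nat_lit 2196734222113) (nat_lit 152) (nat_lit 6718648211621) (nat_lit 0) (nat_lit 2146163708018) (nat_lit 2)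 (nat_lit 5) (nat_lit 4) (nat_lit 4) (nat_lit 2) (nat_lit 4) (nat_lit 532) (nat_lit 429) (nat_lit 239)))) (XT.nd (nat_lit 156) (nat_lit 0) (nat_lit 0) (XT.nd (nat_lit 78) (nat_lit 0) (nat_lit 0) (XT.lf (nat_lit 0) (nat_lit 2944892092033) (nat_lit 152) (nat_lit 6061138333534) (nat_lit 0) (nat_lit 2894321576267) (nat_lit 2) (nat_lit 5) (nat_lit 4) (nat_lit 4) (nat_lit 2) (nat_lit 4) (nat_lit 533) (nat_lit 429) (nat_lit 238)) (XT.lf (nat_lit 0) (nat_lit 3752902554856) (nat_lit 152) (nat_lit 5351027741261) (nat_lit 0) (nat_lit 3702332037542) (nat_lit 2) (nat_lit 5) (nat_lit 4) (nat_lit 4) (nat_lit 2) (nat_lit 4) (nat_lit 534) (nat_lit 429) (nat_lit 237))) (XT.nd (nat_lit 78) (nat_lit 0) (nat_lit 0) (XT.lf (nat_lit 0) (nat_lit 4625553820731) (nat_lit 152) (nat_lit 4584108372033) (nat_lit 0) (nat_lit 4574983301984) (nat_lit 2) (nat_lit 5) (nat_lit 4) (nat_lit 4) (nat_lit 2) (nat_lit 4) (nat_lit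 535) (nat_lit 429) (nat_lit 236)) (XT.lf (nat_lit 0) (nat_lit 5568017156418) (nat_lit 152) (nat_lit 3755835518476) (nat_lit 0) (nat_lit 5517446636345) (nat_lit 2) (nat_lit 5) (nat_lit 4) (nat_lit 4) (nat_lit 2) (nat_lit 4) (nat_lit 536) (nat_lit 429) (nat_lit 235))))) (XT.nd (nat_lit 234) (nat_lit 76) (nat_lit 0) (XT.nd (nat_lit 78) (nat_lit 0) (nat_lit 0) (XT.lf (nat_lit 0) (nat_lit 6585877529834) (nat_lit 152) (nat_lit 2861300897015) (nat_lit 0) (nat_lit 6535307008532) (nat_lit 2) (nat_lit 5) (nat_lit 4) (nat_lit 4) (nat_lit 2) (nat_lit 4) (nat_lit 537) (nat_lit 429) (nat_lit 234)) (XT.nd (nat_lit 78) (nat_lit 0) (nat_lit 0) (XT.lf (nat_lit 0) (nat_lit 7685166706154) (nat_lit 152) (nat_lit 1895203561743) (nat_lit 0) (nat_lit 7634596183715) (nat_lit 2) (nat_lit 5) (nat_lit 4) (nat_lit 4) (nat_lit 2) (nat_lit 4) (nat_lit 538) (nat_lit 429) (nat_lit 233)) (XT.lf (nat_lit 0) (nat_lit 8872398991608)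 (nat_lit 152) (nat_lit 851818491415) (nat_lit 0) (nat_lit 8821828468115) (nat_lit 2) (nat_lit 5) (nat_lit 4) (nat_lit 4) (nat_lit 2) (nat_lit 4) (nat_lit 539) (nat_lit 429) (nat_lit 232)))) (XT.nd (nat_lit 53976) (nat_lit 0) (nat_lit 6460) (XT.nd (nat_lit 53898) (nat_lit 0) (nat_lit 6992) (XT.lf (nat_lit 0) (nat_lit 289520315345) (nat_lit 76) (nat_lit 9872052491978) (nat_lit 76) (nat_lit 9821481967510) (nat_lit 1) (nat_lit 4) (nat_lit 2) (nat_lit 5) (nat_lit 2) (nat_lit 4) (nat_lit 540) (nat_lit 429) (nat_lit 231)) (XT.lf (nat_lit 0) (nat_lit 19994653534) (nat_lit 532) (nat_lit 222109048) (nat_lit 532) (nat_lit 222109048) (nat_lit 93) (nat_lit 3) (nat_lit 100) (nat_lit 3) (nat_lit 100) (nat_lit 5) (nat_lit 430) (nat_lit 430) (nat_lit 340))) (XT.nd (nat_lit 78) (nat_lit 532) (nat_lit 0) (XT.lf (nat_lit 76) (nat_lit 20961550300) (nat_lit 0) (nat_lit 21168481965) (nat_lit 532) (nat_lit 339523554)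 (nat_lit 94) (nat_lit 5) (nat_lit 93) (nat_lit 3) (nat_lit 100) (nat_lit 5) (nat_lit 431) (nat_lit 430) (nat_lit 339)) (XT.lf (nat_lit 0) (nat_lit 249238931) (nat_lit 532) (nat_lit 91415257) (nat_lit 608) (nat_lit 43846883654) (nat_lit 86) (nat_lit 5) (nat_lit 93) (nat_lit 3) (nat_lit 94) (nat_lit 5) (nat_lit 432) (nat_lit 430) (nat_lit 338)))))) (XT.nd (nat_lit 546) (nat_lit 988) (nat_lit 0) (XT.nd (nat_lit 234) (nat_lit 380) (nat_lit 0) (XT.nd (nat_lit 78) (nat_lit 0) (nat_lit 0) (XT.lf (nat_lit 0) (nat_lit 1994362886) (nat_lit 532) (nat_lit 22303961335) (nat_lit 608) (nat_lit 21653720844) (nat_lit 87) (nat_lit 5) (nat_lit 94) (nat_lit 5) (nat_lit 95) (nat_lit 5) (nat_lit 433) (nat_lit 430) (nat_lit 337)) (XT.nd (nat_lit 78) (nat_lit 0) (nat_lit 76) (XT.lf (nat_lit 76) (nat_lit 1498071739) (nat_lit 0) (nat_lit 2425143165) (nat_lit 608) (nat_lit 43930968899) (nat_lit 88) (nat_lit 5) (nat_lit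 87) (nat_lit 5) (nat_lit 95) (nat_lit 5) (nat_lit 434) (nat_lit 430) (nat_lit 336)) (XT.lf (nat_lit 0) (nat_lit 7138741178) (nat_lit 532) (nat_lit 21915236818) (nat_lit 608) (nat_lit 20763926721) (nat_lit 88) (nat_lit 5) (nat_lit 95) (nat_lit 5) (nat_lit 96) (nat_lit 5) (nat_lit 435) (nat_lit 430) (nat_lit 335)))) (XT.nd (nat_lit 156) (nat_lit 456) (nat_lit 0) (XT.nd (nat_lit 78) (nat_lit 0) (nat_lit 76) (XT.lf (nat_lit 76) (nat_lit 4648029581) (nat_lit 0) (nat_lit 6135373246) (nat_lit 608) (nat_lit 41141569352) (nat_lit 89) (nat_lit 5) (nat_lit 88) (nat_lit 5) (nat_lit 96) (nat_lit 5) (nat_lit 436) (nat_lit 430) (nat_lit 334)) (XT.lf (nat_lit 0) (nat_lit 15779418871) (nat_lit 532) (nat_lit 20035837134) (nat_lit 76) (nat_lit 18300566826) (nat_lit 89) (nat_lit 5) (nat_lit 96) (nat_lit 5) (nat_lit 90) (nat_lit 5) (nat_lit 437) (nat_lit 430) (nat_lit 333))) (XT.nd (nat_lit 78) (nat_lit 0) (nat_lit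 0) (XT.lf (nat_lit 0) (nat_lit 9708475730) (nat_lit 532) (nat_lit 11856974902) (nat_lit 608) (nat_lit 34885264439) (nat_lit 82) (nat_lit 5) (nat_lit 89) (nat_lit 5) (nat_lit 90) (nat_lit 5) (nat_lit 438) (nat_lit 430) (nat_lit 332)) (XT.lf (nat_lit 0) (nat_lit 28711158852) (nat_lit 608) (nat_lit 16310655874) (nat_lit 76) (nat_lit 13878840716) (nat_lit 82) (nat_lit 5) (nat_lit 90) (nat_lit 5) (nat_lit 83) (nat_lit 5) (nat_lit 439) (nat_lit 430) (nat_lit 331))))) (XT.nd (nat_lit 234) (nat_lit 532) (nat_lit 0) (XT.nd (nat_lit 78) (nat_lit 228) (nat_lit 0) (XT.lf (nat_lit 0) (nat_lit 17100597610) (nat_lit 228) (nat_lit 20044962953) (nat_lit 304) (nat_lit 24343667781) (nat_lit 79) (nat_lit 5) (nat_lit 82) (nat_lit 5) (nat_lit 83) (nat_lit 5) (nat_lit 440) (nat_lit 430) (nat_lit 330)) (XT.nd (nat_lit 78) (nat_lit 228) (nat_lit 0) (XT.lf (nat_lit 0) (nat_lit 46876826214) (nat_lit 304) (nat_lit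 10317537828) (nat_lit 76) (nat_lit 7040754320) (nat_lit 79) (nat_lit 5) (nat_lit 83) (nat_lit 5) (nat_lit 80) (nat_lit 5) (nat_lit 441) (nat_lit 430) (nat_lit 329)) (XT.lf (nat_lit 0) (nat_lit 27323159631) (nat_lit 228) (nat_lit 31239258757) (nat_lit 304) (nat_lit 8544195385) (nat_lit 76) (nat_lit 5) (nat_lit 79) (nat_lit 5) (nat_lit 80) (nat_lit 5) (nat_lit 442) (nat_lit 430) (nat_lit 328)))) (XT.nd (nat_lit 156) (nat_lit 228) (nat_lit 0) (XT.nd (nat_lit 78) (nat_lit 228) (nat_lit 0) (XT.lf (nat_lit 0) (nat_lit 1213778531) (nat_lit 304) (nat_lit 1656450189) (nat_lit 76) (nat_lit 67312722374) (nat_lit 75) (nat_lit 5) (nat_lit 79) (nat_lit 5) (nat_lit 76) (nat_lit 5) (nat_lit 443) (nat_lit 430) (nat_lit 327)) (XT.lf (nat_lit 0) (nat_lit 12983297176) (nat_lit 304) (nat_lit 32741662547) (nat_lit 76) (nat_lit 27627280451) (nat_lit 72) (nat_lit 5) (nat_lit 76) (nat_lit 5) (nat_lit 73) (nat_lit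 5) (nat_lit 444) (nat_lit 430) (nat_lit 326))) (XT.nd (nat_lit 78) (nat_lit 0) (nat_lit 0) (XT.lf (nat_lit 0) (nat_lit 10004253077) (nat_lit 228) (nat_lit 16050054428) (nat_lit 304) (nat_lit 50691970616) (nat_lit 69) (nat_lit 5) (nat_lit 72) (nat_lit 5) (nat_lit 73) (nat_lit 5) (nat_lit 445) (nat_lit 430) (nat_lit 325)) (XT.lf (nat_lit 0) (nat_lit 41472609461) (nat_lit 304) (nat_lit 22718613549) (nat_lit 76) (nat_lit 16116487374) (nat_lit 69) (nat_lit 5) (nat_lit 73) (nat_lit 5) (nat_lit 70) (nat_lit 5) (nat_lit 446) (nat_lit 430) (nat_lit 324))))))) (XT.nd (nat_lit 1092) (nat_lit 988) (nat_lit 0) (XT.nd (nat_lit 546) (nat_lit 684) (nat_lit 0) (XT.nd (nat_lit 234) (nat_lit 304) (nat_lit 0) (XT.nd (nat_lit 78) (nat_lit 228) (nat_lit 0) (XT.lf (nat_lit 0) (nat_lit 25692963483) (nat_lit 152) (nat_lit 33464704506) (nat_lit 228) (nat_lit 24913725979) (nat_lit 67) (nat_lit 5) (nat_lit 69) (nat_lit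 5) (nat_lit 70) (nat_lit 5) (nat_lit 447) (nat_lit 430) (nat_lit 323)) (XT.nd (nat_lit 78) (nat_lit 228) (nat_lit 0) (XT.lf (nat_lit 0) (nat_lit 78886637081) (nat_lit 228) (nat_lit 8828520801) (nat_lit 76) (nat_lit 370686009) (nat_lit 67) (nat_lit 5) (nat_lit 70) (nat_lit 5) (nat_lit 68) (nat_lit 5) (nat_lit 448) (nat_lit 430) (nat_lit 322)) (XT.lf (nat_lit 0) (nat_lit 9412097221) (nat_lit 228) (nat_lit 46380197548) (nat_lit 76) (nat_lit 36451926175) (nat_lit 64) (nat_lit 5) (nat_lit 67) (nat_lit 5) (nat_lit 65) (nat_lit 5) (nat_lit 449) (nat_lit 430) (nat_lit 321)))) (XT.nd (nat_lit 156) (nat_lit 152) (nat_lit 0) (XT.nd (nat_lit 78) (nat_lit 0) (nat_lit 0) (XT.lf (nat_lit 0) (nat_lit 8916952162) (nat_lit 152) (nat_lit 20559135561) (nat_lit 228) (nat_lit 67203203041) (nat_lit 62) (nat_lit 5) (nat_lit 64) (nat_lit 5) (nat_lit 65) (nat_lit 5) (nat_lit 450) (nat_lit 430) (nat_lit 320)) (XT.lf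 (nat_lit 0) (nat_lit 52865655484) (nat_lit 228) (nat_lit 30547832650) (nat_lit 76) (nat_lit 17918041484) (nat_lit 62) (nat_lit 5) (nat_lit 65) (nat_lit 5) (nat_lit 63) (nat_lit 5) (nat_lit 451) (nat_lit 430) (nat_lit 319))) (XT.nd (nat_lit 78) (nat_lit 0) (nat_lit 0) (XT.lf (nat_lit 0) (nat_lit 32324971802) (nat_lit 152) (nat_lit 47111636586) (nat_lit 228) (nat_lit 26814521700) (nat_lit 60) (nat_lit 5) (nat_lit 62) (nat_lit 5) (nat_lit 63) (nat_lit 5) (nat_lit 452) (nat_lit 430) (nat_lit 318)) (XT.lf (nat_lit 0) (nat_lit 101963046168) (nat_lit 152) (nat_lit 7004267814) (nat_lit 228) (nat_lit 2530258575) (nat_lit 60) (nat_lit 5) (nat_lit 62) (nat_lit 5) (nat_lit 63) (nat_lit 5) (nat_lit 453) (nat_lit 430) (nat_lit 317))))) (XT.nd (nat_lit 234) (nat_lit 380) (nat_lit 0) (XT.nd (nat_lit 78) (nat_lit 152) (nat_lit 0) (XT.lf (nat_lit 0) (nat_lit 24942136855) (nat_lit 152) (nat_lit 55358410048)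 (nat_lit 76) (nat_lit 36623127126) (nat_lit 58) (nat_lit 5) (nat_lit 60) (nat_lit 5) (nat_lit 59) (nat_lit 5) (nat_lit 454) (nat_lit 430) (nat_lit 316)) (XT.nd (nat_lit 78) (nat_lit 0) (nat_lit 0) (XT.lf (nat_lit 0) (nat_lit 16712067329) (nat_lit 152) (nat_lit 38613800208) (nat_lit 228) (nat_lit 67384719001) (nat_lit 56) (nat_lit 5) (nat_lit 58) (nat_lit 5) (nat_lit 59) (nat_lit 5) (nat_lit 455) (nat_lit 430) (nat_lit 315)) (XT.lf (nat_lit 0) (nat_lit 89846265175) (nat_lit 228) (nat_lit 31338127400) (nat_lit 76) (nat_lit 7639582050) (nat_lit 56) (nat_lit 5) (nat_lit 59) (nat_lit 5) (nat_lit 57) (nat_lit 4) (nat_lit 456) (nat_lit 430) (nat_lit 314)))) (XT.nd (nat_lit 156) (nat_lit 228) (nat_lit 0) (XT.nd (nat_lit 78) (nat_lit 76) (nat_lit 0) (XT.lf (nat_lit 0) (nat_lit 50833360261) (nat_lit 76) (nat_lit 78519459154) (nat_lit 152) (nat_lit 5895652413) (nat_lit 55) (nat_lit 5) (nat_lit 56)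 (nat_lit 5) (nat_lit 57) (nat_lit 4) (nat_lit 457) (nat_lit 430) (nat_lit 313)) (XT.lf (nat_lit 0) (nat_lit 29218732709) (nat_lit 152) (nat_lit 1499005648) (nat_lit 76) (nat_lit 111341541448) (nat_lit 54) (nat_lit 5) (nat_lit 56) (nat_lit 5) (nat_lit 55) (nat_lit 5) (nat_lit 458) (nat_lit 430) (nat_lit 312))) (XT.nd (nat_lit 78) (nat_lit 76) (nat_lit 0) (XT.lf (nat_lit 0) (nat_lit 69612663410) (nat_lit 228) (nat_lit 57265224468) (nat_lit 76) (nat_lit 22301700829) (nat_lit 52) (nat_lit 5) (nat_lit 55) (nat_lit 5) (nat_lit 53) (nat_lit 4) (nat_lit 459) (nat_lit 430) (nat_lit 311)) (XT.lf (nat_lit 0) (nat_lit 37073900062) (nat_lit 76) (nat_lit 77894869735) (nat_lit 152) (nat_lit 41762299663) (nat_lit 51) (nat_lit 5) (nat_lit 52) (nat_lit 5) (nat_lit 53) (nat_lit 4) (nat_lit 460) (nat_lit 430) (nat_lit 310)))))) (XT.nd (nat_lit 546) (nat_lit 456) (nat_lit 0) (XT.nd (nat_lit 234) (nat_lit 228)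 (nat_lit 0) (XT.nd (nat_lit 78) (nat_lit 228) (nat_lit 0) (XT.lf (nat_lit 0) (nat_lit 718910725) (nat_lit 152) (nat_lit 22564328881) (nat_lit 76) (nat_lit 141476782616) (nat_lit 50) (nat_lit 5) (nat_lit 52) (nat_lit 5) (nat_lit 51) (nat_lit 5) (nat_lit 461) (nat_lit 430) (nat_lit 309)) (XT.nd (nat_lit 78) (nat_lit 76) (nat_lit 0) (XT.lf (nat_lit 0) (nat_lit 47337584519) (nat_lit 228) (nat_lit 88634076875) (nat_lit 76) (nat_lit 37133233796) (nat_lit 48) (nat_lit 5) (nat_lit 51) (nat_lit 5) (nat_lit 49) (nat_lit 4) (nat_lit 462) (nat_lit 430) (nat_lit 308)) (XT.lf (nat_lit 0) (nat_lit 19644471672) (nat_lit 76) (nat_lit 79750664535) (nat_lit 152) (nat_lit 82585471100) (nat_lit 47) (nat_lit 5) (nat_lit 48) (nat_lit 5) (nat_lit 49) (nat_lit 4) (nat_lit 463) (nat_lit 430) (nat_lit 307)))) (XT.nd (nat_lit 156) (nat_lit 76) (nat_lit 0) (XT.nd (nat_lit 78) (nat_lit 152) (nat_lit 0) (XT.lf (nat_lit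 0) (nat_lit 141624570960) (nat_lit 76) (nat_lit 16415359671) (nat_lit 152) (nat_lit 33332634700) (nat_lit 47) (nat_lit 5) (nat_lit 48) (nat_lit 5) (nat_lit 49) (nat_lit 4) (nat_lit 464) (nat_lit 430) (nat_lit 306)) (XT.lf (nat_lit 0) (nat_lit 21982587594) (nat_lit 152) (nat_lit 127516475560) (nat_lit 76) (nat_lit 51729352718) (nat_lit 45) (nat_lit 5) (nat_lit 47) (nat_lit 5) (nat_lit 46) (nat_lit 4) (nat_lit 465) (nat_lit 430) (nat_lit 305))) (XT.nd (nat_lit 78) (nat_lit 76) (nat_lit 0) (XT.lf (nat_lit 0) (nat_lit 81743372976) (nat_lit 152) (nat_lit 3214893838) (nat_lit 76) (nat_lit 126699511178) (nat_lit 45) (nat_lit 5) (nat_lit 47) (nat_lit 5) (nat_lit 46) (nat_lit 4) (nat_lit 466) (nat_lit 430) (nat_lit 304)) (XT.lf (nat_lit 0) (nat_lit 137929327623) (nat_lit 76) (nat_lit 11672223349) (nat_lit 152) (nat_lit 73054615746) (nat_lit 44) (nat_lit 5) (nat_lit 45) (nat_lit 5) (nat_lit 46) (nat_lit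 4) (nat_lit 467) (nat_lit 430) (nat_lit 303))))) (XT.nd (nat_lit 234) (nat_lit 228) (nat_lit 0) (XT.nd (nat_lit 78) (nat_lit 152) (nat_lit 0) (XT.lf (nat_lit 0) (nat_lit 57258449783) (nat_lit 76) (nat_lit 168719333114) (nat_lit 76) (nat_lit 8309491686) (nat_lit 43) (nat_lit 4) (nat_lit 44) (nat_lit 5) (nat_lit 44) (nat_lit 4) (nat_lit 468) (nat_lit 430) (nat_lit 302)) (XT.nd (nat_lit 78) (nat_lit 76) (nat_lit 0) (XT.lf (nat_lit 0) (nat_lit 61212260761) (nat_lit 152) (nat_lit 33088965194) (nat_lit 76) (nat_lit 152214756300) (nat_lit 42) (nat_lit 5) (nat_lit 44) (nat_lit 5) (nat_lit 43) (nat_lit 4) (nat_lit 469) (nat_lit 430) (nat_lit 301)) (XT.lf (nat_lit 0) (nat_lit 128581221223) (nat_lit 76) (nat_lit 10357369436) (nat_lit 152) (nat_lit 120519788170) (nat_lit 41) (nat_lit 5) (nat_lit 42) (nat_lit 5) (nat_lit 43) (nat_lit 4) (nat_lit 470) (nat_lit 430) (nat_lit 300)))) (XT.nd (nat_lit 156)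 (nat_lit 76) (nat_lit 0) (XT.nd (nat_lit 78) (nat_lit 76) (nat_lit 0) (XT.lf (nat_lit 0) (nat_lit 31313506653) (nat_lit 76) (nat_lit 195181474383) (nat_lit 76) (nat_lit 46652229778) (nat_lit 40) (nat_lit 4) (nat_lit 41) (nat_lit 5) (nat_lit 41) (nat_lit 4) (nat_lit 471) (nat_lit 430) (nat_lit 299)) (XT.lf (nat_lit 0) (nat_lit 35407472396) (nat_lit 152) (nat_lit 74882162259) (nat_lit 76) (nat_lit 177262600870) (nat_lit 39) (nat_lit 5) (nat_lit 41) (nat_lit 5) (nat_lit 40) (nat_lit 4) (nat_lit 472) (nat_lit 430) (nat_lit 298))) (XT.nd (nat_lit 78) (nat_lit 0) (nat_lit 0) (XT.lf (nat_lit 0) (nat_lit 109700307736) (nat_lit 76) (nat_lit 14448941652) (nat_lit 152) (nat_lit 178652454674) (nat_lit 38) (nat_lit 5) (nat_lit 39) (nat_lit 5) (nat_lit 40) (nat_lit 4) (nat_lit 473) (nat_lit 430) (nat_lit 297)) (XT.lf (nat_lit 0) (nat_lit 224232269364) (nat_lit 152) (nat_lit 7995503719) (nat_lit 0) (nat_lit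 86704004943) (nat_lit 38) (nat_lit 5) (nat_lit 40) (nat_lit 4) (nat_lit 38) (nat_lit 4) (nat_lit 474) (nat_lit 430) (nat_lit 296))))))))
noncomputable def xc161 : XT := (XT.nd (nat_lit 2184) (nat_lit 912) (nat_lit 0) (XT.nd (nat_lit 1092) (nat_lit 836) (nat_lit 0) (XT.nd (nat_lit 546) (nat_lit 456) (nat_lit 0) (XT.nd (nat_lit 234) (nat_lit 304) (nat_lit 0) (XT.nd (nat_lit 78) (nat_lit 76) (nat_lit 0) (XT.lf (nat_lit 0) (nat_lit 1530929451) (nat_lit 152) (nat_lit 134344269451) (nat_lit 76) (nat_lit 200056041917) (nat_lit 36) (nat_lit 5) (nat_lit 38) (nat_lit 5) (nat_lit 37) (nat_lit 4) (nat_lit 475) (nat_lit 430) (nat_lit 295)) (XT.nd (nat_lit 78) (nat_lit 0) (nat_lit 0) (XT.lf (nat_lit 0) (nat_lit 75424175689) (nat_lit 76) (nat_lit 26957118364) (nat_lit 152) (nat_lit 251549570421) (nat_lit 35) (nat_lit 5) (nat_lit 36) (nat_lit 5) (nat_lit 37) (nat_lit 4) (nat_lit 476) (nat_lit 430) (nat_lit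 294)) (XT.lf (nat_lit 0) (nat_lit 217248512355) (nat_lit 152) (nat_lit 65739384738) (nat_lit 0) (nat_lit 89906654973) (nat_lit 35) (nat_lit 5) (nat_lit 37) (nat_lit 4) (nat_lit 35) (nat_lit 4) (nat_lit 477) (nat_lit 430) (nat_lit 293)))) (XT.nd (nat_lit 156) (nat_lit 76) (nat_lit 0) (XT.nd (nat_lit 78) (nat_lit 152) (nat_lit 0) (XT.lf (nat_lit 0) (nat_lit 171949792010) (nat_lit 76) (nat_lit 174190420186) (nat_lit 76) (nat_lit 46848314150) (nat_lit 34) (nat_lit 4) (nat_lit 35) (nat_lit 5) (nat_lit 35) (nat_lit 4) (nat_lit 478) (nat_lit 430) (nat_lit 292)) (XT.lf (nat_lit 0) (nat_lit 16947465640) (nat_lit 76) (nat_lit 52422631431) (nat_lit 152) (nat_lit 345003886289) (nat_lit 32) (nat_lit 5) (nat_lit 33) (nat_lit 5) (nat_lit 34) (nat_lit 4) (nat_lit 479) (nat_lit 430) (nat_lit 291))) (XT.nd (nat_lit 78) (nat_lit 76) (nat_lit 0) (XT.lf (nat_lit 0) (nat_lit 200457081958) (nat_lit 152) (nat_lit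 153720363763) (nat_lit 0) (nat_lit 82547313949) (nat_lit 32) (nat_lit 5) (nat_lit 34) (nat_lit 4) (nat_lit 32) (nat_lit 4) (nat_lit 480) (nat_lit 430) (nat_lit 290)) (XT.lf (nat_lit 0) (nat_lit 113813167502) (nat_lit 76) (nat_lit 232316254814) (nat_lit 76) (nat_lit 114406304037) (nat_lit 31) (nat_lit 4) (nat_lit 32) (nat_lit 5) (nat_lit 32) (nat_lit 4) (nat_lit 481) (nat_lit 430) (nat_lit 289))))) (XT.nd (nat_lit 234) (nat_lit 228) (nat_lit 0) (XT.nd (nat_lit 78) (nat_lit 152) (nat_lit 0) (XT.lf (nat_lit 0) (nat_lit 20655083660) (nat_lit 152) (nat_lit 74947545993) (nat_lit 76) (nat_lit 390270902885) (nat_lit 30) (nat_lit 5) (nat_lit 32) (nat_lit 5) (nat_lit 31) (nat_lit 4) (nat_lit 482) (nat_lit 430) (nat_lit 288)) (XT.nd (nat_lit 78) (nat_lit 76) (nat_lit 0) (XT.lf (nat_lit 0) (nat_lit 167268919615) (nat_lit 152) (nat_lit 287084702795) (nat_lit 0) (nat_lit 58092737485) (nat_lit 29) (nat_lit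 5) (nat_lit 31) (nat_lit 4) (nat_lit 29) (nat_lit 4) (nat_lit 483) (nat_lit 430) (nat_lit 287)) (XT.lf (nat_lit 0) (nat_lit 10989352829) (nat_lit 76) (nat_lit 319472008584) (nat_lit 76) (nat_lit 210295692115) (nat_lit 28) (nat_lit 4) (nat_lit 29) (nat_lit 5) (nat_lit 29) (nat_lit 4) (nat_lit 484) (nat_lit 430) (nat_lit 286)))) (XT.nd (nat_lit 156) (nat_lit 76) (nat_lit 0) (XT.nd (nat_lit 78) (nat_lit 152) (nat_lit 0) (XT.lf (nat_lit 0) (nat_lit 349235294867) (nat_lit 76) (nat_lit 165322913914) (nat_lit 76) (nat_lit 56146473056) (nat_lit 28) (nat_lit 4) (nat_lit 29) (nat_lit 5) (nat_lit 29) (nat_lit 4) (nat_lit 485) (nat_lit 430) (nat_lit 285)) (XT.lf (nat_lit 0) (nat_lit 107738661411) (nat_lit 152) (nat_lit 488214047931) (nat_lit 0) (nat_lit 6649257678) (nat_lit 26) (nat_lit 5) (nat_lit 28) (nat_lit 4) (nat_lit 26) (nat_lit 4) (nat_lit 486) (nat_lit 430) (nat_lit 284))) (XT.nd (nat_lit 78)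 (nat_lit 76) (nat_lit 0) (XT.lf (nat_lit 0) (nat_lit 292207614443) (nat_lit 152) (nat_lit 152768130560) (nat_lit 0) (nat_lit 191118111966) (nat_lit 26) (nat_lit 5) (nat_lit 28) (nat_lit 4) (nat_lit 26) (nat_lit 4) (nat_lit 487) (nat_lit 430) (nat_lit 283)) (XT.lf (nat_lit 0) (nat_lit 220545326125) (nat_lit 76) (nat_lit 276192531974) (nat_lit 76) (nat_lit 175102938067) (nat_lit 25) (nat_lit 4) (nat_lit 26) (nat_lit 5) (nat_lit 26) (nat_lit 4) (nat_lit 488) (nat_lit 430) (nat_lit 282)))))) (XT.nd (nat_lit 546) (nat_lit 380) (nat_lit 0) (XT.nd (nat_lit 234) (nat_lit 304) (nat_lit 0) (XT.nd (nat_lit 78) (nat_lit 76) (nat_lit 0) (XT.lf (nat_lit 0) (nat_lit 11108804469) (nat_lit 152) (nat_lit 77983365266) (nat_lit 76) (nat_lit 620998692759) (nat_lit 24) (nat_lit 5) (nat_lit 26) (nat_lit 5) (nat_lit 25) (nat_lit 4) (nat_lit 489) (nat_lit 430) (nat_lit 281)) (XT.nd (nat_lit 78) (nat_lit 0) (nat_lit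 0) (XT.lf (nat_lit 0) (nat_lit 213920705285) (nat_lit 152) (nat_lit 415904234053) (nat_lit 0) (nat_lit 120319078480) (nat_lit 23) (nat_lit 5) (nat_lit 25) (nat_lit 4) (nat_lit 23) (nat_lit 4) (nat_lit 490) (nat_lit 430) (nat_lit 280)) (XT.lf (nat_lit 0) (nat_lit 437458906364) (nat_lit 152) (nat_lit 11725198993) (nat_lit 0) (nat_lit 343857212356) (nat_lit 23) (nat_lit 5) (nat_lit 25) (nat_lit 4) (nat_lit 23) (nat_lit 4) (nat_lit 491) (nat_lit 430) (nat_lit 279)))) (XT.nd (nat_lit 156) (nat_lit 76) (nat_lit 0) (XT.nd (nat_lit 78) (nat_lit 152) (nat_lit 0) (XT.lf (nat_lit 0) (nat_lit 447156113803) (nat_lit 76) (nat_lit 242477869235) (nat_lit 76) (nat_lit 148876113002) (nat_lit 22) (nat_lit 4) (nat_lit 23) (nat_lit 5) (nat_lit 23) (nat_lit 4) (nat_lit 492) (nat_lit 430) (nat_lit 278)) (XT.lf (nat_lit 0) (nat_lit 56871515244) (nat_lit 76) (nat_lit 15471431435) (nat_lit 152) (nat_lit 814994637868)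 (nat_lit 20) (nat_lit 5) (nat_lit 21) (nat_lit 5) (nat_lit 22) (nat_lit 4) (nat_lit 493) (nat_lit 430) (nat_lit 277))) (XT.nd (nat_lit 78) (nat_lit 76) (nat_lit 0) (XT.lf (nat_lit 0) (nat_lit 319718483426) (nat_lit 152) (nat_lit 385673177531) (nat_lit 0) (nat_lit 233050087872) (nat_lit 20) (nat_lit 5) (nat_lit 22) (nat_lit 4) (nat_lit 20) (nat_lit 4) (nat_lit 494) (nat_lit 430) (nat_lit 276)) (XT.lf (nat_lit 0) (nat_lit 99266438809) (nat_lit 76) (nat_lit 490406566673) (nat_lit 76) (nat_lit 403738125382) (nat_lit 19) (nat_lit 4) (nat_lit 20) (nat_lit 5) (nat_lit 20) (nat_lit 4) (nat_lit 495) (nat_lit 430) (nat_lit 275))))) (XT.nd (nat_lit 234) (nat_lit 228) (nat_lit 0) (XT.nd (nat_lit 78) (nat_lit 152) (nat_lit 0) (XT.lf (nat_lit 0) (nat_lit 644934253283) (nat_lit 76) (nat_lit 246834358030) (nat_lit 76) (nat_lit 160165874390) (nat_lit 19) (nat_lit 4) (nat_lit 20) (nat_lit 5) (nat_lit 20)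 (nat_lit 4) (nat_lit 496) (nat_lit 430) (nat_lit 274)) (XT.nd (nat_lit 78) (nat_lit 0) (nat_lit 0) (XT.lf (nat_lit 0) (nat_lit 101228896658) (nat_lit 152) (nat_lit 992453877388) (nat_lit 0) (nat_lit 20980264387) (nat_lit 17) (nat_lit 5) (nat_lit 19) (nat_lit 4) (nat_lit 17) (nat_lit 4) (nat_lit 497) (nat_lit 430) (nat_lit 273)) (XT.lf (nat_lit 0) (nat_lit 392710310904) (nat_lit 152) (nat_lit 475478852947) (nat_lit 0) (nat_lit 312461645015) (nat_lit 17) (nat_lit 5) (nat_lit 19) (nat_lit 4) (nat_lit 17) (nat_lit 4) (nat_lit 498) (nat_lit 430) (nat_lit 272)))) (XT.nd (nat_lit 156) (nat_lit 152) (nat_lit 0) (XT.nd (nat_lit 78) (nat_lit 0) (nat_lit 0) (XT.lf (nat_lit 0) (nat_lit 87216620897) (nat_lit 76) (nat_lit 622390945406) (nat_lit 76) (nat_lit 542142248389) (nat_lit 16) (nat_lit 4) (nat_lit 17) (nat_lit 5) (nat_lit 17) (nat_lit 4) (nat_lit 499) (nat_lit 430) (nat_lit 271)) (XT.lf (nat_lit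 0) (nat_lit 721968167350) (nat_lit 76) (nat_lit 342888641470) (nat_lit 76) (nat_lit 262639915630) (nat_lit 16) (nat_lit 4) (nat_lit 17) (nat_lit 5) (nat_lit 17) (nat_lit 4) (nat_lit 500) (nat_lit 430) (nat_lit 270))) (XT.nd (nat_lit 78) (nat_lit 76) (nat_lit 0) (XT.lf (nat_lit 0) (nat_lit 37260313874) (nat_lit 152) (nat_lit 2747299668) (nat_lit 76) (nat_lit 1369220326394) (nat_lit 15) (nat_lit 5) (nat_lit 17) (nat_lit 5) (nat_lit 16) (nat_lit 4) (nat_lit 501) (nat_lit 430) (nat_lit 269)) (XT.lf (nat_lit 0) (nat_lit 370705654009) (nat_lit 152) (nat_lit 827945625170) (nat_lit 0) (nat_lit 296401230641) (nat_lit 14) (nat_lit 5) (nat_lit 16) (nat_lit 4) (nat_lit 14) (nat_lit 4) (nat_lit 502) (nat_lit 430) (nat_lit 268))))))) (XT.nd (nat_lit 1092) (nat_lit 380) (nat_lit 0) (XT.nd (nat_lit 546) (nat_lit 228) (nat_lit 0) (XT.nd (nat_lit 234) (nat_lit 228) (nat_lit 0) (XT.nd (nat_lit 78) (nat_lit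 76) (nat_lit 0) (XT.lf (nat_lit 0) (nat_lit 731942647093) (nat_lit 152) (nat_lit 198072913602) (nat_lit 0) (nat_lit 657638202539) (nat_lit 14) (nat_lit 5) (nat_lit 16) (nat_lit 4) (nat_lit 14) (nat_lit 4) (nat_lit 503) (nat_lit 430) (nat_lit 267)) (XT.nd (nat_lit 78) (nat_lit 0) (nat_lit 0) (XT.lf (nat_lit 0) (nat_lit 507580463133) (nat_lit 76) (nat_lit 626705273500) (nat_lit 76) (nat_lit 552400809330) (nat_lit 13) (nat_lit 4) (nat_lit 14) (nat_lit 5) (nat_lit 14) (nat_lit 4) (nat_lit 504) (nat_lit 430) (nat_lit 266)) (XT.lf (nat_lit 0) (nat_lit 1280950319553) (nat_lit 76) (nat_lit 293281437688) (nat_lit 76) (nat_lit 218976955356) (nat_lit 13) (nat_lit 4) (nat_lit 14) (nat_lit 5) (nat_lit 14) (nat_lit 4) (nat_lit 505) (nat_lit 430) (nat_lit 265)))) (XT.nd (nat_lit 156) (nat_lit 76) (nat_lit 0) (XT.nd (nat_lit 78) (nat_lit 0) (nat_lit 0) (XT.lf (nat_lit 0) (nat_lit 141069085200) (nat_lit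 152) (nat_lit 1694082810630) (nat_lit 0) (nat_lit 72268623024) (nat_lit 11) (nat_lit 5) (nat_lit 13) (nat_lit 4) (nat_lit 11) (nat_lit 4) (nat_lit 506) (nat_lit 430) (nat_lit 264)) (XT.lf (nat_lit 0) (nat_lit 540075739804) (nat_lit 152) (nat_lit 1017204259619) (nat_lit 0) (nat_lit 471275263210) (nat_lit 11) (nat_lit 5) (nat_lit 13) (nat_lit 4) (nat_lit 11) (nat_lit 4) (nat_lit 507) (nat_lit 430) (nat_lit 263))) (XT.nd (nat_lit 78) (nat_lit 76) (nat_lit 0) (XT.lf (nat_lit 0) (nat_lit 971002768068) (nat_lit 152) (nat_lit 286175752419) (nat_lit 0) (nat_lit 902202278123) (nat_lit 11) (nat_lit 5) (nat_lit 13) (nat_lit 4) (nat_lit 11) (nat_lit 4) (nat_lit 508) (nat_lit 430) (nat_lit 262)) (XT.lf (nat_lit 0) (nat_lit 529839446738) (nat_lit 76) (nat_lit 919307016338) (nat_lit 76) (nat_lit 850506514032) (nat_lit 10) (nat_lit 4) (nat_lit 11) (nat_lit 5) (nat_lit 11) (nat_lit 4) (nat_lit 509) (nat_lit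 430) (nat_lit 261))))) (XT.nd (nat_lit 234) (nat_lit 76) (nat_lit 0) (XT.nd (nat_lit 78) (nat_lit 152) (nat_lit 0) (XT.lf (nat_lit 0) (nat_lit 1427410634524) (nat_lit 76) (nat_lit 545955428196) (nat_lit 76) (nat_lit 477154914444) (nat_lit 10) (nat_lit 4) (nat_lit 11) (nat_lit 5) (nat_lit 11) (nat_lit 4) (nat_lit 510) (nat_lit 430) (nat_lit 260)) (XT.nd (nat_lit 78) (nat_lit 152) (nat_lit 0) (XT.lf (nat_lit 0) (nat_lit 2396787243333) (nat_lit 76) (nat_lit 142735854423) (nat_lit 76) (nat_lit 73935330073) (nat_lit 10) (nat_lit 4) (nat_lit 11) (nat_lit 5) (nat_lit 11) (nat_lit 4) (nat_lit 511) (nat_lit 430) (nat_lit 259)) (XT.lf (nat_lit 0) (nat_lit 367490700312) (nat_lit 152) (nat_lit 2115535291831) (nat_lit 0) (nat_lit 303786502014) (nat_lit 8) (nat_lit 5) (nat_lit 10) (nat_lit 4) (nat_lit 8) (nat_lit 4) (nat_lit 512) (nat_lit 430) (nat_lit 258)))) (XT.nd (nat_lit 156) (nat_lit 76) (nat_lit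 0) (XT.nd (nat_lit 78) (nat_lit 0) (nat_lit 0) (XT.lf (nat_lit 0) (nat_lit 850021732639) (nat_lit 152) (nat_lit 1336759167551) (nat_lit 0) (nat_lit 786317525928) (nat_lit 8) (nat_lit 5) (nat_lit 10) (nat_lit 4) (nat_lit 8) (nat_lit 4) (nat_lit 513) (nat_lit 430) (nat_lit 257)) (XT.lf (nat_lit 0) (nat_lit 1371155131006) (nat_lit 152) (nat_lit 495681194450) (nat_lit 0) (nat_lit 1307450916504) (nat_lit 8) (nat_lit 5) (nat_lit 10) (nat_lit 4) (nat_lit 8) (nat_lit 4) (nat_lit 514) (nat_lit 430) (nat_lit 256))) (XT.nd (nat_lit 78) (nat_lit 0) (nat_lit 0) (XT.lf (nat_lit 0) (nat_lit 434413937793) (nat_lit 76) (nat_lit 1510012821186) (nat_lit 76) (nat_lit 1446308599471) (nat_lit 7) (nat_lit 4) (nat_lit 8) (nat_lit 5) (nat_lit 8) (nat_lit 4) (nat_lit 515) (nat_lit 430) (nat_lit 255)) (XT.lf (nat_lit 0) (nat_lit 1467106291748) (nat_lit 76) (nat_lit 1110006522567) (nat_lit 76) (nat_lit 1046302294174)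 (nat_lit 7) (nat_lit 4) (nat_lit 8) (nat_lit 5) (nat_lit 8) (nat_lit 4) (nat_lit 516) (nat_lit 430) (nat_lit 254)))))) (XT.nd (nat_lit 546) (nat_lit 228) (nat_lit 0) (XT.nd (nat_lit 234) (nat_lit 0) (nat_lit 0) (XT.nd (nat_lit 78) (nat_lit 152) (nat_lit 0) (XT.lf (nat_lit 0) (nat_lit 2582413832531) (nat_lit 76) (nat_lit 677999824184) (nat_lit 76) (nat_lit 614295589607) (nat_lit 7) (nat_lit 4) (nat_lit 8) (nat_lit 5) (nat_lit 8) (nat_lit 4) (nat_lit 517) (nat_lit 430) (nat_lit 253)) (XT.nd (nat_lit 78) (nat_lit 152) (nat_lit 0) (XT.lf (nat_lit 0) (nat_lit 3786945790012) (nat_lit 76) (nat_lit 211432686342) (nat_lit 76) (nat_lit 147728446039) (nat_lit 7) (nat_lit 4) (nat_lit 8) (nat_lit 5) (nat_lit 8) (nat_lit 4) (nat_lit 518) (nat_lit 430) (nat_lit 252)) (XT.lf (nat_lit 0) (nat_lit 362228246930) (nat_lit 152) (nat_lit 3771149595163) (nat_lit 0) (nat_lit 303242834333) (nat_lit 5) (nat_lit 5)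 (nat_lit 7) (nat_lit 4) (nat_lit 5) (nat_lit 4) (nat_lit 519) (nat_lit 430) (nat_lit 251)))) (XT.nd (nat_lit 156) (nat_lit 0) (nat_lit 0) (XT.nd (nat_lit 78) (nat_lit 0) (nat_lit 0) (XT.lf (nat_lit 0) (nat_lit 920567144062) (nat_lit 152) (nat_lit 2966674344247) (nat_lit 0) (nat_lit 861581726920) (nat_lit 5) (nat_lit 5) (nat_lit 7) (nat_lit 4) (nat_lit 5) (nat_lit 4) (nat_lit 520) (nat_lit 430) (nat_lit 250)) (XT.lf (nat_lit 0) (nat_lit 1523573073703) (nat_lit 152) (nat_lit 2097841237421) (nat_lit 0) (nat_lit 1464587652353) (nat_lit 5) (nat_lit 5) (nat_lit 7) (nat_lit 4) (nat_lit 5) (nat_lit 4) (nat_lit 521) (nat_lit 430) (nat_lit 249))) (XT.nd (nat_lit 78) (nat_lit 0) (nat_lit 0) (XT.lf (nat_lit 0) (nat_lit 2174819404327) (nat_lit 152) (nat_lit 1159501634050) (nat_lit 0) (nat_lit 2115833979080) (nat_lit 5) (nat_lit 5) (nat_lit 7) (nat_lit 4) (nat_lit 5) (nat_lit 4) (nat_lit 522) (nat_lit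 430) (nat_lit 248)) (XT.lf (nat_lit 0) (nat_lit 2878165373447) (nat_lit 152) (nat_lit 146095003153) (nat_lit 0) (nat_lit 2819179944592) (nat_lit 5) (nat_lit 5) (nat_lit 7) (nat_lit 4) (nat_lit 5) (nat_lit 4) (nat_lit 523) (nat_lit 430) (nat_lit 247))))) (XT.nd (nat_lit 312) (nat_lit 152) (nat_lit 0) (XT.nd (nat_lit 156) (nat_lit 0) (nat_lit 0) (XT.nd (nat_lit 78) (nat_lit 0) (nat_lit 0) (XT.lf (nat_lit 0) (nat_lit 998324250126) (nat_lit 76) (nat_lit 2663464429275) (nat_lit 76) (nat_lit 2604478997079) (nat_lit 4) (nat_lit 4) (nat_lit 5) (nat_lit 5) (nat_lit 5) (nat_lit 4) (nat_lit 524) (nat_lit 430) (nat_lit 246)) (XT.lf (nat_lit 0) (nat_lit 2242605468931) (nat_lit 76) (nat_lit 2269490815876) (nat_lit 76) (nat_lit 2210505380587) (nat_lit 4) (nat_lit 4) (nat_lit 5) (nat_lit 5) (nat_lit 5) (nat_lit 4) (nat_lit 525) (nat_lit 430) (nat_lit 245))) (XT.nd (nat_lit 78) (nat_lit 0) (nat_lit 0) (XT.lf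 (nat_lit 0) (nat_lit 3586429067632) (nat_lit 76) (nat_lit 1843999374242) (nat_lit 76) (nat_lit 1785013936089) (nat_lit 4) (nat_lit 4) (nat_lit 5) (nat_lit 5) (nat_lit 5) (nat_lit 4) (nat_lit 526) (nat_lit 430) (nat_lit 244)) (XT.lf (nat_lit 0) (nat_lit 5037758445330) (nat_lit 76) (nat_lit 1384468673609) (nat_lit 76) (nat_lit 1325483232803) (nat_lit 4) (nat_lit 4) (nat_lit 5) (nat_lit 5) (nat_lit 5) (nat_lit 4) (nat_lit 527) (nat_lit 430) (nat_lit 243)))) (XT.nd (nat_lit 156) (nat_lit 152) (nat_lit 0) (XT.nd (nat_lit 78) (nat_lit 0) (nat_lit 0) (XT.lf (nat_lit 0) (nat_lit 6605194072413) (nat_lit 76) (nat_lit 888175569083) (nat_lit 76) (nat_lit 829190125822) (nat_lit 4) (nat_lit 4) (nat_lit 5) (nat_lit 5) (nat_lit 5) (nat_lit 4) (nat_lit 528) (nat_lit 430) (nat_lit 242)) (XT.lf (nat_lit 0) (nat_lit 8298024456301) (nat_lit 76) (nat_lit 352179064490) (nat_lit 76) (nat_lit 293193618955) (nat_lit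 4) (nat_lit 4) (nat_lit 5) (nat_lit 5) (nat_lit 5) (nat_lit 4) (nat_lit 529) (nat_lit 430) (nat_lit 241))) (XT.nd (nat_lit 78) (nat_lit 0) (nat_lit 0) (XT.lf (nat_lit 0) (nat_lit 290152198731) (nat_lit 152) (nat_lit 9086162758531) (nat_lit 0) (nat_lit 235536043509) (nat_lit 2) (nat_lit 5) (nat_lit 4) (nat_lit 4) (nat_lit 2) (nat_lit 4) (nat_lit 530) (nat_lit 430) (nat_lit 240)) (XT.lf (nat_lit 0) (nat_lit 931577037353) (nat_lit 152) (nat_lit 8522453905395) (nat_lit 0) (nat_lit 876960880325) (nat_lit 2) (nat_lit 5) (nat_lit 4) (nat_lit 4) (nat_lit 2) (nat_lit 4) (nat_lit 531) (nat_lit 430) (nat_lit 239))))))))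
noncomputable def xc162 : XT := (XT.nd (nat_lit 56082) (nat_lit 0) (nat_lit 2508) (XT.nd (nat_lit 54990) (nat_lit 0) (nat_lit 4940) (XT.nd (nat_lit 546) (nat_lit 0) (nat_lit 0) (XT.nd (nat_lit 234) (nat_lit 0) (nat_lit 0) (XT.nd (nat_lit 78) (nat_lit 0) (nat_lit 0) (XT.lf (nat_lit 0) (nat_lit 1624315823438) (nat_lit 152) (nat_lit 7913648426155) (nat_lit 0) (nat_lit 1569699664739) (nat_lit 2) (nat_lit 5) (nat_lit 4) (nat_lit 4) (nat_lit 2) (nat_lit 4) (nat_lit 532) (nat_lit 430) (nat_lit 238)) (XT.nd (nat_lit 78) (nat_lit 0) (nat_lit 0) (XT.lf (nat_lit 0) (nat_lit 2372473675718) (nat_lit 152) (nat_lit 7256138584636) (nat_lit 0) (nat_lit 2317857515472) (nat_lit 2) (nat_lit 5) (nat_lit 4) (nat_lit 4) (nat_lit 2) (nat_lit 4) (nat_lit 533) (nat_lit 430) (nat_lit 237)) (XT.lf (nat_lit 0) (nat_lit 3180484122207) (nat_lit 152) (nat_lit 6546028026221) (nat_lit 0) (nat_lit 3125867960528) (nat_lit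 2) (nat_lit 5) (nat_lit 4) (nat_lit 4) (nat_lit 2) (nat_lit 4) (nat_lit 534) (nat_lit 430) (nat_lit 236)))) (XT.nd (nat_lit 156) (nat_lit 0) (nat_lit 0) (XT.nd (nat_lit 78) (nat_lit 0) (nat_lit 0) (XT.lf (nat_lit 0) (nat_lit 4053135372958) (nat_lit 152) (nat_lit 5779108688344) (nat_lit 0) (nat_lit 3998519209952) (nat_lit 2) (nat_lit 5) (nat_lit 4) (nat_lit 4) (nat_lit 2) (nat_lit 4) (nat_lit 535) (nat_lit 430) (nat_lit 235)) (XT.lf (nat_lit 0) (nat_lit 4995598694643) (nat_lit 152) (nat_lit 4950835863816) (nat_lit 0) (nat_lit 4940982530408) (nat_lit 2) (nat_lit 5) (nat_lit 4) (nat_lit 4) (nat_lit 2) (nat_lit 4) (nat_lit 536) (nat_lit 430) (nat_lit 234))) (XT.nd (nat_lit 78) (nat_lit 0) (nat_lit 0) (XT.lf (nat_lit 0) (nat_lit 6013459055092) (nat_lit 152) (nat_lit 4056301269232) (nat_lit 0) (nat_lit 5958842889720) (nat_lit 2) (nat_lit 5) (nat_lit 4) (nat_lit 4) (nat_lit 2) (nat_lit 4) (nat_lit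 537) (nat_lit 430) (nat_lit 233)) (XT.lf (nat_lit 0) (nat_lit 7112748219407) (nat_lit 152) (nat_lit 3090203958848) (nat_lit 0) (nat_lit 7058132052981) (nat_lit 2) (nat_lit 5) (nat_lit 4) (nat_lit 4) (nat_lit 2) (nat_lit 4) (nat_lit 538) (nat_lit 430) (nat_lit 232))))) (XT.nd (nat_lit 54132) (nat_lit 0) (nat_lit 6384) (XT.nd (nat_lit 78) (nat_lit 0) (nat_lit 0) (XT.lf (nat_lit 0) (nat_lit 8299980493744) (nat_lit 152) (nat_lit 2046818911564) (nat_lit 0) (nat_lit 8245364326344) (nat_lit 2) (nat_lit 5) (nat_lit 4) (nat_lit 4) (nat_lit 2) (nat_lit 4) (nat_lit 539) (nat_lit 430) (nat_lit 231)) (XT.nd (nat_lit 53976) (nat_lit 0) (nat_lit 6916) (XT.lf (nat_lit 0) (nat_lit 9582191328620) (nat_lit 152) (nat_lit 919963104878) (nat_lit 0) (nat_lit 9527575160316) (nat_lit 2) (nat_lit 5) (nat_lit 4) (nat_lit 4) (nat_lit 2) (nat_lit 4) (nat_lit 540) (nat_lit 430) (nat_lit 230)) (XT.lf (nat_lit 0) (nat_lit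 21630362439) (nat_lit 532) (nat_lit 220361586) (nat_lit 532) (nat_lit 220361586) (nat_lit 93) (nat_lit 3) (nat_lit 100) (nat_lit 3) (nat_lit 100) (nat_lit 5) (nat_lit 431) (nat_lit 431) (nat_lit 338)))) (XT.nd (nat_lit 156) (nat_lit 0) (nat_lit 76) (XT.nd (nat_lit 78) (nat_lit 532) (nat_lit 0) (XT.lf (nat_lit 76) (nat_lit 22676518535) (nat_lit 0) (nat_lit 22891750945) (nat_lit 532) (nat_lit 293415107) (nat_lit 94) (nat_lit 5) (nat_lit 93) (nat_lit 3) (nat_lit 100) (nat_lit 5) (nat_lit 432) (nat_lit 431) (nat_lit 337)) (XT.lf (nat_lit 0) (nat_lit 333627169) (nat_lit 532) (nat_lit 60100926) (nat_lit 608) (nat_lit 47323649192) (nat_lit 86) (nat_lit 5) (nat_lit 93) (nat_lit 3) (nat_lit 94) (nat_lit 5) (nat_lit 433) (nat_lit 431) (nat_lit 336))) (XT.nd (nat_lit 78) (nat_lit 0) (nat_lit 0) (XT.lf (nat_lit 0) (nat_lit 2213941016) (nat_lit 532) (nat_lit 24045223579) (nat_lit 608) (nat_lit 23364234660)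 (nat_lit 87) (nat_lit 5) (nat_lit 94) (nat_lit 5) (nat_lit 95) (nat_lit 5) (nat_lit 434) (nat_lit 431) (nat_lit 335)) (XT.lf (nat_lit 76) (nat_lit 1659882150) (nat_lit 0) (nat_lit 2633781697) (nat_lit 608) (nat_lit 47384320759) (nat_lit 88) (nat_lit 5) (nat_lit 87) (nat_lit 5) (nat_lit 95) (nat_lit 5) (nat_lit 435) (nat_lit 431) (nat_lit 334)))))) (XT.nd (nat_lit 546) (nat_lit 912) (nat_lit 0) (XT.nd (nat_lit 234) (nat_lit 684) (nat_lit 0) (XT.nd (nat_lit 78) (nat_lit 0) (nat_lit 0) (XT.lf (nat_lit 0) (nat_lit 7761914517) (nat_lit 532) (nat_lit 23625075806) (nat_lit 608) (nat_lit 22412174773) (nat_lit 88) (nat_lit 5) (nat_lit 95) (nat_lit 5) (nat_lit 96) (nat_lit 5) (nat_lit 436) (nat_lit 431) (nat_lit 333)) (XT.nd (nat_lit 78) (nat_lit 0) (nat_lit 76) (XT.lf (nat_lit 76) (nat_lit 5062153679) (nat_lit 0) (nat_lit 6633154959) (nat_lit 608) (nat_lit 44379717002) (nat_lit 89) (nat_lit 5) (nat_lit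 88) (nat_lit 5) (nat_lit 96) (nat_lit 5) (nat_lit 437) (nat_lit 431) (nat_lit 332)) (XT.lf (nat_lit 0) (nat_lit 17087204226) (nat_lit 532) (nat_lit 21595747405) (nat_lit 76) (nat_lit 19758497271) (nat_lit 89) (nat_lit 5) (nat_lit 96) (nat_lit 5) (nat_lit 90) (nat_lit 5) (nat_lit 438) (nat_lit 431) (nat_lit 331)))) (XT.nd (nat_lit 156) (nat_lit 228) (nat_lit 0) (XT.nd (nat_lit 78) (nat_lit 0) (nat_lit 0) (XT.lf (nat_lit 0) (nat_lit 10527022977) (nat_lit 532) (nat_lit 12806737184) (nat_lit 608) (nat_lit 37629561414) (nat_lit 82) (nat_lit 5) (nat_lit 89) (nat_lit 5) (nat_lit 90) (nat_lit 5) (nat_lit 439) (nat_lit 431) (nat_lit 330)) (XT.lf (nat_lit 0) (nat_lit 31047907592) (nat_lit 608) (nat_lit 17573518665) (nat_lit 76) (nat_lit 14988088672) (nat_lit 82) (nat_lit 5) (nat_lit 90) (nat_lit 5) (nat_lit 83) (nat_lit 5) (nat_lit 440) (nat_lit 431) (nat_lit 329))) (XT.nd (nat_lit 78) (nat_lit 0)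 (nat_lit 0) (XT.lf (nat_lit 0) (nat_lit 18509572068) (nat_lit 228) (nat_lit 21645521361) (nat_lit 304) (nat_lit 26250238006) (nat_lit 79) (nat_lit 5) (nat_lit 82) (nat_lit 5) (nat_lit 83) (nat_lit 5) (nat_lit 441) (nat_lit 431) (nat_lit 328)) (XT.lf (nat_lit 0) (nat_lit 50662121478) (nat_lit 304) (nat_lit 11102303125) (nat_lit 76) (nat_lit 7606687466) (nat_lit 79) (nat_lit 5) (nat_lit 83) (nat_lit 5) (nat_lit 80) (nat_lit 5) (nat_lit 442) (nat_lit 431) (nat_lit 327))))) (XT.nd (nat_lit 234) (nat_lit 380) (nat_lit 0) (XT.nd (nat_lit 78) (nat_lit 304) (nat_lit 0) (XT.lf (nat_lit 0) (nat_lit 29548621327) (nat_lit 228) (nat_lit 33732288652) (nat_lit 304) (nat_lit 9191549501) (nat_lit 76) (nat_lit 5) (nat_lit 79) (nat_lit 5) (nat_lit 80) (nat_lit 5) (nat_lit 443) (nat_lit 431) (nat_lit 326)) (XT.nd (nat_lit 78) (nat_lit 228) (nat_lit 0) (XT.lf (nat_lit 0) (nat_lit 1342706340) (nat_lit 304) (nat_lit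 1750612358) (nat_lit 76) (nat_lit 72701719402) (nat_lit 75) (nat_lit 5) (nat_lit 79) (nat_lit 5) (nat_lit 76) (nat_lit 5) (nat_lit 444) (nat_lit 431) (nat_lit 325)) (XT.lf (nat_lit 0) (nat_lit 14052496817) (nat_lit 304) (nat_lit 35321349231) (nat_lit 76) (nat_lit 29844127656) (nat_lit 72) (nat_lit 5) (nat_lit 76) (nat_lit 5) (nat_lit 73) (nat_lit 5) (nat_lit 445) (nat_lit 431) (nat_lit 324)))) (XT.nd (nat_lit 156) (nat_lit 152) (nat_lit 0) (XT.nd (nat_lit 78) (nat_lit 0) (nat_lit 0) (XT.lf (nat_lit 0) (nat_lit 10843235938) (nat_lit 228) (nat_lit 17324619474) (nat_lit 304) (nat_lit 54715786087) (nat_lit 69) (nat_lit 5) (nat_lit 72) (nat_lit 5) (nat_lit 73) (nat_lit 5) (nat_lit 446) (nat_lit 431) (nat_lit 323)) (XT.lf (nat_lit 0) (nat_lit 44817668517) (nat_lit 304) (nat_lit 24498367012) (nat_lit 76) (nat_lit 17414109249) (nat_lit 69) (nat_lit 5) (nat_lit 73) (nat_lit 5) (nat_lit 70) (nat_lit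 5) (nat_lit 447) (nat_lit 431) (nat_lit 322))) (XT.nd (nat_lit 78) (nat_lit 0) (nat_lit 0) (XT.lf (nat_lit 0) (nat_lit 27785180850) (nat_lit 152) (nat_lit 36131216903) (nat_lit 228) (nat_lit 26878616192) (nat_lit 67) (nat_lit 5) (nat_lit 69) (nat_lit 5) (nat_lit 70) (nat_lit 5) (nat_lit 448) (nat_lit 431) (nat_lit 321)) (XT.lf (nat_lit 0) (nat_lit 85221987301) (nat_lit 228) (nat_lit 9499047502) (nat_lit 76) (nat_lit 409720990) (nat_lit 67) (nat_lit 5) (nat_lit 70) (nat_lit 5) (nat_lit 68) (nat_lit 5) (nat_lit 449) (nat_lit 431) (nat_lit 320))))))) (XT.nd (nat_lit 1092) (nat_lit 988) (nat_lit 0) (XT.nd (nat_lit 546) (nat_lit 608) (nat_lit 0) (XT.nd (nat_lit 234) (nat_lit 456) (nat_lit 0) (XT.nd (nat_lit 78) (nat_lit 152) (nat_lit 0) (XT.lf (nat_lit 0) (nat_lit 10189124429) (nat_lit 228) (nat_lit 50054494877) (nat_lit 76) (nat_lit 39378212785) (nat_lit 64) (nat_lit 5) (nat_lit 67) (nat_lit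 5) (nat_lit 65) (nat_lit 5) (nat_lit 450) (nat_lit 431) (nat_lit 319)) (XT.nd (nat_lit 78) (nat_lit 0) (nat_lit 0) (XT.lf (nat_lit 0) (nat_lit 9665512418) (nat_lit 152) (nat_lit 22191786232) (nat_lit 228) (nat_lit 72554483820) (nat_lit 62) (nat_lit 5) (nat_lit 64) (nat_lit 5) (nat_lit 65) (nat_lit 5) (nat_lit 451) (nat_lit 431) (nat_lit 318)) (XT.lf (nat_lit 0) (nat_lit 57116587958) (nat_lit 228) (nat_lit 32957617494) (nat_lit 76) (nat_lit 19362110612) (nat_lit 62) (nat_lit 5) (nat_lit 65) (nat_lit 5) (nat_lit 63) (nat_lit 5) (nat_lit 452) (nat_lit 431) (nat_lit 317)))) (XT.nd (nat_lit 156) (nat_lit 304) (nat_lit 0) (XT.nd (nat_lit 78) (nat_lit 0) (nat_lit 0) (XT.lf (nat_lit 0) (nat_lit 34944149497) (nat_lit 152) (nat_lit 50868259648) (nat_lit 228) (nat_lit 28937140176) (nat_lit 60) (nat_lit 5) (nat_lit 62) (nat_lit 5) (nat_lit 63) (nat_lit 5) (nat_lit 453) (nat_lit 431) (nat_lit 316)) (XT.lf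 (nat_lit 0) (nat_lit 110150812038) (nat_lit 152) (nat_lit 7553213067) (nat_lit 228) (nat_lit 2711805872) (nat_lit 60) (nat_lit 5) (nat_lit 62) (nat_lit 5) (nat_lit 63) (nat_lit 5) (nat_lit 454) (nat_lit 431) (nat_lit 315))) (XT.nd (nat_lit 78) (nat_lit 152) (nat_lit 0) (XT.lf (nat_lit 0) (nat_lit 26956898050) (nat_lit 152) (nat_lit 59754875208) (nat_lit 76) (nat_lit 39564242357) (nat_lit 58) (nat_lit 5) (nat_lit 60) (nat_lit 5) (nat_lit 59) (nat_lit 5) (nat_lit 455) (nat_lit 431) (nat_lit 314)) (XT.lf (nat_lit 0) (nat_lit 18080424976) (nat_lit 152) (nat_lit 41690220881) (nat_lit 228) (nat_lit 72755289856) (nat_lit 56) (nat_lit 5) (nat_lit 58) (nat_lit 5) (nat_lit 59) (nat_lit 5) (nat_lit 456) (nat_lit 431) (nat_lit 313))))) (XT.nd (nat_lit 234) (nat_lit 456) (nat_lit 0) (XT.nd (nat_lit 78) (nat_lit 152) (nat_lit 0) (XT.lf (nat_lit 0) (nat_lit 97051571899) (nat_lit 228) (nat_lit 33815006319)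 (nat_lit 76) (nat_lit 8261904977) (nat_lit 56) (nat_lit 5) (nat_lit 59) (nat_lit 5) (nat_lit 57) (nat_lit 4) (nat_lit 457) (nat_lit 431) (nat_lit 312)) (XT.nd (nat_lit 78) (nat_lit 76) (nat_lit 0) (XT.lf (nat_lit 0) (nat_lit 54929436524) (nat_lit 76) (nat_lit 84788617092) (nat_lit 152) (nat_lit 6348934379) (nat_lit 55) (nat_lit 5) (nat_lit 56) (nat_lit 5) (nat_lit 57) (nat_lit 4) (nat_lit 458) (nat_lit 431) (nat_lit 311)) (XT.lf (nat_lit 0) (nat_lit 31572389913) (nat_lit 152) (nat_lit 1590845343) (nat_lit 76) (nat_lit 120259493486) (nat_lit 54) (nat_lit 5) (nat_lit 56) (nat_lit 5) (nat_lit 55) (nat_lit 5) (nat_lit 459) (nat_lit 431) (nat_lit 310)))) (XT.nd (nat_lit 156) (nat_lit 228) (nat_lit 0) (XT.nd (nat_lit 78) (nat_lit 76) (nat_lit 0) (XT.lf (nat_lit 0) (nat_lit 75197578969) (nat_lit 228) (nat_lit 61818104864) (nat_lit 76) (nat_lit 24096999066) (nat_lit 52) (nat_lit 5) (nat_lit 55)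 (nat_lit 5) (nat_lit 53) (nat_lit 4) (nat_lit 460) (nat_lit 431) (nat_lit 309)) (XT.lf (nat_lit 0) (nat_lit 40067432221) (nat_lit 76) (nat_lit 84114227950) (nat_lit 152) (nat_lit 45086663090) (nat_lit 51) (nat_lit 5) (nat_lit 52) (nat_lit 5) (nat_lit 53) (nat_lit 4) (nat_lit 461) (nat_lit 431) (nat_lit 308))) (XT.nd (nat_lit 78) (nat_lit 152) (nat_lit 0) (XT.lf (nat_lit 0) (nat_lit 791043137) (nat_lit 152) (nat_lit 24343130575) (nat_lit 76) (nat_lit 152805480164) (nat_lit 50) (nat_lit 5) (nat_lit 52) (nat_lit 5) (nat_lit 51) (nat_lit 5) (nat_lit 462) (nat_lit 431) (nat_lit 307)) (XT.lf (nat_lit 0) (nat_lit 51139022594) (nat_lit 228) (nat_lit 95698269650) (nat_lit 76) (nat_lit 40114839539) (nat_lit 48) (nat_lit 5) (nat_lit 51) (nat_lit 5) (nat_lit 49) (nat_lit 4) (nat_lit 463) (nat_lit 431) (nat_lit 306)))))) (XT.nd (nat_lit 546) (nat_lit 532) (nat_lit 0) (XT.nd (nat_lit 234) (nat_lit 228)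 (nat_lit 0) (XT.nd (nat_lit 78) (nat_lit 152) (nat_lit 0) (XT.lf (nat_lit 0) (nat_lit 21241891049) (nat_lit 76) (nat_lit 86118840354) (nat_lit 152) (nat_lit 89177205265) (nat_lit 47) (nat_lit 5) (nat_lit 48) (nat_lit 5) (nat_lit 49) (nat_lit 4) (nat_lit 464) (nat_lit 431) (nat_lit 305)) (XT.nd (nat_lit 78) (nat_lit 152) (nat_lit 0) (XT.lf (nat_lit 0) (nat_lit 152978482604) (nat_lit 76) (nat_lit 17717590904) (nat_lit 152) (nat_lit 35985260732) (nat_lit 47) (nat_lit 5) (nat_lit 48) (nat_lit 5) (nat_lit 49) (nat_lit 4) (nat_lit 465) (nat_lit 431) (nat_lit 304)) (XT.lf (nat_lit 0) (nat_lit 23754341408) (nat_lit 152) (nat_lit 137693008911) (nat_lit 76) (nat_lit 55878286698) (nat_lit 45) (nat_lit 5) (nat_lit 47) (nat_lit 5) (nat_lit 46) (nat_lit 4) (nat_lit 466) (nat_lit 431) (nat_lit 303)))) (XT.nd (nat_lit 156) (nat_lit 152) (nat_lit 0) (XT.nd (nat_lit 78) (nat_lit 76) (nat_lit 0) (XT.lf (nat_lit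 0) (nat_lit 88295015783) (nat_lit 152) (nat_lit 3449136554) (nat_lit 76) (nat_lit 136845273704) (nat_lit 45) (nat_lit 5) (nat_lit 47) (nat_lit 5) (nat_lit 46) (nat_lit 4) (nat_lit 467) (nat_lit 431) (nat_lit 302)) (XT.lf (nat_lit 0) (nat_lit 148986041642) (nat_lit 76) (nat_lit 12595442622) (nat_lit 152) (nat_lit 78886230727) (nat_lit 44) (nat_lit 5) (nat_lit 45) (nat_lit 5) (nat_lit 46) (nat_lit 4) (nat_lit 468) (nat_lit 431) (nat_lit 301))) (XT.nd (nat_lit 78) (nat_lit 76) (nat_lit 0) (XT.lf (nat_lit 0) (nat_lit 61861600933) (nat_lit 76) (nat_lit 182206114707) (nat_lit 76) (nat_lit 8961603800) (nat_lit 43) (nat_lit 4) (nat_lit 44) (nat_lit 5) (nat_lit 44) (nat_lit 4) (nat_lit 469) (nat_lit 431) (nat_lit 300)) (XT.lf (nat_lit 0) (nat_lit 66120366212) (nat_lit 152) (nat_lit 35714686009) (nat_lit 76) (nat_lit 164401318389) (nat_lit 42) (nat_lit 5) (nat_lit 44) (nat_lit 5) (nat_lit 43) (nat_lit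 4) (nat_lit 470) (nat_lit 431) (nat_lit 299))))) (XT.nd (nat_lit 312) (nat_lit 228) (nat_lit 0) (XT.nd (nat_lit 156) (nat_lit 152) (nat_lit 0) (XT.nd (nat_lit 78) (nat_lit 76) (nat_lit 0) (XT.lf (nat_lit 0) (nat_lit 138888573640) (nat_lit 76) (nat_lit 11175906374) (nat_lit 152) (nat_lit 130149704714) (nat_lit 41) (nat_lit 5) (nat_lit 42) (nat_lit 5) (nat_lit 43) (nat_lit 4) (nat_lit 471) (nat_lit 431) (nat_lit 298)) (XT.lf (nat_lit 0) (nat_lit 33839520816) (nat_lit 76) (nat_lit 210785787961) (nat_lit 76) (nat_lit 50372820340) (nat_lit 40) (nat_lit 4) (nat_lit 41) (nat_lit 5) (nat_lit 41) (nat_lit 4) (nat_lit 472) (nat_lit 431) (nat_lit 297))) (XT.nd (nat_lit 78) (nat_lit 76) (nat_lit 0) (XT.lf (nat_lit 0) (nat_lit 38250262920) (nat_lit 152) (nat_lit 80852815327) (nat_lit 76) (nat_lit 191452520512) (nat_lit 39) (nat_lit 5) (nat_lit 41) (nat_lit 5) (nat_lit 40) (nat_lit 4) (nat_lit 473) (nat_lit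 431) (nat_lit 296)) (XT.lf (nat_lit 0) (nat_lit 118495747967) (nat_lit 76) (nat_lit 15595346034) (nat_lit 152) (nat_lit 192933953838) (nat_lit 38) (nat_lit 5) (nat_lit 39) (nat_lit 5) (nat_lit 40) (nat_lit 4) (nat_lit 474) (nat_lit 431) (nat_lit 295)))) (XT.nd (nat_lit 156) (nat_lit 76) (nat_lit 0) (XT.nd (nat_lit 78) (nat_lit 152) (nat_lit 0) (XT.lf (nat_lit 0) (nat_lit 242180233691) (nat_lit 152) (nat_lit 8616644551) (nat_lit 0) (nat_lit 93648691240) (nat_lit 38) (nat_lit 5) (nat_lit 40) (nat_lit 4) (nat_lit 38) (nat_lit 4) (nat_lit 475) (nat_lit 431) (nat_lit 294)) (XT.lf (nat_lit 0) (nat_lit 1662762276) (nat_lit 152) (nat_lit 145073286943) (nat_lit 76) (nat_lit 216068942048) (nat_lit 36) (nat_lit 5) (nat_lit 38) (nat_lit 5) (nat_lit 37) (nat_lit 4) (nat_lit 476) (nat_lit 431) (nat_lit 293))) (XT.nd (nat_lit 78) (nat_lit 0) (nat_lit 0) (XT.lf (nat_lit 0) (nat_lit 81476164845) (nat_lit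 76) (nat_lit 29104732207) (nat_lit 152) (nat_lit 271663708493) (nat_lit 35) (nat_lit 5) (nat_lit 36) (nat_lit 5) (nat_lit 37) (nat_lit 4) (nat_lit 477) (nat_lit 431) (nat_lit 292)) (XT.lf (nat_lit 0) (nat_lit 234637018211) (nat_lit 152) (nat_lit 70981343105) (nat_lit 0) (nat_lit 97107064805) (nat_lit 35) (nat_lit 5) (nat_lit 37) (nat_lit 4) (nat_lit 35) (nat_lit 4) (nat_lit 478) (nat_lit 431) (nat_lit 291))))))))
noncomputable def xc163 : XT := (XT.nd (nat_lit 2184) (nat_lit 836) (nat_lit 0) (XT.nd (nat_lit 1092) (nat_lit 760) (nat_lit 0) (XT.nd (nat_lit 546) (nat_lit 380) (nat_lit 0) (XT.nd (nat_lit 234) (nat_lit 304) (nat_lit 0) (XT.nd (nat_lit 78) (nat_lit 152) (nat_lit 0) (XT.lf (nat_lit 0) (nat_lit 185722532532) (nat_lit 76) (nat_lit 188117285638) (nat_lit 76) (nat_lit 50587119052) (nat_lit 34) (nat_lit 4) (nat_lit 35) (nat_lit 5) (nat_lit 35) (nat_lit 4) (nat_lit 479) (nat_lit 431)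 (nat_lit 290)) (XT.nd (nat_lit 78) (nat_lit 0) (nat_lit 0) (XT.lf (nat_lit 0) (nat_lit 18320037676) (nat_lit 76) (nat_lit 56608040040) (nat_lit 152) (nat_lit 372595154387) (nat_lit 32) (nat_lit 5) (nat_lit 33) (nat_lit 5) (nat_lit 34) (nat_lit 4) (nat_lit 480) (nat_lit 431) (nat_lit 289)) (XT.lf (nat_lit 0) (nat_lit 216501588279) (nat_lit 152) (nat_lit 166002027453) (nat_lit 0) (nat_lit 89158489443) (nat_lit 32) (nat_lit 5) (nat_lit 34) (nat_lit 4) (nat_lit 32) (nat_lit 4) (nat_lit 481) (nat_lit 431) (nat_lit 288)))) (XT.nd (nat_lit 156) (nat_lit 152) (nat_lit 0) (XT.nd (nat_lit 78) (nat_lit 76) (nat_lit 0) (XT.lf (nat_lit 0) (nat_lit 122933782126) (nat_lit 76) (nat_lit 250893719857) (nat_lit 76) (nat_lit 123550464327) (nat_lit 31) (nat_lit 4) (nat_lit 32) (nat_lit 5) (nat_lit 32) (nat_lit 4) (nat_lit 482) (nat_lit 431) (nat_lit 287)) (XT.lf (nat_lit 0) (nat_lit 22314829826) (nat_lit 152)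 (nat_lit 80928554578) (nat_lit 76) (nat_lit 421499443509) (nat_lit 30) (nat_lit 5) (nat_lit 32) (nat_lit 5) (nat_lit 31) (nat_lit 4) (nat_lit 483) (nat_lit 431) (nat_lit 286))) (XT.nd (nat_lit 78) (nat_lit 76) (nat_lit 0) (XT.lf (nat_lit 0) (nat_lit 180657750841) (nat_lit 152) (nat_lit 310036662043) (nat_lit 0) (nat_lit 62747070326) (nat_lit 29) (nat_lit 5) (nat_lit 31) (nat_lit 4) (nat_lit 29) (nat_lit 4) (nat_lit 484) (nat_lit 431) (nat_lit 285)) (XT.lf (nat_lit 0) (nat_lit 11882942917) (nat_lit 76) (nat_lit 345022450344) (nat_lit 76) (nat_lit 227111654654) (nat_lit 28) (nat_lit 4) (nat_lit 29) (nat_lit 5) (nat_lit 29) (nat_lit 4) (nat_lit 485) (nat_lit 431) (nat_lit 284))))) (XT.nd (nat_lit 234) (nat_lit 228) (nat_lit 0) (XT.nd (nat_lit 78) (nat_lit 152) (nat_lit 0) (XT.lf (nat_lit 0) (nat_lit 377187490551) (nat_lit 76) (nat_lit 178541970242) (nat_lit 76) (nat_lit 60631067909) (nat_lit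 28) (nat_lit 4) (nat_lit 29) (nat_lit 5) (nat_lit 29) (nat_lit 4) (nat_lit 486) (nat_lit 431) (nat_lit 283)) (XT.nd (nat_lit 78) (nat_lit 0) (nat_lit 0) (XT.lf (nat_lit 0) (nat_lit 116364504958) (nat_lit 152) (nat_lit 527257427215) (nat_lit 0) (nat_lit 7187652110) (nat_lit 26) (nat_lit 5) (nat_lit 28) (nat_lit 4) (nat_lit 26) (nat_lit 4) (nat_lit 487) (nat_lit 431) (nat_lit 282)) (XT.lf (nat_lit 0) (nat_lit 315590474186) (nat_lit 152) (nat_lit 164976854569) (nat_lit 0) (nat_lit 206413536680) (nat_lit 26) (nat_lit 5) (nat_lit 28) (nat_lit 4) (nat_lit 26) (nat_lit 4) (nat_lit 488) (nat_lit 431) (nat_lit 281)))) (XT.nd (nat_lit 156) (nat_lit 76) (nat_lit 0) (XT.nd (nat_lit 78) (nat_lit 76) (nat_lit 0) (XT.lf (nat_lit 0) (nat_lit 238201356463) (nat_lit 76) (nat_lit 298281616187) (nat_lit 76) (nat_lit 189104600296) (nat_lit 25) (nat_lit 4) (nat_lit 26) (nat_lit 5) (nat_lit 26) (nat_lit 4) (nat_lit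 489) (nat_lit 431) (nat_lit 280)) (XT.lf (nat_lit 0) (nat_lit 12003290325) (nat_lit 152) (nat_lit 84210244594) (nat_lit 76) (nat_lit 670684134020) (nat_lit 24) (nat_lit 5) (nat_lit 26) (nat_lit 5) (nat_lit 25) (nat_lit 4) (nat_lit 490) (nat_lit 431) (nat_lit 279))) (XT.nd (nat_lit 78) (nat_lit 0) (nat_lit 0) (XT.lf (nat_lit 0) (nat_lit 231040132292) (nat_lit 152) (nat_lit 449164771938) (nat_lit 0) (nat_lit 129950173334) (nat_lit 23) (nat_lit 5) (nat_lit 25) (nat_lit 4) (nat_lit 23) (nat_lit 4) (nat_lit 491) (nat_lit 431) (nat_lit 278)) (XT.lf (nat_lit 0) (nat_lit 472460962007) (nat_lit 152) (nat_lit 12652288210) (nat_lit 0) (nat_lit 371370945433) (nat_lit 23) (nat_lit 5) (nat_lit 25) (nat_lit 4) (nat_lit 23) (nat_lit 4) (nat_lit 492) (nat_lit 431) (nat_lit 277)))))) (XT.nd (nat_lit 546) (nat_lit 304) (nat_lit 0) (XT.nd (nat_lit 234) (nat_lit 228) (nat_lit 0) (XT.nd (nat_lit 78) (nat_lit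 152) (nat_lit 0) (XT.lf (nat_lit 0) (nat_lit 482939252985) (nat_lit 76) (nat_lit 261870652177) (nat_lit 76) (nat_lit 160780582256) (nat_lit 22) (nat_lit 4) (nat_lit 23) (nat_lit 5) (nat_lit 23) (nat_lit 4) (nat_lit 493) (nat_lit 431) (nat_lit 276)) (XT.nd (nat_lit 78) (nat_lit 0) (nat_lit 0) (XT.lf (nat_lit 0) (nat_lit 61431890951) (nat_lit 76) (nat_lit 16703690908) (nat_lit 152) (nat_lit 880188593471) (nat_lit 20) (nat_lit 5) (nat_lit 21) (nat_lit 5) (nat_lit 22) (nat_lit 4) (nat_lit 494) (nat_lit 431) (nat_lit 275)) (XT.lf (nat_lit 0) (nat_lit 345300897878) (nat_lit 152) (nat_lit 416516902777) (nat_lit 0) (nat_lit 251698893196) (nat_lit 20) (nat_lit 5) (nat_lit 22) (nat_lit 4) (nat_lit 20) (nat_lit 4) (nat_lit 495) (nat_lit 431) (nat_lit 274)))) (XT.nd (nat_lit 156) (nat_lit 152) (nat_lit 0) (XT.nd (nat_lit 78) (nat_lit 0) (nat_lit 0) (XT.lf (nat_lit 0) (nat_lit 107217626441) (nat_lit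 76) (nat_lit 529634027079) (nat_lit 76) (nat_lit 436031983185) (nat_lit 19) (nat_lit 4) (nat_lit 20) (nat_lit 5) (nat_lit 20) (nat_lit 4) (nat_lit 496) (nat_lit 431) (nat_lit 273)) (XT.lf (nat_lit 0) (nat_lit 696538134774) (nat_lit 76) (nat_lit 266576416925) (nat_lit 76) (nat_lit 172974336723) (nat_lit 19) (nat_lit 4) (nat_lit 20) (nat_lit 5) (nat_lit 20) (nat_lit 4) (nat_lit 497) (nat_lit 431) (nat_lit 272))) (XT.nd (nat_lit 78) (nat_lit 0) (nat_lit 0) (XT.lf (nat_lit 0) (nat_lit 109331770053) (nat_lit 152) (nat_lit 1071840800360) (nat_lit 0) (nat_lit 22663146146) (nat_lit 17) (nat_lit 5) (nat_lit 19) (nat_lit 4) (nat_lit 17) (nat_lit 4) (nat_lit 498) (nat_lit 431) (nat_lit 271)) (XT.lf (nat_lit 0) (nat_lit 424131359538) (nat_lit 152) (nat_lit 513508469313) (nat_lit 0) (nat_lit 337462706808) (nat_lit 17) (nat_lit 5) (nat_lit 19) (nat_lit 4) (nat_lit 17) (nat_lit 4) (nat_lit 499) (nat_lit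 431) (nat_lit 270))))) (XT.nd (nat_lit 234) (nat_lit 152) (nat_lit 0) (XT.nd (nat_lit 78) (nat_lit 76) (nat_lit 0) (XT.lf (nat_lit 0) (nat_lit 94202422391) (nat_lit 76) (nat_lit 672177863854) (nat_lit 76) (nat_lit 585509184437) (nat_lit 16) (nat_lit 4) (nat_lit 17) (nat_lit 5) (nat_lit 17) (nat_lit 4) (nat_lit 500) (nat_lit 431) (nat_lit 269)) (XT.nd (nat_lit 78) (nat_lit 76) (nat_lit 0) (XT.lf (nat_lit 0) (nat_lit 779733465017) (nat_lit 76) (nat_lit 370315698358) (nat_lit 76) (nat_lit 283646994231) (nat_lit 16) (nat_lit 4) (nat_lit 17) (nat_lit 5) (nat_lit 17) (nat_lit 4) (nat_lit 501) (nat_lit 431) (nat_lit 268)) (XT.lf (nat_lit 0) (nat_lit 40244758260) (nat_lit 152) (nat_lit 2959629824) (nat_lit 76) (nat_lit 1478761497493) (nat_lit 15) (nat_lit 5) (nat_lit 17) (nat_lit 5) (nat_lit 16) (nat_lit 4) (nat_lit 502) (nat_lit 431) (nat_lit 267)))) (XT.nd (nat_lit 156) (nat_lit 76) (nat_lit 0)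 (XT.nd (nat_lit 78) (nat_lit 0) (nat_lit 0) (XT.lf (nat_lit 0) (nat_lit 400365722166) (nat_lit 152) (nat_lit 894173817915) (nat_lit 0) (nat_lit 320116881247) (nat_lit 14) (nat_lit 5) (nat_lit 16) (nat_lit 4) (nat_lit 14) (nat_lit 4) (nat_lit 503) (nat_lit 431) (nat_lit 266)) (XT.lf (nat_lit 0) (nat_lit 790501406857) (nat_lit 152) (nat_lit 213911841813) (nat_lit 0) (nat_lit 710252547775) (nat_lit 14) (nat_lit 5) (nat_lit 16) (nat_lit 4) (nat_lit 14) (nat_lit 4) (nat_lit 504) (nat_lit 431) (nat_lit 265))) (XT.nd (nat_lit 78) (nat_lit 0) (nat_lit 0) (XT.lf (nat_lit 0) (nat_lit 548193630254) (nat_lit 76) (nat_lit 676838227164) (nat_lit 76) (nat_lit 596589351264) (nat_lit 13) (nat_lit 4) (nat_lit 14) (nat_lit 5) (nat_lit 14) (nat_lit 4) (nat_lit 505) (nat_lit 431) (nat_lit 264)) (XT.lf (nat_lit 0) (nat_lit 1383432576665) (nat_lit 76) (nat_lit 316740741393) (nat_lit 76) (nat_lit 236491849921)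 (nat_lit 13) (nat_lit 4) (nat_lit 14) (nat_lit 5) (nat_lit 14) (nat_lit 4) (nat_lit 506) (nat_lit 431) (nat_lit 263))))))) (XT.nd (nat_lit 1092) (nat_lit 228) (nat_lit 0) (XT.nd (nat_lit 546) (nat_lit 228) (nat_lit 0) (XT.nd (nat_lit 234) (nat_lit 228) (nat_lit 0) (XT.nd (nat_lit 78) (nat_lit 0) (nat_lit 0) (XT.lf (nat_lit 0) (nat_lit 152357708366) (nat_lit 152) (nat_lit 1829603038406) (nat_lit 0) (nat_lit 78053165875) (nat_lit 11) (nat_lit 5) (nat_lit 13) (nat_lit 4) (nat_lit 11) (nat_lit 4) (nat_lit 507) (nat_lit 431) (nat_lit 262)) (XT.nd (nat_lit 78) (nat_lit 0) (nat_lit 0) (XT.lf (nat_lit 0) (nat_lit 583284665979) (nat_lit 152) (nat_lit 1098574677171) (nat_lit 0) (nat_lit 508980111127) (nat_lit 11) (nat_lit 5) (nat_lit 13) (nat_lit 4) (nat_lit 11) (nat_lit 4) (nat_lit 508) (nat_lit 431) (nat_lit 261)) (XT.lf (nat_lit 0) (nat_lit 1048685644134) (nat_lit 152) (nat_lit 309064328153) (nat_lit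 0) (nat_lit 974381077837) (nat_lit 11) (nat_lit 5) (nat_lit 13) (nat_lit 4) (nat_lit 11) (nat_lit 4) (nat_lit 509) (nat_lit 431) (nat_lit 260)))) (XT.nd (nat_lit 156) (nat_lit 152) (nat_lit 0) (XT.nd (nat_lit 78) (nat_lit 0) (nat_lit 0) (XT.lf (nat_lit 0) (nat_lit 572231948090) (nat_lit 76) (nat_lit 992848818577) (nat_lit 76) (nat_lit 918544241681) (nat_lit 10) (nat_lit 4) (nat_lit 11) (nat_lit 5) (nat_lit 11) (nat_lit 4) (nat_lit 510) (nat_lit 431) (nat_lit 259)) (XT.lf (nat_lit 0) (nat_lit 1541608434927) (nat_lit 76) (nat_lit 589629307758) (nat_lit 76) (nat_lit 515324721050) (nat_lit 10) (nat_lit 4) (nat_lit 11) (nat_lit 5) (nat_lit 11) (nat_lit 4) (nat_lit 511) (nat_lit 431) (nat_lit 258))) (XT.nd (nat_lit 78) (nat_lit 152) (nat_lit 0) (XT.lf (nat_lit 0) (nat_lit 2588534805802) (nat_lit 76) (nat_lit 154152357320) (nat_lit 76) (nat_lit 79847761525) (nat_lit 10) (nat_lit 4) (nat_lit 11)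 (nat_lit 5) (nat_lit 11) (nat_lit 4) (nat_lit 512) (nat_lit 431) (nat_lit 257)) (XT.lf (nat_lit 0) (nat_lit 396892230119) (nat_lit 152) (nat_lit 2284773410996) (nat_lit 0) (nat_lit 328091670668) (nat_lit 8) (nat_lit 5) (nat_lit 10) (nat_lit 4) (nat_lit 8) (nat_lit 4) (nat_lit 513) (nat_lit 431) (nat_lit 256))))) (XT.nd (nat_lit 234) (nat_lit 152) (nat_lit 0) (XT.nd (nat_lit 78) (nat_lit 76) (nat_lit 0) (XT.lf (nat_lit 0) (nat_lit 918025576604) (nat_lit 152) (nat_lit 1443695545231) (nat_lit 0) (nat_lit 849225009940) (nat_lit 8) (nat_lit 5) (nat_lit 10) (nat_lit 4) (nat_lit 8) (nat_lit 4) (nat_lit 514) (nat_lit 431) (nat_lit 255)) (XT.nd (nat_lit 78) (nat_lit 76) (nat_lit 0) (XT.lf (nat_lit 0) (nat_lit 1480849490888) (nat_lit 152) (nat_lit 535331656928) (nat_lit 0) (nat_lit 1412048917545) (nat_lit 8) (nat_lit 5) (nat_lit 10) (nat_lit 4) (nat_lit 8) (nat_lit 4) (nat_lit 515) (nat_lit 431) (nat_lit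 254)) (XT.lf (nat_lit 0) (nat_lit 469170983791) (nat_lit 76) (nat_lit 1630811815447) (nat_lit 76) (nat_lit 1562011235921) (nat_lit 7) (nat_lit 4) (nat_lit 8) (nat_lit 5) (nat_lit 8) (nat_lit 4) (nat_lit 516) (nat_lit 431) (nat_lit 253)))) (XT.nd (nat_lit 156) (nat_lit 152) (nat_lit 0) (XT.nd (nat_lit 78) (nat_lit 0) (nat_lit 0) (XT.lf (nat_lit 0) (nat_lit 1584478434879) (nat_lit 76) (nat_lit 1198805163416) (nat_lit 76) (nat_lit 1130004578164) (nat_lit 7) (nat_lit 4) (nat_lit 8) (nat_lit 5) (nat_lit 8) (nat_lit 4) (nat_lit 517) (nat_lit 431) (nat_lit 252)) (XT.lf (nat_lit 0) (nat_lit 2789010309310) (nat_lit 76) (nat_lit 732238068492) (nat_lit 76) (nat_lit 663437477938) (nat_lit 7) (nat_lit 4) (nat_lit 8) (nat_lit 5) (nat_lit 8) (nat_lit 4) (nat_lit 518) (nat_lit 431) (nat_lit 251))) (XT.nd (nat_lit 78) (nat_lit 152) (nat_lit 0) (XT.lf (nat_lit 0) (nat_lit 4089904573747) (nat_lit 76) (nat_lit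 228345688632) (nat_lit 76) (nat_lit 159545093169) (nat_lit 7) (nat_lit 4) (nat_lit 8) (nat_lit 5) (nat_lit 8) (nat_lit 4) (nat_lit 519) (nat_lit 431) (nat_lit 250)) (XT.lf (nat_lit 0) (nat_lit 391208053032) (nat_lit 152) (nat_lit 4072838360032) (nat_lit 0) (nat_lit 327503793766) (nat_lit 5) (nat_lit 5) (nat_lit 7) (nat_lit 4) (nat_lit 5) (nat_lit 4) (nat_lit 520) (nat_lit 431) (nat_lit 249)))))) (XT.nd (nat_lit 546) (nat_lit 152) (nat_lit 0) (XT.nd (nat_lit 234) (nat_lit 76) (nat_lit 0) (XT.nd (nat_lit 78) (nat_lit 0) (nat_lit 0) (XT.lf (nat_lit 0) (nat_lit 994213947391) (nat_lit 152) (nat_lit 3204005326283) (nat_lit 0) (nat_lit 930509684227) (nat_lit 5) (nat_lit 5) (nat_lit 7) (nat_lit 4) (nat_lit 5) (nat_lit 4) (nat_lit 521) (nat_lit 431) (nat_lit 248)) (XT.nd (nat_lit 78) (nat_lit 0) (nat_lit 0) (XT.lf (nat_lit 0) (nat_lit 1645460245344) (nat_lit 152) (nat_lit 2265665790578) (nat_lit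 0) (nat_lit 1581755978572) (nat_lit 5) (nat_lit 5) (nat_lit 7) (nat_lit 4) (nat_lit 5) (nat_lit 4) (nat_lit 522) (nat_lit 431) (nat_lit 247)) (XT.lf (nat_lit 0) (nat_lit 2348806184214) (nat_lit 152) (nat_lit 1252259222333) (nat_lit 0) (nat_lit 2285101914101) (nat_lit 5) (nat_lit 5) (nat_lit 7) (nat_lit 4) (nat_lit 5) (nat_lit 4) (nat_lit 523) (nat_lit 431) (nat_lit 246)))) (XT.nd (nat_lit 156) (nat_lit 0) (nat_lit 0) (XT.nd (nat_lit 78) (nat_lit 76) (nat_lit 0) (XT.lf (nat_lit 0) (nat_lit 3108419739935) (nat_lit 152) (nat_lit 157780249293) (nat_lit 0) (nat_lit 3044715466729) (nat_lit 5) (nat_lit 5) (nat_lit 7) (nat_lit 4) (nat_lit 5) (nat_lit 4) (nat_lit 524) (nat_lit 431) (nat_lit 245)) (XT.lf (nat_lit 0) (nat_lit 1078192484651) (nat_lit 76) (nat_lit 2876540396704) (nat_lit 76) (nat_lit 2812836120634) (nat_lit 4) (nat_lit 4) (nat_lit 5) (nat_lit 5) (nat_lit 5) (nat_lit 4) (nat_lit 525)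 (nat_lit 431) (nat_lit 244))) (XT.nd (nat_lit 78) (nat_lit 0) (nat_lit 0) (XT.lf (nat_lit 0) (nat_lit 2422016030996) (nat_lit 76) (nat_lit 2451048982153) (nat_lit 76) (nat_lit 2387344703430) (nat_lit 4) (nat_lit 4) (nat_lit 5) (nat_lit 5) (nat_lit 5) (nat_lit 4) (nat_lit 526) (nat_lit 431) (nat_lit 243)) (XT.lf (nat_lit 0) (nat_lit 3873345360219) (nat_lit 76) (nat_lit 1991518306596) (nat_lit 76) (nat_lit 1927814025417) (nat_lit 4) (nat_lit 4) (nat_lit 5) (nat_lit 5) (nat_lit 5) (nat_lit 4) (nat_lit 527) (nat_lit 431) (nat_lit 242))))) (XT.nd (nat_lit 312) (nat_lit 0) (nat_lit 0) (XT.nd (nat_lit 156) (nat_lit 152) (nat_lit 0) (XT.nd (nat_lit 78) (nat_lit 0) (nat_lit 0) (XT.lf (nat_lit 0) (nat_lit 5440780942416) (nat_lit 76) (nat_lit 1495225225288) (nat_lit 76) (nat_lit 1431520941836) (nat_lit 4) (nat_lit 4) (nat_lit 5) (nat_lit 5) (nat_lit 5) (nat_lit 4) (nat_lit 528) (nat_lit 431) (nat_lit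 241)) (XT.lf (nat_lit 0) (nat_lit 7133611284743) (nat_lit 76) (nat_lit 959228742194) (nat_lit 76) (nat_lit 895524456637) (nat_lit 4) (nat_lit 4) (nat_lit 5) (nat_lit 5) (nat_lit 5) (nat_lit 4) (nat_lit 529) (nat_lit 431) (nat_lit 240))) (XT.nd (nat_lit 78) (nat_lit 152) (nat_lit 0) (XT.lf (nat_lit 0) (nat_lit 8961867974413) (nat_lit 76) (nat_lit 380352581857) (nat_lit 76) (nat_lit 316648294350) (nat_lit 4) (nat_lit 4) (nat_lit 5) (nat_lit 5) (nat_lit 5) (nat_lit 4) (nat_lit 530) (nat_lit 431) (nat_lit 239)) (XT.lf (nat_lit 0) (nat_lit 313365147732) (nat_lit 152) (nat_lit 9813054176584) (nat_lit 0) (nat_lit 254379694666) (nat_lit 2) (nat_lit 5) (nat_lit 4) (nat_lit 4) (nat_lit 2) (nat_lit 4) (nat_lit 531) (nat_lit 431) (nat_lit 238)))) (XT.nd (nat_lit 156) (nat_lit 0) (nat_lit 0) (XT.nd (nat_lit 78) (nat_lit 0) (nat_lit 0) (XT.lf (nat_lit 0) (nat_lit 1006103916177) (nat_lit 152) (nat_lit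 9204248733912) (nat_lit 0) (nat_lit 947118461563) (nat_lit 2) (nat_lit 5) (nat_lit 4) (nat_lit 4) (nat_lit 2) (nat_lit 4) (nat_lit 532) (nat_lit 431) (nat_lit 237)) (XT.lf (nat_lit 0) (nat_lit 1754261752124) (nat_lit 152) (nat_lit 8546738926251) (nat_lit 0) (nat_lit 1695276296077) (nat_lit 2) (nat_lit 5) (nat_lit 4) (nat_lit 4) (nat_lit 2) (nat_lit 4) (nat_lit 533) (nat_lit 431) (nat_lit 236))) (XT.nd (nat_lit 78) (nat_lit 0) (nat_lit 0) (XT.lf (nat_lit 0) (nat_lit 2562272183489) (nat_lit 152) (nat_lit 7836628399188) (nat_lit 0) (nat_lit 2503286726116) (nat_lit 2) (nat_lit 5) (nat_lit 4) (nat_lit 4) (nat_lit 2) (nat_lit 4) (nat_lit 534) (nat_lit 431) (nat_lit 235)) (XT.lf (nat_lit 0) (nat_lit 3434923420237) (nat_lit 152) (nat_lit 7069709090339) (nat_lit 0) (nat_lit 3375937961635) (nat_lit 2) (nat_lit 5) (nat_lit 4) (nat_lit 4) (nat_lit 2) (nat_lit 4) (nat_lit 535) (nat_lit 431) (nat_lit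 234))))))))
noncomputable def xc164 : XT := (XT.nd (nat_lit 56160) (nat_lit 0) (nat_lit 2204) (XT.nd (nat_lit 55068) (nat_lit 0) (nat_lit 4408) (XT.nd (nat_lit 54522) (nat_lit 0) (nat_lit 6080) (XT.nd (nat_lit 234) (nat_lit 0) (nat_lit 0) (XT.nd (nat_lit 78) (nat_lit 0) (nat_lit 0) (XT.lf (nat_lit 0) (nat_lit 4377386728956) (nat_lit 152) (nat_lit 6241436292690) (nat_lit 0) (nat_lit 4318401269216) (nat_lit 2) (nat_lit 5) (nat_lit 4) (nat_lit 4) (nat_lit 2) (nat_lit 4) (nat_lit 536) (nat_lit 431) (nat_lit 233)) (XT.nd (nat_lit 78) (nat_lit 0) (nat_lit 0) (XT.lf (nat_lit 0) (nat_lit 5395247077400) (nat_lit 152) (nat_lit 5346901722993) (nat_lit 0) (nat_lit 5336261616607) (nat_lit 2) (nat_lit 5) (nat_lit 4) (nat_lit 4) (nat_lit 2) (nat_lit 4) (nat_lit 537) (nat_lit 431) (nat_lit 232)) (XT.lf (nat_lit 0) (nat_lit 6494536230598) (nat_lit 152) (nat_lit 4380804435653) (nat_lit 0) (nat_lit 6435550768830)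 (nat_lit 2) (nat_lit 5) (nat_lit 4) (nat_lit 4) (nat_lit 2) (nat_lit 4) (nat_lit 538) (nat_lit 431) (nat_lit 231)))) (XT.nd (nat_lit 54132) (nat_lit 0) (nat_lit 6916) (XT.nd (nat_lit 78) (nat_lit 0) (nat_lit 0) (XT.lf (nat_lit 0) (nat_lit 7681768494643) (nat_lit 152) (nat_lit 3337419409705) (nat_lit 0) (nat_lit 7622783031972) (nat_lit 2) (nat_lit 5) (nat_lit 4) (nat_lit 4) (nat_lit 2) (nat_lit 4) (nat_lit 539) (nat_lit 431) (nat_lit 230)) (XT.lf (nat_lit 0) (nat_lit 8963979319988) (nat_lit 152) (nat_lit 2210563622776) (nat_lit 0) (nat_lit 8904993856481) (nat_lit 2) (nat_lit 5) (nat_lit 4) (nat_lit 4) (nat_lit 2) (nat_lit 4) (nat_lit 540) (nat_lit 431) (nat_lit 229))) (XT.nd (nat_lit 78) (nat_lit 0) (nat_lit 0) (XT.lf (nat_lit 0) (nat_lit 23391772762) (nat_lit 532) (nat_lit 221258529) (nat_lit 532) (nat_lit 221258529) (nat_lit 93) (nat_lit 3) (nat_lit 100) (nat_lit 3) (nat_lit 100) (nat_lit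 5) (nat_lit 432) (nat_lit 432) (nat_lit 336)) (XT.lf (nat_lit 76) (nat_lit 24523256796) (nat_lit 0) (nat_lit 24748631507) (nat_lit 532) (nat_lit 254070816) (nat_lit 94) (nat_lit 5) (nat_lit 93) (nat_lit 3) (nat_lit 100) (nat_lit 5) (nat_lit 433) (nat_lit 432) (nat_lit 335))))) (XT.nd (nat_lit 234) (nat_lit 304) (nat_lit 0) (XT.nd (nat_lit 78) (nat_lit 0) (nat_lit 76) (XT.lf (nat_lit 0) (nat_lit 415572078) (nat_lit 532) (nat_lit 31792101) (nat_lit 608) (nat_lit 51082976350) (nat_lit 86) (nat_lit 5) (nat_lit 93) (nat_lit 3) (nat_lit 94) (nat_lit 5) (nat_lit 434) (nat_lit 432) (nat_lit 334)) (XT.nd (nat_lit 78) (nat_lit 0) (nat_lit 0) (XT.lf (nat_lit 0) (nat_lit 2442521574) (nat_lit 532) (nat_lit 25931929031) (nat_lit 608) (nat_lit 25214697292) (nat_lit 87) (nat_lit 5) (nat_lit 94) (nat_lit 5) (nat_lit 95) (nat_lit 5) (nat_lit 435) (nat_lit 432) (nat_lit 333)) (XT.lf (nat_lit 76) (nat_lit 1828650664)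 (nat_lit 0) (nat_lit 2857024596) (nat_lit 608) (nat_lit 51122661025) (nat_lit 88) (nat_lit 5) (nat_lit 87) (nat_lit 5) (nat_lit 95) (nat_lit 5) (nat_lit 436) (nat_lit 432) (nat_lit 332)))) (XT.nd (nat_lit 156) (nat_lit 456) (nat_lit 0) (XT.nd (nat_lit 78) (nat_lit 0) (nat_lit 0) (XT.lf (nat_lit 0) (nat_lit 8427512779) (nat_lit 532) (nat_lit 25477890548) (nat_lit 608) (nat_lit 24194118159) (nat_lit 88) (nat_lit 5) (nat_lit 95) (nat_lit 5) (nat_lit 96) (nat_lit 5) (nat_lit 437) (nat_lit 432) (nat_lit 331)) (XT.lf (nat_lit 76) (nat_lit 5503375743) (nat_lit 0) (nat_lit 7169767450) (nat_lit 608) (nat_lit 47884502886) (nat_lit 89) (nat_lit 5) (nat_lit 88) (nat_lit 5) (nat_lit 96) (nat_lit 5) (nat_lit 438) (nat_lit 432) (nat_lit 330))) (XT.nd (nat_lit 78) (nat_lit 532) (nat_lit 0) (XT.lf (nat_lit 0) (nat_lit 18493131049) (nat_lit 532) (nat_lit 23286578750) (nat_lit 76) (nat_lit 21333934510) (nat_lit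 89) (nat_lit 5) (nat_lit 96) (nat_lit 5) (nat_lit 90) (nat_lit 5) (nat_lit 439) (nat_lit 432) (nat_lit 329)) (XT.lf (nat_lit 0) (nat_lit 11405080896) (nat_lit 532) (nat_lit 13832308642) (nat_lit 608) (nat_lit 40600039342) (nat_lit 82) (nat_lit 5) (nat_lit 89) (nat_lit 5) (nat_lit 90) (nat_lit 5) (nat_lit 440) (nat_lit 432) (nat_lit 328)))))) (XT.nd (nat_lit 546) (nat_lit 684) (nat_lit 0) (XT.nd (nat_lit 234) (nat_lit 760) (nat_lit 0) (XT.nd (nat_lit 78) (nat_lit 228) (nat_lit 0) (XT.lf (nat_lit 0) (nat_lit 33565910324) (nat_lit 608) (nat_lit 18943400776) (nat_lit 76) (nat_lit 16186227585) (nat_lit 82) (nat_lit 5) (nat_lit 90) (nat_lit 5) (nat_lit 83) (nat_lit 5) (nat_lit 441) (nat_lit 432) (nat_lit 327)) (XT.nd (nat_lit 78) (nat_lit 0) (nat_lit 0) (XT.lf (nat_lit 0) (nat_lit 20025425838) (nat_lit 228) (nat_lit 23374557936) (nat_lit 304) (nat_lit 28315172000) (nat_lit 79) (nat_lit 5) (nat_lit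 82) (nat_lit 5) (nat_lit 83) (nat_lit 5) (nat_lit 442) (nat_lit 432) (nat_lit 326)) (XT.lf (nat_lit 0) (nat_lit 54745225941) (nat_lit 304) (nat_lit 11955647073) (nat_lit 76) (nat_lit 8217513959) (nat_lit 79) (nat_lit 5) (nat_lit 83) (nat_lit 5) (nat_lit 80) (nat_lit 5) (nat_lit 443) (nat_lit 432) (nat_lit 325)))) (XT.nd (nat_lit 156) (nat_lit 456) (nat_lit 0) (XT.nd (nat_lit 78) (nat_lit 76) (nat_lit 0) (XT.lf (nat_lit 0) (nat_lit 31946469302) (nat_lit 228) (nat_lit 36425632714) (nat_lit 304) (nat_lit 9895853643) (nat_lit 76) (nat_lit 5) (nat_lit 79) (nat_lit 5) (nat_lit 80) (nat_lit 5) (nat_lit 444) (nat_lit 432) (nat_lit 324)) (XT.lf (nat_lit 0) (nat_lit 1477408107) (nat_lit 304) (nat_lit 1857779105) (nat_lit 76) (nat_lit 78521268509) (nat_lit 75) (nat_lit 5) (nat_lit 79) (nat_lit 5) (nat_lit 76) (nat_lit 5) (nat_lit 445) (nat_lit 432) (nat_lit 323))) (XT.nd (nat_lit 78) (nat_lit 228)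 (nat_lit 0) (XT.lf (nat_lit 0) (nat_lit 15202876147) (nat_lit 304) (nat_lit 38113066841) (nat_lit 76) (nat_lit 32237371833) (nat_lit 72) (nat_lit 5) (nat_lit 76) (nat_lit 5) (nat_lit 73) (nat_lit 5) (nat_lit 446) (nat_lit 432) (nat_lit 322)) (XT.lf (nat_lit 0) (nat_lit 11743824628) (nat_lit 228) (nat_lit 18702496347) (nat_lit 304) (nat_lit 59066006641) (nat_lit 69) (nat_lit 5) (nat_lit 72) (nat_lit 5) (nat_lit 73) (nat_lit 5) (nat_lit 447) (nat_lit 432) (nat_lit 321))))) (XT.nd (nat_lit 234) (nat_lit 532) (nat_lit 0) (XT.nd (nat_lit 78) (nat_lit 152) (nat_lit 0) (XT.lf (nat_lit 0) (nat_lit 48426444737) (nat_lit 304) (nat_lit 26425884160) (nat_lit 76) (nat_lit 18814356375) (nat_lit 69) (nat_lit 5) (nat_lit 73) (nat_lit 5) (nat_lit 70) (nat_lit 5) (nat_lit 448) (nat_lit 432) (nat_lit 320)) (XT.nd (nat_lit 78) (nat_lit 0) (nat_lit 0) (XT.lf (nat_lit 0) (nat_lit 30039528488) (nat_lit 152) (nat_lit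 39012571625) (nat_lit 228) (nat_lit 29004721789) (nat_lit 67) (nat_lit 5) (nat_lit 69) (nat_lit 5) (nat_lit 70) (nat_lit 5) (nat_lit 449) (nat_lit 432) (nat_lit 319)) (XT.lf (nat_lit 0) (nat_lit 92060681859) (nat_lit 228) (nat_lit 10228317184) (nat_lit 76) (nat_lit 450540594) (nat_lit 67) (nat_lit 5) (nat_lit 70) (nat_lit 5) (nat_lit 68) (nat_lit 5) (nat_lit 450) (nat_lit 432) (nat_lit 318)))) (XT.nd (nat_lit 156) (nat_lit 152) (nat_lit 0) (XT.nd (nat_lit 78) (nat_lit 152) (nat_lit 0) (XT.lf (nat_lit 0) (nat_lit 11024881468) (nat_lit 228) (nat_lit 54027888697) (nat_lit 76) (nat_lit 42537156807) (nat_lit 64) (nat_lit 5) (nat_lit 67) (nat_lit 5) (nat_lit 65) (nat_lit 5) (nat_lit 451) (nat_lit 432) (nat_lit 317)) (XT.lf (nat_lit 0) (nat_lit 10468935238) (nat_lit 152) (nat_lit 23956772329) (nat_lit 228) (nat_lit 78337430090) (nat_lit 62) (nat_lit 5) (nat_lit 64) (nat_lit 5) (nat_lit 65) (nat_lit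 5) (nat_lit 452) (nat_lit 432) (nat_lit 316))) (XT.nd (nat_lit 78) (nat_lit 152) (nat_lit 0) (XT.lf (nat_lit 0) (nat_lit 61704502131) (nat_lit 228) (nat_lit 35565041565) (nat_lit 76) (nat_lit 20920189380) (nat_lit 62) (nat_lit 5) (nat_lit 65) (nat_lit 5) (nat_lit 63) (nat_lit 5) (nat_lit 453) (nat_lit 432) (nat_lit 315)) (XT.lf (nat_lit 0) (nat_lit 37768127916) (nat_lit 152) (nat_lit 54927168409) (nat_lit 228) (nat_lit 31232784178) (nat_lit 60) (nat_lit 5) (nat_lit 62) (nat_lit 5) (nat_lit 63) (nat_lit 5) (nat_lit 454) (nat_lit 432) (nat_lit 314))))))) (XT.nd (nat_lit 1092) (nat_lit 1064) (nat_lit 0) (XT.nd (nat_lit 546) (nat_lit 532) (nat_lit 0) (XT.nd (nat_lit 234) (nat_lit 304) (nat_lit 0) (XT.nd (nat_lit 78) (nat_lit 304) (nat_lit 0) (XT.lf (nat_lit 0) (nat_lit 118989216316) (nat_lit 152) (nat_lit 8147699732) (nat_lit 228) (nat_lit 2910854775) (nat_lit 60) (nat_lit 5) (nat_lit 62) (nat_lit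 5) (nat_lit 63) (nat_lit 5) (nat_lit 455) (nat_lit 432) (nat_lit 313)) (XT.nd (nat_lit 78) (nat_lit 152) (nat_lit 0) (XT.lf (nat_lit 0) (nat_lit 29130073905) (nat_lit 152) (nat_lit 64507652362) (nat_lit 76) (nat_lit 42739039719) (nat_lit 58) (nat_lit 5) (nat_lit 60) (nat_lit 5) (nat_lit 59) (nat_lit 5) (nat_lit 456) (nat_lit 432) (nat_lit 312)) (XT.lf (nat_lit 0) (nat_lit 19553772778) (nat_lit 152) (nat_lit 45014564628) (nat_lit 228) (nat_lit 78558389087) (nat_lit 56) (nat_lit 5) (nat_lit 58) (nat_lit 5) (nat_lit 59) (nat_lit 5) (nat_lit 457) (nat_lit 432) (nat_lit 311)))) (XT.nd (nat_lit 156) (nat_lit 228) (nat_lit 0) (XT.nd (nat_lit 78) (nat_lit 76) (nat_lit 0) (XT.lf (nat_lit 0) (nat_lit 104830791539) (nat_lit 228) (nat_lit 36494339822) (nat_lit 76) (nat_lit 8932422158) (nat_lit 56) (nat_lit 5) (nat_lit 59) (nat_lit 5) (nat_lit 57) (nat_lit 4) (nat_lit 458) (nat_lit 432) (nat_lit 310))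 (XT.lf (nat_lit 0) (nat_lit 59349003588) (nat_lit 76) (nat_lit 91561076492) (nat_lit 152) (nat_lit 6841099620) (nat_lit 55) (nat_lit 5) (nat_lit 56) (nat_lit 5) (nat_lit 57) (nat_lit 4) (nat_lit 459) (nat_lit 432) (nat_lit 309))) (XT.nd (nat_lit 78) (nat_lit 152) (nat_lit 0) (XT.lf (nat_lit 0) (nat_lit 34112034490) (nat_lit 152) (nat_lit 1694038248) (nat_lit 76) (nat_lit 129889365381) (nat_lit 54) (nat_lit 5) (nat_lit 56) (nat_lit 5) (nat_lit 55) (nat_lit 5) (nat_lit 460) (nat_lit 432) (nat_lit 308)) (XT.lf (nat_lit 0) (nat_lit 81227019106) (nat_lit 228) (nat_lit 66739258362) (nat_lit 76) (nat_lit 26034328754) (nat_lit 52) (nat_lit 5) (nat_lit 55) (nat_lit 5) (nat_lit 53) (nat_lit 4) (nat_lit 461) (nat_lit 432) (nat_lit 307))))) (XT.nd (nat_lit 234) (nat_lit 228) (nat_lit 0) (XT.nd (nat_lit 78) (nat_lit 228) (nat_lit 0) (XT.lf (nat_lit 0) (nat_lit 43296506630) (nat_lit 76) (nat_lit 90832879763)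 (nat_lit 152) (nat_lit 48679346699) (nat_lit 51) (nat_lit 5) (nat_lit 52) (nat_lit 5) (nat_lit 53) (nat_lit 4) (nat_lit 462) (nat_lit 432) (nat_lit 306)) (XT.nd (nat_lit 78) (nat_lit 152) (nat_lit 0) (XT.lf (nat_lit 0) (nat_lit 866860499) (nat_lit 152) (nat_lit 26267994759) (nat_lit 76) (nat_lit 165038967735) (nat_lit 50) (nat_lit 5) (nat_lit 52) (nat_lit 5) (nat_lit 51) (nat_lit 5) (nat_lit 463) (nat_lit 432) (nat_lit 305)) (XT.lf (nat_lit 0) (nat_lit 55242516927) (nat_lit 228) (nat_lit 103331383130) (nat_lit 76) (nat_lit 43333412024) (nat_lit 48) (nat_lit 5) (nat_lit 51) (nat_lit 5) (nat_lit 49) (nat_lit 4) (nat_lit 464) (nat_lit 432) (nat_lit 304)))) (XT.nd (nat_lit 156) (nat_lit 152) (nat_lit 0) (XT.nd (nat_lit 78) (nat_lit 0) (nat_lit 0) (XT.lf (nat_lit 0) (nat_lit 22963414525) (nat_lit 76) (nat_lit 92998164674) (nat_lit 152) (nat_lit 96298432849) (nat_lit 47) (nat_lit 5) (nat_lit 48)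 (nat_lit 5) (nat_lit 49) (nat_lit 4) (nat_lit 465) (nat_lit 432) (nat_lit 303)) (XT.lf (nat_lit 0) (nat_lit 165237291019) (nat_lit 76) (nat_lit 19125569557) (nat_lit 152) (nat_lit 38852091927) (nat_lit 47) (nat_lit 5) (nat_lit 48) (nat_lit 5) (nat_lit 49) (nat_lit 4) (nat_lit 466) (nat_lit 432) (nat_lit 302))) (XT.nd (nat_lit 78) (nat_lit 0) (nat_lit 0) (XT.lf (nat_lit 0) (nat_lit 25665959989) (nat_lit 152) (nat_lit 148687200743) (nat_lit 76) (nat_lit 60357625219) (nat_lit 45) (nat_lit 5) (nat_lit 47) (nat_lit 5) (nat_lit 46) (nat_lit 4) (nat_lit 467) (nat_lit 432) (nat_lit 301)) (XT.lf (nat_lit 0) (nat_lit 95369053406) (nat_lit 152) (nat_lit 3705392588) (nat_lit 76) (nat_lit 147801298919) (nat_lit 45) (nat_lit 5) (nat_lit 47) (nat_lit 5) (nat_lit 46) (nat_lit 4) (nat_lit 468) (nat_lit 432) (nat_lit 300)))))) (XT.nd (nat_lit 546) (nat_lit 532) (nat_lit 0) (XT.nd (nat_lit 234) (nat_lit 304)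 (nat_lit 0) (XT.nd (nat_lit 78) (nat_lit 152) (nat_lit 0) (XT.lf (nat_lit 0) (nat_lit 160924101764) (nat_lit 76) (nat_lit 13594025739) (nat_lit 152) (nat_lit 85186194448) (nat_lit 44) (nat_lit 5) (nat_lit 45) (nat_lit 5) (nat_lit 46) (nat_lit 4) (nat_lit 469) (nat_lit 432) (nat_lit 299)) (XT.nd (nat_lit 78) (nat_lit 76) (nat_lit 0) (XT.lf (nat_lit 0) (nat_lit 66829797841) (nat_lit 76) (nat_lit 196773374582) (nat_lit 76) (nat_lit 9667689149) (nat_lit 43) (nat_lit 4) (nat_lit 44) (nat_lit 5) (nat_lit 44) (nat_lit 4) (nat_lit 470) (nat_lit 432) (nat_lit 298)) (XT.lf (nat_lit 0) (nat_lit 71419533051) (nat_lit 152) (nat_lit 38553516925) (nat_lit 76) (nat_lit 177561467057) (nat_lit 42) (nat_lit 5) (nat_lit 44) (nat_lit 5) (nat_lit 43) (nat_lit 4) (nat_lit 471) (nat_lit 432) (nat_lit 297)))) (XT.nd (nat_lit 156) (nat_lit 152) (nat_lit 0) (XT.nd (nat_lit 78) (nat_lit 76) (nat_lit 0) (XT.lf (nat_lit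 0) (nat_lit 150017539092) (nat_lit 76) (nat_lit 12061360385) (nat_lit 152) (nat_lit 140551678939) (nat_lit 41) (nat_lit 5) (nat_lit 42) (nat_lit 5) (nat_lit 43) (nat_lit 4) (nat_lit 472) (nat_lit 432) (nat_lit 296)) (XT.lf (nat_lit 0) (nat_lit 36564629696) (nat_lit 76) (nat_lit 227639902393) (nat_lit 76) (nat_lit 54392711279) (nat_lit 40) (nat_lit 4) (nat_lit 41) (nat_lit 5) (nat_lit 41) (nat_lit 4) (nat_lit 473) (nat_lit 432) (nat_lit 295))) (XT.nd (nat_lit 78) (nat_lit 76) (nat_lit 0) (XT.lf (nat_lit 0) (nat_lit 41319022579) (nat_lit 152) (nat_lit 87303962438) (nat_lit 76) (nat_lit 206776362390) (nat_lit 39) (nat_lit 5) (nat_lit 41) (nat_lit 5) (nat_lit 40) (nat_lit 4) (nat_lit 474) (nat_lit 432) (nat_lit 294)) (XT.lf (nat_lit 0) (nat_lit 127992053562) (nat_lit 76) (nat_lit 16834819609) (nat_lit 152) (nat_lit 208359499011) (nat_lit 38) (nat_lit 5) (nat_lit 39) (nat_lit 5) (nat_lit 40)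 (nat_lit 4) (nat_lit 475) (nat_lit 432) (nat_lit 293))))) (XT.nd (nat_lit 312) (nat_lit 304) (nat_lit 0) (XT.nd (nat_lit 156) (nat_lit 76) (nat_lit 0) (XT.nd (nat_lit 78) (nat_lit 152) (nat_lit 0) (XT.lf (nat_lit 0) (nat_lit 261562696605) (nat_lit 152) (nat_lit 9290115806) (nat_lit 0) (nat_lit 101147758952) (nat_lit 38) (nat_lit 5) (nat_lit 40) (nat_lit 4) (nat_lit 38) (nat_lit 4) (nat_lit 476) (nat_lit 432) (nat_lit 292)) (XT.lf (nat_lit 0) (nat_lit 1803806637) (nat_lit 152) (nat_lit 156663268499) (nat_lit 76) (nat_lit 233361673443) (nat_lit 36) (nat_lit 5) (nat_lit 38) (nat_lit 5) (nat_lit 37) (nat_lit 4) (nat_lit 477) (nat_lit 432) (nat_lit 291))) (XT.nd (nat_lit 78) (nat_lit 0) (nat_lit 0) (XT.lf (nat_lit 0) (nat_lit 88009737372) (nat_lit 76) (nat_lit 31425432778) (nat_lit 152) (nat_lit 293388379621) (nat_lit 35) (nat_lit 5) (nat_lit 36) (nat_lit 5) (nat_lit 37) (nat_lit 4) (nat_lit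 478) (nat_lit 432) (nat_lit 290)) (XT.lf (nat_lit 0) (nat_lit 253415374103) (nat_lit 152) (nat_lit 76645110831) (nat_lit 0) (nat_lit 104882383620) (nat_lit 35) (nat_lit 5) (nat_lit 37) (nat_lit 4) (nat_lit 35) (nat_lit 4) (nat_lit 479) (nat_lit 432) (nat_lit 289)))) (XT.nd (nat_lit 156) (nat_lit 76) (nat_lit 0) (XT.nd (nat_lit 78) (nat_lit 152) (nat_lit 0) (XT.lf (nat_lit 0) (nat_lit 200594701700) (nat_lit 76) (nat_lit 203159494139) (nat_lit 76) (nat_lit 54626320889) (nat_lit 34) (nat_lit 4) (nat_lit 35) (nat_lit 5) (nat_lit 35) (nat_lit 4) (nat_lit 480) (nat_lit 432) (nat_lit 288)) (XT.lf (nat_lit 0) (nat_lit 19800022365) (nat_lit 76) (nat_lit 61129479963) (nat_lit 152) (nat_lit 402395013991) (nat_lit 32) (nat_lit 5) (nat_lit 33) (nat_lit 5) (nat_lit 34) (nat_lit 4) (nat_lit 481) (nat_lit 432) (nat_lit 287))) (XT.nd (nat_lit 78) (nat_lit 76) (nat_lit 0) (XT.lf (nat_lit 0) (nat_lit 233828522409)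 (nat_lit 152) (nat_lit 179268501882) (nat_lit 0) (nat_lit 96297504656) (nat_lit 32) (nat_lit 5) (nat_lit 34) (nat_lit 4) (nat_lit 32) (nat_lit 4) (nat_lit 482) (nat_lit 432) (nat_lit 286)) (XT.lf (nat_lit 0) (nat_lit 132781825937) (nat_lit 76) (nat_lit 270958499902) (nat_lit 76) (nat_lit 133427347809) (nat_lit 31) (nat_lit 4) (nat_lit 32) (nat_lit 5) (nat_lit 32) (nat_lit 4) (nat_lit 483) (nat_lit 432) (nat_lit 285))))))))
noncomputable def xc165 : XT := (XT.nd (nat_lit 2184) (nat_lit 608) (nat_lit 0) (XT.nd (nat_lit 1092) (nat_lit 684) (nat_lit 0) (XT.nd (nat_lit 546) (nat_lit 456) (nat_lit 0) (XT.nd (nat_lit 234) (nat_lit 228) (nat_lit 0) (XT.nd (nat_lit 78) (nat_lit 152) (nat_lit 0) (XT.lf (nat_lit 0) (nat_lit 24106308627) (nat_lit 152) (nat_lit 87390154536) (nat_lit 76) (nat_lit 455225287530) (nat_lit 30) (nat_lit 5) (nat_lit 32) (nat_lit 5) (nat_lit 31) (nat_lit 4) (nat_lit 484) (nat_lit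 432) (nat_lit 284)) (XT.nd (nat_lit 78) (nat_lit 76) (nat_lit 0) (XT.lf (nat_lit 0) (nat_lit 195116644619) (nat_lit 152) (nat_lit 334826891838) (nat_lit 0) (nat_lit 67772763457) (nat_lit 29) (nat_lit 5) (nat_lit 31) (nat_lit 4) (nat_lit 29) (nat_lit 4) (nat_lit 485) (nat_lit 432) (nat_lit 283)) (XT.lf (nat_lit 0) (nat_lit 12845959920) (nat_lit 76) (nat_lit 372617971571) (nat_lit 76) (nat_lit 245273991665) (nat_lit 28) (nat_lit 4) (nat_lit 29) (nat_lit 5) (nat_lit 29) (nat_lit 4) (nat_lit 486) (nat_lit 432) (nat_lit 282)))) (XT.nd (nat_lit 156) (nat_lit 76) (nat_lit 0) (XT.nd (nat_lit 78) (nat_lit 152) (nat_lit 0) (XT.lf (nat_lit 0) (nat_lit 407373954211) (nat_lit 76) (nat_lit 192819517862) (nat_lit 76) (nat_lit 65475446526) (nat_lit 28) (nat_lit 4) (nat_lit 29) (nat_lit 5) (nat_lit 29) (nat_lit 4) (nat_lit 487) (nat_lit 432) (nat_lit 281)) (XT.lf (nat_lit 0) (nat_lit 125679452936) (nat_lit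 152) (nat_lit 569426237656) (nat_lit 0) (nat_lit 7768197387) (nat_lit 26) (nat_lit 5) (nat_lit 28) (nat_lit 4) (nat_lit 26) (nat_lit 4) (nat_lit 488) (nat_lit 432) (nat_lit 280))) (XT.nd (nat_lit 78) (nat_lit 76) (nat_lit 0) (XT.lf (nat_lit 0) (nat_lit 340843070992) (nat_lit 152) (nat_lit 178164092068) (nat_lit 0) (nat_lit 222931742864) (nat_lit 26) (nat_lit 5) (nat_lit 28) (nat_lit 4) (nat_lit 26) (nat_lit 4) (nat_lit 489) (nat_lit 432) (nat_lit 279)) (XT.lf (nat_lit 0) (nat_lit 257268099623) (nat_lit 76) (nat_lit 322138728521) (nat_lit 76) (nat_lit 204227333189) (nat_lit 25) (nat_lit 4) (nat_lit 26) (nat_lit 5) (nat_lit 26) (nat_lit 4) (nat_lit 490) (nat_lit 432) (nat_lit 278))))) (XT.nd (nat_lit 234) (nat_lit 304) (nat_lit 0) (XT.nd (nat_lit 78) (nat_lit 76) (nat_lit 0) (XT.lf (nat_lit 0) (nat_lit 12968510253) (nat_lit 152) (nat_lit 90936956229) (nat_lit 76) (nat_lit 724343619406) (nat_lit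 24) (nat_lit 5) (nat_lit 26) (nat_lit 5) (nat_lit 25) (nat_lit 4) (nat_lit 491) (nat_lit 432) (nat_lit 277)) (XT.nd (nat_lit 78) (nat_lit 0) (nat_lit 0) (XT.lf (nat_lit 0) (nat_lit 249528290221) (nat_lit 152) (nat_lit 485087836376) (nat_lit 0) (nat_lit 140350961357) (nat_lit 23) (nat_lit 5) (nat_lit 25) (nat_lit 4) (nat_lit 23) (nat_lit 4) (nat_lit 492) (nat_lit 432) (nat_lit 276)) (XT.lf (nat_lit 0) (nat_lit 510262419843) (nat_lit 152) (nat_lit 13655103380) (nat_lit 0) (nat_lit 401085041583) (nat_lit 23) (nat_lit 5) (nat_lit 25) (nat_lit 4) (nat_lit 23) (nat_lit 4) (nat_lit 493) (nat_lit 432) (nat_lit 275)))) (XT.nd (nat_lit 156) (nat_lit 76) (nat_lit 0) (XT.nd (nat_lit 78) (nat_lit 152) (nat_lit 0) (XT.lf (nat_lit 0) (nat_lit 521583523948) (nat_lit 76) (nat_lit 282815634773) (nat_lit 76) (nat_lit 173638210775) (nat_lit 22) (nat_lit 4) (nat_lit 23) (nat_lit 5) (nat_lit 23) (nat_lit 4) (nat_lit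 494) (nat_lit 432) (nat_lit 274)) (XT.lf (nat_lit 0) (nat_lit 66355576733) (nat_lit 76) (nat_lit 18035309362) (nat_lit 152) (nat_lit 950598866627) (nat_lit 20) (nat_lit 5) (nat_lit 21) (nat_lit 5) (nat_lit 22) (nat_lit 4) (nat_lit 495) (nat_lit 432) (nat_lit 273))) (XT.nd (nat_lit 78) (nat_lit 76) (nat_lit 0) (XT.lf (nat_lit 0) (nat_lit 372929201342) (nat_lit 152) (nat_lit 449829571051) (nat_lit 0) (nat_lit 271838918416) (nat_lit 20) (nat_lit 5) (nat_lit 22) (nat_lit 4) (nat_lit 20) (nat_lit 4) (nat_lit 496) (nat_lit 432) (nat_lit 272)) (XT.lf (nat_lit 0) (nat_lit 115803500657) (nat_lit 76) (nat_lit 572000406886) (nat_lit 76) (nat_lit 470910090342) (nat_lit 19) (nat_lit 4) (nat_lit 20) (nat_lit 5) (nat_lit 20) (nat_lit 4) (nat_lit 497) (nat_lit 432) (nat_lit 271)))))) (XT.nd (nat_lit 546) (nat_lit 304) (nat_lit 0) (XT.nd (nat_lit 234) (nat_lit 228) (nat_lit 0) (XT.nd (nat_lit 78) (nat_lit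 152) (nat_lit 0) (XT.lf (nat_lit 0) (nat_lit 752269022687) (nat_lit 76) (nat_lit 287898509575) (nat_lit 76) (nat_lit 186808161904) (nat_lit 19) (nat_lit 4) (nat_lit 20) (nat_lit 5) (nat_lit 20) (nat_lit 4) (nat_lit 498) (nat_lit 432) (nat_lit 270)) (XT.nd (nat_lit 78) (nat_lit 0) (nat_lit 0) (XT.lf (nat_lit 0) (nat_lit 118082222547) (nat_lit 152) (nat_lit 1157580016362) (nat_lit 0) (nat_lit 24480022089) (nat_lit 17) (nat_lit 5) (nat_lit 19) (nat_lit 4) (nat_lit 17) (nat_lit 4) (nat_lit 499) (nat_lit 432) (nat_lit 269)) (XT.lf (nat_lit 0) (nat_lit 458065489495) (nat_lit 152) (nat_lit 554581694981) (nat_lit 0) (nat_lit 364463264327) (nat_lit 17) (nat_lit 5) (nat_lit 19) (nat_lit 4) (nat_lit 17) (nat_lit 4) (nat_lit 500) (nat_lit 432) (nat_lit 268)))) (XT.nd (nat_lit 156) (nat_lit 152) (nat_lit 0) (XT.nd (nat_lit 78) (nat_lit 0) (nat_lit 0) (XT.lf (nat_lit 0) (nat_lit 101745879404) (nat_lit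 76) (nat_lit 725948357379) (nat_lit 76) (nat_lit 632346109331) (nat_lit 16) (nat_lit 4) (nat_lit 17) (nat_lit 5) (nat_lit 17) (nat_lit 4) (nat_lit 501) (nat_lit 432) (nat_lit 267)) (XT.lf (nat_lit 0) (nat_lit 842118867424) (nat_lit 76) (nat_lit 399937495353) (nat_lit 76) (nat_lit 306335226120) (nat_lit 16) (nat_lit 4) (nat_lit 17) (nat_lit 5) (nat_lit 17) (nat_lit 4) (nat_lit 502) (nat_lit 432) (nat_lit 266))) (XT.nd (nat_lit 78) (nat_lit 76) (nat_lit 0) (XT.lf (nat_lit 0) (nat_lit 43467441868) (nat_lit 152) (nat_lit 3190009763) (nat_lit 76) (nat_lit 1597065456548) (nat_lit 15) (nat_lit 5) (nat_lit 17) (nat_lit 5) (nat_lit 16) (nat_lit 4) (nat_lit 503) (nat_lit 432) (nat_lit 265)) (XT.lf (nat_lit 0) (nat_lit 432398079936) (nat_lit 152) (nat_lit 965701329943) (nat_lit 0) (nat_lit 345729277147) (nat_lit 14) (nat_lit 5) (nat_lit 16) (nat_lit 4) (nat_lit 14) (nat_lit 4) (nat_lit 504) (nat_lit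 432) (nat_lit 264))))) (XT.nd (nat_lit 234) (nat_lit 228) (nat_lit 0) (XT.nd (nat_lit 78) (nat_lit 76) (nat_lit 0) (XT.lf (nat_lit 0) (nat_lit 853744389773) (nat_lit 152) (nat_lit 231018869338) (nat_lit 0) (nat_lit 767075571412) (nat_lit 14) (nat_lit 5) (nat_lit 16) (nat_lit 4) (nat_lit 14) (nat_lit 4) (nat_lit 505) (nat_lit 432) (nat_lit 263)) (XT.nd (nat_lit 78) (nat_lit 0) (nat_lit 0) (XT.lf (nat_lit 0) (nat_lit 592054890626) (nat_lit 76) (nat_lit 730982311901) (nat_lit 76) (nat_lit 644313479122) (nat_lit 13) (nat_lit 4) (nat_lit 14) (nat_lit 5) (nat_lit 14) (nat_lit 4) (nat_lit 506) (nat_lit 432) (nat_lit 262)) (XT.lf (nat_lit 0) (nat_lit 1494112525345) (nat_lit 76) (nat_lit 342077247523) (nat_lit 76) (nat_lit 255408401393) (nat_lit 13) (nat_lit 4) (nat_lit 14) (nat_lit 5) (nat_lit 14) (nat_lit 4) (nat_lit 507) (nat_lit 432) (nat_lit 261)))) (XT.nd (nat_lit 156) (nat_lit 76) (nat_lit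 0) (XT.nd (nat_lit 78) (nat_lit 0) (nat_lit 0) (XT.lf (nat_lit 0) (nat_lit 164548979656) (nat_lit 152) (nat_lit 1975965797018) (nat_lit 0) (nat_lit 84300036609) (nat_lit 11) (nat_lit 5) (nat_lit 13) (nat_lit 4) (nat_lit 11) (nat_lit 4) (nat_lit 508) (nat_lit 432) (nat_lit 260)) (XT.lf (nat_lit 0) (nat_lit 629949897240) (nat_lit 152) (nat_lit 1186455573140) (nat_lit 0) (nat_lit 549700943595) (nat_lit 11) (nat_lit 5) (nat_lit 13) (nat_lit 4) (nat_lit 11) (nat_lit 4) (nat_lit 509) (nat_lit 432) (nat_lit 259))) (XT.nd (nat_lit 78) (nat_lit 76) (nat_lit 0) (XT.lf (nat_lit 0) (nat_lit 1132582771575) (nat_lit 152) (nat_lit 333784772364) (nat_lit 0) (nat_lit 1052333808117) (nat_lit 11) (nat_lit 5) (nat_lit 13) (nat_lit 4) (nat_lit 11) (nat_lit 4) (nat_lit 510) (nat_lit 432) (nat_lit 258)) (XT.lf (nat_lit 0) (nat_lit 618015086939) (nat_lit 76) (nat_lit 1072274358606) (nat_lit 76) (nat_lit 992025386062)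 (nat_lit 10) (nat_lit 4) (nat_lit 11) (nat_lit 5) (nat_lit 11) (nat_lit 4) (nat_lit 511) (nat_lit 432) (nat_lit 257))))))) (XT.nd (nat_lit 1092) (nat_lit 228) (nat_lit 0) (XT.nd (nat_lit 546) (nat_lit 152) (nat_lit 0) (XT.nd (nat_lit 234) (nat_lit 76) (nat_lit 0) (XT.nd (nat_lit 78) (nat_lit 152) (nat_lit 0) (XT.lf (nat_lit 0) (nat_lit 1664941353242) (nat_lit 76) (nat_lit 636797462141) (nat_lit 76) (nat_lit 556548481184) (nat_lit 10) (nat_lit 4) (nat_lit 11) (nat_lit 5) (nat_lit 11) (nat_lit 4) (nat_lit 512) (nat_lit 432) (nat_lit 256)) (XT.nd (nat_lit 78) (nat_lit 152) (nat_lit 0) (XT.lf (nat_lit 0) (nat_lit 2795621519451) (nat_lit 76) (nat_lit 166482517908) (nat_lit 76) (nat_lit 86233529161) (nat_lit 10) (nat_lit 4) (nat_lit 11) (nat_lit 5) (nat_lit 11) (nat_lit 4) (nat_lit 513) (nat_lit 432) (nat_lit 255)) (XT.lf (nat_lit 0) (nat_lit 428645557931) (nat_lit 152) (nat_lit 2467551250798)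 (nat_lit 0) (nat_lit 354340932042) (nat_lit 8) (nat_lit 5) (nat_lit 10) (nat_lit 4) (nat_lit 8) (nat_lit 4) (nat_lit 514) (nat_lit 432) (nat_lit 254)))) (XT.nd (nat_lit 156) (nat_lit 76) (nat_lit 0) (XT.nd (nat_lit 78) (nat_lit 0) (nat_lit 0) (XT.lf (nat_lit 0) (nat_lit 991469427734) (nat_lit 152) (nat_lit 1559187454519) (nat_lit 0) (nat_lit 917164795662) (nat_lit 8) (nat_lit 5) (nat_lit 10) (nat_lit 4) (nat_lit 8) (nat_lit 4) (nat_lit 515) (nat_lit 432) (nat_lit 253)) (XT.lf (nat_lit 0) (nat_lit 1599319121456) (nat_lit 152) (nat_lit 578154731769) (nat_lit 0) (nat_lit 1525014483658) (nat_lit 8) (nat_lit 5) (nat_lit 10) (nat_lit 4) (nat_lit 8) (nat_lit 4) (nat_lit 516) (nat_lit 432) (nat_lit 252))) (XT.nd (nat_lit 78) (nat_lit 0) (nat_lit 0) (XT.lf (nat_lit 0) (nat_lit 506708032671) (nat_lit 76) (nat_lit 1761275019057) (nat_lit 76) (nat_lit 1686970375957) (nat_lit 7) (nat_lit 4) (nat_lit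 8) (nat_lit 5) (nat_lit 8) (nat_lit 4) (nat_lit 517) (nat_lit 432) (nat_lit 251)) (XT.lf (nat_lit 0) (nat_lit 1711239830204) (nat_lit 76) (nat_lit 1294707963872) (nat_lit 76) (nat_lit 1220403315864) (nat_lit 7) (nat_lit 4) (nat_lit 8) (nat_lit 5) (nat_lit 8) (nat_lit 4) (nat_lit 518) (nat_lit 432) (nat_lit 250))))) (XT.nd (nat_lit 234) (nat_lit 0) (nat_lit 0) (XT.nd (nat_lit 78) (nat_lit 152) (nat_lit 0) (XT.lf (nat_lit 0) (nat_lit 3012134023439) (nat_lit 76) (nat_lit 790815620808) (nat_lit 76) (nat_lit 716510968254) (nat_lit 7) (nat_lit 4) (nat_lit 8) (nat_lit 5) (nat_lit 8) (nat_lit 4) (nat_lit 519) (nat_lit 432) (nat_lit 249)) (XT.nd (nat_lit 78) (nat_lit 152) (nat_lit 0) (XT.lf (nat_lit 0) (nat_lit 4417099615002) (nat_lit 76) (nat_lit 246611961164) (nat_lit 76) (nat_lit 172307304401) (nat_lit 7) (nat_lit 4) (nat_lit 8) (nat_lit 5) (nat_lit 8) (nat_lit 4) (nat_lit 520) (nat_lit 432) (nat_lit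 248)) (XT.lf (nat_lit 0) (nat_lit 422506023019) (nat_lit 152) (nat_lit 4398662682998) (nat_lit 0) (nat_lit 353705411298) (nat_lit 5) (nat_lit 5) (nat_lit 7) (nat_lit 4) (nat_lit 5) (nat_lit 4) (nat_lit 521) (nat_lit 432) (nat_lit 247)))) (XT.nd (nat_lit 156) (nat_lit 0) (nat_lit 0) (XT.nd (nat_lit 78) (nat_lit 0) (nat_lit 0) (XT.lf (nat_lit 0) (nat_lit 1073752290723) (nat_lit 152) (nat_lit 3460323209945) (nat_lit 0) (nat_lit 1004951675660) (nat_lit 5) (nat_lit 5) (nat_lit 7) (nat_lit 4) (nat_lit 5) (nat_lit 4) (nat_lit 522) (nat_lit 432) (nat_lit 246)) (XT.lf (nat_lit 0) (nat_lit 1777098201584) (nat_lit 152) (nat_lit 2446916699712) (nat_lit 0) (nat_lit 1708297583428) (nat_lit 5) (nat_lit 5) (nat_lit 7) (nat_lit 4) (nat_lit 5) (nat_lit 4) (nat_lit 523) (nat_lit 432) (nat_lit 245))) (XT.nd (nat_lit 78) (nat_lit 0) (nat_lit 0) (XT.lf (nat_lit 0) (nat_lit 2536711731370) (nat_lit 152) (nat_lit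 1352437780386) (nat_lit 0) (nat_lit 2467911110350) (nat_lit 5) (nat_lit 5) (nat_lit 7) (nat_lit 4) (nat_lit 5) (nat_lit 4) (nat_lit 524) (nat_lit 432) (nat_lit 244)) (XT.lf (nat_lit 0) (nat_lit 3357094293591) (nat_lit 152) (nat_lit 170400650965) (nat_lit 0) (nat_lit 3288293669919) (nat_lit 5) (nat_lit 5) (nat_lit 7) (nat_lit 4) (nat_lit 5) (nat_lit 4) (nat_lit 525) (nat_lit 432) (nat_lit 243)))))) (XT.nd (nat_lit 546) (nat_lit 0) (nat_lit 0) (XT.nd (nat_lit 234) (nat_lit 152) (nat_lit 0) (XT.nd (nat_lit 78) (nat_lit 0) (nat_lit 0) (XT.lf (nat_lit 0) (nat_lit 1164449850599) (nat_lit 76) (nat_lit 3106662610854) (nat_lit 76) (nat_lit 3037861984726) (nat_lit 4) (nat_lit 4) (nat_lit 5) (nat_lit 5) (nat_lit 5) (nat_lit 4) (nat_lit 526) (nat_lit 432) (nat_lit 242)) (XT.nd (nat_lit 78) (nat_lit 0) (nat_lit 0) (XT.lf (nat_lit 0) (nat_lit 2615779134936) (nat_lit 76) (nat_lit 2647131958515) (nat_lit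 76) (nat_lit 2578331330114) (nat_lit 4) (nat_lit 4) (nat_lit 5) (nat_lit 5) (nat_lit 5) (nat_lit 4) (nat_lit 527) (nat_lit 432) (nat_lit 241)) (XT.lf (nat_lit 0) (nat_lit 4183214675573) (nat_lit 76) (nat_lit 2150838898707) (nat_lit 76) (nat_lit 2082038268200) (nat_lit 4) (nat_lit 4) (nat_lit 5) (nat_lit 5) (nat_lit 5) (nat_lit 4) (nat_lit 528) (nat_lit 432) (nat_lit 240)))) (XT.nd (nat_lit 156) (nat_lit 152) (nat_lit 0) (XT.nd (nat_lit 78) (nat_lit 0) (nat_lit 0) (XT.lf (nat_lit 0) (nat_lit 5876044979418) (nat_lit 76) (nat_lit 1614842435519) (nat_lit 76) (nat_lit 1546041803062) (nat_lit 4) (nat_lit 4) (nat_lit 5) (nat_lit 5) (nat_lit 5) (nat_lit 4) (nat_lit 529) (nat_lit 432) (nat_lit 239)) (XT.lf (nat_lit 0) (nat_lit 7704301633456) (nat_lit 76) (nat_lit 1035966293613) (nat_lit 76) (nat_lit 967165659351) (nat_lit 4) (nat_lit 4) (nat_lit 5) (nat_lit 5) (nat_lit 5) (nat_lit 4) (nat_lit 530)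 (nat_lit 432) (nat_lit 238))) (XT.nd (nat_lit 78) (nat_lit 152) (nat_lit 0) (XT.lf (nat_lit 0) (nat_lit 9678818751194) (nat_lit 76) (nat_lit 410780095853) (nat_lit 76) (nat_lit 341979459920) (nat_lit 4) (nat_lit 4) (nat_lit 5) (nat_lit 5) (nat_lit 5) (nat_lit 4) (nat_lit 531) (nat_lit 432) (nat_lit 237)) (XT.lf (nat_lit 0) (nat_lit 338435022362) (nat_lit 152) (nat_lit 10598097136716) (nat_lit 0) (nat_lit 274730728399) (nat_lit 2) (nat_lit 5) (nat_lit 4) (nat_lit 4) (nat_lit 2) (nat_lit 4) (nat_lit 532) (nat_lit 432) (nat_lit 236))))) (XT.nd (nat_lit 312) (nat_lit 0) (nat_lit 0) (XT.nd (nat_lit 156) (nat_lit 0) (nat_lit 0) (XT.nd (nat_lit 78) (nat_lit 0) (nat_lit 0) (XT.lf (nat_lit 0) (nat_lit 1086592843185) (nat_lit 152) (nat_lit 9940587360406) (nat_lit 0) (nat_lit 1022888547895) (nat_lit 2) (nat_lit 5) (nat_lit 4) (nat_lit 4) (nat_lit 2) (nat_lit 4) (nat_lit 533) (nat_lit 432) (nat_lit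 235)) (XT.lf (nat_lit 0) (nat_lit 1894603260547) (nat_lit 152) (nat_lit 9230476862372) (nat_lit 0) (nat_lit 1830898964029) (nat_lit 2) (nat_lit 5) (nat_lit 4) (nat_lit 4) (nat_lit 2) (nat_lit 4) (nat_lit 534) (nat_lit 432) (nat_lit 234))) (XT.nd (nat_lit 78) (nat_lit 0) (nat_lit 0) (XT.lf (nat_lit 0) (nat_lit 2767254484329) (nat_lit 152) (nat_lit 8463557580401) (nat_lit 0) (nat_lit 2703550186673) (nat_lit 2) (nat_lit 5) (nat_lit 4) (nat_lit 4) (nat_lit 2) (nat_lit 4) (nat_lit 535) (nat_lit 432) (nat_lit 233)) (XT.lf (nat_lit 0) (nat_lit 3709717781042) (nat_lit 152) (nat_lit 7635284807639) (nat_lit 0) (nat_lit 3646013482333) (nat_lit 2) (nat_lit 5) (nat_lit 4) (nat_lit 4) (nat_lit 2) (nat_lit 4) (nat_lit 536) (nat_lit 432) (nat_lit 232)))) (XT.nd (nat_lit 156) (nat_lit 0) (nat_lit 0) (XT.nd (nat_lit 78) (nat_lit 0) (nat_lit 0) (XT.lf (nat_lit 0) (nat_lit 4727578118370) (nat_lit 152) (nat_lit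 6740750260986) (nat_lit 0) (nat_lit 4663873818686) (nat_lit 2) (nat_lit 5) (nat_lit 4) (nat_lit 4) (nat_lit 2) (nat_lit 4) (nat_lit 537) (nat_lit 432) (nat_lit 231)) (XT.lf (nat_lit 0) (nat_lit 5826867261275) (nat_lit 152) (nat_lit 5774652994983) (nat_lit 0) (nat_lit 5763162960688) (nat_lit 2) (nat_lit 5) (nat_lit 4) (nat_lit 4) (nat_lit 2) (nat_lit 4) (nat_lit 538) (nat_lit 432) (nat_lit 230))) (XT.nd (nat_lit 78) (nat_lit 0) (nat_lit 0) (XT.lf (nat_lit 0) (nat_lit 7014099515789) (nat_lit 152) (nat_lit 4731267988792) (nat_lit 0) (nat_lit 6950395214366) (nat_lit 2) (nat_lit 5) (nat_lit 4) (nat_lit 4) (nat_lit 2) (nat_lit 4) (nat_lit 539) (nat_lit 432) (nat_lit 229)) (XT.lf (nat_lit 0) (nat_lit 8296310332310) (nat_lit 152) (nat_lit 3604412220155) (nat_lit 0) (nat_lit 8232606030113) (nat_lit 2) (nat_lit 5) (nat_lit 4) (nat_lit 4) (nat_lit 2) (nat_lit 4) (nat_lit 540) (nat_lit 432) (nat_lit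 228))))))))
noncomputable def xc166 : XT := (XT.nd (nat_lit 2184) (nat_lit 2204) (nat_lit 0) (XT.nd (nat_lit 1092) (nat_lit 1520) (nat_lit 0) (XT.nd (nat_lit 546) (nat_lit 836) (nat_lit 0) (XT.nd (nat_lit 234) (nat_lit 0) (nat_lit 76) (XT.nd (nat_lit 78) (nat_lit 532) (nat_lit 0) (XT.lf (nat_lit 0) (nat_lit 25289676079) (nat_lit 532) (nat_lit 224614232) (nat_lit 532) (nat_lit 224614232) (nat_lit 93) (nat_lit 3) (nat_lit 100) (nat_lit 3) (nat_lit 100) (nat_lit 5) (nat_lit 433) (nat_lit 433) (nat_lit 334)) (XT.nd (nat_lit 78) (nat_lit 532) (nat_lit 0) (XT.lf (nat_lit 76) (nat_lit 26513080971) (nat_lit 0) (nat_lit 26750418878) (nat_lit 532) (nat_lit 220540600) (nat_lit 94) (nat_lit 5) (nat_lit 93) (nat_lit 3) (nat_lit 100) (nat_lit 5) (nat_lit 434) (nat_lit 433) (nat_lit 333)) (XT.lf (nat_lit 0) (nat_lit 496189874) (nat_lit 532) (nat_lit 5943066) (nat_lit 608) (nat_lit 55146839444) (nat_lit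 86) (nat_lit 5) (nat_lit 93) (nat_lit 3) (nat_lit 94) (nat_lit 5) (nat_lit 435) (nat_lit 433) (nat_lit 332)))) (XT.nd (nat_lit 156) (nat_lit 0) (nat_lit 76) (XT.nd (nat_lit 78) (nat_lit 0) (nat_lit 0) (XT.lf (nat_lit 0) (nat_lit 2682046479) (nat_lit 532) (nat_lit 27974836892) (nat_lit 608) (nat_lit 27215861295) (nat_lit 87) (nat_lit 5) (nat_lit 94) (nat_lit 5) (nat_lit 95) (nat_lit 5) (nat_lit 436) (nat_lit 433) (nat_lit 331)) (XT.lf (nat_lit 76) (nat_lit 2005788003) (nat_lit 0) (nat_lit 3096337903) (nat_lit 608) (nat_lit 55167544728) (nat_lit 88) (nat_lit 5) (nat_lit 87) (nat_lit 5) (nat_lit 95) (nat_lit 5) (nat_lit 437) (nat_lit 433) (nat_lit 330))) (XT.nd (nat_lit 78) (nat_lit 0) (nat_lit 0) (XT.lf (nat_lit 0) (nat_lit 9139989779) (nat_lit 532) (nat_lit 27484236228) (nat_lit 608) (nat_lit 26120190654) (nat_lit 88) (nat_lit 5) (nat_lit 95) (nat_lit 5) (nat_lit 96) (nat_lit 5) (nat_lit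 438) (nat_lit 433) (nat_lit 329)) (XT.lf (nat_lit 76) (nat_lit 5974724137) (nat_lit 0) (nat_lit 7748458666) (nat_lit 608) (nat_lit 51676175775) (nat_lit 89) (nat_lit 5) (nat_lit 88) (nat_lit 5) (nat_lit 96) (nat_lit 5) (nat_lit 439) (nat_lit 433) (nat_lit 328))))) (XT.nd (nat_lit 234) (nat_lit 532) (nat_lit 0) (XT.nd (nat_lit 78) (nat_lit 532) (nat_lit 0) (XT.lf (nat_lit 0) (nat_lit 20005975295) (nat_lit 532) (nat_lit 25117930594) (nat_lit 76) (nat_lit 23036154635) (nat_lit 89) (nat_lit 5) (nat_lit 96) (nat_lit 5) (nat_lit 90) (nat_lit 5) (nat_lit 440) (nat_lit 433) (nat_lit 327)) (XT.nd (nat_lit 78) (nat_lit 0) (nat_lit 0) (XT.lf (nat_lit 0) (nat_lit 12348262472) (nat_lit 532) (nat_lit 14939778523) (nat_lit 608) (nat_lit 43813845828) (nat_lit 82) (nat_lit 5) (nat_lit 89) (nat_lit 5) (nat_lit 90) (nat_lit 5) (nat_lit 441) (nat_lit 433) (nat_lit 326)) (XT.lf (nat_lit 0) (nat_lit 36280478523)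 (nat_lit 608) (nat_lit 20428009171) (nat_lit 76) (nat_lit 17480347173) (nat_lit 82) (nat_lit 5) (nat_lit 90) (nat_lit 5) (nat_lit 83) (nat_lit 5) (nat_lit 442) (nat_lit 433) (nat_lit 325)))) (XT.nd (nat_lit 156) (nat_lit 304) (nat_lit 0) (XT.nd (nat_lit 78) (nat_lit 0) (nat_lit 0) (XT.lf (nat_lit 0) (nat_lit 21657542214) (nat_lit 228) (nat_lit 25242289088) (nat_lit 304) (nat_lit 30550305989) (nat_lit 79) (nat_lit 5) (nat_lit 82) (nat_lit 5) (nat_lit 83) (nat_lit 5) (nat_lit 443) (nat_lit 433) (nat_lit 324)) (XT.lf (nat_lit 0) (nat_lit 59150679703) (nat_lit 304) (nat_lit 12882228895) (nat_lit 76) (nat_lit 8876879663) (nat_lit 79) (nat_lit 5) (nat_lit 83) (nat_lit 5) (nat_lit 80) (nat_lit 5) (nat_lit 444) (nat_lit 433) (nat_lit 323))) (XT.nd (nat_lit 78) (nat_lit 76) (nat_lit 0) (XT.lf (nat_lit 0) (nat_lit 34531300589) (nat_lit 228) (nat_lit 39335191707) (nat_lit 304) (nat_lit 10660927441)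 (nat_lit 76) (nat_lit 5) (nat_lit 79) (nat_lit 5) (nat_lit 80) (nat_lit 5) (nat_lit 445) (nat_lit 433) (nat_lit 322)) (XT.lf (nat_lit 0) (nat_lit 1618993468) (nat_lit 304) (nat_lit 1978210212) (nat_lit 76) (nat_lit 84805894849) (nat_lit 75) (nat_lit 5) (nat_lit 79) (nat_lit 5) (nat_lit 76) (nat_lit 5) (nat_lit 446) (nat_lit 433) (nat_lit 321)))))) (XT.nd (nat_lit 546) (nat_lit 532) (nat_lit 0) (XT.nd (nat_lit 234) (nat_lit 532) (nat_lit 0) (XT.nd (nat_lit 78) (nat_lit 228) (nat_lit 0) (XT.lf (nat_lit 0) (nat_lit 16441551013) (nat_lit 304) (nat_lit 41132970959) (nat_lit 76) (nat_lit 34821260384) (nat_lit 72) (nat_lit 5) (nat_lit 76) (nat_lit 5) (nat_lit 73) (nat_lit 5) (nat_lit 447) (nat_lit 433) (nat_lit 320)) (XT.nd (nat_lit 78) (nat_lit 0) (nat_lit 0) (XT.lf (nat_lit 0) (nat_lit 12711734074) (nat_lit 228) (nat_lit 20191757881) (nat_lit 304) (nat_lit 63768102730) (nat_lit 69) (nat_lit 5)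 (nat_lit 72) (nat_lit 5) (nat_lit 73) (nat_lit 5) (nat_lit 448) (nat_lit 433) (nat_lit 319)) (XT.lf (nat_lit 0) (nat_lit 52320590099) (nat_lit 304) (nat_lit 28512218085) (nat_lit 76) (nat_lit 20325607753) (nat_lit 69) (nat_lit 5) (nat_lit 73) (nat_lit 5) (nat_lit 70) (nat_lit 5) (nat_lit 449) (nat_lit 433) (nat_lit 318)))) (XT.nd (nat_lit 156) (nat_lit 380) (nat_lit 0) (XT.nd (nat_lit 78) (nat_lit 0) (nat_lit 0) (XT.lf (nat_lit 0) (nat_lit 32469725377) (nat_lit 152) (nat_lit 42125739024) (nat_lit 228) (nat_lit 31304365910) (nat_lit 67) (nat_lit 5) (nat_lit 69) (nat_lit 5) (nat_lit 70) (nat_lit 5) (nat_lit 450) (nat_lit 433) (nat_lit 317)) (XT.lf (nat_lit 0) (nat_lit 99443485288) (nat_lit 228) (nat_lit 11020301594) (nat_lit 76) (nat_lit 493478496) (nat_lit 67) (nat_lit 5) (nat_lit 70) (nat_lit 5) (nat_lit 68) (nat_lit 5) (nat_lit 451) (nat_lit 433) (nat_lit 316))) (XT.nd (nat_lit 78) (nat_lit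 152) (nat_lit 0) (XT.lf (nat_lit 0) (nat_lit 11924556385) (nat_lit 228) (nat_lit 58323571635) (nat_lit 76) (nat_lit 45947577054) (nat_lit 64) (nat_lit 5) (nat_lit 67) (nat_lit 5) (nat_lit 65) (nat_lit 5) (nat_lit 452) (nat_lit 433) (nat_lit 315)) (XT.lf (nat_lit 0) (nat_lit 11332326109) (nat_lit 152) (nat_lit 25864434828) (nat_lit 228) (nat_lit 84586066786) (nat_lit 62) (nat_lit 5) (nat_lit 64) (nat_lit 5) (nat_lit 65) (nat_lit 5) (nat_lit 453) (nat_lit 433) (nat_lit 314))))) (XT.nd (nat_lit 234) (nat_lit 380) (nat_lit 0) (XT.nd (nat_lit 78) (nat_lit 152) (nat_lit 0) (XT.lf (nat_lit 0) (nat_lit 66656797775) (nat_lit 228) (nat_lit 38385223174) (nat_lit 76) (nat_lit 22601614817) (nat_lit 62) (nat_lit 5) (nat_lit 65) (nat_lit 5) (nat_lit 63) (nat_lit 5) (nat_lit 454) (nat_lit 433) (nat_lit 313)) (XT.nd (nat_lit 78) (nat_lit 0) (nat_lit 0) (XT.lf (nat_lit 0) (nat_lit 40813966404) (nat_lit 152)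 (nat_lit 59312295233) (nat_lit 228) (nat_lit 33714836943) (nat_lit 60) (nat_lit 5) (nat_lit 62) (nat_lit 5) (nat_lit 63) (nat_lit 5) (nat_lit 455) (nat_lit 433) (nat_lit 312)) (XT.lf (nat_lit 0) (nat_lit 128530935339) (nat_lit 152) (nat_lit 8791139184) (nat_lit 228) (nat_lit 3128380593) (nat_lit 60) (nat_lit 5) (nat_lit 62) (nat_lit 5) (nat_lit 63) (nat_lit 5) (nat_lit 456) (nat_lit 433) (nat_lit 311)))) (XT.nd (nat_lit 156) (nat_lit 76) (nat_lit 0) (XT.nd (nat_lit 78) (nat_lit 152) (nat_lit 0) (XT.lf (nat_lit 0) (nat_lit 31474732227) (nat_lit 152) (nat_lit 69644590971) (nat_lit 76) (nat_lit 46166443052) (nat_lit 58) (nat_lit 5) (nat_lit 60) (nat_lit 5) (nat_lit 59) (nat_lit 5) (nat_lit 457) (nat_lit 433) (nat_lit 310)) (XT.lf (nat_lit 0) (nat_lit 21141148849) (nat_lit 152) (nat_lit 48606407162) (nat_lit 228) (nat_lit 84828207712) (nat_lit 56) (nat_lit 5) (nat_lit 58) (nat_lit 5) (nat_lit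 59) (nat_lit 5) (nat_lit 458) (nat_lit 433) (nat_lit 309))) (XT.nd (nat_lit 78) (nat_lit 76) (nat_lit 0) (XT.lf (nat_lit 0) (nat_lit 113230195438) (nat_lit 228) (nat_lit 39391710222) (nat_lit 76) (nat_lit 9655216191) (nat_lit 56) (nat_lit 5) (nat_lit 59) (nat_lit 5) (nat_lit 57) (nat_lit 4) (nat_lit 459) (nat_lit 433) (nat_lit 308)) (XT.lf (nat_lit 0) (nat_lit 64118539223) (nat_lit 76) (nat_lit 98876849128) (nat_lit 152) (nat_lit 7374884925) (nat_lit 55) (nat_lit 5) (nat_lit 56) (nat_lit 5) (nat_lit 57) (nat_lit 4) (nat_lit 460) (nat_lit 433) (nat_lit 307))))))) (XT.nd (nat_lit 1092) (nat_lit 1064) (nat_lit 0) (XT.nd (nat_lit 546) (nat_lit 532) (nat_lit 0) (XT.nd (nat_lit 234) (nat_lit 304) (nat_lit 0) (XT.nd (nat_lit 78) (nat_lit 228) (nat_lit 0) (XT.lf (nat_lit 0) (nat_lit 36852874294) (nat_lit 152) (nat_lit 1808921113) (nat_lit 76) (nat_lit 140288327040) (nat_lit 54) (nat_lit 5) (nat_lit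 56) (nat_lit 5) (nat_lit 55) (nat_lit 5) (nat_lit 461) (nat_lit 433) (nat_lit 306)) (XT.nd (nat_lit 78) (nat_lit 76) (nat_lit 0) (XT.lf (nat_lit 0) (nat_lit 87736869438) (nat_lit 228) (nat_lit 72057570078) (nat_lit 76) (nat_lit 28125279583) (nat_lit 52) (nat_lit 5) (nat_lit 55) (nat_lit 5) (nat_lit 53) (nat_lit 4) (nat_lit 462) (nat_lit 433) (nat_lit 305)) (XT.lf (nat_lit 0) (nat_lit 46780528798) (nat_lit 76) (nat_lit 98090519726) (nat_lit 152) (nat_lit 52561477837) (nat_lit 51) (nat_lit 5) (nat_lit 52) (nat_lit 5) (nat_lit 53) (nat_lit 4) (nat_lit 463) (nat_lit 433) (nat_lit 304)))) (XT.nd (nat_lit 156) (nat_lit 76) (nat_lit 0) (XT.nd (nat_lit 78) (nat_lit 152) (nat_lit 0) (XT.lf (nat_lit 0) (nat_lit 946955148) (nat_lit 152) (nat_lit 28350070261) (nat_lit 76) (nat_lit 178249843349) (nat_lit 50) (nat_lit 5) (nat_lit 52) (nat_lit 5) (nat_lit 51) (nat_lit 5) (nat_lit 464) (nat_lit 433) (nat_lit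 303)) (XT.lf (nat_lit 0) (nat_lit 59672525727) (nat_lit 228) (nat_lit 111578390957) (nat_lit 76) (nat_lit 46808131387) (nat_lit 48) (nat_lit 5) (nat_lit 51) (nat_lit 5) (nat_lit 49) (nat_lit 4) (nat_lit 465) (nat_lit 433) (nat_lit 302))) (XT.nd (nat_lit 78) (nat_lit 0) (nat_lit 0) (XT.lf (nat_lit 0) (nat_lit 24819496767) (nat_lit 76) (nat_lit 100429287646) (nat_lit 152) (nat_lit 103991205937) (nat_lit 47) (nat_lit 5) (nat_lit 48) (nat_lit 5) (nat_lit 49) (nat_lit 4) (nat_lit 466) (nat_lit 433) (nat_lit 301)) (XT.lf (nat_lit 0) (nat_lit 178473875301) (nat_lit 76) (nat_lit 20647531601) (nat_lit 152) (nat_lit 41949980077) (nat_lit 47) (nat_lit 5) (nat_lit 48) (nat_lit 5) (nat_lit 49) (nat_lit 4) (nat_lit 467) (nat_lit 433) (nat_lit 300))))) (XT.nd (nat_lit 234) (nat_lit 304) (nat_lit 0) (XT.nd (nat_lit 78) (nat_lit 76) (nat_lit 0) (XT.lf (nat_lit 0) (nat_lit 27728900085) (nat_lit 152) (nat_lit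 160563959312) (nat_lit 76) (nat_lit 65194016087) (nat_lit 45) (nat_lit 5) (nat_lit 47) (nat_lit 5) (nat_lit 46) (nat_lit 4) (nat_lit 468) (nat_lit 433) (nat_lit 299)) (XT.nd (nat_lit 78) (nat_lit 76) (nat_lit 0) (XT.lf (nat_lit 0) (nat_lit 103007525174) (nat_lit 152) (nat_lit 3984955949) (nat_lit 76) (nat_lit 159632607325) (nat_lit 45) (nat_lit 5) (nat_lit 47) (nat_lit 5) (nat_lit 46) (nat_lit 4) (nat_lit 469) (nat_lit 433) (nat_lit 298)) (XT.lf (nat_lit 0) (nat_lit 173814470913) (nat_lit 76) (nat_lit 14673786916) (nat_lit 152) (nat_lit 91991715229) (nat_lit 44) (nat_lit 5) (nat_lit 45) (nat_lit 5) (nat_lit 46) (nat_lit 4) (nat_lit 470) (nat_lit 433) (nat_lit 297)))) (XT.nd (nat_lit 156) (nat_lit 152) (nat_lit 0) (XT.nd (nat_lit 78) (nat_lit 76) (nat_lit 0) (XT.lf (nat_lit 0) (nat_lit 72192701587) (nat_lit 76) (nat_lit 212507331911) (nat_lit 76) (nat_lit 10431808196) (nat_lit 43) (nat_lit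 4) (nat_lit 44) (nat_lit 5) (nat_lit 44) (nat_lit 4) (nat_lit 471) (nat_lit 433) (nat_lit 296)) (XT.lf (nat_lit 0) (nat_lit 77141272600) (nat_lit 152) (nat_lit 41622071286) (nat_lit 76) (nat_lit 191773280167) (nat_lit 42) (nat_lit 5) (nat_lit 44) (nat_lit 5) (nat_lit 43) (nat_lit 4) (nat_lit 472) (nat_lit 433) (nat_lit 295))) (XT.nd (nat_lit 78) (nat_lit 76) (nat_lit 0) (XT.lf (nat_lit 0) (nat_lit 162034271061) (nat_lit 76) (nat_lit 13018880242) (nat_lit 152) (nat_lit 151787238021) (nat_lit 41) (nat_lit 5) (nat_lit 42) (nat_lit 5) (nat_lit 43) (nat_lit 4) (nat_lit 473) (nat_lit 433) (nat_lit 294)) (XT.lf (nat_lit 0) (nat_lit 39505186916) (nat_lit 76) (nat_lit 245843594065) (nat_lit 76) (nat_lit 58735610787) (nat_lit 40) (nat_lit 4) (nat_lit 41) (nat_lit 5) (nat_lit 41) (nat_lit 4) (nat_lit 474) (nat_lit 433) (nat_lit 293)))))) (XT.nd (nat_lit 546) (nat_lit 608) (nat_lit 0) (XT.nd (nat_lit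 234) (nat_lit 304) (nat_lit 0) (XT.nd (nat_lit 78) (nat_lit 76) (nat_lit 0) (XT.lf (nat_lit 0) (nat_lit 44632036348) (nat_lit 152) (nat_lit 94273637702) (nat_lit 76) (nat_lit 223325021652) (nat_lit 39) (nat_lit 5) (nat_lit 41) (nat_lit 5) (nat_lit 40) (nat_lit 4) (nat_lit 475) (nat_lit 433) (nat_lit 292)) (XT.nd (nat_lit 78) (nat_lit 0) (nat_lit 0) (XT.lf (nat_lit 0) (nat_lit 138245688901) (nat_lit 76) (nat_lit 18174614345) (nat_lit 152) (nat_lit 225020396163) (nat_lit 38) (nat_lit 5) (nat_lit 39) (nat_lit 5) (nat_lit 40) (nat_lit 4) (nat_lit 476) (nat_lit 433) (nat_lit 291)) (XT.lf (nat_lit 0) (nat_lit 282494608955) (nat_lit 152) (nat_lit 10019727411) (nat_lit 0) (nat_lit 109245728857) (nat_lit 38) (nat_lit 5) (nat_lit 40) (nat_lit 4) (nat_lit 38) (nat_lit 4) (nat_lit 477) (nat_lit 433) (nat_lit 290)))) (XT.nd (nat_lit 156) (nat_lit 76) (nat_lit 0) (XT.nd (nat_lit 78) (nat_lit 76) (nat_lit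 0) (XT.lf (nat_lit 0) (nat_lit 1954989922) (nat_lit 152) (nat_lit 169182714239) (nat_lit 76) (nat_lit 252036793901) (nat_lit 36) (nat_lit 5) (nat_lit 38) (nat_lit 5) (nat_lit 37) (nat_lit 4) (nat_lit 478) (nat_lit 433) (nat_lit 289)) (XT.lf (nat_lit 0) (nat_lit 95063787400) (nat_lit 76) (nat_lit 33932884747) (nat_lit 152) (nat_lit 316852226440) (nat_lit 35) (nat_lit 5) (nat_lit 36) (nat_lit 5) (nat_lit 37) (nat_lit 4) (nat_lit 479) (nat_lit 433) (nat_lit 288))) (XT.nd (nat_lit 78) (nat_lit 76) (nat_lit 0) (XT.lf (nat_lit 0) (nat_lit 273694943567) (nat_lit 152) (nat_lit 82764082762) (nat_lit 0) (nat_lit 113278764460) (nat_lit 35) (nat_lit 5) (nat_lit 37) (nat_lit 4) (nat_lit 35) (nat_lit 4) (nat_lit 480) (nat_lit 433) (nat_lit 287)) (XT.lf (nat_lit 0) (nat_lit 216654594850) (nat_lit 76) (nat_lit 219406102822) (nat_lit 76) (nat_lit 58989767021) (nat_lit 34) (nat_lit 4) (nat_lit 35) (nat_lit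 5) (nat_lit 35) (nat_lit 4) (nat_lit 481) (nat_lit 433) (nat_lit 286))))) (XT.nd (nat_lit 312) (nat_lit 304) (nat_lit 0) (XT.nd (nat_lit 156) (nat_lit 152) (nat_lit 0) (XT.nd (nat_lit 78) (nat_lit 0) (nat_lit 0) (XT.lf (nat_lit 0) (nat_lit 21396354122) (nat_lit 76) (nat_lit 66013662709) (nat_lit 152) (nat_lit 434579968379) (nat_lit 32) (nat_lit 5) (nat_lit 33) (nat_lit 5) (nat_lit 34) (nat_lit 4) (nat_lit 482) (nat_lit 433) (nat_lit 285)) (XT.lf (nat_lit 0) (nat_lit 252540640165) (nat_lit 152) (nat_lit 193598246978) (nat_lit 0) (nat_lit 104006737177) (nat_lit 32) (nat_lit 5) (nat_lit 34) (nat_lit 4) (nat_lit 32) (nat_lit 4) (nat_lit 483) (nat_lit 433) (nat_lit 284))) (XT.nd (nat_lit 78) (nat_lit 76) (nat_lit 0) (XT.lf (nat_lit 0) (nat_lit 143415809976) (nat_lit 76) (nat_lit 292629420683) (nat_lit 76) (nat_lit 144095402521) (nat_lit 31) (nat_lit 4) (nat_lit 32) (nat_lit 5) (nat_lit 32) (nat_lit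 4) (nat_lit 484) (nat_lit 433) (nat_lit 283)) (XT.lf (nat_lit 0) (nat_lit 26040208049) (nat_lit 152) (nat_lit 94370492063) (nat_lit 76) (nat_lit 491648359007) (nat_lit 30) (nat_lit 5) (nat_lit 32) (nat_lit 5) (nat_lit 31) (nat_lit 4) (nat_lit 485) (nat_lit 433) (nat_lit 282)))) (XT.nd (nat_lit 156) (nat_lit 152) (nat_lit 0) (XT.nd (nat_lit 78) (nat_lit 76) (nat_lit 0) (XT.lf (nat_lit 0) (nat_lit 210731354885) (nat_lit 152) (nat_lit 361602152266) (nat_lit 0) (nat_lit 73199666413) (nat_lit 29) (nat_lit 5) (nat_lit 31) (nat_lit 4) (nat_lit 29) (nat_lit 4) (nat_lit 486) (nat_lit 433) (nat_lit 281)) (XT.lf (nat_lit 0) (nat_lit 13884251913) (nat_lit 76) (nat_lit 402422029667) (nat_lit 76) (nat_lit 264890256538) (nat_lit 28) (nat_lit 4) (nat_lit 29) (nat_lit 5) (nat_lit 29) (nat_lit 4) (nat_lit 487) (nat_lit 433) (nat_lit 280))) (XT.nd (nat_lit 78) (nat_lit 152) (nat_lit 0) (XT.lf (nat_lit 0) (nat_lit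 439973699437) (nat_lit 76) (nat_lit 208240098152) (nat_lit 76) (nat_lit 70708246637) (nat_lit 28) (nat_lit 4) (nat_lit 29) (nat_lit 5) (nat_lit 29) (nat_lit 4) (nat_lit 488) (nat_lit 433) (nat_lit 279)) (XT.lf (nat_lit 0) (nat_lit 135738771088) (nat_lit 152) (nat_lit 614970234014) (nat_lit 0) (nat_lit 8394396927) (nat_lit 26) (nat_lit 5) (nat_lit 28) (nat_lit 4) (nat_lit 26) (nat_lit 4) (nat_lit 489) (nat_lit 433) (nat_lit 278))))))))
noncomputable def xc167 : XT := (XT.nd (nat_lit 2184) (nat_lit 456) (nat_lit 0) (XT.nd (nat_lit 1092) (nat_lit 608) (nat_lit 0) (XT.nd (nat_lit 546) (nat_lit 304) (nat_lit 0) (XT.nd (nat_lit 234) (nat_lit 304) (nat_lit 0) (XT.nd (nat_lit 78) (nat_lit 152) (nat_lit 0) (XT.lf (nat_lit 0) (nat_lit 368115111039) (nat_lit 152) (nat_lit 192407865123) (nat_lit 0) (nat_lit 240770674653) (nat_lit 26) (nat_lit 5) (nat_lit 28) (nat_lit 4) (nat_lit 26) (nat_lit 4) (nat_lit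 490) (nat_lit 433) (nat_lit 277)) (XT.nd (nat_lit 78) (nat_lit 76) (nat_lit 0) (XT.lf (nat_lit 0) (nat_lit 277858665085) (nat_lit 76) (nat_lit 347905182631) (nat_lit 76) (nat_lit 220560688628) (nat_lit 25) (nat_lit 4) (nat_lit 26) (nat_lit 5) (nat_lit 26) (nat_lit 4) (nat_lit 491) (nat_lit 433) (nat_lit 276)) (XT.lf (nat_lit 0) (nat_lit 14010240646) (nat_lit 152) (nat_lit 98203246805) (nat_lit 76) (nat_lit 782295185317) (nat_lit 24) (nat_lit 5) (nat_lit 26) (nat_lit 5) (nat_lit 25) (nat_lit 4) (nat_lit 492) (nat_lit 433) (nat_lit 275)))) (XT.nd (nat_lit 156) (nat_lit 228) (nat_lit 0) (XT.nd (nat_lit 78) (nat_lit 0) (nat_lit 0) (XT.lf (nat_lit 0) (nat_lit 269494794990) (nat_lit 152) (nat_lit 523886189318) (nat_lit 0) (nat_lit 151583131335) (nat_lit 23) (nat_lit 5) (nat_lit 25) (nat_lit 4) (nat_lit 23) (nat_lit 4) (nat_lit 493) (nat_lit 433) (nat_lit 274)) (XT.lf (nat_lit 0) (nat_lit 551087340793)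 (nat_lit 152) (nat_lit 14739480198) (nat_lit 0) (nat_lit 433175634788) (nat_lit 23) (nat_lit 5) (nat_lit 25) (nat_lit 4) (nat_lit 23) (nat_lit 4) (nat_lit 494) (nat_lit 433) (nat_lit 273))) (XT.nd (nat_lit 78) (nat_lit 152) (nat_lit 0) (XT.lf (nat_lit 0) (nat_lit 563318033989) (nat_lit 76) (nat_lit 305436882143) (nat_lit 76) (nat_lit 187525136926) (nat_lit 22) (nat_lit 4) (nat_lit 23) (nat_lit 5) (nat_lit 23) (nat_lit 4) (nat_lit 495) (nat_lit 433) (nat_lit 272)) (XT.lf (nat_lit 0) (nat_lit 71671854238) (nat_lit 76) (nat_lit 19474124493) (nat_lit 152) (nat_lit 1026642648452) (nat_lit 20) (nat_lit 5) (nat_lit 21) (nat_lit 5) (nat_lit 22) (nat_lit 4) (nat_lit 496) (nat_lit 433) (nat_lit 271))))) (XT.nd (nat_lit 234) (nat_lit 228) (nat_lit 0) (XT.nd (nat_lit 78) (nat_lit 76) (nat_lit 0) (XT.lf (nat_lit 0) (nat_lit 402767165393) (nat_lit 152) (nat_lit 485808491650) (nat_lit 0) (nat_lit 293589558779)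 (nat_lit 20) (nat_lit 5) (nat_lit 22) (nat_lit 4) (nat_lit 20) (nat_lit 4) (nat_lit 497) (nat_lit 433) (nat_lit 270)) (XT.nd (nat_lit 78) (nat_lit 0) (nat_lit 0) (XT.lf (nat_lit 0) (nat_lit 125075037312) (nat_lit 76) (nat_lit 617756716563) (nat_lit 76) (nat_lit 508579081127) (nat_lit 19) (nat_lit 4) (nat_lit 20) (nat_lit 5) (nat_lit 20) (nat_lit 4) (nat_lit 498) (nat_lit 433) (nat_lit 269)) (XT.lf (nat_lit 0) (nat_lit 812457263578) (nat_lit 76) (nat_lit 310926943237) (nat_lit 76) (nat_lit 201749281113) (nat_lit 19) (nat_lit 4) (nat_lit 20) (nat_lit 5) (nat_lit 20) (nat_lit 4) (nat_lit 499) (nat_lit 433) (nat_lit 268)))) (XT.nd (nat_lit 156) (nat_lit 76) (nat_lit 0) (XT.nd (nat_lit 78) (nat_lit 0) (nat_lit 0) (XT.lf (nat_lit 0) (nat_lit 127532153309) (nat_lit 152) (nat_lit 1250179517785) (nat_lit 0) (nat_lit 26441702536) (nat_lit 17) (nat_lit 5) (nat_lit 19) (nat_lit 4) (nat_lit 17) (nat_lit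 4) (nat_lit 500) (nat_lit 433) (nat_lit 267)) (XT.lf (nat_lit 0) (nat_lit 494713833245) (nat_lit 152) (nat_lit 598941841797) (nat_lit 0) (nat_lit 393623361288) (nat_lit 17) (nat_lit 5) (nat_lit 19) (nat_lit 4) (nat_lit 17) (nat_lit 4) (nat_lit 501) (nat_lit 433) (nat_lit 266))) (XT.nd (nat_lit 78) (nat_lit 0) (nat_lit 0) (XT.lf (nat_lit 0) (nat_lit 109891776798) (nat_lit 76) (nat_lit 784021023309) (nat_lit 76) (nat_lit 682930531735) (nat_lit 16) (nat_lit 4) (nat_lit 17) (nat_lit 5) (nat_lit 17) (nat_lit 4) (nat_lit 502) (nat_lit 433) (nat_lit 265)) (XT.lf (nat_lit 0) (nat_lit 909494142598) (nat_lit 76) (nat_lit 431929529555) (nat_lit 76) (nat_lit 330839019818) (nat_lit 16) (nat_lit 4) (nat_lit 17) (nat_lit 5) (nat_lit 17) (nat_lit 4) (nat_lit 503) (nat_lit 433) (nat_lit 264)))))) (XT.nd (nat_lit 546) (nat_lit 228) (nat_lit 0) (XT.nd (nat_lit 234) (nat_lit 228) (nat_lit 0) (XT.nd (nat_lit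 78) (nat_lit 76) (nat_lit 0) (XT.lf (nat_lit 0) (nat_lit 46947497493) (nat_lit 152) (nat_lit 3439731766) (nat_lit 76) (nat_lit 1724833298744) (nat_lit 15) (nat_lit 5) (nat_lit 17) (nat_lit 5) (nat_lit 16) (nat_lit 4) (nat_lit 504) (nat_lit 433) (nat_lit 263)) (XT.nd (nat_lit 78) (nat_lit 0) (nat_lit 0) (XT.lf (nat_lit 0) (nat_lit 466992584078) (nat_lit 152) (nat_lit 1042951955023) (nat_lit 0) (nat_lit 373390230258) (nat_lit 14) (nat_lit 5) (nat_lit 16) (nat_lit 4) (nat_lit 14) (nat_lit 4) (nat_lit 505) (nat_lit 433) (nat_lit 262)) (XT.lf (nat_lit 0) (nat_lit 922046401832) (nat_lit 152) (nat_lit 249495303593) (nat_lit 0) (nat_lit 828444034662) (nat_lit 14) (nat_lit 5) (nat_lit 16) (nat_lit 4) (nat_lit 14) (nat_lit 4) (nat_lit 506) (nat_lit 433) (nat_lit 261)))) (XT.nd (nat_lit 156) (nat_lit 152) (nat_lit 0) (XT.nd (nat_lit 78) (nat_lit 0) (nat_lit 0) (XT.lf (nat_lit 0) (nat_lit 639424228679)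 (nat_lit 76) (nat_lit 789458347611) (nat_lit 76) (nat_lit 695855968079) (nat_lit 13) (nat_lit 4) (nat_lit 14) (nat_lit 5) (nat_lit 14) (nat_lit 4) (nat_lit 507) (nat_lit 433) (nat_lit 260)) (XT.lf (nat_lit 0) (nat_lit 1613646107746) (nat_lit 76) (nat_lit 369441066915) (nat_lit 76) (nat_lit 275838675937) (nat_lit 13) (nat_lit 4) (nat_lit 14) (nat_lit 5) (nat_lit 14) (nat_lit 4) (nat_lit 508) (nat_lit 433) (nat_lit 259))) (XT.nd (nat_lit 78) (nat_lit 0) (nat_lit 0) (XT.lf (nat_lit 0) (nat_lit 177715173939) (nat_lit 152) (nat_lit 2134038358738) (nat_lit 0) (nat_lit 91046283591) (nat_lit 11) (nat_lit 5) (nat_lit 13) (nat_lit 4) (nat_lit 11) (nat_lit 4) (nat_lit 509) (nat_lit 433) (nat_lit 258)) (XT.lf (nat_lit 0) (nat_lit 680347996343) (nat_lit 152) (nat_lit 1281367665250) (nat_lit 0) (nat_lit 593679096910) (nat_lit 11) (nat_lit 5) (nat_lit 13) (nat_lit 4) (nat_lit 11) (nat_lit 4) (nat_lit 510)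 (nat_lit 433) (nat_lit 257))))) (XT.nd (nat_lit 234) (nat_lit 152) (nat_lit 0) (XT.nd (nat_lit 78) (nat_lit 76) (nat_lit 0) (XT.lf (nat_lit 0) (nat_lit 1223191344527) (nat_lit 152) (nat_lit 360483522911) (nat_lit 0) (nat_lit 1136522436680) (nat_lit 11) (nat_lit 5) (nat_lit 13) (nat_lit 4) (nat_lit 11) (nat_lit 4) (nat_lit 511) (nat_lit 433) (nat_lit 256)) (XT.nd (nat_lit 78) (nat_lit 0) (nat_lit 0) (XT.lf (nat_lit 0) (nat_lit 667460223080) (nat_lit 76) (nat_lit 1158054279297) (nat_lit 76) (nat_lit 1071385363660) (nat_lit 10) (nat_lit 4) (nat_lit 11) (nat_lit 5) (nat_lit 11) (nat_lit 4) (nat_lit 512) (nat_lit 433) (nat_lit 255)) (XT.lf (nat_lit 0) (nat_lit 1798140299636) (nat_lit 76) (nat_lit 687739381337) (nat_lit 76) (nat_lit 601070458487) (nat_lit 10) (nat_lit 4) (nat_lit 11) (nat_lit 5) (nat_lit 11) (nat_lit 4) (nat_lit 513) (nat_lit 433) (nat_lit 254)))) (XT.nd (nat_lit 156) (nat_lit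 0) (nat_lit 0) (XT.nd (nat_lit 78) (nat_lit 152) (nat_lit 0) (XT.lf (nat_lit 0) (nat_lit 3019274609651) (nat_lit 76) (nat_lit 179799380659) (nat_lit 76) (nat_lit 93130451132) (nat_lit 10) (nat_lit 4) (nat_lit 11) (nat_lit 5) (nat_lit 11) (nat_lit 4) (nat_lit 514) (nat_lit 433) (nat_lit 253)) (XT.lf (nat_lit 0) (nat_lit 462938873863) (nat_lit 152) (nat_lit 2664951893147) (nat_lit 0) (nat_lit 382689859315) (nat_lit 8) (nat_lit 5) (nat_lit 10) (nat_lit 4) (nat_lit 8) (nat_lit 4) (nat_lit 515) (nat_lit 433) (nat_lit 252))) (XT.nd (nat_lit 78) (nat_lit 0) (nat_lit 0) (XT.lf (nat_lit 0) (nat_lit 1070788529451) (nat_lit 152) (nat_lit 1683919249293) (nat_lit 0) (nat_lit 990539509601) (nat_lit 8) (nat_lit 5) (nat_lit 10) (nat_lit 4) (nat_lit 8) (nat_lit 4) (nat_lit 516) (nat_lit 433) (nat_lit 251)) (XT.lf (nat_lit 0) (nat_lit 1727266084041) (nat_lit 152) (nat_lit 624404145878) (nat_lit 0) (nat_lit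 1647017059283) (nat_lit 8) (nat_lit 5) (nat_lit 10) (nat_lit 4) (nat_lit 8) (nat_lit 4) (nat_lit 517) (nat_lit 433) (nat_lit 250))))))) (XT.nd (nat_lit 1092) (nat_lit 152) (nat_lit 0) (XT.nd (nat_lit 546) (nat_lit 76) (nat_lit 0) (XT.nd (nat_lit 234) (nat_lit 152) (nat_lit 0) (XT.nd (nat_lit 78) (nat_lit 0) (nat_lit 0) (XT.lf (nat_lit 0) (nat_lit 547247564669) (nat_lit 76) (nat_lit 1902175527418) (nat_lit 76) (nat_lit 1821926498114) (nat_lit 7) (nat_lit 4) (nat_lit 8) (nat_lit 5) (nat_lit 8) (nat_lit 4) (nat_lit 518) (nat_lit 433) (nat_lit 249)) (XT.nd (nat_lit 78) (nat_lit 0) (nat_lit 0) (XT.lf (nat_lit 0) (nat_lit 1848141691975) (nat_lit 76) (nat_lit 1398283218423) (nat_lit 76) (nat_lit 1318034184911) (nat_lit 7) (nat_lit 4) (nat_lit 8) (nat_lit 5) (nat_lit 8) (nat_lit 4) (nat_lit 519) (nat_lit 433) (nat_lit 248)) (XT.lf (nat_lit 0) (nat_lit 3253107222494) (nat_lit 76) (nat_lit 854079590325)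 (nat_lit 76) (nat_lit 773830552916) (nat_lit 7) (nat_lit 4) (nat_lit 8) (nat_lit 5) (nat_lit 8) (nat_lit 4) (nat_lit 520) (nat_lit 433) (nat_lit 247)))) (XT.nd (nat_lit 156) (nat_lit 0) (nat_lit 0) (XT.nd (nat_lit 78) (nat_lit 152) (nat_lit 0) (XT.lf (nat_lit 0) (nat_lit 4770469877888) (nat_lit 76) (nat_lit 266339732735) (nat_lit 76) (nat_lit 186090691718) (nat_lit 7) (nat_lit 4) (nat_lit 8) (nat_lit 5) (nat_lit 8) (nat_lit 4) (nat_lit 521) (nat_lit 433) (nat_lit 246)) (XT.lf (nat_lit 0) (nat_lit 456307641473) (nat_lit 152) (nat_lit 4750553343525) (nat_lit 0) (nat_lit 382002970771) (nat_lit 5) (nat_lit 5) (nat_lit 7) (nat_lit 4) (nat_lit 5) (nat_lit 4) (nat_lit 522) (nat_lit 433) (nat_lit 245))) (XT.nd (nat_lit 78) (nat_lit 0) (nat_lit 0) (XT.lf (nat_lit 0) (nat_lit 1159653526399) (nat_lit 152) (nat_lit 3737146887007) (nat_lit 0) (nat_lit 1085348852833) (nat_lit 5) (nat_lit 5) (nat_lit 7)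 (nat_lit 4) (nat_lit 5) (nat_lit 4) (nat_lit 523) (nat_lit 433) (nat_lit 244)) (XT.lf (nat_lit 0) (nat_lit 1919267032172) (nat_lit 152) (nat_lit 2642668017417) (nat_lit 0) (nat_lit 1844962355954) (nat_lit 5) (nat_lit 5) (nat_lit 7) (nat_lit 4) (nat_lit 5) (nat_lit 4) (nat_lit 524) (nat_lit 433) (nat_lit 243))))) (XT.nd (nat_lit 234) (nat_lit 0) (nat_lit 0) (XT.nd (nat_lit 78) (nat_lit 76) (nat_lit 0) (XT.lf (nat_lit 0) (nat_lit 2739649572159) (nat_lit 152) (nat_lit 1460630934047) (nat_lit 0) (nat_lit 2665344893485) (nat_lit 5) (nat_lit 5) (nat_lit 7) (nat_lit 4) (nat_lit 5) (nat_lit 4) (nat_lit 525) (nat_lit 433) (nat_lit 242)) (XT.nd (nat_lit 78) (nat_lit 76) (nat_lit 0) (XT.lf (nat_lit 0) (nat_lit 3625662672522) (nat_lit 152) (nat_lit 184030972699) (nat_lit 0) (nat_lit 3551357991575) (nat_lit 5) (nat_lit 5) (nat_lit 7) (nat_lit 4) (nat_lit 5) (nat_lit 4) (nat_lit 526) (nat_lit 433) (nat_lit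 241)) (XT.lf (nat_lit 0) (nat_lit 1257607525184) (nat_lit 76) (nat_lit 3355194747306) (nat_lit 76) (nat_lit 3280890064253) (nat_lit 4) (nat_lit 4) (nat_lit 5) (nat_lit 5) (nat_lit 5) (nat_lit 4) (nat_lit 527) (nat_lit 433) (nat_lit 240)))) (XT.nd (nat_lit 156) (nat_lit 0) (nat_lit 0) (XT.nd (nat_lit 78) (nat_lit 0) (nat_lit 0) (XT.lf (nat_lit 0) (nat_lit 2825043027339) (nat_lit 76) (nat_lit 2858901707404) (nat_lit 76) (nat_lit 2784597022401) (nat_lit 4) (nat_lit 4) (nat_lit 5) (nat_lit 5) (nat_lit 5) (nat_lit 4) (nat_lit 528) (nat_lit 433) (nat_lit 239)) (XT.lf (nat_lit 0) (nat_lit 4517873295552) (nat_lit 76) (nat_lit 2322905262647) (nat_lit 76) (nat_lit 2248600575840) (nat_lit 4) (nat_lit 4) (nat_lit 5) (nat_lit 5) (nat_lit 5) (nat_lit 4) (nat_lit 529) (nat_lit 433) (nat_lit 238))) (XT.nd (nat_lit 78) (nat_lit 0) (nat_lit 0) (XT.lf (nat_lit 0) (nat_lit 6346129916598) (nat_lit 76) (nat_lit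 1744029137808) (nat_lit 76) (nat_lit 1669724449329) (nat_lit 4) (nat_lit 4) (nat_lit 5) (nat_lit 5) (nat_lit 5) (nat_lit 4) (nat_lit 530) (nat_lit 433) (nat_lit 237)) (XT.lf (nat_lit 0) (nat_lit 8320647003787) (nat_lit 76) (nat_lit 1118842955850) (nat_lit 76) (nat_lit 1044538265824) (nat_lit 4) (nat_lit 4) (nat_lit 5) (nat_lit 5) (nat_lit 5) (nat_lit 4) (nat_lit 531) (nat_lit 433) (nat_lit 236)))))) (XT.nd (nat_lit 546) (nat_lit 0) (nat_lit 0) (XT.nd (nat_lit 234) (nat_lit 0) (nat_lit 0) (XT.nd (nat_lit 78) (nat_lit 152) (nat_lit 0) (XT.lf (nat_lit 0) (nat_lit 10453125399118) (nat_lit 76) (nat_lit 443641909769) (nat_lit 76) (nat_lit 369337218310) (nat_lit 4) (nat_lit 4) (nat_lit 5) (nat_lit 5) (nat_lit 5) (nat_lit 4) (nat_lit 532) (nat_lit 433) (nat_lit 235)) (XT.nd (nat_lit 78) (nat_lit 0) (nat_lit 0) (XT.lf (nat_lit 0) (nat_lit 365510392404) (nat_lit 152) (nat_lit 11445943729673) (nat_lit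 0) (nat_lit 296709750936) (nat_lit 2) (nat_lit 5) (nat_lit 4) (nat_lit 4) (nat_lit 2) (nat_lit 4) (nat_lit 533) (nat_lit 433) (nat_lit 234)) (XT.lf (nat_lit 0) (nat_lit 1173520796801) (nat_lit 152) (nat_lit 10735833258517) (nat_lit 0) (nat_lit 1104720154195) (nat_lit 2) (nat_lit 5) (nat_lit 4) (nat_lit 4) (nat_lit 2) (nat_lit 4) (nat_lit 534) (nat_lit 433) (nat_lit 233)))) (XT.nd (nat_lit 156) (nat_lit 0) (nat_lit 0) (XT.nd (nat_lit 78) (nat_lit 0) (nat_lit 0) (XT.lf (nat_lit 0) (nat_lit 2046172008577) (nat_lit 152) (nat_lit 9968914001433) (nat_lit 0) (nat_lit 1977371364918) (nat_lit 2) (nat_lit 5) (nat_lit 4) (nat_lit 4) (nat_lit 2) (nat_lit 4) (nat_lit 535) (nat_lit 433) (nat_lit 232)) (XT.lf (nat_lit 0) (nat_lit 2988635294173) (nat_lit 152) (nat_lit 9140641251715) (nat_lit 0) (nat_lit 2919834649539) (nat_lit 2) (nat_lit 5) (nat_lit 4) (nat_lit 4) (nat_lit 2) (nat_lit 4) (nat_lit 536)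 (nat_lit 433) (nat_lit 231))) (XT.nd (nat_lit 78) (nat_lit 0) (nat_lit 0) (XT.lf (nat_lit 0) (nat_lit 4006495621209) (nat_lit 152) (nat_lit 8246106726399) (nat_lit 0) (nat_lit 3937694975672) (nat_lit 2) (nat_lit 5) (nat_lit 4) (nat_lit 4) (nat_lit 2) (nat_lit 4) (nat_lit 537) (nat_lit 433) (nat_lit 230)) (XT.lf (nat_lit 0) (nat_lit 5105784754583) (nat_lit 152) (nat_lit 7280009480152) (nat_lit 0) (nat_lit 5036984108210) (nat_lit 2) (nat_lit 5) (nat_lit 4) (nat_lit 4) (nat_lit 2) (nat_lit 4) (nat_lit 538) (nat_lit 433) (nat_lit 229))))) (XT.nd (nat_lit 54444) (nat_lit 0) (nat_lit 6384) (XT.nd (nat_lit 54288) (nat_lit 0) (nat_lit 6916) (XT.nd (nat_lit 78) (nat_lit 0) (nat_lit 0) (XT.lf (nat_lit 0) (nat_lit 6293017000273) (nat_lit 152) (nat_lit 6236624492254) (nat_lit 0) (nat_lit 6224216353126) (nat_lit 2) (nat_lit 5) (nat_lit 4) (nat_lit 4) (nat_lit 2) (nat_lit 4) (nat_lit 539) (nat_lit 433)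 (nat_lit 228)) (XT.lf (nat_lit 0) (nat_lit 7575227808623) (nat_lit 152) (nat_lit 5109768740555) (nat_lit 0) (nat_lit 7506427160759) (nat_lit 2) (nat_lit 5) (nat_lit 4) (nat_lit 4) (nat_lit 2) (nat_lit 4) (nat_lit 540) (nat_lit 433) (nat_lit 227))) (XT.nd (nat_lit 78) (nat_lit 0) (nat_lit 0) (XT.lf (nat_lit 0) (nat_lit 27335622366) (nat_lit 532) (nat_lit 230284863) (nat_lit 532) (nat_lit 230284863) (nat_lit 93) (nat_lit 3) (nat_lit 100) (nat_lit 3) (nat_lit 100) (nat_lit 5) (nat_lit 434) (nat_lit 434) (nat_lit 332)) (XT.lf (nat_lit 76) (nat_lit 28658101754) (nat_lit 0) (nat_lit 28909225407) (nat_lit 532) (nat_lit 192011111) (nat_lit 94) (nat_lit 5) (nat_lit 93) (nat_lit 3) (nat_lit 100) (nat_lit 5) (nat_lit 435) (nat_lit 434) (nat_lit 331)))) (XT.nd (nat_lit 156) (nat_lit 0) (nat_lit 76) (XT.nd (nat_lit 78) (nat_lit 0) (nat_lit 76) (XT.lf (nat_lit 76) (nat_lit 18867212) (nat_lit 0) (nat_lit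 558085488) (nat_lit 608) (nat_lit 59520647241) (nat_lit 87) (nat_lit 5) (nat_lit 86) (nat_lit 5) (nat_lit 94) (nat_lit 5) (nat_lit 436) (nat_lit 434) (nat_lit 330)) (XT.lf (nat_lit 0) (nat_lit 2934438712) (nat_lit 532) (nat_lit 30185692102) (nat_lit 608) (nat_lit 29379402677) (nat_lit 87) (nat_lit 5) (nat_lit 94) (nat_lit 5) (nat_lit 95) (nat_lit 5) (nat_lit 437) (nat_lit 434) (nat_lit 329))) (XT.nd (nat_lit 78) (nat_lit 0) (nat_lit 76) (XT.lf (nat_lit 76) (nat_lit 2192695904) (nat_lit 0) (nat_lit 3353262476) (nat_lit 608) (nat_lit 59542428776) (nat_lit 88) (nat_lit 5) (nat_lit 87) (nat_lit 5) (nat_lit 95) (nat_lit 5) (nat_lit 438) (nat_lit 434) (nat_lit 328)) (XT.lf (nat_lit 0) (nat_lit 9904004443) (nat_lit 532) (nat_lit 29655638394) (nat_lit 608) (nat_lit 28201698090) (nat_lit 88) (nat_lit 5) (nat_lit 95) (nat_lit 5) (nat_lit 96) (nat_lit 5) (nat_lit 439) (nat_lit 434) (nat_lit 327))))))))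
noncomputable def xc168 : XT := (XT.nd (nat_lit 2184) (nat_lit 1824) (nat_lit 0) (XT.nd (nat_lit 1092) (nat_lit 1292) (nat_lit 0) (XT.nd (nat_lit 546) (nat_lit 912) (nat_lit 0) (XT.nd (nat_lit 234) (nat_lit 456) (nat_lit 0) (XT.nd (nat_lit 78) (nat_lit 456) (nat_lit 0) (XT.lf (nat_lit 76) (nat_lit 6479346731) (nat_lit 0) (nat_lit 8372716207) (nat_lit 608) (nat_lit 55776758741) (nat_lit 89) (nat_lit 5) (nat_lit 88) (nat_lit 5) (nat_lit 96) (nat_lit 5) (nat_lit 440) (nat_lit 434) (nat_lit 326)) (XT.nd (nat_lit 78) (nat_lit 532) (nat_lit 0) (XT.lf (nat_lit 0) (nat_lit 21635083088) (nat_lit 532) (nat_lit 27100295033) (nat_lit 76) (nat_lit 24875193581) (nat_lit 89) (nat_lit 5) (nat_lit 96) (nat_lit 5) (nat_lit 90) (nat_lit 5) (nat_lit 441) (nat_lit 434) (nat_lit 325)) (XT.lf (nat_lit 0) (nat_lit 13362508160) (nat_lit 532) (nat_lit 16135719711) (nat_lit 608) (nat_lit 47289635370) (nat_lit 82)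 (nat_lit 5) (nat_lit 89) (nat_lit 5) (nat_lit 90) (nat_lit 5) (nat_lit 442) (nat_lit 434) (nat_lit 324)))) (XT.nd (nat_lit 156) (nat_lit 228) (nat_lit 0) (XT.nd (nat_lit 78) (nat_lit 228) (nat_lit 0) (XT.lf (nat_lit 0) (nat_lit 39208032866) (nat_lit 608) (nat_lit 22035789284) (nat_lit 76) (nat_lit 18878107407) (nat_lit 82) (nat_lit 5) (nat_lit 90) (nat_lit 5) (nat_lit 83) (nat_lit 5) (nat_lit 443) (nat_lit 434) (nat_lit 323)) (XT.lf (nat_lit 0) (nat_lit 23415936323) (nat_lit 228) (nat_lit 27259757364) (nat_lit 304) (nat_lit 32968541912) (nat_lit 79) (nat_lit 5) (nat_lit 82) (nat_lit 5) (nat_lit 83) (nat_lit 5) (nat_lit 444) (nat_lit 434) (nat_lit 322))) (XT.nd (nat_lit 78) (nat_lit 228) (nat_lit 0) (XT.lf (nat_lit 0) (nat_lit 63904884017) (nat_lit 304) (nat_lit 13887198544) (nat_lit 76) (nat_lit 9588714354) (nat_lit 79) (nat_lit 5) (nat_lit 83) (nat_lit 5) (nat_lit 80) (nat_lit 5) (nat_lit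 445) (nat_lit 434) (nat_lit 321)) (XT.lf (nat_lit 0) (nat_lit 37318764978) (nat_lit 228) (nat_lit 42478156199) (nat_lit 304) (nat_lit 11491001145) (nat_lit 76) (nat_lit 5) (nat_lit 79) (nat_lit 5) (nat_lit 80) (nat_lit 5) (nat_lit 446) (nat_lit 434) (nat_lit 320))))) (XT.nd (nat_lit 234) (nat_lit 380) (nat_lit 0) (XT.nd (nat_lit 78) (nat_lit 456) (nat_lit 0) (XT.lf (nat_lit 0) (nat_lit 1768568426) (nat_lit 304) (nat_lit 2112297600) (nat_lit 76) (nat_lit 91592874031) (nat_lit 75) (nat_lit 5) (nat_lit 79) (nat_lit 5) (nat_lit 76) (nat_lit 5) (nat_lit 447) (nat_lit 434) (nat_lit 319)) (XT.nd (nat_lit 78) (nat_lit 228) (nat_lit 0) (XT.lf (nat_lit 0) (nat_lit 17776117871) (nat_lit 304) (nat_lit 44398624730) (nat_lit 76) (nat_lit 37611161149) (nat_lit 72) (nat_lit 5) (nat_lit 76) (nat_lit 5) (nat_lit 73) (nat_lit 5) (nat_lit 448) (nat_lit 434) (nat_lit 318)) (XT.lf (nat_lit 0) (nat_lit 13753024203)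 (nat_lit 228) (nat_lit 21801150146) (nat_lit 304) (nat_lit 68849674026) (nat_lit 69) (nat_lit 5) (nat_lit 72) (nat_lit 5) (nat_lit 73) (nat_lit 5) (nat_lit 449) (nat_lit 434) (nat_lit 317)))) (XT.nd (nat_lit 156) (nat_lit 228) (nat_lit 0) (XT.nd (nat_lit 78) (nat_lit 152) (nat_lit 0) (XT.lf (nat_lit 0) (nat_lit 56523409618) (nat_lit 304) (nat_lit 30769415690) (nat_lit 76) (nat_lit 21956888600) (nat_lit 69) (nat_lit 5) (nat_lit 73) (nat_lit 5) (nat_lit 70) (nat_lit 5) (nat_lit 450) (nat_lit 434) (nat_lit 316)) (XT.lf (nat_lit 0) (nat_lit 35090481228) (nat_lit 152) (nat_lit 45489078040) (nat_lit 228) (nat_lit 33790939443) (nat_lit 67) (nat_lit 5) (nat_lit 69) (nat_lit 5) (nat_lit 70) (nat_lit 5) (nat_lit 451) (nat_lit 434) (nat_lit 315))) (XT.nd (nat_lit 78) (nat_lit 228) (nat_lit 0) (XT.lf (nat_lit 0) (nat_lit 107414352383) (nat_lit 228) (nat_lit 11879394030) (nat_lit 76) (nat_lit 538867830)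 (nat_lit 67) (nat_lit 5) (nat_lit 70) (nat_lit 5) (nat_lit 68) (nat_lit 5) (nat_lit 452) (nat_lit 434) (nat_lit 314)) (XT.lf (nat_lit 0) (nat_lit 12893682418) (nat_lit 228) (nat_lit 62966696601) (nat_lit 76) (nat_lit 49629768422) (nat_lit 64) (nat_lit 5) (nat_lit 67) (nat_lit 5) (nat_lit 65) (nat_lit 5) (nat_lit 453) (nat_lit 434) (nat_lit 313)))))) (XT.nd (nat_lit 546) (nat_lit 684) (nat_lit 0) (XT.nd (nat_lit 234) (nat_lit 304) (nat_lit 0) (XT.nd (nat_lit 78) (nat_lit 152) (nat_lit 0) (XT.lf (nat_lit 0) (nat_lit 12261096741) (nat_lit 152) (nat_lit 27925977056) (nat_lit 228) (nat_lit 91337213349) (nat_lit 62) (nat_lit 5) (nat_lit 64) (nat_lit 5) (nat_lit 65) (nat_lit 5) (nat_lit 454) (nat_lit 434) (nat_lit 312)) (XT.nd (nat_lit 78) (nat_lit 152) (nat_lit 0) (XT.lf (nat_lit 0) (nat_lit 72003003697) (nat_lit 228) (nat_lit 41434588940) (nat_lit 76) (nat_lit 24416440065) (nat_lit 62) (nat_lit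 5) (nat_lit 65) (nat_lit 5) (nat_lit 63) (nat_lit 5) (nat_lit 455) (nat_lit 434) (nat_lit 311)) (XT.lf (nat_lit 0) (nat_lit 44099992714) (nat_lit 152) (nat_lit 64049522808) (nat_lit 228) (nat_lit 36397817821) (nat_lit 60) (nat_lit 5) (nat_lit 62) (nat_lit 5) (nat_lit 63) (nat_lit 5) (nat_lit 456) (nat_lit 434) (nat_lit 310)))) (XT.nd (nat_lit 156) (nat_lit 152) (nat_lit 0) (XT.nd (nat_lit 78) (nat_lit 152) (nat_lit 0) (XT.lf (nat_lit 0) (nat_lit 138832770348) (nat_lit 152) (nat_lit 9487248797) (nat_lit 228) (nat_lit 3365497265) (nat_lit 60) (nat_lit 5) (nat_lit 62) (nat_lit 5) (nat_lit 63) (nat_lit 5) (nat_lit 457) (nat_lit 434) (nat_lit 309)) (XT.lf (nat_lit 0) (nat_lit 34004929950) (nat_lit 152) (nat_lit 75195861969) (nat_lit 76) (nat_lit 49866857395) (nat_lit 58) (nat_lit 5) (nat_lit 60) (nat_lit 5) (nat_lit 59) (nat_lit 5) (nat_lit 458) (nat_lit 434) (nat_lit 308))) (XT.nd (nat_lit 78)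 (nat_lit 0) (nat_lit 0) (XT.lf (nat_lit 0) (nat_lit 22852223206) (nat_lit 152) (nat_lit 52486927077) (nat_lit 228) (nat_lit 91601730703) (nat_lit 56) (nat_lit 5) (nat_lit 58) (nat_lit 5) (nat_lit 59) (nat_lit 5) (nat_lit 459) (nat_lit 434) (nat_lit 307)) (XT.lf (nat_lit 0) (nat_lit 122299705531) (nat_lit 228) (nat_lit 42524034021) (nat_lit 76) (nat_lit 10434663887) (nat_lit 56) (nat_lit 5) (nat_lit 59) (nat_lit 5) (nat_lit 57) (nat_lit 4) (nat_lit 460) (nat_lit 434) (nat_lit 306))))) (XT.nd (nat_lit 234) (nat_lit 380) (nat_lit 0) (XT.nd (nat_lit 78) (nat_lit 228) (nat_lit 0) (XT.lf (nat_lit 0) (nat_lit 69266554038) (nat_lit 76) (nat_lit 106779183714) (nat_lit 152) (nat_lit 7953299359) (nat_lit 55) (nat_lit 5) (nat_lit 56) (nat_lit 5) (nat_lit 57) (nat_lit 4) (nat_lit 461) (nat_lit 434) (nat_lit 305)) (XT.nd (nat_lit 78) (nat_lit 152) (nat_lit 0) (XT.lf (nat_lit 0) (nat_lit 39811286888) (nat_lit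 152) (nat_lit 1935939162) (nat_lit 76) (nat_lit 151518091101) (nat_lit 54) (nat_lit 5) (nat_lit 56) (nat_lit 5) (nat_lit 55) (nat_lit 5) (nat_lit 462) (nat_lit 434) (nat_lit 304)) (XT.lf (nat_lit 0) (nat_lit 94765840257) (nat_lit 228) (nat_lit 77804318214) (nat_lit 76) (nat_lit 30382336011) (nat_lit 52) (nat_lit 5) (nat_lit 55) (nat_lit 5) (nat_lit 53) (nat_lit 4) (nat_lit 463) (nat_lit 434) (nat_lit 303)))) (XT.nd (nat_lit 156) (nat_lit 228) (nat_lit 0) (XT.nd (nat_lit 78) (nat_lit 76) (nat_lit 0) (XT.lf (nat_lit 0) (nat_lit 50540376485) (nat_lit 76) (nat_lit 105930053470) (nat_lit 152) (nat_lit 56755922301) (nat_lit 51) (nat_lit 5) (nat_lit 52) (nat_lit 5) (nat_lit 53) (nat_lit 4) (nat_lit 464) (nat_lit 434) (nat_lit 302)) (XT.lf (nat_lit 0) (nat_lit 1031924359) (nat_lit 152) (nat_lit 30601474305) (nat_lit 76) (nat_lit 192516482218) (nat_lit 50) (nat_lit 5) (nat_lit 52) (nat_lit 5) (nat_lit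 51) (nat_lit 5) (nat_lit 465) (nat_lit 434) (nat_lit 301))) (XT.nd (nat_lit 78) (nat_lit 76) (nat_lit 0) (XT.lf (nat_lit 0) (nat_lit 64455421960) (nat_lit 228) (nat_lit 120487941707) (nat_lit 76) (nat_lit 50559680389) (nat_lit 48) (nat_lit 5) (nat_lit 51) (nat_lit 5) (nat_lit 49) (nat_lit 4) (nat_lit 466) (nat_lit 434) (nat_lit 300)) (XT.lf (nat_lit 0) (nat_lit 26821353731) (nat_lit 76) (nat_lit 108456145916) (nat_lit 152) (nat_lit 112300984630) (nat_lit 47) (nat_lit 5) (nat_lit 48) (nat_lit 5) (nat_lit 49) (nat_lit 4) (nat_lit 467) (nat_lit 434) (nat_lit 299))))))) (XT.nd (nat_lit 1092) (nat_lit 912) (nat_lit 0) (XT.nd (nat_lit 546) (nat_lit 456) (nat_lit 0) (XT.nd (nat_lit 234) (nat_lit 304) (nat_lit 0) (XT.nd (nat_lit 78) (nat_lit 152) (nat_lit 0) (XT.lf (nat_lit 0) (nat_lit 192766875345) (nat_lit 76) (nat_lit 22292403813) (nat_lit 152) (nat_lit 45297165723) (nat_lit 47) (nat_lit 5) (nat_lit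 48) (nat_lit 5) (nat_lit 49) (nat_lit 4) (nat_lit 468) (nat_lit 434) (nat_lit 298)) (XT.nd (nat_lit 78) (nat_lit 0) (nat_lit 0) (XT.lf (nat_lit 0) (nat_lit 29955496810) (nat_lit 152) (nat_lit 173393457495) (nat_lit 76) (nat_lit 70416208200) (nat_lit 45) (nat_lit 5) (nat_lit 47) (nat_lit 5) (nat_lit 46) (nat_lit 4) (nat_lit 469) (nat_lit 434) (nat_lit 297)) (XT.lf (nat_lit 0) (nat_lit 111255798224) (nat_lit 152) (nat_lit 4289290794) (nat_lit 76) (nat_lit 172409392601) (nat_lit 45) (nat_lit 5) (nat_lit 47) (nat_lit 5) (nat_lit 46) (nat_lit 4) (nat_lit 470) (nat_lit 434) (nat_lit 296)))) (XT.nd (nat_lit 156) (nat_lit 152) (nat_lit 0) (XT.nd (nat_lit 78) (nat_lit 76) (nat_lit 0) (XT.lf (nat_lit 0) (nat_lit 187733724100) (nat_lit 76) (nat_lit 15841036164) (nat_lit 152) (nat_lit 99343015088) (nat_lit 44) (nat_lit 5) (nat_lit 45) (nat_lit 5) (nat_lit 46) (nat_lit 4) (nat_lit 471) (nat_lit 434)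 (nat_lit 295)) (XT.lf (nat_lit 0) (nat_lit 77982280882) (nat_lit 76) (nat_lit 229501134652) (nat_lit 76) (nat_lit 11258382957) (nat_lit 43) (nat_lit 4) (nat_lit 44) (nat_lit 5) (nat_lit 44) (nat_lit 4) (nat_lit 472) (nat_lit 434) (nat_lit 294))) (XT.nd (nat_lit 78) (nat_lit 76) (nat_lit 0) (XT.lf (nat_lit 0) (nat_lit 83319584787) (nat_lit 152) (nat_lit 44938353628) (nat_lit 76) (nat_lit 207121054570) (nat_lit 42) (nat_lit 5) (nat_lit 44) (nat_lit 5) (nat_lit 43) (nat_lit 4) (nat_lit 473) (nat_lit 434) (nat_lit 293)) (XT.lf (nat_lit 0) (nat_lit 175010154756) (nat_lit 76) (nat_lit 14054055807) (nat_lit 152) (nat_lit 163922865182) (nat_lit 41) (nat_lit 5) (nat_lit 42) (nat_lit 5) (nat_lit 43) (nat_lit 4) (nat_lit 474) (nat_lit 434) (nat_lit 292))))) (XT.nd (nat_lit 234) (nat_lit 228) (nat_lit 0) (XT.nd (nat_lit 78) (nat_lit 152) (nat_lit 0) (XT.lf (nat_lit 0) (nat_lit 42678793607) (nat_lit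 76) (nat_lit 265504651105) (nat_lit 76) (nat_lit 63427157358) (nat_lit 40) (nat_lit 4) (nat_lit 41) (nat_lit 5) (nat_lit 41) (nat_lit 4) (nat_lit 475) (nat_lit 434) (nat_lit 291)) (XT.nd (nat_lit 78) (nat_lit 76) (nat_lit 0) (XT.lf (nat_lit 0) (nat_lit 48209022406) (nat_lit 152) (nat_lit 101802975794) (nat_lit 76) (nat_lit 241196639187) (nat_lit 39) (nat_lit 5) (nat_lit 41) (nat_lit 5) (nat_lit 40) (nat_lit 4) (nat_lit 476) (nat_lit 434) (nat_lit 290)) (XT.lf (nat_lit 0) (nat_lit 149317579142) (nat_lit 76) (nat_lit 19622589981) (nat_lit 152) (nat_lit 243015286800) (nat_lit 38) (nat_lit 5) (nat_lit 39) (nat_lit 5) (nat_lit 40) (nat_lit 4) (nat_lit 477) (nat_lit 434) (nat_lit 289)))) (XT.nd (nat_lit 156) (nat_lit 76) (nat_lit 0) (XT.nd (nat_lit 78) (nat_lit 152) (nat_lit 0) (XT.lf (nat_lit 0) (nat_lit 305100090413) (nat_lit 152) (nat_lit 10809647803) (nat_lit 0) (nat_lit 117990659103) (nat_lit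 38) (nat_lit 5) (nat_lit 40) (nat_lit 4) (nat_lit 38) (nat_lit 4) (nat_lit 478) (nat_lit 434) (nat_lit 288)) (XT.lf (nat_lit 0) (nat_lit 2117286539) (nat_lit 152) (nat_lit 182705658075) (nat_lit 76) (nat_lit 272205041411) (nat_lit 36) (nat_lit 5) (nat_lit 38) (nat_lit 5) (nat_lit 37) (nat_lit 4) (nat_lit 479) (nat_lit 434) (nat_lit 287))) (XT.nd (nat_lit 78) (nat_lit 0) (nat_lit 0) (XT.lf (nat_lit 0) (nat_lit 102680268168) (nat_lit 76) (nat_lit 36641871964) (nat_lit 152) (nat_lit 342194211524) (nat_lit 35) (nat_lit 5) (nat_lit 36) (nat_lit 5) (nat_lit 37) (nat_lit 4) (nat_lit 480) (nat_lit 434) (nat_lit 286)) (XT.lf (nat_lit 0) (nat_lit 295595974182) (nat_lit 152) (nat_lit 89374375247) (nat_lit 0) (nat_lit 122346029737) (nat_lit 35) (nat_lit 5) (nat_lit 37) (nat_lit 4) (nat_lit 35) (nat_lit 4) (nat_lit 481) (nat_lit 434) (nat_lit 285)))))) (XT.nd (nat_lit 546) (nat_lit 380) (nat_lit 0) (XT.nd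 (nat_lit 234) (nat_lit 304) (nat_lit 0) (XT.nd (nat_lit 78) (nat_lit 152) (nat_lit 0) (XT.lf (nat_lit 0) (nat_lit 233997522292) (nat_lit 76) (nat_lit 236953317686) (nat_lit 76) (nat_lit 63703238901) (nat_lit 34) (nat_lit 4) (nat_lit 35) (nat_lit 5) (nat_lit 35) (nat_lit 4) (nat_lit 482) (nat_lit 434) (nat_lit 284)) (XT.nd (nat_lit 78) (nat_lit 0) (nat_lit 0) (XT.lf (nat_lit 0) (nat_lit 23118633411) (nat_lit 76) (nat_lit 71289461100) (nat_lit 152) (nat_lit 469340667348) (nat_lit 32) (nat_lit 5) (nat_lit 33) (nat_lit 5) (nat_lit 34) (nat_lit 4) (nat_lit 483) (nat_lit 434) (nat_lit 283)) (XT.lf (nat_lit 0) (nat_lit 272748894777) (nat_lit 152) (nat_lit 209076045819) (nat_lit 0) (nat_lit 112331933343) (nat_lit 32) (nat_lit 5) (nat_lit 34) (nat_lit 4) (nat_lit 32) (nat_lit 4) (nat_lit 484) (nat_lit 434) (nat_lit 282)))) (XT.nd (nat_lit 156) (nat_lit 152) (nat_lit 0) (XT.nd (nat_lit 78) (nat_lit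 76) (nat_lit 0) (XT.lf (nat_lit 0) (nat_lit 154898880985) (nat_lit 76) (nat_lit 316034836743) (nat_lit 76) (nat_lit 155617776566) (nat_lit 31) (nat_lit 4) (nat_lit 32) (nat_lit 5) (nat_lit 32) (nat_lit 4) (nat_lit 485) (nat_lit 434) (nat_lit 281)) (XT.lf (nat_lit 0) (nat_lit 28128049806) (nat_lit 152) (nat_lit 101910808009) (nat_lit 76) (nat_lit 530984555980) (nat_lit 30) (nat_lit 5) (nat_lit 32) (nat_lit 5) (nat_lit 31) (nat_lit 4) (nat_lit 486) (nat_lit 434) (nat_lit 280))) (XT.nd (nat_lit 78) (nat_lit 76) (nat_lit 0) (XT.lf (nat_lit 0) (nat_lit 227594474641) (nat_lit 152) (nat_lit 390520987239) (nat_lit 0) (nat_lit 79059996619) (nat_lit 29) (nat_lit 5) (nat_lit 31) (nat_lit 4) (nat_lit 29) (nat_lit 4) (nat_lit 487) (nat_lit 434) (nat_lit 279)) (XT.lf (nat_lit 0) (nat_lit 15004092889) (nat_lit 76) (nat_lit 434611179875) (nat_lit 76) (nat_lit 286076629274) (nat_lit 28) (nat_lit 4) (nat_lit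 29) (nat_lit 5) (nat_lit 29) (nat_lit 4) (nat_lit 488) (nat_lit 434) (nat_lit 278))))) (XT.nd (nat_lit 234) (nat_lit 228) (nat_lit 0) (XT.nd (nat_lit 78) (nat_lit 152) (nat_lit 0) (XT.lf (nat_lit 0) (nat_lit 475180022080) (nat_lit 76) (nat_lit 224895035480) (nat_lit 76) (nat_lit 76360417676) (nat_lit 28) (nat_lit 4) (nat_lit 29) (nat_lit 5) (nat_lit 29) (nat_lit 4) (nat_lit 489) (nat_lit 434) (nat_lit 277)) (XT.nd (nat_lit 78) (nat_lit 0) (nat_lit 0) (XT.lf (nat_lit 0) (nat_lit 146602126820) (nat_lit 152) (nat_lit 664159191337) (nat_lit 0) (nat_lit 9070015681) (nat_lit 26) (nat_lit 5) (nat_lit 28) (nat_lit 4) (nat_lit 26) (nat_lit 4) (nat_lit 490) (nat_lit 434) (nat_lit 276)) (XT.lf (nat_lit 0) (nat_lit 397568258853) (nat_lit 152) (nat_lit 207792474520) (nat_lit 0) (nat_lit 260036094366) (nat_lit 26) (nat_lit 5) (nat_lit 28) (nat_lit 4) (nat_lit 26) (nat_lit 4) (nat_lit 491) (nat_lit 434)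 (nat_lit 275)))) (XT.nd (nat_lit 156) (nat_lit 76) (nat_lit 0) (XT.nd (nat_lit 78) (nat_lit 76) (nat_lit 0) (XT.lf (nat_lit 0) (nat_lit 300095175071) (nat_lit 76) (nat_lit 375733615613) (nat_lit 76) (nat_lit 238201401729) (nat_lit 25) (nat_lit 4) (nat_lit 26) (nat_lit 5) (nat_lit 26) (nat_lit 4) (nat_lit 492) (nat_lit 434) (nat_lit 274)) (XT.lf (nat_lit 0) (nat_lit 15134703222) (nat_lit 152) (nat_lit 106052076917) (nat_lit 76) (nat_lit 844882294962) (nat_lit 24) (nat_lit 5) (nat_lit 26) (nat_lit 5) (nat_lit 25) (nat_lit 4) (nat_lit 493) (nat_lit 434) (nat_lit 273))) (XT.nd (nat_lit 78) (nat_lit 0) (nat_lit 0) (XT.lf (nat_lit 0) (nat_lit 291058015036) (nat_lit 152) (nat_lit 565789647933) (nat_lit 0) (nat_lit 163713290989) (nat_lit 23) (nat_lit 5) (nat_lit 25) (nat_lit 4) (nat_lit 23) (nat_lit 4) (nat_lit 494) (nat_lit 434) (nat_lit 272)) (XT.lf (nat_lit 0) (nat_lit 595177695136) (nat_lit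 152) (nat_lit 15911752938) (nat_lit 0) (nat_lit 467832934782) (nat_lit 23) (nat_lit 5) (nat_lit 25) (nat_lit 4) (nat_lit 23) (nat_lit 4) (nat_lit 495) (nat_lit 434) (nat_lit 271))))))))
noncomputable def xc169 : XT := (XT.nd (nat_lit 2184) (nat_lit 228) (nat_lit 0) (XT.nd (nat_lit 1092) (nat_lit 608) (nat_lit 0) (XT.nd (nat_lit 546) (nat_lit 304) (nat_lit 0) (XT.nd (nat_lit 234) (nat_lit 228) (nat_lit 0) (XT.nd (nat_lit 78) (nat_lit 152) (nat_lit 0) (XT.lf (nat_lit 0) (nat_lit 608390188063) (nat_lit 76) (nat_lit 329868400435) (nat_lit 76) (nat_lit 202523606462) (nat_lit 22) (nat_lit 4) (nat_lit 23) (nat_lit 5) (nat_lit 23) (nat_lit 4) (nat_lit 496) (nat_lit 434) (nat_lit 270)) (XT.nd (nat_lit 78) (nat_lit 0) (nat_lit 0) (XT.lf (nat_lit 0) (nat_lit 77412316712) (nat_lit 76) (nat_lit 21028616851) (nat_lit 152) (nat_lit 1108770521657) (nat_lit 20) (nat_lit 5) (nat_lit 21) (nat_lit 5) (nat_lit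 22) (nat_lit 4) (nat_lit 497) (nat_lit 434) (nat_lit 269)) (XT.lf (nat_lit 0) (nat_lit 434991649002) (nat_lit 152) (nat_lit 524666788021) (nat_lit 0) (nat_lit 317079747221) (nat_lit 20) (nat_lit 5) (nat_lit 22) (nat_lit 4) (nat_lit 20) (nat_lit 4) (nat_lit 498) (nat_lit 434) (nat_lit 268)))) (XT.nd (nat_lit 156) (nat_lit 152) (nat_lit 0) (XT.nd (nat_lit 78) (nat_lit 0) (nat_lit 0) (XT.lf (nat_lit 0) (nat_lit 135087261664) (nat_lit 76) (nat_lit 667174062124) (nat_lit 76) (nat_lit 549262135633) (nat_lit 19) (nat_lit 4) (nat_lit 20) (nat_lit 5) (nat_lit 20) (nat_lit 4) (nat_lit 499) (nat_lit 434) (nat_lit 267)) (XT.lf (nat_lit 0) (nat_lit 877459605189) (nat_lit 76) (nat_lit 335798143359) (nat_lit 76) (nat_lit 217886193987) (nat_lit 19) (nat_lit 4) (nat_lit 20) (nat_lit 5) (nat_lit 20) (nat_lit 4) (nat_lit 500) (nat_lit 434) (nat_lit 266))) (XT.nd (nat_lit 78) (nat_lit 0) (nat_lit 0) (XT.lf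 (nat_lit 0) (nat_lit 137737600194) (nat_lit 152) (nat_lit 1350187963668) (nat_lit 0) (nat_lit 28559849679) (nat_lit 17) (nat_lit 5) (nat_lit 19) (nat_lit 4) (nat_lit 17) (nat_lit 4) (nat_lit 501) (nat_lit 434) (nat_lit 265)) (XT.lf (nat_lit 0) (nat_lit 534293601591) (nat_lit 152) (nat_lit 646851711788) (nat_lit 0) (nat_lit 425115832912) (nat_lit 17) (nat_lit 5) (nat_lit 19) (nat_lit 4) (nat_lit 17) (nat_lit 4) (nat_lit 502) (nat_lit 434) (nat_lit 264))))) (XT.nd (nat_lit 234) (nat_lit 152) (nat_lit 0) (XT.nd (nat_lit 78) (nat_lit 76) (nat_lit 0) (XT.lf (nat_lit 0) (nat_lit 118688457627) (nat_lit 76) (nat_lit 846739959408) (nat_lit 76) (nat_lit 737562173913) (nat_lit 16) (nat_lit 4) (nat_lit 17) (nat_lit 5) (nat_lit 17) (nat_lit 4) (nat_lit 503) (nat_lit 434) (nat_lit 263)) (XT.nd (nat_lit 78) (nat_lit 76) (nat_lit 0) (XT.lf (nat_lit 0) (nat_lit 982258617232) (nat_lit 76) (nat_lit 466481349544)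 (nat_lit 76) (nat_lit 357303548476) (nat_lit 16) (nat_lit 4) (nat_lit 17) (nat_lit 5) (nat_lit 17) (nat_lit 4) (nat_lit 504) (nat_lit 434) (nat_lit 262)) (XT.lf (nat_lit 0) (nat_lit 50705578051) (nat_lit 152) (nat_lit 3710213138) (nat_lit 76) (nat_lit 1862822196587) (nat_lit 15) (nat_lit 5) (nat_lit 17) (nat_lit 5) (nat_lit 16) (nat_lit 4) (nat_lit 505) (nat_lit 434) (nat_lit 261)))) (XT.nd (nat_lit 156) (nat_lit 76) (nat_lit 0) (XT.nd (nat_lit 78) (nat_lit 0) (nat_lit 0) (XT.lf (nat_lit 0) (nat_lit 504354269395) (nat_lit 152) (nat_lit 1126383412081) (nat_lit 0) (nat_lit 403263687139) (nat_lit 14) (nat_lit 5) (nat_lit 16) (nat_lit 4) (nat_lit 14) (nat_lit 4) (nat_lit 506) (nat_lit 434) (nat_lit 260)) (XT.lf (nat_lit 0) (nat_lit 995812223784) (nat_lit 152) (nat_lit 269450576637) (nat_lit 0) (nat_lit 894721630083) (nat_lit 14) (nat_lit 5) (nat_lit 16) (nat_lit 4) (nat_lit 14) (nat_lit 4) (nat_lit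 507) (nat_lit 434) (nat_lit 259))) (XT.nd (nat_lit 78) (nat_lit 0) (nat_lit 0) (XT.lf (nat_lit 0) (nat_lit 690582408060) (nat_lit 76) (nat_lit 852612829856) (nat_lit 76) (nat_lit 751522225556) (nat_lit 13) (nat_lit 4) (nat_lit 14) (nat_lit 5) (nat_lit 14) (nat_lit 4) (nat_lit 508) (nat_lit 434) (nat_lit 258)) (XT.lf (nat_lit 0) (nat_lit 1742741723297) (nat_lit 76) (nat_lit 398994328598) (nat_lit 76) (nat_lit 297903714485) (nat_lit 13) (nat_lit 4) (nat_lit 14) (nat_lit 5) (nat_lit 14) (nat_lit 4) (nat_lit 509) (nat_lit 434) (nat_lit 257)))))) (XT.nd (nat_lit 546) (nat_lit 228) (nat_lit 0) (XT.nd (nat_lit 234) (nat_lit 228) (nat_lit 0) (XT.nd (nat_lit 78) (nat_lit 0) (nat_lit 0) (XT.lf (nat_lit 0) (nat_lit 191934339080) (nat_lit 152) (nat_lit 2304757396195) (nat_lit 0) (nat_lit 98331910192) (nat_lit 11) (nat_lit 5) (nat_lit 13) (nat_lit 4) (nat_lit 11) (nat_lit 4) (nat_lit 510) (nat_lit 434)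 (nat_lit 256)) (XT.nd (nat_lit 78) (nat_lit 0) (nat_lit 0) (XT.lf (nat_lit 0) (nat_lit 734777642741) (nat_lit 152) (nat_lit 1383873345838) (nat_lit 0) (nat_lit 641175206064) (nat_lit 11) (nat_lit 5) (nat_lit 13) (nat_lit 4) (nat_lit 11) (nat_lit 4) (nat_lit 511) (nat_lit 434) (nat_lit 255)) (XT.lf (nat_lit 0) (nat_lit 1321048324951) (nat_lit 152) (nat_lit 389318748603) (nat_lit 0) (nat_lit 1227445881061) (nat_lit 11) (nat_lit 5) (nat_lit 13) (nat_lit 4) (nat_lit 11) (nat_lit 4) (nat_lit 512) (nat_lit 434) (nat_lit 254)))) (XT.nd (nat_lit 156) (nat_lit 152) (nat_lit 0) (XT.nd (nat_lit 78) (nat_lit 0) (nat_lit 0) (XT.lf (nat_lit 0) (nat_lit 720860409570) (nat_lit 76) (nat_lit 1250696882959) (nat_lit 76) (nat_lit 1157094432391) (nat_lit 10) (nat_lit 4) (nat_lit 11) (nat_lit 5) (nat_lit 11) (nat_lit 4) (nat_lit 513) (nat_lit 434) (nat_lit 253)) (XT.lf (nat_lit 0) (nat_lit 1941994642721) (nat_lit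 76) (nat_lit 742756921954) (nat_lit 76) (nat_lit 649154465201) (nat_lit 10) (nat_lit 4) (nat_lit 11) (nat_lit 5) (nat_lit 11) (nat_lit 4) (nat_lit 514) (nat_lit 434) (nat_lit 252))) (XT.nd (nat_lit 78) (nat_lit 152) (nat_lit 0) (XT.lf (nat_lit 0) (nat_lit 3260819466491) (nat_lit 76) (nat_lit 194181840473) (nat_lit 76) (nat_lit 100579377995) (nat_lit 10) (nat_lit 4) (nat_lit 11) (nat_lit 5) (nat_lit 11) (nat_lit 4) (nat_lit 515) (nat_lit 434) (nat_lit 251)) (XT.lf (nat_lit 0) (nat_lit 499975416640) (nat_lit 152) (nat_lit 2878145080167) (nat_lit 0) (nat_lit 413306464992) (nat_lit 8) (nat_lit 5) (nat_lit 10) (nat_lit 4) (nat_lit 8) (nat_lit 4) (nat_lit 516) (nat_lit 434) (nat_lit 250))))) (XT.nd (nat_lit 234) (nat_lit 152) (nat_lit 0) (XT.nd (nat_lit 78) (nat_lit 76) (nat_lit 0) (XT.lf (nat_lit 0) (nat_lit 1156452938537) (nat_lit 152) (nat_lit 1818630044392) (nat_lit 0) (nat_lit 1069783982344)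 (nat_lit 8) (nat_lit 5) (nat_lit 10) (nat_lit 4) (nat_lit 8) (nat_lit 4) (nat_lit 517) (nat_lit 434) (nat_lit 249)) (XT.nd (nat_lit 78) (nat_lit 76) (nat_lit 0) (XT.lf (nat_lit 0) (nat_lit 1865448599218) (nat_lit 152) (nat_lit 674353936025) (nat_lit 0) (nat_lit 1778779638817) (nat_lit 8) (nat_lit 5) (nat_lit 10) (nat_lit 4) (nat_lit 8) (nat_lit 4) (nat_lit 518) (nat_lit 434) (nat_lit 248)) (XT.lf (nat_lit 0) (nat_lit 591029847023) (nat_lit 76) (nat_lit 2054348289464) (nat_lit 76) (nat_lit 1967679325165) (nat_lit 7) (nat_lit 4) (nat_lit 8) (nat_lit 5) (nat_lit 8) (nat_lit 4) (nat_lit 519) (nat_lit 434) (nat_lit 247)))) (XT.nd (nat_lit 156) (nat_lit 152) (nat_lit 0) (XT.nd (nat_lit 78) (nat_lit 0) (nat_lit 0) (XT.lf (nat_lit 0) (nat_lit 1995995321019) (nat_lit 76) (nat_lit 1510144690575) (nat_lit 76) (nat_lit 1423475722669) (nat_lit 7) (nat_lit 4) (nat_lit 8) (nat_lit 5) (nat_lit 8) (nat_lit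 4) (nat_lit 520) (nat_lit 434) (nat_lit 246)) (XT.lf (nat_lit 0) (nat_lit 3513357924077) (nat_lit 76) (nat_lit 922404860031) (nat_lit 76) (nat_lit 835735888784) (nat_lit 7) (nat_lit 4) (nat_lit 8) (nat_lit 5) (nat_lit 8) (nat_lit 4) (nat_lit 521) (nat_lit 434) (nat_lit 245))) (XT.nd (nat_lit 78) (nat_lit 152) (nat_lit 0) (XT.lf (nat_lit 0) (nat_lit 5152109434585) (nat_lit 76) (nat_lit 287645895132) (nat_lit 76) (nat_lit 200976920791) (nat_lit 7) (nat_lit 4) (nat_lit 8) (nat_lit 5) (nat_lit 8) (nat_lit 4) (nat_lit 522) (nat_lit 434) (nat_lit 244)) (XT.lf (nat_lit 0) (nat_lit 492813227253) (nat_lit 152) (nat_lit 5130595592736) (nat_lit 0) (nat_lit 412564174285) (nat_lit 5) (nat_lit 5) (nat_lit 7) (nat_lit 4) (nat_lit 5) (nat_lit 4) (nat_lit 523) (nat_lit 434) (nat_lit 243))))))) (XT.nd (nat_lit 1092) (nat_lit 0) (nat_lit 0) (XT.nd (nat_lit 546) (nat_lit 152) (nat_lit 0) (XT.nd (nat_lit 234)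 (nat_lit 76) (nat_lit 0) (XT.nd (nat_lit 78) (nat_lit 0) (nat_lit 0) (XT.lf (nat_lit 0) (nat_lit 1252426710791) (nat_lit 152) (nat_lit 4036116769197) (nat_lit 0) (nat_lit 1172177655367) (nat_lit 5) (nat_lit 5) (nat_lit 7) (nat_lit 4) (nat_lit 5) (nat_lit 4) (nat_lit 524) (nat_lit 434) (nat_lit 242)) (XT.nd (nat_lit 78) (nat_lit 0) (nat_lit 0) (XT.lf (nat_lit 0) (nat_lit 2072809230190) (nat_lit 152) (nat_lit 2854079728467) (nat_lit 0) (nat_lit 1992560172493) (nat_lit 5) (nat_lit 5) (nat_lit 7) (nat_lit 4) (nat_lit 5) (nat_lit 4) (nat_lit 525) (nat_lit 434) (nat_lit 241)) (XT.lf (nat_lit 0) (nat_lit 2958822311491) (nat_lit 152) (nat_lit 1577479806601) (nat_lit 0) (nat_lit 2878573251688) (nat_lit 5) (nat_lit 5) (nat_lit 7) (nat_lit 4) (nat_lit 5) (nat_lit 4) (nat_lit 526) (nat_lit 434) (nat_lit 240)))) (XT.nd (nat_lit 156) (nat_lit 0) (nat_lit 0) (XT.nd (nat_lit 78) (nat_lit 76) (nat_lit 0)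 (XT.lf (nat_lit 0) (nat_lit 3915716402582) (nat_lit 152) (nat_lit 198751967025) (nat_lit 0) (nat_lit 3835467340831) (nat_lit 5) (nat_lit 5) (nat_lit 7) (nat_lit 4) (nat_lit 5) (nat_lit 4) (nat_lit 527) (nat_lit 434) (nat_lit 239)) (XT.lf (nat_lit 0) (nat_lit 1358217573132) (nat_lit 76) (nat_lit 3623609579134) (nat_lit 76) (nat_lit 3543360515577) (nat_lit 4) (nat_lit 4) (nat_lit 5) (nat_lit 5) (nat_lit 5) (nat_lit 4) (nat_lit 528) (nat_lit 434) (nat_lit 238))) (XT.nd (nat_lit 78) (nat_lit 0) (nat_lit 0) (XT.lf (nat_lit 0) (nat_lit 3051047808353) (nat_lit 76) (nat_lit 3087613151444) (nat_lit 76) (nat_lit 3007364086216) (nat_lit 4) (nat_lit 4) (nat_lit 5) (nat_lit 5) (nat_lit 5) (nat_lit 4) (nat_lit 529) (nat_lit 434) (nat_lit 237)) (XT.lf (nat_lit 0) (nat_lit 4879304398851) (nat_lit 76) (nat_lit 2508737042407) (nat_lit 76) (nat_lit 2428487975631) (nat_lit 4) (nat_lit 4) (nat_lit 5) (nat_lit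 5) (nat_lit 5) (nat_lit 4) (nat_lit 530) (nat_lit 434) (nat_lit 236))))) (XT.nd (nat_lit 234) (nat_lit 152) (nat_lit 0) (XT.nd (nat_lit 78) (nat_lit 0) (nat_lit 0) (XT.lf (nat_lit 0) (nat_lit 6853821457755) (nat_lit 76) (nat_lit 1883550875081) (nat_lit 76) (nat_lit 1803301806872) (nat_lit 4) (nat_lit 4) (nat_lit 5) (nat_lit 5) (nat_lit 5) (nat_lit 4) (nat_lit 531) (nat_lit 434) (nat_lit 235)) (XT.nd (nat_lit 78) (nat_lit 0) (nat_lit 0) (XT.lf (nat_lit 0) (nat_lit 8986299826895) (nat_lit 76) (nat_lit 1208349842548) (nat_lit 76) (nat_lit 1128100773012) (nat_lit 4) (nat_lit 4) (nat_lit 5) (nat_lit 5) (nat_lit 5) (nat_lit 4) (nat_lit 532) (nat_lit 434) (nat_lit 234)) (XT.lf (nat_lit 0) (nat_lit 11289376415125) (nat_lit 76) (nat_lit 479132753504) (nat_lit 76) (nat_lit 398883682741) (nat_lit 4) (nat_lit 4) (nat_lit 5) (nat_lit 5) (nat_lit 5) (nat_lit 4) (nat_lit 533) (nat_lit 434) (nat_lit 233))))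 (XT.nd (nat_lit 156) (nat_lit 0) (nat_lit 0) (XT.nd (nat_lit 78) (nat_lit 0) (nat_lit 0) (XT.lf (nat_lit 0) (nat_lit 394751710983) (nat_lit 152) (nat_lit 12361618218119) (nat_lit 0) (nat_lit 320447014778) (nat_lit 2) (nat_lit 5) (nat_lit 4) (nat_lit 4) (nat_lit 2) (nat_lit 4) (nat_lit 534) (nat_lit 434) (nat_lit 232)) (XT.lf (nat_lit 0) (nat_lit 1267402911643) (nat_lit 152) (nat_lit 11594698984080) (nat_lit 0) (nat_lit 1193098214463) (nat_lit 2) (nat_lit 5) (nat_lit 4) (nat_lit 4) (nat_lit 2) (nat_lit 4) (nat_lit 535) (nat_lit 434) (nat_lit 231))) (XT.nd (nat_lit 78) (nat_lit 0) (nat_lit 0) (XT.lf (nat_lit 0) (nat_lit 2209866186946) (nat_lit 152) (nat_lit 10766426255698) (nat_lit 0) (nat_lit 2135561488863) (nat_lit 2) (nat_lit 5) (nat_lit 4) (nat_lit 4) (nat_lit 2) (nat_lit 4) (nat_lit 536) (nat_lit 434) (nat_lit 230)) (XT.lf (nat_lit 0) (nat_lit 3227726504451) (nat_lit 152) (nat_lit 9871891750139)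 (nat_lit 0) (nat_lit 3153421805532) (nat_lit 2) (nat_lit 5) (nat_lit 4) (nat_lit 4) (nat_lit 2) (nat_lit 4) (nat_lit 537) (nat_lit 434) (nat_lit 229)))))) (XT.nd (nat_lit 54756) (nat_lit 0) (nat_lit 5852) (XT.nd (nat_lit 54444) (nat_lit 0) (nat_lit 6384) (XT.nd (nat_lit 78) (nat_lit 0) (nat_lit 0) (XT.lf (nat_lit 0) (nat_lit 4327015629001) (nat_lit 152) (nat_lit 8905794522184) (nat_lit 0) (nat_lit 4252710929308) (nat_lit 2) (nat_lit 5) (nat_lit 4) (nat_lit 4) (nat_lit 2) (nat_lit 4) (nat_lit 538) (nat_lit 434) (nat_lit 228)) (XT.nd (nat_lit 78) (nat_lit 0) (nat_lit 0) (XT.lf (nat_lit 0) (nat_lit 5514247866521) (nat_lit 152) (nat_lit 7862409551224) (nat_lit 0) (nat_lit 5439943166111) (nat_lit 2) (nat_lit 5) (nat_lit 4) (nat_lit 4) (nat_lit 2) (nat_lit 4) (nat_lit 539) (nat_lit 434) (nat_lit 227)) (XT.lf (nat_lit 0) (nat_lit 6796458667305) (nat_lit 152) (nat_lit 6735553815208) (nat_lit 0)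 (nat_lit 6722153966231) (nat_lit 2) (nat_lit 5) (nat_lit 4) (nat_lit 4) (nat_lit 2) (nat_lit 4) (nat_lit 540) (nat_lit 434) (nat_lit 226)))) (XT.nd (nat_lit 156) (nat_lit 532) (nat_lit 0) (XT.nd (nat_lit 78) (nat_lit 0) (nat_lit 0) (XT.lf (nat_lit 0) (nat_lit 29541995648) (nat_lit 532) (nat_lit 238163664) (nat_lit 532) (nat_lit 238163664) (nat_lit 93) (nat_lit 3) (nat_lit 100) (nat_lit 3) (nat_lit 100) (nat_lit 5) (nat_lit 435) (nat_lit 435) (nat_lit 330)) (XT.lf (nat_lit 76) (nat_lit 30971303998) (nat_lit 0) (nat_lit 31238058279) (nat_lit 532) (nat_lit 167786319) (nat_lit 94) (nat_lit 5) (nat_lit 93) (nat_lit 3) (nat_lit 100) (nat_lit 5) (nat_lit 436) (nat_lit 435) (nat_lit 329))) (XT.nd (nat_lit 78) (nat_lit 0) (nat_lit 76) (XT.lf (nat_lit 76) (nat_lit 42344792) (nat_lit 0) (nat_lit 616112316) (nat_lit 608) (nat_lit 64244118838) (nat_lit 87) (nat_lit 5) (nat_lit 86) (nat_lit 5) (nat_lit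 94) (nat_lit 5) (nat_lit 437) (nat_lit 435) (nat_lit 328)) (XT.lf (nat_lit 0) (nat_lit 3201625664) (nat_lit 532) (nat_lit 32577286376) (nat_lit 608) (nat_lit 31717985754) (nat_lit 87) (nat_lit 5) (nat_lit 94) (nat_lit 5) (nat_lit 95) (nat_lit 5) (nat_lit 438) (nat_lit 435) (nat_lit 327))))) (XT.nd (nat_lit 312) (nat_lit 608) (nat_lit 0) (XT.nd (nat_lit 156) (nat_lit 0) (nat_lit 76) (XT.nd (nat_lit 78) (nat_lit 0) (nat_lit 76) (XT.lf (nat_lit 76) (nat_lit 2390783783) (nat_lit 0) (nat_lit 3629426030) (nat_lit 608) (nat_lit 64272798791) (nat_lit 88) (nat_lit 5) (nat_lit 87) (nat_lit 5) (nat_lit 95) (nat_lit 5) (nat_lit 439) (nat_lit 435) (nat_lit 326)) (XT.lf (nat_lit 0) (nat_lit 10724458784) (nat_lit 532) (nat_lit 32004652624) (nat_lit 608) (nat_lit 30450882791) (nat_lit 88) (nat_lit 5) (nat_lit 95) (nat_lit 5) (nat_lit 96) (nat_lit 5) (nat_lit 440) (nat_lit 435) (nat_lit 325))) (XT.nd (nat_lit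 78) (nat_lit 0) (nat_lit 76) (XT.lf (nat_lit 76) (nat_lit 7020537973) (nat_lit 0) (nat_lit 9046289374) (nat_lit 608) (nat_lit 60210169077) (nat_lit 89) (nat_lit 5) (nat_lit 88) (nat_lit 5) (nat_lit 96) (nat_lit 5) (nat_lit 441) (nat_lit 435) (nat_lit 324)) (XT.lf (nat_lit 0) (nat_lit 23390435147) (nat_lit 532) (nat_lit 29245110468) (nat_lit 76) (nat_lit 26861905376) (nat_lit 89) (nat_lit 5) (nat_lit 96) (nat_lit 5) (nat_lit 90) (nat_lit 5) (nat_lit 442) (nat_lit 435) (nat_lit 323)))) (XT.nd (nat_lit 156) (nat_lit 228) (nat_lit 0) (XT.nd (nat_lit 78) (nat_lit 0) (nat_lit 0) (XT.lf (nat_lit 0) (nat_lit 14454129433) (nat_lit 532) (nat_lit 17427227928) (nat_lit 608) (nat_lit 51047670632) (nat_lit 82) (nat_lit 5) (nat_lit 89) (nat_lit 5) (nat_lit 90) (nat_lit 5) (nat_lit 443) (nat_lit 435) (nat_lit 322)) (XT.lf (nat_lit 0) (nat_lit 42366208470) (nat_lit 608) (nat_lit 23775966709) (nat_lit 76)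 (nat_lit 20387783692) (nat_lit 82) (nat_lit 5) (nat_lit 90) (nat_lit 5) (nat_lit 83) (nat_lit 5) (nat_lit 444) (nat_lit 435) (nat_lit 321))) (XT.nd (nat_lit 78) (nat_lit 0) (nat_lit 0) (XT.lf (nat_lit 0) (nat_lit 25311322624) (nat_lit 228) (nat_lit 29438896276) (nat_lit 304) (nat_lit 35583915734) (nat_lit 79) (nat_lit 5) (nat_lit 82) (nat_lit 5) (nat_lit 83) (nat_lit 5) (nat_lit 445) (nat_lit 435) (nat_lit 320)) (XT.lf (nat_lit 0) (nat_lit 69036264739) (nat_lit 304) (nat_lit 14976219128) (nat_lit 76) (nat_lit 10357255533) (nat_lit 79) (nat_lit 5) (nat_lit 83) (nat_lit 5) (nat_lit 80) (nat_lit 5) (nat_lit 446) (nat_lit 435) (nat_lit 319))))))))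
noncomputable def xc170 : XT := (XT.nd (nat_lit 2184) (nat_lit 1900) (nat_lit 0) (XT.nd (nat_lit 1092) (nat_lit 1064) (nat_lit 0) (XT.nd (nat_lit 546) (nat_lit 836) (nat_lit 0) (XT.nd (nat_lit 234) (nat_lit 380) (nat_lit 0) (XT.nd (nat_lit 78) (nat_lit 304) (nat_lit 0) (XT.lf (nat_lit 0) (nat_lit 40325665646) (nat_lit 228) (nat_lit 45873107217) (nat_lit 304) (nat_lit 12390733490) (nat_lit 76) (nat_lit 5) (nat_lit 79) (nat_lit 5) (nat_lit 80) (nat_lit 5) (nat_lit 447) (nat_lit 435) (nat_lit 318)) (XT.nd (nat_lit 78) (nat_lit 228) (nat_lit 0) (XT.lf (nat_lit 0) (nat_lit 1927248242) (nat_lit 304) (nat_lit 2260560018) (nat_lit 76) (nat_lit 98922453812) (nat_lit 75) (nat_lit 5) (nat_lit 79) (nat_lit 5) (nat_lit 76) (nat_lit 5) (nat_lit 448) (nat_lit 435) (nat_lit 317)) (XT.lf (nat_lit 0) (nat_lit 19214704880) (nat_lit 304) (nat_lit 47929095035) (nat_lit 76) (nat_lit 40623654809) (nat_lit 72)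 (nat_lit 5) (nat_lit 76) (nat_lit 5) (nat_lit 73) (nat_lit 5) (nat_lit 449) (nat_lit 435) (nat_lit 316)))) (XT.nd (nat_lit 156) (nat_lit 152) (nat_lit 0) (XT.nd (nat_lit 78) (nat_lit 0) (nat_lit 0) (XT.lf (nat_lit 0) (nat_lit 14874143542) (nat_lit 228) (nat_lit 23540142393) (nat_lit 304) (nat_lit 74340606691) (nat_lit 69) (nat_lit 5) (nat_lit 72) (nat_lit 5) (nat_lit 73) (nat_lit 5) (nat_lit 450) (nat_lit 435) (nat_lit 315)) (XT.lf (nat_lit 0) (nat_lit 61060004876) (nat_lit 304) (nat_lit 33210581564) (nat_lit 76) (nat_lit 23717925478) (nat_lit 69) (nat_lit 5) (nat_lit 73) (nat_lit 5) (nat_lit 70) (nat_lit 5) (nat_lit 451) (nat_lit 435) (nat_lit 314))) (XT.nd (nat_lit 78) (nat_lit 0) (nat_lit 0) (XT.lf (nat_lit 0) (nat_lit 37917590971) (nat_lit 152) (nat_lit 49122442875) (nat_lit 228) (nat_lit 36478974766) (nat_lit 67) (nat_lit 5) (nat_lit 69) (nat_lit 5) (nat_lit 70) (nat_lit 5) (nat_lit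 452) (nat_lit 435) (nat_lit 313)) (XT.lf (nat_lit 0) (nat_lit 116020693537) (nat_lit 228) (nat_lit 12810428258) (nat_lit 76) (nat_lit 587045033) (nat_lit 67) (nat_lit 5) (nat_lit 70) (nat_lit 5) (nat_lit 68) (nat_lit 5) (nat_lit 453) (nat_lit 435) (nat_lit 312))))) (XT.nd (nat_lit 234) (nat_lit 456) (nat_lit 0) (XT.nd (nat_lit 78) (nat_lit 152) (nat_lit 0) (XT.lf (nat_lit 0) (nat_lit 13938175574) (nat_lit 228) (nat_lit 67984518641) (nat_lit 76) (nat_lit 53605624179) (nat_lit 64) (nat_lit 5) (nat_lit 67) (nat_lit 5) (nat_lit 65) (nat_lit 5) (nat_lit 454) (nat_lit 435) (nat_lit 311)) (XT.nd (nat_lit 78) (nat_lit 0) (nat_lit 0) (XT.lf (nat_lit 0) (nat_lit 13261004151) (nat_lit 152) (nat_lit 30153528679) (nat_lit 228) (nat_lit 98630696951) (nat_lit 62) (nat_lit 5) (nat_lit 64) (nat_lit 5) (nat_lit 65) (nat_lit 5) (nat_lit 455) (nat_lit 435) (nat_lit 310)) (XT.lf (nat_lit 0) (nat_lit 77774957041)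 (nat_lit 228) (nat_lit 44730964348) (nat_lit 76) (nat_lit 26375496064) (nat_lit 62) (nat_lit 5) (nat_lit 65) (nat_lit 5) (nat_lit 63) (nat_lit 5) (nat_lit 456) (nat_lit 435) (nat_lit 309)))) (XT.nd (nat_lit 156) (nat_lit 304) (nat_lit 0) (XT.nd (nat_lit 78) (nat_lit 0) (nat_lit 0) (XT.lf (nat_lit 0) (nat_lit 47645918226) (nat_lit 152) (nat_lit 69166835076) (nat_lit 228) (nat_lit 39297463825) (nat_lit 60) (nat_lit 5) (nat_lit 62) (nat_lit 5) (nat_lit 63) (nat_lit 5) (nat_lit 457) (nat_lit 435) (nat_lit 308)) (XT.lf (nat_lit 0) (nat_lit 149955990213) (nat_lit 152) (nat_lit 10240071704) (nat_lit 228) (nat_lit 3623459803) (nat_lit 60) (nat_lit 5) (nat_lit 62) (nat_lit 5) (nat_lit 63) (nat_lit 5) (nat_lit 458) (nat_lit 435) (nat_lit 307))) (XT.nd (nat_lit 78) (nat_lit 152) (nat_lit 0) (XT.lf (nat_lit 0) (nat_lit 36735800292) (nat_lit 152) (nat_lit 81194130139) (nat_lit 76) (nat_lit 53862292148)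 (nat_lit 58) (nat_lit 5) (nat_lit 60) (nat_lit 5) (nat_lit 59) (nat_lit 5) (nat_lit 459) (nat_lit 435) (nat_lit 306)) (XT.lf (nat_lit 0) (nat_lit 24697361324) (nat_lit 152) (nat_lit 56679028827) (nat_lit 228) (nat_lit 98918952127) (nat_lit 56) (nat_lit 5) (nat_lit 58) (nat_lit 5) (nat_lit 59) (nat_lit 5) (nat_lit 460) (nat_lit 435) (nat_lit 305)))))) (XT.nd (nat_lit 546) (nat_lit 456) (nat_lit 0) (XT.nd (nat_lit 234) (nat_lit 456) (nat_lit 0) (XT.nd (nat_lit 78) (nat_lit 152) (nat_lit 0) (XT.lf (nat_lit 0) (nat_lit 132093193683) (nat_lit 228) (nat_lit 45909656143) (nat_lit 76) (nat_lit 11275464434) (nat_lit 56) (nat_lit 5) (nat_lit 59) (nat_lit 5) (nat_lit 57) (nat_lit 4) (nat_lit 461) (nat_lit 435) (nat_lit 304)) (XT.nd (nat_lit 78) (nat_lit 76) (nat_lit 0) (XT.lf (nat_lit 0) (nat_lit 74823766288) (nat_lit 76) (nat_lit 115314819729) (nat_lit 152) (nat_lit 8579638446) (nat_lit 55) (nat_lit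 5) (nat_lit 56) (nat_lit 5) (nat_lit 57) (nat_lit 4) (nat_lit 462) (nat_lit 435) (nat_lit 303)) (XT.lf (nat_lit 0) (nat_lit 43004919821) (nat_lit 152) (nat_lit 2075643136) (nat_lit 76) (nat_lit 163645280756) (nat_lit 54) (nat_lit 5) (nat_lit 56) (nat_lit 5) (nat_lit 55) (nat_lit 5) (nat_lit 463) (nat_lit 435) (nat_lit 302)))) (XT.nd (nat_lit 156) (nat_lit 228) (nat_lit 0) (XT.nd (nat_lit 78) (nat_lit 76) (nat_lit 0) (XT.lf (nat_lit 0) (nat_lit 102355699096) (nat_lit 228) (nat_lit 84013353769) (nat_lit 76) (nat_lit 32818953465) (nat_lit 52) (nat_lit 5) (nat_lit 55) (nat_lit 5) (nat_lit 53) (nat_lit 4) (nat_lit 464) (nat_lit 435) (nat_lit 301)) (XT.lf (nat_lit 0) (nat_lit 54598528914) (nat_lit 76) (nat_lit 114397849522) (nat_lit 152) (nat_lit 61287416522) (nat_lit 51) (nat_lit 5) (nat_lit 52) (nat_lit 5) (nat_lit 53) (nat_lit 4) (nat_lit 465) (nat_lit 435) (nat_lit 300))) (XT.nd (nat_lit 78)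 (nat_lit 152) (nat_lit 0) (XT.lf (nat_lit 0) (nat_lit 1122376798) (nat_lit 152) (nat_lit 33035359073) (nat_lit 76) (nat_lit 207923503300) (nat_lit 50) (nat_lit 5) (nat_lit 52) (nat_lit 5) (nat_lit 51) (nat_lit 5) (nat_lit 466) (nat_lit 435) (nat_lit 299)) (XT.lf (nat_lit 0) (nat_lit 69619652506) (nat_lit 228) (nat_lit 130112641887) (nat_lit 76) (nat_lit 54610369165) (nat_lit 48) (nat_lit 5) (nat_lit 51) (nat_lit 5) (nat_lit 49) (nat_lit 4) (nat_lit 467) (nat_lit 435) (nat_lit 298))))) (XT.nd (nat_lit 234) (nat_lit 228) (nat_lit 0) (XT.nd (nat_lit 78) (nat_lit 152) (nat_lit 0) (XT.lf (nat_lit 0) (nat_lit 28981034271) (nat_lit 76) (nat_lit 117126220630) (nat_lit 152) (nat_lit 121276903437) (nat_lit 47) (nat_lit 5) (nat_lit 48) (nat_lit 5) (nat_lit 49) (nat_lit 4) (nat_lit 468) (nat_lit 435) (nat_lit 297)) (XT.nd (nat_lit 78) (nat_lit 152) (nat_lit 0) (XT.lf (nat_lit 0) (nat_lit 208201162634)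 (nat_lit 76) (nat_lit 24069854489) (nat_lit 152) (nat_lit 48913383459) (nat_lit 47) (nat_lit 5) (nat_lit 48) (nat_lit 5) (nat_lit 49) (nat_lit 4) (nat_lit 469) (nat_lit 435) (nat_lit 296)) (XT.lf (nat_lit 0) (nat_lit 32359039366) (nat_lit 152) (nat_lit 187251543695) (nat_lit 76) (nat_lit 76055224014) (nat_lit 45) (nat_lit 5) (nat_lit 47) (nat_lit 5) (nat_lit 46) (nat_lit 4) (nat_lit 470) (nat_lit 435) (nat_lit 295)))) (XT.nd (nat_lit 156) (nat_lit 152) (nat_lit 0) (XT.nd (nat_lit 78) (nat_lit 76) (nat_lit 0) (XT.lf (nat_lit 0) (nat_lit 120162838759) (nat_lit 152) (nat_lit 4620035539) (nat_lit 76) (nat_lit 186207439526) (nat_lit 45) (nat_lit 5) (nat_lit 47) (nat_lit 5) (nat_lit 46) (nat_lit 4) (nat_lit 471) (nat_lit 435) (nat_lit 294)) (XT.lf (nat_lit 0) (nat_lit 202764506659) (nat_lit 76) (nat_lit 17102614577) (nat_lit 152) (nat_lit 107283565556) (nat_lit 44) (nat_lit 5) (nat_lit 45) (nat_lit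 5) (nat_lit 46) (nat_lit 4) (nat_lit 472) (nat_lit 435) (nat_lit 293))) (XT.nd (nat_lit 78) (nat_lit 76) (nat_lit 0) (XT.lf (nat_lit 0) (nat_lit 84233005987) (nat_lit 76) (nat_lit 247855409399) (nat_lit 76) (nat_lit 12152220693) (nat_lit 43) (nat_lit 4) (nat_lit 44) (nat_lit 5) (nat_lit 44) (nat_lit 4) (nat_lit 473) (nat_lit 435) (nat_lit 292)) (XT.lf (nat_lit 0) (nat_lit 89991161839) (nat_lit 152) (nat_lit 48521862109) (nat_lit 76) (nat_lit 223695807514) (nat_lit 42) (nat_lit 5) (nat_lit 44) (nat_lit 5) (nat_lit 43) (nat_lit 4) (nat_lit 474) (nat_lit 435) (nat_lit 291))))))) (XT.nd (nat_lit 1092) (nat_lit 912) (nat_lit 0) (XT.nd (nat_lit 546) (nat_lit 456) (nat_lit 0) (XT.nd (nat_lit 234) (nat_lit 304) (nat_lit 0) (XT.nd (nat_lit 78) (nat_lit 152) (nat_lit 0) (XT.lf (nat_lit 0) (nat_lit 189022234293) (nat_lit 76) (nat_lit 15172949156) (nat_lit 152) (nat_lit 177030391344) (nat_lit 41) (nat_lit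 5) (nat_lit 42) (nat_lit 5) (nat_lit 43) (nat_lit 4) (nat_lit 475) (nat_lit 435) (nat_lit 290)) (XT.nd (nat_lit 78) (nat_lit 76) (nat_lit 0) (XT.lf (nat_lit 0) (nat_lit 46104406885) (nat_lit 76) (nat_lit 286739510088) (nat_lit 76) (nat_lit 68495069407) (nat_lit 40) (nat_lit 4) (nat_lit 41) (nat_lit 5) (nat_lit 41) (nat_lit 4) (nat_lit 476) (nat_lit 435) (nat_lit 289)) (XT.lf (nat_lit 0) (nat_lit 52071251015) (nat_lit 152) (nat_lit 109936451748) (nat_lit 76) (nat_lit 260497184967) (nat_lit 39) (nat_lit 5) (nat_lit 41) (nat_lit 5) (nat_lit 40) (nat_lit 4) (nat_lit 477) (nat_lit 435) (nat_lit 288)))) (XT.nd (nat_lit 156) (nat_lit 228) (nat_lit 0) (XT.nd (nat_lit 78) (nat_lit 0) (nat_lit 0) (XT.lf (nat_lit 0) (nat_lit 161273475124) (nat_lit 76) (nat_lit 21187258709) (nat_lit 152) (nat_lit 262450730374) (nat_lit 38) (nat_lit 5) (nat_lit 39) (nat_lit 5) (nat_lit 40) (nat_lit 4) (nat_lit 478) (nat_lit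 435) (nat_lit 287)) (XT.lf (nat_lit 0) (nat_lit 329513166869) (nat_lit 152) (nat_lit 11664424942) (nat_lit 0) (nat_lit 127434431668) (nat_lit 38) (nat_lit 5) (nat_lit 40) (nat_lit 4) (nat_lit 38) (nat_lit 4) (nat_lit 479) (nat_lit 435) (nat_lit 286))) (XT.nd (nat_lit 78) (nat_lit 76) (nat_lit 0) (XT.lf (nat_lit 0) (nat_lit 2291725552) (nat_lit 152) (nat_lit 197312102746) (nat_lit 76) (nat_lit 293985992048) (nat_lit 36) (nat_lit 5) (nat_lit 38) (nat_lit 5) (nat_lit 37) (nat_lit 4) (nat_lit 480) (nat_lit 435) (nat_lit 285)) (XT.lf (nat_lit 0) (nat_lit 110904444230) (nat_lit 76) (nat_lit 39568383275) (nat_lit 152) (nat_lit 369564438919) (nat_lit 35) (nat_lit 5) (nat_lit 36) (nat_lit 5) (nat_lit 37) (nat_lit 4) (nat_lit 481) (nat_lit 435) (nat_lit 284))))) (XT.nd (nat_lit 234) (nat_lit 228) (nat_lit 0) (XT.nd (nat_lit 78) (nat_lit 228) (nat_lit 0) (XT.lf (nat_lit 0) (nat_lit 319248311865) (nat_lit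 152) (nat_lit 96515036741) (nat_lit 0) (nat_lit 132137968048) (nat_lit 35) (nat_lit 5) (nat_lit 37) (nat_lit 4) (nat_lit 35) (nat_lit 4) (nat_lit 482) (nat_lit 435) (nat_lit 283)) (XT.nd (nat_lit 78) (nat_lit 152) (nat_lit 0) (XT.lf (nat_lit 0) (nat_lit 252726377448) (nat_lit 76) (nat_lit 255905062043) (nat_lit 76) (nat_lit 68794603052) (nat_lit 34) (nat_lit 4) (nat_lit 35) (nat_lit 5) (nat_lit 35) (nat_lit 4) (nat_lit 483) (nat_lit 435) (nat_lit 282)) (XT.lf (nat_lit 0) (nat_lit 24977186978) (nat_lit 76) (nat_lit 76988078700) (nat_lit 152) (nat_lit 506883035190) (nat_lit 32) (nat_lit 5) (nat_lit 33) (nat_lit 5) (nat_lit 34) (nat_lit 4) (nat_lit 484) (nat_lit 435) (nat_lit 281)))) (XT.nd (nat_lit 156) (nat_lit 152) (nat_lit 0) (XT.nd (nat_lit 78) (nat_lit 76) (nat_lit 0) (XT.lf (nat_lit 0) (nat_lit 294573095966) (nat_lit 152) (nat_lit 225793503870) (nat_lit 0) (nat_lit 121322480802) (nat_lit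 32) (nat_lit 5) (nat_lit 34) (nat_lit 4) (nat_lit 32) (nat_lit 4) (nat_lit 485) (nat_lit 435) (nat_lit 280)) (XT.lf (nat_lit 0) (nat_lit 167299198709) (nat_lit 76) (nat_lit 341313390491) (nat_lit 76) (nat_lit 168062690670) (nat_lit 31) (nat_lit 4) (nat_lit 32) (nat_lit 5) (nat_lit 32) (nat_lit 4) (nat_lit 486) (nat_lit 435) (nat_lit 279))) (XT.nd (nat_lit 78) (nat_lit 76) (nat_lit 0) (XT.lf (nat_lit 0) (nat_lit 30382259080) (nat_lit 152) (nat_lit 110055679320) (nat_lit 76) (nat_lit 573467031238) (nat_lit 30) (nat_lit 5) (nat_lit 32) (nat_lit 5) (nat_lit 31) (nat_lit 4) (nat_lit 487) (nat_lit 435) (nat_lit 278)) (XT.lf (nat_lit 0) (nat_lit 245805986114) (nat_lit 152) (nat_lit 421754661068) (nat_lit 0) (nat_lit 85388531682) (nat_lit 29) (nat_lit 5) (nat_lit 31) (nat_lit 4) (nat_lit 29) (nat_lit 4) (nat_lit 488) (nat_lit 435) (nat_lit 277)))))) (XT.nd (nat_lit 546) (nat_lit 456) (nat_lit 0)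 (XT.nd (nat_lit 234) (nat_lit 228) (nat_lit 0) (XT.nd (nat_lit 78) (nat_lit 152) (nat_lit 0) (XT.lf (nat_lit 0) (nat_lit 16212222809) (nat_lit 76) (nat_lit 469376120077) (nat_lit 76) (nat_lit 308958603419) (nat_lit 28) (nat_lit 4) (nat_lit 29) (nat_lit 5) (nat_lit 29) (nat_lit 4) (nat_lit 489) (nat_lit 435) (nat_lit 276)) (XT.nd (nat_lit 78) (nat_lit 152) (nat_lit 0) (XT.lf (nat_lit 0) (nat_lit 513201648373) (nat_lit 76) (nat_lit 242882977033) (nat_lit 76) (nat_lit 82465402760) (nat_lit 28) (nat_lit 4) (nat_lit 29) (nat_lit 5) (nat_lit 29) (nat_lit 4) (nat_lit 490) (nat_lit 435) (nat_lit 275)) (XT.lf (nat_lit 0) (nat_lit 158333944123) (nat_lit 152) (nat_lit 717284500891) (nat_lit 0) (nat_lit 9799103733) (nat_lit 26) (nat_lit 5) (nat_lit 28) (nat_lit 4) (nat_lit 26) (nat_lit 4) (nat_lit 491) (nat_lit 435) (nat_lit 274)))) (XT.nd (nat_lit 156) (nat_lit 152) (nat_lit 0) (XT.nd (nat_lit 78)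 (nat_lit 76) (nat_lit 0) (XT.lf (nat_lit 0) (nat_lit 429377096559) (nat_lit 152) (nat_lit 224408996784) (nat_lit 0) (nat_lit 280842210431) (nat_lit 26) (nat_lit 5) (nat_lit 28) (nat_lit 4) (nat_lit 26) (nat_lit 4) (nat_lit 492) (nat_lit 435) (nat_lit 273)) (XT.lf (nat_lit 0) (nat_lit 324109490706) (nat_lit 76) (nat_lit 405788891257) (nat_lit 76) (nat_lit 257253962780) (nat_lit 25) (nat_lit 4) (nat_lit 26) (nat_lit 5) (nat_lit 26) (nat_lit 4) (nat_lit 493) (nat_lit 435) (nat_lit 272))) (XT.nd (nat_lit 78) (nat_lit 76) (nat_lit 0) (XT.lf (nat_lit 0) (nat_lit 16348603043) (nat_lit 152) (nat_lit 114529873358) (nat_lit 76) (nat_lit 912475874804) (nat_lit 24) (nat_lit 5) (nat_lit 26) (nat_lit 5) (nat_lit 25) (nat_lit 4) (nat_lit 494) (nat_lit 435) (nat_lit 271)) (XT.lf (nat_lit 0) (nat_lit 314345773906) (nat_lit 152) (nat_lit 611046444142) (nat_lit 0) (nat_lit 176813362797) (nat_lit 23) (nat_lit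 5) (nat_lit 25) (nat_lit 4) (nat_lit 23) (nat_lit 4) (nat_lit 495) (nat_lit 435) (nat_lit 270))))) (XT.nd (nat_lit 312) (nat_lit 228) (nat_lit 0) (XT.nd (nat_lit 156) (nat_lit 152) (nat_lit 0) (XT.nd (nat_lit 78) (nat_lit 76) (nat_lit 0) (XT.lf (nat_lit 0) (nat_lit 642794797476) (nat_lit 152) (nat_lit 17178789816) (nat_lit 0) (nat_lit 505262355239) (nat_lit 23) (nat_lit 5) (nat_lit 25) (nat_lit 4) (nat_lit 23) (nat_lit 4) (nat_lit 496) (nat_lit 435) (nat_lit 269)) (XT.lf (nat_lit 0) (nat_lit 657067157013) (nat_lit 76) (nat_lit 356254929842) (nat_lit 76) (nat_lit 218722458783) (nat_lit 22) (nat_lit 4) (nat_lit 23) (nat_lit 5) (nat_lit 23) (nat_lit 4) (nat_lit 497) (nat_lit 435) (nat_lit 268))) (XT.nd (nat_lit 78) (nat_lit 0) (nat_lit 0) (XT.lf (nat_lit 0) (nat_lit 83611058337) (nat_lit 76) (nat_lit 22707959010) (nat_lit 152) (nat_lit 1197469129550) (nat_lit 20) (nat_lit 5) (nat_lit 21) (nat_lit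 5) (nat_lit 22) (nat_lit 4) (nat_lit 498) (nat_lit 435) (nat_lit 267)) (XT.lf (nat_lit 0) (nat_lit 469793647569) (nat_lit 152) (nat_lit 566634658703) (nat_lit 0) (nat_lit 342448719368) (nat_lit 20) (nat_lit 5) (nat_lit 22) (nat_lit 4) (nat_lit 20) (nat_lit 4) (nat_lit 499) (nat_lit 435) (nat_lit 266)))) (XT.nd (nat_lit 156) (nat_lit 152) (nat_lit 0) (XT.nd (nat_lit 78) (nat_lit 0) (nat_lit 0) (XT.lf (nat_lit 0) (nat_lit 145899576417) (nat_lit 76) (nat_lit 720545250671) (nat_lit 76) (nat_lit 593200301285) (nat_lit 19) (nat_lit 4) (nat_lit 20) (nat_lit 5) (nat_lit 20) (nat_lit 4) (nat_lit 500) (nat_lit 435) (nat_lit 265)) (XT.lf (nat_lit 0) (nat_lit 947661312326) (nat_lit 76) (nat_lit 362659461102) (nat_lit 76) (nat_lit 235314492100) (nat_lit 19) (nat_lit 4) (nat_lit 20) (nat_lit 5) (nat_lit 20) (nat_lit 4) (nat_lit 501) (nat_lit 435) (nat_lit 264))) (XT.nd (nat_lit 78) (nat_lit 0) (nat_lit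 0) (XT.lf (nat_lit 0) (nat_lit 148759072734) (nat_lit 152) (nat_lit 1458197929139) (nat_lit 0) (nat_lit 30847047581) (nat_lit 17) (nat_lit 5) (nat_lit 19) (nat_lit 4) (nat_lit 17) (nat_lit 4) (nat_lit 502) (nat_lit 435) (nat_lit 263)) (XT.lf (nat_lit 0) (nat_lit 577039371685) (nat_lit 152) (nat_lit 698595152785) (nat_lit 0) (nat_lit 459127330960) (nat_lit 17) (nat_lit 5) (nat_lit 19) (nat_lit 4) (nat_lit 17) (nat_lit 4) (nat_lit 503) (nat_lit 435) (nat_lit 262))))))))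
noncomputable def xc171 : XT := (XT.nd (nat_lit 2184) (nat_lit 152) (nat_lit 0) (XT.nd (nat_lit 1092) (nat_lit 304) (nat_lit 0) (XT.nd (nat_lit 546) (nat_lit 380) (nat_lit 0) (XT.nd (nat_lit 234) (nat_lit 152) (nat_lit 0) (XT.nd (nat_lit 78) (nat_lit 76) (nat_lit 0) (XT.lf (nat_lit 0) (nat_lit 128188111299) (nat_lit 76) (nat_lit 914476802110) (nat_lit 76) (nat_lit 796564746967) (nat_lit 16) (nat_lit 4) (nat_lit 17) (nat_lit 5) (nat_lit 17) (nat_lit 4) (nat_lit 504) (nat_lit 435) (nat_lit 261)) (XT.nd (nat_lit 78) (nat_lit 76) (nat_lit 0) (XT.lf (nat_lit 0) (nat_lit 1060843544631) (nat_lit 76) (nat_lit 503797677831) (nat_lit 76) (nat_lit 385885609337) (nat_lit 16) (nat_lit 4) (nat_lit 17) (nat_lit 5) (nat_lit 17) (nat_lit 4) (nat_lit 505) (nat_lit 435) (nat_lit 260)) (XT.lf (nat_lit 0) (nat_lit 54763979678) (nat_lit 152) (nat_lit 4003003123) (nat_lit 76) (nat_lit 2011849887560) (nat_lit 15)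 (nat_lit 5) (nat_lit 17) (nat_lit 5) (nat_lit 16) (nat_lit 4) (nat_lit 506) (nat_lit 435) (nat_lit 259)))) (XT.nd (nat_lit 156) (nat_lit 76) (nat_lit 0) (XT.nd (nat_lit 78) (nat_lit 0) (nat_lit 0) (XT.lf (nat_lit 0) (nat_lit 544704564470) (nat_lit 152) (nat_lit 1216490056118) (nat_lit 0) (nat_lit 435526701229) (nat_lit 14) (nat_lit 5) (nat_lit 16) (nat_lit 4) (nat_lit 14) (nat_lit 4) (nat_lit 507) (nat_lit 435) (nat_lit 258)) (XT.lf (nat_lit 0) (nat_lit 1075479010505) (nat_lit 152) (nat_lit 291002892277) (nat_lit 0) (nat_lit 966301137451) (nat_lit 14) (nat_lit 5) (nat_lit 16) (nat_lit 4) (nat_lit 14) (nat_lit 4) (nat_lit 508) (nat_lit 435) (nat_lit 257))) (XT.nd (nat_lit 78) (nat_lit 0) (nat_lit 0) (XT.lf (nat_lit 0) (nat_lit 745832636752) (nat_lit 76) (nat_lit 920819982475) (nat_lit 76) (nat_lit 811642100335) (nat_lit 13) (nat_lit 4) (nat_lit 14) (nat_lit 5) (nat_lit 14) (nat_lit 4) (nat_lit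 509) (nat_lit 435) (nat_lit 256)) (XT.lf (nat_lit 0) (nat_lit 1882164427872) (nat_lit 76) (nat_lit 430912139914) (nat_lit 76) (nat_lit 321734249361) (nat_lit 13) (nat_lit 4) (nat_lit 14) (nat_lit 5) (nat_lit 14) (nat_lit 4) (nat_lit 510) (nat_lit 435) (nat_lit 255))))) (XT.nd (nat_lit 234) (nat_lit 228) (nat_lit 0) (XT.nd (nat_lit 78) (nat_lit 0) (nat_lit 0) (XT.lf (nat_lit 0) (nat_lit 207290759068) (nat_lit 152) (nat_lit 2489134531751) (nat_lit 0) (nat_lit 106200112454) (nat_lit 11) (nat_lit 5) (nat_lit 13) (nat_lit 4) (nat_lit 11) (nat_lit 4) (nat_lit 511) (nat_lit 435) (nat_lit 254)) (XT.nd (nat_lit 78) (nat_lit 0) (nat_lit 0) (XT.lf (nat_lit 0) (nat_lit 793561403107) (nat_lit 152) (nat_lit 1494580013375) (nat_lit 0) (nat_lit 692470749814) (nat_lit 11) (nat_lit 5) (nat_lit 13) (nat_lit 4) (nat_lit 11) (nat_lit 4) (nat_lit 512) (nat_lit 435) (nat_lit 253)) (XT.lf (nat_lit 0) (nat_lit 1426733625156)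 (nat_lit 152) (nat_lit 420461285408) (nat_lit 0) (nat_lit 1325642965680) (nat_lit 11) (nat_lit 5) (nat_lit 13) (nat_lit 4) (nat_lit 11) (nat_lit 4) (nat_lit 513) (nat_lit 435) (nat_lit 252)))) (XT.nd (nat_lit 156) (nat_lit 152) (nat_lit 0) (XT.nd (nat_lit 78) (nat_lit 0) (nat_lit 0) (XT.lf (nat_lit 0) (nat_lit 778532130404) (nat_lit 76) (nat_lit 1350751142957) (nat_lit 76) (nat_lit 1249660477755) (nat_lit 10) (nat_lit 4) (nat_lit 11) (nat_lit 5) (nat_lit 11) (nat_lit 4) (nat_lit 514) (nat_lit 435) (nat_lit 251)) (XT.lf (nat_lit 0) (nat_lit 2097356888276) (nat_lit 76) (nat_lit 802176095489) (nat_lit 76) (nat_lit 701085424985) (nat_lit 10) (nat_lit 4) (nat_lit 11) (nat_lit 5) (nat_lit 11) (nat_lit 4) (nat_lit 515) (nat_lit 435) (nat_lit 250))) (XT.nd (nat_lit 78) (nat_lit 152) (nat_lit 0) (XT.lf (nat_lit 0) (nat_lit 3521687499864) (nat_lit 76) (nat_lit 209715109728) (nat_lit 76) (nat_lit 108624434316)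 (nat_lit 10) (nat_lit 4) (nat_lit 11) (nat_lit 5) (nat_lit 11) (nat_lit 4) (nat_lit 516) (nat_lit 435) (nat_lit 249)) (XT.lf (nat_lit 0) (nat_lit 539974678425) (nat_lit 152) (nat_lit 3108394145057) (nat_lit 0) (nat_lit 446372196983) (nat_lit 8) (nat_lit 5) (nat_lit 10) (nat_lit 4) (nat_lit 8) (nat_lit 4) (nat_lit 517) (nat_lit 435) (nat_lit 248)))))) (XT.nd (nat_lit 546) (nat_lit 76) (nat_lit 0) (XT.nd (nat_lit 234) (nat_lit 152) (nat_lit 0) (XT.nd (nat_lit 78) (nat_lit 76) (nat_lit 0) (XT.lf (nat_lit 0) (nat_lit 1248970311077) (nat_lit 152) (nat_lit 1964118094681) (nat_lit 0) (nat_lit 1155367825738) (nat_lit 8) (nat_lit 5) (nat_lit 10) (nat_lit 4) (nat_lit 8) (nat_lit 4) (nat_lit 518) (nat_lit 435) (nat_lit 247)) (XT.nd (nat_lit 78) (nat_lit 76) (nat_lit 0) (XT.lf (nat_lit 0) (nat_lit 2014685540357) (nat_lit 152) (nat_lit 728300071960) (nat_lit 0) (nat_lit 1921083051410) (nat_lit 8) (nat_lit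 5) (nat_lit 10) (nat_lit 4) (nat_lit 8) (nat_lit 4) (nat_lit 519) (nat_lit 435) (nat_lit 246)) (XT.lf (nat_lit 0) (nat_lit 638314358568) (nat_lit 76) (nat_lit 2218695055101) (nat_lit 76) (nat_lit 2125092562813) (nat_lit 7) (nat_lit 4) (nat_lit 8) (nat_lit 5) (nat_lit 8) (nat_lit 4) (nat_lit 520) (nat_lit 435) (nat_lit 245)))) (XT.nd (nat_lit 156) (nat_lit 152) (nat_lit 0) (XT.nd (nat_lit 78) (nat_lit 0) (nat_lit 0) (XT.lf (nat_lit 0) (nat_lit 2155676913167) (nat_lit 76) (nat_lit 1630955249599) (nat_lit 76) (nat_lit 1537352754217) (nat_lit 7) (nat_lit 4) (nat_lit 8) (nat_lit 5) (nat_lit 8) (nat_lit 4) (nat_lit 521) (nat_lit 435) (nat_lit 244)) (XT.lf (nat_lit 0) (nat_lit 3794428378805) (nat_lit 76) (nat_lit 996196307887) (nat_lit 76) (nat_lit 902593809641) (nat_lit 7) (nat_lit 4) (nat_lit 8) (nat_lit 5) (nat_lit 8) (nat_lit 4) (nat_lit 522) (nat_lit 435) (nat_lit 243))) (XT.nd (nat_lit 78)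 (nat_lit 152) (nat_lit 0) (XT.lf (nat_lit 0) (nat_lit 5564279875279) (nat_lit 76) (nat_lit 310656695495) (nat_lit 76) (nat_lit 217054194597) (nat_lit 7) (nat_lit 4) (nat_lit 8) (nat_lit 5) (nat_lit 8) (nat_lit 4) (nat_lit 523) (nat_lit 435) (nat_lit 242)) (XT.lf (nat_lit 0) (nat_lit 532239120877) (nat_lit 152) (nat_lit 5541041509812) (nat_lit 0) (nat_lit 445570136290) (nat_lit 5) (nat_lit 5) (nat_lit 7) (nat_lit 4) (nat_lit 5) (nat_lit 4) (nat_lit 524) (nat_lit 435) (nat_lit 241))))) (XT.nd (nat_lit 234) (nat_lit 76) (nat_lit 0) (XT.nd (nat_lit 78) (nat_lit 0) (nat_lit 0) (XT.lf (nat_lit 0) (nat_lit 1352621621213) (nat_lit 152) (nat_lit 4359004508564) (nat_lit 0) (nat_lit 1265952634521) (nat_lit 5) (nat_lit 5) (nat_lit 7) (nat_lit 4) (nat_lit 5) (nat_lit 4) (nat_lit 525) (nat_lit 435) (nat_lit 240)) (XT.nd (nat_lit 78) (nat_lit 0) (nat_lit 0) (XT.lf (nat_lit 0) (nat_lit 2238634684864) (nat_lit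 152) (nat_lit 3082404623255) (nat_lit 0) (nat_lit 2151965696222) (nat_lit 5) (nat_lit 5) (nat_lit 7) (nat_lit 4) (nat_lit 5) (nat_lit 4) (nat_lit 526) (nat_lit 435) (nat_lit 239)) (XT.lf (nat_lit 0) (nat_lit 3195528759612) (nat_lit 152) (nat_lit 1703676817528) (nat_lit 0) (nat_lit 3108859769166) (nat_lit 5) (nat_lit 5) (nat_lit 7) (nat_lit 4) (nat_lit 5) (nat_lit 4) (nat_lit 527) (nat_lit 435) (nat_lit 238)))) (XT.nd (nat_lit 156) (nat_lit 0) (nat_lit 0) (XT.nd (nat_lit 78) (nat_lit 76) (nat_lit 0) (XT.lf (nat_lit 0) (nat_lit 4228974328865) (nat_lit 152) (nat_lit 214650852533) (nat_lit 0) (nat_lit 4142305336748) (nat_lit 5) (nat_lit 5) (nat_lit 7) (nat_lit 4) (nat_lit 5) (nat_lit 4) (nat_lit 528) (nat_lit 435) (nat_lit 237)) (XT.lf (nat_lit 0) (nat_lit 1466876218638) (nat_lit 76) (nat_lit 3913497704213) (nat_lit 76) (nat_lit 3826828710548) (nat_lit 4) (nat_lit 4) (nat_lit 5) (nat_lit 5)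 (nat_lit 5) (nat_lit 4) (nat_lit 529) (nat_lit 435) (nat_lit 236))) (XT.nd (nat_lit 78) (nat_lit 0) (nat_lit 0) (XT.lf (nat_lit 0) (nat_lit 3295132780850) (nat_lit 76) (nat_lit 3334621609808) (nat_lit 76) (nat_lit 3247952614710) (nat_lit 4) (nat_lit 4) (nat_lit 5) (nat_lit 5) (nat_lit 5) (nat_lit 4) (nat_lit 530) (nat_lit 435) (nat_lit 235)) (XT.lf (nat_lit 0) (nat_lit 5269649813563) (nat_lit 76) (nat_lit 2709435456029) (nat_lit 76) (nat_lit 2622766459604) (nat_lit 4) (nat_lit 4) (nat_lit 5) (nat_lit 5) (nat_lit 5) (nat_lit 4) (nat_lit 531) (nat_lit 435) (nat_lit 234))))))) (XT.nd (nat_lit 55380) (nat_lit 0) (nat_lit 4712) (XT.nd (nat_lit 546) (nat_lit 0) (nat_lit 0) (XT.nd (nat_lit 234) (nat_lit 152) (nat_lit 0) (XT.nd (nat_lit 78) (nat_lit 0) (nat_lit 0) (XT.lf (nat_lit 0) (nat_lit 7402128158453) (nat_lit 76) (nat_lit 2034234436041) (nat_lit 76) (nat_lit 1947565438387) (nat_lit 4) (nat_lit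 4) (nat_lit 5) (nat_lit 5) (nat_lit 5) (nat_lit 4) (nat_lit 532) (nat_lit 435) (nat_lit 233)) (XT.nd (nat_lit 78) (nat_lit 0) (nat_lit 0) (XT.lf (nat_lit 0) (nat_lit 9705204724230) (nat_lit 76) (nat_lit 1305017358612) (nat_lit 76) (nat_lit 1218348359821) (nat_lit 4) (nat_lit 4) (nat_lit 5) (nat_lit 5) (nat_lit 5) (nat_lit 4) (nat_lit 533) (nat_lit 435) (nat_lit 232)) (XT.lf (nat_lit 0) (nat_lit 12192527372024) (nat_lit 76) (nat_lit 517462937359) (nat_lit 76) (nat_lit 430793937515) (nat_lit 4) (nat_lit 4) (nat_lit 5) (nat_lit 5) (nat_lit 5) (nat_lit 4) (nat_lit 534) (nat_lit 435) (nat_lit 231)))) (XT.nd (nat_lit 156) (nat_lit 0) (nat_lit 0) (XT.nd (nat_lit 78) (nat_lit 0) (nat_lit 0) (XT.lf (nat_lit 0) (nat_lit 426332265545) (nat_lit 152) (nat_lit 13350546809718) (nat_lit 0) (nat_lit 346083190712) (nat_lit 2) (nat_lit 5) (nat_lit 4) (nat_lit 4) (nat_lit 2) (nat_lit 4) (nat_lit 535) (nat_lit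 435) (nat_lit 230)) (XT.lf (nat_lit 0) (nat_lit 1368795531318) (nat_lit 152) (nat_lit 12522274101093) (nat_lit 0) (nat_lit 1288546455649) (nat_lit 2) (nat_lit 5) (nat_lit 4) (nat_lit 4) (nat_lit 2) (nat_lit 4) (nat_lit 536) (nat_lit 435) (nat_lit 229))) (XT.nd (nat_lit 78) (nat_lit 0) (nat_lit 0) (XT.lf (nat_lit 0) (nat_lit 2386655839998) (nat_lit 152) (nat_lit 11627739613827) (nat_lit 0) (nat_lit 2306406763556) (nat_lit 2) (nat_lit 5) (nat_lit 4) (nat_lit 4) (nat_lit 2) (nat_lit 4) (nat_lit 537) (nat_lit 435) (nat_lit 228)) (XT.lf (nat_lit 0) (nat_lit 3485944956378) (nat_lit 152) (nat_lit 10661642402810) (nat_lit 0) (nat_lit 3405695879218) (nat_lit 2) (nat_lit 5) (nat_lit 4) (nat_lit 4) (nat_lit 2) (nat_lit 4) (nat_lit 538) (nat_lit 435) (nat_lit 227))))) (XT.nd (nat_lit 54522) (nat_lit 0) (nat_lit 6384) (XT.nd (nat_lit 78) (nat_lit 0) (nat_lit 0) (XT.lf (nat_lit 0) (nat_lit 4673177186331)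 (nat_lit 152) (nat_lit 9618257447533) (nat_lit 0) (nat_lit 4592928108508) (nat_lit 2) (nat_lit 5) (nat_lit 4) (nat_lit 4) (nat_lit 2) (nat_lit 4) (nat_lit 539) (nat_lit 435) (nat_lit 226)) (XT.nd (nat_lit 54366) (nat_lit 0) (nat_lit 6916) (XT.lf (nat_lit 0) (nat_lit 5955387980110) (nat_lit 152) (nat_lit 8491401726039) (nat_lit 0) (nat_lit 5875138901673) (nat_lit 2) (nat_lit 5) (nat_lit 4) (nat_lit 4) (nat_lit 2) (nat_lit 4) (nat_lit 540) (nat_lit 435) (nat_lit 225)) (XT.lf (nat_lit 0) (nat_lit 31922093547) (nat_lit 532) (nat_lit 248176987) (nat_lit 532) (nat_lit 248176987) (nat_lit 93) (nat_lit 3) (nat_lit 100) (nat_lit 3) (nat_lit 100) (nat_lit 5) (nat_lit 436) (nat_lit 436) (nat_lit 328)))) (XT.nd (nat_lit 156) (nat_lit 0) (nat_lit 76) (XT.nd (nat_lit 78) (nat_lit 532) (nat_lit 0) (XT.lf (nat_lit 76) (nat_lit 33466630149) (nat_lit 0) (nat_lit 33750901671) (nat_lit 532) (nat_lit 147270884)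 (nat_lit 94) (nat_lit 5) (nat_lit 93) (nat_lit 3) (nat_lit 100) (nat_lit 5) (nat_lit 437) (nat_lit 436) (nat_lit 327)) (XT.lf (nat_lit 76) (nat_lit 64566568) (nat_lit 0) (nat_lit 676872485) (nat_lit 608) (nat_lit 69350914993) (nat_lit 87) (nat_lit 5) (nat_lit 86) (nat_lit 5) (nat_lit 94) (nat_lit 5) (nat_lit 438) (nat_lit 436) (nat_lit 326))) (XT.nd (nat_lit 78) (nat_lit 0) (nat_lit 0) (XT.lf (nat_lit 0) (nat_lit 3485560804) (nat_lit 532) (nat_lit 35163526647) (nat_lit 608) (nat_lit 34245334477) (nat_lit 87) (nat_lit 5) (nat_lit 94) (nat_lit 5) (nat_lit 95) (nat_lit 5) (nat_lit 439) (nat_lit 436) (nat_lit 325)) (XT.lf (nat_lit 76) (nat_lit 2601484248) (nat_lit 0) (nat_lit 3926555280) (nat_lit 608) (nat_lit 69386309690) (nat_lit 88) (nat_lit 5) (nat_lit 87) (nat_lit 5) (nat_lit 95) (nat_lit 5) (nat_lit 440) (nat_lit 436) (nat_lit 324)))))) (XT.nd (nat_lit 546) (nat_lit 1140) (nat_lit 0) (XT.nd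 (nat_lit 234) (nat_lit 684) (nat_lit 0) (XT.nd (nat_lit 78) (nat_lit 0) (nat_lit 0) (XT.lf (nat_lit 0) (nat_lit 11606535846) (nat_lit 532) (nat_lit 34544931520) (nat_lit 608) (nat_lit 32880993927) (nat_lit 88) (nat_lit 5) (nat_lit 95) (nat_lit 5) (nat_lit 96) (nat_lit 5) (nat_lit 441) (nat_lit 436) (nat_lit 323)) (XT.nd (nat_lit 78) (nat_lit 0) (nat_lit 76) (XT.lf (nat_lit 76) (nat_lit 7601765634) (nat_lit 0) (nat_lit 9773212577) (nat_lit 608) (nat_lit 65002350947) (nat_lit 89) (nat_lit 5) (nat_lit 88) (nat_lit 5) (nat_lit 96) (nat_lit 5) (nat_lit 442) (nat_lit 436) (nat_lit 322)) (XT.lf (nat_lit 0) (nat_lit 25282713694) (nat_lit 532) (nat_lit 31564822041) (nat_lit 76) (nat_lit 29008025424) (nat_lit 89) (nat_lit 5) (nat_lit 96) (nat_lit 5) (nat_lit 90) (nat_lit 5) (nat_lit 443) (nat_lit 436) (nat_lit 321)))) (XT.nd (nat_lit 156) (nat_lit 228) (nat_lit 0) (XT.nd (nat_lit 78) (nat_lit 0) (nat_lit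 0) (XT.lf (nat_lit 0) (nat_lit 15629853324) (nat_lit 532) (nat_lit 18821963982) (nat_lit 608) (nat_lit 55109934586) (nat_lit 82) (nat_lit 5) (nat_lit 89) (nat_lit 5) (nat_lit 90) (nat_lit 5) (nat_lit 444) (nat_lit 436) (nat_lit 320)) (XT.lf (nat_lit 0) (nat_lit 45773966202) (nat_lit 608) (nat_lit 25658594700) (nat_lit 76) (nat_lit 22018315726) (nat_lit 82) (nat_lit 5) (nat_lit 90) (nat_lit 5) (nat_lit 83) (nat_lit 5) (nat_lit 445) (nat_lit 436) (nat_lit 319))) (XT.nd (nat_lit 78) (nat_lit 0) (nat_lit 0) (XT.lf (nat_lit 0) (nat_lit 27355185391) (nat_lit 228) (nat_lit 31792600505) (nat_lit 304) (nat_lit 38411673635) (nat_lit 79) (nat_lit 5) (nat_lit 82) (nat_lit 5) (nat_lit 83) (nat_lit 5) (nat_lit 446) (nat_lit 436) (nat_lit 318)) (XT.lf (nat_lit 0) (nat_lit 74575446783) (nat_lit 304) (nat_lit 16155493527) (nat_lit 76) (nat_lit 11187073999) (nat_lit 79) (nat_lit 5) (nat_lit 83) (nat_lit 5)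 (nat_lit 80) (nat_lit 5) (nat_lit 447) (nat_lit 436) (nat_lit 317))))) (XT.nd (nat_lit 312) (nat_lit 380) (nat_lit 0) (XT.nd (nat_lit 156) (nat_lit 456) (nat_lit 0) (XT.nd (nat_lit 78) (nat_lit 76) (nat_lit 0) (XT.lf (nat_lit 0) (nat_lit 43570065495) (nat_lit 228) (nat_lit 49540125310) (nat_lit 304) (nat_lit 13365233127) (nat_lit 76) (nat_lit 5) (nat_lit 79) (nat_lit 5) (nat_lit 80) (nat_lit 5) (nat_lit 448) (nat_lit 436) (nat_lit 316)) (XT.lf (nat_lit 0) (nat_lit 2096169478) (nat_lit 304) (nat_lit 2423639568) (nat_lit 76) (nat_lit 106838093274) (nat_lit 75) (nat_lit 5) (nat_lit 79) (nat_lit 5) (nat_lit 76) (nat_lit 5) (nat_lit 449) (nat_lit 436) (nat_lit 315))) (XT.nd (nat_lit 78) (nat_lit 228) (nat_lit 0) (XT.lf (nat_lit 0) (nat_lit 20766025285) (nat_lit 304) (nat_lit 51745058720) (nat_lit 76) (nat_lit 43876634271) (nat_lit 72) (nat_lit 5) (nat_lit 76) (nat_lit 5) (nat_lit 73) (nat_lit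 5) (nat_lit 450) (nat_lit 436) (nat_lit 314)) (XT.lf (nat_lit 0) (nat_lit 16081974034) (nat_lit 228) (nat_lit 25418981559) (nat_lit 304) (nat_lit 80273245095) (nat_lit 69) (nat_lit 5) (nat_lit 72) (nat_lit 5) (nat_lit 73) (nat_lit 5) (nat_lit 451) (nat_lit 436) (nat_lit 313)))) (XT.nd (nat_lit 156) (nat_lit 228) (nat_lit 0) (XT.nd (nat_lit 78) (nat_lit 152) (nat_lit 0) (XT.lf (nat_lit 0) (nat_lit 65957427427) (nat_lit 304) (nat_lit 35849949195) (nat_lit 76) (nat_lit 25619205359) (nat_lit 69) (nat_lit 5) (nat_lit 73) (nat_lit 5) (nat_lit 70) (nat_lit 5) (nat_lit 452) (nat_lit 436) (nat_lit 312)) (XT.lf (nat_lit 0) (nat_lit 40968034639) (nat_lit 152) (nat_lit 53047298827) (nat_lit 228) (nat_lit 39384227048) (nat_lit 67) (nat_lit 5) (nat_lit 69) (nat_lit 5) (nat_lit 70) (nat_lit 5) (nat_lit 453) (nat_lit 436) (nat_lit 311))) (XT.nd (nat_lit 78) (nat_lit 228) (nat_lit 0) (XT.lf (nat_lit 0) (nat_lit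 125313659859) (nat_lit 228) (nat_lit 13818701053) (nat_lit 76) (nat_lit 638353438) (nat_lit 67) (nat_lit 5) (nat_lit 70) (nat_lit 5) (nat_lit 68) (nat_lit 5) (nat_lit 454) (nat_lit 436) (nat_lit 310)) (XT.lf (nat_lit 0) (nat_lit 15064373791) (nat_lit 228) (nat_lit 73406550290) (nat_lit 76) (nat_lit 57898767429) (nat_lit 64) (nat_lit 5) (nat_lit 67) (nat_lit 5) (nat_lit 65) (nat_lit 5) (nat_lit 455) (nat_lit 436) (nat_lit 309))))))))
noncomputable def xc172 : XT := (XT.nd (nat_lit 2184) (nat_lit 1824) (nat_lit 0) (XT.nd (nat_lit 1092) (nat_lit 912) (nat_lit 0) (XT.nd (nat_lit 546) (nat_lit 684) (nat_lit 0) (XT.nd (nat_lit 234) (nat_lit 304) (nat_lit 0) (XT.nd (nat_lit 78) (nat_lit 152) (nat_lit 0) (XT.lf (nat_lit 0) (nat_lit 14338190785) (nat_lit 152) (nat_lit 32560215516) (nat_lit 228) (nat_lit 106509584234) (nat_lit 62) (nat_lit 5) (nat_lit 64) (nat_lit 5) (nat_lit 65) (nat_lit 5) (nat_lit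 456) (nat_lit 436) (nat_lit 308)) (XT.nd (nat_lit 78) (nat_lit 152) (nat_lit 0) (XT.lf (nat_lit 0) (nat_lit 84006995655) (nat_lit 228) (nat_lit 48293673570) (nat_lit 76) (nat_lit 28490457555) (nat_lit 62) (nat_lit 5) (nat_lit 65) (nat_lit 5) (nat_lit 63) (nat_lit 5) (nat_lit 457) (nat_lit 436) (nat_lit 307)) (XT.lf (nat_lit 0) (nat_lit 51472960422) (nat_lit 152) (nat_lit 74694480959) (nat_lit 228) (nat_lit 42430819039) (nat_lit 60) (nat_lit 5) (nat_lit 62) (nat_lit 5) (nat_lit 63) (nat_lit 5) (nat_lit 458) (nat_lit 436) (nat_lit 306)))) (XT.nd (nat_lit 156) (nat_lit 152) (nat_lit 0) (XT.nd (nat_lit 78) (nat_lit 152) (nat_lit 0) (XT.lf (nat_lit 0) (nat_lit 161966699742) (nat_lit 152) (nat_lit 11053998808) (nat_lit 228) (nat_lit 3903668170) (nat_lit 60) (nat_lit 5) (nat_lit 62) (nat_lit 5) (nat_lit 63) (nat_lit 5) (nat_lit 459) (nat_lit 436) (nat_lit 305)) (XT.lf (nat_lit 0) (nat_lit 39683645752)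 (nat_lit 152) (nat_lit 87674742179) (nat_lit 76) (nat_lit 58176493422) (nat_lit 58) (nat_lit 5) (nat_lit 60) (nat_lit 5) (nat_lit 59) (nat_lit 5) (nat_lit 460) (nat_lit 436) (nat_lit 304))) (XT.nd (nat_lit 78) (nat_lit 0) (nat_lit 0) (XT.lf (nat_lit 0) (nat_lit 26687690920) (nat_lit 152) (nat_lit 61207476291) (nat_lit 228) (nat_lit 106823108702) (nat_lit 56) (nat_lit 5) (nat_lit 58) (nat_lit 5) (nat_lit 59) (nat_lit 5) (nat_lit 461) (nat_lit 436) (nat_lit 303)) (XT.lf (nat_lit 0) (nat_lit 142668803935) (nat_lit 228) (nat_lit 49568453497) (nat_lit 76) (nat_lit 12182669143) (nat_lit 56) (nat_lit 5) (nat_lit 59) (nat_lit 5) (nat_lit 57) (nat_lit 4) (nat_lit 462) (nat_lit 436) (nat_lit 302))))) (XT.nd (nat_lit 234) (nat_lit 380) (nat_lit 0) (XT.nd (nat_lit 78) (nat_lit 228) (nat_lit 0) (XT.lf (nat_lit 0) (nat_lit 80823288926) (nat_lit 76) (nat_lit 124534262266) (nat_lit 152) (nat_lit 9257500552)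 (nat_lit 55) (nat_lit 5) (nat_lit 56) (nat_lit 5) (nat_lit 57) (nat_lit 4) (nat_lit 463) (nat_lit 436) (nat_lit 301)) (XT.nd (nat_lit 78) (nat_lit 152) (nat_lit 0) (XT.lf (nat_lit 0) (nat_lit 46452797959) (nat_lit 152) (nat_lit 2228687763) (nat_lit 76) (nat_lit 176741826372) (nat_lit 54) (nat_lit 5) (nat_lit 56) (nat_lit 5) (nat_lit 55) (nat_lit 5) (nat_lit 464) (nat_lit 436) (nat_lit 300)) (XT.lf (nat_lit 0) (nat_lit 110551520952) (nat_lit 228) (nat_lit 90721296296) (nat_lit 76) (nat_lit 35449639988) (nat_lit 52) (nat_lit 5) (nat_lit 55) (nat_lit 5) (nat_lit 53) (nat_lit 4) (nat_lit 465) (nat_lit 436) (nat_lit 299)))) (XT.nd (nat_lit 156) (nat_lit 228) (nat_lit 0) (XT.nd (nat_lit 78) (nat_lit 76) (nat_lit 0) (XT.lf (nat_lit 0) (nat_lit 58979204702) (nat_lit 76) (nat_lit 123544011995) (nat_lit 152) (nat_lit 66182711315) (nat_lit 51) (nat_lit 5) (nat_lit 52) (nat_lit 5) (nat_lit 53) (nat_lit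 4) (nat_lit 466) (nat_lit 436) (nat_lit 298)) (XT.lf (nat_lit 0) (nat_lit 1218938625) (nat_lit 152) (nat_lit 35665985144) (nat_lit 76) (nat_lit 224562272543) (nat_lit 50) (nat_lit 5) (nat_lit 52) (nat_lit 5) (nat_lit 51) (nat_lit 5) (nat_lit 467) (nat_lit 436) (nat_lit 297))) (XT.nd (nat_lit 78) (nat_lit 76) (nat_lit 0) (XT.lf (nat_lit 0) (nat_lit 75195909197) (nat_lit 228) (nat_lit 140509363151) (nat_lit 76) (nat_lit 58984269296) (nat_lit 48) (nat_lit 5) (nat_lit 51) (nat_lit 5) (nat_lit 49) (nat_lit 4) (nat_lit 468) (nat_lit 436) (nat_lit 296)) (XT.lf (nat_lit 0) (nat_lit 31311495958) (nat_lit 76) (nat_lit 126490816772) (nat_lit 152) (nat_lit 130972059858) (nat_lit 47) (nat_lit 5) (nat_lit 48) (nat_lit 5) (nat_lit 49) (nat_lit 4) (nat_lit 469) (nat_lit 436) (nat_lit 295)))))) (XT.nd (nat_lit 546) (nat_lit 456) (nat_lit 0) (XT.nd (nat_lit 234) (nat_lit 304) (nat_lit 0) (XT.nd (nat_lit 78)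 (nat_lit 152) (nat_lit 0) (XT.lf (nat_lit 0) (nat_lit 224868347260) (nat_lit 76) (nat_lit 25990348859) (nat_lit 152) (nat_lit 52819976493) (nat_lit 47) (nat_lit 5) (nat_lit 48) (nat_lit 5) (nat_lit 49) (nat_lit 4) (nat_lit 470) (nat_lit 436) (nat_lit 294)) (XT.nd (nat_lit 78) (nat_lit 0) (nat_lit 0) (XT.lf (nat_lit 0) (nat_lit 34953852031) (nat_lit 152) (nat_lit 202220187082) (nat_lit 76) (nat_lit 82144545191) (nat_lit 45) (nat_lit 5) (nat_lit 47) (nat_lit 5) (nat_lit 46) (nat_lit 4) (nat_lit 471) (nat_lit 436) (nat_lit 293)) (XT.lf (nat_lit 0) (nat_lit 129781504300) (nat_lit 152) (nat_lit 4979008652) (nat_lit 76) (nat_lit 201108574740) (nat_lit 45) (nat_lit 5) (nat_lit 47) (nat_lit 5) (nat_lit 46) (nat_lit 4) (nat_lit 472) (nat_lit 436) (nat_lit 292)))) (XT.nd (nat_lit 156) (nat_lit 152) (nat_lit 0) (XT.nd (nat_lit 78) (nat_lit 76) (nat_lit 0) (XT.lf (nat_lit 0) (nat_lit 218996027816) (nat_lit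 76) (nat_lit 18465933071) (nat_lit 152) (nat_lit 115860343102) (nat_lit 44) (nat_lit 5) (nat_lit 45) (nat_lit 5) (nat_lit 46) (nat_lit 4) (nat_lit 473) (nat_lit 436) (nat_lit 291)) (XT.lf (nat_lit 0) (nat_lit 90982056817) (nat_lit 76) (nat_lit 267678855847) (nat_lit 76) (nat_lit 13118540237) (nat_lit 43) (nat_lit 4) (nat_lit 44) (nat_lit 5) (nat_lit 44) (nat_lit 4) (nat_lit 474) (nat_lit 436) (nat_lit 290))) (XT.nd (nat_lit 78) (nat_lit 76) (nat_lit 0) (XT.lf (nat_lit 0) (nat_lit 97195607624) (nat_lit 152) (nat_lit 52393700404) (nat_lit 76) (nat_lit 241595817605) (nat_lit 42) (nat_lit 5) (nat_lit 44) (nat_lit 5) (nat_lit 43) (nat_lit 4) (nat_lit 475) (nat_lit 436) (nat_lit 289)) (XT.lf (nat_lit 0) (nat_lit 204153672807) (nat_lit 76) (nat_lit 16382128781) (nat_lit 152) (nat_lit 191187418800) (nat_lit 41) (nat_lit 5) (nat_lit 42) (nat_lit 5) (nat_lit 43) (nat_lit 4) (nat_lit 476) (nat_lit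 436) (nat_lit 288))))) (XT.nd (nat_lit 234) (nat_lit 228) (nat_lit 0) (XT.nd (nat_lit 78) (nat_lit 152) (nat_lit 0) (XT.lf (nat_lit 0) (nat_lit 49802455758) (nat_lit 76) (nat_lit 309673944296) (nat_lit 76) (nat_lit 73969307557) (nat_lit 40) (nat_lit 4) (nat_lit 41) (nat_lit 5) (nat_lit 41) (nat_lit 4) (nat_lit 477) (nat_lit 436) (nat_lit 287)) (XT.nd (nat_lit 78) (nat_lit 76) (nat_lit 0) (XT.lf (nat_lit 0) (nat_lit 56241672303) (nat_lit 152) (nat_lit 118722141114) (nat_lit 76) (nat_lit 281341087546) (nat_lit 39) (nat_lit 5) (nat_lit 41) (nat_lit 5) (nat_lit 40) (nat_lit 4) (nat_lit 478) (nat_lit 436) (nat_lit 286)) (XT.lf (nat_lit 0) (nat_lit 174184346319) (nat_lit 76) (nat_lit 22877833995) (nat_lit 152) (nat_lit 283441833926) (nat_lit 38) (nat_lit 5) (nat_lit 39) (nat_lit 5) (nat_lit 40) (nat_lit 4) (nat_lit 479) (nat_lit 436) (nat_lit 285)))) (XT.nd (nat_lit 156) (nat_lit 76) (nat_lit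 0) (XT.nd (nat_lit 78) (nat_lit 152) (nat_lit 0) (XT.lf (nat_lit 0) (nat_lit 355878566260) (nat_lit 152) (nat_lit 12589010106) (nat_lit 0) (nat_lit 137633061232) (nat_lit 38) (nat_lit 5) (nat_lit 40) (nat_lit 4) (nat_lit 38) (nat_lit 4) (nat_lit 480) (nat_lit 436) (nat_lit 284)) (XT.lf (nat_lit 0) (nat_lit 2479398378) (nat_lit 152) (nat_lit 213088490739) (nat_lit 76) (nat_lit 317508770008) (nat_lit 36) (nat_lit 5) (nat_lit 38) (nat_lit 5) (nat_lit 37) (nat_lit 4) (nat_lit 481) (nat_lit 436) (nat_lit 283))) (XT.nd (nat_lit 78) (nat_lit 0) (nat_lit 0) (XT.lf (nat_lit 0) (nat_lit 119785162774) (nat_lit 76) (nat_lit 42729705749) (nat_lit 152) (nat_lit 399125041970) (nat_lit 35) (nat_lit 5) (nat_lit 36) (nat_lit 5) (nat_lit 37) (nat_lit 4) (nat_lit 482) (nat_lit 436) (nat_lit 282)) (XT.lf (nat_lit 0) (nat_lit 344792171797) (nat_lit 152) (nat_lit 104228276267) (nat_lit 0) (nat_lit 142712654269)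 (nat_lit 35) (nat_lit 5) (nat_lit 37) (nat_lit 4) (nat_lit 35) (nat_lit 4) (nat_lit 483) (nat_lit 436) (nat_lit 281))))))) (XT.nd (nat_lit 1092) (nat_lit 912) (nat_lit 0) (XT.nd (nat_lit 546) (nat_lit 380) (nat_lit 0) (XT.nd (nat_lit 234) (nat_lit 304) (nat_lit 0) (XT.nd (nat_lit 78) (nat_lit 152) (nat_lit 0) (XT.lf (nat_lit 0) (nat_lit 272952249452) (nat_lit 76) (nat_lit 276373590928) (nat_lit 76) (nat_lit 74293974657) (nat_lit 34) (nat_lit 4) (nat_lit 35) (nat_lit 5) (nat_lit 35) (nat_lit 4) (nat_lit 484) (nat_lit 436) (nat_lit 280)) (XT.nd (nat_lit 78) (nat_lit 0) (nat_lit 0) (XT.lf (nat_lit 0) (nat_lit 26983131908) (nat_lit 76) (nat_lit 83143233288) (nat_lit 152) (nat_lit 547429489437) (nat_lit 32) (nat_lit 5) (nat_lit 33) (nat_lit 5) (nat_lit 34) (nat_lit 4) (nat_lit 485) (nat_lit 436) (nat_lit 279)) (XT.lf (nat_lit 0) (nat_lit 318142621291) (nat_lit 152) (nat_lit 243849589105) (nat_lit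 0) (nat_lit 131031702441) (nat_lit 32) (nat_lit 5) (nat_lit 34) (nat_lit 4) (nat_lit 32) (nat_lit 4) (nat_lit 486) (nat_lit 436) (nat_lit 278)))) (XT.nd (nat_lit 156) (nat_lit 152) (nat_lit 0) (XT.nd (nat_lit 78) (nat_lit 76) (nat_lit 0) (XT.lf (nat_lit 0) (nat_lit 180690342463) (nat_lit 76) (nat_lit 368614832451) (nat_lit 76) (nat_lit 181503841021) (nat_lit 31) (nat_lit 4) (nat_lit 32) (nat_lit 5) (nat_lit 32) (nat_lit 4) (nat_lit 487) (nat_lit 436) (nat_lit 277)) (XT.lf (nat_lit 0) (nat_lit 32816239402) (nat_lit 152) (nat_lit 118853280675) (nat_lit 76) (nat_lit 619347575132) (nat_lit 30) (nat_lit 5) (nat_lit 32) (nat_lit 5) (nat_lit 31) (nat_lit 4) (nat_lit 488) (nat_lit 436) (nat_lit 276))) (XT.nd (nat_lit 78) (nat_lit 76) (nat_lit 0) (XT.lf (nat_lit 0) (nat_lit 265473854494) (nat_lit 152) (nat_lit 455488170827) (nat_lit 0) (nat_lit 92222816663) (nat_lit 29) (nat_lit 5) (nat_lit 31) (nat_lit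 4) (nat_lit 29) (nat_lit 4) (nat_lit 489) (nat_lit 436) (nat_lit 275)) (XT.lf (nat_lit 0) (nat_lit 17515890011) (nat_lit 76) (nat_lit 506922819603) (nat_lit 76) (nat_lit 333671728424) (nat_lit 28) (nat_lit 4) (nat_lit 29) (nat_lit 5) (nat_lit 29) (nat_lit 4) (nat_lit 490) (nat_lit 436) (nat_lit 274))))) (XT.nd (nat_lit 234) (nat_lit 228) (nat_lit 0) (XT.nd (nat_lit 78) (nat_lit 152) (nat_lit 0) (XT.lf (nat_lit 0) (nat_lit 554263974110) (nat_lit 76) (nat_lit 262310476233) (nat_lit 76) (nat_lit 89059335657) (nat_lit 28) (nat_lit 4) (nat_lit 29) (nat_lit 5) (nat_lit 29) (nat_lit 4) (nat_lit 491) (nat_lit 436) (nat_lit 273)) (XT.nd (nat_lit 78) (nat_lit 0) (nat_lit 0) (XT.lf (nat_lit 0) (nat_lit 171003786503) (nat_lit 152) (nat_lit 774660894576) (nat_lit 0) (nat_lit 10586021398) (nat_lit 26) (nat_lit 5) (nat_lit 28) (nat_lit 4) (nat_lit 26) (nat_lit 4) (nat_lit 492) (nat_lit 436) (nat_lit 272))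 (XT.lf (nat_lit 0) (nat_lit 463730159515) (nat_lit 152) (nat_lit 242355821725) (nat_lit 0) (nat_lit 303312355197) (nat_lit 26) (nat_lit 5) (nat_lit 28) (nat_lit 4) (nat_lit 26) (nat_lit 4) (nat_lit 493) (nat_lit 436) (nat_lit 271)))) (XT.nd (nat_lit 156) (nat_lit 76) (nat_lit 0) (XT.nd (nat_lit 78) (nat_lit 76) (nat_lit 0) (XT.lf (nat_lit 0) (nat_lit 350043995529) (nat_lit 76) (nat_lit 438249075942) (nat_lit 76) (nat_lit 277831235316) (nat_lit 25) (nat_lit 4) (nat_lit 26) (nat_lit 5) (nat_lit 26) (nat_lit 4) (nat_lit 494) (nat_lit 436) (nat_lit 270)) (XT.lf (nat_lit 0) (nat_lit 17659169239) (nat_lit 152) (nat_lit 123686802225) (nat_lit 76) (nat_lit 985476513586) (nat_lit 24) (nat_lit 5) (nat_lit 26) (nat_lit 5) (nat_lit 25) (nat_lit 4) (nat_lit 495) (nat_lit 436) (nat_lit 269))) (XT.nd (nat_lit 78) (nat_lit 0) (nat_lit 0) (XT.lf (nat_lit 0) (nat_lit 339496108715) (nat_lit 152) (nat_lit 659924693601)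 (nat_lit 0) (nat_lit 190961011148) (nat_lit 23) (nat_lit 5) (nat_lit 25) (nat_lit 4) (nat_lit 23) (nat_lit 4) (nat_lit 496) (nat_lit 436) (nat_lit 268)) (XT.lf (nat_lit 0) (nat_lit 694220856178) (nat_lit 152) (nat_lit 18548031824) (nat_lit 0) (nat_lit 545685731925) (nat_lit 23) (nat_lit 5) (nat_lit 25) (nat_lit 4) (nat_lit 23) (nat_lit 4) (nat_lit 497) (nat_lit 436) (nat_lit 267)))))) (XT.nd (nat_lit 546) (nat_lit 456) (nat_lit 0) (XT.nd (nat_lit 234) (nat_lit 228) (nat_lit 0) (XT.nd (nat_lit 78) (nat_lit 152) (nat_lit 0) (XT.lf (nat_lit 0) (nat_lit 709637462621) (nat_lit 76) (nat_lit 384752801402) (nat_lit 76) (nat_lit 236217652437) (nat_lit 22) (nat_lit 4) (nat_lit 23) (nat_lit 5) (nat_lit 23) (nat_lit 4) (nat_lit 498) (nat_lit 436) (nat_lit 266)) (XT.nd (nat_lit 78) (nat_lit 0) (nat_lit 0) (XT.lf (nat_lit 0) (nat_lit 90304878093) (nat_lit 76) (nat_lit 24522068992) (nat_lit 152) (nat_lit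 1293264058885) (nat_lit 20) (nat_lit 5) (nat_lit 21) (nat_lit 5) (nat_lit 22) (nat_lit 4) (nat_lit 499) (nat_lit 436) (nat_lit 265)) (XT.lf (nat_lit 0) (nat_lit 507379425595) (nat_lit 152) (nat_lit 611960739732) (nat_lit 0) (nat_lit 369846839456) (nat_lit 20) (nat_lit 5) (nat_lit 22) (nat_lit 4) (nat_lit 20) (nat_lit 4) (nat_lit 500) (nat_lit 436) (nat_lit 264)))) (XT.nd (nat_lit 156) (nat_lit 152) (nat_lit 0) (XT.nd (nat_lit 78) (nat_lit 0) (nat_lit 0) (XT.lf (nat_lit 0) (nat_lit 157576115420) (nat_lit 76) (nat_lit 778186524683) (nat_lit 76) (nat_lit 640653920382) (nat_lit 19) (nat_lit 4) (nat_lit 20) (nat_lit 5) (nat_lit 20) (nat_lit 4) (nat_lit 501) (nat_lit 436) (nat_lit 263)) (XT.lf (nat_lit 0) (nat_lit 1023478451469) (nat_lit 76) (nat_lit 391670045730) (nat_lit 76) (nat_lit 254137424611) (nat_lit 19) (nat_lit 4) (nat_lit 20) (nat_lit 5) (nat_lit 20) (nat_lit 4) (nat_lit 502) (nat_lit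 436) (nat_lit 262))) (XT.nd (nat_lit 78) (nat_lit 0) (nat_lit 0) (XT.lf (nat_lit 0) (nat_lit 160661911484) (nat_lit 152) (nat_lit 1574849415372) (nat_lit 0) (nat_lit 33316877511) (nat_lit 17) (nat_lit 5) (nat_lit 19) (nat_lit 4) (nat_lit 17) (nat_lit 4) (nat_lit 503) (nat_lit 436) (nat_lit 261)) (XT.lf (nat_lit 0) (nat_lit 623204477838) (nat_lit 152) (nat_lit 754478738991) (nat_lit 0) (nat_lit 495859430515) (nat_lit 17) (nat_lit 5) (nat_lit 19) (nat_lit 4) (nat_lit 17) (nat_lit 4) (nat_lit 504) (nat_lit 436) (nat_lit 260))))) (XT.nd (nat_lit 312) (nat_lit 228) (nat_lit 0) (XT.nd (nat_lit 156) (nat_lit 152) (nat_lit 0) (XT.nd (nat_lit 78) (nat_lit 0) (nat_lit 0) (XT.lf (nat_lit 0) (nat_lit 138447084296) (nat_lit 76) (nat_lit 987632928059) (nat_lit 76) (nat_lit 860287868374) (nat_lit 16) (nat_lit 4) (nat_lit 17) (nat_lit 5) (nat_lit 17) (nat_lit 4) (nat_lit 505) (nat_lit 436) (nat_lit 259))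 (XT.lf (nat_lit 0) (nat_lit 1145714661621) (nat_lit 76) (nat_lit 544099623335) (nat_lit 76) (nat_lit 416754552205) (nat_lit 16) (nat_lit 4) (nat_lit 17) (nat_lit 5) (nat_lit 17) (nat_lit 4) (nat_lit 506) (nat_lit 436) (nat_lit 258))) (XT.nd (nat_lit 78) (nat_lit 76) (nat_lit 0) (XT.lf (nat_lit 0) (nat_lit 59146774478) (nat_lit 152) (nat_lit 4319790814) (nat_lit 76) (nat_lit 2172799520580) (nat_lit 15) (nat_lit 5) (nat_lit 17) (nat_lit 5) (nat_lit 16) (nat_lit 4) (nat_lit 507) (nat_lit 436) (nat_lit 257)) (XT.lf (nat_lit 0) (nat_lit 588282604460) (nat_lit 152) (nat_lit 1313805806449) (nat_lit 0) (nat_lit 470370482662) (nat_lit 14) (nat_lit 5) (nat_lit 16) (nat_lit 4) (nat_lit 14) (nat_lit 4) (nat_lit 508) (nat_lit 436) (nat_lit 256)))) (XT.nd (nat_lit 156) (nat_lit 152) (nat_lit 0) (XT.nd (nat_lit 78) (nat_lit 76) (nat_lit 0) (XT.lf (nat_lit 0) (nat_lit 1161518882116) (nat_lit 152) (nat_lit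 314279925365) (nat_lit 0) (nat_lit 1043606751906) (nat_lit 14) (nat_lit 5) (nat_lit 16) (nat_lit 4) (nat_lit 14) (nat_lit 4) (nat_lit 509) (nat_lit 436) (nat_lit 255)) (XT.lf (nat_lit 0) (nat_lit 805502365017) (nat_lit 76) (nat_lit 994483974619) (nat_lit 76) (nat_lit 876571836618) (nat_lit 13) (nat_lit 4) (nat_lit 14) (nat_lit 5) (nat_lit 14) (nat_lit 4) (nat_lit 510) (nat_lit 436) (nat_lit 254))) (XT.nd (nat_lit 78) (nat_lit 152) (nat_lit 0) (XT.lf (nat_lit 0) (nat_lit 2032740468514) (nat_lit 76) (nat_lit 465383623649) (nat_lit 76) (nat_lit 347471478436) (nat_lit 13) (nat_lit 4) (nat_lit 14) (nat_lit 5) (nat_lit 14) (nat_lit 4) (nat_lit 511) (nat_lit 436) (nat_lit 253)) (XT.lf (nat_lit 0) (nat_lit 223875454002) (nat_lit 152) (nat_lit 2688262331207) (nat_lit 0) (nat_lit 114697535584) (nat_lit 11) (nat_lit 5) (nat_lit 13) (nat_lit 4) (nat_lit 11) (nat_lit 4) (nat_lit 512) (nat_lit 436) (nat_lit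 252))))))))
noncomputable def xc173 : XT := (XT.nd (nat_lit 56550) (nat_lit 0) (nat_lit 3952) (XT.nd (nat_lit 1092) (nat_lit 228) (nat_lit 0) (XT.nd (nat_lit 546) (nat_lit 228) (nat_lit 0) (XT.nd (nat_lit 234) (nat_lit 152) (nat_lit 0) (XT.nd (nat_lit 78) (nat_lit 76) (nat_lit 0) (XT.lf (nat_lit 0) (nat_lit 857047643327) (nat_lit 152) (nat_lit 1614143670850) (nat_lit 0) (nat_lit 747869719183) (nat_lit 11) (nat_lit 5) (nat_lit 13) (nat_lit 4) (nat_lit 11) (nat_lit 4) (nat_lit 513) (nat_lit 436) (nat_lit 251)) (XT.nd (nat_lit 78) (nat_lit 76) (nat_lit 0) (XT.lf (nat_lit 0) (nat_lit 1540873544772) (nat_lit 152) (nat_lit 454095647875) (nat_lit 0) (nat_lit 1431695615326) (nat_lit 11) (nat_lit 5) (nat_lit 13) (nat_lit 4) (nat_lit 11) (nat_lit 4) (nat_lit 514) (nat_lit 436) (nat_lit 250)) (XT.lf (nat_lit 0) (nat_lit 840817176890) (nat_lit 76) (nat_lit 1458809956411) (nat_lit 76) (nat_lit 1349632022057)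 (nat_lit 10) (nat_lit 4) (nat_lit 11) (nat_lit 5) (nat_lit 11) (nat_lit 4) (nat_lit 515) (nat_lit 436) (nat_lit 249)))) (XT.nd (nat_lit 156) (nat_lit 152) (nat_lit 0) (XT.nd (nat_lit 78) (nat_lit 0) (nat_lit 0) (XT.lf (nat_lit 0) (nat_lit 2265147731980) (nat_lit 76) (nat_lit 866348999811) (nat_lit 76) (nat_lit 757171060911) (nat_lit 10) (nat_lit 4) (nat_lit 11) (nat_lit 5) (nat_lit 11) (nat_lit 4) (nat_lit 516) (nat_lit 436) (nat_lit 248)) (XT.lf (nat_lit 0) (nat_lit 3803424622670) (nat_lit 76) (nat_lit 226491222842) (nat_lit 76) (nat_lit 117313279734) (nat_lit 10) (nat_lit 4) (nat_lit 11) (nat_lit 5) (nat_lit 11) (nat_lit 4) (nat_lit 517) (nat_lit 436) (nat_lit 247))) (XT.nd (nat_lit 78) (nat_lit 0) (nat_lit 0) (XT.lf (nat_lit 0) (nat_lit 583173705900) (nat_lit 152) (nat_lit 3357063497715) (nat_lit 0) (nat_lit 482083014229) (nat_lit 8) (nat_lit 5) (nat_lit 10) (nat_lit 4) (nat_lit 8) (nat_lit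 4) (nat_lit 518) (nat_lit 436) (nat_lit 246)) (XT.lf (nat_lit 0) (nat_lit 1348888911149) (nat_lit 152) (nat_lit 2121245524712) (nat_lit 0) (nat_lit 1247798216137) (nat_lit 8) (nat_lit 5) (nat_lit 10) (nat_lit 4) (nat_lit 8) (nat_lit 4) (nat_lit 519) (nat_lit 436) (nat_lit 245))))) (XT.nd (nat_lit 234) (nat_lit 152) (nat_lit 0) (XT.nd (nat_lit 78) (nat_lit 76) (nat_lit 0) (XT.lf (nat_lit 0) (nat_lit 2175861286536) (nat_lit 152) (nat_lit 786562209622) (nat_lit 0) (nat_lit 2074770588430) (nat_lit 8) (nat_lit 5) (nat_lit 10) (nat_lit 4) (nat_lit 8) (nat_lit 4) (nat_lit 520) (nat_lit 436) (nat_lit 244)) (XT.nd (nat_lit 78) (nat_lit 0) (nat_lit 0) (XT.lf (nat_lit 0) (nat_lit 689381328055) (nat_lit 76) (nat_lit 2396189718562) (nat_lit 76) (nat_lit 2295099017592) (nat_lit 7) (nat_lit 4) (nat_lit 8) (nat_lit 5) (nat_lit 8) (nat_lit 4) (nat_lit 521) (nat_lit 436) (nat_lit 243)) (XT.lf (nat_lit 0)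 (nat_lit 2328132752148) (nat_lit 76) (nat_lit 1761430798320) (nat_lit 76) (nat_lit 1660340094698) (nat_lit 7) (nat_lit 4) (nat_lit 8) (nat_lit 5) (nat_lit 8) (nat_lit 4) (nat_lit 522) (nat_lit 436) (nat_lit 242)))) (XT.nd (nat_lit 156) (nat_lit 152) (nat_lit 0) (XT.nd (nat_lit 78) (nat_lit 0) (nat_lit 0) (XT.lf (nat_lit 0) (nat_lit 4097984210154) (nat_lit 76) (nat_lit 1075891205808) (nat_lit 76) (nat_lit 974800499730) (nat_lit 7) (nat_lit 4) (nat_lit 8) (nat_lit 5) (nat_lit 8) (nat_lit 4) (nat_lit 523) (nat_lit 436) (nat_lit 241)) (XT.lf (nat_lit 0) (nat_lit 6009423710713) (nat_lit 76) (nat_lit 335508484181) (nat_lit 76) (nat_lit 234417775830) (nat_lit 7) (nat_lit 4) (nat_lit 8) (nat_lit 5) (nat_lit 8) (nat_lit 4) (nat_lit 524) (nat_lit 436) (nat_lit 240))) (XT.nd (nat_lit 78) (nat_lit 0) (nat_lit 0) (XT.lf (nat_lit 0) (nat_lit 574818966805) (nat_lit 152) (nat_lit 5984323347107) (nat_lit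 0) (nat_lit 481216457123) (nat_lit 5) (nat_lit 5) (nat_lit 7) (nat_lit 4) (nat_lit 5) (nat_lit 4) (nat_lit 525) (nat_lit 436) (nat_lit 239)) (XT.lf (nat_lit 0) (nat_lit 1460832014113) (nat_lit 152) (nat_lit 4707723495647) (nat_lit 0) (nat_lit 1367229502625) (nat_lit 5) (nat_lit 5) (nat_lit 7) (nat_lit 4) (nat_lit 5) (nat_lit 4) (nat_lit 526) (nat_lit 436) (nat_lit 238)))))) (XT.nd (nat_lit 546) (nat_lit 152) (nat_lit 0) (XT.nd (nat_lit 234) (nat_lit 76) (nat_lit 0) (XT.nd (nat_lit 78) (nat_lit 0) (nat_lit 0) (XT.lf (nat_lit 0) (nat_lit 2417726073729) (nat_lit 152) (nat_lit 3328995721262) (nat_lit 0) (nat_lit 2324123560570) (nat_lit 5) (nat_lit 5) (nat_lit 7) (nat_lit 4) (nat_lit 5) (nat_lit 4) (nat_lit 527) (nat_lit 436) (nat_lit 237)) (XT.nd (nat_lit 78) (nat_lit 0) (nat_lit 0) (XT.lf (nat_lit 0) (nat_lit 3451171628970) (nat_lit 152) (nat_lit 1839969785288) (nat_lit 0) (nat_lit 3357569114264)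 (nat_lit 5) (nat_lit 5) (nat_lit 7) (nat_lit 4) (nat_lit 5) (nat_lit 4) (nat_lit 528) (nat_lit 436) (nat_lit 236)) (XT.lf (nat_lit 0) (nat_lit 4567292801646) (nat_lit 152) (nat_lit 231821830326) (nat_lit 0) (nat_lit 4473690285507) (nat_lit 5) (nat_lit 5) (nat_lit 7) (nat_lit 4) (nat_lit 5) (nat_lit 4) (nat_lit 529) (nat_lit 436) (nat_lit 235)))) (XT.nd (nat_lit 156) (nat_lit 0) (nat_lit 0) (XT.nd (nat_lit 78) (nat_lit 0) (nat_lit 0) (XT.lf (nat_lit 0) (nat_lit 1584227378933) (nat_lit 76) (nat_lit 4226576970780) (nat_lit 76) (nat_lit 4132974453314) (nat_lit 4) (nat_lit 4) (nat_lit 5) (nat_lit 5) (nat_lit 5) (nat_lit 4) (nat_lit 530) (nat_lit 436) (nat_lit 234)) (XT.lf (nat_lit 0) (nat_lit 3558744387396) (nat_lit 76) (nat_lit 3601390829546) (nat_lit 76) (nat_lit 3507788310852) (nat_lit 4) (nat_lit 4) (nat_lit 5) (nat_lit 5) (nat_lit 5) (nat_lit 4) (nat_lit 531) (nat_lit 436) (nat_lit 233)))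 (XT.nd (nat_lit 78) (nat_lit 0) (nat_lit 0) (XT.lf (nat_lit 0) (nat_lit 5691222709832) (nat_lit 76) (nat_lit 2926189821172) (nat_lit 76) (nat_lit 2832587301341) (nat_lit 4) (nat_lit 4) (nat_lit 5) (nat_lit 5) (nat_lit 5) (nat_lit 4) (nat_lit 532) (nat_lit 436) (nat_lit 232)) (XT.lf (nat_lit 0) (nat_lit 7994299254818) (nat_lit 76) (nat_lit 2196972754498) (nat_lit 76) (nat_lit 2103370233614) (nat_lit 4) (nat_lit 4) (nat_lit 5) (nat_lit 5) (nat_lit 5) (nat_lit 4) (nat_lit 533) (nat_lit 436) (nat_lit 231))))) (XT.nd (nat_lit 234) (nat_lit 0) (nat_lit 0) (XT.nd (nat_lit 78) (nat_lit 152) (nat_lit 0) (XT.lf (nat_lit 0) (nat_lit 10481621883361) (nat_lit 76) (nat_lit 1409418343204) (nat_lit 76) (nat_lit 1315815821344) (nat_lit 4) (nat_lit 4) (nat_lit 5) (nat_lit 5) (nat_lit 5) (nat_lit 4) (nat_lit 534) (nat_lit 436) (nat_lit 230)) (XT.nd (nat_lit 78) (nat_lit 152) (nat_lit 0) (XT.lf (nat_lit 0)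 (nat_lit 13167930285112) (nat_lit 76) (nat_lit 558859598184) (nat_lit 76) (nat_lit 465257075421) (nat_lit 4) (nat_lit 4) (nat_lit 5) (nat_lit 5) (nat_lit 5) (nat_lit 4) (nat_lit 535) (nat_lit 436) (nat_lit 229)) (XT.lf (nat_lit 0) (nat_lit 460439204884) (nat_lit 152) (nat_lit 14418589812168) (nat_lit 0) (nat_lit 373770201552) (nat_lit 2) (nat_lit 5) (nat_lit 4) (nat_lit 4) (nat_lit 2) (nat_lit 4) (nat_lit 536) (nat_lit 436) (nat_lit 228)))) (XT.nd (nat_lit 156) (nat_lit 0) (nat_lit 0) (XT.nd (nat_lit 78) (nat_lit 0) (nat_lit 0) (XT.lf (nat_lit 0) (nat_lit 1478299505394) (nat_lit 152) (nat_lit 13524055341840) (nat_lit 0) (nat_lit 1391630501345) (nat_lit 2) (nat_lit 5) (nat_lit 4) (nat_lit 4) (nat_lit 2) (nat_lit 4) (nat_lit 537) (nat_lit 436) (nat_lit 227)) (XT.lf (nat_lit 0) (nat_lit 2577588614208) (nat_lit 152) (nat_lit 12557958146507) (nat_lit 0) (nat_lit 2490919609495) (nat_lit 2) (nat_lit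 5) (nat_lit 4) (nat_lit 4) (nat_lit 2) (nat_lit 4) (nat_lit 538) (nat_lit 436) (nat_lit 226))) (XT.nd (nat_lit 78) (nat_lit 0) (nat_lit 0) (XT.lf (nat_lit 0) (nat_lit 3764820837156) (nat_lit 152) (nat_lit 11514573205752) (nat_lit 0) (nat_lit 3678151831829) (nat_lit 2) (nat_lit 5) (nat_lit 4) (nat_lit 4) (nat_lit 2) (nat_lit 4) (nat_lit 539) (nat_lit 436) (nat_lit 225)) (XT.lf (nat_lit 0) (nat_lit 5047031624449) (nat_lit 152) (nat_lit 10387717497703) (nat_lit 0) (nat_lit 4960362618553) (nat_lit 2) (nat_lit 5) (nat_lit 4) (nat_lit 4) (nat_lit 2) (nat_lit 4) (nat_lit 540) (nat_lit 436) (nat_lit 224))))))) (XT.nd (nat_lit 1092) (nat_lit 1596) (nat_lit 0) (XT.nd (nat_lit 546) (nat_lit 836) (nat_lit 0) (XT.nd (nat_lit 234) (nat_lit 0) (nat_lit 76) (XT.nd (nat_lit 78) (nat_lit 532) (nat_lit 0) (XT.lf (nat_lit 0) (nat_lit 34490211381) (nat_lit 532) (nat_lit 260281000) (nat_lit 532) (nat_lit 260281000)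 (nat_lit 93) (nat_lit 3) (nat_lit 100) (nat_lit 3) (nat_lit 100) (nat_lit 5) (nat_lit 437) (nat_lit 437) (nat_lit 326)) (XT.nd (nat_lit 78) (nat_lit 532) (nat_lit 0) (XT.lf (nat_lit 76) (nat_lit 36159068440) (nat_lit 0) (nat_lit 36462803991) (nat_lit 532) (nat_lit 129955898) (nat_lit 94) (nat_lit 5) (nat_lit 93) (nat_lit 3) (nat_lit 100) (nat_lit 5) (nat_lit 438) (nat_lit 437) (nat_lit 325)) (XT.lf (nat_lit 76) (nat_lit 85879178) (nat_lit 0) (nat_lit 740856975) (nat_lit 608) (nat_lit 74870924618) (nat_lit 87) (nat_lit 5) (nat_lit 86) (nat_lit 5) (nat_lit 94) (nat_lit 5) (nat_lit 439) (nat_lit 437) (nat_lit 324)))) (XT.nd (nat_lit 156) (nat_lit 0) (nat_lit 76) (XT.nd (nat_lit 78) (nat_lit 0) (nat_lit 0) (XT.lf (nat_lit 0) (nat_lit 3788244050) (nat_lit 532) (nat_lit 37959511180) (nat_lit 608) (nat_lit 36976310568) (nat_lit 87) (nat_lit 5) (nat_lit 94) (nat_lit 5) (nat_lit 95) (nat_lit 5) (nat_lit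 440) (nat_lit 437) (nat_lit 323)) (XT.lf (nat_lit 76) (nat_lit 2826267736) (nat_lit 0) (nat_lit 4246488317) (nat_lit 608) (nat_lit 74912940628) (nat_lit 88) (nat_lit 5) (nat_lit 87) (nat_lit 5) (nat_lit 95) (nat_lit 5) (nat_lit 441) (nat_lit 437) (nat_lit 322))) (XT.nd (nat_lit 78) (nat_lit 0) (nat_lit 0) (XT.lf (nat_lit 0) (nat_lit 12555738033) (nat_lit 532) (nat_lit 37291299263) (nat_lit 608) (nat_lit 35506364141) (nat_lit 88) (nat_lit 5) (nat_lit 95) (nat_lit 5) (nat_lit 96) (nat_lit 5) (nat_lit 442) (nat_lit 437) (nat_lit 321)) (XT.lf (nat_lit 76) (nat_lit 8226697542) (nat_lit 0) (nat_lit 10557830260) (nat_lit 608) (nat_lit 70181421348) (nat_lit 89) (nat_lit 5) (nat_lit 88) (nat_lit 5) (nat_lit 96) (nat_lit 5) (nat_lit 443) (nat_lit 437) (nat_lit 320))))) (XT.nd (nat_lit 234) (nat_lit 532) (nat_lit 0) (XT.nd (nat_lit 78) (nat_lit 532) (nat_lit 0) (XT.lf (nat_lit 0) (nat_lit 27323372400)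 (nat_lit 532) (nat_lit 34072949108) (nat_lit 76) (nat_lit 31326239146) (nat_lit 89) (nat_lit 5) (nat_lit 96) (nat_lit 5) (nat_lit 90) (nat_lit 5) (nat_lit 444) (nat_lit 437) (nat_lit 319)) (XT.nd (nat_lit 78) (nat_lit 0) (nat_lit 0) (XT.lf (nat_lit 0) (nat_lit 16896868420) (nat_lit 532) (nat_lit 20328199340) (nat_lit 608) (nat_lit 59500253961) (nat_lit 82) (nat_lit 5) (nat_lit 89) (nat_lit 5) (nat_lit 90) (nat_lit 5) (nat_lit 445) (nat_lit 437) (nat_lit 318)) (XT.lf (nat_lit 0) (nat_lit 49451710877) (nat_lit 608) (nat_lit 27694607597) (nat_lit 76) (nat_lit 23779360320) (nat_lit 82) (nat_lit 5) (nat_lit 90) (nat_lit 5) (nat_lit 83) (nat_lit 5) (nat_lit 446) (nat_lit 437) (nat_lit 317)))) (XT.nd (nat_lit 156) (nat_lit 304) (nat_lit 0) (XT.nd (nat_lit 78) (nat_lit 0) (nat_lit 0) (XT.lf (nat_lit 0) (nat_lit 29559852758) (nat_lit 228) (nat_lit 34334801865) (nat_lit 304) (nat_lit 41468356361)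 (nat_lit 79) (nat_lit 5) (nat_lit 82) (nat_lit 5) (nat_lit 83) (nat_lit 5) (nat_lit 447) (nat_lit 437) (nat_lit 316)) (XT.lf (nat_lit 0) (nat_lit 80555440744) (nat_lit 304) (nat_lit 17431795208) (nat_lit 76) (nat_lit 12083101325) (nat_lit 79) (nat_lit 5) (nat_lit 83) (nat_lit 5) (nat_lit 80) (nat_lit 5) (nat_lit 448) (nat_lit 437) (nat_lit 315))) (XT.nd (nat_lit 78) (nat_lit 76) (nat_lit 0) (XT.lf (nat_lit 0) (nat_lit 47071399983) (nat_lit 228) (nat_lit 53500908650) (nat_lit 304) (nat_lit 14420083600) (nat_lit 76) (nat_lit 5) (nat_lit 79) (nat_lit 5) (nat_lit 80) (nat_lit 5) (nat_lit 449) (nat_lit 437) (nat_lit 314)) (XT.lf (nat_lit 0) (nat_lit 2276501391) (nat_lit 304) (nat_lit 2602299893) (nat_lit 76) (nat_lit 115386720946) (nat_lit 75) (nat_lit 5) (nat_lit 79) (nat_lit 5) (nat_lit 76) (nat_lit 5) (nat_lit 450) (nat_lit 437) (nat_lit 313)))))) (XT.nd (nat_lit 546) (nat_lit 608) (nat_lit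 0) (XT.nd (nat_lit 234) (nat_lit 532) (nat_lit 0) (XT.nd (nat_lit 78) (nat_lit 228) (nat_lit 0) (XT.lf (nat_lit 0) (nat_lit 22439433521) (nat_lit 304) (nat_lit 55868919319) (nat_lit 76) (nat_lit 47389411684) (nat_lit 72) (nat_lit 5) (nat_lit 76) (nat_lit 5) (nat_lit 73) (nat_lit 5) (nat_lit 451) (nat_lit 437) (nat_lit 312)) (XT.nd (nat_lit 78) (nat_lit 0) (nat_lit 0) (XT.lf (nat_lit 0) (nat_lit 17383877471) (nat_lit 228) (nat_lit 27448751604) (nat_lit 304) (nat_lit 86682578870) (nat_lit 69) (nat_lit 5) (nat_lit 72) (nat_lit 5) (nat_lit 73) (nat_lit 5) (nat_lit 452) (nat_lit 437) (nat_lit 311)) (XT.lf (nat_lit 0) (nat_lit 71244843090) (nat_lit 304) (nat_lit 38702959796) (nat_lit 76) (nat_lit 27672038977) (nat_lit 69) (nat_lit 5) (nat_lit 73) (nat_lit 5) (nat_lit 70) (nat_lit 5) (nat_lit 453) (nat_lit 437) (nat_lit 310)))) (XT.nd (nat_lit 156) (nat_lit 380) (nat_lit 0) (XT.nd (nat_lit 78)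 (nat_lit 0) (nat_lit 0) (XT.lf (nat_lit 0) (nat_lit 44260083369) (nat_lit 152) (nat_lit 57286847926) (nat_lit 228) (nat_lit 42523763480) (nat_lit 67) (nat_lit 5) (nat_lit 69) (nat_lit 5) (nat_lit 70) (nat_lit 5) (nat_lit 454) (nat_lit 437) (nat_lit 309)) (XT.lf (nat_lit 0) (nat_lit 135348449869) (nat_lit 228) (nat_lit 14909998349) (nat_lit 76) (nat_lit 693146680) (nat_lit 67) (nat_lit 5) (nat_lit 70) (nat_lit 5) (nat_lit 68) (nat_lit 5) (nat_lit 455) (nat_lit 437) (nat_lit 308))) (XT.nd (nat_lit 78) (nat_lit 152) (nat_lit 0) (XT.lf (nat_lit 0) (nat_lit 16279078025) (nat_lit 228) (nat_lit 79264731170) (nat_lit 76) (nat_lit 62534692584) (nat_lit 64) (nat_lit 5) (nat_lit 67) (nat_lit 5) (nat_lit 65) (nat_lit 5) (nat_lit 456) (nat_lit 437) (nat_lit 307)) (XT.lf (nat_lit 0) (nat_lit 15499226074) (nat_lit 152) (nat_lit 35160235554) (nat_lit 228) (nat_lit 115020432873) (nat_lit 62) (nat_lit 5)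 (nat_lit 64) (nat_lit 5) (nat_lit 65) (nat_lit 5) (nat_lit 457) (nat_lit 437) (nat_lit 306))))) (XT.nd (nat_lit 312) (nat_lit 304) (nat_lit 0) (XT.nd (nat_lit 156) (nat_lit 152) (nat_lit 0) (XT.nd (nat_lit 78) (nat_lit 152) (nat_lit 0) (XT.lf (nat_lit 0) (nat_lit 90736164748) (nat_lit 228) (nat_lit 52143649002) (nat_lit 76) (nat_lit 30773913814) (nat_lit 62) (nat_lit 5) (nat_lit 65) (nat_lit 5) (nat_lit 63) (nat_lit 5) (nat_lit 458) (nat_lit 437) (nat_lit 305)) (XT.lf (nat_lit 0) (nat_lit 55603973470) (nat_lit 152) (nat_lit 80665151813) (nat_lit 228) (nat_lit 45816332324) (nat_lit 60) (nat_lit 5) (nat_lit 62) (nat_lit 5) (nat_lit 63) (nat_lit 5) (nat_lit 459) (nat_lit 437) (nat_lit 304))) (XT.nd (nat_lit 78) (nat_lit 152) (nat_lit 0) (XT.lf (nat_lit 0) (nat_lit 174936235920) (nat_lit 152) (nat_lit 11933793136) (nat_lit 228) (nat_lit 4207672513) (nat_lit 60) (nat_lit 5) (nat_lit 62) (nat_lit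 5) (nat_lit 63) (nat_lit 5) (nat_lit 460) (nat_lit 437) (nat_lit 303)) (XT.lf (nat_lit 0) (nat_lit 42866037545) (nat_lit 152) (nat_lit 94675931455) (nat_lit 76) (nat_lit 62835086407) (nat_lit 58) (nat_lit 5) (nat_lit 60) (nat_lit 5) (nat_lit 59) (nat_lit 5) (nat_lit 461) (nat_lit 437) (nat_lit 302)))) (XT.nd (nat_lit 156) (nat_lit 152) (nat_lit 0) (XT.nd (nat_lit 78) (nat_lit 0) (nat_lit 0) (XT.lf (nat_lit 0) (nat_lit 28835172493) (nat_lit 152) (nat_lit 66099037664) (nat_lit 228) (nat_lit 115360933053) (nat_lit 56) (nat_lit 5) (nat_lit 58) (nat_lit 5) (nat_lit 59) (nat_lit 5) (nat_lit 462) (nat_lit 437) (nat_lit 301)) (XT.lf (nat_lit 0) (nat_lit 154089299640) (nat_lit 228) (nat_lit 53521948350) (nat_lit 76) (nat_lit 13161713020) (nat_lit 56) (nat_lit 5) (nat_lit 59) (nat_lit 5) (nat_lit 57) (nat_lit 4) (nat_lit 463) (nat_lit 437) (nat_lit 300))) (XT.nd (nat_lit 78) (nat_lit 76) (nat_lit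 0) (XT.lf (nat_lit 0) (nat_lit 87300830141) (nat_lit 76) (nat_lit 134492079516) (nat_lit 152) (nat_lit 9990805526) (nat_lit 55) (nat_lit 5) (nat_lit 56) (nat_lit 5) (nat_lit 57) (nat_lit 4) (nat_lit 464) (nat_lit 437) (nat_lit 299)) (XT.lf (nat_lit 0) (nat_lit 50175438593) (nat_lit 152) (nat_lit 2395831530) (nat_lit 76) (nat_lit 190885393293) (nat_lit 54) (nat_lit 5) (nat_lit 56) (nat_lit 5) (nat_lit 55) (nat_lit 5) (nat_lit 465) (nat_lit 437) (nat_lit 298))))))))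
noncomputable def xc174 : XT := (XT.nd (nat_lit 2184) (nat_lit 1444) (nat_lit 0) (XT.nd (nat_lit 1092) (nat_lit 988) (nat_lit 0) (XT.nd (nat_lit 546) (nat_lit 456) (nat_lit 0) (XT.nd (nat_lit 234) (nat_lit 380) (nat_lit 0) (XT.nd (nat_lit 78) (nat_lit 152) (nat_lit 0) (XT.lf (nat_lit 0) (nat_lit 119401957725) (nat_lit 228) (nat_lit 97967746765) (nat_lit 76) (nat_lit 38290043838) (nat_lit 52) (nat_lit 5) (nat_lit 55) (nat_lit 5) (nat_lit 53) (nat_lit 4) (nat_lit 466) (nat_lit 437) (nat_lit 297)) (XT.nd (nat_lit 78) (nat_lit 76) (nat_lit 0) (XT.lf (nat_lit 0) (nat_lit 63708509422) (nat_lit 76) (nat_lit 133422675712) (nat_lit 152) (nat_lit 71470727973) (nat_lit 51) (nat_lit 5) (nat_lit 52) (nat_lit 5) (nat_lit 53) (nat_lit 4) (nat_lit 467) (nat_lit 437) (nat_lit 296)) (XT.lf (nat_lit 0) (nat_lit 1322259341) (nat_lit 152) (nat_lit 38508802146) (nat_lit 76) (nat_lit 242531445858) (nat_lit 50)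 (nat_lit 5) (nat_lit 52) (nat_lit 5) (nat_lit 51) (nat_lit 5) (nat_lit 468) (nat_lit 437) (nat_lit 295)))) (XT.nd (nat_lit 156) (nat_lit 152) (nat_lit 0) (XT.nd (nat_lit 78) (nat_lit 76) (nat_lit 0) (XT.lf (nat_lit 0) (nat_lit 81217312806) (nat_lit 228) (nat_lit 151739575435) (nat_lit 76) (nat_lit 63707358059) (nat_lit 48) (nat_lit 5) (nat_lit 51) (nat_lit 5) (nat_lit 49) (nat_lit 4) (nat_lit 469) (nat_lit 437) (nat_lit 294)) (XT.lf (nat_lit 0) (nat_lit 33826685649) (nat_lit 76) (nat_lit 136605365457) (nat_lit 152) (nat_lit 141443826830) (nat_lit 47) (nat_lit 5) (nat_lit 48) (nat_lit 5) (nat_lit 49) (nat_lit 4) (nat_lit 470) (nat_lit 437) (nat_lit 293))) (XT.nd (nat_lit 78) (nat_lit 152) (nat_lit 0) (XT.lf (nat_lit 0) (nat_lit 242867324314) (nat_lit 76) (nat_lit 28065209493) (nat_lit 152) (nat_lit 57040021078) (nat_lit 47) (nat_lit 5) (nat_lit 48) (nat_lit 5) (nat_lit 49) (nat_lit 4) (nat_lit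 471) (nat_lit 437) (nat_lit 292)) (XT.lf (nat_lit 0) (nat_lit 37755380971) (nat_lit 152) (nat_lit 218387959705) (nat_lit 76) (nat_lit 88720312558) (nat_lit 45) (nat_lit 5) (nat_lit 47) (nat_lit 5) (nat_lit 46) (nat_lit 4) (nat_lit 472) (nat_lit 437) (nat_lit 291))))) (XT.nd (nat_lit 234) (nat_lit 304) (nat_lit 0) (XT.nd (nat_lit 78) (nat_lit 152) (nat_lit 0) (XT.lf (nat_lit 0) (nat_lit 140168858698) (nat_lit 152) (nat_lit 5368216063) (nat_lit 76) (nat_lit 217201153082) (nat_lit 45) (nat_lit 5) (nat_lit 47) (nat_lit 5) (nat_lit 46) (nat_lit 4) (nat_lit 473) (nat_lit 437) (nat_lit 290)) (XT.nd (nat_lit 78) (nat_lit 76) (nat_lit 0) (XT.lf (nat_lit 0) (nat_lit 236524592606) (nat_lit 76) (nat_lit 19939014753) (nat_lit 152) (nat_lit 125124105651) (nat_lit 44) (nat_lit 5) (nat_lit 45) (nat_lit 5) (nat_lit 46) (nat_lit 4) (nat_lit 474) (nat_lit 437) (nat_lit 289)) (XT.lf (nat_lit 0) (nat_lit 98269546561)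 (nat_lit 76) (nat_lit 289088889363) (nat_lit 76) (nat_lit 14163001071) (nat_lit 43) (nat_lit 4) (nat_lit 44) (nat_lit 5) (nat_lit 44) (nat_lit 4) (nat_lit 475) (nat_lit 437) (nat_lit 288)))) (XT.nd (nat_lit 156) (nat_lit 152) (nat_lit 0) (XT.nd (nat_lit 78) (nat_lit 76) (nat_lit 0) (XT.lf (nat_lit 0) (nat_lit 104975673961) (nat_lit 152) (nat_lit 56576699631) (nat_lit 76) (nat_lit 260927208570) (nat_lit 42) (nat_lit 5) (nat_lit 44) (nat_lit 5) (nat_lit 43) (nat_lit 4) (nat_lit 476) (nat_lit 437) (nat_lit 287)) (XT.lf (nat_lit 0) (nat_lit 220494248327) (nat_lit 76) (nat_lit 17688707051) (nat_lit 152) (nat_lit 206477779373) (nat_lit 41) (nat_lit 5) (nat_lit 42) (nat_lit 5) (nat_lit 43) (nat_lit 4) (nat_lit 477) (nat_lit 437) (nat_lit 286))) (XT.nd (nat_lit 78) (nat_lit 76) (nat_lit 0) (XT.lf (nat_lit 0) (nat_lit 53794965251) (nat_lit 76) (nat_lit 334443807542) (nat_lit 76) (nat_lit 79882250479)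 (nat_lit 40) (nat_lit 4) (nat_lit 41) (nat_lit 5) (nat_lit 41) (nat_lit 4) (nat_lit 478) (nat_lit 437) (nat_lit 285)) (XT.lf (nat_lit 0) (nat_lit 60745053762) (nat_lit 152) (nat_lit 128212001931) (nat_lit 76) (nat_lit 303851913458) (nat_lit 39) (nat_lit 5) (nat_lit 41) (nat_lit 5) (nat_lit 40) (nat_lit 4) (nat_lit 479) (nat_lit 437) (nat_lit 284)))))) (XT.nd (nat_lit 546) (nat_lit 456) (nat_lit 0) (XT.nd (nat_lit 234) (nat_lit 304) (nat_lit 0) (XT.nd (nat_lit 78) (nat_lit 152) (nat_lit 0) (XT.lf (nat_lit 0) (nat_lit 188126804231) (nat_lit 76) (nat_lit 24704283785) (nat_lit 152) (nat_lit 306112932630) (nat_lit 38) (nat_lit 5) (nat_lit 39) (nat_lit 5) (nat_lit 40) (nat_lit 4) (nat_lit 480) (nat_lit 437) (nat_lit 283)) (XT.nd (nat_lit 78) (nat_lit 152) (nat_lit 0) (XT.lf (nat_lit 0) (nat_lit 384352577590) (nat_lit 152) (nat_lit 13588784523) (nat_lit 0) (nat_lit 148647028346) (nat_lit 38) (nat_lit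 5) (nat_lit 40) (nat_lit 4) (nat_lit 38) (nat_lit 4) (nat_lit 481) (nat_lit 437) (nat_lit 282)) (XT.lf (nat_lit 0) (nat_lit 2681466625) (nat_lit 152) (nat_lit 230128213838) (nat_lit 76) (nat_lit 342912814027) (nat_lit 36) (nat_lit 5) (nat_lit 38) (nat_lit 5) (nat_lit 37) (nat_lit 4) (nat_lit 482) (nat_lit 437) (nat_lit 281)))) (XT.nd (nat_lit 156) (nat_lit 228) (nat_lit 0) (XT.nd (nat_lit 78) (nat_lit 0) (nat_lit 0) (XT.lf (nat_lit 0) (nat_lit 129375145725) (nat_lit 76) (nat_lit 46144525807) (nat_lit 152) (nat_lit 431051142668) (nat_lit 35) (nat_lit 5) (nat_lit 36) (nat_lit 5) (nat_lit 37) (nat_lit 4) (nat_lit 483) (nat_lit 437) (nat_lit 280)) (XT.lf (nat_lit 0) (nat_lit 372378970594) (nat_lit 152) (nat_lit 112559711025) (nat_lit 0) (nat_lit 154132794848) (nat_lit 35) (nat_lit 5) (nat_lit 37) (nat_lit 4) (nat_lit 35) (nat_lit 4) (nat_lit 484) (nat_lit 437) (nat_lit 279))) (XT.nd (nat_lit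 78) (nat_lit 152) (nat_lit 0) (XT.lf (nat_lit 0) (nat_lit 294795083907) (nat_lit 76) (nat_lit 298480155090) (nat_lit 76) (nat_lit 80233894687) (nat_lit 34) (nat_lit 4) (nat_lit 35) (nat_lit 5) (nat_lit 35) (nat_lit 4) (nat_lit 485) (nat_lit 437) (nat_lit 278)) (XT.lf (nat_lit 0) (nat_lit 29148443958) (nat_lit 76) (nat_lit 89791355439) (nat_lit 152) (nat_lit 591220257570) (nat_lit 32) (nat_lit 5) (nat_lit 33) (nat_lit 5) (nat_lit 34) (nat_lit 4) (nat_lit 486) (nat_lit 437) (nat_lit 277))))) (XT.nd (nat_lit 234) (nat_lit 304) (nat_lit 0) (XT.nd (nat_lit 78) (nat_lit 152) (nat_lit 0) (XT.lf (nat_lit 0) (nat_lit 343597183984) (nat_lit 152) (nat_lit 263351216149) (nat_lit 0) (nat_lit 141517173457) (nat_lit 32) (nat_lit 5) (nat_lit 34) (nat_lit 4) (nat_lit 32) (nat_lit 4) (nat_lit 487) (nat_lit 437) (nat_lit 276)) (XT.nd (nat_lit 78) (nat_lit 76) (nat_lit 0) (XT.lf (nat_lit 0) (nat_lit 195151749437)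 (nat_lit 76) (nat_lit 398100907524) (nat_lit 76) (nat_lit 196020834773) (nat_lit 31) (nat_lit 4) (nat_lit 32) (nat_lit 5) (nat_lit 32) (nat_lit 4) (nat_lit 488) (nat_lit 437) (nat_lit 275)) (XT.lf (nat_lit 0) (nat_lit 35444453160) (nat_lit 152) (nat_lit 128355667793) (nat_lit 76) (nat_lit 668898108676) (nat_lit 30) (nat_lit 5) (nat_lit 32) (nat_lit 5) (nat_lit 31) (nat_lit 4) (nat_lit 489) (nat_lit 437) (nat_lit 274)))) (XT.nd (nat_lit 156) (nat_lit 152) (nat_lit 0) (XT.nd (nat_lit 78) (nat_lit 76) (nat_lit 0) (XT.lf (nat_lit 0) (nat_lit 286714668796) (nat_lit 152) (nat_lit 491921340468) (nat_lit 0) (nat_lit 99603387578) (nat_lit 29) (nat_lit 5) (nat_lit 31) (nat_lit 4) (nat_lit 29) (nat_lit 4) (nat_lit 490) (nat_lit 437) (nat_lit 273)) (XT.lf (nat_lit 0) (nat_lit 18922896274) (nat_lit 76) (nat_lit 547473738725) (nat_lit 76) (nat_lit 360362411769) (nat_lit 28) (nat_lit 4) (nat_lit 29) (nat_lit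 5) (nat_lit 29) (nat_lit 4) (nat_lit 491) (nat_lit 437) (nat_lit 272))) (XT.nd (nat_lit 78) (nat_lit 152) (nat_lit 0) (XT.lf (nat_lit 0) (nat_lit 598610402282) (nat_lit 76) (nat_lit 283292623178) (nat_lit 76) (nat_lit 96181253872) (nat_lit 28) (nat_lit 4) (nat_lit 29) (nat_lit 5) (nat_lit 29) (nat_lit 4) (nat_lit 492) (nat_lit 437) (nat_lit 271)) (XT.lf (nat_lit 0) (nat_lit 184686770193) (nat_lit 152) (nat_lit 836628307992) (nat_lit 0) (nat_lit 11435466010) (nat_lit 26) (nat_lit 5) (nat_lit 28) (nat_lit 4) (nat_lit 26) (nat_lit 4) (nat_lit 493) (nat_lit 437) (nat_lit 270))))))) (XT.nd (nat_lit 1092) (nat_lit 684) (nat_lit 0) (XT.nd (nat_lit 546) (nat_lit 304) (nat_lit 0) (XT.nd (nat_lit 234) (nat_lit 304) (nat_lit 0) (XT.nd (nat_lit 78) (nat_lit 152) (nat_lit 0) (XT.lf (nat_lit 0) (nat_lit 500831054470) (nat_lit 152) (nat_lit 261739233620) (nat_lit 0) (nat_lit 327579716669) (nat_lit 26)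 (nat_lit 5) (nat_lit 28) (nat_lit 4) (nat_lit 26) (nat_lit 4) (nat_lit 494) (nat_lit 437) (nat_lit 269)) (XT.nd (nat_lit 78) (nat_lit 76) (nat_lit 0) (XT.lf (nat_lit 0) (nat_lit 378052441068) (nat_lit 76) (nat_lit 473306492916) (nat_lit 76) (nat_lit 300055123986) (nat_lit 25) (nat_lit 4) (nat_lit 26) (nat_lit 5) (nat_lit 26) (nat_lit 4) (nat_lit 495) (nat_lit 437) (nat_lit 268)) (XT.lf (nat_lit 0) (nat_lit 19074198690) (nat_lit 152) (nat_lit 133577064475) (nat_lit 76) (nat_lit 1064316837002) (nat_lit 24) (nat_lit 5) (nat_lit 26) (nat_lit 5) (nat_lit 25) (nat_lit 4) (nat_lit 496) (nat_lit 437) (nat_lit 267)))) (XT.nd (nat_lit 156) (nat_lit 228) (nat_lit 0) (XT.nd (nat_lit 78) (nat_lit 0) (nat_lit 0) (XT.lf (nat_lit 0) (nat_lit 366658088990) (nat_lit 152) (nat_lit 712713982814) (nat_lit 0) (nat_lit 206240103398) (nat_lit 23) (nat_lit 5) (nat_lit 25) (nat_lit 4) (nat_lit 23) (nat_lit 4) (nat_lit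 497) (nat_lit 437) (nat_lit 266)) (XT.lf (nat_lit 0) (nat_lit 749760646504) (nat_lit 152) (nat_lit 20027535226) (nat_lit 0) (nat_lit 589342638032) (nat_lit 23) (nat_lit 5) (nat_lit 25) (nat_lit 4) (nat_lit 23) (nat_lit 4) (nat_lit 498) (nat_lit 437) (nat_lit 265))) (XT.nd (nat_lit 78) (nat_lit 152) (nat_lit 0) (XT.lf (nat_lit 0) (nat_lit 766412688923) (nat_lit 76) (nat_lit 415530862595) (nat_lit 76) (nat_lit 255112832938) (nat_lit 22) (nat_lit 4) (nat_lit 23) (nat_lit 5) (nat_lit 23) (nat_lit 4) (nat_lit 499) (nat_lit 437) (nat_lit 264)) (XT.lf (nat_lit 0) (nat_lit 97533499384) (nat_lit 76) (nat_lit 26481668239) (nat_lit 152) (nat_lit 1396722953633) (nat_lit 20) (nat_lit 5) (nat_lit 21) (nat_lit 5) (nat_lit 22) (nat_lit 4) (nat_lit 500) (nat_lit 437) (nat_lit 263))))) (XT.nd (nat_lit 234) (nat_lit 228) (nat_lit 0) (XT.nd (nat_lit 78) (nat_lit 76) (nat_lit 0) (XT.lf (nat_lit 0) (nat_lit 547971739708)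 (nat_lit 152) (nat_lit 660913576563) (nat_lit 0) (nat_lit 399436492082) (nat_lit 20) (nat_lit 5) (nat_lit 22) (nat_lit 4) (nat_lit 20) (nat_lit 4) (nat_lit 501) (nat_lit 437) (nat_lit 262)) (XT.nd (nat_lit 78) (nat_lit 0) (nat_lit 0) (XT.lf (nat_lit 0) (nat_lit 170186125170) (nat_lit 76) (nat_lit 840439435305) (nat_lit 76) (nat_lit 691904172107) (nat_lit 19) (nat_lit 4) (nat_lit 20) (nat_lit 5) (nat_lit 20) (nat_lit 4) (nat_lit 502) (nat_lit 437) (nat_lit 261)) (XT.lf (nat_lit 0) (nat_lit 1105360357695) (nat_lit 76) (nat_lit 423001787025) (nat_lit 76) (nat_lit 274466509408) (nat_lit 19) (nat_lit 4) (nat_lit 20) (nat_lit 5) (nat_lit 20) (nat_lit 4) (nat_lit 503) (nat_lit 437) (nat_lit 260)))) (XT.nd (nat_lit 156) (nat_lit 76) (nat_lit 0) (XT.nd (nat_lit 78) (nat_lit 0) (nat_lit 0) (XT.lf (nat_lit 0) (nat_lit 173516675902) (nat_lit 152) (nat_lit 1700833640808) (nat_lit 0) (nat_lit 35983999081)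 (nat_lit 17) (nat_lit 5) (nat_lit 19) (nat_lit 4) (nat_lit 17) (nat_lit 4) (nat_lit 504) (nat_lit 437) (nat_lit 259)) (XT.lf (nat_lit 0) (nat_lit 673062513379) (nat_lit 152) (nat_lit 814833586449) (nat_lit 0) (nat_lit 535529825112) (nat_lit 17) (nat_lit 5) (nat_lit 19) (nat_lit 4) (nat_lit 17) (nat_lit 4) (nat_lit 505) (nat_lit 437) (nat_lit 258))) (XT.nd (nat_lit 78) (nat_lit 0) (nat_lit 0) (XT.lf (nat_lit 0) (nat_lit 149526215316) (nat_lit 76) (nat_lit 1066641832006) (nat_lit 76) (nat_lit 929109133142) (nat_lit 16) (nat_lit 4) (nat_lit 17) (nat_lit 5) (nat_lit 17) (nat_lit 4) (nat_lit 506) (nat_lit 437) (nat_lit 257)) (XT.lf (nat_lit 0) (nat_lit 1237374949622) (nat_lit 76) (nat_lit 587625991074) (nat_lit 76) (nat_lit 450093282397) (nat_lit 16) (nat_lit 4) (nat_lit 17) (nat_lit 5) (nat_lit 17) (nat_lit 4) (nat_lit 507) (nat_lit 437) (nat_lit 256)))))) (XT.nd (nat_lit 546) (nat_lit 304)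 (nat_lit 0) (XT.nd (nat_lit 234) (nat_lit 228) (nat_lit 0) (XT.nd (nat_lit 78) (nat_lit 76) (nat_lit 0) (XT.lf (nat_lit 0) (nat_lit 63879953700) (nat_lit 152) (nat_lit 4662414065) (nat_lit 76) (nat_lit 2346624889990) (nat_lit 15) (nat_lit 5) (nat_lit 17) (nat_lit 5) (nat_lit 16) (nat_lit 4) (nat_lit 508) (nat_lit 437) (nat_lit 255)) (XT.nd (nat_lit 78) (nat_lit 0) (nat_lit 0) (XT.lf (nat_lit 0) (nat_lit 635346648715) (nat_lit 152) (nat_lit 1418907309582) (nat_lit 0) (nat_lit 508001531885) (nat_lit 14) (nat_lit 5) (nat_lit 16) (nat_lit 4) (nat_lit 14) (nat_lit 4) (nat_lit 509) (nat_lit 437) (nat_lit 254)) (XT.lf (nat_lit 0) (nat_lit 1254441722221) (nat_lit 152) (nat_lit 339419577372) (nat_lit 0) (nat_lit 1127096598178) (nat_lit 14) (nat_lit 5) (nat_lit 16) (nat_lit 4) (nat_lit 14) (nat_lit 4) (nat_lit 510) (nat_lit 437) (nat_lit 253)))) (XT.nd (nat_lit 156) (nat_lit 152) (nat_lit 0) (XT.nd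 (nat_lit 78) (nat_lit 0) (nat_lit 0) (XT.lf (nat_lit 0) (nat_lit 869945226823) (nat_lit 76) (nat_lit 1074041315312) (nat_lit 76) (nat_lit 946696184591) (nat_lit 13) (nat_lit 4) (nat_lit 14) (nat_lit 5) (nat_lit 14) (nat_lit 4) (nat_lit 511) (nat_lit 437) (nat_lit 252)) (XT.lf (nat_lit 0) (nat_lit 2195362180629) (nat_lit 76) (nat_lit 502613038285) (nat_lit 76) (nat_lit 375267901380) (nat_lit 13) (nat_lit 4) (nat_lit 14) (nat_lit 5) (nat_lit 14) (nat_lit 4) (nat_lit 512) (nat_lit 437) (nat_lit 251))) (XT.nd (nat_lit 78) (nat_lit 0) (nat_lit 0) (XT.lf (nat_lit 0) (nat_lit 241786719926) (nat_lit 152) (nat_lit 2903320777338) (nat_lit 0) (nat_lit 123874550823) (nat_lit 11) (nat_lit 5) (nat_lit 13) (nat_lit 4) (nat_lit 11) (nat_lit 4) (nat_lit 513) (nat_lit 437) (nat_lit 250)) (XT.lf (nat_lit 0) (nat_lit 925612593314) (nat_lit 152) (nat_lit 1743272812327) (nat_lit 0) (nat_lit 807700419303) (nat_lit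 11) (nat_lit 5) (nat_lit 13) (nat_lit 4) (nat_lit 11) (nat_lit 4) (nat_lit 514) (nat_lit 437) (nat_lit 249))))) (XT.nd (nat_lit 312) (nat_lit 228) (nat_lit 0) (XT.nd (nat_lit 156) (nat_lit 0) (nat_lit 0) (XT.nd (nat_lit 78) (nat_lit 76) (nat_lit 0) (XT.lf (nat_lit 0) (nat_lit 1664144482540) (nat_lit 152) (nat_lit 490421121750) (nat_lit 0) (nat_lit 1546232303983) (nat_lit 11) (nat_lit 5) (nat_lit 13) (nat_lit 4) (nat_lit 11) (nat_lit 4) (nat_lit 515) (nat_lit 437) (nat_lit 248)) (XT.lf (nat_lit 0) (nat_lit 908084673857) (nat_lit 76) (nat_lit 1575513657260) (nat_lit 76) (nat_lit 1457601474494) (nat_lit 10) (nat_lit 4) (nat_lit 11) (nat_lit 5) (nat_lit 11) (nat_lit 4) (nat_lit 516) (nat_lit 437) (nat_lit 247))) (XT.nd (nat_lit 78) (nat_lit 0) (nat_lit 0) (XT.lf (nat_lit 0) (nat_lit 2446361516110) (nat_lit 76) (nat_lit 935655905292) (nat_lit 76) (nat_lit 817743718629) (nat_lit 10) (nat_lit 4)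 (nat_lit 11) (nat_lit 5) (nat_lit 11) (nat_lit 4) (nat_lit 517) (nat_lit 437) (nat_lit 246)) (XT.lf (nat_lit 0) (nat_lit 4107700412457) (nat_lit 76) (nat_lit 244609581315) (nat_lit 76) (nat_lit 126697391044) (nat_lit 10) (nat_lit 4) (nat_lit 11) (nat_lit 5) (nat_lit 11) (nat_lit 4) (nat_lit 518) (nat_lit 437) (nat_lit 245)))) (XT.nd (nat_lit 156) (nat_lit 76) (nat_lit 0) (XT.nd (nat_lit 78) (nat_lit 0) (nat_lit 0) (XT.lf (nat_lit 0) (nat_lit 629828505322) (nat_lit 152) (nat_lit 3625626709437) (nat_lit 0) (nat_lit 520650548275) (nat_lit 8) (nat_lit 5) (nat_lit 10) (nat_lit 4) (nat_lit 8) (nat_lit 4) (nat_lit 519) (nat_lit 437) (nat_lit 244)) (XT.lf (nat_lit 0) (nat_lit 1456800860106) (nat_lit 152) (nat_lit 2290943436972) (nat_lit 0) (nat_lit 1347622900194) (nat_lit 8) (nat_lit 5) (nat_lit 10) (nat_lit 4) (nat_lit 8) (nat_lit 4) (nat_lit 520) (nat_lit 437) (nat_lit 243))) (XT.nd (nat_lit 78)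 (nat_lit 76) (nat_lit 0) (XT.lf (nat_lit 0) (nat_lit 2349930963593) (nat_lit 152) (nat_lit 849485584801) (nat_lit 0) (nat_lit 2240753001029) (nat_lit 8) (nat_lit 5) (nat_lit 10) (nat_lit 4) (nat_lit 8) (nat_lit 4) (nat_lit 521) (nat_lit 437) (nat_lit 242)) (XT.lf (nat_lit 0) (nat_lit 744533395344) (nat_lit 76) (nat_lit 2587884089337) (nat_lit 76) (nat_lit 2478706124318) (nat_lit 7) (nat_lit 4) (nat_lit 8) (nat_lit 5) (nat_lit 8) (nat_lit 4) (nat_lit 522) (nat_lit 437) (nat_lit 241))))))))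
noncomputable def xc175 : XT := (XT.nd (nat_lit 56706) (nat_lit 0) (nat_lit 3040) (XT.nd (nat_lit 1092) (nat_lit 152) (nat_lit 0) (XT.nd (nat_lit 546) (nat_lit 76) (nat_lit 0) (XT.nd (nat_lit 234) (nat_lit 152) (nat_lit 0) (XT.nd (nat_lit 78) (nat_lit 0) (nat_lit 0) (XT.lf (nat_lit 0) (nat_lit 2514384817731) (nat_lit 76) (nat_lit 1902344515232) (nat_lit 76) (nat_lit 1793166547939) (nat_lit 7) (nat_lit 4) (nat_lit 8) (nat_lit 5) (nat_lit 8) (nat_lit 4) (nat_lit 523) (nat_lit 437) (nat_lit 240)) (XT.nd (nat_lit 78) (nat_lit 0) (nat_lit 0) (XT.lf (nat_lit 0) (nat_lit 4425824285310) (nat_lit 76) (nat_lit 1161961810649) (nat_lit 76) (nat_lit 1052783841250) (nat_lit 7) (nat_lit 4) (nat_lit 8) (nat_lit 5) (nat_lit 8) (nat_lit 4) (nat_lit 524) (nat_lit 437) (nat_lit 239)) (XT.lf (nat_lit 0) (nat_lit 6490178846777) (nat_lit 76) (nat_lit 362348522523) (nat_lit 76) (nat_lit 253170551175) (nat_lit 7)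 (nat_lit 4) (nat_lit 8) (nat_lit 5) (nat_lit 8) (nat_lit 4) (nat_lit 525) (nat_lit 437) (nat_lit 238)))) (XT.nd (nat_lit 156) (nat_lit 0) (nat_lit 0) (XT.nd (nat_lit 78) (nat_lit 0) (nat_lit 0) (XT.lf (nat_lit 0) (nat_lit 620805098226) (nat_lit 152) (nat_lit 6463067943022) (nat_lit 0) (nat_lit 519714382344) (nat_lit 5) (nat_lit 5) (nat_lit 7) (nat_lit 4) (nat_lit 5) (nat_lit 4) (nat_lit 526) (nat_lit 437) (nat_lit 237)) (XT.lf (nat_lit 0) (nat_lit 1577699143831) (nat_lit 152) (nat_lit 5084340197656) (nat_lit 0) (nat_lit 1476608426401) (nat_lit 5) (nat_lit 5) (nat_lit 7) (nat_lit 4) (nat_lit 5) (nat_lit 4) (nat_lit 527) (nat_lit 437) (nat_lit 236))) (XT.nd (nat_lit 78) (nat_lit 0) (nat_lit 0) (XT.lf (nat_lit 0) (nat_lit 2611144686098) (nat_lit 152) (nat_lit 3595314288553) (nat_lit 0) (nat_lit 2510053967236) (nat_lit 5) (nat_lit 5) (nat_lit 7) (nat_lit 4) (nat_lit 5) (nat_lit 4) (nat_lit 528)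 (nat_lit 437) (nat_lit 235)) (XT.lf (nat_lit 0) (nat_lit 3727265846761) (nat_lit 152) (nat_lit 1987166358472) (nat_lit 0) (nat_lit 3626175126572) (nat_lit 5) (nat_lit 5) (nat_lit 7) (nat_lit 4) (nat_lit 5) (nat_lit 4) (nat_lit 529) (nat_lit 437) (nat_lit 234))))) (XT.nd (nat_lit 234) (nat_lit 0) (nat_lit 0) (XT.nd (nat_lit 78) (nat_lit 76) (nat_lit 0) (XT.lf (nat_lit 0) (nat_lit 4932676677142) (nat_lit 152) (nat_lit 250366641902) (nat_lit 0) (nat_lit 4831585955724) (nat_lit 5) (nat_lit 5) (nat_lit 7) (nat_lit 4) (nat_lit 5) (nat_lit 4) (nat_lit 530) (nat_lit 437) (nat_lit 233)) (XT.nd (nat_lit 78) (nat_lit 0) (nat_lit 0) (XT.lf (nat_lit 0) (nat_lit 1710966480431) (nat_lit 76) (nat_lit 4564702657103) (nat_lit 76) (nat_lit 4463611934548) (nat_lit 4) (nat_lit 4) (nat_lit 5) (nat_lit 5) (nat_lit 5) (nat_lit 4) (nat_lit 531) (nat_lit 437) (nat_lit 232)) (XT.lf (nat_lit 0) (nat_lit 3843444782076)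 (nat_lit 76) (nat_lit 3889501659484) (nat_lit 76) (nat_lit 3788410935875) (nat_lit 4) (nat_lit 4) (nat_lit 5) (nat_lit 5) (nat_lit 5) (nat_lit 4) (nat_lit 532) (nat_lit 437) (nat_lit 231)))) (XT.nd (nat_lit 156) (nat_lit 0) (nat_lit 0) (XT.nd (nat_lit 78) (nat_lit 0) (nat_lit 0) (XT.lf (nat_lit 0) (nat_lit 6146521307811) (nat_lit 76) (nat_lit 3160284602768) (nat_lit 76) (nat_lit 3059193878185) (nat_lit 4) (nat_lit 4) (nat_lit 5) (nat_lit 5) (nat_lit 5) (nat_lit 4) (nat_lit 533) (nat_lit 437) (nat_lit 230)) (XT.lf (nat_lit 0) (nat_lit 8633843918530) (nat_lit 76) (nat_lit 2372730200694) (nat_lit 76) (nat_lit 2271639475207) (nat_lit 4) (nat_lit 4) (nat_lit 5) (nat_lit 5) (nat_lit 5) (nat_lit 4) (nat_lit 534) (nat_lit 437) (nat_lit 229))) (XT.nd (nat_lit 78) (nat_lit 0) (nat_lit 0) (XT.lf (nat_lit 0) (nat_lit 11320152303777) (nat_lit 76) (nat_lit 1522171464211) (nat_lit 76) (nat_lit 1421080737889)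 (nat_lit 4) (nat_lit 4) (nat_lit 5) (nat_lit 5) (nat_lit 5) (nat_lit 4) (nat_lit 535) (nat_lit 437) (nat_lit 228)) (XT.lf (nat_lit 0) (nat_lit 14221365328057) (nat_lit 76) (nat_lit 603568045253) (nat_lit 76) (nat_lit 502477318156) (nat_lit 4) (nat_lit 4) (nat_lit 5) (nat_lit 5) (nat_lit 5) (nat_lit 4) (nat_lit 536) (nat_lit 437) (nat_lit 227)))))) (XT.nd (nat_lit 55068) (nat_lit 0) (nat_lit 5852) (XT.nd (nat_lit 54756) (nat_lit 0) (nat_lit 6384) (XT.nd (nat_lit 78) (nat_lit 0) (nat_lit 0) (XT.lf (nat_lit 0) (nat_lit 497274648285) (nat_lit 152) (nat_lit 15572076360716) (nat_lit 0) (nat_lit 403672122531) (nat_lit 2) (nat_lit 5) (nat_lit 4) (nat_lit 4) (nat_lit 2) (nat_lit 4) (nat_lit 537) (nat_lit 437) (nat_lit 226)) (XT.nd (nat_lit 78) (nat_lit 0) (nat_lit 0) (XT.lf (nat_lit 0) (nat_lit 1596563750094) (nat_lit 152) (nat_lit 14605979179904) (nat_lit 0) (nat_lit 1502961223726) (nat_lit 2) (nat_lit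 5) (nat_lit 4) (nat_lit 4) (nat_lit 2) (nat_lit 4) (nat_lit 538) (nat_lit 437) (nat_lit 225)) (XT.lf (nat_lit 0) (nat_lit 2783795966556) (nat_lit 152) (nat_lit 13562594252595) (nat_lit 0) (nat_lit 2690193439619) (nat_lit 2) (nat_lit 5) (nat_lit 4) (nat_lit 4) (nat_lit 2) (nat_lit 4) (nat_lit 539) (nat_lit 437) (nat_lit 224)))) (XT.nd (nat_lit 156) (nat_lit 532) (nat_lit 0) (XT.nd (nat_lit 78) (nat_lit 0) (nat_lit 0) (XT.lf (nat_lit 0) (nat_lit 37261731403) (nat_lit 532) (nat_lit 274458979) (nat_lit 532) (nat_lit 274458979) (nat_lit 93) (nat_lit 3) (nat_lit 100) (nat_lit 3) (nat_lit 100) (nat_lit 5) (nat_lit 438) (nat_lit 438) (nat_lit 324)) (XT.lf (nat_lit 76) (nat_lit 39064746487) (nat_lit 0) (nat_lit 39389970789) (nat_lit 532) (nat_lit 115406677) (nat_lit 94) (nat_lit 5) (nat_lit 93) (nat_lit 3) (nat_lit 100) (nat_lit 5) (nat_lit 439) (nat_lit 438) (nat_lit 323))) (XT.nd (nat_lit 78) (nat_lit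 0) (nat_lit 76) (XT.lf (nat_lit 76) (nat_lit 106593206) (nat_lit 0) (nat_lit 808557196) (nat_lit 608) (nat_lit 80836538597) (nat_lit 87) (nat_lit 5) (nat_lit 86) (nat_lit 5) (nat_lit 94) (nat_lit 5) (nat_lit 440) (nat_lit 438) (nat_lit 322)) (XT.lf (nat_lit 0) (nat_lit 4111741143) (nat_lit 532) (nat_lit 40981613639) (nat_lit 608) (nat_lit 39926998861) (nat_lit 87) (nat_lit 5) (nat_lit 94) (nat_lit 5) (nat_lit 95) (nat_lit 5) (nat_lit 441) (nat_lit 438) (nat_lit 321))))) (XT.nd (nat_lit 234) (nat_lit 608) (nat_lit 0) (XT.nd (nat_lit 78) (nat_lit 0) (nat_lit 76) (XT.lf (nat_lit 76) (nat_lit 3066656491) (nat_lit 0) (nat_lit 4591187333) (nat_lit 608) (nat_lit 80885164975) (nat_lit 88) (nat_lit 5) (nat_lit 87) (nat_lit 5) (nat_lit 95) (nat_lit 5) (nat_lit 442) (nat_lit 438) (nat_lit 320)) (XT.nd (nat_lit 78) (nat_lit 0) (nat_lit 0) (XT.lf (nat_lit 0) (nat_lit 13577926259) (nat_lit 532) (nat_lit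 40259834018) (nat_lit 608) (nat_lit 38342492871) (nat_lit 88) (nat_lit 5) (nat_lit 95) (nat_lit 5) (nat_lit 96) (nat_lit 5) (nat_lit 443) (nat_lit 438) (nat_lit 319)) (XT.lf (nat_lit 76) (nat_lit 8899228628) (nat_lit 0) (nat_lit 11404823516) (nat_lit 608) (nat_lit 75777830054) (nat_lit 89) (nat_lit 5) (nat_lit 88) (nat_lit 5) (nat_lit 96) (nat_lit 5) (nat_lit 444) (nat_lit 438) (nat_lit 318)))) (XT.nd (nat_lit 156) (nat_lit 228) (nat_lit 0) (XT.nd (nat_lit 78) (nat_lit 532) (nat_lit 0) (XT.lf (nat_lit 0) (nat_lit 29524709966) (nat_lit 532) (nat_lit 36784159954) (nat_lit 76) (nat_lit 33830256392) (nat_lit 89) (nat_lit 5) (nat_lit 96) (nat_lit 5) (nat_lit 90) (nat_lit 5) (nat_lit 445) (nat_lit 438) (nat_lit 317)) (XT.lf (nat_lit 0) (nat_lit 18262872722) (nat_lit 532) (nat_lit 21954865301) (nat_lit 608) (nat_lit 64244434607) (nat_lit 82) (nat_lit 5) (nat_lit 89) (nat_lit 5) (nat_lit 90) (nat_lit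 5) (nat_lit 446) (nat_lit 438) (nat_lit 316))) (XT.nd (nat_lit 78) (nat_lit 228) (nat_lit 0) (XT.lf (nat_lit 0) (nat_lit 53421417174) (nat_lit 608) (nat_lit 29895880355) (nat_lit 76) (nat_lit 25681348495) (nat_lit 82) (nat_lit 5) (nat_lit 90) (nat_lit 5) (nat_lit 83) (nat_lit 5) (nat_lit 447) (nat_lit 438) (nat_lit 315)) (XT.lf (nat_lit 0) (nat_lit 31938574909) (nat_lit 228) (nat_lit 37080551479) (nat_lit 304) (nat_lit 44771892115) (nat_lit 79) (nat_lit 5) (nat_lit 82) (nat_lit 5) (nat_lit 83) (nat_lit 5) (nat_lit 448) (nat_lit 438) (nat_lit 314))))))) (XT.nd (nat_lit 1092) (nat_lit 1216) (nat_lit 0) (XT.nd (nat_lit 546) (nat_lit 684) (nat_lit 0) (XT.nd (nat_lit 234) (nat_lit 608) (nat_lit 0) (XT.nd (nat_lit 78) (nat_lit 304) (nat_lit 0) (XT.lf (nat_lit 0) (nat_lit 87011842925) (nat_lit 304) (nat_lit 18812503261) (nat_lit 76) (nat_lit 13050659415) (nat_lit 79) (nat_lit 5) (nat_lit 83) (nat_lit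 5) (nat_lit 80) (nat_lit 5) (nat_lit 449) (nat_lit 438) (nat_lit 313)) (XT.nd (nat_lit 78) (nat_lit 76) (nat_lit 0) (XT.lf (nat_lit 0) (nat_lit 50850597278) (nat_lit 228) (nat_lit 57778900850) (nat_lit 304) (nat_lit 15561371891) (nat_lit 76) (nat_lit 5) (nat_lit 79) (nat_lit 5) (nat_lit 80) (nat_lit 5) (nat_lit 450) (nat_lit 438) (nat_lit 312)) (XT.lf (nat_lit 0) (nat_lit 2469456855) (nat_lit 304) (nat_lit 2797425894) (nat_lit 76) (nat_lit 124619013398) (nat_lit 75) (nat_lit 5) (nat_lit 79) (nat_lit 5) (nat_lit 76) (nat_lit 5) (nat_lit 451) (nat_lit 438) (nat_lit 311)))) (XT.nd (nat_lit 156) (nat_lit 152) (nat_lit 0) (XT.nd (nat_lit 78) (nat_lit 228) (nat_lit 0) (XT.lf (nat_lit 0) (nat_lit 24244984476) (nat_lit 304) (nat_lit 60324934837) (nat_lit 76) (nat_lit 51182833713) (nat_lit 72) (nat_lit 5) (nat_lit 76) (nat_lit 5) (nat_lit 73) (nat_lit 5) (nat_lit 452) (nat_lit 438) (nat_lit 310))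 (XT.lf (nat_lit 0) (nat_lit 18787743973) (nat_lit 228) (nat_lit 29641438016) (nat_lit 304) (nat_lit 93606446297) (nat_lit 69) (nat_lit 5) (nat_lit 72) (nat_lit 5) (nat_lit 73) (nat_lit 5) (nat_lit 453) (nat_lit 438) (nat_lit 309))) (XT.nd (nat_lit 78) (nat_lit 152) (nat_lit 0) (XT.lf (nat_lit 0) (nat_lit 76953708202) (nat_lit 304) (nat_lit 41786349071) (nat_lit 76) (nat_lit 29888628905) (nat_lit 69) (nat_lit 5) (nat_lit 73) (nat_lit 5) (nat_lit 70) (nat_lit 5) (nat_lit 454) (nat_lit 438) (nat_lit 308)) (XT.lf (nat_lit 0) (nat_lit 47813412294) (nat_lit 152) (nat_lit 61866165096) (nat_lit 228) (nat_lit 45916060880) (nat_lit 67) (nat_lit 5) (nat_lit 69) (nat_lit 5) (nat_lit 70) (nat_lit 5) (nat_lit 455) (nat_lit 438) (nat_lit 307))))) (XT.nd (nat_lit 234) (nat_lit 304) (nat_lit 0) (XT.nd (nat_lit 78) (nat_lit 380) (nat_lit 0) (XT.lf (nat_lit 0) (nat_lit 146184639663) (nat_lit 228) (nat_lit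 16090625045) (nat_lit 76) (nat_lit 751791973) (nat_lit 67) (nat_lit 5) (nat_lit 70) (nat_lit 5) (nat_lit 68) (nat_lit 5) (nat_lit 456) (nat_lit 438) (nat_lit 306)) (XT.nd (nat_lit 78) (nat_lit 152) (nat_lit 0) (XT.lf (nat_lit 0) (nat_lit 17589595566) (nat_lit 228) (nat_lit 85593612730) (nat_lit 76) (nat_lit 67540917718) (nat_lit 64) (nat_lit 5) (nat_lit 67) (nat_lit 5) (nat_lit 65) (nat_lit 5) (nat_lit 457) (nat_lit 438) (nat_lit 305)) (XT.lf (nat_lit 0) (nat_lit 16751149779) (nat_lit 152) (nat_lit 37968941570) (nat_lit 228) (nat_lit 124213564330) (nat_lit 62) (nat_lit 5) (nat_lit 64) (nat_lit 5) (nat_lit 65) (nat_lit 5) (nat_lit 458) (nat_lit 438) (nat_lit 304)))) (XT.nd (nat_lit 156) (nat_lit 152) (nat_lit 0) (XT.nd (nat_lit 78) (nat_lit 152) (nat_lit 0) (XT.lf (nat_lit 0) (nat_lit 98002439135) (nat_lit 228) (nat_lit 56303551026) (nat_lit 76) (nat_lit 33239444594) (nat_lit 62) (nat_lit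 5) (nat_lit 65) (nat_lit 5) (nat_lit 63) (nat_lit 5) (nat_lit 459) (nat_lit 438) (nat_lit 303)) (XT.lf (nat_lit 0) (nat_lit 60063587829) (nat_lit 152) (nat_lit 87114173610) (nat_lit 228) (nat_lit 49473963808) (nat_lit 60) (nat_lit 5) (nat_lit 62) (nat_lit 5) (nat_lit 63) (nat_lit 5) (nat_lit 460) (nat_lit 438) (nat_lit 302))) (XT.nd (nat_lit 78) (nat_lit 152) (nat_lit 0) (XT.lf (nat_lit 0) (nat_lit 188941594498) (nat_lit 152) (nat_lit 12884616635) (nat_lit 228) (nat_lit 4537179739) (nat_lit 60) (nat_lit 5) (nat_lit 62) (nat_lit 5) (nat_lit 63) (nat_lit 5) (nat_lit 461) (nat_lit 438) (nat_lit 301)) (XT.lf (nat_lit 0) (nat_lit 46301922173) (nat_lit 152) (nat_lit 102239040524) (nat_lit 76) (nat_lit 67865728633) (nat_lit 58) (nat_lit 5) (nat_lit 60) (nat_lit 5) (nat_lit 59) (nat_lit 5) (nat_lit 462) (nat_lit 438) (nat_lit 300)))))) (XT.nd (nat_lit 546) (nat_lit 608) (nat_lit 0) (XT.nd (nat_lit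 234) (nat_lit 380) (nat_lit 0) (XT.nd (nat_lit 78) (nat_lit 76) (nat_lit 0) (XT.lf (nat_lit 0) (nat_lit 31152674134) (nat_lit 152) (nat_lit 71382642492) (nat_lit 228) (nat_lit 124582928115) (nat_lit 56) (nat_lit 5) (nat_lit 58) (nat_lit 5) (nat_lit 59) (nat_lit 5) (nat_lit 463) (nat_lit 438) (nat_lit 299)) (XT.nd (nat_lit 78) (nat_lit 76) (nat_lit 0) (XT.lf (nat_lit 0) (nat_lit 166422437602) (nat_lit 228) (nat_lit 57793432075) (nat_lit 76) (nat_lit 14218448368) (nat_lit 56) (nat_lit 5) (nat_lit 59) (nat_lit 5) (nat_lit 57) (nat_lit 4) (nat_lit 464) (nat_lit 438) (nat_lit 298)) (XT.lf (nat_lit 0) (nat_lit 94294908641) (nat_lit 76) (nat_lit 145247224571) (nat_lit 152) (nat_lit 10783815622) (nat_lit 55) (nat_lit 5) (nat_lit 56) (nat_lit 5) (nat_lit 57) (nat_lit 4) (nat_lit 465) (nat_lit 438) (nat_lit 297)))) (XT.nd (nat_lit 156) (nat_lit 152) (nat_lit 0) (XT.nd (nat_lit 78) (nat_lit 152) (nat_lit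 0) (XT.lf (nat_lit 0) (nat_lit 54194975050) (nat_lit 152) (nat_lit 2577937648) (nat_lit 76) (nat_lit 206159843422) (nat_lit 54) (nat_lit 5) (nat_lit 56) (nat_lit 5) (nat_lit 55) (nat_lit 5) (nat_lit 466) (nat_lit 438) (nat_lit 296)) (XT.lf (nat_lit 0) (nat_lit 128959528520) (nat_lit 228) (nat_lit 105795518670) (nat_lit 76) (nat_lit 41357047630) (nat_lit 52) (nat_lit 5) (nat_lit 55) (nat_lit 5) (nat_lit 53) (nat_lit 4) (nat_lit 467) (nat_lit 438) (nat_lit 295))) (XT.nd (nat_lit 78) (nat_lit 76) (nat_lit 0) (XT.lf (nat_lit 0) (nat_lit 68814593762) (nat_lit 76) (nat_lit 144092325466) (nat_lit 152) (nat_lit 77182727563) (nat_lit 51) (nat_lit 5) (nat_lit 52) (nat_lit 5) (nat_lit 53) (nat_lit 4) (nat_lit 468) (nat_lit 438) (nat_lit 294)) (XT.lf (nat_lit 0) (nat_lit 1433017477) (nat_lit 152) (nat_lit 41580537003) (nat_lit 76) (nat_lit 261937555072) (nat_lit 50) (nat_lit 5) (nat_lit 52) (nat_lit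 5) (nat_lit 51) (nat_lit 5) (nat_lit 469) (nat_lit 438) (nat_lit 293))))) (XT.nd (nat_lit 312) (nat_lit 228) (nat_lit 0) (XT.nd (nat_lit 156) (nat_lit 152) (nat_lit 0) (XT.nd (nat_lit 78) (nat_lit 76) (nat_lit 0) (XT.lf (nat_lit 0) (nat_lit 87719611130) (nat_lit 228) (nat_lit 163869707889) (nat_lit 76) (nat_lit 68807673745) (nat_lit 48) (nat_lit 5) (nat_lit 51) (nat_lit 5) (nat_lit 49) (nat_lit 4) (nat_lit 470) (nat_lit 438) (nat_lit 292)) (XT.lf (nat_lit 0) (nat_lit 36541625383) (nat_lit 76) (nat_lit 147529750921) (nat_lit 152) (nat_lit 152754190815) (nat_lit 47) (nat_lit 5) (nat_lit 48) (nat_lit 5) (nat_lit 49) (nat_lit 4) (nat_lit 471) (nat_lit 438) (nat_lit 291))) (XT.nd (nat_lit 78) (nat_lit 152) (nat_lit 0) (XT.lf (nat_lit 0) (nat_lit 262304862928) (nat_lit 76) (nat_lit 30306682019) (nat_lit 152) (nat_lit 61598461504) (nat_lit 47) (nat_lit 5) (nat_lit 48) (nat_lit 5) (nat_lit 49) (nat_lit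 4) (nat_lit 472) (nat_lit 438) (nat_lit 290)) (XT.lf (nat_lit 0) (nat_lit 40780287425) (nat_lit 152) (nat_lit 235850558259) (nat_lit 76) (nat_lit 95821541603) (nat_lit 45) (nat_lit 5) (nat_lit 47) (nat_lit 5) (nat_lit 46) (nat_lit 4) (nat_lit 473) (nat_lit 438) (nat_lit 289)))) (XT.nd (nat_lit 156) (nat_lit 152) (nat_lit 0) (XT.nd (nat_lit 78) (nat_lit 76) (nat_lit 0) (XT.lf (nat_lit 0) (nat_lit 151386511816) (nat_lit 152) (nat_lit 5789860179) (nat_lit 76) (nat_lit 234580582402) (nat_lit 45) (nat_lit 5) (nat_lit 47) (nat_lit 5) (nat_lit 46) (nat_lit 4) (nat_lit 474) (nat_lit 438) (nat_lit 288)) (XT.lf (nat_lit 0) (nat_lit 255454175382) (nat_lit 76) (nat_lit 21530541143) (nat_lit 152) (nat_lit 135129691768) (nat_lit 44) (nat_lit 5) (nat_lit 45) (nat_lit 5) (nat_lit 46) (nat_lit 4) (nat_lit 475) (nat_lit 438) (nat_lit 287))) (XT.nd (nat_lit 78) (nat_lit 76) (nat_lit 0) (XT.lf (nat_lit 0) (nat_lit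 106138762205) (nat_lit 76) (nat_lit 312212335429) (nat_lit 76) (nat_lit 15291735270) (nat_lit 43) (nat_lit 4) (nat_lit 44) (nat_lit 5) (nat_lit 44) (nat_lit 4) (nat_lit 476) (nat_lit 438) (nat_lit 286)) (XT.lf (nat_lit 0) (nat_lit 113377515367) (nat_lit 152) (nat_lit 61095550961) (nat_lit 76) (nat_lit 281804579319) (nat_lit 42) (nat_lit 5) (nat_lit 44) (nat_lit 5) (nat_lit 43) (nat_lit 4) (nat_lit 477) (nat_lit 438) (nat_lit 285))))))))
noncomputable def xc176 : XT := (XT.nd (nat_lit 2184) (nat_lit 988) (nat_lit 0) (XT.nd (nat_lit 1092) (nat_lit 912) (nat_lit 0) (XT.nd (nat_lit 546) (nat_lit 456) (nat_lit 0) (XT.nd (nat_lit 234) (nat_lit 304) (nat_lit 0) (XT.nd (nat_lit 78) (nat_lit 152) (nat_lit 0) (XT.lf (nat_lit 0) (nat_lit 238140888413) (nat_lit 76) (nat_lit 19100381091) (nat_lit 152) (nat_lit 222992029730) (nat_lit 41) (nat_lit 5) (nat_lit 42) (nat_lit 5) (nat_lit 43) (nat_lit 4) (nat_lit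 478) (nat_lit 438) (nat_lit 284)) (XT.nd (nat_lit 78) (nat_lit 76) (nat_lit 0) (XT.lf (nat_lit 0) (nat_lit 58105689557) (nat_lit 76) (nat_lit 361195837954) (nat_lit 76) (nat_lit 86268885316) (nat_lit 40) (nat_lit 4) (nat_lit 41) (nat_lit 5) (nat_lit 41) (nat_lit 4) (nat_lit 479) (nat_lit 438) (nat_lit 283)) (XT.lf (nat_lit 0) (nat_lit 65608128291) (nat_lit 152) (nat_lit 138462180132) (nat_lit 76) (nat_lit 328163100578) (nat_lit 39) (nat_lit 5) (nat_lit 41) (nat_lit 5) (nat_lit 40) (nat_lit 4) (nat_lit 480) (nat_lit 438) (nat_lit 282)))) (XT.nd (nat_lit 156) (nat_lit 228) (nat_lit 0) (XT.nd (nat_lit 78) (nat_lit 0) (nat_lit 0) (XT.lf (nat_lit 0) (nat_lit 203183558829) (nat_lit 76) (nat_lit 26677388380) (nat_lit 152) (nat_lit 330598325258) (nat_lit 38) (nat_lit 5) (nat_lit 39) (nat_lit 5) (nat_lit 40) (nat_lit 4) (nat_lit 481) (nat_lit 438) (nat_lit 281)) (XT.lf (nat_lit 0) (nat_lit 415103978268)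 (nat_lit 152) (nat_lit 14669588937) (nat_lit 0) (nat_lit 160541638877) (nat_lit 38) (nat_lit 5) (nat_lit 40) (nat_lit 4) (nat_lit 38) (nat_lit 4) (nat_lit 482) (nat_lit 438) (nat_lit 280))) (XT.nd (nat_lit 78) (nat_lit 76) (nat_lit 0) (XT.lf (nat_lit 0) (nat_lit 2899170149) (nat_lit 152) (nat_lit 248532164222) (nat_lit 76) (nat_lit 370348704734) (nat_lit 36) (nat_lit 5) (nat_lit 38) (nat_lit 5) (nat_lit 37) (nat_lit 4) (nat_lit 483) (nat_lit 438) (nat_lit 279)) (XT.lf (nat_lit 0) (nat_lit 139731304441) (nat_lit 76) (nat_lit 49833038830) (nat_lit 152) (nat_lit 465531888179) (nat_lit 35) (nat_lit 5) (nat_lit 36) (nat_lit 5) (nat_lit 37) (nat_lit 4) (nat_lit 484) (nat_lit 438) (nat_lit 278))))) (XT.nd (nat_lit 234) (nat_lit 228) (nat_lit 0) (XT.nd (nat_lit 78) (nat_lit 228) (nat_lit 0) (XT.lf (nat_lit 0) (nat_lit 402172224673) (nat_lit 152) (nat_lit 121558634560) (nat_lit 0) (nat_lit 166466100395)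 (nat_lit 35) (nat_lit 5) (nat_lit 37) (nat_lit 4) (nat_lit 35) (nat_lit 4) (nat_lit 485) (nat_lit 438) (nat_lit 277)) (XT.nd (nat_lit 78) (nat_lit 152) (nat_lit 0) (XT.lf (nat_lit 0) (nat_lit 318384395780) (nat_lit 76) (nat_lit 322355718464) (nat_lit 76) (nat_lit 86649521607) (nat_lit 34) (nat_lit 4) (nat_lit 35) (nat_lit 5) (nat_lit 35) (nat_lit 4) (nat_lit 486) (nat_lit 438) (nat_lit 276)) (XT.lf (nat_lit 0) (nat_lit 31486030636) (nat_lit 76) (nat_lit 96971803352) (nat_lit 152) (nat_lit 638514799453) (nat_lit 32) (nat_lit 5) (nat_lit 33) (nat_lit 5) (nat_lit 34) (nat_lit 4) (nat_lit 487) (nat_lit 438) (nat_lit 275)))) (XT.nd (nat_lit 156) (nat_lit 152) (nat_lit 0) (XT.nd (nat_lit 78) (nat_lit 76) (nat_lit 0) (XT.lf (nat_lit 0) (nat_lit 371087661883) (nat_lit 152) (nat_lit 284413877840) (nat_lit 0) (nat_lit 152841063470) (nat_lit 32) (nat_lit 5) (nat_lit 34) (nat_lit 4) (nat_lit 32) (nat_lit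 4) (nat_lit 488) (nat_lit 438) (nat_lit 274)) (XT.lf (nat_lit 0) (nat_lit 210769187382) (nat_lit 76) (nat_lit 429946312497) (nat_lit 76) (nat_lit 211699660736) (nat_lit 31) (nat_lit 4) (nat_lit 32) (nat_lit 5) (nat_lit 32) (nat_lit 4) (nat_lit 489) (nat_lit 438) (nat_lit 273))) (XT.nd (nat_lit 78) (nat_lit 76) (nat_lit 0) (XT.lf (nat_lit 0) (nat_lit 38282508218) (nat_lit 152) (nat_lit 138619084063) (nat_lit 76) (nat_lit 722412295790) (nat_lit 30) (nat_lit 5) (nat_lit 32) (nat_lit 5) (nat_lit 31) (nat_lit 4) (nat_lit 490) (nat_lit 438) (nat_lit 272)) (XT.lf (nat_lit 0) (nat_lit 309654333677) (nat_lit 152) (nat_lit 531270003103) (nat_lit 0) (nat_lit 107574012478) (nat_lit 29) (nat_lit 5) (nat_lit 31) (nat_lit 4) (nat_lit 29) (nat_lit 4) (nat_lit 491) (nat_lit 438) (nat_lit 271)))))) (XT.nd (nat_lit 546) (nat_lit 456) (nat_lit 0) (XT.nd (nat_lit 234) (nat_lit 228) (nat_lit 0) (XT.nd (nat_lit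 78) (nat_lit 152) (nat_lit 0) (XT.lf (nat_lit 0) (nat_lit 20441644867) (nat_lit 76) (nat_lit 591269146014) (nat_lit 76) (nat_lit 389188785602) (nat_lit 28) (nat_lit 4) (nat_lit 29) (nat_lit 5) (nat_lit 29) (nat_lit 4) (nat_lit 492) (nat_lit 438) (nat_lit 270)) (XT.nd (nat_lit 78) (nat_lit 152) (nat_lit 0) (XT.lf (nat_lit 0) (nat_lit 646503787142) (nat_lit 76) (nat_lit 305953725801) (nat_lit 76) (nat_lit 103873329081) (nat_lit 28) (nat_lit 4) (nat_lit 29) (nat_lit 5) (nat_lit 29) (nat_lit 4) (nat_lit 493) (nat_lit 438) (nat_lit 269)) (XT.lf (nat_lit 0) (nat_lit 199464010136) (nat_lit 152) (nat_lit 903553893148) (nat_lit 0) (nat_lit 12352500564) (nat_lit 26) (nat_lit 5) (nat_lit 28) (nat_lit 4) (nat_lit 26) (nat_lit 4) (nat_lit 494) (nat_lit 438) (nat_lit 268)))) (XT.nd (nat_lit 156) (nat_lit 152) (nat_lit 0) (XT.nd (nat_lit 78) (nat_lit 76) (nat_lit 0) (XT.lf (nat_lit 0) (nat_lit 540899666909)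 (nat_lit 152) (nat_lit 282674039455) (nat_lit 0) (nat_lit 353788128515) (nat_lit 26) (nat_lit 5) (nat_lit 28) (nat_lit 4) (nat_lit 26) (nat_lit 4) (nat_lit 495) (nat_lit 438) (nat_lit 267)) (XT.lf (nat_lit 0) (nat_lit 408300859517) (nat_lit 76) (nat_lit 511168861199) (nat_lit 76) (nat_lit 324057296117) (nat_lit 25) (nat_lit 4) (nat_lit 26) (nat_lit 5) (nat_lit 26) (nat_lit 4) (nat_lit 496) (nat_lit 438) (nat_lit 266))) (XT.nd (nat_lit 78) (nat_lit 76) (nat_lit 0) (XT.lf (nat_lit 0) (nat_lit 20602102960) (nat_lit 152) (nat_lit 144259215634) (nat_lit 76) (nat_lit 1149464072105) (nat_lit 24) (nat_lit 5) (nat_lit 26) (nat_lit 5) (nat_lit 25) (nat_lit 4) (nat_lit 497) (nat_lit 438) (nat_lit 265)) (XT.lf (nat_lit 0) (nat_lit 395992700769) (nat_lit 152) (nat_lit 769727083713) (nat_lit 0) (nat_lit 222741207553) (nat_lit 23) (nat_lit 5) (nat_lit 25) (nat_lit 4) (nat_lit 23) (nat_lit 4) (nat_lit 498)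 (nat_lit 438) (nat_lit 264))))) (XT.nd (nat_lit 234) (nat_lit 228) (nat_lit 0) (XT.nd (nat_lit 78) (nat_lit 228) (nat_lit 0) (XT.lf (nat_lit 0) (nat_lit 809743317353) (nat_lit 152) (nat_lit 21626017927) (nat_lit 0) (nat_lit 636491804522) (nat_lit 23) (nat_lit 5) (nat_lit 25) (nat_lit 4) (nat_lit 23) (nat_lit 4) (nat_lit 499) (nat_lit 438) (nat_lit 263)) (XT.nd (nat_lit 78) (nat_lit 152) (nat_lit 0) (XT.lf (nat_lit 0) (nat_lit 827729329973) (nat_lit 76) (nat_lit 448771477249) (nat_lit 76) (nat_lit 275519946255) (nat_lit 22) (nat_lit 4) (nat_lit 23) (nat_lit 5) (nat_lit 23) (nat_lit 4) (nat_lit 500) (nat_lit 438) (nat_lit 262)) (XT.lf (nat_lit 0) (nat_lit 105339806772) (nat_lit 76) (nat_lit 28598344469) (nat_lit 152) (nat_lit 1508458878091) (nat_lit 20) (nat_lit 5) (nat_lit 21) (nat_lit 5) (nat_lit 22) (nat_lit 4) (nat_lit 501) (nat_lit 438) (nat_lit 261)))) (XT.nd (nat_lit 156) (nat_lit 152)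 (nat_lit 0) (XT.nd (nat_lit 78) (nat_lit 76) (nat_lit 0) (XT.lf (nat_lit 0) (nat_lit 591811159324) (nat_lit 152) (nat_lit 713783214173) (nat_lit 0) (nat_lit 431393045080) (nat_lit 20) (nat_lit 5) (nat_lit 22) (nat_lit 4) (nat_lit 20) (nat_lit 4) (nat_lit 502) (nat_lit 438) (nat_lit 260)) (XT.lf (nat_lit 0) (nat_lit 183804376395) (nat_lit 76) (nat_lit 907672865719) (nat_lit 76) (nat_lit 747254738125) (nat_lit 19) (nat_lit 4) (nat_lit 20) (nat_lit 5) (nat_lit 20) (nat_lit 4) (nat_lit 503) (nat_lit 438) (nat_lit 259))) (XT.nd (nat_lit 78) (nat_lit 152) (nat_lit 0) (XT.lf (nat_lit 0) (nat_lit 1193792298543) (nat_lit 76) (nat_lit 456840333310) (nat_lit 76) (nat_lit 296422193354) (nat_lit 19) (nat_lit 4) (nat_lit 20) (nat_lit 5) (nat_lit 20) (nat_lit 4) (nat_lit 504) (nat_lit 438) (nat_lit 258)) (XT.lf (nat_lit 0) (nat_lit 187399563042) (nat_lit 152) (nat_lit 1836897136090) (nat_lit 0) (nat_lit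 38864237671) (nat_lit 17) (nat_lit 5) (nat_lit 19) (nat_lit 4) (nat_lit 17) (nat_lit 4) (nat_lit 505) (nat_lit 438) (nat_lit 257))))))) (XT.nd (nat_lit 1092) (nat_lit 456) (nat_lit 0) (XT.nd (nat_lit 546) (nat_lit 228) (nat_lit 0) (XT.nd (nat_lit 234) (nat_lit 228) (nat_lit 0) (XT.nd (nat_lit 78) (nat_lit 76) (nat_lit 0) (XT.lf (nat_lit 0) (nat_lit 726908952475) (nat_lit 152) (nat_lit 880017314122) (nat_lit 0) (nat_lit 578373617291) (nat_lit 17) (nat_lit 5) (nat_lit 19) (nat_lit 4) (nat_lit 17) (nat_lit 4) (nat_lit 506) (nat_lit 438) (nat_lit 256)) (XT.nd (nat_lit 78) (nat_lit 0) (nat_lit 0) (XT.lf (nat_lit 0) (nat_lit 161491196867) (nat_lit 76) (nat_lit 1151971695115) (nat_lit 76) (nat_lit 1003436350845) (nat_lit 16) (nat_lit 4) (nat_lit 17) (nat_lit 5) (nat_lit 17) (nat_lit 4) (nat_lit 507) (nat_lit 438) (nat_lit 255)) (XT.lf (nat_lit 0) (nat_lit 1336367616263) (nat_lit 76) (nat_lit 634634696794)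 (nat_lit 76) (nat_lit 486099344111) (nat_lit 16) (nat_lit 4) (nat_lit 17) (nat_lit 5) (nat_lit 17) (nat_lit 4) (nat_lit 508) (nat_lit 438) (nat_lit 254)))) (XT.nd (nat_lit 156) (nat_lit 76) (nat_lit 0) (XT.nd (nat_lit 78) (nat_lit 76) (nat_lit 0) (XT.lf (nat_lit 0) (nat_lit 68991582219) (nat_lit 152) (nat_lit 5032869456) (nat_lit 76) (nat_lit 2534356088119) (nat_lit 15) (nat_lit 5) (nat_lit 17) (nat_lit 5) (nat_lit 16) (nat_lit 4) (nat_lit 509) (nat_lit 438) (nat_lit 253)) (XT.lf (nat_lit 0) (nat_lit 686175611664) (nat_lit 152) (nat_lit 1532417355439) (nat_lit 0) (nat_lit 548642863806) (nat_lit 14) (nat_lit 5) (nat_lit 16) (nat_lit 4) (nat_lit 14) (nat_lit 4) (nat_lit 510) (nat_lit 438) (nat_lit 252))) (XT.nd (nat_lit 78) (nat_lit 76) (nat_lit 0) (XT.lf (nat_lit 0) (nat_lit 1354798199861) (nat_lit 152) (nat_lit 366570792720) (nat_lit 0) (nat_lit 1217265445820) (nat_lit 14) (nat_lit 5) (nat_lit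 16) (nat_lit 4) (nat_lit 14) (nat_lit 4) (nat_lit 511) (nat_lit 438) (nat_lit 251)) (XT.lf (nat_lit 0) (nat_lit 939543136295) (nat_lit 76) (nat_lit 1159963439744) (nat_lit 76) (nat_lit 1022430679977) (nat_lit 13) (nat_lit 4) (nat_lit 14) (nat_lit 5) (nat_lit 14) (nat_lit 4) (nat_lit 512) (nat_lit 438) (nat_lit 250))))) (XT.nd (nat_lit 234) (nat_lit 76) (nat_lit 0) (XT.nd (nat_lit 78) (nat_lit 152) (nat_lit 0) (XT.lf (nat_lit 0) (nat_lit 2370993276678) (nat_lit 76) (nat_lit 542820988022) (nat_lit 76) (nat_lit 405288222953) (nat_lit 13) (nat_lit 4) (nat_lit 14) (nat_lit 5) (nat_lit 14) (nat_lit 4) (nat_lit 513) (nat_lit 438) (nat_lit 249)) (XT.nd (nat_lit 78) (nat_lit 0) (nat_lit 0) (XT.lf (nat_lit 0) (nat_lit 261130711707) (nat_lit 152) (nat_lit 3135584261570) (nat_lit 0) (nat_lit 133785554320) (nat_lit 11) (nat_lit 5) (nat_lit 13) (nat_lit 4) (nat_lit 11) (nat_lit 4) (nat_lit 514) (nat_lit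 438) (nat_lit 248)) (XT.lf (nat_lit 0) (nat_lit 999662576878) (nat_lit 152) (nat_lit 1882732620688) (nat_lit 0) (nat_lit 872317415283) (nat_lit 11) (nat_lit 5) (nat_lit 13) (nat_lit 4) (nat_lit 11) (nat_lit 4) (nat_lit 515) (nat_lit 438) (nat_lit 247)))) (XT.nd (nat_lit 156) (nat_lit 0) (nat_lit 0) (XT.nd (nat_lit 78) (nat_lit 76) (nat_lit 0) (XT.lf (nat_lit 0) (nat_lit 1797276944938) (nat_lit 152) (nat_lit 529652944245) (nat_lit 0) (nat_lit 1669931779446) (nat_lit 11) (nat_lit 5) (nat_lit 13) (nat_lit 4) (nat_lit 11) (nat_lit 4) (nat_lit 516) (nat_lit 438) (nat_lit 246)) (XT.lf (nat_lit 0) (nat_lit 980733267739) (nat_lit 76) (nat_lit 1701553810485) (nat_lit 76) (nat_lit 1574208641385) (nat_lit 10) (nat_lit 4) (nat_lit 11) (nat_lit 5) (nat_lit 11) (nat_lit 4) (nat_lit 517) (nat_lit 438) (nat_lit 245))) (XT.nd (nat_lit 78) (nat_lit 0) (nat_lit 0) (XT.lf (nat_lit 0) (nat_lit 2642072122559)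 (nat_lit 76) (nat_lit 1010507507941) (nat_lit 76) (nat_lit 883162335500) (nat_lit 10) (nat_lit 4) (nat_lit 11) (nat_lit 5) (nat_lit 11) (nat_lit 4) (nat_lit 518) (nat_lit 438) (nat_lit 244)) (XT.lf (nat_lit 0) (nat_lit 4436318005787) (nat_lit 76) (nat_lit 264177542474) (nat_lit 76) (nat_lit 136832366939) (nat_lit 10) (nat_lit 4) (nat_lit 11) (nat_lit 5) (nat_lit 11) (nat_lit 4) (nat_lit 519) (nat_lit 438) (nat_lit 243)))))) (XT.nd (nat_lit 546) (nat_lit 228) (nat_lit 0) (XT.nd (nat_lit 234) (nat_lit 76) (nat_lit 0) (XT.nd (nat_lit 78) (nat_lit 0) (nat_lit 0) (XT.lf (nat_lit 0) (nat_lit 680215559882) (nat_lit 152) (nat_lit 3915675244602) (nat_lit 0) (nat_lit 562303357661) (nat_lit 8) (nat_lit 5) (nat_lit 10) (nat_lit 4) (nat_lit 8) (nat_lit 4) (nat_lit 520) (nat_lit 438) (nat_lit 242)) (XT.nd (nat_lit 78) (nat_lit 0) (nat_lit 0) (XT.lf (nat_lit 0) (nat_lit 1573345645705) (nat_lit 152) (nat_lit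 2474217428975) (nat_lit 0) (nat_lit 1455433441029) (nat_lit 8) (nat_lit 5) (nat_lit 10) (nat_lit 4) (nat_lit 8) (nat_lit 4) (nat_lit 521) (nat_lit 438) (nat_lit 241)) (XT.lf (nat_lit 0) (nat_lit 2537926104375) (nat_lit 152) (nat_lit 917443058479) (nat_lit 0) (nat_lit 2420013897425) (nat_lit 8) (nat_lit 5) (nat_lit 10) (nat_lit 4) (nat_lit 8) (nat_lit 4) (nat_lit 522) (nat_lit 438) (nat_lit 240)))) (XT.nd (nat_lit 156) (nat_lit 0) (nat_lit 0) (XT.nd (nat_lit 78) (nat_lit 0) (nat_lit 0) (XT.lf (nat_lit 0) (nat_lit 804097405315) (nat_lit 76) (nat_lit 2794914124861) (nat_lit 76) (nat_lit 2677001915805) (nat_lit 7) (nat_lit 4) (nat_lit 8) (nat_lit 5) (nat_lit 8) (nat_lit 4) (nat_lit 523) (nat_lit 438) (nat_lit 239)) (XT.lf (nat_lit 0) (nat_lit 2715536842357) (nat_lit 76) (nat_lit 2054531436058) (nat_lit 76) (nat_lit 1936619225053) (nat_lit 7) (nat_lit 4) (nat_lit 8) (nat_lit 5) (nat_lit 8) (nat_lit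 4) (nat_lit 524) (nat_lit 438) (nat_lit 238))) (XT.nd (nat_lit 78) (nat_lit 0) (nat_lit 0) (XT.lf (nat_lit 0) (nat_lit 4779891375548) (nat_lit 76) (nat_lit 1254918162545) (nat_lit 76) (nat_lit 1137005949735) (nat_lit 7) (nat_lit 4) (nat_lit 8) (nat_lit 5) (nat_lit 8) (nat_lit 4) (nat_lit 525) (nat_lit 438) (nat_lit 237)) (XT.lf (nat_lit 0) (nat_lit 7009394216939) (nat_lit 76) (nat_lit 391335855292) (nat_lit 76) (nat_lit 273423640811) (nat_lit 7) (nat_lit 4) (nat_lit 8) (nat_lit 5) (nat_lit 8) (nat_lit 4) (nat_lit 526) (nat_lit 438) (nat_lit 236))))) (XT.nd (nat_lit 234) (nat_lit 76) (nat_lit 0) (XT.nd (nat_lit 78) (nat_lit 0) (nat_lit 0) (XT.lf (nat_lit 0) (nat_lit 670470032555) (nat_lit 152) (nat_lit 6980112288054) (nat_lit 0) (nat_lit 561292054751) (nat_lit 5) (nat_lit 5) (nat_lit 7) (nat_lit 4) (nat_lit 5) (nat_lit 4) (nat_lit 527) (nat_lit 438) (nat_lit 235)) (XT.nd (nat_lit 78) (nat_lit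 0) (nat_lit 0) (XT.lf (nat_lit 0) (nat_lit 1703915562811) (nat_lit 152) (nat_lit 5491086403831) (nat_lit 0) (nat_lit 1594737583679) (nat_lit 5) (nat_lit 5) (nat_lit 7) (nat_lit 4) (nat_lit 5) (nat_lit 4) (nat_lit 528) (nat_lit 438) (nat_lit 234)) (XT.lf (nat_lit 0) (nat_lit 2820036712351) (nat_lit 152) (nat_lit 3882938496787) (nat_lit 0) (nat_lit 2710858731991) (nat_lit 5) (nat_lit 5) (nat_lit 7) (nat_lit 4) (nat_lit 5) (nat_lit 4) (nat_lit 529) (nat_lit 438) (nat_lit 233)))) (XT.nd (nat_lit 156) (nat_lit 76) (nat_lit 0) (XT.nd (nat_lit 78) (nat_lit 0) (nat_lit 0) (XT.lf (nat_lit 0) (nat_lit 4025447532432) (nat_lit 152) (nat_lit 2146138801548) (nat_lit 0) (nat_lit 3916269550935) (nat_lit 5) (nat_lit 5) (nat_lit 7) (nat_lit 4) (nat_lit 5) (nat_lit 4) (nat_lit 530) (nat_lit 438) (nat_lit 232)) (XT.lf (nat_lit 0) (nat_lit 5327291198285) (nat_lit 152) (nat_lit 270395171771) (nat_lit 0) (nat_lit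 5218113215735) (nat_lit 5) (nat_lit 5) (nat_lit 7) (nat_lit 4) (nat_lit 5) (nat_lit 4) (nat_lit 531) (nat_lit 438) (nat_lit 231))) (XT.nd (nat_lit 78) (nat_lit 0) (nat_lit 0) (XT.lf (nat_lit 0) (nat_lit 1847844580058) (nat_lit 76) (nat_lit 4929878465574) (nat_lit 76) (nat_lit 4820700482048) (nat_lit 4) (nat_lit 4) (nat_lit 5) (nat_lit 5) (nat_lit 5) (nat_lit 4) (nat_lit 532) (nat_lit 438) (nat_lit 230)) (XT.lf (nat_lit 0) (nat_lit 4150921087969) (nat_lit 76) (nat_lit 4200661418078) (nat_lit 76) (nat_lit 4091483433650) (nat_lit 4) (nat_lit 4) (nat_lit 5) (nat_lit 5) (nat_lit 5) (nat_lit 4) (nat_lit 533) (nat_lit 438) (nat_lit 229))))))))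
noncomputable def xc177 : XT := (XT.nd (nat_lit 56784) (nat_lit 0) (nat_lit 2280) (XT.nd (nat_lit 55692) (nat_lit 0) (nat_lit 4560) (XT.nd (nat_lit 55146) (nat_lit 0) (nat_lit 6384) (XT.nd (nat_lit 234) (nat_lit 152) (nat_lit 0) (XT.nd (nat_lit 78) (nat_lit 0) (nat_lit 0) (XT.lf (nat_lit 0) (nat_lit 6638243682183) (nat_lit 76) (nat_lit 3413107024541) (nat_lit 76) (nat_lit 3303929039277) (nat_lit 4) (nat_lit 4) (nat_lit 5) (nat_lit 5) (nat_lit 5) (nat_lit 4) (nat_lit 534) (nat_lit 438) (nat_lit 228)) (XT.nd (nat_lit 78) (nat_lit 0) (nat_lit 0) (XT.lf (nat_lit 0) (nat_lit 9324552052148) (nat_lit 76) (nat_lit 2562548295964) (nat_lit 76) (nat_lit 2453370309925) (nat_lit 4) (nat_lit 4) (nat_lit 5) (nat_lit 5) (nat_lit 5) (nat_lit 4) (nat_lit 535) (nat_lit 438) (nat_lit 227)) (XT.lf (nat_lit 0) (nat_lit 12225765062279) (nat_lit 76) (nat_lit 1643944884325) (nat_lit 76) (nat_lit 1534766897569) (nat_lit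 4) (nat_lit 4) (nat_lit 5) (nat_lit 5) (nat_lit 5) (nat_lit 4) (nat_lit 536) (nat_lit 438) (nat_lit 226)))) (XT.nd (nat_lit 156) (nat_lit 0) (nat_lit 0) (XT.nd (nat_lit 78) (nat_lit 152) (nat_lit 0) (XT.lf (nat_lit 0) (nat_lit 15359075085968) (nat_lit 76) (nat_lit 651853213851) (nat_lit 76) (nat_lit 542675226432) (nat_lit 4) (nat_lit 4) (nat_lit 5) (nat_lit 5) (nat_lit 5) (nat_lit 4) (nat_lit 537) (nat_lit 438) (nat_lit 225)) (XT.lf (nat_lit 0) (nat_lit 537056883359) (nat_lit 152) (nat_lit 16817841923941) (nat_lit 0) (nat_lit 435966153698) (nat_lit 2) (nat_lit 5) (nat_lit 4) (nat_lit 4) (nat_lit 2) (nat_lit 4) (nat_lit 538) (nat_lit 438) (nat_lit 224))) (XT.nd (nat_lit 54678) (nat_lit 0) (nat_lit 6916) (XT.lf (nat_lit 0) (nat_lit 1724289093815) (nat_lit 152) (nat_lit 15774457009081) (nat_lit 0) (nat_lit 1623198363628) (nat_lit 2) (nat_lit 5) (nat_lit 4) (nat_lit 4) (nat_lit 2) (nat_lit 4)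 (nat_lit 539) (nat_lit 438) (nat_lit 223)) (XT.lf (nat_lit 0) (nat_lit 40253217851) (nat_lit 532) (nat_lit 290719108) (nat_lit 532) (nat_lit 290719108) (nat_lit 93) (nat_lit 3) (nat_lit 100) (nat_lit 3) (nat_lit 100) (nat_lit 5) (nat_lit 439) (nat_lit 439) (nat_lit 322))))) (XT.nd (nat_lit 234) (nat_lit 0) (nat_lit 76) (XT.nd (nat_lit 78) (nat_lit 532) (nat_lit 0) (XT.lf (nat_lit 76) (nat_lit 42201030948) (nat_lit 0) (nat_lit 42549863993) (nat_lit 532) (nat_lit 103252299) (nat_lit 94) (nat_lit 5) (nat_lit 93) (nat_lit 3) (nat_lit 100) (nat_lit 5) (nat_lit 440) (nat_lit 439) (nat_lit 321)) (XT.nd (nat_lit 78) (nat_lit 0) (nat_lit 76) (XT.lf (nat_lit 76) (nat_lit 126989399) (nat_lit 0) (nat_lit 880470564) (nat_lit 608) (nat_lit 87282834120) (nat_lit 87) (nat_lit 5) (nat_lit 86) (nat_lit 5) (nat_lit 94) (nat_lit 5) (nat_lit 441) (nat_lit 439) (nat_lit 320)) (XT.lf (nat_lit 0) (nat_lit 4458202357)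 (nat_lit 532) (nat_lit 44247575484) (nat_lit 608) (nat_lit 43114800272) (nat_lit 87) (nat_lit 5) (nat_lit 94) (nat_lit 5) (nat_lit 95) (nat_lit 5) (nat_lit 442) (nat_lit 439) (nat_lit 319)))) (XT.nd (nat_lit 156) (nat_lit 0) (nat_lit 76) (XT.nd (nat_lit 78) (nat_lit 0) (nat_lit 76) (XT.lf (nat_lit 76) (nat_lit 3324238097) (nat_lit 0) (nat_lit 4962751825) (nat_lit 608) (nat_lit 87338136177) (nat_lit 88) (nat_lit 5) (nat_lit 87) (nat_lit 5) (nat_lit 95) (nat_lit 5) (nat_lit 443) (nat_lit 439) (nat_lit 318)) (XT.lf (nat_lit 0) (nat_lit 14679360277) (nat_lit 532) (nat_lit 43467958544) (nat_lit 608) (nat_lit 41406136813) (nat_lit 88) (nat_lit 5) (nat_lit 95) (nat_lit 5) (nat_lit 96) (nat_lit 5) (nat_lit 444) (nat_lit 439) (nat_lit 317))) (XT.nd (nat_lit 78) (nat_lit 0) (nat_lit 76) (XT.lf (nat_lit 76) (nat_lit 9623508552) (nat_lit 0) (nat_lit 12319238577) (nat_lit 608) (nat_lit 81824534337) (nat_lit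 89) (nat_lit 5) (nat_lit 88) (nat_lit 5) (nat_lit 96) (nat_lit 5) (nat_lit 445) (nat_lit 439) (nat_lit 316)) (XT.lf (nat_lit 0) (nat_lit 31899947885) (nat_lit 532) (nat_lit 39714354099) (nat_lit 76) (nat_lit 36534892022) (nat_lit 89) (nat_lit 5) (nat_lit 96) (nat_lit 5) (nat_lit 90) (nat_lit 5) (nat_lit 446) (nat_lit 439) (nat_lit 315)))))) (XT.nd (nat_lit 546) (nat_lit 760) (nat_lit 0) (XT.nd (nat_lit 234) (nat_lit 532) (nat_lit 0) (XT.nd (nat_lit 78) (nat_lit 228) (nat_lit 0) (XT.lf (nat_lit 0) (nat_lit 19736123757) (nat_lit 532) (nat_lit 23711606046) (nat_lit 608) (nat_lit 69370409411) (nat_lit 82) (nat_lit 5) (nat_lit 89) (nat_lit 5) (nat_lit 90) (nat_lit 5) (nat_lit 447) (nat_lit 439) (nat_lit 314)) (XT.nd (nat_lit 78) (nat_lit 228) (nat_lit 0) (XT.lf (nat_lit 0) (nat_lit 57706764144) (nat_lit 608) (nat_lit 32275294396) (nat_lit 76) (nat_lit 27735547174) (nat_lit 82) (nat_lit 5) (nat_lit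 90) (nat_lit 5) (nat_lit 83) (nat_lit 5) (nat_lit 448) (nat_lit 439) (nat_lit 313)) (XT.lf (nat_lit 0) (nat_lit 34505607000) (nat_lit 228) (nat_lit 40046108651) (nat_lit 304) (nat_lit 48341698393) (nat_lit 79) (nat_lit 5) (nat_lit 82) (nat_lit 5) (nat_lit 83) (nat_lit 5) (nat_lit 449) (nat_lit 439) (nat_lit 312)))) (XT.nd (nat_lit 156) (nat_lit 304) (nat_lit 0) (XT.nd (nat_lit 78) (nat_lit 228) (nat_lit 0) (XT.lf (nat_lit 0) (nat_lit 93983050066) (nat_lit 304) (nat_lit 20305641756) (nat_lit 76) (nat_lit 14095492333) (nat_lit 79) (nat_lit 5) (nat_lit 83) (nat_lit 5) (nat_lit 80) (nat_lit 5) (nat_lit 450) (nat_lit 439) (nat_lit 311)) (XT.lf (nat_lit 0) (nat_lit 54930206528) (nat_lit 228) (nat_lit 62399429233) (nat_lit 304) (nat_lit 16795720603) (nat_lit 76) (nat_lit 5) (nat_lit 79) (nat_lit 5) (nat_lit 80) (nat_lit 5) (nat_lit 451) (nat_lit 439) (nat_lit 310))) (XT.nd (nat_lit 78) (nat_lit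 228) (nat_lit 0) (XT.lf (nat_lit 0) (nat_lit 2676302971) (nat_lit 304) (nat_lit 3010024844) (nat_lit 76) (nat_lit 134589695971) (nat_lit 75) (nat_lit 5) (nat_lit 79) (nat_lit 5) (nat_lit 76) (nat_lit 5) (nat_lit 452) (nat_lit 439) (nat_lit 309)) (XT.lf (nat_lit 0) (nat_lit 26193496363) (nat_lit 304) (nat_lit 65139357241) (nat_lit 76) (nat_lit 55279405792) (nat_lit 72) (nat_lit 5) (nat_lit 76) (nat_lit 5) (nat_lit 73) (nat_lit 5) (nat_lit 453) (nat_lit 439) (nat_lit 308))))) (XT.nd (nat_lit 234) (nat_lit 380) (nat_lit 0) (XT.nd (nat_lit 78) (nat_lit 152) (nat_lit 0) (XT.lf (nat_lit 0) (nat_lit 20302042903) (nat_lit 228) (nat_lit 32009997813) (nat_lit 304) (nat_lit 101085755140) (nat_lit 69) (nat_lit 5) (nat_lit 72) (nat_lit 5) (nat_lit 73) (nat_lit 5) (nat_lit 454) (nat_lit 439) (nat_lit 307)) (XT.nd (nat_lit 78) (nat_lit 152) (nat_lit 0) (XT.lf (nat_lit 0) (nat_lit 83117958961) (nat_lit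 304) (nat_lit 45118242329) (nat_lit 76) (nat_lit 32282142750) (nat_lit 69) (nat_lit 5) (nat_lit 73) (nat_lit 5) (nat_lit 70) (nat_lit 5) (nat_lit 455) (nat_lit 439) (nat_lit 306)) (XT.lf (nat_lit 0) (nat_lit 51649221093) (nat_lit 152) (nat_lit 66812345595) (nat_lit 228) (nat_lit 49581112143) (nat_lit 67) (nat_lit 5) (nat_lit 69) (nat_lit 5) (nat_lit 70) (nat_lit 5) (nat_lit 456) (nat_lit 439) (nat_lit 305)))) (XT.nd (nat_lit 156) (nat_lit 152) (nat_lit 0) (XT.nd (nat_lit 78) (nat_lit 228) (nat_lit 0) (XT.lf (nat_lit 0) (nat_lit 157886538584) (nat_lit 228) (nat_lit 17367438516) (nat_lit 76) (nat_lit 814673293) (nat_lit 67) (nat_lit 5) (nat_lit 70) (nat_lit 5) (nat_lit 68) (nat_lit 5) (nat_lit 457) (nat_lit 439) (nat_lit 304)) (XT.lf (nat_lit 0) (nat_lit 19003785930) (nat_lit 228) (nat_lit 92430559110) (nat_lit 76) (nat_lit 72947148720) (nat_lit 64) (nat_lit 5) (nat_lit 67) (nat_lit 5) (nat_lit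 65) (nat_lit 5) (nat_lit 458) (nat_lit 439) (nat_lit 303))) (XT.nd (nat_lit 78) (nat_lit 0) (nat_lit 0) (XT.lf (nat_lit 0) (nat_lit 18101517497) (nat_lit 152) (nat_lit 41002930808) (nat_lit 228) (nat_lit 134143359376) (nat_lit 62) (nat_lit 5) (nat_lit 64) (nat_lit 5) (nat_lit 65) (nat_lit 5) (nat_lit 459) (nat_lit 439) (nat_lit 302)) (XT.lf (nat_lit 0) (nat_lit 105848962462) (nat_lit 228) (nat_lit 60797898641) (nat_lit 76) (nat_lit 35901701733) (nat_lit 62) (nat_lit 5) (nat_lit 65) (nat_lit 5) (nat_lit 63) (nat_lit 5) (nat_lit 460) (nat_lit 439) (nat_lit 301))))))) (XT.nd (nat_lit 1092) (nat_lit 988) (nat_lit 0) (XT.nd (nat_lit 546) (nat_lit 684) (nat_lit 0) (XT.nd (nat_lit 234) (nat_lit 304) (nat_lit 0) (XT.nd (nat_lit 78) (nat_lit 152) (nat_lit 0) (XT.lf (nat_lit 0) (nat_lit 64878359767) (nat_lit 152) (nat_lit 94079714950) (nat_lit 228) (nat_lit 53425300750) (nat_lit 60) (nat_lit 5) (nat_lit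 62) (nat_lit 5) (nat_lit 63) (nat_lit 5) (nat_lit 461) (nat_lit 439) (nat_lit 300)) (XT.nd (nat_lit 78) (nat_lit 152) (nat_lit 0) (XT.lf (nat_lit 0) (nat_lit 204065889569) (nat_lit 152) (nat_lit 13912059531) (nat_lit 228) (nat_lit 4894061374) (nat_lit 60) (nat_lit 5) (nat_lit 62) (nat_lit 5) (nat_lit 63) (nat_lit 5) (nat_lit 462) (nat_lit 439) (nat_lit 299)) (XT.lf (nat_lit 0) (nat_lit 50011735775) (nat_lit 152) (nat_lit 110408762661) (nat_lit 76) (nat_lit 73298275088) (nat_lit 58) (nat_lit 5) (nat_lit 60) (nat_lit 5) (nat_lit 59) (nat_lit 5) (nat_lit 463) (nat_lit 439) (nat_lit 298)))) (XT.nd (nat_lit 156) (nat_lit 152) (nat_lit 0) (XT.nd (nat_lit 78) (nat_lit 0) (nat_lit 0) (XT.lf (nat_lit 0) (nat_lit 33654051166) (nat_lit 152) (nat_lit 77089551744) (nat_lit 228) (nat_lit 134543664232) (nat_lit 56) (nat_lit 5) (nat_lit 58) (nat_lit 5) (nat_lit 59) (nat_lit 5) (nat_lit 464) (nat_lit 439)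 (nat_lit 297)) (XT.lf (nat_lit 0) (nat_lit 179741371491) (nat_lit 228) (nat_lit 62408099934) (nat_lit 76) (nat_lit 15359180674) (nat_lit 56) (nat_lit 5) (nat_lit 59) (nat_lit 5) (nat_lit 57) (nat_lit 4) (nat_lit 465) (nat_lit 439) (nat_lit 296))) (XT.nd (nat_lit 78) (nat_lit 76) (nat_lit 0) (XT.lf (nat_lit 0) (nat_lit 101847085084) (nat_lit 76) (nat_lit 156863383446) (nat_lit 152) (nat_lit 11641158777) (nat_lit 55) (nat_lit 5) (nat_lit 56) (nat_lit 5) (nat_lit 57) (nat_lit 4) (nat_lit 466) (nat_lit 439) (nat_lit 295)) (XT.lf (nat_lit 0) (nat_lit 58535289591) (nat_lit 152) (nat_lit 2775976155) (nat_lit 76) (nat_lit 222655733319) (nat_lit 54) (nat_lit 5) (nat_lit 56) (nat_lit 5) (nat_lit 55) (nat_lit 5) (nat_lit 467) (nat_lit 439) (nat_lit 294))))) (XT.nd (nat_lit 234) (nat_lit 380) (nat_lit 0) (XT.nd (nat_lit 78) (nat_lit 152) (nat_lit 0) (XT.lf (nat_lit 0) (nat_lit 139280932586) (nat_lit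 228) (nat_lit 114250888700) (nat_lit 76) (nat_lit 44668869572) (nat_lit 52) (nat_lit 5) (nat_lit 55) (nat_lit 5) (nat_lit 53) (nat_lit 4) (nat_lit 468) (nat_lit 439) (nat_lit 293)) (XT.nd (nat_lit 78) (nat_lit 76) (nat_lit 0) (XT.lf (nat_lit 0) (nat_lit 74327823323) (nat_lit 76) (nat_lit 155616141285) (nat_lit 152) (nat_lit 83352494389) (nat_lit 51) (nat_lit 5) (nat_lit 52) (nat_lit 5) (nat_lit 53) (nat_lit 4) (nat_lit 469) (nat_lit 439) (nat_lit 292)) (XT.lf (nat_lit 0) (nat_lit 1551926183) (nat_lit 152) (nat_lit 44899290221) (nat_lit 76) (nat_lit 282895640363) (nat_lit 50) (nat_lit 5) (nat_lit 52) (nat_lit 5) (nat_lit 51) (nat_lit 5) (nat_lit 470) (nat_lit 439) (nat_lit 291)))) (XT.nd (nat_lit 156) (nat_lit 152) (nat_lit 0) (XT.nd (nat_lit 78) (nat_lit 76) (nat_lit 0) (XT.lf (nat_lit 0) (nat_lit 94741392383) (nat_lit 228) (nat_lit 176971539681) (nat_lit 76) (nat_lit 74315482981) (nat_lit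 48) (nat_lit 5) (nat_lit 51) (nat_lit 5) (nat_lit 49) (nat_lit 4) (nat_lit 471) (nat_lit 439) (nat_lit 290)) (XT.lf (nat_lit 0) (nat_lit 39472504181) (nat_lit 76) (nat_lit 159328664111) (nat_lit 152) (nat_lit 164970117506) (nat_lit 47) (nat_lit 5) (nat_lit 48) (nat_lit 5) (nat_lit 49) (nat_lit 4) (nat_lit 472) (nat_lit 439) (nat_lit 289))) (XT.nd (nat_lit 78) (nat_lit 152) (nat_lit 0) (XT.lf (nat_lit 0) (nat_lit 283296241562) (nat_lit 76) (nat_lit 32728006503) (nat_lit 152) (nat_lit 66522256411) (nat_lit 47) (nat_lit 5) (nat_lit 48) (nat_lit 5) (nat_lit 49) (nat_lit 4) (nat_lit 473) (nat_lit 439) (nat_lit 288)) (XT.lf (nat_lit 0) (nat_lit 44046547846) (nat_lit 152) (nat_lit 254711368504) (nat_lit 76) (nat_lit 103490354814) (nat_lit 45) (nat_lit 5) (nat_lit 47) (nat_lit 5) (nat_lit 46) (nat_lit 4) (nat_lit 474) (nat_lit 439) (nat_lit 287)))))) (XT.nd (nat_lit 546) (nat_lit 532) (nat_lit 0)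 (XT.nd (nat_lit 234) (nat_lit 304) (nat_lit 0) (XT.nd (nat_lit 78) (nat_lit 152) (nat_lit 0) (XT.lf (nat_lit 0) (nat_lit 163500985935) (nat_lit 152) (nat_lit 6246350460) (nat_lit 76) (nat_lit 253349889997) (nat_lit 45) (nat_lit 5) (nat_lit 47) (nat_lit 5) (nat_lit 46) (nat_lit 4) (nat_lit 475) (nat_lit 439) (nat_lit 286)) (XT.nd (nat_lit 78) (nat_lit 76) (nat_lit 0) (XT.lf (nat_lit 0) (nat_lit 275897038363) (nat_lit 76) (nat_lit 23249902482) (nat_lit 152) (nat_lit 145936344257) (nat_lit 44) (nat_lit 5) (nat_lit 45) (nat_lit 5) (nat_lit 46) (nat_lit 4) (nat_lit 476) (nat_lit 439) (nat_lit 285)) (XT.lf (nat_lit 0) (nat_lit 114636423468) (nat_lit 76) (nat_lit 337186180046) (nat_lit 76) (nat_lit 16511382488) (nat_lit 43) (nat_lit 4) (nat_lit 44) (nat_lit 5) (nat_lit 44) (nat_lit 4) (nat_lit 477) (nat_lit 439) (nat_lit 284)))) (XT.nd (nat_lit 156) (nat_lit 152) (nat_lit 0) (XT.nd (nat_lit 78)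 (nat_lit 76) (nat_lit 0) (XT.lf (nat_lit 0) (nat_lit 122450963758) (nat_lit 152) (nat_lit 65976949633) (nat_lit 76) (nat_lit 304351684060) (nat_lit 42) (nat_lit 5) (nat_lit 44) (nat_lit 5) (nat_lit 43) (nat_lit 4) (nat_lit 478) (nat_lit 439) (nat_lit 283)) (XT.lf (nat_lit 0) (nat_lit 257198246780) (nat_lit 76) (nat_lit 20625477315) (nat_lit 152) (nat_lit 240827986766) (nat_lit 41) (nat_lit 5) (nat_lit 42) (nat_lit 5) (nat_lit 43) (nat_lit 4) (nat_lit 479) (nat_lit 439) (nat_lit 282))) (XT.nd (nat_lit 78) (nat_lit 76) (nat_lit 0) (XT.lf (nat_lit 0) (nat_lit 62760255049) (nat_lit 76) (nat_lit 390088526432) (nat_lit 76) (nat_lit 93167013766) (nat_lit 40) (nat_lit 4) (nat_lit 41) (nat_lit 5) (nat_lit 41) (nat_lit 4) (nat_lit 480) (nat_lit 439) (nat_lit 281)) (XT.lf (nat_lit 0) (nat_lit 70859753716) (nat_lit 152) (nat_lit 149533340109) (nat_lit 76) (nat_lit 354418749827) (nat_lit 39) (nat_lit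 5) (nat_lit 41) (nat_lit 5) (nat_lit 40) (nat_lit 4) (nat_lit 481) (nat_lit 439) (nat_lit 280))))) (XT.nd (nat_lit 312) (nat_lit 228) (nat_lit 0) (XT.nd (nat_lit 156) (nat_lit 228) (nat_lit 0) (XT.nd (nat_lit 78) (nat_lit 0) (nat_lit 0) (XT.lf (nat_lit 0) (nat_lit 219443910767) (nat_lit 76) (nat_lit 28808803295) (nat_lit 152) (nat_lit 357043068865) (nat_lit 38) (nat_lit 5) (nat_lit 39) (nat_lit 5) (nat_lit 40) (nat_lit 4) (nat_lit 482) (nat_lit 439) (nat_lit 279)) (XT.lf (nat_lit 0) (nat_lit 448315035273) (nat_lit 152) (nat_lit 15837756235) (nat_lit 0) (nat_lit 173387411915) (nat_lit 38) (nat_lit 5) (nat_lit 40) (nat_lit 4) (nat_lit 38) (nat_lit 4) (nat_lit 483) (nat_lit 439) (nat_lit 278))) (XT.nd (nat_lit 78) (nat_lit 76) (nat_lit 0) (XT.lf (nat_lit 0) (nat_lit 3133835409) (nat_lit 152) (nat_lit 268409330362) (nat_lit 76) (nat_lit 399979057890) (nat_lit 36) (nat_lit 5) (nat_lit 38) (nat_lit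 5) (nat_lit 37) (nat_lit 4) (nat_lit 484) (nat_lit 439) (nat_lit 277)) (XT.lf (nat_lit 0) (nat_lit 150915078908) (nat_lit 76) (nat_lit 53817067874) (nat_lit 152) (nat_lit 502771570662) (nat_lit 35) (nat_lit 5) (nat_lit 36) (nat_lit 5) (nat_lit 37) (nat_lit 4) (nat_lit 485) (nat_lit 439) (nat_lit 276)))) (XT.nd (nat_lit 156) (nat_lit 152) (nat_lit 0) (XT.nd (nat_lit 78) (nat_lit 76) (nat_lit 0) (XT.lf (nat_lit 0) (nat_lit 434348520164) (nat_lit 152) (nat_lit 131278307024) (nat_lit 0) (nat_lit 179785687775) (nat_lit 35) (nat_lit 5) (nat_lit 37) (nat_lit 4) (nat_lit 35) (nat_lit 4) (nat_lit 486) (nat_lit 439) (nat_lit 275)) (XT.lf (nat_lit 0) (nat_lit 343860038699) (nat_lit 76) (nat_lit 348141733355) (nat_lit 76) (nat_lit 93578838741) (nat_lit 34) (nat_lit 4) (nat_lit 35) (nat_lit 5) (nat_lit 35) (nat_lit 4) (nat_lit 487) (nat_lit 439) (nat_lit 274))) (XT.nd (nat_lit 78) (nat_lit 0) (nat_lit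 0) (XT.lf (nat_lit 0) (nat_lit 34009809487) (nat_lit 76) (nat_lit 104727095184) (nat_lit 152) (nat_lit 689593343901) (nat_lit 32) (nat_lit 5) (nat_lit 33) (nat_lit 5) (nat_lit 34) (nat_lit 4) (nat_lit 488) (nat_lit 439) (nat_lit 273)) (XT.lf (nat_lit 0) (nat_lit 400776992375) (nat_lit 152) (nat_lit 307162327916) (nat_lit 0) (nat_lit 165070505728) (nat_lit 32) (nat_lit 5) (nat_lit 34) (nat_lit 4) (nat_lit 32) (nat_lit 4) (nat_lit 489) (nat_lit 439) (nat_lit 272))))))))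
noncomputable def xc178 : XT := (XT.nd (nat_lit 2184) (nat_lit 684) (nat_lit 0) (XT.nd (nat_lit 1092) (nat_lit 684) (nat_lit 0) (XT.nd (nat_lit 546) (nat_lit 456) (nat_lit 0) (XT.nd (nat_lit 234) (nat_lit 228) (nat_lit 0) (XT.nd (nat_lit 78) (nat_lit 152) (nat_lit 0) (XT.lf (nat_lit 0) (nat_lit 227635264546) (nat_lit 76) (nat_lit 464339730435) (nat_lit 76) (nat_lit 228633198051) (nat_lit 31) (nat_lit 4) (nat_lit 32) (nat_lit 5) (nat_lit 32) (nat_lit 4) (nat_lit 490) (nat_lit 439) (nat_lit 271)) (XT.nd (nat_lit 78) (nat_lit 76) (nat_lit 0) (XT.lf (nat_lit 0) (nat_lit 41347251197) (nat_lit 152) (nat_lit 149704292242) (nat_lit 76) (nat_lit 780207284272) (nat_lit 30) (nat_lit 5) (nat_lit 32) (nat_lit 5) (nat_lit 31) (nat_lit 4) (nat_lit 491) (nat_lit 439) (nat_lit 270)) (XT.lf (nat_lit 0) (nat_lit 334428816325) (nat_lit 152) (nat_lit 573767278417) (nat_lit 0) (nat_lit 116181951561) (nat_lit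 29) (nat_lit 5) (nat_lit 31) (nat_lit 4) (nat_lit 29) (nat_lit 4) (nat_lit 492) (nat_lit 439) (nat_lit 269)))) (XT.nd (nat_lit 156) (nat_lit 152) (nat_lit 0) (XT.nd (nat_lit 78) (nat_lit 0) (nat_lit 0) (XT.lf (nat_lit 0) (nat_lit 22081191898) (nat_lit 76) (nat_lit 638568541370) (nat_lit 76) (nat_lit 420321642986) (nat_lit 28) (nat_lit 4) (nat_lit 29) (nat_lit 5) (nat_lit 29) (nat_lit 4) (nat_lit 493) (nat_lit 439) (nat_lit 268)) (XT.lf (nat_lit 0) (nat_lit 698227993300) (nat_lit 76) (nat_lit 330428045786) (nat_lit 76) (nat_lit 112181116275) (nat_lit 28) (nat_lit 4) (nat_lit 29) (nat_lit 5) (nat_lit 29) (nat_lit 4) (nat_lit 494) (nat_lit 439) (nat_lit 267))) (XT.nd (nat_lit 78) (nat_lit 0) (nat_lit 0) (XT.lf (nat_lit 0) (nat_lit 215423101393) (nat_lit 152) (nat_lit 975834192696) (nat_lit 0) (nat_lit 13342584417) (nat_lit 26) (nat_lit 5) (nat_lit 28) (nat_lit 4) (nat_lit 26) (nat_lit 4) (nat_lit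 495) (nat_lit 439) (nat_lit 266)) (XT.lf (nat_lit 0) (nat_lit 584173464749) (nat_lit 152) (nat_lit 305284247886) (nat_lit 0) (nat_lit 382092923062) (nat_lit 26) (nat_lit 5) (nat_lit 28) (nat_lit 4) (nat_lit 26) (nat_lit 4) (nat_lit 496) (nat_lit 439) (nat_lit 265))))) (XT.nd (nat_lit 234) (nat_lit 228) (nat_lit 0) (XT.nd (nat_lit 78) (nat_lit 152) (nat_lit 0) (XT.lf (nat_lit 0) (nat_lit 440968548960) (nat_lit 76) (nat_lit 552060525830) (nat_lit 76) (nat_lit 349979961264) (nat_lit 25) (nat_lit 4) (nat_lit 26) (nat_lit 5) (nat_lit 26) (nat_lit 4) (nat_lit 497) (nat_lit 439) (nat_lit 264)) (XT.nd (nat_lit 78) (nat_lit 76) (nat_lit 0) (XT.lf (nat_lit 0) (nat_lit 22251958761) (nat_lit 152) (nat_lit 155796511527) (nat_lit 76) (nat_lit 1241422816651) (nat_lit 24) (nat_lit 5) (nat_lit 26) (nat_lit 5) (nat_lit 25) (nat_lit 4) (nat_lit 498) (nat_lit 439) (nat_lit 263)) (XT.lf (nat_lit 0) (nat_lit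 427673801208) (nat_lit 152) (nat_lit 831301805858) (nat_lit 0) (nat_lit 240562129572) (nat_lit 23) (nat_lit 5) (nat_lit 25) (nat_lit 4) (nat_lit 23) (nat_lit 4) (nat_lit 499) (nat_lit 439) (nat_lit 262)))) (XT.nd (nat_lit 156) (nat_lit 152) (nat_lit 0) (XT.nd (nat_lit 78) (nat_lit 76) (nat_lit 0) (XT.lf (nat_lit 0) (nat_lit 874524342351) (nat_lit 152) (nat_lit 23352909961) (nat_lit 0) (nat_lit 687412653897) (nat_lit 23) (nat_lit 5) (nat_lit 25) (nat_lit 4) (nat_lit 23) (nat_lit 4) (nat_lit 500) (nat_lit 439) (nat_lit 261)) (XT.lf (nat_lit 0) (nat_lit 893950785027) (nat_lit 76) (nat_lit 484671605619) (nat_lit 76) (nat_lit 297559901593) (nat_lit 22) (nat_lit 4) (nat_lit 23) (nat_lit 5) (nat_lit 23) (nat_lit 4) (nat_lit 501) (nat_lit 439) (nat_lit 260))) (XT.nd (nat_lit 78) (nat_lit 0) (nat_lit 0) (XT.lf (nat_lit 0) (nat_lit 113770101257) (nat_lit 76) (nat_lit 30884619752) (nat_lit 152) (nat_lit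 1629133949249) (nat_lit 20) (nat_lit 5) (nat_lit 21) (nat_lit 5) (nat_lit 22) (nat_lit 4) (nat_lit 502) (nat_lit 439) (nat_lit 259)) (XT.lf (nat_lit 0) (nat_lit 639157492777) (nat_lit 152) (nat_lit 770882914761) (nat_lit 0) (nat_lit 465905889263) (nat_lit 20) (nat_lit 5) (nat_lit 22) (nat_lit 4) (nat_lit 20) (nat_lit 4) (nat_lit 503) (nat_lit 439) (nat_lit 258)))))) (XT.nd (nat_lit 546) (nat_lit 304) (nat_lit 0) (XT.nd (nat_lit 234) (nat_lit 152) (nat_lit 0) (XT.nd (nat_lit 78) (nat_lit 152) (nat_lit 0) (XT.lf (nat_lit 0) (nat_lit 198511608203) (nat_lit 76) (nat_lit 980285216572) (nat_lit 76) (nat_lit 807033601613) (nat_lit 19) (nat_lit 4) (nat_lit 20) (nat_lit 5) (nat_lit 20) (nat_lit 4) (nat_lit 504) (nat_lit 439) (nat_lit 257)) (XT.nd (nat_lit 78) (nat_lit 152) (nat_lit 0) (XT.lf (nat_lit 0) (nat_lit 1289298350664) (nat_lit 76) (nat_lit 493386191082) (nat_lit 76) (nat_lit 320134565525)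 (nat_lit 19) (nat_lit 4) (nat_lit 20) (nat_lit 5) (nat_lit 20) (nat_lit 4) (nat_lit 505) (nat_lit 439) (nat_lit 256)) (XT.lf (nat_lit 0) (nat_lit 202392859591) (nat_lit 152) (nat_lit 1983846166938) (nat_lit 0) (nat_lit 41974678693) (nat_lit 17) (nat_lit 5) (nat_lit 19) (nat_lit 4) (nat_lit 17) (nat_lit 4) (nat_lit 506) (nat_lit 439) (nat_lit 255)))) (XT.nd (nat_lit 156) (nat_lit 76) (nat_lit 0) (XT.nd (nat_lit 78) (nat_lit 76) (nat_lit 0) (XT.lf (nat_lit 0) (nat_lit 785062901549) (nat_lit 152) (nat_lit 950416162178) (nat_lit 0) (nat_lit 624644712238) (nat_lit 17) (nat_lit 5) (nat_lit 19) (nat_lit 4) (nat_lit 17) (nat_lit 4) (nat_lit 507) (nat_lit 439) (nat_lit 254)) (XT.lf (nat_lit 0) (nat_lit 174412965461) (nat_lit 76) (nat_lit 1244128158904) (nat_lit 76) (nat_lit 1083709961803) (nat_lit 16) (nat_lit 4) (nat_lit 17) (nat_lit 5) (nat_lit 17) (nat_lit 4) (nat_lit 508) (nat_lit 439) (nat_lit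 253))) (XT.nd (nat_lit 78) (nat_lit 76) (nat_lit 0) (XT.lf (nat_lit 0) (nat_lit 1443279315234) (nat_lit 76) (nat_lit 685404294926) (nat_lit 76) (nat_lit 524986090612) (nat_lit 16) (nat_lit 4) (nat_lit 17) (nat_lit 5) (nat_lit 17) (nat_lit 4) (nat_lit 509) (nat_lit 439) (nat_lit 252)) (XT.lf (nat_lit 0) (nat_lit 74511965229) (nat_lit 152) (nat_lit 5433323314) (nat_lit 76) (nat_lit 2737105609917) (nat_lit 15) (nat_lit 5) (nat_lit 17) (nat_lit 5) (nat_lit 16) (nat_lit 4) (nat_lit 510) (nat_lit 439) (nat_lit 251))))) (XT.nd (nat_lit 234) (nat_lit 152) (nat_lit 0) (XT.nd (nat_lit 78) (nat_lit 76) (nat_lit 0) (XT.lf (nat_lit 0) (nat_lit 741070716025) (nat_lit 152) (nat_lit 1655008567169) (nat_lit 0) (nat_lit 592535329751) (nat_lit 14) (nat_lit 5) (nat_lit 16) (nat_lit 4) (nat_lit 14) (nat_lit 4) (nat_lit 511) (nat_lit 439) (nat_lit 250)) (XT.nd (nat_lit 78) (nat_lit 76) (nat_lit 0) (XT.lf (nat_lit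 0) (nat_lit 1463183033098) (nat_lit 152) (nat_lit 395894440669) (nat_lit 0) (nat_lit 1314647641523) (nat_lit 14) (nat_lit 5) (nat_lit 16) (nat_lit 4) (nat_lit 14) (nat_lit 4) (nat_lit 512) (nat_lit 439) (nat_lit 249)) (XT.lf (nat_lit 0) (nat_lit 1014708551643) (nat_lit 76) (nat_lit 1252759502585) (nat_lit 76) (nat_lit 1104224106100) (nat_lit 13) (nat_lit 4) (nat_lit 14) (nat_lit 5) (nat_lit 14) (nat_lit 4) (nat_lit 513) (nat_lit 439) (nat_lit 248)))) (XT.nd (nat_lit 156) (nat_lit 0) (nat_lit 0) (XT.nd (nat_lit 78) (nat_lit 152) (nat_lit 0) (XT.lf (nat_lit 0) (nat_lit 2560674557741) (nat_lit 76) (nat_lit 586245729713) (nat_lit 76) (nat_lit 437710328683) (nat_lit 13) (nat_lit 4) (nat_lit 14) (nat_lit 5) (nat_lit 14) (nat_lit 4) (nat_lit 514) (nat_lit 439) (nat_lit 247)) (XT.lf (nat_lit 0) (nat_lit 282022072438) (nat_lit 152) (nat_lit 3386429135250) (nat_lit 0) (nat_lit 144489289810) (nat_lit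 11) (nat_lit 5) (nat_lit 13) (nat_lit 4) (nat_lit 11) (nat_lit 4) (nat_lit 515) (nat_lit 439) (nat_lit 246))) (XT.nd (nat_lit 78) (nat_lit 0) (nat_lit 0) (XT.lf (nat_lit 0) (nat_lit 1079636419876) (nat_lit 152) (nat_lit 2033349501413) (nat_lit 0) (nat_lit 942103633640) (nat_lit 11) (nat_lit 5) (nat_lit 13) (nat_lit 4) (nat_lit 11) (nat_lit 4) (nat_lit 516) (nat_lit 439) (nat_lit 245)) (XT.lf (nat_lit 0) (nat_lit 1941059875392) (nat_lit 152) (nat_lit 572023578923) (nat_lit 0) (nat_lit 1803527085815) (nat_lit 11) (nat_lit 5) (nat_lit 13) (nat_lit 4) (nat_lit 11) (nat_lit 4) (nat_lit 517) (nat_lit 439) (nat_lit 244))))))) (XT.nd (nat_lit 1092) (nat_lit 228) (nat_lit 0) (XT.nd (nat_lit 546) (nat_lit 152) (nat_lit 0) (XT.nd (nat_lit 234) (nat_lit 228) (nat_lit 0) (XT.nd (nat_lit 78) (nat_lit 0) (nat_lit 0) (XT.lf (nat_lit 0) (nat_lit 1059193489492) (nat_lit 76) (nat_lit 1837677309978) (nat_lit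 76) (nat_lit 1700144517307) (nat_lit 10) (nat_lit 4) (nat_lit 11) (nat_lit 5) (nat_lit 11) (nat_lit 4) (nat_lit 518) (nat_lit 439) (nat_lit 243)) (XT.nd (nat_lit 78) (nat_lit 0) (nat_lit 0) (XT.lf (nat_lit 0) (nat_lit 2853439337117) (nat_lit 76) (nat_lit 1091347362886) (nat_lit 76) (nat_lit 953814567351) (nat_lit 10) (nat_lit 4) (nat_lit 11) (nat_lit 5) (nat_lit 11) (nat_lit 4) (nat_lit 519) (nat_lit 439) (nat_lit 242)) (XT.lf (nat_lit 0) (nat_lit 4791224783984) (nat_lit 76) (nat_lit 285311055418) (nat_lit 76) (nat_lit 147778257230) (nat_lit 10) (nat_lit 4) (nat_lit 11) (nat_lit 5) (nat_lit 11) (nat_lit 4) (nat_lit 520) (nat_lit 439) (nat_lit 241)))) (XT.nd (nat_lit 156) (nat_lit 76) (nat_lit 0) (XT.nd (nat_lit 78) (nat_lit 0) (nat_lit 0) (XT.lf (nat_lit 0) (nat_lit 734633468368) (nat_lit 152) (nat_lit 4228927891064) (nat_lit 0) (nat_lit 607288282588) (nat_lit 8) (nat_lit 5) (nat_lit 10)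 (nat_lit 4) (nat_lit 8) (nat_lit 4) (nat_lit 521) (nat_lit 439) (nat_lit 240)) (XT.lf (nat_lit 0) (nat_lit 1699213911894) (nat_lit 152) (nat_lit 2672153551899) (nat_lit 0) (nat_lit 1571868724009) (nat_lit 8) (nat_lit 5) (nat_lit 10) (nat_lit 4) (nat_lit 8) (nat_lit 4) (nat_lit 522) (nat_lit 439) (nat_lit 239))) (XT.nd (nat_lit 78) (nat_lit 76) (nat_lit 0) (XT.lf (nat_lit 0) (nat_lit 2740960761737) (nat_lit 152) (nat_lit 990837325941) (nat_lit 0) (nat_lit 2613615571902) (nat_lit 8) (nat_lit 5) (nat_lit 10) (nat_lit 4) (nat_lit 8) (nat_lit 4) (nat_lit 523) (nat_lit 439) (nat_lit 238)) (XT.lf (nat_lit 0) (nat_lit 868426345154) (nat_lit 76) (nat_lit 3018506661894) (nat_lit 76) (nat_lit 2891161470254) (nat_lit 7) (nat_lit 4) (nat_lit 8) (nat_lit 5) (nat_lit 8) (nat_lit 4) (nat_lit 524) (nat_lit 439) (nat_lit 237))))) (XT.nd (nat_lit 234) (nat_lit 152) (nat_lit 0) (XT.nd (nat_lit 78) (nat_lit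 0) (nat_lit 0) (XT.lf (nat_lit 0) (nat_lit 2932780852165) (nat_lit 76) (nat_lit 2218893401910) (nat_lit 76) (nat_lit 2091548208599) (nat_lit 7) (nat_lit 4) (nat_lit 8) (nat_lit 5) (nat_lit 8) (nat_lit 4) (nat_lit 525) (nat_lit 439) (nat_lit 236)) (XT.nd (nat_lit 78) (nat_lit 0) (nat_lit 0) (XT.lf (nat_lit 0) (nat_lit 5162283669315) (nat_lit 76) (nat_lit 1355311107184) (nat_lit 76) (nat_lit 1227965912326) (nat_lit 7) (nat_lit 4) (nat_lit 8) (nat_lit 5) (nat_lit 8) (nat_lit 4) (nat_lit 526) (nat_lit 439) (nat_lit 235)) (XT.lf (nat_lit 0) (nat_lit 7570146665149) (nat_lit 76) (nat_lit 422642253008) (nat_lit 76) (nat_lit 295297056716) (nat_lit 7) (nat_lit 4) (nat_lit 8) (nat_lit 5) (nat_lit 8) (nat_lit 4) (nat_lit 527) (nat_lit 439) (nat_lit 234)))) (XT.nd (nat_lit 156) (nat_lit 0) (nat_lit 0) (XT.nd (nat_lit 78) (nat_lit 0) (nat_lit 0) (XT.lf (nat_lit 0) (nat_lit 724108086524) (nat_lit 152)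 (nat_lit 7538520336248) (nat_lit 0) (nat_lit 606195866507) (nat_lit 5) (nat_lit 5) (nat_lit 7) (nat_lit 4) (nat_lit 5) (nat_lit 4) (nat_lit 528) (nat_lit 439) (nat_lit 233)) (XT.lf (nat_lit 0) (nat_lit 1840229225765) (nat_lit 152) (nat_lit 5930372450535) (nat_lit 0) (nat_lit 1722317004611) (nat_lit 5) (nat_lit 5) (nat_lit 7) (nat_lit 4) (nat_lit 5) (nat_lit 4) (nat_lit 529) (nat_lit 439) (nat_lit 232))) (XT.nd (nat_lit 78) (nat_lit 0) (nat_lit 0) (XT.lf (nat_lit 0) (nat_lit 3045640036311) (nat_lit 152) (nat_lit 4193572775046) (nat_lit 0) (nat_lit 2927727814103) (nat_lit 5) (nat_lit 5) (nat_lit 7) (nat_lit 4) (nat_lit 5) (nat_lit 4) (nat_lit 530) (nat_lit 439) (nat_lit 231)) (XT.lf (nat_lit 0) (nat_lit 4347483693334) (nat_lit 152) (nat_lit 2317829163557) (nat_lit 0) (nat_lit 4229571470152) (nat_lit 5) (nat_lit 5) (nat_lit 7) (nat_lit 4) (nat_lit 5) (nat_lit 4) (nat_lit 531) (nat_lit 439)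 (nat_lit 230)))))) (XT.nd (nat_lit 546) (nat_lit 152) (nat_lit 0) (XT.nd (nat_lit 234) (nat_lit 0) (nat_lit 0) (XT.nd (nat_lit 78) (nat_lit 76) (nat_lit 0) (XT.lf (nat_lit 0) (nat_lit 5753474825915) (nat_lit 152) (nat_lit 292026098370) (nat_lit 0) (nat_lit 5635562601829) (nat_lit 5) (nat_lit 5) (nat_lit 7) (nat_lit 4) (nat_lit 5) (nat_lit 4) (nat_lit 532) (nat_lit 439) (nat_lit 229)) (XT.nd (nat_lit 78) (nat_lit 0) (nat_lit 0) (XT.lf (nat_lit 0) (nat_lit 1995672816210) (nat_lit 76) (nat_lit 5324268396371) (nat_lit 76) (nat_lit 5206356171449) (nat_lit 4) (nat_lit 4) (nat_lit 5) (nat_lit 5) (nat_lit 5) (nat_lit 4) (nat_lit 533) (nat_lit 439) (nat_lit 228)) (XT.lf (nat_lit 0) (nat_lit 4482995395142) (nat_lit 76) (nat_lit 4536714010739) (nat_lit 76) (nat_lit 4418801785043) (nat_lit 4) (nat_lit 4) (nat_lit 5) (nat_lit 5) (nat_lit 5) (nat_lit 4) (nat_lit 534) (nat_lit 439) (nat_lit 227)))) (XT.nd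 (nat_lit 156) (nat_lit 0) (nat_lit 0) (XT.nd (nat_lit 78) (nat_lit 0) (nat_lit 0) (XT.lf (nat_lit 0) (nat_lit 7169303750958) (nat_lit 76) (nat_lit 3686155289481) (nat_lit 76) (nat_lit 3568243063068) (nat_lit 4) (nat_lit 4) (nat_lit 5) (nat_lit 5) (nat_lit 5) (nat_lit 4) (nat_lit 535) (nat_lit 439) (nat_lit 226)) (XT.lf (nat_lit 0) (nat_lit 10070516747987) (nat_lit 76) (nat_lit 2767551884619) (nat_lit 76) (nat_lit 2649639657543) (nat_lit 4) (nat_lit 4) (nat_lit 5) (nat_lit 5) (nat_lit 5) (nat_lit 4) (nat_lit 536) (nat_lit 439) (nat_lit 225))) (XT.nd (nat_lit 78) (nat_lit 0) (nat_lit 0) (XT.lf (nat_lit 0) (nat_lit 13203826759545) (nat_lit 76) (nat_lit 1775460220421) (nat_lit 76) (nat_lit 1657547992730) (nat_lit 4) (nat_lit 4) (nat_lit 5) (nat_lit 5) (nat_lit 5) (nat_lit 4) (nat_lit 537) (nat_lit 439) (nat_lit 224)) (XT.lf (nat_lit 0) (nat_lit 16587801548665) (nat_lit 76) (nat_lit 704001235172)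 (nat_lit 76) (nat_lit 586089006912) (nat_lit 4) (nat_lit 4) (nat_lit 5) (nat_lit 5) (nat_lit 5) (nat_lit 4) (nat_lit 538) (nat_lit 439) (nat_lit 223))))) (XT.nd (nat_lit 54990) (nat_lit 0) (nat_lit 6460) (XT.nd (nat_lit 54834) (nat_lit 0) (nat_lit 6384) (XT.nd (nat_lit 54756) (nat_lit 0) (nat_lit 6916) (XT.lf (nat_lit 0) (nat_lit 580021659689) (nat_lit 152) (nat_lit 18163268810064) (nat_lit 0) (nat_lit 470843670071) (nat_lit 2) (nat_lit 5) (nat_lit 4) (nat_lit 4) (nat_lit 2) (nat_lit 4) (nat_lit 539) (nat_lit 439) (nat_lit 222)) (XT.lf (nat_lit 0) (nat_lit 43482518433) (nat_lit 532) (nat_lit 309092730) (nat_lit 532) (nat_lit 309092730) (nat_lit 93) (nat_lit 3) (nat_lit 100) (nat_lit 3) (nat_lit 100) (nat_lit 5) (nat_lit 440) (nat_lit 440) (nat_lit 320))) (XT.nd (nat_lit 78) (nat_lit 532) (nat_lit 0) (XT.lf (nat_lit 76) (nat_lit 45586633951) (nat_lit 0) (nat_lit 45961308136) (nat_lit 532)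 (nat_lit 93176654) (nat_lit 94) (nat_lit 5) (nat_lit 93) (nat_lit 3) (nat_lit 100) (nat_lit 5) (nat_lit 441) (nat_lit 440) (nat_lit 319)) (XT.lf (nat_lit 76) (nat_lit 147324080) (nat_lit 0) (nat_lit 957105733) (nat_lit 608) (nat_lit 94247776038) (nat_lit 87) (nat_lit 5) (nat_lit 86) (nat_lit 5) (nat_lit 94) (nat_lit 5) (nat_lit 442) (nat_lit 440) (nat_lit 318)))) (XT.nd (nat_lit 156) (nat_lit 0) (nat_lit 76) (XT.nd (nat_lit 78) (nat_lit 0) (nat_lit 0) (XT.lf (nat_lit 0) (nat_lit 4829880769) (nat_lit 532) (nat_lit 47776607135) (nat_lit 608) (nat_lit 46558532906) (nat_lit 87) (nat_lit 5) (nat_lit 94) (nat_lit 5) (nat_lit 95) (nat_lit 5) (nat_lit 443) (nat_lit 440) (nat_lit 317)) (XT.lf (nat_lit 76) (nat_lit 3600678763) (nat_lit 0) (nat_lit 5363432383) (nat_lit 608) (nat_lit 94309890437) (nat_lit 88) (nat_lit 5) (nat_lit 87) (nat_lit 5) (nat_lit 95) (nat_lit 5) (nat_lit 444) (nat_lit 440) (nat_lit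 316))) (XT.nd (nat_lit 78) (nat_lit 0) (nat_lit 0) (XT.lf (nat_lit 0) (nat_lit 15866740579) (nat_lit 532) (nat_lit 46934539435) (nat_lit 608) (nat_lit 44715408033) (nat_lit 88) (nat_lit 5) (nat_lit 95) (nat_lit 5) (nat_lit 96) (nat_lit 5) (nat_lit 445) (nat_lit 440) (nat_lit 315)) (XT.lf (nat_lit 76) (nat_lit 10403970199) (nat_lit 0) (nat_lit 13306517358) (nat_lit 608) (nat_lit 88357189367) (nat_lit 89) (nat_lit 5) (nat_lit 88) (nat_lit 5) (nat_lit 96) (nat_lit 5) (nat_lit 446) (nat_lit 440) (nat_lit 314))))))))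
noncomputable def xc179 : XT := (XT.nd (nat_lit 2184) (nat_lit 2052) (nat_lit 0) (XT.nd (nat_lit 1092) (nat_lit 1140) (nat_lit 0) (XT.nd (nat_lit 546) (nat_lit 988) (nat_lit 0) (XT.nd (nat_lit 234) (nat_lit 532) (nat_lit 0) (XT.nd (nat_lit 78) (nat_lit 532) (nat_lit 0) (XT.lf (nat_lit 0) (nat_lit 34463312992) (nat_lit 532) (nat_lit 42880752554) (nat_lit 76) (nat_lit 39456153136) (nat_lit 89) (nat_lit 5) (nat_lit 96) (nat_lit 5) (nat_lit 90) (nat_lit 5) (nat_lit 447) (nat_lit 440) (nat_lit 313)) (XT.nd (nat_lit 78) (nat_lit 0) (nat_lit 0) (XT.lf (nat_lit 0) (nat_lit 21325491381) (nat_lit 532) (nat_lit 25608835902) (nat_lit 608) (nat_lit 74908399533) (nat_lit 82) (nat_lit 5) (nat_lit 89) (nat_lit 5) (nat_lit 90) (nat_lit 5) (nat_lit 448) (nat_lit 440) (nat_lit 312)) (XT.lf (nat_lit 0) (nat_lit 62333279209) (nat_lit 608) (nat_lit 34846810072) (nat_lit 76) (nat_lit 29954125859) (nat_lit 82)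 (nat_lit 5) (nat_lit 90) (nat_lit 5) (nat_lit 83) (nat_lit 5) (nat_lit 449) (nat_lit 440) (nat_lit 311)))) (XT.nd (nat_lit 156) (nat_lit 304) (nat_lit 0) (XT.nd (nat_lit 78) (nat_lit 0) (nat_lit 0) (XT.lf (nat_lit 0) (nat_lit 37276297414) (nat_lit 228) (nat_lit 43249036929) (nat_lit 304) (nat_lit 52198793274) (nat_lit 79) (nat_lit 5) (nat_lit 82) (nat_lit 5) (nat_lit 83) (nat_lit 5) (nat_lit 450) (nat_lit 440) (nat_lit 310)) (XT.lf (nat_lit 0) (nat_lit 101510490116) (nat_lit 304) (nat_lit 21919923544) (nat_lit 76) (nat_lit 15223800585) (nat_lit 79) (nat_lit 5) (nat_lit 83) (nat_lit 5) (nat_lit 80) (nat_lit 5) (nat_lit 451) (nat_lit 440) (nat_lit 309))) (XT.nd (nat_lit 78) (nat_lit 76) (nat_lit 0) (XT.lf (nat_lit 0) (nat_lit 59334535146) (nat_lit 228) (nat_lit 67389854348) (nat_lit 304) (nat_lit 18130323863) (nat_lit 76) (nat_lit 5) (nat_lit 79) (nat_lit 5) (nat_lit 80) (nat_lit 5) (nat_lit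 452) (nat_lit 440) (nat_lit 308)) (XT.lf (nat_lit 0) (nat_lit 2898371516) (nat_lit 304) (nat_lit 3241228818) (nat_lit 76) (nat_lit 145357867449) (nat_lit 75) (nat_lit 5) (nat_lit 79) (nat_lit 5) (nat_lit 76) (nat_lit 5) (nat_lit 453) (nat_lit 440) (nat_lit 307))))) (XT.nd (nat_lit 234) (nat_lit 532) (nat_lit 0) (XT.nd (nat_lit 78) (nat_lit 228) (nat_lit 0) (XT.lf (nat_lit 0) (nat_lit 28296617643) (nat_lit 304) (nat_lit 70340584368) (nat_lit 76) (nat_lit 59703426108) (nat_lit 72) (nat_lit 5) (nat_lit 76) (nat_lit 5) (nat_lit 73) (nat_lit 5) (nat_lit 454) (nat_lit 440) (nat_lit 306)) (XT.nd (nat_lit 78) (nat_lit 0) (nat_lit 0) (XT.lf (nat_lit 0) (nat_lit 21935876612) (nat_lit 228) (nat_lit 34568435460) (nat_lit 304) (nat_lit 109164722152) (nat_lit 69) (nat_lit 5) (nat_lit 72) (nat_lit 5) (nat_lit 73) (nat_lit 5) (nat_lit 455) (nat_lit 440) (nat_lit 305)) (XT.lf (nat_lit 0) (nat_lit 89774215039)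 (nat_lit 304) (nat_lit 48718258413) (nat_lit 76) (nat_lit 34866791959) (nat_lit 69) (nat_lit 5) (nat_lit 73) (nat_lit 5) (nat_lit 70) (nat_lit 5) (nat_lit 456) (nat_lit 440) (nat_lit 304)))) (XT.nd (nat_lit 156) (nat_lit 380) (nat_lit 0) (XT.nd (nat_lit 78) (nat_lit 0) (nat_lit 0) (XT.lf (nat_lit 0) (nat_lit 55790363012) (nat_lit 152) (nat_lit 72154664596) (nat_lit 228) (nat_lit 53540542124) (nat_lit 67) (nat_lit 5) (nat_lit 69) (nat_lit 5) (nat_lit 70) (nat_lit 5) (nat_lit 457) (nat_lit 440) (nat_lit 303)) (XT.lf (nat_lit 0) (nat_lit 170523572565) (nat_lit 228) (nat_lit 18747885952) (nat_lit 76) (nat_lit 882194518) (nat_lit 67) (nat_lit 5) (nat_lit 70) (nat_lit 5) (nat_lit 68) (nat_lit 5) (nat_lit 458) (nat_lit 440) (nat_lit 302))) (XT.nd (nat_lit 78) (nat_lit 152) (nat_lit 0) (XT.lf (nat_lit 0) (nat_lit 20530109654) (nat_lit 228) (nat_lit 99815965225) (nat_lit 76) (nat_lit 78785456270)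 (nat_lit 64) (nat_lit 5) (nat_lit 67) (nat_lit 5) (nat_lit 65) (nat_lit 5) (nat_lit 459) (nat_lit 440) (nat_lit 301)) (XT.lf (nat_lit 0) (nat_lit 19558448684) (nat_lit 152) (nat_lit 44280142221) (nat_lit 228) (nat_lit 144868578041) (nat_lit 62) (nat_lit 5) (nat_lit 64) (nat_lit 5) (nat_lit 65) (nat_lit 5) (nat_lit 460) (nat_lit 440) (nat_lit 300)))))) (XT.nd (nat_lit 546) (nat_lit 608) (nat_lit 0) (XT.nd (nat_lit 234) (nat_lit 380) (nat_lit 0) (XT.nd (nat_lit 78) (nat_lit 152) (nat_lit 0) (XT.lf (nat_lit 0) (nat_lit 114322304867) (nat_lit 228) (nat_lit 65653211612) (nat_lit 76) (nat_lit 38776496971) (nat_lit 62) (nat_lit 5) (nat_lit 65) (nat_lit 5) (nat_lit 63) (nat_lit 5) (nat_lit 461) (nat_lit 440) (nat_lit 299)) (XT.nd (nat_lit 78) (nat_lit 0) (nat_lit 0) (XT.lf (nat_lit 0) (nat_lit 70076931798) (nat_lit 152) (nat_lit 101603012114) (nat_lit 228) (nat_lit 57693683381) (nat_lit 60) (nat_lit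 5) (nat_lit 62) (nat_lit 5) (nat_lit 63) (nat_lit 5) (nat_lit 462) (nat_lit 440) (nat_lit 298)) (XT.lf (nat_lit 0) (nat_lit 220398848929) (nat_lit 152) (nat_lit 15022172413) (nat_lit 228) (nat_lit 5280362739) (nat_lit 60) (nat_lit 5) (nat_lit 62) (nat_lit 5) (nat_lit 63) (nat_lit 5) (nat_lit 463) (nat_lit 440) (nat_lit 297)))) (XT.nd (nat_lit 156) (nat_lit 76) (nat_lit 0) (XT.nd (nat_lit 78) (nat_lit 152) (nat_lit 0) (XT.lf (nat_lit 0) (nat_lit 54017527027) (nat_lit 152) (nat_lit 119233403743) (nat_lit 76) (nat_lit 79164956165) (nat_lit 58) (nat_lit 5) (nat_lit 60) (nat_lit 5) (nat_lit 59) (nat_lit 5) (nat_lit 464) (nat_lit 440) (nat_lit 296)) (XT.lf (nat_lit 0) (nat_lit 36354231142) (nat_lit 152) (nat_lit 83253541889) (nat_lit 228) (nat_lit 145302100672) (nat_lit 56) (nat_lit 5) (nat_lit 58) (nat_lit 5) (nat_lit 59) (nat_lit 5) (nat_lit 465) (nat_lit 440) (nat_lit 295))) (XT.nd (nat_lit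 78) (nat_lit 76) (nat_lit 0) (XT.lf (nat_lit 0) (nat_lit 194125086972) (nat_lit 228) (nat_lit 67393197598) (nat_lit 76) (nat_lit 16590706997) (nat_lit 56) (nat_lit 5) (nat_lit 59) (nat_lit 5) (nat_lit 57) (nat_lit 4) (nat_lit 466) (nat_lit 440) (nat_lit 294)) (XT.lf (nat_lit 0) (nat_lit 110002211075) (nat_lit 76) (nat_lit 169409351336) (nat_lit 152) (nat_lit 12567854348) (nat_lit 55) (nat_lit 5) (nat_lit 56) (nat_lit 5) (nat_lit 57) (nat_lit 4) (nat_lit 467) (nat_lit 440) (nat_lit 293))))) (XT.nd (nat_lit 234) (nat_lit 304) (nat_lit 0) (XT.nd (nat_lit 78) (nat_lit 228) (nat_lit 0) (XT.lf (nat_lit 0) (nat_lit 63222156430) (nat_lit 152) (nat_lit 2991027065) (nat_lit 76) (nat_lit 240470851812) (nat_lit 54) (nat_lit 5) (nat_lit 56) (nat_lit 5) (nat_lit 55) (nat_lit 5) (nat_lit 468) (nat_lit 440) (nat_lit 292)) (XT.nd (nat_lit 78) (nat_lit 76) (nat_lit 0) (XT.lf (nat_lit 0) (nat_lit 150427386775)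 (nat_lit 228) (nat_lit 123383868349) (nat_lit 76) (nat_lit 48245172460) (nat_lit 52) (nat_lit 5) (nat_lit 55) (nat_lit 5) (nat_lit 53) (nat_lit 4) (nat_lit 469) (nat_lit 440) (nat_lit 291)) (XT.lf (nat_lit 0) (nat_lit 80280961106) (nat_lit 76) (nat_lit 168062371701) (nat_lit 152) (nat_lit 90016534665) (nat_lit 51) (nat_lit 5) (nat_lit 52) (nat_lit 5) (nat_lit 53) (nat_lit 4) (nat_lit 470) (nat_lit 440) (nat_lit 290)))) (XT.nd (nat_lit 156) (nat_lit 76) (nat_lit 0) (XT.nd (nat_lit 78) (nat_lit 152) (nat_lit 0) (XT.lf (nat_lit 0) (nat_lit 1679738807) (nat_lit 152) (nat_lit 48484640724) (nat_lit 76) (nat_lit 305529932956) (nat_lit 50) (nat_lit 5) (nat_lit 52) (nat_lit 5) (nat_lit 51) (nat_lit 5) (nat_lit 471) (nat_lit 440) (nat_lit 289)) (XT.lf (nat_lit 0) (nat_lit 102324315196) (nat_lit 228) (nat_lit 191122622904) (nat_lit 76) (nat_lit 80263461105) (nat_lit 48) (nat_lit 5) (nat_lit 51) (nat_lit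 5) (nat_lit 49) (nat_lit 4) (nat_lit 472) (nat_lit 440) (nat_lit 288))) (XT.nd (nat_lit 78) (nat_lit 0) (nat_lit 0) (XT.lf (nat_lit 0) (nat_lit 42636776367) (nat_lit 76) (nat_lit 172071984946) (nat_lit 152) (nat_lit 178163947264) (nat_lit 47) (nat_lit 5) (nat_lit 48) (nat_lit 5) (nat_lit 49) (nat_lit 4) (nat_lit 473) (nat_lit 440) (nat_lit 287)) (XT.lf (nat_lit 0) (nat_lit 305965933342) (nat_lit 76) (nat_lit 35343494899) (nat_lit 152) (nat_lit 71840537256) (nat_lit 47) (nat_lit 5) (nat_lit 48) (nat_lit 5) (nat_lit 49) (nat_lit 4) (nat_lit 474) (nat_lit 440) (nat_lit 286))))))) (XT.nd (nat_lit 1092) (nat_lit 1064) (nat_lit 0) (XT.nd (nat_lit 546) (nat_lit 456) (nat_lit 0) (XT.nd (nat_lit 234) (nat_lit 304) (nat_lit 0) (XT.nd (nat_lit 78) (nat_lit 76) (nat_lit 0) (XT.lf (nat_lit 0) (nat_lit 47573561650) (nat_lit 152) (nat_lit 275082075638) (nat_lit 76) (nat_lit 111772232276) (nat_lit 45) (nat_lit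 5) (nat_lit 47) (nat_lit 5) (nat_lit 46) (nat_lit 4) (nat_lit 475) (nat_lit 440) (nat_lit 285)) (XT.nd (nat_lit 78) (nat_lit 76) (nat_lit 0) (XT.lf (nat_lit 0) (nat_lit 176584111083) (nat_lit 152) (nat_lit 6740315584) (nat_lit 76) (nat_lit 273620334046) (nat_lit 45) (nat_lit 5) (nat_lit 47) (nat_lit 5) (nat_lit 46) (nat_lit 4) (nat_lit 476) (nat_lit 440) (nat_lit 284)) (XT.lf (nat_lit 0) (nat_lit 297974398954) (nat_lit 76) (nat_lit 25107252402) (nat_lit 152) (nat_lit 157608060052) (nat_lit 44) (nat_lit 5) (nat_lit 45) (nat_lit 5) (nat_lit 46) (nat_lit 4) (nat_lit 477) (nat_lit 440) (nat_lit 283)))) (XT.nd (nat_lit 156) (nat_lit 152) (nat_lit 0) (XT.nd (nat_lit 78) (nat_lit 76) (nat_lit 0) (XT.lf (nat_lit 0) (nat_lit 123812961735) (nat_lit 76) (nat_lit 364158380505) (nat_lit 76) (nat_lit 17829128133) (nat_lit 43) (nat_lit 4) (nat_lit 44) (nat_lit 5) (nat_lit 44) (nat_lit 4) (nat_lit 478)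 (nat_lit 440) (nat_lit 282)) (XT.lf (nat_lit 0) (nat_lit 132249824777) (nat_lit 152) (nat_lit 71249751175) (nat_lit 76) (nat_lit 328702166518) (nat_lit 42) (nat_lit 5) (nat_lit 44) (nat_lit 5) (nat_lit 43) (nat_lit 4) (nat_lit 479) (nat_lit 440) (nat_lit 281))) (XT.nd (nat_lit 78) (nat_lit 76) (nat_lit 0) (XT.lf (nat_lit 0) (nat_lit 277779325395) (nat_lit 76) (nat_lit 22272999842) (nat_lit 152) (nat_lit 260091306174) (nat_lit 41) (nat_lit 5) (nat_lit 42) (nat_lit 5) (nat_lit 43) (nat_lit 4) (nat_lit 480) (nat_lit 440) (nat_lit 280)) (XT.lf (nat_lit 0) (nat_lit 67786314074) (nat_lit 76) (nat_lit 421293054912) (nat_lit 76) (nat_lit 100617475027) (nat_lit 40) (nat_lit 4) (nat_lit 41) (nat_lit 5) (nat_lit 41) (nat_lit 4) (nat_lit 481) (nat_lit 440) (nat_lit 279))))) (XT.nd (nat_lit 234) (nat_lit 304) (nat_lit 0) (XT.nd (nat_lit 78) (nat_lit 76) (nat_lit 0) (XT.lf (nat_lit 0) (nat_lit 76531084734)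 (nat_lit 152) (nat_lit 161491022379) (nat_lit 76) (nat_lit 382774479925) (nat_lit 39) (nat_lit 5) (nat_lit 41) (nat_lit 5) (nat_lit 40) (nat_lit 4) (nat_lit 482) (nat_lit 440) (nat_lit 278)) (XT.nd (nat_lit 78) (nat_lit 0) (nat_lit 0) (XT.lf (nat_lit 0) (nat_lit 237004282367) (nat_lit 76) (nat_lit 31111127452) (nat_lit 152) (nat_lit 385603837407) (nat_lit 38) (nat_lit 5) (nat_lit 39) (nat_lit 5) (nat_lit 40) (nat_lit 4) (nat_lit 483) (nat_lit 440) (nat_lit 277)) (XT.lf (nat_lit 0) (nat_lit 484182586125) (nat_lit 152) (nat_lit 17100147261) (nat_lit 0) (nat_lit 187260498427) (nat_lit 38) (nat_lit 5) (nat_lit 40) (nat_lit 4) (nat_lit 38) (nat_lit 4) (nat_lit 484) (nat_lit 440) (nat_lit 276)))) (XT.nd (nat_lit 156) (nat_lit 76) (nat_lit 0) (XT.nd (nat_lit 78) (nat_lit 76) (nat_lit 0) (XT.lf (nat_lit 0) (nat_lit 3386884190) (nat_lit 152) (nat_lit 289877441162) (nat_lit 76) (nat_lit 431979488812)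 (nat_lit 36) (nat_lit 5) (nat_lit 38) (nat_lit 5) (nat_lit 37) (nat_lit 4) (nat_lit 485) (nat_lit 440) (nat_lit 275)) (XT.lf (nat_lit 0) (nat_lit 162992803492) (nat_lit 76) (nat_lit 58120192167) (nat_lit 152) (nat_lit 542990836977) (nat_lit 35) (nat_lit 5) (nat_lit 36) (nat_lit 5) (nat_lit 37) (nat_lit 4) (nat_lit 486) (nat_lit 440) (nat_lit 274))) (XT.nd (nat_lit 78) (nat_lit 76) (nat_lit 0) (XT.lf (nat_lit 0) (nat_lit 469098560142) (nat_lit 152) (nat_lit 141776269201) (nat_lit 0) (nat_lit 194170514118) (nat_lit 35) (nat_lit 5) (nat_lit 37) (nat_lit 4) (nat_lit 35) (nat_lit 4) (nat_lit 487) (nat_lit 440) (nat_lit 273)) (XT.lf (nat_lit 0) (nat_lit 371373035258) (nat_lit 76) (nat_lit 375990977899) (nat_lit 76) (nat_lit 101062878526) (nat_lit 34) (nat_lit 4) (nat_lit 35) (nat_lit 5) (nat_lit 35) (nat_lit 4) (nat_lit 488) (nat_lit 440) (nat_lit 272)))))) (XT.nd (nat_lit 546) (nat_lit 608) (nat_lit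 0) (XT.nd (nat_lit 234) (nat_lit 228) (nat_lit 0) (XT.nd (nat_lit 78) (nat_lit 76) (nat_lit 0) (XT.lf (nat_lit 0) (nat_lit 36734792119) (nat_lit 76) (nat_lit 113103160230) (nat_lit 152) (nat_lit 744758548460) (nat_lit 32) (nat_lit 5) (nat_lit 33) (nat_lit 5) (nat_lit 34) (nat_lit 4) (nat_lit 489) (nat_lit 440) (nat_lit 271)) (XT.nd (nat_lit 78) (nat_lit 76) (nat_lit 0) (XT.lf (nat_lit 0) (nat_lit 432841138683) (nat_lit 152) (nat_lit 331731318821) (nat_lit 0) (nat_lit 178277995621) (nat_lit 32) (nat_lit 5) (nat_lit 34) (nat_lit 4) (nat_lit 32) (nat_lit 4) (nat_lit 490) (nat_lit 440) (nat_lit 270)) (XT.lf (nat_lit 0) (nat_lit 245849979890) (nat_lit 76) (nat_lit 501484948083) (nat_lit 76) (nat_lit 246921765809) (nat_lit 31) (nat_lit 4) (nat_lit 32) (nat_lit 5) (nat_lit 32) (nat_lit 4) (nat_lit 491) (nat_lit 440) (nat_lit 269)))) (XT.nd (nat_lit 156) (nat_lit 76) (nat_lit 0) (XT.nd (nat_lit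 78) (nat_lit 76) (nat_lit 0) (XT.lf (nat_lit 0) (nat_lit 44656867989) (nat_lit 152) (nat_lit 161676933163) (nat_lit 76) (nat_lit 842625585823) (nat_lit 30) (nat_lit 5) (nat_lit 32) (nat_lit 5) (nat_lit 31) (nat_lit 4) (nat_lit 492) (nat_lit 440) (nat_lit 268)) (XT.lf (nat_lit 0) (nat_lit 361184952868) (nat_lit 152) (nat_lit 619664952757) (nat_lit 0) (nat_lit 125478237868) (nat_lit 29) (nat_lit 5) (nat_lit 31) (nat_lit 4) (nat_lit 29) (nat_lit 4) (nat_lit 493) (nat_lit 440) (nat_lit 267))) (XT.nd (nat_lit 78) (nat_lit 0) (nat_lit 0) (XT.lf (nat_lit 0) (nat_lit 23851301312) (nat_lit 76) (nat_lit 689652193125) (nat_lit 76) (nat_lit 453945449302) (nat_lit 28) (nat_lit 4) (nat_lit 29) (nat_lit 5) (nat_lit 29) (nat_lit 4) (nat_lit 494) (nat_lit 440) (nat_lit 266)) (XT.lf (nat_lit 0) (nat_lit 754089579118) (nat_lit 76) (nat_lit 356860593565) (nat_lit 76) (nat_lit 121153823055) (nat_lit 28) (nat_lit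 4) (nat_lit 29) (nat_lit 5) (nat_lit 29) (nat_lit 4) (nat_lit 495) (nat_lit 440) (nat_lit 265))))) (XT.nd (nat_lit 312) (nat_lit 304) (nat_lit 0) (XT.nd (nat_lit 156) (nat_lit 152) (nat_lit 0) (XT.nd (nat_lit 78) (nat_lit 0) (nat_lit 0) (XT.lf (nat_lit 0) (nat_lit 232658638844) (nat_lit 152) (nat_lit 1053897488551) (nat_lit 0) (nat_lit 14411606232) (nat_lit 26) (nat_lit 5) (nat_lit 28) (nat_lit 4) (nat_lit 26) (nat_lit 4) (nat_lit 496) (nat_lit 440) (nat_lit 264)) (XT.lf (nat_lit 0) (nat_lit 630908906132) (nat_lit 152) (nat_lit 329703802939) (nat_lit 0) (nat_lit 412661852335) (nat_lit 26) (nat_lit 5) (nat_lit 28) (nat_lit 4) (nat_lit 26) (nat_lit 4) (nat_lit 497) (nat_lit 440) (nat_lit 263))) (XT.nd (nat_lit 78) (nat_lit 76) (nat_lit 0) (XT.lf (nat_lit 0) (nat_lit 476249137028) (nat_lit 76) (nat_lit 596223786737) (nat_lit 76) (nat_lit 377976713324) (nat_lit 25) (nat_lit 4) (nat_lit 26) (nat_lit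 5) (nat_lit 26) (nat_lit 4) (nat_lit 498) (nat_lit 440) (nat_lit 262)) (XT.lf (nat_lit 0) (nat_lit 24033562276) (nat_lit 152) (nat_lit 168257282040) (nat_lit 76) (nat_lit 1340738029825) (nat_lit 24) (nat_lit 5) (nat_lit 26) (nat_lit 5) (nat_lit 25) (nat_lit 4) (nat_lit 499) (nat_lit 440) (nat_lit 261)))) (XT.nd (nat_lit 156) (nat_lit 228) (nat_lit 0) (XT.nd (nat_lit 78) (nat_lit 0) (nat_lit 0) (XT.lf (nat_lit 0) (nat_lit 461889149388) (nat_lit 152) (nat_lit 897802997179) (nat_lit 0) (nat_lit 259808493468) (nat_lit 23) (nat_lit 5) (nat_lit 25) (nat_lit 4) (nat_lit 23) (nat_lit 4) (nat_lit 500) (nat_lit 440) (nat_lit 260)) (XT.lf (nat_lit 0) (nat_lit 944487626853) (nat_lit 152) (nat_lit 25218408362) (nat_lit 0) (nat_lit 742406956515) (nat_lit 23) (nat_lit 5) (nat_lit 25) (nat_lit 4) (nat_lit 23) (nat_lit 4) (nat_lit 501) (nat_lit 440) (nat_lit 259))) (XT.nd (nat_lit 78) (nat_lit 152) (nat_lit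 0) (XT.lf (nat_lit 0) (nat_lit 965469513000) (nat_lit 76) (nat_lit 523443971063) (nat_lit 76) (nat_lit 321363287374) (nat_lit 22) (nat_lit 4) (nat_lit 23) (nat_lit 5) (nat_lit 23) (nat_lit 4) (nat_lit 502) (nat_lit 440) (nat_lit 258)) (XT.lf (nat_lit 0) (nat_lit 122874375633) (nat_lit 76) (nat_lit 33354024214) (nat_lit 152) (nat_lit 1759463259934) (nat_lit 20) (nat_lit 5) (nat_lit 21) (nat_lit 5) (nat_lit 22) (nat_lit 4) (nat_lit 503) (nat_lit 440) (nat_lit 257))))))))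
noncomputable def xc180 : XT := (XT.nd (nat_lit 2184) (nat_lit 76) (nat_lit 0) (XT.nd (nat_lit 1092) (nat_lit 456) (nat_lit 0) (XT.nd (nat_lit 546) (nat_lit 380) (nat_lit 0) (XT.nd (nat_lit 234) (nat_lit 228) (nat_lit 0) (XT.nd (nat_lit 78) (nat_lit 76) (nat_lit 0) (XT.lf (nat_lit 0) (nat_lit 690291327373) (nat_lit 152) (nat_lit 832551013181) (nat_lit 0) (nat_lit 503179561173) (nat_lit 20) (nat_lit 5) (nat_lit 22) (nat_lit 4) (nat_lit 20) (nat_lit 4) (nat_lit 504) (nat_lit 440) (nat_lit 256)) (XT.nd (nat_lit 78) (nat_lit 0) (nat_lit 0) (XT.lf (nat_lit 0) (nat_lit 214395007450) (nat_lit 76) (nat_lit 1058706766405) (nat_lit 76) (nat_lit 871594990392) (nat_lit 19) (nat_lit 4) (nat_lit 20) (nat_lit 5) (nat_lit 20) (nat_lit 4) (nat_lit 505) (nat_lit 440) (nat_lit 255)) (XT.lf (nat_lit 0) (nat_lit 1392444506301) (nat_lit 76) (nat_lit 532855912764) (nat_lit 76) (nat_lit 345744127665) (nat_lit 19)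 (nat_lit 4) (nat_lit 20) (nat_lit 5) (nat_lit 20) (nat_lit 4) (nat_lit 506) (nat_lit 440) (nat_lit 254)))) (XT.nd (nat_lit 156) (nat_lit 76) (nat_lit 0) (XT.nd (nat_lit 78) (nat_lit 0) (nat_lit 0) (XT.lf (nat_lit 0) (nat_lit 218585429910) (nat_lit 152) (nat_lit 2142551511151) (nat_lit 0) (nat_lit 45333769251) (nat_lit 17) (nat_lit 5) (nat_lit 19) (nat_lit 4) (nat_lit 17) (nat_lit 4) (nat_lit 507) (nat_lit 440) (nat_lit 253)) (XT.lf (nat_lit 0) (nat_lit 847868990665) (nat_lit 152) (nat_lit 1026447280021) (nat_lit 0) (nat_lit 674617322793) (nat_lit 17) (nat_lit 5) (nat_lit 19) (nat_lit 4) (nat_lit 17) (nat_lit 4) (nat_lit 508) (nat_lit 440) (nat_lit 252))) (XT.nd (nat_lit 78) (nat_lit 0) (nat_lit 0) (XT.lf (nat_lit 0) (nat_lit 188368122763) (nat_lit 76) (nat_lit 1343657321235) (nat_lit 76) (nat_lit 1170405646685) (nat_lit 16) (nat_lit 4) (nat_lit 17) (nat_lit 5) (nat_lit 17) (nat_lit 4) (nat_lit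 509) (nat_lit 440) (nat_lit 251)) (XT.lf (nat_lit 0) (nat_lit 1558743623477) (nat_lit 76) (nat_lit 740235628908) (nat_lit 76) (nat_lit 566983948174) (nat_lit 16) (nat_lit 4) (nat_lit 17) (nat_lit 5) (nat_lit 17) (nat_lit 4) (nat_lit 510) (nat_lit 440) (nat_lit 250))))) (XT.nd (nat_lit 234) (nat_lit 228) (nat_lit 0) (XT.nd (nat_lit 78) (nat_lit 76) (nat_lit 0) (XT.lf (nat_lit 0) (nat_lit 80473828168) (nat_lit 152) (nat_lit 5866123869) (nat_lit 76) (nat_lit 2956074945840) (nat_lit 15) (nat_lit 5) (nat_lit 17) (nat_lit 5) (nat_lit 16) (nat_lit 4) (nat_lit 511) (nat_lit 440) (nat_lit 249)) (XT.nd (nat_lit 78) (nat_lit 0) (nat_lit 0) (XT.lf (nat_lit 0) (nat_lit 800357278166) (nat_lit 152) (nat_lit 1787407386368) (nat_lit 0) (nat_lit 639939045054) (nat_lit 14) (nat_lit 5) (nat_lit 16) (nat_lit 4) (nat_lit 14) (nat_lit 4) (nat_lit 512) (nat_lit 440) (nat_lit 248)) (XT.lf (nat_lit 0) (nat_lit 1580238513579)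 (nat_lit 152) (nat_lit 427564267984) (nat_lit 0) (nat_lit 1419820275922) (nat_lit 14) (nat_lit 5) (nat_lit 16) (nat_lit 4) (nat_lit 14) (nat_lit 4) (nat_lit 513) (nat_lit 440) (nat_lit 247)))) (XT.nd (nat_lit 156) (nat_lit 152) (nat_lit 0) (XT.nd (nat_lit 78) (nat_lit 0) (nat_lit 0) (XT.lf (nat_lit 0) (nat_lit 1095886919968) (nat_lit 76) (nat_lit 1352979394874) (nat_lit 76) (nat_lit 1192561153008) (nat_lit 13) (nat_lit 4) (nat_lit 14) (nat_lit 5) (nat_lit 14) (nat_lit 4) (nat_lit 514) (nat_lit 440) (nat_lit 246)) (XT.lf (nat_lit 0) (nat_lit 2765530081799) (nat_lit 76) (nat_lit 633144584462) (nat_lit 76) (nat_lit 472726338699) (nat_lit 13) (nat_lit 4) (nat_lit 14) (nat_lit 5) (nat_lit 14) (nat_lit 4) (nat_lit 515) (nat_lit 440) (nat_lit 245))) (XT.nd (nat_lit 78) (nat_lit 0) (nat_lit 0) (XT.lf (nat_lit 0) (nat_lit 304584613092) (nat_lit 152) (nat_lit 3657341865209) (nat_lit 0) (nat_lit 156049197008)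 (nat_lit 11) (nat_lit 5) (nat_lit 13) (nat_lit 4) (nat_lit 11) (nat_lit 4) (nat_lit 516) (nat_lit 440) (nat_lit 244)) (XT.lf (nat_lit 0) (nat_lit 1166008050928) (nat_lit 152) (nat_lit 2196015979246) (nat_lit 0) (nat_lit 1017472631750) (nat_lit 11) (nat_lit 5) (nat_lit 13) (nat_lit 4) (nat_lit 11) (nat_lit 4) (nat_lit 517) (nat_lit 440) (nat_lit 243)))))) (XT.nd (nat_lit 546) (nat_lit 228) (nat_lit 0) (XT.nd (nat_lit 234) (nat_lit 152) (nat_lit 0) (XT.nd (nat_lit 78) (nat_lit 76) (nat_lit 0) (XT.lf (nat_lit 0) (nat_lit 2096345329740) (nat_lit 152) (nat_lit 617784092756) (nat_lit 0) (nat_lit 1947809907698) (nat_lit 11) (nat_lit 5) (nat_lit 13) (nat_lit 4) (nat_lit 11) (nat_lit 4) (nat_lit 518) (nat_lit 440) (nat_lit 242)) (XT.nd (nat_lit 78) (nat_lit 0) (nat_lit 0) (XT.lf (nat_lit 0) (nat_lit 1143930306386) (nat_lit 76) (nat_lit 1984690804322) (nat_lit 76) (nat_lit 1836155379628) (nat_lit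 10) (nat_lit 4) (nat_lit 11) (nat_lit 5) (nat_lit 11) (nat_lit 4) (nat_lit 519) (nat_lit 440) (nat_lit 241)) (XT.lf (nat_lit 0) (nat_lit 3081715722730) (nat_lit 76) (nat_lit 1178654512608) (nat_lit 76) (nat_lit 1030119085458) (nat_lit 10) (nat_lit 4) (nat_lit 11) (nat_lit 5) (nat_lit 11) (nat_lit 4) (nat_lit 520) (nat_lit 440) (nat_lit 240)))) (XT.nd (nat_lit 156) (nat_lit 0) (nat_lit 0) (XT.nd (nat_lit 78) (nat_lit 152) (nat_lit 0) (XT.lf (nat_lit 0) (nat_lit 5174523913595) (nat_lit 76) (nat_lit 308135347898) (nat_lit 76) (nat_lit 159599918474) (nat_lit 10) (nat_lit 4) (nat_lit 11) (nat_lit 5) (nat_lit 11) (nat_lit 4) (nat_lit 521) (nat_lit 440) (nat_lit 239)) (XT.lf (nat_lit 0) (nat_lit 793404714849) (nat_lit 152) (nat_lit 4567240945132) (nat_lit 0) (nat_lit 655871907878) (nat_lit 8) (nat_lit 5) (nat_lit 10) (nat_lit 4) (nat_lit 8) (nat_lit 4) (nat_lit 522) (nat_lit 440) (nat_lit 238)))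 (XT.nd (nat_lit 78) (nat_lit 0) (nat_lit 0) (XT.lf (nat_lit 0) (nat_lit 1835151551709) (nat_lit 152) (nat_lit 2885924746035) (nat_lit 0) (nat_lit 1697618742933) (nat_lit 8) (nat_lit 5) (nat_lit 10) (nat_lit 4) (nat_lit 8) (nat_lit 4) (nat_lit 523) (nat_lit 440) (nat_lit 237)) (XT.lf (nat_lit 0) (nat_lit 2960238110512) (nat_lit 152) (nat_lit 1070103302742) (nat_lit 0) (nat_lit 2822705300064) (nat_lit 8) (nat_lit 5) (nat_lit 10) (nat_lit 4) (nat_lit 8) (nat_lit 4) (nat_lit 524) (nat_lit 440) (nat_lit 236))))) (XT.nd (nat_lit 234) (nat_lit 152) (nat_lit 0) (XT.nd (nat_lit 78) (nat_lit 0) (nat_lit 0) (XT.lf (nat_lit 0) (nat_lit 937901436489) (nat_lit 76) (nat_lit 3259986686481) (nat_lit 76) (nat_lit 3122453874486) (nat_lit 7) (nat_lit 4) (nat_lit 8) (nat_lit 5) (nat_lit 8) (nat_lit 4) (nat_lit 525) (nat_lit 440) (nat_lit 235)) (XT.nd (nat_lit 78) (nat_lit 0) (nat_lit 0) (XT.lf (nat_lit 0) (nat_lit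 3167404231193) (nat_lit 76) (nat_lit 2396404403355) (nat_lit 76) (nat_lit 2258871589927) (nat_lit 7) (nat_lit 4) (nat_lit 8) (nat_lit 5) (nat_lit 8) (nat_lit 4) (nat_lit 526) (nat_lit 440) (nat_lit 234)) (XT.lf (nat_lit 0) (nat_lit 5575267206244) (nat_lit 76) (nat_lit 1463735559919) (nat_lit 76) (nat_lit 1326202745164) (nat_lit 7) (nat_lit 4) (nat_lit 8) (nat_lit 5) (nat_lit 8) (nat_lit 4) (nat_lit 527) (nat_lit 440) (nat_lit 233)))) (XT.nd (nat_lit 156) (nat_lit 0) (nat_lit 0) (XT.nd (nat_lit 78) (nat_lit 152) (nat_lit 0) (XT.lf (nat_lit 0) (nat_lit 8175759179272) (nat_lit 76) (nat_lit 456453229693) (nat_lit 76) (nat_lit 318920413710) (nat_lit 7) (nat_lit 4) (nat_lit 8) (nat_lit 5) (nat_lit 8) (nat_lit 4) (nat_lit 528) (nat_lit 440) (nat_lit 232)) (XT.lf (nat_lit 0) (nat_lit 782037120418) (nat_lit 152) (nat_lit 8141601161664) (nat_lit 0) (nat_lit 654691919381) (nat_lit 5) (nat_lit 5) (nat_lit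 7) (nat_lit 4) (nat_lit 5) (nat_lit 4) (nat_lit 529) (nat_lit 440) (nat_lit 231))) (XT.nd (nat_lit 78) (nat_lit 0) (nat_lit 0) (XT.lf (nat_lit 0) (nat_lit 1987447922134) (nat_lit 152) (nat_lit 6404801504463) (nat_lit 0) (nat_lit 1860102720122) (nat_lit 5) (nat_lit 5) (nat_lit 7) (nat_lit 4) (nat_lit 5) (nat_lit 4) (nat_lit 530) (nat_lit 440) (nat_lit 230)) (XT.lf (nat_lit 0) (nat_lit 3289291570982) (nat_lit 152) (nat_lit 4529057909907) (nat_lit 0) (nat_lit 3161946368067) (nat_lit 5) (nat_lit 5) (nat_lit 7) (nat_lit 4) (nat_lit 5) (nat_lit 4) (nat_lit 531) (nat_lit 440) (nat_lit 229))))))) (XT.nd (nat_lit 55848) (nat_lit 0) (nat_lit 4408) (XT.nd (nat_lit 546) (nat_lit 0) (nat_lit 0) (XT.nd (nat_lit 234) (nat_lit 0) (nat_lit 0) (XT.nd (nat_lit 78) (nat_lit 76) (nat_lit 0) (XT.lf (nat_lit 0) (nat_lit 4695282695992) (nat_lit 152) (nat_lit 2503254860398) (nat_lit 0) (nat_lit 4567937492241) (nat_lit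 5) (nat_lit 5) (nat_lit 7) (nat_lit 4) (nat_lit 5) (nat_lit 4) (nat_lit 532) (nat_lit 440) (nat_lit 228)) (XT.nd (nat_lit 78) (nat_lit 76) (nat_lit 0) (XT.lf (nat_lit 0) (nat_lit 6213753096424) (nat_lit 152) (nat_lit 315387597125) (nat_lit 0) (nat_lit 6086407891898) (nat_lit 5) (nat_lit 5) (nat_lit 7) (nat_lit 4) (nat_lit 5) (nat_lit 4) (nat_lit 533) (nat_lit 440) (nat_lit 227)) (XT.lf (nat_lit 0) (nat_lit 2155327215707) (nat_lit 76) (nat_lit 5750209571057) (nat_lit 76) (nat_lit 5622864365814) (nat_lit 4) (nat_lit 4) (nat_lit 5) (nat_lit 5) (nat_lit 5) (nat_lit 4) (nat_lit 534) (nat_lit 440) (nat_lit 226)))) (XT.nd (nat_lit 156) (nat_lit 0) (nat_lit 0) (XT.nd (nat_lit 78) (nat_lit 0) (nat_lit 0) (XT.lf (nat_lit 0) (nat_lit 4841635558420) (nat_lit 76) (nat_lit 4899650856576) (nat_lit 76) (nat_lit 4772305650670) (nat_lit 4) (nat_lit 4) (nat_lit 5) (nat_lit 5) (nat_lit 5) (nat_lit 4) (nat_lit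 535) (nat_lit 440) (nat_lit 225)) (XT.lf (nat_lit 0) (nat_lit 7742848543318) (nat_lit 76) (nat_lit 3981047457990) (nat_lit 76) (nat_lit 3853702251469) (nat_lit 4) (nat_lit 4) (nat_lit 5) (nat_lit 5) (nat_lit 5) (nat_lit 4) (nat_lit 536) (nat_lit 440) (nat_lit 224))) (XT.nd (nat_lit 78) (nat_lit 0) (nat_lit 0) (XT.lf (nat_lit 0) (nat_lit 10876158543644) (nat_lit 76) (nat_lit 2988955799602) (nat_lit 76) (nat_lit 2861610592512) (nat_lit 4) (nat_lit 4) (nat_lit 5) (nat_lit 5) (nat_lit 5) (nat_lit 4) (nat_lit 537) (nat_lit 440) (nat_lit 223)) (XT.lf (nat_lit 0) (nat_lit 14260133322363) (nat_lit 76) (nat_lit 1917496819733) (nat_lit 76) (nat_lit 1790151612116) (nat_lit 4) (nat_lit 4) (nat_lit 5) (nat_lit 5) (nat_lit 5) (nat_lit 4) (nat_lit 538) (nat_lit 440) (nat_lit 222))))) (XT.nd (nat_lit 54990) (nat_lit 0) (nat_lit 6232) (XT.nd (nat_lit 54834) (nat_lit 0) (nat_lit 6764) (XT.lf (nat_lit 0) (nat_lit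 17914826063349) (nat_lit 76) (nat_lit 760321131836) (nat_lit 76) (nat_lit 632975923732) (nat_lit 4) (nat_lit 4) (nat_lit 5) (nat_lit 5) (nat_lit 5) (nat_lit 4) (nat_lit 539) (nat_lit 440) (nat_lit 221)) (XT.nd (nat_lit 78) (nat_lit 0) (nat_lit 0) (XT.lf (nat_lit 0) (nat_lit 46968872955) (nat_lit 532) (nat_lit 329632986) (nat_lit 532) (nat_lit 329632986) (nat_lit 93) (nat_lit 3) (nat_lit 100) (nat_lit 3) (nat_lit 100) (nat_lit 5) (nat_lit 441) (nat_lit 441) (nat_lit 318)) (XT.lf (nat_lit 76) (nat_lit 49241726984) (nat_lit 0) (nat_lit 49644604269) (nat_lit 532) (nat_lit 84910768) (nat_lit 94) (nat_lit 5) (nat_lit 93) (nat_lit 3) (nat_lit 100) (nat_lit 5) (nat_lit 442) (nat_lit 441) (nat_lit 317)))) (XT.nd (nat_lit 156) (nat_lit 0) (nat_lit 76) (XT.nd (nat_lit 78) (nat_lit 0) (nat_lit 76) (XT.lf (nat_lit 76) (nat_lit 167833881) (nat_lit 0) (nat_lit 1038987569) (nat_lit 608) (nat_lit 101772436245)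 (nat_lit 87) (nat_lit 5) (nat_lit 86) (nat_lit 5) (nat_lit 94) (nat_lit 5) (nat_lit 443) (nat_lit 441) (nat_lit 316)) (XT.lf (nat_lit 0) (nat_lit 5229150366) (nat_lit 532) (nat_lit 51589498406) (nat_lit 608) (nat_lit 50278541852) (nat_lit 87) (nat_lit 5) (nat_lit 94) (nat_lit 5) (nat_lit 95) (nat_lit 5) (nat_lit 444) (nat_lit 441) (nat_lit 315))) (XT.nd (nat_lit 78) (nat_lit 0) (nat_lit 76) (XT.lf (nat_lit 76) (nat_lit 3897736510) (nat_lit 0) (nat_lit 5795645188) (nat_lit 608) (nat_lit 101841567272) (nat_lit 88) (nat_lit 5) (nat_lit 87) (nat_lit 5) (nat_lit 95) (nat_lit 5) (nat_lit 445) (nat_lit 441) (nat_lit 314)) (XT.lf (nat_lit 0) (nat_lit 17147252218) (nat_lit 532) (nat_lit 50679995497) (nat_lit 608) (nat_lit 48289880279) (nat_lit 88) (nat_lit 5) (nat_lit 95) (nat_lit 5) (nat_lit 96) (nat_lit 5) (nat_lit 446) (nat_lit 441) (nat_lit 313)))))) (XT.nd (nat_lit 546) (nat_lit 1064) (nat_lit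 0) (XT.nd (nat_lit 234) (nat_lit 456) (nat_lit 0) (XT.nd (nat_lit 78) (nat_lit 456) (nat_lit 0) (XT.lf (nat_lit 76) (nat_lit 11245359284) (nat_lit 0) (nat_lit 14372530254) (nat_lit 608) (nat_lit 95414355293) (nat_lit 89) (nat_lit 5) (nat_lit 88) (nat_lit 5) (nat_lit 96) (nat_lit 5) (nat_lit 447) (nat_lit 441) (nat_lit 312)) (XT.nd (nat_lit 78) (nat_lit 532) (nat_lit 0) (XT.lf (nat_lit 0) (nat_lit 37230125352) (nat_lit 532) (nat_lit 46301996475) (nat_lit 76) (nat_lit 42611333445) (nat_lit 89) (nat_lit 5) (nat_lit 96) (nat_lit 5) (nat_lit 90) (nat_lit 5) (nat_lit 448) (nat_lit 441) (nat_lit 311)) (XT.lf (nat_lit 0) (nat_lit 23040513651) (nat_lit 532) (nat_lit 27657801152) (nat_lit 608) (nat_lit 80891089817) (nat_lit 82) (nat_lit 5) (nat_lit 89) (nat_lit 5) (nat_lit 90) (nat_lit 5) (nat_lit 449) (nat_lit 441) (nat_lit 310)))) (XT.nd (nat_lit 156) (nat_lit 228) (nat_lit 0) (XT.nd (nat_lit 78)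 (nat_lit 228) (nat_lit 0) (XT.lf (nat_lit 0) (nat_lit 67328492586) (nat_lit 608) (nat_lit 37625546067) (nat_lit 76) (nat_lit 32350228657) (nat_lit 82) (nat_lit 5) (nat_lit 90) (nat_lit 5) (nat_lit 83) (nat_lit 5) (nat_lit 450) (nat_lit 441) (nat_lit 309)) (XT.lf (nat_lit 0) (nat_lit 40267181947) (nat_lit 228) (nat_lit 46708307951) (nat_lit 304) (nat_lit 56365916737) (nat_lit 79) (nat_lit 5) (nat_lit 82) (nat_lit 5) (nat_lit 83) (nat_lit 5) (nat_lit 451) (nat_lit 441) (nat_lit 308))) (XT.nd (nat_lit 78) (nat_lit 228) (nat_lit 0) (XT.lf (nat_lit 0) (nat_lit 109638870516) (nat_lit 304) (nat_lit 23664798676) (nat_lit 76) (nat_lit 16442278077) (nat_lit 79) (nat_lit 5) (nat_lit 83) (nat_lit 5) (nat_lit 80) (nat_lit 5) (nat_lit 452) (nat_lit 441) (nat_lit 307)) (XT.lf (nat_lit 0) (nat_lit 64089795981) (nat_lit 228) (nat_lit 72779731634) (nat_lit 304) (nat_lit 19572987093) (nat_lit 76) (nat_lit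 5) (nat_lit 79) (nat_lit 5) (nat_lit 80) (nat_lit 5) (nat_lit 453) (nat_lit 441) (nat_lit 306))))) (XT.nd (nat_lit 312) (nat_lit 532) (nat_lit 0) (XT.nd (nat_lit 156) (nat_lit 228) (nat_lit 0) (XT.nd (nat_lit 78) (nat_lit 228) (nat_lit 0) (XT.lf (nat_lit 0) (nat_lit 3137069347) (nat_lit 304) (nat_lit 3492298375) (nat_lit 76) (nat_lit 156987350583) (nat_lit 75) (nat_lit 5) (nat_lit 79) (nat_lit 5) (nat_lit 76) (nat_lit 5) (nat_lit 454) (nat_lit 441) (nat_lit 305)) (XT.lf (nat_lit 0) (nat_lit 30566898470) (nat_lit 304) (nat_lit 75959325070) (nat_lit 76) (nat_lit 64481130110) (nat_lit 72) (nat_lit 5) (nat_lit 76) (nat_lit 5) (nat_lit 73) (nat_lit 5) (nat_lit 455) (nat_lit 441) (nat_lit 304))) (XT.nd (nat_lit 78) (nat_lit 0) (nat_lit 0) (XT.lf (nat_lit 0) (nat_lit 23699037445) (nat_lit 228) (nat_lit 37331885110) (nat_lit 304) (nat_lit 117891132607) (nat_lit 69) (nat_lit 5) (nat_lit 72) (nat_lit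 5) (nat_lit 73) (nat_lit 5) (nat_lit 456) (nat_lit 441) (nat_lit 303)) (XT.lf (nat_lit 0) (nat_lit 96961998745) (nat_lit 304) (nat_lit 52607622976) (nat_lit 76) (nat_lit 37657916685) (nat_lit 69) (nat_lit 5) (nat_lit 73) (nat_lit 5) (nat_lit 70) (nat_lit 5) (nat_lit 457) (nat_lit 441) (nat_lit 302)))) (XT.nd (nat_lit 156) (nat_lit 380) (nat_lit 0) (XT.nd (nat_lit 78) (nat_lit 0) (nat_lit 0) (XT.lf (nat_lit 0) (nat_lit 60261483198) (nat_lit 152) (nat_lit 77924749829) (nat_lit 228) (nat_lit 57817733547) (nat_lit 67) (nat_lit 5) (nat_lit 69) (nat_lit 5) (nat_lit 70) (nat_lit 5) (nat_lit 458) (nat_lit 441) (nat_lit 301)) (XT.lf (nat_lit 0) (nat_lit 184170697477) (nat_lit 228) (nat_lit 20240045666) (nat_lit 76) (nat_lit 954782563) (nat_lit 67) (nat_lit 5) (nat_lit 70) (nat_lit 5) (nat_lit 68) (nat_lit 5) (nat_lit 459) (nat_lit 441) (nat_lit 300))) (XT.nd (nat_lit 78) (nat_lit 152) (nat_lit 0)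 (XT.lf (nat_lit 0) (nat_lit 22177680334) (nat_lit 228) (nat_lit 107793493290) (nat_lit 76) (nat_lit 85090466685) (nat_lit 64) (nat_lit 5) (nat_lit 67) (nat_lit 5) (nat_lit 65) (nat_lit 5) (nat_lit 460) (nat_lit 441) (nat_lit 299)) (XT.lf (nat_lit 0) (nat_lit 21130677552) (nat_lit 152) (nat_lit 47819961820) (nat_lit 228) (nat_lit 156452705843) (nat_lit 62) (nat_lit 5) (nat_lit 64) (nat_lit 5) (nat_lit 65) (nat_lit 5) (nat_lit 461) (nat_lit 441) (nat_lit 298))))))))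
noncomputable def xc181 : XT := (XT.nd (nat_lit 2184) (nat_lit 1748) (nat_lit 0) (XT.nd (nat_lit 1092) (nat_lit 988) (nat_lit 0) (XT.nd (nat_lit 546) (nat_lit 608) (nat_lit 0) (XT.nd (nat_lit 234) (nat_lit 380) (nat_lit 0) (XT.nd (nat_lit 78) (nat_lit 152) (nat_lit 0) (XT.lf (nat_lit 0) (nat_lit 123472740669) (nat_lit 228) (nat_lit 70898164941) (nat_lit 76) (nat_lit 41880896477) (nat_lit 62) (nat_lit 5) (nat_lit 65) (nat_lit 5) (nat_lit 63) (nat_lit 5) (nat_lit 462) (nat_lit 441) (nat_lit 297)) (XT.nd (nat_lit 78) (nat_lit 0) (nat_lit 0) (XT.lf (nat_lit 0) (nat_lit 75690205041) (nat_lit 152) (nat_lit 109728612453) (nat_lit 228) (nat_lit 62304341435) (nat_lit 60) (nat_lit 5) (nat_lit 62) (nat_lit 5) (nat_lit 63) (nat_lit 5) (nat_lit 463) (nat_lit 441) (nat_lit 296)) (XT.lf (nat_lit 0) (nat_lit 238037348232) (nat_lit 152) (nat_lit 16221501178) (nat_lit 228) (nat_lit 5698313410) (nat_lit 60)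 (nat_lit 5) (nat_lit 62) (nat_lit 5) (nat_lit 63) (nat_lit 5) (nat_lit 464) (nat_lit 441) (nat_lit 295)))) (XT.nd (nat_lit 156) (nat_lit 76) (nat_lit 0) (XT.nd (nat_lit 78) (nat_lit 152) (nat_lit 0) (XT.lf (nat_lit 0) (nat_lit 58343089332) (nat_lit 152) (nat_lit 128765165950) (nat_lit 76) (nat_lit 85500569557) (nat_lit 58) (nat_lit 5) (nat_lit 60) (nat_lit 5) (nat_lit 59) (nat_lit 5) (nat_lit 465) (nat_lit 441) (nat_lit 294)) (XT.lf (nat_lit 0) (nat_lit 39269304787) (nat_lit 152) (nat_lit 89911104052) (nat_lit 228) (nat_lit 156921933422) (nat_lit 56) (nat_lit 5) (nat_lit 58) (nat_lit 5) (nat_lit 59) (nat_lit 5) (nat_lit 466) (nat_lit 441) (nat_lit 293))) (XT.nd (nat_lit 78) (nat_lit 76) (nat_lit 0) (XT.lf (nat_lit 0) (nat_lit 209658871160) (nat_lit 228) (nat_lit 72778180213) (nat_lit 76) (nat_lit 17920357134) (nat_lit 56) (nat_lit 5) (nat_lit 59) (nat_lit 5) (nat_lit 57) (nat_lit 4) (nat_lit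 467) (nat_lit 441) (nat_lit 292)) (XT.lf (nat_lit 0) (nat_lit 118808697275) (nat_lit 76) (nat_lit 182959439304) (nat_lit 152) (nat_lit 13569341396) (nat_lit 55) (nat_lit 5) (nat_lit 56) (nat_lit 5) (nat_lit 57) (nat_lit 4) (nat_lit 468) (nat_lit 441) (nat_lit 291))))) (XT.nd (nat_lit 234) (nat_lit 304) (nat_lit 0) (XT.nd (nat_lit 78) (nat_lit 228) (nat_lit 0) (XT.lf (nat_lit 0) (nat_lit 68283395740) (nat_lit 152) (nat_lit 3224284555) (nat_lit 76) (nat_lit 259710800330) (nat_lit 54) (nat_lit 5) (nat_lit 56) (nat_lit 5) (nat_lit 55) (nat_lit 5) (nat_lit 469) (nat_lit 441) (nat_lit 290)) (XT.nd (nat_lit 78) (nat_lit 76) (nat_lit 0) (XT.lf (nat_lit 0) (nat_lit 162464989567) (nat_lit 228) (nat_lit 133248498044) (nat_lit 76) (nat_lit 52107181080) (nat_lit 52) (nat_lit 5) (nat_lit 55) (nat_lit 5) (nat_lit 53) (nat_lit 4) (nat_lit 470) (nat_lit 441) (nat_lit 289)) (XT.lf (nat_lit 0) (nat_lit 86709363849)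 (nat_lit 76) (nat_lit 181504737219) (nat_lit 152) (nat_lit 97214291530) (nat_lit 51) (nat_lit 5) (nat_lit 52) (nat_lit 5) (nat_lit 53) (nat_lit 4) (nat_lit 471) (nat_lit 441) (nat_lit 288)))) (XT.nd (nat_lit 156) (nat_lit 76) (nat_lit 0) (XT.nd (nat_lit 78) (nat_lit 152) (nat_lit 0) (XT.lf (nat_lit 0) (nat_lit 1817254511) (nat_lit 152) (nat_lit 52357759791) (nat_lit 76) (nat_lit 329974592135) (nat_lit 50) (nat_lit 5) (nat_lit 52) (nat_lit 5) (nat_lit 51) (nat_lit 5) (nat_lit 472) (nat_lit 441) (nat_lit 287)) (XT.lf (nat_lit 0) (nat_lit 110513356624) (nat_lit 228) (nat_lit 206406740049) (nat_lit 76) (nat_lit 86686886661) (nat_lit 48) (nat_lit 5) (nat_lit 51) (nat_lit 5) (nat_lit 49) (nat_lit 4) (nat_lit 473) (nat_lit 441) (nat_lit 286))) (XT.nd (nat_lit 78) (nat_lit 0) (nat_lit 0) (XT.lf (nat_lit 0) (nat_lit 46053267046) (nat_lit 76) (nat_lit 185835195479) (nat_lit 152) (nat_lit 192413822612)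 (nat_lit 47) (nat_lit 5) (nat_lit 48) (nat_lit 5) (nat_lit 49) (nat_lit 4) (nat_lit 474) (nat_lit 441) (nat_lit 285)) (XT.lf (nat_lit 0) (nat_lit 330448345573) (nat_lit 76) (nat_lit 38168614989) (nat_lit 152) (nat_lit 77584779834) (nat_lit 47) (nat_lit 5) (nat_lit 48) (nat_lit 5) (nat_lit 49) (nat_lit 4) (nat_lit 475) (nat_lit 441) (nat_lit 284)))))) (XT.nd (nat_lit 546) (nat_lit 456) (nat_lit 0) (XT.nd (nat_lit 234) (nat_lit 304) (nat_lit 0) (XT.nd (nat_lit 78) (nat_lit 76) (nat_lit 0) (XT.lf (nat_lit 0) (nat_lit 51382267206) (nat_lit 152) (nat_lit 297083324177) (nat_lit 76) (nat_lit 120716282014) (nat_lit 45) (nat_lit 5) (nat_lit 47) (nat_lit 5) (nat_lit 46) (nat_lit 4) (nat_lit 476) (nat_lit 441) (nat_lit 283)) (XT.nd (nat_lit 78) (nat_lit 76) (nat_lit 0) (XT.lf (nat_lit 0) (nat_lit 190713451659) (nat_lit 152) (nat_lit 7274617209) (nat_lit 76) (nat_lit 295512063692) (nat_lit 45) (nat_lit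 5) (nat_lit 47) (nat_lit 5) (nat_lit 46) (nat_lit 4) (nat_lit 477) (nat_lit 441) (nat_lit 282)) (XT.lf (nat_lit 0) (nat_lit 321817149844) (nat_lit 76) (nat_lit 27113567267) (nat_lit 152) (nat_lit 170213968449) (nat_lit 44) (nat_lit 5) (nat_lit 45) (nat_lit 5) (nat_lit 46) (nat_lit 4) (nat_lit 478) (nat_lit 441) (nat_lit 281)))) (XT.nd (nat_lit 156) (nat_lit 152) (nat_lit 0) (XT.nd (nat_lit 78) (nat_lit 76) (nat_lit 0) (XT.lf (nat_lit 0) (nat_lit 133722820680) (nat_lit 76) (nat_lit 393288741322) (nat_lit 76) (nat_lit 19252744944) (nat_lit 43) (nat_lit 4) (nat_lit 44) (nat_lit 5) (nat_lit 44) (nat_lit 4) (nat_lit 479) (nat_lit 441) (nat_lit 280)) (XT.lf (nat_lit 0) (nat_lit 142832197520) (nat_lit 152) (nat_lit 76945140709) (nat_lit 76) (nat_lit 355000352641) (nat_lit 42) (nat_lit 5) (nat_lit 44) (nat_lit 5) (nat_lit 43) (nat_lit 4) (nat_lit 480) (nat_lit 441) (nat_lit 279))) (XT.nd (nat_lit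 78) (nat_lit 76) (nat_lit 0) (XT.lf (nat_lit 0) (nat_lit 300006145770) (nat_lit 76) (nat_lit 24052683059) (nat_lit 152) (nat_lit 280896107639) (nat_lit 41) (nat_lit 5) (nat_lit 42) (nat_lit 5) (nat_lit 43) (nat_lit 4) (nat_lit 481) (nat_lit 441) (nat_lit 278)) (XT.lf (nat_lit 0) (nat_lit 73213710473) (nat_lit 76) (nat_lit 454994309975) (nat_lit 76) (nat_lit 108664386883) (nat_lit 40) (nat_lit 4) (nat_lit 41) (nat_lit 5) (nat_lit 41) (nat_lit 4) (nat_lit 482) (nat_lit 441) (nat_lit 277))))) (XT.nd (nat_lit 234) (nat_lit 304) (nat_lit 0) (XT.nd (nat_lit 78) (nat_lit 76) (nat_lit 0) (XT.lf (nat_lit 0) (nat_lit 82655758346) (nat_lit 152) (nat_lit 174406030388) (nat_lit 76) (nat_lit 413398350281) (nat_lit 39) (nat_lit 5) (nat_lit 41) (nat_lit 5) (nat_lit 40) (nat_lit 4) (nat_lit 483) (nat_lit 441) (nat_lit 276)) (XT.nd (nat_lit 78) (nat_lit 0) (nat_lit 0) (XT.lf (nat_lit 0) (nat_lit 255968790541)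 (nat_lit 76) (nat_lit 33597977091) (nat_lit 152) (nat_lit 416449849333) (nat_lit 38) (nat_lit 5) (nat_lit 39) (nat_lit 5) (nat_lit 40) (nat_lit 4) (nat_lit 484) (nat_lit 441) (nat_lit 275)) (XT.lf (nat_lit 0) (nat_lit 522919206074) (nat_lit 152) (nat_lit 18464190014) (nat_lit 0) (nat_lit 202243133190) (nat_lit 38) (nat_lit 5) (nat_lit 40) (nat_lit 4) (nat_lit 38) (nat_lit 4) (nat_lit 485) (nat_lit 441) (nat_lit 274)))) (XT.nd (nat_lit 156) (nat_lit 76) (nat_lit 0) (XT.nd (nat_lit 78) (nat_lit 76) (nat_lit 0) (XT.lf (nat_lit 0) (nat_lit 3659842768) (nat_lit 152) (nat_lit 313063662150) (nat_lit 76) (nat_lit 466539653722) (nat_lit 36) (nat_lit 5) (nat_lit 38) (nat_lit 5) (nat_lit 37) (nat_lit 4) (nat_lit 486) (nat_lit 441) (nat_lit 273)) (XT.lf (nat_lit 0) (nat_lit 176036101461) (nat_lit 76) (nat_lit 62767886127) (nat_lit 152) (nat_lit 586427995449) (nat_lit 35) (nat_lit 5) (nat_lit 36) (nat_lit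 5) (nat_lit 37) (nat_lit 4) (nat_lit 487) (nat_lit 441) (nat_lit 272))) (XT.nd (nat_lit 78) (nat_lit 76) (nat_lit 0) (XT.lf (nat_lit 0) (nat_lit 506628295404) (nat_lit 152) (nat_lit 153114682136) (nat_lit 0) (nat_lit 209705845336) (nat_lit 35) (nat_lit 5) (nat_lit 37) (nat_lit 4) (nat_lit 35) (nat_lit 4) (nat_lit 488) (nat_lit 441) (nat_lit 271)) (XT.lf (nat_lit 0) (nat_lit 401086473297) (nat_lit 76) (nat_lit 406068460757) (nat_lit 76) (nat_lit 109145964952) (nat_lit 34) (nat_lit 4) (nat_lit 35) (nat_lit 5) (nat_lit 35) (nat_lit 4) (nat_lit 489) (nat_lit 441) (nat_lit 270))))))) (XT.nd (nat_lit 1092) (nat_lit 836) (nat_lit 0) (XT.nd (nat_lit 546) (nat_lit 456) (nat_lit 0) (XT.nd (nat_lit 234) (nat_lit 228) (nat_lit 0) (XT.nd (nat_lit 78) (nat_lit 76) (nat_lit 0) (XT.lf (nat_lit 0) (nat_lit 39677174489) (nat_lit 76) (nat_lit 122149610435) (nat_lit 152) (nat_lit 804337292219) (nat_lit 32)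 (nat_lit 5) (nat_lit 33) (nat_lit 5) (nat_lit 34) (nat_lit 4) (nat_lit 490) (nat_lit 441) (nat_lit 269)) (XT.nd (nat_lit 78) (nat_lit 76) (nat_lit 0) (XT.lf (nat_lit 0) (nat_lit 467470133240) (nat_lit 152) (nat_lit 358266398976) (nat_lit 0) (nat_lit 192541820863) (nat_lit 32) (nat_lit 5) (nat_lit 34) (nat_lit 4) (nat_lit 32) (nat_lit 4) (nat_lit 491) (nat_lit 441) (nat_lit 268)) (XT.lf (nat_lit 0) (nat_lit 265521316914) (nat_lit 76) (nat_lit 541602062871) (nat_lit 76) (nat_lit 266673716877) (nat_lit 31) (nat_lit 4) (nat_lit 32) (nat_lit 5) (nat_lit 32) (nat_lit 4) (nat_lit 492) (nat_lit 441) (nat_lit 267)))) (XT.nd (nat_lit 156) (nat_lit 76) (nat_lit 0) (XT.nd (nat_lit 78) (nat_lit 76) (nat_lit 0) (XT.lf (nat_lit 0) (nat_lit 48230992099) (nat_lit 152) (nat_lit 174607913555) (nat_lit 76) (nat_lit 910037106290) (nat_lit 30) (nat_lit 5) (nat_lit 32) (nat_lit 5) (nat_lit 31) (nat_lit 4) (nat_lit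 493) (nat_lit 441) (nat_lit 266)) (XT.lf (nat_lit 0) (nat_lit 390081319088) (nat_lit 152) (nat_lit 669234970022) (nat_lit 0) (nat_lit 135517980249) (nat_lit 29) (nat_lit 5) (nat_lit 31) (nat_lit 4) (nat_lit 29) (nat_lit 4) (nat_lit 494) (nat_lit 441) (nat_lit 265))) (XT.nd (nat_lit 78) (nat_lit 0) (nat_lit 0) (XT.lf (nat_lit 0) (nat_lit 25762503893) (nat_lit 76) (nat_lit 744822798312) (nat_lit 76) (nat_lit 490259434763) (nat_lit 28) (nat_lit 4) (nat_lit 29) (nat_lit 5) (nat_lit 29) (nat_lit 4) (nat_lit 495) (nat_lit 441) (nat_lit 264)) (XT.lf (nat_lit 0) (nat_lit 814419614406) (nat_lit 76) (nat_lit 385407987104) (nat_lit 76) (nat_lit 130844600675) (nat_lit 28) (nat_lit 4) (nat_lit 29) (nat_lit 5) (nat_lit 29) (nat_lit 4) (nat_lit 496) (nat_lit 441) (nat_lit 263))))) (XT.nd (nat_lit 234) (nat_lit 228) (nat_lit 0) (XT.nd (nat_lit 78) (nat_lit 76) (nat_lit 0) (XT.lf (nat_lit 0) (nat_lit 251272778288)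 (nat_lit 152) (nat_lit 1138206338767) (nat_lit 0) (nat_lit 15565919386) (nat_lit 26) (nat_lit 5) (nat_lit 28) (nat_lit 4) (nat_lit 26) (nat_lit 4) (nat_lit 497) (nat_lit 441) (nat_lit 262)) (XT.nd (nat_lit 78) (nat_lit 76) (nat_lit 0) (XT.lf (nat_lit 0) (nat_lit 681382959675) (nat_lit 152) (nat_lit 356077376740) (nat_lit 0) (nat_lit 445676082610) (nat_lit 26) (nat_lit 5) (nat_lit 28) (nat_lit 4) (nat_lit 26) (nat_lit 4) (nat_lit 498) (nat_lit 441) (nat_lit 261)) (XT.lf (nat_lit 0) (nat_lit 514351729299) (nat_lit 76) (nat_lit 643920334087) (nat_lit 76) (nat_lit 408213440204) (nat_lit 25) (nat_lit 4) (nat_lit 26) (nat_lit 5) (nat_lit 26) (nat_lit 4) (nat_lit 499) (nat_lit 441) (nat_lit 260)))) (XT.nd (nat_lit 156) (nat_lit 76) (nat_lit 0) (XT.nd (nat_lit 78) (nat_lit 76) (nat_lit 0) (XT.lf (nat_lit 0) (nat_lit 25957487668) (nat_lit 152) (nat_lit 181715335103) (nat_lit 76) (nat_lit 1447998262061)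 (nat_lit 24) (nat_lit 5) (nat_lit 26) (nat_lit 5) (nat_lit 25) (nat_lit 4) (nat_lit 500) (nat_lit 441) (nat_lit 259)) (XT.lf (nat_lit 0) (nat_lit 498841519408) (nat_lit 152) (nat_lit 969624705104) (nat_lit 0) (nat_lit 280594367674) (nat_lit 23) (nat_lit 5) (nat_lit 25) (nat_lit 4) (nat_lit 23) (nat_lit 4) (nat_lit 501) (nat_lit 441) (nat_lit 258))) (XT.nd (nat_lit 78) (nat_lit 76) (nat_lit 0) (XT.lf (nat_lit 0) (nat_lit 1020047783361) (nat_lit 152) (nat_lit 27233536726) (nat_lit 0) (nat_lit 801800619266) (nat_lit 23) (nat_lit 5) (nat_lit 25) (nat_lit 4) (nat_lit 23) (nat_lit 4) (nat_lit 502) (nat_lit 441) (nat_lit 257)) (XT.lf (nat_lit 0) (nat_lit 1042709358995) (nat_lit 76) (nat_lit 565318320190) (nat_lit 76) (nat_lit 347071144649) (nat_lit 22) (nat_lit 4) (nat_lit 23) (nat_lit 5) (nat_lit 23) (nat_lit 4) (nat_lit 503) (nat_lit 441) (nat_lit 256)))))) (XT.nd (nat_lit 546) (nat_lit 380)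 (nat_lit 0) (XT.nd (nat_lit 234) (nat_lit 228) (nat_lit 0) (XT.nd (nat_lit 78) (nat_lit 76) (nat_lit 0) (XT.lf (nat_lit 0) (nat_lit 132706611585) (nat_lit 76) (nat_lit 36021175782) (nat_lit 152) (nat_lit 1900219115949) (nat_lit 20) (nat_lit 5) (nat_lit 21) (nat_lit 5) (nat_lit 22) (nat_lit 4) (nat_lit 504) (nat_lit 441) (nat_lit 255)) (XT.nd (nat_lit 78) (nat_lit 76) (nat_lit 0) (XT.lf (nat_lit 0) (nat_lit 745515692525) (nat_lit 152) (nat_lit 899152921086) (nat_lit 0) (nat_lit 543434955532) (nat_lit 20) (nat_lit 5) (nat_lit 22) (nat_lit 4) (nat_lit 20) (nat_lit 4) (nat_lit 505) (nat_lit 441) (nat_lit 254)) (XT.lf (nat_lit 0) (nat_lit 231548726179) (nat_lit 76) (nat_lit 1143402221046) (nat_lit 76) (nat_lit 941321475641) (nat_lit 19) (nat_lit 4) (nat_lit 20) (nat_lit 5) (nat_lit 20) (nat_lit 4) (nat_lit 506) (nat_lit 441) (nat_lit 253)))) (XT.nd (nat_lit 156) (nat_lit 76) (nat_lit 0) (XT.nd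 (nat_lit 78) (nat_lit 152) (nat_lit 0) (XT.lf (nat_lit 0) (nat_lit 1503842028039) (nat_lit 76) (nat_lit 575483379608) (nat_lit 76) (nat_lit 373402626412) (nat_lit 19) (nat_lit 4) (nat_lit 20) (nat_lit 5) (nat_lit 20) (nat_lit 4) (nat_lit 507) (nat_lit 441) (nat_lit 252)) (XT.lf (nat_lit 0) (nat_lit 236073243000) (nat_lit 152) (nat_lit 2313953618032) (nat_lit 0) (nat_lit 48961427807) (nat_lit 17) (nat_lit 5) (nat_lit 19) (nat_lit 4) (nat_lit 17) (nat_lit 4) (nat_lit 508) (nat_lit 441) (nat_lit 251))) (XT.nd (nat_lit 78) (nat_lit 76) (nat_lit 0) (XT.lf (nat_lit 0) (nat_lit 915699416119) (nat_lit 152) (nat_lit 1108561197598) (nat_lit 0) (nat_lit 728587594742) (nat_lit 17) (nat_lit 5) (nat_lit 19) (nat_lit 4) (nat_lit 17) (nat_lit 4) (nat_lit 509) (nat_lit 441) (nat_lit 250)) (XT.lf (nat_lit 0) (nat_lit 203439390198) (nat_lit 76) (nat_lit 1451148972108) (nat_lit 76) (nat_lit 1264037145006) (nat_lit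 16) (nat_lit 4) (nat_lit 17) (nat_lit 5) (nat_lit 17) (nat_lit 4) (nat_lit 510) (nat_lit 441) (nat_lit 249))))) (XT.nd (nat_lit 312) (nat_lit 228) (nat_lit 0) (XT.nd (nat_lit 156) (nat_lit 76) (nat_lit 0) (XT.nd (nat_lit 78) (nat_lit 76) (nat_lit 0) (XT.lf (nat_lit 0) (nat_lit 1683444796331) (nat_lit 76) (nat_lit 799453613641) (nat_lit 76) (nat_lit 612341781237) (nat_lit 16) (nat_lit 4) (nat_lit 17) (nat_lit 5) (nat_lit 17) (nat_lit 4) (nat_lit 511) (nat_lit 441) (nat_lit 248)) (XT.lf (nat_lit 0) (nat_lit 86912510931) (nat_lit 152) (nat_lit 6333814575) (nat_lit 76) (nat_lit 3192561702078) (nat_lit 15) (nat_lit 5) (nat_lit 17) (nat_lit 5) (nat_lit 16) (nat_lit 4) (nat_lit 512) (nat_lit 441) (nat_lit 247))) (XT.nd (nat_lit 78) (nat_lit 0) (nat_lit 0) (XT.lf (nat_lit 0) (nat_lit 864386636191) (nat_lit 152) (nat_lit 1930398377334) (nat_lit 0) (nat_lit 691134930767) (nat_lit 14) (nat_lit 5) (nat_lit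 16) (nat_lit 4) (nat_lit 14) (nat_lit 4) (nat_lit 513) (nat_lit 441) (nat_lit 246)) (XT.lf (nat_lit 0) (nat_lit 1706658312972) (nat_lit 152) (nat_lit 461767927993) (nat_lit 0) (nat_lit 1533406603651) (nat_lit 14) (nat_lit 5) (nat_lit 16) (nat_lit 4) (nat_lit 14) (nat_lit 4) (nat_lit 514) (nat_lit 441) (nat_lit 245)))) (XT.nd (nat_lit 156) (nat_lit 152) (nat_lit 0) (XT.nd (nat_lit 78) (nat_lit 0) (nat_lit 0) (XT.lf (nat_lit 0) (nat_lit 1183559317490) (nat_lit 76) (nat_lit 1461217002365) (nat_lit 76) (nat_lit 1287965289436) (nat_lit 13) (nat_lit 4) (nat_lit 14) (nat_lit 5) (nat_lit 14) (nat_lit 4) (nat_lit 515) (nat_lit 441) (nat_lit 244)) (XT.lf (nat_lit 0) (nat_lit 2986773825311) (nat_lit 76) (nat_lit 683795462238) (nat_lit 76) (nat_lit 510543745968) (nat_lit 13) (nat_lit 4) (nat_lit 14) (nat_lit 5) (nat_lit 14) (nat_lit 4) (nat_lit 516) (nat_lit 441) (nat_lit 243))) (XT.nd (nat_lit 78)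 (nat_lit 0) (nat_lit 0) (XT.lf (nat_lit 0) (nat_lit 328952046456) (nat_lit 152) (nat_lit 3949927841945) (nat_lit 0) (nat_lit 168533787786) (nat_lit 11) (nat_lit 5) (nat_lit 13) (nat_lit 4) (nat_lit 11) (nat_lit 4) (nat_lit 517) (nat_lit 441) (nat_lit 242)) (XT.lf (nat_lit 0) (nat_lit 1259289310110) (nat_lit 152) (nat_lit 2371695986770) (nat_lit 0) (nat_lit 1098871048788) (nat_lit 11) (nat_lit 5) (nat_lit 13) (nat_lit 4) (nat_lit 11) (nat_lit 4) (nat_lit 518) (nat_lit 441) (nat_lit 241))))))))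
noncomputable def xc182 : XT := (XT.nd (nat_lit 57018) (nat_lit 0) (nat_lit 3116) (XT.nd (nat_lit 1092) (nat_lit 76) (nat_lit 0) (XT.nd (nat_lit 546) (nat_lit 228) (nat_lit 0) (XT.nd (nat_lit 234) (nat_lit 152) (nat_lit 0) (XT.nd (nat_lit 78) (nat_lit 76) (nat_lit 0) (XT.lf (nat_lit 0) (nat_lit 2264053525663) (nat_lit 152) (nat_lit 667205643495) (nat_lit 0) (nat_lit 2103635261886) (nat_lit 11) (nat_lit 5) (nat_lit 13) (nat_lit 4) (nat_lit 11) (nat_lit 4) (nat_lit 519) (nat_lit 441) (nat_lit 240)) (XT.nd (nat_lit 78) (nat_lit 0) (nat_lit 0) (XT.lf (nat_lit 0) (nat_lit 1235445877788) (nat_lit 76) (nat_lit 2143465476715) (nat_lit 76) (nat_lit 1983047210663) (nat_lit 10) (nat_lit 4) (nat_lit 11) (nat_lit 5) (nat_lit 11) (nat_lit 4) (nat_lit 520) (nat_lit 441) (nat_lit 239)) (XT.lf (nat_lit 0) (nat_lit 3328254042485) (nat_lit 76) (nat_lit 1272946325511) (nat_lit 76) (nat_lit 1112528057355) (nat_lit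 10) (nat_lit 4) (nat_lit 11) (nat_lit 5) (nat_lit 11) (nat_lit 4) (nat_lit 521) (nat_lit 441) (nat_lit 238)))) (XT.nd (nat_lit 156) (nat_lit 0) (nat_lit 0) (XT.nd (nat_lit 78) (nat_lit 152) (nat_lit 0) (XT.lf (nat_lit 0) (nat_lit 5588486809957) (nat_lit 76) (nat_lit 332785668225) (nat_lit 76) (nat_lit 172367398119) (nat_lit 10) (nat_lit 4) (nat_lit 11) (nat_lit 5) (nat_lit 11) (nat_lit 4) (nat_lit 522) (nat_lit 441) (nat_lit 237)) (XT.lf (nat_lit 0) (nat_lit 856877579873) (nat_lit 152) (nat_lit 4932619211469) (nat_lit 0) (nat_lit 708342142919) (nat_lit 8) (nat_lit 5) (nat_lit 10) (nat_lit 4) (nat_lit 8) (nat_lit 4) (nat_lit 523) (nat_lit 441) (nat_lit 236))) (XT.nd (nat_lit 78) (nat_lit 0) (nat_lit 0) (XT.lf (nat_lit 0) (nat_lit 1981964127545) (nat_lit 152) (nat_lit 3116797791205) (nat_lit 0) (nat_lit 1833428689043) (nat_lit 8) (nat_lit 5) (nat_lit 10) (nat_lit 4) (nat_lit 8) (nat_lit 4)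 (nat_lit 524) (nat_lit 441) (nat_lit 235)) (XT.lf (nat_lit 0) (nat_lit 3197057577594) (nat_lit 152) (nat_lit 1155710701672) (nat_lit 0) (nat_lit 3048522137659) (nat_lit 8) (nat_lit 5) (nat_lit 10) (nat_lit 4) (nat_lit 8) (nat_lit 4) (nat_lit 525) (nat_lit 441) (nat_lit 234))))) (XT.nd (nat_lit 234) (nat_lit 152) (nat_lit 0) (XT.nd (nat_lit 78) (nat_lit 0) (nat_lit 0) (XT.lf (nat_lit 0) (nat_lit 1012934394792) (nat_lit 76) (nat_lit 3520785185559) (nat_lit 76) (nat_lit 3372249744298) (nat_lit 7) (nat_lit 4) (nat_lit 8) (nat_lit 5) (nat_lit 8) (nat_lit 4) (nat_lit 526) (nat_lit 441) (nat_lit 233)) (XT.nd (nat_lit 78) (nat_lit 0) (nat_lit 0) (XT.lf (nat_lit 0) (nat_lit 3420797350599) (nat_lit 76) (nat_lit 2588116352068) (nat_lit 76) (nat_lit 2439580909578) (nat_lit 7) (nat_lit 4) (nat_lit 8) (nat_lit 5) (nat_lit 8) (nat_lit 4) (nat_lit 527) (nat_lit 441) (nat_lit 232)) (XT.lf (nat_lit 0) (nat_lit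 6021289305809) (nat_lit 76) (nat_lit 1580834031050) (nat_lit 76) (nat_lit 1432298587422) (nat_lit 7) (nat_lit 4) (nat_lit 8) (nat_lit 5) (nat_lit 8) (nat_lit 4) (nat_lit 528) (nat_lit 441) (nat_lit 231)))) (XT.nd (nat_lit 156) (nat_lit 0) (nat_lit 0) (XT.nd (nat_lit 78) (nat_lit 152) (nat_lit 0) (XT.lf (nat_lit 0) (nat_lit 8829820583118) (nat_lit 76) (nat_lit 492969142084) (nat_lit 76) (nat_lit 344433697404) (nat_lit 7) (nat_lit 4) (nat_lit 8) (nat_lit 5) (nat_lit 8) (nat_lit 4) (nat_lit 529) (nat_lit 441) (nat_lit 230)) (XT.lf (nat_lit 0) (nat_lit 844600421818) (nat_lit 152) (nat_lit 8792928567454) (nat_lit 0) (nat_lit 707067601766) (nat_lit 5) (nat_lit 5) (nat_lit 7) (nat_lit 4) (nat_lit 5) (nat_lit 4) (nat_lit 530) (nat_lit 441) (nat_lit 229))) (XT.nd (nat_lit 78) (nat_lit 0) (nat_lit 0) (XT.lf (nat_lit 0) (nat_lit 2146444063096) (nat_lit 152) (nat_lit 6917184988577) (nat_lit 0) (nat_lit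 2008911242208) (nat_lit 5) (nat_lit 5) (nat_lit 7) (nat_lit 4) (nat_lit 5) (nat_lit 4) (nat_lit 531) (nat_lit 441) (nat_lit 228)) (XT.lf (nat_lit 0) (nat_lit 3552435181097) (nat_lit 152) (nat_lit 4891381953586) (nat_lit 0) (nat_lit 3414902359435) (nat_lit 5) (nat_lit 5) (nat_lit 7) (nat_lit 4) (nat_lit 5) (nat_lit 4) (nat_lit 532) (nat_lit 441) (nat_lit 227)))))) (XT.nd (nat_lit 55380) (nat_lit 0) (nat_lit 6232) (XT.nd (nat_lit 234) (nat_lit 0) (nat_lit 0) (XT.nd (nat_lit 78) (nat_lit 76) (nat_lit 0) (XT.lf (nat_lit 0) (nat_lit 5070905575038) (nat_lit 152) (nat_lit 2703514703754) (nat_lit 0) (nat_lit 4933372752660) (nat_lit 5) (nat_lit 5) (nat_lit 7) (nat_lit 4) (nat_lit 5) (nat_lit 4) (nat_lit 533) (nat_lit 441) (nat_lit 226)) (XT.nd (nat_lit 78) (nat_lit 76) (nat_lit 0) (XT.lf (nat_lit 0) (nat_lit 6710853587996) (nat_lit 152) (nat_lit 340618099824) (nat_lit 0) (nat_lit 6573320764954) (nat_lit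 5) (nat_lit 5) (nat_lit 7) (nat_lit 4) (nat_lit 5) (nat_lit 4) (nat_lit 534) (nat_lit 441) (nat_lit 225)) (XT.lf (nat_lit 0) (nat_lit 2327753885247) (nat_lit 76) (nat_lit 6210226082092) (nat_lit 76) (nat_lit 6072693258435) (nat_lit 4) (nat_lit 4) (nat_lit 5) (nat_lit 5) (nat_lit 5) (nat_lit 4) (nat_lit 535) (nat_lit 441) (nat_lit 224)))) (XT.nd (nat_lit 156) (nat_lit 0) (nat_lit 0) (XT.nd (nat_lit 78) (nat_lit 0) (nat_lit 0) (XT.lf (nat_lit 0) (nat_lit 5228966858912) (nat_lit 76) (nat_lit 5291622689315) (nat_lit 76) (nat_lit 5154089865089) (nat_lit 4) (nat_lit 4) (nat_lit 5) (nat_lit 5) (nat_lit 5) (nat_lit 4) (nat_lit 536) (nat_lit 441) (nat_lit 223)) (XT.lf (nat_lit 0) (nat_lit 8362276848838) (nat_lit 76) (nat_lit 4299531036307) (nat_lit 76) (nat_lit 4161998211555) (nat_lit 4) (nat_lit 4) (nat_lit 5) (nat_lit 5) (nat_lit 5) (nat_lit 4) (nat_lit 537) (nat_lit 441) (nat_lit 222))) (XT.nd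 (nat_lit 78) (nat_lit 0) (nat_lit 0) (XT.lf (nat_lit 0) (nat_lit 11746251617927) (nat_lit 76) (nat_lit 3228072061420) (nat_lit 76) (nat_lit 3090539236180) (nat_lit 4) (nat_lit 4) (nat_lit 5) (nat_lit 5) (nat_lit 5) (nat_lit 4) (nat_lit 538) (nat_lit 441) (nat_lit 221)) (XT.lf (nat_lit 0) (nat_lit 15400944349995) (nat_lit 76) (nat_lit 2070896378136) (nat_lit 76) (nat_lit 1933363552444) (nat_lit 4) (nat_lit 4) (nat_lit 5) (nat_lit 5) (nat_lit 5) (nat_lit 4) (nat_lit 539) (nat_lit 441) (nat_lit 220))))) (XT.nd (nat_lit 234) (nat_lit 0) (nat_lit 76) (XT.nd (nat_lit 78) (nat_lit 532) (nat_lit 0) (XT.lf (nat_lit 0) (nat_lit 50733029780) (nat_lit 532) (nat_lit 352413808) (nat_lit 532) (nat_lit 352413808) (nat_lit 93) (nat_lit 3) (nat_lit 100) (nat_lit 3) (nat_lit 100) (nat_lit 5) (nat_lit 442) (nat_lit 442) (nat_lit 316)) (XT.nd (nat_lit 78) (nat_lit 532) (nat_lit 0) (XT.lf (nat_lit 76) (nat_lit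 53188063015) (nat_lit 0) (nat_lit 53621652276) (nat_lit 532) (nat_lit 78226248) (nat_lit 94) (nat_lit 5) (nat_lit 93) (nat_lit 3) (nat_lit 100) (nat_lit 5) (nat_lit 443) (nat_lit 442) (nat_lit 315)) (XT.lf (nat_lit 76) (nat_lit 188739909) (nat_lit 0) (nat_lit 1126661940) (nat_lit 608) (nat_lit 109901232281) (nat_lit 87) (nat_lit 5) (nat_lit 86) (nat_lit 5) (nat_lit 94) (nat_lit 5) (nat_lit 444) (nat_lit 442) (nat_lit 314)))) (XT.nd (nat_lit 156) (nat_lit 0) (nat_lit 76) (XT.nd (nat_lit 78) (nat_lit 0) (nat_lit 0) (XT.lf (nat_lit 0) (nat_lit 5658524178) (nat_lit 532) (nat_lit 55708738782) (nat_lit 608) (nat_lit 54296818268) (nat_lit 87) (nat_lit 5) (nat_lit 94) (nat_lit 5) (nat_lit 95) (nat_lit 5) (nat_lit 445) (nat_lit 442) (nat_lit 313)) (XT.lf (nat_lit 76) (nat_lit 4217274433) (nat_lit 0) (nat_lit 6261987315) (nat_lit 608) (nat_lit 109977649171) (nat_lit 88) (nat_lit 5) (nat_lit 87) (nat_lit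 5) (nat_lit 95) (nat_lit 5) (nat_lit 446) (nat_lit 442) (nat_lit 312))) (XT.nd (nat_lit 78) (nat_lit 0) (nat_lit 0) (XT.lf (nat_lit 0) (nat_lit 18528610922) (nat_lit 532) (nat_lit 54726415806) (nat_lit 608) (nat_lit 52150704107) (nat_lit 88) (nat_lit 5) (nat_lit 95) (nat_lit 5) (nat_lit 96) (nat_lit 5) (nat_lit 447) (nat_lit 442) (nat_lit 311)) (XT.lf (nat_lit 76) (nat_lit 12152765350) (nat_lit 0) (nat_lit 15523611402) (nat_lit 608) (nat_lit 103037722147) (nat_lit 89) (nat_lit 5) (nat_lit 88) (nat_lit 5) (nat_lit 96) (nat_lit 5) (nat_lit 448) (nat_lit 442) (nat_lit 310))))))) (XT.nd (nat_lit 1092) (nat_lit 1292) (nat_lit 0) (XT.nd (nat_lit 546) (nat_lit 988) (nat_lit 0) (XT.nd (nat_lit 234) (nat_lit 532) (nat_lit 0) (XT.nd (nat_lit 78) (nat_lit 532) (nat_lit 0) (XT.lf (nat_lit 0) (nat_lit 40216892137) (nat_lit 532) (nat_lit 49998254716) (nat_lit 76) (nat_lit 46019115343) (nat_lit 89) (nat_lit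 5) (nat_lit 96) (nat_lit 5) (nat_lit 90) (nat_lit 5) (nat_lit 449) (nat_lit 442) (nat_lit 309)) (XT.nd (nat_lit 78) (nat_lit 0) (nat_lit 0) (XT.lf (nat_lit 0) (nat_lit 24891456183) (nat_lit 532) (nat_lit 29870646762) (nat_lit 608) (nat_lit 87353819321) (nat_lit 82) (nat_lit 5) (nat_lit 89) (nat_lit 5) (nat_lit 90) (nat_lit 5) (nat_lit 450) (nat_lit 442) (nat_lit 308)) (XT.lf (nat_lit 0) (nat_lit 72722103132) (nat_lit 608) (nat_lit 40627866150) (nat_lit 76) (nat_lit 34938052101) (nat_lit 82) (nat_lit 5) (nat_lit 90) (nat_lit 5) (nat_lit 83) (nat_lit 5) (nat_lit 451) (nat_lit 442) (nat_lit 307)))) (XT.nd (nat_lit 156) (nat_lit 304) (nat_lit 0) (XT.nd (nat_lit 78) (nat_lit 0) (nat_lit 0) (XT.lf (nat_lit 0) (nat_lit 43496084571) (nat_lit 228) (nat_lit 50444413661) (nat_lit 304) (nat_lit 60867662643) (nat_lit 79) (nat_lit 5) (nat_lit 82) (nat_lit 5) (nat_lit 83) (nat_lit 5) (nat_lit 452) (nat_lit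 442) (nat_lit 306)) (XT.lf (nat_lit 0) (nat_lit 118416445512) (nat_lit 304) (nat_lit 25550507646) (nat_lit 76) (nat_lit 17758151959) (nat_lit 79) (nat_lit 5) (nat_lit 83) (nat_lit 5) (nat_lit 80) (nat_lit 5) (nat_lit 453) (nat_lit 442) (nat_lit 305))) (XT.nd (nat_lit 78) (nat_lit 76) (nat_lit 0) (XT.lf (nat_lit 0) (nat_lit 69224265346) (nat_lit 228) (nat_lit 78600986140) (nat_lit 304) (nat_lit 21132170814) (nat_lit 76) (nat_lit 5) (nat_lit 79) (nat_lit 5) (nat_lit 80) (nat_lit 5) (nat_lit 454) (nat_lit 442) (nat_lit 304)) (XT.lf (nat_lit 0) (nat_lit 3393888898) (nat_lit 304) (nat_lit 3764627419) (nat_lit 76) (nat_lit 169547070573) (nat_lit 75) (nat_lit 5) (nat_lit 79) (nat_lit 5) (nat_lit 76) (nat_lit 5) (nat_lit 455) (nat_lit 442) (nat_lit 303))))) (XT.nd (nat_lit 234) (nat_lit 532) (nat_lit 0) (XT.nd (nat_lit 78) (nat_lit 228) (nat_lit 0) (XT.lf (nat_lit 0) (nat_lit 33017867131) (nat_lit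 304) (nat_lit 82028778512) (nat_lit 76) (nat_lit 69640846440) (nat_lit 72) (nat_lit 5) (nat_lit 76) (nat_lit 5) (nat_lit 73) (nat_lit 5) (nat_lit 456) (nat_lit 442) (nat_lit 302)) (XT.nd (nat_lit 78) (nat_lit 0) (nat_lit 0) (XT.lf (nat_lit 0) (nat_lit 25602068383) (nat_lit 228) (nat_lit 40316699648) (nat_lit 304) (nat_lit 127316621331) (nat_lit 69) (nat_lit 5) (nat_lit 72) (nat_lit 5) (nat_lit 73) (nat_lit 5) (nat_lit 457) (nat_lit 442) (nat_lit 301)) (XT.lf (nat_lit 0) (nat_lit 104723971078) (nat_lit 304) (nat_lit 56809291705) (nat_lit 76) (nat_lit 40672077257) (nat_lit 69) (nat_lit 5) (nat_lit 73) (nat_lit 5) (nat_lit 70) (nat_lit 5) (nat_lit 458) (nat_lit 442) (nat_lit 300)))) (XT.nd (nat_lit 156) (nat_lit 380) (nat_lit 0) (XT.nd (nat_lit 78) (nat_lit 0) (nat_lit 0) (XT.lf (nat_lit 0) (nat_lit 65089167239) (nat_lit 152) (nat_lit 84156768281) (nat_lit 228) (nat_lit 62437963662) (nat_lit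 67) (nat_lit 5) (nat_lit 69) (nat_lit 5) (nat_lit 70) (nat_lit 5) (nat_lit 459) (nat_lit 442) (nat_lit 299)) (XT.lf (nat_lit 0) (nat_lit 198908844965) (nat_lit 228) (nat_lit 21852672533) (nat_lit 76) (nat_lit 1032890548) (nat_lit 67) (nat_lit 5) (nat_lit 70) (nat_lit 5) (nat_lit 68) (nat_lit 5) (nat_lit 460) (nat_lit 442) (nat_lit 298))) (XT.nd (nat_lit 78) (nat_lit 152) (nat_lit 0) (XT.lf (nat_lit 0) (nat_lit 23956320265) (nat_lit 228) (nat_lit 116410329102) (nat_lit 76) (nat_lit 91899567800) (nat_lit 64) (nat_lit 5) (nat_lit 67) (nat_lit 5) (nat_lit 65) (nat_lit 5) (nat_lit 461) (nat_lit 442) (nat_lit 297)) (XT.lf (nat_lit 0) (nat_lit 22827607213) (nat_lit 152) (nat_lit 51643336732) (nat_lit 228) (nat_lit 168964328310) (nat_lit 62) (nat_lit 5) (nat_lit 64) (nat_lit 5) (nat_lit 65) (nat_lit 5) (nat_lit 462) (nat_lit 442) (nat_lit 296)))))) (XT.nd (nat_lit 546) (nat_lit 760) (nat_lit 0)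 (XT.nd (nat_lit 234) (nat_lit 380) (nat_lit 0) (XT.nd (nat_lit 78) (nat_lit 152) (nat_lit 0) (XT.lf (nat_lit 0) (nat_lit 133354547759) (nat_lit 228) (nat_lit 76563756476) (nat_lit 76) (nat_lit 45233322712) (nat_lit 62) (nat_lit 5) (nat_lit 65) (nat_lit 5) (nat_lit 63) (nat_lit 5) (nat_lit 463) (nat_lit 442) (nat_lit 295)) (XT.nd (nat_lit 78) (nat_lit 0) (nat_lit 0) (XT.lf (nat_lit 0) (nat_lit 81751524582) (nat_lit 152) (nat_lit 118504637534) (nat_lit 228) (nat_lit 67284542132) (nat_lit 60) (nat_lit 5) (nat_lit 62) (nat_lit 5) (nat_lit 63) (nat_lit 5) (nat_lit 464) (nat_lit 442) (nat_lit 294)) (XT.lf (nat_lit 0) (nat_lit 257085987143) (nat_lit 152) (nat_lit 17517125055) (nat_lit 228) (nat_lit 6150339021) (nat_lit 60) (nat_lit 5) (nat_lit 62) (nat_lit 5) (nat_lit 63) (nat_lit 5) (nat_lit 465) (nat_lit 442) (nat_lit 293)))) (XT.nd (nat_lit 156) (nat_lit 76) (nat_lit 0) (XT.nd (nat_lit 78) (nat_lit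 152) (nat_lit 0) (XT.lf (nat_lit 0) (nat_lit 63014103130) (nat_lit 152) (nat_lit 139060454936) (nat_lit 76) (nat_lit 92342687223) (nat_lit 58) (nat_lit 5) (nat_lit 60) (nat_lit 5) (nat_lit 59) (nat_lit 5) (nat_lit 466) (nat_lit 442) (nat_lit 292)) (XT.lf (nat_lit 0) (nat_lit 42416623478) (nat_lit 152) (nat_lit 97101659395) (nat_lit 228) (nat_lit 169471971272) (nat_lit 56) (nat_lit 5) (nat_lit 58) (nat_lit 5) (nat_lit 59) (nat_lit 5) (nat_lit 467) (nat_lit 442) (nat_lit 291))) (XT.nd (nat_lit 78) (nat_lit 76) (nat_lit 0) (XT.lf (nat_lit 0) (nat_lit 226434819220) (nat_lit 228) (nat_lit 78594884911) (nat_lit 76) (nat_lit 19356037812) (nat_lit 56) (nat_lit 5) (nat_lit 59) (nat_lit 5) (nat_lit 57) (nat_lit 4) (nat_lit 468) (nat_lit 442) (nat_lit 290)) (XT.lf (nat_lit 0) (nat_lit 128318802277) (nat_lit 76) (nat_lit 197593913807) (nat_lit 152) (nat_lit 14651509679) (nat_lit 55) (nat_lit 5) (nat_lit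 56) (nat_lit 5) (nat_lit 57) (nat_lit 4) (nat_lit 469) (nat_lit 442) (nat_lit 289))))) (XT.nd (nat_lit 312) (nat_lit 380) (nat_lit 0) (XT.nd (nat_lit 156) (nat_lit 152) (nat_lit 0) (XT.nd (nat_lit 78) (nat_lit 152) (nat_lit 0) (XT.lf (nat_lit 0) (nat_lit 73749039618) (nat_lit 152) (nat_lit 3477062131) (nat_lit 76) (nat_lit 280489619409) (nat_lit 54) (nat_lit 5) (nat_lit 56) (nat_lit 5) (nat_lit 55) (nat_lit 5) (nat_lit 470) (nat_lit 442) (nat_lit 288)) (XT.lf (nat_lit 0) (nat_lit 175465113844) (nat_lit 228) (nat_lit 143903165462) (nat_lit 76) (nat_lit 56277808742) (nat_lit 52) (nat_lit 5) (nat_lit 55) (nat_lit 5) (nat_lit 53) (nat_lit 4) (nat_lit 471) (nat_lit 442) (nat_lit 287))) (XT.nd (nat_lit 78) (nat_lit 76) (nat_lit 0) (XT.lf (nat_lit 0) (nat_lit 93651193422) (nat_lit 76) (nat_lit 196022866354) (nat_lit 152) (nat_lit 104988377660) (nat_lit 51) (nat_lit 5) (nat_lit 52) (nat_lit 5) (nat_lit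 53) (nat_lit 4) (nat_lit 472) (nat_lit 442) (nat_lit 286)) (XT.lf (nat_lit 0) (nat_lit 1965324000) (nat_lit 152) (nat_lit 56541534733) (nat_lit 76) (nat_lit 356374500987) (nat_lit 50) (nat_lit 5) (nat_lit 52) (nat_lit 5) (nat_lit 51) (nat_lit 5) (nat_lit 473) (nat_lit 442) (nat_lit 285)))) (XT.nd (nat_lit 156) (nat_lit 152) (nat_lit 0) (XT.nd (nat_lit 78) (nat_lit 76) (nat_lit 0) (XT.lf (nat_lit 0) (nat_lit 119357079657) (nat_lit 228) (nat_lit 222914398690) (nat_lit 76) (nat_lit 93623851198) (nat_lit 48) (nat_lit 5) (nat_lit 51) (nat_lit 5) (nat_lit 49) (nat_lit 4) (nat_lit 474) (nat_lit 442) (nat_lit 284)) (XT.lf (nat_lit 0) (nat_lit 49742285414) (nat_lit 76) (nat_lit 200699826393) (nat_lit 152) (nat_lit 207804150271) (nat_lit 47) (nat_lit 5) (nat_lit 48) (nat_lit 5) (nat_lit 49) (nat_lit 4) (nat_lit 475) (nat_lit 442) (nat_lit 283))) (XT.nd (nat_lit 78) (nat_lit 152) (nat_lit 0) (XT.lf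 (nat_lit 0) (nat_lit 356888617852) (nat_lit 76) (nat_lit 41220081295) (nat_lit 152) (nat_lit 83788989860) (nat_lit 47) (nat_lit 5) (nat_lit 48) (nat_lit 5) (nat_lit 49) (nat_lit 4) (nat_lit 476) (nat_lit 442) (nat_lit 282)) (XT.lf (nat_lit 0) (nat_lit 55495266813) (nat_lit 152) (nat_lit 320845431202) (nat_lit 76) (nat_lit 130375531726) (nat_lit 45) (nat_lit 5) (nat_lit 47) (nat_lit 5) (nat_lit 46) (nat_lit 4) (nat_lit 477) (nat_lit 442) (nat_lit 281))))))))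
noncomputable def xc183 : XT := (XT.nd (nat_lit 2184) (nat_lit 1140) (nat_lit 0) (XT.nd (nat_lit 1092) (nat_lit 912) (nat_lit 0) (XT.nd (nat_lit 546) (nat_lit 532) (nat_lit 0) (XT.nd (nat_lit 234) (nat_lit 304) (nat_lit 0) (XT.nd (nat_lit 78) (nat_lit 152) (nat_lit 0) (XT.lf (nat_lit 0) (nat_lit 205972766894) (nat_lit 152) (nat_lit 7852365373) (nat_lit 76) (nat_lit 319154831705) (nat_lit 45) (nat_lit 5) (nat_lit 47) (nat_lit 5) (nat_lit 46) (nat_lit 4) (nat_lit 478) (nat_lit 442) (nat_lit 280)) (XT.nd (nat_lit 78) (nat_lit 76) (nat_lit 0) (XT.lf (nat_lit 0) (nat_lit 347566636178) (nat_lit 76) (nat_lit 29280710495) (nat_lit 152) (nat_lit 183828739897) (nat_lit 44) (nat_lit 5) (nat_lit 45) (nat_lit 5) (nat_lit 46) (nat_lit 4) (nat_lit 479) (nat_lit 442) (nat_lit 279)) (XT.lf (nat_lit 0) (nat_lit 144424780428) (nat_lit 76) (nat_lit 424749860498) (nat_lit 76) (nat_lit 20790638204) (nat_lit 43)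 (nat_lit 4) (nat_lit 44) (nat_lit 5) (nat_lit 44) (nat_lit 4) (nat_lit 480) (nat_lit 442) (nat_lit 278)))) (XT.nd (nat_lit 156) (nat_lit 152) (nat_lit 0) (XT.nd (nat_lit 78) (nat_lit 76) (nat_lit 0) (XT.lf (nat_lit 0) (nat_lit 154260819584) (nat_lit 152) (nat_lit 83096816302) (nat_lit 76) (nat_lit 383402106506) (nat_lit 42) (nat_lit 5) (nat_lit 44) (nat_lit 5) (nat_lit 43) (nat_lit 4) (nat_lit 481) (nat_lit 442) (nat_lit 277)) (XT.lf (nat_lit 0) (nat_lit 324010473459) (nat_lit 76) (nat_lit 25975048620) (nat_lit 152) (nat_lit 303365650307) (nat_lit 41) (nat_lit 5) (nat_lit 42) (nat_lit 5) (nat_lit 43) (nat_lit 4) (nat_lit 482) (nat_lit 442) (nat_lit 276))) (XT.nd (nat_lit 78) (nat_lit 76) (nat_lit 0) (XT.lf (nat_lit 0) (nat_lit 79074657854) (nat_lit 76) (nat_lit 491391977775) (nat_lit 76) (nat_lit 117355406364) (nat_lit 40) (nat_lit 4) (nat_lit 41) (nat_lit 5) (nat_lit 41) (nat_lit 4) (nat_lit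 483) (nat_lit 442) (nat_lit 275)) (XT.lf (nat_lit 0) (nat_lit 89270093870) (nat_lit 152) (nat_lit 188354848740) (nat_lit 76) (nat_lit 446471857503) (nat_lit 39) (nat_lit 5) (nat_lit 41) (nat_lit 5) (nat_lit 40) (nat_lit 4) (nat_lit 484) (nat_lit 442) (nat_lit 274))))) (XT.nd (nat_lit 234) (nat_lit 304) (nat_lit 0) (XT.nd (nat_lit 78) (nat_lit 152) (nat_lit 0) (XT.lf (nat_lit 0) (nat_lit 276449865101) (nat_lit 76) (nat_lit 36284065809) (nat_lit 152) (nat_lit 449763869629) (nat_lit 38) (nat_lit 5) (nat_lit 39) (nat_lit 5) (nat_lit 40) (nat_lit 4) (nat_lit 485) (nat_lit 442) (nat_lit 273)) (XT.nd (nat_lit 78) (nat_lit 152) (nat_lit 0) (XT.lf (nat_lit 0) (nat_lit 564754468432) (nat_lit 152) (nat_lit 19937922415) (nat_lit 0) (nat_lit 218424122674) (nat_lit 38) (nat_lit 5) (nat_lit 40) (nat_lit 4) (nat_lit 38) (nat_lit 4) (nat_lit 486) (nat_lit 442) (nat_lit 272)) (XT.lf (nat_lit 0) (nat_lit 3954351591)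 (nat_lit 152) (nat_lit 338105347797) (nat_lit 76) (nat_lit 503864374206) (nat_lit 36) (nat_lit 5) (nat_lit 38) (nat_lit 5) (nat_lit 37) (nat_lit 4) (nat_lit 487) (nat_lit 442) (nat_lit 271)))) (XT.nd (nat_lit 156) (nat_lit 228) (nat_lit 0) (XT.nd (nat_lit 78) (nat_lit 0) (nat_lit 0) (XT.lf (nat_lit 0) (nat_lit 190122310643) (nat_lit 76) (nat_lit 67787669715) (nat_lit 152) (nat_lit 633340427398) (nat_lit 35) (nat_lit 5) (nat_lit 36) (nat_lit 5) (nat_lit 37) (nat_lit 4) (nat_lit 488) (nat_lit 442) (nat_lit 270)) (XT.lf (nat_lit 0) (nat_lit 547160145499) (nat_lit 152) (nat_lit 165360694326) (nat_lit 0) (nat_lit 226483761943) (nat_lit 35) (nat_lit 5) (nat_lit 37) (nat_lit 4) (nat_lit 35) (nat_lit 4) (nat_lit 489) (nat_lit 442) (nat_lit 269))) (XT.nd (nat_lit 78) (nat_lit 152) (nat_lit 0) (XT.lf (nat_lit 0) (nat_lit 433176473482) (nat_lit 76) (nat_lit 438552398373) (nat_lit 76) (nat_lit 117875975605)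 (nat_lit 34) (nat_lit 4) (nat_lit 35) (nat_lit 5) (nat_lit 35) (nat_lit 4) (nat_lit 490) (nat_lit 442) (nat_lit 268)) (XT.lf (nat_lit 0) (nat_lit 42854434010) (nat_lit 76) (nat_lit 131920033819) (nat_lit 152) (nat_lit 868682612258) (nat_lit 32) (nat_lit 5) (nat_lit 33) (nat_lit 5) (nat_lit 34) (nat_lit 4) (nat_lit 491) (nat_lit 442) (nat_lit 267)))))) (XT.nd (nat_lit 546) (nat_lit 456) (nat_lit 0) (XT.nd (nat_lit 234) (nat_lit 304) (nat_lit 0) (XT.nd (nat_lit 78) (nat_lit 152) (nat_lit 0) (XT.lf (nat_lit 0) (nat_lit 504869204343) (nat_lit 152) (nat_lit 386924774208) (nat_lit 0) (nat_lit 207946525922) (nat_lit 32) (nat_lit 5) (nat_lit 34) (nat_lit 4) (nat_lit 32) (nat_lit 4) (nat_lit 492) (nat_lit 442) (nat_lit 266)) (XT.nd (nat_lit 78) (nat_lit 76) (nat_lit 0) (XT.lf (nat_lit 0) (nat_lit 286765884607) (nat_lit 76) (nat_lit 584928786664) (nat_lit 76) (nat_lit 288006079421) (nat_lit 31) (nat_lit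 4) (nat_lit 32) (nat_lit 5) (nat_lit 32) (nat_lit 4) (nat_lit 493) (nat_lit 442) (nat_lit 265)) (XT.lf (nat_lit 0) (nat_lit 52090821494) (nat_lit 152) (nat_lit 188573825222) (nat_lit 76) (nat_lit 982841338169) (nat_lit 30) (nat_lit 5) (nat_lit 32) (nat_lit 5) (nat_lit 31) (nat_lit 4) (nat_lit 494) (nat_lit 442) (nat_lit 264)))) (XT.nd (nat_lit 156) (nat_lit 152) (nat_lit 0) (XT.nd (nat_lit 78) (nat_lit 76) (nat_lit 0) (XT.lf (nat_lit 0) (nat_lit 421289170628) (nat_lit 152) (nat_lit 722771042181) (nat_lit 0) (nat_lit 146360690405) (nat_lit 29) (nat_lit 5) (nat_lit 31) (nat_lit 4) (nat_lit 29) (nat_lit 4) (nat_lit 495) (nat_lit 442) (nat_lit 263)) (XT.lf (nat_lit 0) (nat_lit 27826160648) (nat_lit 76) (nat_lit 804407275930) (nat_lit 76) (nat_lit 529478774521) (nat_lit 28) (nat_lit 4) (nat_lit 29) (nat_lit 5) (nat_lit 29) (nat_lit 4) (nat_lit 496) (nat_lit 442) (nat_lit 262))) (XT.nd (nat_lit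 78) (nat_lit 152) (nat_lit 0) (XT.lf (nat_lit 0) (nat_lit 879575643228) (nat_lit 76) (nat_lit 416239379547) (nat_lit 76) (nat_lit 141310858522) (nat_lit 28) (nat_lit 4) (nat_lit 29) (nat_lit 5) (nat_lit 29) (nat_lit 4) (nat_lit 497) (nat_lit 442) (nat_lit 261)) (XT.lf (nat_lit 0) (nat_lit 271375842266) (nat_lit 152) (nat_lit 1229260317689) (nat_lit 0) (nat_lit 16812380055) (nat_lit 26) (nat_lit 5) (nat_lit 28) (nat_lit 4) (nat_lit 26) (nat_lit 4) (nat_lit 498) (nat_lit 442) (nat_lit 260))))) (XT.nd (nat_lit 234) (nat_lit 304) (nat_lit 0) (XT.nd (nat_lit 78) (nat_lit 152) (nat_lit 0) (XT.lf (nat_lit 0) (nat_lit 735894746185) (nat_lit 152) (nat_lit 384561225972) (nat_lit 0) (nat_lit 481331268402) (nat_lit 26) (nat_lit 5) (nat_lit 28) (nat_lit 4) (nat_lit 26) (nat_lit 4) (nat_lit 499) (nat_lit 442) (nat_lit 259)) (XT.nd (nat_lit 78) (nat_lit 76) (nat_lit 0) (XT.lf (nat_lit 0) (nat_lit 555502149286)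 (nat_lit 76) (nat_lit 695432798615) (nat_lit 76) (nat_lit 440869306414) (nat_lit 25) (nat_lit 4) (nat_lit 26) (nat_lit 5) (nat_lit 26) (nat_lit 4) (nat_lit 500) (nat_lit 442) (nat_lit 258)) (XT.lf (nat_lit 0) (nat_lit 28035150133) (nat_lit 152) (nat_lit 196250393273) (nat_lit 76) (nat_lit 1563839143130) (nat_lit 24) (nat_lit 5) (nat_lit 26) (nat_lit 5) (nat_lit 25) (nat_lit 4) (nat_lit 501) (nat_lit 442) (nat_lit 257)))) (XT.nd (nat_lit 156) (nat_lit 228) (nat_lit 0) (XT.nd (nat_lit 78) (nat_lit 0) (nat_lit 0) (XT.lf (nat_lit 0) (nat_lit 538749902405) (nat_lit 152) (nat_lit 1047192510860) (nat_lit 0) (nat_lit 303042941374) (nat_lit 23) (nat_lit 5) (nat_lit 25) (nat_lit 4) (nat_lit 23) (nat_lit 4) (nat_lit 502) (nat_lit 442) (nat_lit 256)) (XT.lf (nat_lit 0) (nat_lit 1101652588849) (nat_lit 152) (nat_lit 29410209801) (nat_lit 0) (nat_lit 865945617221) (nat_lit 23) (nat_lit 5) (nat_lit 25)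 (nat_lit 4) (nat_lit 23) (nat_lit 4) (nat_lit 503) (nat_lit 442) (nat_lit 255))) (XT.nd (nat_lit 78) (nat_lit 152) (nat_lit 0) (XT.lf (nat_lit 0) (nat_lit 1126128066695) (nat_lit 76) (nat_lit 610542783956) (nat_lit 76) (nat_lit 374835802515) (nat_lit 22) (nat_lit 4) (nat_lit 23) (nat_lit 5) (nat_lit 23) (nat_lit 4) (nat_lit 504) (nat_lit 442) (nat_lit 254)) (XT.lf (nat_lit 0) (nat_lit 143325100304) (nat_lit 76) (nat_lit 38901866441) (nat_lit 152) (nat_lit 2052235612321) (nat_lit 20) (nat_lit 5) (nat_lit 21) (nat_lit 5) (nat_lit 22) (nat_lit 4) (nat_lit 505) (nat_lit 442) (nat_lit 253))))))) (XT.nd (nat_lit 1092) (nat_lit 456) (nat_lit 0) (XT.nd (nat_lit 546) (nat_lit 380) (nat_lit 0) (XT.nd (nat_lit 234) (nat_lit 228) (nat_lit 0) (XT.nd (nat_lit 78) (nat_lit 76) (nat_lit 0) (XT.lf (nat_lit 0) (nat_lit 805157855816) (nat_lit 152) (nat_lit 971083291647) (nat_lit 0) (nat_lit 586910634576) (nat_lit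 20) (nat_lit 5) (nat_lit 22) (nat_lit 4) (nat_lit 20) (nat_lit 4) (nat_lit 506) (nat_lit 442) (nat_lit 252)) (XT.nd (nat_lit 78) (nat_lit 0) (nat_lit 0) (XT.lf (nat_lit 0) (nat_lit 250074440231) (nat_lit 76) (nat_lit 1234873467084) (nat_lit 76) (nat_lit 1016626238631) (nat_lit 19) (nat_lit 4) (nat_lit 20) (nat_lit 5) (nat_lit 20) (nat_lit 4) (nat_lit 507) (nat_lit 442) (nat_lit 251)) (XT.lf (nat_lit 0) (nat_lit 1624151071724) (nat_lit 76) (nat_lit 621521187342) (nat_lit 76) (nat_lit 403273952210) (nat_lit 19) (nat_lit 4) (nat_lit 20) (nat_lit 5) (nat_lit 20) (nat_lit 4) (nat_lit 508) (nat_lit 442) (nat_lit 250)))) (XT.nd (nat_lit 156) (nat_lit 76) (nat_lit 0) (XT.nd (nat_lit 78) (nat_lit 0) (nat_lit 0) (XT.lf (nat_lit 0) (nat_lit 254959941514) (nat_lit 152) (nat_lit 2499068180784) (nat_lit 0) (nat_lit 52879162518) (nat_lit 17) (nat_lit 5) (nat_lit 19) (nat_lit 4) (nat_lit 17) (nat_lit 4)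 (nat_lit 509) (nat_lit 442) (nat_lit 249)) (XT.lf (nat_lit 0) (nat_lit 988956146329) (nat_lit 152) (nat_lit 1197244494619) (nat_lit 0) (nat_lit 786875362031) (nat_lit 17) (nat_lit 5) (nat_lit 19) (nat_lit 4) (nat_lit 17) (nat_lit 4) (nat_lit 510) (nat_lit 442) (nat_lit 248))) (XT.nd (nat_lit 78) (nat_lit 0) (nat_lit 0) (XT.lf (nat_lit 0) (nat_lit 219716099725) (nat_lit 76) (nat_lit 1567240088414) (nat_lit 76) (nat_lit 1365159299207) (nat_lit 16) (nat_lit 4) (nat_lit 17) (nat_lit 5) (nat_lit 17) (nat_lit 4) (nat_lit 511) (nat_lit 442) (nat_lit 247)) (XT.lf (nat_lit 0) (nat_lit 1818121822918) (nat_lit 76) (nat_lit 863409160637) (nat_lit 76) (nat_lit 661328366885) (nat_lit 16) (nat_lit 4) (nat_lit 17) (nat_lit 5) (nat_lit 17) (nat_lit 4) (nat_lit 512) (nat_lit 442) (nat_lit 246))))) (XT.nd (nat_lit 234) (nat_lit 228) (nat_lit 0) (XT.nd (nat_lit 78) (nat_lit 76) (nat_lit 0) (XT.lf (nat_lit 0)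 (nat_lit 93866177537) (nat_lit 152) (nat_lit 6839148682) (nat_lit 76) (nat_lit 3447967290311) (nat_lit 15) (nat_lit 5) (nat_lit 17) (nat_lit 5) (nat_lit 16) (nat_lit 4) (nat_lit 513) (nat_lit 442) (nat_lit 245)) (XT.nd (nat_lit 78) (nat_lit 0) (nat_lit 0) (XT.lf (nat_lit 0) (nat_lit 933538232185) (nat_lit 152) (nat_lit 2084828875827) (nat_lit 0) (nat_lit 746426378614) (nat_lit 14) (nat_lit 5) (nat_lit 16) (nat_lit 4) (nat_lit 14) (nat_lit 4) (nat_lit 514) (nat_lit 442) (nat_lit 244)) (XT.lf (nat_lit 0) (nat_lit 1843191593842) (nat_lit 152) (nat_lit 498708092146) (nat_lit 0) (nat_lit 1656079736930) (nat_lit 14) (nat_lit 5) (nat_lit 16) (nat_lit 4) (nat_lit 14) (nat_lit 4) (nat_lit 515) (nat_lit 442) (nat_lit 243)))) (XT.nd (nat_lit 156) (nat_lit 152) (nat_lit 0) (XT.nd (nat_lit 78) (nat_lit 0) (nat_lit 0) (XT.lf (nat_lit 0) (nat_lit 1278245300822) (nat_lit 76) (nat_lit 1578113724609) (nat_lit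 76) (nat_lit 1391001864603) (nat_lit 13) (nat_lit 4) (nat_lit 14) (nat_lit 5) (nat_lit 14) (nat_lit 4) (nat_lit 516) (nat_lit 442) (nat_lit 242)) (XT.lf (nat_lit 0) (nat_lit 3225716877569) (nat_lit 76) (nat_lit 738498508527) (nat_lit 76) (nat_lit 551386645657) (nat_lit 13) (nat_lit 4) (nat_lit 14) (nat_lit 5) (nat_lit 14) (nat_lit 4) (nat_lit 517) (nat_lit 442) (nat_lit 241))) (XT.nd (nat_lit 78) (nat_lit 0) (nat_lit 0) (XT.lf (nat_lit 0) (nat_lit 355268779716) (nat_lit 152) (nat_lit 4265920892619) (nat_lit 0) (nat_lit 182017052381) (nat_lit 11) (nat_lit 5) (nat_lit 13) (nat_lit 4) (nat_lit 11) (nat_lit 4) (nat_lit 518) (nat_lit 442) (nat_lit 240)) (XT.lf (nat_lit 0) (nat_lit 1360032982274) (nat_lit 152) (nat_lit 2561430576192) (nat_lit 0) (nat_lit 1186781252665) (nat_lit 11) (nat_lit 5) (nat_lit 13) (nat_lit 4) (nat_lit 11) (nat_lit 4) (nat_lit 519) (nat_lit 442) (nat_lit 239)))))) (XT.nd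 (nat_lit 546) (nat_lit 228) (nat_lit 0) (XT.nd (nat_lit 234) (nat_lit 152) (nat_lit 0) (XT.nd (nat_lit 78) (nat_lit 76) (nat_lit 0) (XT.lf (nat_lit 0) (nat_lit 2445178296009) (nat_lit 152) (nat_lit 720581086160) (nat_lit 0) (nat_lit 2271926564294) (nat_lit 11) (nat_lit 5) (nat_lit 13) (nat_lit 4) (nat_lit 11) (nat_lit 4) (nat_lit 520) (nat_lit 442) (nat_lit 238)) (XT.nd (nat_lit 78) (nat_lit 0) (nat_lit 0) (XT.lf (nat_lit 0) (nat_lit 1334282531286) (nat_lit 76) (nat_lit 2314942207347) (nat_lit 76) (nat_lit 2141690473683) (nat_lit 10) (nat_lit 4) (nat_lit 11) (nat_lit 5) (nat_lit 11) (nat_lit 4) (nat_lit 521) (nat_lit 442) (nat_lit 237)) (XT.lf (nat_lit 0) (nat_lit 3594515276323) (nat_lit 76) (nat_lit 1374781561641) (nat_lit 76) (nat_lit 1201529826172) (nat_lit 10) (nat_lit 4) (nat_lit 11) (nat_lit 5) (nat_lit 11) (nat_lit 4) (nat_lit 522) (nat_lit 442) (nat_lit 236)))) (XT.nd (nat_lit 156)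 (nat_lit 0) (nat_lit 0) (XT.nd (nat_lit 78) (nat_lit 152) (nat_lit 0) (XT.lf (nat_lit 0) (nat_lit 6035566597754) (nat_lit 76) (nat_lit 359408086580) (nat_lit 76) (nat_lit 186156349440) (nat_lit 10) (nat_lit 4) (nat_lit 11) (nat_lit 5) (nat_lit 11) (nat_lit 4) (nat_lit 523) (nat_lit 442) (nat_lit 235)) (XT.lf (nat_lit 0) (nat_lit 925428204504) (nat_lit 152) (nat_lit 5327227883097) (nat_lit 0) (nat_lit 765009927941) (nat_lit 8) (nat_lit 5) (nat_lit 10) (nat_lit 4) (nat_lit 8) (nat_lit 4) (nat_lit 524) (nat_lit 442) (nat_lit 234))) (XT.nd (nat_lit 78) (nat_lit 0) (nat_lit 0) (XT.lf (nat_lit 0) (nat_lit 2140521645009) (nat_lit 152) (nat_lit 3366140813307) (nat_lit 0) (nat_lit 1980103367120) (nat_lit 8) (nat_lit 5) (nat_lit 10) (nat_lit 4) (nat_lit 8) (nat_lit 4) (nat_lit 525) (nat_lit 442) (nat_lit 233)) (XT.lf (nat_lit 0) (nat_lit 3452822542375) (nat_lit 152) (nat_lit 1248166815960) (nat_lit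 0) (nat_lit 3292404263257) (nat_lit 8) (nat_lit 5) (nat_lit 10) (nat_lit 4) (nat_lit 8) (nat_lit 4) (nat_lit 526) (nat_lit 442) (nat_lit 232))))) (XT.nd (nat_lit 312) (nat_lit 152) (nat_lit 0) (XT.nd (nat_lit 156) (nat_lit 0) (nat_lit 0) (XT.nd (nat_lit 78) (nat_lit 0) (nat_lit 0) (XT.lf (nat_lit 0) (nat_lit 1093969869441) (nat_lit 76) (nat_lit 3802447626741) (nat_lit 76) (nat_lit 3642029346486) (nat_lit 7) (nat_lit 4) (nat_lit 8) (nat_lit 5) (nat_lit 8) (nat_lit 4) (nat_lit 527) (nat_lit 442) (nat_lit 231)) (XT.lf (nat_lit 0) (nat_lit 3694461808152) (nat_lit 76) (nat_lit 2795165314249) (nat_lit 76) (nat_lit 2634747032941) (nat_lit 7) (nat_lit 4) (nat_lit 8) (nat_lit 5) (nat_lit 8) (nat_lit 4) (nat_lit 528) (nat_lit 442) (nat_lit 230))) (XT.nd (nat_lit 78) (nat_lit 0) (nat_lit 0) (XT.lf (nat_lit 0) (nat_lit 6502993070185) (nat_lit 76) (nat_lit 1707300433178) (nat_lit 76) (nat_lit 1546882150895)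 (nat_lit 7) (nat_lit 4) (nat_lit 8) (nat_lit 5) (nat_lit 8) (nat_lit 4) (nat_lit 529) (nat_lit 442) (nat_lit 229)) (XT.lf (nat_lit 0) (nat_lit 9536206803760) (nat_lit 76) (nat_lit 532406376825) (nat_lit 76) (nat_lit 371988093639) (nat_lit 7) (nat_lit 4) (nat_lit 8) (nat_lit 5) (nat_lit 8) (nat_lit 4) (nat_lit 530) (nat_lit 442) (nat_lit 228)))) (XT.nd (nat_lit 156) (nat_lit 0) (nat_lit 0) (XT.nd (nat_lit 78) (nat_lit 0) (nat_lit 0) (XT.lf (nat_lit 0) (nat_lit 912168740000) (nat_lit 152) (nat_lit 9496362263736) (nat_lit 0) (nat_lit 763633291831) (nat_lit 5) (nat_lit 5) (nat_lit 7) (nat_lit 4) (nat_lit 5) (nat_lit 4) (nat_lit 531) (nat_lit 442) (nat_lit 227)) (XT.lf (nat_lit 0) (nat_lit 2318159851510) (nat_lit 152) (nat_lit 7470559242187) (nat_lit 0) (nat_lit 2169624402625) (nat_lit 5) (nat_lit 5) (nat_lit 7) (nat_lit 4) (nat_lit 5) (nat_lit 4) (nat_lit 532) (nat_lit 442) (nat_lit 226))) (XT.nd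 (nat_lit 78) (nat_lit 0) (nat_lit 0) (XT.lf (nat_lit 0) (nat_lit 3836630239443) (nat_lit 152) (nat_lit 5282692004802) (nat_lit 0) (nat_lit 3688094789893) (nat_lit 5) (nat_lit 5) (nat_lit 7) (nat_lit 4) (nat_lit 5) (nat_lit 4) (nat_lit 533) (nat_lit 442) (nat_lit 225)) (XT.lf (nat_lit 0) (nat_lit 5476578246836) (nat_lit 152) (nat_lit 2919795412397) (nat_lit 0) (nat_lit 5328042796672) (nat_lit 5) (nat_lit 5) (nat_lit 7) (nat_lit 4) (nat_lit 5) (nat_lit 4) (nat_lit 534) (nat_lit 442) (nat_lit 224))))))))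
noncomputable def xc184 : XT := (XT.nd (nat_lit 57096) (nat_lit 0) (nat_lit 2128) (XT.nd (nat_lit 56004) (nat_lit 0) (nat_lit 4256) (XT.nd (nat_lit 55458) (nat_lit 0) (nat_lit 5928) (XT.nd (nat_lit 234) (nat_lit 0) (nat_lit 0) (XT.nd (nat_lit 78) (nat_lit 76) (nat_lit 0) (XT.lf (nat_lit 0) (nat_lit 7247722084105) (nat_lit 152) (nat_lit 367867114794) (nat_lit 0) (nat_lit 7099186633372) (nat_lit 5) (nat_lit 5) (nat_lit 7) (nat_lit 4) (nat_lit 5) (nat_lit 4) (nat_lit 535) (nat_lit 442) (nat_lit 223)) (XT.nd (nat_lit 78) (nat_lit 0) (nat_lit 0) (XT.lf (nat_lit 0) (nat_lit 2513974618121) (nat_lit 76) (nat_lit 6707043950338) (nat_lit 76) (nat_lit 6558508499078) (nat_lit 4) (nat_lit 4) (nat_lit 5) (nat_lit 5) (nat_lit 5) (nat_lit 4) (nat_lit 536) (nat_lit 442) (nat_lit 222)) (XT.lf (nat_lit 0) (nat_lit 5647284598416) (nat_lit 76) (nat_lit 5714952302311) (nat_lit 76) (nat_lit 5566416850563) (nat_lit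 4) (nat_lit 4) (nat_lit 5) (nat_lit 5) (nat_lit 5) (nat_lit 4) (nat_lit 537) (nat_lit 442) (nat_lit 221)))) (XT.nd (nat_lit 55068) (nat_lit 0) (nat_lit 6764) (XT.nd (nat_lit 78) (nat_lit 0) (nat_lit 0) (XT.lf (nat_lit 0) (nat_lit 9031259358588) (nat_lit 76) (nat_lit 4643493332037) (nat_lit 76) (nat_lit 4494957879837) (nat_lit 4) (nat_lit 4) (nat_lit 5) (nat_lit 5) (nat_lit 5) (nat_lit 4) (nat_lit 538) (nat_lit 442) (nat_lit 220)) (XT.lf (nat_lit 0) (nat_lit 12685952082401) (nat_lit 76) (nat_lit 3486317653023) (nat_lit 76) (nat_lit 3337782200406) (nat_lit 4) (nat_lit 4) (nat_lit 5) (nat_lit 5) (nat_lit 5) (nat_lit 4) (nat_lit 539) (nat_lit 442) (nat_lit 219))) (XT.nd (nat_lit 78) (nat_lit 0) (nat_lit 0) (XT.lf (nat_lit 0) (nat_lit 54797370884) (nat_lit 532) (nat_lit 377529223) (nat_lit 532) (nat_lit 377529223) (nat_lit 93) (nat_lit 3) (nat_lit 100) (nat_lit 3) (nat_lit 100) (nat_lit 5) (nat_lit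 443) (nat_lit 443) (nat_lit 314)) (XT.lf (nat_lit 76) (nat_lit 57449107603) (nat_lit 0) (nat_lit 57916082388) (nat_lit 532) (nat_lit 72929665) (nat_lit 94) (nat_lit 5) (nat_lit 93) (nat_lit 3) (nat_lit 100) (nat_lit 5) (nat_lit 444) (nat_lit 443) (nat_lit 313))))) (XT.nd (nat_lit 234) (nat_lit 304) (nat_lit 0) (XT.nd (nat_lit 78) (nat_lit 0) (nat_lit 76) (XT.lf (nat_lit 76) (nat_lit 210251411) (nat_lit 0) (nat_lit 1220700386) (nat_lit 608) (nat_lit 118682186432) (nat_lit 87) (nat_lit 5) (nat_lit 86) (nat_lit 5) (nat_lit 94) (nat_lit 5) (nat_lit 445) (nat_lit 443) (nat_lit 312)) (XT.nd (nat_lit 78) (nat_lit 0) (nat_lit 0) (XT.lf (nat_lit 0) (nat_lit 6120672662) (nat_lit 532) (nat_lit 60158648192) (nat_lit 608) (nat_lit 58637128430) (nat_lit 87) (nat_lit 5) (nat_lit 94) (nat_lit 5) (nat_lit 95) (nat_lit 5) (nat_lit 446) (nat_lit 443) (nat_lit 311)) (XT.lf (nat_lit 76) (nat_lit 4561274189)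 (nat_lit 0) (nat_lit 6765252981) (nat_lit 608) (nat_lit 118766221630) (nat_lit 88) (nat_lit 5) (nat_lit 87) (nat_lit 5) (nat_lit 95) (nat_lit 5) (nat_lit 447) (nat_lit 443) (nat_lit 310)))) (XT.nd (nat_lit 156) (nat_lit 456) (nat_lit 0) (XT.nd (nat_lit 78) (nat_lit 0) (nat_lit 0) (XT.lf (nat_lit 0) (nat_lit 20019111838) (nat_lit 532) (nat_lit 59097688079) (nat_lit 608) (nat_lit 56320731463) (nat_lit 88) (nat_lit 5) (nat_lit 95) (nat_lit 5) (nat_lit 96) (nat_lit 5) (nat_lit 448) (nat_lit 443) (nat_lit 309)) (XT.lf (nat_lit 76) (nat_lit 13131654379) (nat_lit 0) (nat_lit 16766596617) (nat_lit 608) (nat_lit 111272353800) (nat_lit 89) (nat_lit 5) (nat_lit 88) (nat_lit 5) (nat_lit 96) (nat_lit 5) (nat_lit 449) (nat_lit 443) (nat_lit 308))) (XT.nd (nat_lit 78) (nat_lit 532) (nat_lit 0) (XT.lf (nat_lit 0) (nat_lit 43441408079) (nat_lit 532) (nat_lit 53991340851) (nat_lit 76) (nat_lit 49699680254)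 (nat_lit 89) (nat_lit 5) (nat_lit 96) (nat_lit 5) (nat_lit 90) (nat_lit 5) (nat_lit 450) (nat_lit 443) (nat_lit 307)) (XT.lf (nat_lit 0) (nat_lit 26889375421) (nat_lit 532) (nat_lit 32260488419) (nat_lit 608) (nat_lit 94334788034) (nat_lit 82) (nat_lit 5) (nat_lit 89) (nat_lit 5) (nat_lit 90) (nat_lit 5) (nat_lit 451) (nat_lit 443) (nat_lit 306)))))) (XT.nd (nat_lit 546) (nat_lit 684) (nat_lit 0) (XT.nd (nat_lit 234) (nat_lit 760) (nat_lit 0) (XT.nd (nat_lit 78) (nat_lit 228) (nat_lit 0) (XT.lf (nat_lit 0) (nat_lit 78546156652) (nat_lit 608) (nat_lit 43871473697) (nat_lit 76) (nat_lit 37732929217) (nat_lit 82) (nat_lit 5) (nat_lit 90) (nat_lit 5) (nat_lit 83) (nat_lit 5) (nat_lit 452) (nat_lit 443) (nat_lit 305)) (XT.nd (nat_lit 78) (nat_lit 0) (nat_lit 0) (XT.lf (nat_lit 0) (nat_lit 46982225443) (nat_lit 228) (nat_lit 54479487564) (nat_lit 304) (nat_lit 65730622093) (nat_lit 79) (nat_lit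 5) (nat_lit 82) (nat_lit 5) (nat_lit 83) (nat_lit 5) (nat_lit 453) (nat_lit 443) (nat_lit 304)) (XT.lf (nat_lit 0) (nat_lit 127895304154) (nat_lit 304) (nat_lit 27588139715) (nat_lit 76) (nat_lit 19179225614) (nat_lit 79) (nat_lit 5) (nat_lit 83) (nat_lit 5) (nat_lit 80) (nat_lit 5) (nat_lit 454) (nat_lit 443) (nat_lit 303)))) (XT.nd (nat_lit 156) (nat_lit 456) (nat_lit 0) (XT.nd (nat_lit 78) (nat_lit 76) (nat_lit 0) (XT.lf (nat_lit 0) (nat_lit 74768452875) (nat_lit 228) (nat_lit 84888101361) (nat_lit 304) (nat_lit 22817038678) (nat_lit 76) (nat_lit 5) (nat_lit 79) (nat_lit 5) (nat_lit 80) (nat_lit 5) (nat_lit 455) (nat_lit 443) (nat_lit 302)) (XT.lf (nat_lit 0) (nat_lit 3670418875) (nat_lit 304) (nat_lit 4059749237) (nat_lit 76) (nat_lit 183111463742) (nat_lit 75) (nat_lit 5) (nat_lit 79) (nat_lit 5) (nat_lit 76) (nat_lit 5) (nat_lit 456) (nat_lit 443) (nat_lit 301))) (XT.nd (nat_lit 78)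 (nat_lit 228) (nat_lit 0) (XT.lf (nat_lit 0) (nat_lit 35664111987) (nat_lit 304) (nat_lit 88584828594) (nat_lit 76) (nat_lit 75213165185) (nat_lit 72) (nat_lit 5) (nat_lit 76) (nat_lit 5) (nat_lit 73) (nat_lit 5) (nat_lit 457) (nat_lit 443) (nat_lit 300)) (XT.lf (nat_lit 0) (nat_lit 27656327768) (nat_lit 228) (nat_lit 43540547047) (nat_lit 304) (nat_lit 137496976857) (nat_lit 69) (nat_lit 5) (nat_lit 72) (nat_lit 5) (nat_lit 73) (nat_lit 5) (nat_lit 458) (nat_lit 443) (nat_lit 299))))) (XT.nd (nat_lit 234) (nat_lit 532) (nat_lit 0) (XT.nd (nat_lit 78) (nat_lit 152) (nat_lit 0) (XT.lf (nat_lit 0) (nat_lit 113106186118) (nat_lit 304) (nat_lit 61348084159) (nat_lit 76) (nat_lit 43927152797) (nat_lit 69) (nat_lit 5) (nat_lit 73) (nat_lit 5) (nat_lit 70) (nat_lit 5) (nat_lit 459) (nat_lit 443) (nat_lit 298)) (XT.nd (nat_lit 78) (nat_lit 0) (nat_lit 0) (XT.lf (nat_lit 0) (nat_lit 70302100846)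 (nat_lit 152) (nat_lit 90887628043) (nat_lit 228) (nat_lit 67428552393) (nat_lit 67) (nat_lit 5) (nat_lit 69) (nat_lit 5) (nat_lit 70) (nat_lit 5) (nat_lit 460) (nat_lit 443) (nat_lit 297)) (XT.lf (nat_lit 0) (nat_lit 214825403462) (nat_lit 228) (nat_lit 23595247801) (nat_lit 76) (nat_lit 1117001028) (nat_lit 67) (nat_lit 5) (nat_lit 70) (nat_lit 5) (nat_lit 68) (nat_lit 5) (nat_lit 461) (nat_lit 443) (nat_lit 296)))) (XT.nd (nat_lit 156) (nat_lit 152) (nat_lit 0) (XT.nd (nat_lit 78) (nat_lit 152) (nat_lit 0) (XT.lf (nat_lit 0) (nat_lit 25876620042) (nat_lit 228) (nat_lit 125717459571) (nat_lit 76) (nat_lit 99253131115) (nat_lit 64) (nat_lit 5) (nat_lit 67) (nat_lit 5) (nat_lit 65) (nat_lit 5) (nat_lit 462) (nat_lit 443) (nat_lit 295)) (XT.lf (nat_lit 0) (nat_lit 24659367451) (nat_lit 152) (nat_lit 55772898635) (nat_lit 228) (nat_lit 182477535961) (nat_lit 62) (nat_lit 5) (nat_lit 64) (nat_lit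 5) (nat_lit 65) (nat_lit 5) (nat_lit 463) (nat_lit 443) (nat_lit 294))) (XT.nd (nat_lit 78) (nat_lit 152) (nat_lit 0) (XT.lf (nat_lit 0) (nat_lit 144026330507) (nat_lit 228) (nat_lit 82683488630) (nat_lit 76) (nat_lit 48853664212) (nat_lit 62) (nat_lit 5) (nat_lit 65) (nat_lit 5) (nat_lit 63) (nat_lit 5) (nat_lit 464) (nat_lit 443) (nat_lit 293)) (XT.lf (nat_lit 0) (nat_lit 88296879005) (nat_lit 152) (nat_lit 127983067595) (nat_lit 228) (nat_lit 72663750445) (nat_lit 60) (nat_lit 5) (nat_lit 62) (nat_lit 5) (nat_lit 63) (nat_lit 5) (nat_lit 465) (nat_lit 443) (nat_lit 292))))))) (XT.nd (nat_lit 1092) (nat_lit 988) (nat_lit 0) (XT.nd (nat_lit 546) (nat_lit 532) (nat_lit 0) (XT.nd (nat_lit 234) (nat_lit 304) (nat_lit 0) (XT.nd (nat_lit 78) (nat_lit 304) (nat_lit 0) (XT.lf (nat_lit 0) (nat_lit 277657710981) (nat_lit 152) (nat_lit 18916697890) (nat_lit 228) (nat_lit 6639074423) (nat_lit 60)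 (nat_lit 5) (nat_lit 62) (nat_lit 5) (nat_lit 63) (nat_lit 5) (nat_lit 466) (nat_lit 443) (nat_lit 291)) (XT.nd (nat_lit 78) (nat_lit 152) (nat_lit 0) (XT.lf (nat_lit 0) (nat_lit 68058289210) (nat_lit 152) (nat_lit 150180212206) (nat_lit 76) (nat_lit 99731878693) (nat_lit 58) (nat_lit 5) (nat_lit 60) (nat_lit 5) (nat_lit 59) (nat_lit 5) (nat_lit 467) (nat_lit 443) (nat_lit 290)) (XT.lf (nat_lit 0) (nat_lit 45814903895) (nat_lit 152) (nat_lit 104867791992) (nat_lit 228) (nat_lit 183026542396) (nat_lit 56) (nat_lit 5) (nat_lit 58) (nat_lit 5) (nat_lit 59) (nat_lit 5) (nat_lit 468) (nat_lit 443) (nat_lit 289)))) (XT.nd (nat_lit 156) (nat_lit 228) (nat_lit 0) (XT.nd (nat_lit 78) (nat_lit 76) (nat_lit 0) (XT.lf (nat_lit 0) (nat_lit 244552381135) (nat_lit 228) (nat_lit 84877717714) (nat_lit 76) (nat_lit 20906280188) (nat_lit 56) (nat_lit 5) (nat_lit 59) (nat_lit 5) (nat_lit 57) (nat_lit 4) (nat_lit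 469) (nat_lit 443) (nat_lit 288)) (XT.lf (nat_lit 0) (nat_lit 138588943993) (nat_lit 76) (nat_lit 213399471630) (nat_lit 152) (nat_lit 15820733481) (nat_lit 55) (nat_lit 5) (nat_lit 56) (nat_lit 5) (nat_lit 57) (nat_lit 4) (nat_lit 470) (nat_lit 443) (nat_lit 287))) (XT.nd (nat_lit 78) (nat_lit 152) (nat_lit 0) (XT.lf (nat_lit 0) (nat_lit 79651510986) (nat_lit 152) (nat_lit 3750798784) (nat_lit 76) (nat_lit 302930465104) (nat_lit 54) (nat_lit 5) (nat_lit 56) (nat_lit 5) (nat_lit 55) (nat_lit 5) (nat_lit 471) (nat_lit 443) (nat_lit 286)) (XT.lf (nat_lit 0) (nat_lit 189504830764) (nat_lit 228) (nat_lit 155410949885) (nat_lit 76) (nat_lit 60781793709) (nat_lit 52) (nat_lit 5) (nat_lit 55) (nat_lit 5) (nat_lit 53) (nat_lit 4) (nat_lit 472) (nat_lit 443) (nat_lit 285))))) (XT.nd (nat_lit 234) (nat_lit 228) (nat_lit 0) (XT.nd (nat_lit 78) (nat_lit 228) (nat_lit 0) (XT.lf (nat_lit 0) (nat_lit 101147644576)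 (nat_lit 76) (nat_lit 211702766784) (nat_lit 152) (nat_lit 113384826824) (nat_lit 51) (nat_lit 5) (nat_lit 52) (nat_lit 5) (nat_lit 53) (nat_lit 4) (nat_lit 473) (nat_lit 443) (nat_lit 284)) (XT.nd (nat_lit 78) (nat_lit 152) (nat_lit 0) (XT.lf (nat_lit 0) (nat_lit 2124855415) (nat_lit 152) (nat_lit 61060702983) (nat_lit 76) (nat_lit 384886125572) (nat_lit 50) (nat_lit 5) (nat_lit 52) (nat_lit 5) (nat_lit 51) (nat_lit 5) (nat_lit 474) (nat_lit 443) (nat_lit 283)) (XT.lf (nat_lit 0) (nat_lit 128907921838) (nat_lit 228) (nat_lit 240743366290) (nat_lit 76) (nat_lit 101115485635) (nat_lit 48) (nat_lit 5) (nat_lit 51) (nat_lit 5) (nat_lit 49) (nat_lit 4) (nat_lit 475) (nat_lit 443) (nat_lit 282)))) (XT.nd (nat_lit 156) (nat_lit 152) (nat_lit 0) (XT.nd (nat_lit 78) (nat_lit 0) (nat_lit 0) (XT.lf (nat_lit 0) (nat_lit 53725746611) (nat_lit 76) (nat_lit 216753939455) (nat_lit 152) (nat_lit 224426100477)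 (nat_lit 47) (nat_lit 5) (nat_lit 48) (nat_lit 5) (nat_lit 49) (nat_lit 4) (nat_lit 476) (nat_lit 443) (nat_lit 281)) (XT.lf (nat_lit 0) (nat_lit 385443483544) (nat_lit 76) (nat_lit 44515953493) (nat_lit 152) (nat_lit 90489903664) (nat_lit 47) (nat_lit 5) (nat_lit 48) (nat_lit 5) (nat_lit 49) (nat_lit 4) (nat_lit 477) (nat_lit 443) (nat_lit 280))) (XT.nd (nat_lit 78) (nat_lit 0) (nat_lit 0) (XT.lf (nat_lit 0) (nat_lit 59936961401) (nat_lit 152) (nat_lit 346509157169) (nat_lit 76) (nat_lit 140807243631) (nat_lit 45) (nat_lit 5) (nat_lit 47) (nat_lit 5) (nat_lit 46) (nat_lit 4) (nat_lit 478) (nat_lit 443) (nat_lit 279)) (XT.lf (nat_lit 0) (nat_lit 222452507915) (nat_lit 152) (nat_lit 8476935594) (nat_lit 76) (nat_lit 344688763952) (nat_lit 45) (nat_lit 5) (nat_lit 47) (nat_lit 5) (nat_lit 46) (nat_lit 4) (nat_lit 479) (nat_lit 443) (nat_lit 278)))))) (XT.nd (nat_lit 546) (nat_lit 456) (nat_lit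 0) (XT.nd (nat_lit 234) (nat_lit 304) (nat_lit 0) (XT.nd (nat_lit 78) (nat_lit 152) (nat_lit 0) (XT.lf (nat_lit 0) (nat_lit 375375494461) (nat_lit 76) (nat_lit 31621502251) (nat_lit 152) (nat_lit 198533027747) (nat_lit 44) (nat_lit 5) (nat_lit 45) (nat_lit 5) (nat_lit 46) (nat_lit 4) (nat_lit 480) (nat_lit 443) (nat_lit 277)) (XT.nd (nat_lit 78) (nat_lit 76) (nat_lit 0) (XT.lf (nat_lit 0) (nat_lit 155982307182) (nat_lit 76) (nat_lit 458728151695) (nat_lit 76) (nat_lit 22451894801) (nat_lit 43) (nat_lit 4) (nat_lit 44) (nat_lit 5) (nat_lit 44) (nat_lit 4) (nat_lit 481) (nat_lit 443) (nat_lit 276)) (XT.lf (nat_lit 0) (nat_lit 166603439491) (nat_lit 152) (nat_lit 89741187408) (nat_lit 76) (nat_lit 414075754497) (nat_lit 42) (nat_lit 5) (nat_lit 44) (nat_lit 5) (nat_lit 43) (nat_lit 4) (nat_lit 482) (nat_lit 443) (nat_lit 275)))) (XT.nd (nat_lit 156) (nat_lit 152) (nat_lit 0) (XT.nd (nat_lit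 78) (nat_lit 76) (nat_lit 0) (XT.lf (nat_lit 0) (nat_lit 349934600111) (nat_lit 76) (nat_lit 28051467219) (nat_lit 152) (nat_lit 327633062530) (nat_lit 41) (nat_lit 5) (nat_lit 42) (nat_lit 5) (nat_lit 43) (nat_lit 4) (nat_lit 483) (nat_lit 443) (nat_lit 274)) (XT.lf (nat_lit 0) (nat_lit 85403931702) (nat_lit 76) (nat_lit 530701726774) (nat_lit 76) (nat_lit 126742011482) (nat_lit 40) (nat_lit 4) (nat_lit 41) (nat_lit 5) (nat_lit 41) (nat_lit 4) (nat_lit 484) (nat_lit 443) (nat_lit 273))) (XT.nd (nat_lit 78) (nat_lit 76) (nat_lit 0) (XT.lf (nat_lit 0) (nat_lit 96413308766) (nat_lit 152) (nat_lit 203420095282) (nat_lit 76) (nat_lit 482191011452) (nat_lit 39) (nat_lit 5) (nat_lit 41) (nat_lit 5) (nat_lit 40) (nat_lit 4) (nat_lit 485) (nat_lit 443) (nat_lit 272)) (XT.lf (nat_lit 0) (nat_lit 298568916139) (nat_lit 76) (nat_lit 39185291203) (nat_lit 152) (nat_lit 485743292256) (nat_lit 38) (nat_lit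 5) (nat_lit 39) (nat_lit 5) (nat_lit 40) (nat_lit 4) (nat_lit 486) (nat_lit 443) (nat_lit 271))))) (XT.nd (nat_lit 234) (nat_lit 228) (nat_lit 0) (XT.nd (nat_lit 78) (nat_lit 228) (nat_lit 0) (XT.lf (nat_lit 0) (nat_lit 609936305565) (nat_lit 152) (nat_lit 21530038854) (nat_lit 0) (nat_lit 235899371785) (nat_lit 38) (nat_lit 5) (nat_lit 40) (nat_lit 4) (nat_lit 38) (nat_lit 4) (nat_lit 487) (nat_lit 443) (nat_lit 270)) (XT.nd (nat_lit 78) (nat_lit 76) (nat_lit 0) (XT.lf (nat_lit 0) (nat_lit 4272175542) (nat_lit 152) (nat_lit 365150854388) (nat_lit 76) (nat_lit 544174851463) (nat_lit 36) (nat_lit 5) (nat_lit 38) (nat_lit 5) (nat_lit 37) (nat_lit 4) (nat_lit 488) (nat_lit 443) (nat_lit 269)) (XT.lf (nat_lit 0) (nat_lit 205334942772) (nat_lit 76) (nat_lit 73209270996) (nat_lit 152) (nat_lit 684006111790) (nat_lit 35) (nat_lit 5) (nat_lit 36) (nat_lit 5) (nat_lit 37) (nat_lit 4) (nat_lit 489)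 (nat_lit 443) (nat_lit 268)))) (XT.nd (nat_lit 156) (nat_lit 152) (nat_lit 0) (XT.nd (nat_lit 78) (nat_lit 76) (nat_lit 0) (XT.lf (nat_lit 0) (nat_lit 590934317275) (nat_lit 152) (nat_lit 178586838640) (nat_lit 0) (nat_lit 244603705164) (nat_lit 35) (nat_lit 5) (nat_lit 37) (nat_lit 4) (nat_lit 35) (nat_lit 4) (nat_lit 490) (nat_lit 443) (nat_lit 267)) (XT.lf (nat_lit 0) (nat_lit 467833233954) (nat_lit 76) (nat_lit 473635270590) (nat_lit 76) (nat_lit 127304624861) (nat_lit 34) (nat_lit 4) (nat_lit 35) (nat_lit 5) (nat_lit 35) (nat_lit 4) (nat_lit 491) (nat_lit 443) (nat_lit 266))) (XT.nd (nat_lit 78) (nat_lit 0) (nat_lit 0) (XT.lf (nat_lit 0) (nat_lit 46285434104) (nat_lit 76) (nat_lit 142472311550) (nat_lit 152) (nat_lit 938175795195) (nat_lit 32) (nat_lit 5) (nat_lit 33) (nat_lit 5) (nat_lit 34) (nat_lit 4) (nat_lit 492) (nat_lit 443) (nat_lit 265)) (XT.lf (nat_lit 0) (nat_lit 545259992786)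 (nat_lit 152) (nat_lit 417876238410) (nat_lit 0) (nat_lit 224583413454) (nat_lit 32) (nat_lit 5) (nat_lit 34) (nat_lit 4) (nat_lit 32) (nat_lit 4) (nat_lit 493) (nat_lit 443) (nat_lit 264))))))))
noncomputable def xc185 : XT := (XT.nd (nat_lit 2184) (nat_lit 532) (nat_lit 0) (XT.nd (nat_lit 1092) (nat_lit 684) (nat_lit 0) (XT.nd (nat_lit 546) (nat_lit 456) (nat_lit 0) (XT.nd (nat_lit 234) (nat_lit 228) (nat_lit 0) (XT.nd (nat_lit 78) (nat_lit 152) (nat_lit 0) (XT.lf (nat_lit 0) (nat_lit 309709609370) (nat_lit 76) (nat_lit 631721853969) (nat_lit 76) (nat_lit 311045249926) (nat_lit 31) (nat_lit 4) (nat_lit 32) (nat_lit 5) (nat_lit 32) (nat_lit 4) (nat_lit 494) (nat_lit 443) (nat_lit 263)) (XT.nd (nat_lit 78) (nat_lit 76) (nat_lit 0) (XT.lf (nat_lit 0) (nat_lit 56259244643) (nat_lit 152) (nat_lit 203657398064) (nat_lit 76) (nat_lit 1061469728364) (nat_lit 30) (nat_lit 5) (nat_lit 32) (nat_lit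 5) (nat_lit 31) (nat_lit 4) (nat_lit 495) (nat_lit 443) (nat_lit 262)) (XT.lf (nat_lit 0) (nat_lit 454993458268) (nat_lit 152) (nat_lit 780590388929) (nat_lit 0) (nat_lit 158070635945) (nat_lit 29) (nat_lit 5) (nat_lit 31) (nat_lit 4) (nat_lit 29) (nat_lit 4) (nat_lit 496) (nat_lit 443) (nat_lit 261)))) (XT.nd (nat_lit 156) (nat_lit 152) (nat_lit 0) (XT.nd (nat_lit 78) (nat_lit 0) (nat_lit 0) (XT.lf (nat_lit 0) (nat_lit 30054530972) (nat_lit 76) (nat_lit 868758703814) (nat_lit 76) (nat_lit 571835863329) (nat_lit 28) (nat_lit 4) (nat_lit 29) (nat_lit 5) (nat_lit 29) (nat_lit 4) (nat_lit 497) (nat_lit 443) (nat_lit 260)) (XT.lf (nat_lit 0) (nat_lit 949943803457) (nat_lit 76) (nat_lit 449537461216) (nat_lit 76) (nat_lit 152614603913) (nat_lit 28) (nat_lit 4) (nat_lit 29) (nat_lit 5) (nat_lit 29) (nat_lit 4) (nat_lit 498) (nat_lit 443) (nat_lit 259))) (XT.nd (nat_lit 78) (nat_lit 0) (nat_lit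 0) (XT.lf (nat_lit 0) (nat_lit 293086974218) (nat_lit 152) (nat_lit 1327598975597) (nat_lit 0) (nat_lit 18158388222) (nat_lit 26) (nat_lit 5) (nat_lit 28) (nat_lit 4) (nat_lit 26) (nat_lit 4) (nat_lit 499) (nat_lit 443) (nat_lit 258)) (XT.lf (nat_lit 0) (nat_lit 794767311593) (nat_lit 152) (nat_lit 415324117099) (nat_lit 0) (nat_lit 519838712248) (nat_lit 26) (nat_lit 5) (nat_lit 28) (nat_lit 4) (nat_lit 26) (nat_lit 4) (nat_lit 500) (nat_lit 443) (nat_lit 257))))) (XT.nd (nat_lit 234) (nat_lit 228) (nat_lit 0) (XT.nd (nat_lit 78) (nat_lit 152) (nat_lit 0) (XT.lf (nat_lit 0) (nat_lit 599944277371) (nat_lit 76) (nat_lit 751066426105) (nat_lit 76) (nat_lit 476137814398) (nat_lit 25) (nat_lit 4) (nat_lit 26) (nat_lit 5) (nat_lit 26) (nat_lit 4) (nat_lit 501) (nat_lit 443) (nat_lit 256)) (XT.nd (nat_lit 78) (nat_lit 76) (nat_lit 0) (XT.lf (nat_lit 0) (nat_lit 30278873882) (nat_lit 152) (nat_lit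 211948565477) (nat_lit 76) (nat_lit 1688947149156) (nat_lit 24) (nat_lit 5) (nat_lit 26) (nat_lit 5) (nat_lit 25) (nat_lit 4) (nat_lit 502) (nat_lit 443) (nat_lit 255)) (XT.lf (nat_lit 0) (nat_lit 581850804614) (nat_lit 152) (nat_lit 1130966050745) (nat_lit 0) (nat_lit 327287254845) (nat_lit 23) (nat_lit 5) (nat_lit 25) (nat_lit 4) (nat_lit 23) (nat_lit 4) (nat_lit 503) (nat_lit 443) (nat_lit 254)))) (XT.nd (nat_lit 156) (nat_lit 152) (nat_lit 0) (XT.nd (nat_lit 78) (nat_lit 76) (nat_lit 0) (XT.lf (nat_lit 0) (nat_lit 1189785638565) (nat_lit 152) (nat_lit 31761303452) (nat_lit 0) (nat_lit 935222079710) (nat_lit 23) (nat_lit 5) (nat_lit 25) (nat_lit 4) (nat_lit 23) (nat_lit 4) (nat_lit 504) (nat_lit 443) (nat_lit 253)) (XT.lf (nat_lit 0) (nat_lit 1216219991541) (nat_lit 76) (nat_lit 659385347748) (nat_lit 76) (nat_lit 404821780480) (nat_lit 22) (nat_lit 4) (nat_lit 23) (nat_lit 5) (nat_lit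 23) (nat_lit 4) (nat_lit 505) (nat_lit 443) (nat_lit 252))) (XT.nd (nat_lit 78) (nat_lit 0) (nat_lit 0) (XT.lf (nat_lit 0) (nat_lit 154792788534) (nat_lit 76) (nat_lit 42013155500) (nat_lit 152) (nat_lit 2216413575757) (nat_lit 20) (nat_lit 5) (nat_lit 21) (nat_lit 5) (nat_lit 22) (nat_lit 4) (nat_lit 506) (nat_lit 443) (nat_lit 251)) (XT.lf (nat_lit 0) (nat_lit 869571262650) (nat_lit 152) (nat_lit 1048768357649) (nat_lit 0) (nat_lit 633864242030) (nat_lit 20) (nat_lit 5) (nat_lit 22) (nat_lit 4) (nat_lit 20) (nat_lit 4) (nat_lit 507) (nat_lit 443) (nat_lit 250)))))) (XT.nd (nat_lit 546) (nat_lit 304) (nat_lit 0) (XT.nd (nat_lit 234) (nat_lit 152) (nat_lit 0) (XT.nd (nat_lit 78) (nat_lit 152) (nat_lit 0) (XT.lf (nat_lit 0) (nat_lit 270081952340) (nat_lit 76) (nat_lit 1333662545715) (nat_lit 76) (nat_lit 1097955518911) (nat_lit 19) (nat_lit 4) (nat_lit 20) (nat_lit 5) (nat_lit 20) (nat_lit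 4) (nat_lit 508) (nat_lit 443) (nat_lit 249)) (XT.nd (nat_lit 78) (nat_lit 152) (nat_lit 0) (XT.lf (nat_lit 0) (nat_lit 1754084599028) (nat_lit 76) (nat_lit 671242142759) (nat_lit 76) (nat_lit 435535110228) (nat_lit 19) (nat_lit 4) (nat_lit 20) (nat_lit 5) (nat_lit 20) (nat_lit 4) (nat_lit 509) (nat_lit 443) (nat_lit 248)) (XT.lf (nat_lit 0) (nat_lit 275357456206) (nat_lit 152) (nat_lit 2698992154889) (nat_lit 0) (nat_lit 57110198954) (nat_lit 17) (nat_lit 5) (nat_lit 19) (nat_lit 4) (nat_lit 17) (nat_lit 4) (nat_lit 510) (nat_lit 443) (nat_lit 247)))) (XT.nd (nat_lit 156) (nat_lit 76) (nat_lit 0) (XT.nd (nat_lit 78) (nat_lit 76) (nat_lit 0) (XT.lf (nat_lit 0) (nat_lit 1068073304120) (nat_lit 152) (nat_lit 1293022683486) (nat_lit 0) (nat_lit 849826042322) (nat_lit 17) (nat_lit 5) (nat_lit 19) (nat_lit 4) (nat_lit 17) (nat_lit 4) (nat_lit 511) (nat_lit 443) (nat_lit 246)) (XT.lf (nat_lit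 0) (nat_lit 237294723704) (nat_lit 76) (nat_lit 1692618608362) (nat_lit 76) (nat_lit 1474371342356) (nat_lit 16) (nat_lit 4) (nat_lit 17) (nat_lit 5) (nat_lit 17) (nat_lit 4) (nat_lit 512) (nat_lit 443) (nat_lit 245))) (XT.nd (nat_lit 78) (nat_lit 76) (nat_lit 0) (XT.lf (nat_lit 0) (nat_lit 1963572805789) (nat_lit 76) (nat_lit 932481257261) (nat_lit 76) (nat_lit 714233987359) (nat_lit 16) (nat_lit 4) (nat_lit 17) (nat_lit 5) (nat_lit 17) (nat_lit 4) (nat_lit 513) (nat_lit 443) (nat_lit 244)) (XT.lf (nat_lit 0) (nat_lit 101376042497) (nat_lit 152) (nat_lit 7385105115) (nat_lit 76) (nat_lit 3723805232579) (nat_lit 15) (nat_lit 5) (nat_lit 17) (nat_lit 5) (nat_lit 16) (nat_lit 4) (nat_lit 514) (nat_lit 443) (nat_lit 243))))) (XT.nd (nat_lit 234) (nat_lit 152) (nat_lit 0) (XT.nd (nat_lit 78) (nat_lit 76) (nat_lit 0) (XT.lf (nat_lit 0) (nat_lit 1008221860975) (nat_lit 152) (nat_lit 2251614009887)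 (nat_lit 0) (nat_lit 806141049075) (nat_lit 14) (nat_lit 5) (nat_lit 16) (nat_lit 4) (nat_lit 14) (nat_lit 4) (nat_lit 515) (nat_lit 443) (nat_lit 242)) (XT.nd (nat_lit 78) (nat_lit 76) (nat_lit 0) (XT.lf (nat_lit 0) (nat_lit 1990647449326) (nat_lit 152) (nat_lit 538603650623) (nat_lit 0) (nat_lit 1788566634562) (nat_lit 14) (nat_lit 5) (nat_lit 16) (nat_lit 4) (nat_lit 14) (nat_lit 4) (nat_lit 516) (nat_lit 443) (nat_lit 241)) (XT.lf (nat_lit 0) (nat_lit 1380505986215) (nat_lit 76) (nat_lit 1704362275642) (nat_lit 76) (nat_lit 1502281458226) (nat_lit 13) (nat_lit 4) (nat_lit 14) (nat_lit 5) (nat_lit 14) (nat_lit 4) (nat_lit 517) (nat_lit 443) (nat_lit 240)))) (XT.nd (nat_lit 156) (nat_lit 0) (nat_lit 0) (XT.nd (nat_lit 78) (nat_lit 152) (nat_lit 0) (XT.lf (nat_lit 0) (nat_lit 3483775210486) (nat_lit 76) (nat_lit 797577882788) (nat_lit 76) (nat_lit 595497062916) (nat_lit 13) (nat_lit 4)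 (nat_lit 14) (nat_lit 5) (nat_lit 14) (nat_lit 4) (nat_lit 518) (nat_lit 443) (nat_lit 239)) (XT.lf (nat_lit 0) (nat_lit 383690770386) (nat_lit 152) (nat_lit 4607193555214) (nat_lit 0) (nat_lit 196578898029) (nat_lit 11) (nat_lit 5) (nat_lit 13) (nat_lit 4) (nat_lit 11) (nat_lit 4) (nat_lit 519) (nat_lit 443) (nat_lit 238))) (XT.nd (nat_lit 78) (nat_lit 0) (nat_lit 0) (XT.lf (nat_lit 0) (nat_lit 1468836072979) (nat_lit 152) (nat_lit 2766344088200) (nat_lit 0) (nat_lit 1281724198673) (nat_lit 11) (nat_lit 5) (nat_lit 13) (nat_lit 4) (nat_lit 11) (nat_lit 4) (nat_lit 520) (nat_lit 443) (nat_lit 237)) (XT.lf (nat_lit 0) (nat_lit 2640792978321) (nat_lit 152) (nat_lit 778226708157) (nat_lit 0) (nat_lit 2453681102210) (nat_lit 11) (nat_lit 5) (nat_lit 13) (nat_lit 4) (nat_lit 11) (nat_lit 4) (nat_lit 521) (nat_lit 443) (nat_lit 236))))))) (XT.nd (nat_lit 1092) (nat_lit 76) (nat_lit 0) (XT.nd (nat_lit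 546) (nat_lit 152) (nat_lit 0) (XT.nd (nat_lit 234) (nat_lit 228) (nat_lit 0) (XT.nd (nat_lit 78) (nat_lit 0) (nat_lit 0) (XT.lf (nat_lit 0) (nat_lit 1441025976789) (nat_lit 76) (nat_lit 2500137148832) (nat_lit 76) (nat_lit 2313025271049) (nat_lit 10) (nat_lit 4) (nat_lit 11) (nat_lit 5) (nat_lit 11) (nat_lit 4) (nat_lit 522) (nat_lit 443) (nat_lit 235)) (XT.nd (nat_lit 78) (nat_lit 0) (nat_lit 0) (XT.lf (nat_lit 0) (nat_lit 3882077278984) (nat_lit 76) (nat_lit 1484763683699) (nat_lit 76) (nat_lit 1297651804369) (nat_lit 10) (nat_lit 4) (nat_lit 11) (nat_lit 5) (nat_lit 11) (nat_lit 4) (nat_lit 523) (nat_lit 443) (nat_lit 234)) (XT.lf (nat_lit 0) (nat_lit 6518412648310) (nat_lit 76) (nat_lit 388160360475) (nat_lit 76) (nat_lit 201048479712) (nat_lit 10) (nat_lit 4) (nat_lit 11) (nat_lit 5) (nat_lit 11) (nat_lit 4) (nat_lit 524) (nat_lit 443) (nat_lit 233)))) (XT.nd (nat_lit 156) (nat_lit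 76) (nat_lit 0) (XT.nd (nat_lit 78) (nat_lit 0) (nat_lit 0) (XT.lf (nat_lit 0) (nat_lit 999462819438) (nat_lit 152) (nat_lit 5753405371898) (nat_lit 0) (nat_lit 826211076762) (nat_lit 8) (nat_lit 5) (nat_lit 10) (nat_lit 4) (nat_lit 8) (nat_lit 4) (nat_lit 525) (nat_lit 443) (nat_lit 232)) (XT.lf (nat_lit 0) (nat_lit 2311763708622) (nat_lit 152) (nat_lit 3635431391477) (nat_lit 0) (nat_lit 2138511964809) (nat_lit 8) (nat_lit 5) (nat_lit 10) (nat_lit 4) (nat_lit 8) (nat_lit 4) (nat_lit 526) (nat_lit 443) (nat_lit 231))) (XT.nd (nat_lit 78) (nat_lit 76) (nat_lit 0) (XT.lf (nat_lit 0) (nat_lit 3729048653184) (nat_lit 152) (nat_lit 1348019525223) (nat_lit 0) (nat_lit 3555796908318) (nat_lit 8) (nat_lit 5) (nat_lit 10) (nat_lit 4) (nat_lit 8) (nat_lit 4) (nat_lit 527) (nat_lit 443) (nat_lit 230)) (XT.lf (nat_lit 0) (nat_lit 1181488078908) (nat_lit 76) (nat_lit 4106643116525) (nat_lit 76) (nat_lit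 3933391370683) (nat_lit 7) (nat_lit 4) (nat_lit 8) (nat_lit 5) (nat_lit 8) (nat_lit 4) (nat_lit 528) (nat_lit 443) (nat_lit 229))))) (XT.nd (nat_lit 234) (nat_lit 152) (nat_lit 0) (XT.nd (nat_lit 78) (nat_lit 0) (nat_lit 0) (XT.lf (nat_lit 0) (nat_lit 3990019326797) (nat_lit 76) (nat_lit 3018778242763) (nat_lit 76) (nat_lit 2845526496019) (nat_lit 7) (nat_lit 4) (nat_lit 8) (nat_lit 5) (nat_lit 8) (nat_lit 4) (nat_lit 529) (nat_lit 443) (nat_lit 228)) (XT.nd (nat_lit 78) (nat_lit 0) (nat_lit 0) (XT.lf (nat_lit 0) (nat_lit 7023233047275) (nat_lit 76) (nat_lit 1843884193179) (nat_lit 76) (nat_lit 1670632445599) (nat_lit 7) (nat_lit 4) (nat_lit 8) (nat_lit 5) (nat_lit 8) (nat_lit 4) (nat_lit 530) (nat_lit 443) (nat_lit 227)) (XT.lf (nat_lit 0) (nat_lit 10299103840167) (nat_lit 76) (nat_lit 574998632663) (nat_lit 76) (nat_lit 401746884308) (nat_lit 7) (nat_lit 4) (nat_lit 8) (nat_lit 5) (nat_lit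 8) (nat_lit 4) (nat_lit 531) (nat_lit 443) (nat_lit 226)))) (XT.nd (nat_lit 156) (nat_lit 0) (nat_lit 0) (XT.nd (nat_lit 78) (nat_lit 0) (nat_lit 0) (XT.lf (nat_lit 0) (nat_lit 985142483058) (nat_lit 152) (nat_lit 10256070739765) (nat_lit 0) (nat_lit 824724196881) (nat_lit 5) (nat_lit 5) (nat_lit 7) (nat_lit 4) (nat_lit 5) (nat_lit 4) (nat_lit 532) (nat_lit 443) (nat_lit 225)) (XT.lf (nat_lit 0) (nat_lit 2503612865426) (nat_lit 152) (nat_lit 8068203513904) (nat_lit 0) (nat_lit 2343194578634) (nat_lit 5) (nat_lit 5) (nat_lit 7) (nat_lit 4) (nat_lit 5) (nat_lit 4) (nat_lit 533) (nat_lit 443) (nat_lit 224))) (XT.nd (nat_lit 78) (nat_lit 0) (nat_lit 0) (XT.lf (nat_lit 0) (nat_lit 4143560867667) (nat_lit 152) (nat_lit 5705306932169) (nat_lit 0) (nat_lit 3983142580306) (nat_lit 5) (nat_lit 5) (nat_lit 7) (nat_lit 4) (nat_lit 5) (nat_lit 4) (nat_lit 534) (nat_lit 443) (nat_lit 223)) (XT.lf (nat_lit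 0) (nat_lit 5914704700165) (nat_lit 152) (nat_lit 3153378644447) (nat_lit 0) (nat_lit 5754286412278) (nat_lit 5) (nat_lit 5) (nat_lit 7) (nat_lit 4) (nat_lit 5) (nat_lit 4) (nat_lit 535) (nat_lit 443) (nat_lit 222)))))) (XT.nd (nat_lit 55536) (nat_lit 0) (nat_lit 5700) (XT.nd (nat_lit 234) (nat_lit 0) (nat_lit 0) (XT.nd (nat_lit 78) (nat_lit 76) (nat_lit 0) (XT.lf (nat_lit 0) (nat_lit 7827540030076) (nat_lit 152) (nat_lit 397296112735) (nat_lit 0) (nat_lit 7667121741701) (nat_lit 5) (nat_lit 5) (nat_lit 7) (nat_lit 4) (nat_lit 5) (nat_lit 4) (nat_lit 536) (nat_lit 443) (nat_lit 221)) (XT.nd (nat_lit 78) (nat_lit 0) (nat_lit 0) (XT.lf (nat_lit 0) (nat_lit 2715092949414) (nat_lit 76) (nat_lit 7243607279189) (nat_lit 76) (nat_lit 7083188990362) (nat_lit 4) (nat_lit 4) (nat_lit 5) (nat_lit 5) (nat_lit 5) (nat_lit 4) (nat_lit 537) (nat_lit 443) (nat_lit 220)) (XT.lf (nat_lit 0) (nat_lit 6099067701330)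 (nat_lit 76) (nat_lit 6172148313186) (nat_lit 76) (nat_lit 6011730023940) (nat_lit 4) (nat_lit 4) (nat_lit 5) (nat_lit 5) (nat_lit 5) (nat_lit 4) (nat_lit 538) (nat_lit 443) (nat_lit 219)))) (XT.nd (nat_lit 55146) (nat_lit 0) (nat_lit 6232) (XT.nd (nat_lit 55068) (nat_lit 0) (nat_lit 6764) (XT.lf (nat_lit 0) (nat_lit 9753760417498) (nat_lit 76) (nat_lit 5014972638127) (nat_lit 76) (nat_lit 4854554348494) (nat_lit 4) (nat_lit 4) (nat_lit 5) (nat_lit 5) (nat_lit 5) (nat_lit 4) (nat_lit 539) (nat_lit 443) (nat_lit 218)) (XT.lf (nat_lit 0) (nat_lit 59186046290) (nat_lit 532) (nat_lit 405092938) (nat_lit 532) (nat_lit 405092938) (nat_lit 93) (nat_lit 3) (nat_lit 100) (nat_lit 3) (nat_lit 100) (nat_lit 5) (nat_lit 444) (nat_lit 444) (nat_lit 312))) (XT.nd (nat_lit 78) (nat_lit 532) (nat_lit 0) (XT.lf (nat_lit 76) (nat_lit 62050179855) (nat_lit 0) (nat_lit 62553396697) (nat_lit 532) (nat_lit 68857760)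 (nat_lit 94) (nat_lit 5) (nat_lit 93) (nat_lit 3) (nat_lit 100) (nat_lit 5) (nat_lit 445) (nat_lit 444) (nat_lit 311)) (XT.lf (nat_lit 76) (nat_lit 232569045) (nat_lit 0) (nat_lit 1321704746) (nat_lit 608) (nat_lit 128167206793) (nat_lit 87) (nat_lit 5) (nat_lit 86) (nat_lit 5) (nat_lit 94) (nat_lit 5) (nat_lit 446) (nat_lit 444) (nat_lit 310))))) (XT.nd (nat_lit 312) (nat_lit 608) (nat_lit 0) (XT.nd (nat_lit 156) (nat_lit 0) (nat_lit 76) (XT.nd (nat_lit 78) (nat_lit 0) (nat_lit 0) (XT.lf (nat_lit 0) (nat_lit 6618442515) (nat_lit 532) (nat_lit 64965518981) (nat_lit 608) (nat_lit 63325153490) (nat_lit 87) (nat_lit 5) (nat_lit 94) (nat_lit 5) (nat_lit 95) (nat_lit 5) (nat_lit 447) (nat_lit 444) (nat_lit 309)) (XT.lf (nat_lit 76) (nat_lit 4931849821) (nat_lit 0) (nat_lit 7308450826) (nat_lit 608) (nat_lit 128259255064) (nat_lit 88) (nat_lit 5) (nat_lit 87) (nat_lit 5) (nat_lit 95) (nat_lit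 5) (nat_lit 448) (nat_lit 444) (nat_lit 308))) (XT.nd (nat_lit 78) (nat_lit 0) (nat_lit 0) (XT.lf (nat_lit 0) (nat_lit 21627681288) (nat_lit 532) (nat_lit 63819638079) (nat_lit 608) (nat_lit 60824650462) (nat_lit 88) (nat_lit 5) (nat_lit 95) (nat_lit 5) (nat_lit 96) (nat_lit 5) (nat_lit 449) (nat_lit 444) (nat_lit 307)) (XT.lf (nat_lit 76) (nat_lit 14187903294) (nat_lit 0) (nat_lit 18108864250) (nat_lit 608) (nat_lit 120166952359) (nat_lit 89) (nat_lit 5) (nat_lit 88) (nat_lit 5) (nat_lit 96) (nat_lit 5) (nat_lit 450) (nat_lit 444) (nat_lit 306)))) (XT.nd (nat_lit 156) (nat_lit 228) (nat_lit 0) (XT.nd (nat_lit 78) (nat_lit 532) (nat_lit 0) (XT.lf (nat_lit 0) (nat_lit 46922863191) (nat_lit 532) (nat_lit 58304840297) (nat_lit 76) (nat_lit 53674827929) (nat_lit 89) (nat_lit 5) (nat_lit 96) (nat_lit 5) (nat_lit 90) (nat_lit 5) (nat_lit 451) (nat_lit 444) (nat_lit 305)) (XT.lf (nat_lit 0) (nat_lit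 29046186243) (nat_lit 532) (nat_lit 34841490314) (nat_lit 608) (nat_lit 101875280926) (nat_lit 82) (nat_lit 5) (nat_lit 89) (nat_lit 5) (nat_lit 90) (nat_lit 5) (nat_lit 452) (nat_lit 444) (nat_lit 304))) (XT.nd (nat_lit 78) (nat_lit 228) (nat_lit 0) (XT.lf (nat_lit 0) (nat_lit 84835237790) (nat_lit 608) (nat_lit 47375514514) (nat_lit 76) (nat_lit 40751420335) (nat_lit 82) (nat_lit 5) (nat_lit 90) (nat_lit 5) (nat_lit 83) (nat_lit 5) (nat_lit 453) (nat_lit 444) (nat_lit 303)) (XT.lf (nat_lit 0) (nat_lit 50746336833) (nat_lit 228) (nat_lit 58837435741) (nat_lit 304) (nat_lit 70983538972) (nat_lit 79) (nat_lit 5) (nat_lit 82) (nat_lit 5) (nat_lit 83) (nat_lit 5) (nat_lit 454) (nat_lit 444) (nat_lit 302))))))))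
noncomputable def xc186 : XT := (XT.nd (nat_lit 2184) (nat_lit 1976) (nat_lit 0) (XT.nd (nat_lit 1092) (nat_lit 1140) (nat_lit 0) (XT.nd (nat_lit 546) (nat_lit 684) (nat_lit 0) (XT.nd (nat_lit 234) (nat_lit 608) (nat_lit 0) (XT.nd (nat_lit 78) (nat_lit 304) (nat_lit 0) (XT.lf (nat_lit 0) (nat_lit 138131680715) (nat_lit 304) (nat_lit 29789696599) (nat_lit 76) (nat_lit 20713925031) (nat_lit 79) (nat_lit 5) (nat_lit 83) (nat_lit 5) (nat_lit 80) (nat_lit 5) (nat_lit 455) (nat_lit 444) (nat_lit 301)) (XT.nd (nat_lit 78) (nat_lit 76) (nat_lit 0) (XT.lf (nat_lit 0) (nat_lit 80755284301) (nat_lit 228) (nat_lit 91678323279) (nat_lit 304) (nat_lit 24637509968) (nat_lit 76) (nat_lit 5) (nat_lit 79) (nat_lit 5) (nat_lit 80) (nat_lit 5) (nat_lit 456) (nat_lit 444) (nat_lit 300)) (XT.lf (nat_lit 0) (nat_lit 3968355252) (nat_lit 304) (nat_lit 4379343668) (nat_lit 76) (nat_lit 197760918842) (nat_lit 75)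 (nat_lit 5) (nat_lit 79) (nat_lit 5) (nat_lit 76) (nat_lit 5) (nat_lit 457) (nat_lit 444) (nat_lit 299)))) (XT.nd (nat_lit 156) (nat_lit 152) (nat_lit 0) (XT.nd (nat_lit 78) (nat_lit 228) (nat_lit 0) (XT.lf (nat_lit 0) (nat_lit 38521369449) (nat_lit 304) (nat_lit 95666254630) (nat_lit 76) (nat_lit 81231119488) (nat_lit 72) (nat_lit 5) (nat_lit 76) (nat_lit 5) (nat_lit 73) (nat_lit 5) (nat_lit 458) (nat_lit 444) (nat_lit 298)) (XT.lf (nat_lit 0) (nat_lit 29874058539) (nat_lit 228) (nat_lit 47022514600) (nat_lit 304) (nat_lit 148492470448) (nat_lit 69) (nat_lit 5) (nat_lit 72) (nat_lit 5) (nat_lit 73) (nat_lit 5) (nat_lit 459) (nat_lit 444) (nat_lit 297))) (XT.nd (nat_lit 78) (nat_lit 152) (nat_lit 0) (XT.lf (nat_lit 0) (nat_lit 122158365296) (nat_lit 304) (nat_lit 66250828970) (nat_lit 76) (nat_lit 47442447585) (nat_lit 69) (nat_lit 5) (nat_lit 73) (nat_lit 5) (nat_lit 70) (nat_lit 5) (nat_lit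 460) (nat_lit 444) (nat_lit 296)) (XT.lf (nat_lit 0) (nat_lit 75931241673) (nat_lit 152) (nat_lit 98157196500) (nat_lit 228) (nat_lit 72819022831) (nat_lit 67) (nat_lit 5) (nat_lit 69) (nat_lit 5) (nat_lit 70) (nat_lit 5) (nat_lit 461) (nat_lit 444) (nat_lit 295))))) (XT.nd (nat_lit 234) (nat_lit 304) (nat_lit 0) (XT.nd (nat_lit 78) (nat_lit 380) (nat_lit 0) (XT.lf (nat_lit 0) (nat_lit 232014737266) (nat_lit 228) (nat_lit 25478033491) (nat_lit 76) (nat_lit 1207629316) (nat_lit 67) (nat_lit 5) (nat_lit 70) (nat_lit 5) (nat_lit 68) (nat_lit 5) (nat_lit 462) (nat_lit 444) (nat_lit 294)) (XT.nd (nat_lit 78) (nat_lit 152) (nat_lit 0) (XT.lf (nat_lit 0) (nat_lit 27950002523) (nat_lit 228) (nat_lit 135769973055) (nat_lit 76) (nat_lit 107194751538) (nat_lit 64) (nat_lit 5) (nat_lit 67) (nat_lit 5) (nat_lit 65) (nat_lit 5) (nat_lit 463) (nat_lit 444) (nat_lit 293)) (XT.lf (nat_lit 0) (nat_lit 26636876501)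 (nat_lit 152) (nat_lit 60233097266) (nat_lit 228) (nat_lit 197072362111) (nat_lit 62) (nat_lit 5) (nat_lit 64) (nat_lit 5) (nat_lit 65) (nat_lit 5) (nat_lit 464) (nat_lit 444) (nat_lit 292)))) (XT.nd (nat_lit 156) (nat_lit 152) (nat_lit 0) (XT.nd (nat_lit 78) (nat_lit 152) (nat_lit 0) (XT.lf (nat_lit 0) (nat_lit 155551368127) (nat_lit 228) (nat_lit 89293565214) (nat_lit 76) (nat_lit 52763393977) (nat_lit 62) (nat_lit 5) (nat_lit 65) (nat_lit 5) (nat_lit 63) (nat_lit 5) (nat_lit 465) (nat_lit 444) (nat_lit 291)) (XT.lf (nat_lit 0) (nat_lit 95365115313) (nat_lit 152) (nat_lit 138220048957) (nat_lit 228) (nat_lit 78473802592) (nat_lit 60) (nat_lit 5) (nat_lit 62) (nat_lit 5) (nat_lit 63) (nat_lit 5) (nat_lit 466) (nat_lit 444) (nat_lit 290))) (XT.nd (nat_lit 78) (nat_lit 152) (nat_lit 0) (XT.lf (nat_lit 0) (nat_lit 299874481552) (nat_lit 152) (nat_lit 20428492939) (nat_lit 228) (nat_lit 7167378258)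 (nat_lit 60) (nat_lit 5) (nat_lit 62) (nat_lit 5) (nat_lit 63) (nat_lit 5) (nat_lit 467) (nat_lit 444) (nat_lit 289)) (XT.lf (nat_lit 0) (nat_lit 73505573942) (nat_lit 152) (nat_lit 162190274653) (nat_lit 76) (nat_lit 107711952044) (nat_lit 58) (nat_lit 5) (nat_lit 60) (nat_lit 5) (nat_lit 59) (nat_lit 5) (nat_lit 468) (nat_lit 444) (nat_lit 288)))))) (XT.nd (nat_lit 546) (nat_lit 532) (nat_lit 0) (XT.nd (nat_lit 234) (nat_lit 380) (nat_lit 0) (XT.nd (nat_lit 78) (nat_lit 76) (nat_lit 0) (XT.lf (nat_lit 0) (nat_lit 49484340496) (nat_lit 152) (nat_lit 113255500541) (nat_lit 228) (nat_lit 197665933811) (nat_lit 56) (nat_lit 5) (nat_lit 58) (nat_lit 5) (nat_lit 59) (nat_lit 5) (nat_lit 469) (nat_lit 444) (nat_lit 287)) (XT.nd (nat_lit 78) (nat_lit 76) (nat_lit 0) (XT.lf (nat_lit 0) (nat_lit 264118951922) (nat_lit 228) (nat_lit 91663855922) (nat_lit 76) (nat_lit 22580290963) (nat_lit 56) (nat_lit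 5) (nat_lit 59) (nat_lit 5) (nat_lit 57) (nat_lit 4) (nat_lit 470) (nat_lit 444) (nat_lit 286)) (XT.lf (nat_lit 0) (nat_lit 149680035451) (nat_lit 76) (nat_lit 230469753022) (nat_lit 152) (nat_lit 17083908472) (nat_lit 55) (nat_lit 5) (nat_lit 56) (nat_lit 5) (nat_lit 57) (nat_lit 4) (nat_lit 471) (nat_lit 444) (nat_lit 285)))) (XT.nd (nat_lit 156) (nat_lit 152) (nat_lit 0) (XT.nd (nat_lit 78) (nat_lit 152) (nat_lit 0) (XT.lf (nat_lit 0) (nat_lit 86025816534) (nat_lit 152) (nat_lit 4047066119) (nat_lit 76) (nat_lit 327166339334) (nat_lit 54) (nat_lit 5) (nat_lit 56) (nat_lit 5) (nat_lit 55) (nat_lit 5) (nat_lit 472) (nat_lit 444) (nat_lit 284)) (XT.lf (nat_lit 0) (nat_lit 204667367269) (nat_lit 228) (nat_lit 167839994587) (nat_lit 76) (nat_lit 65645846351) (nat_lit 52) (nat_lit 5) (nat_lit 55) (nat_lit 5) (nat_lit 53) (nat_lit 4) (nat_lit 473) (nat_lit 444) (nat_lit 283))) (XT.nd (nat_lit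 78) (nat_lit 76) (nat_lit 0) (XT.lf (nat_lit 0) (nat_lit 109243190436) (nat_lit 76) (nat_lit 228637334425) (nat_lit 152) (nat_lit 122453365843) (nat_lit 51) (nat_lit 5) (nat_lit 52) (nat_lit 5) (nat_lit 53) (nat_lit 4) (nat_lit 474) (nat_lit 444) (nat_lit 282)) (XT.lf (nat_lit 0) (nat_lit 2296820437) (nat_lit 152) (nat_lit 65941997383) (nat_lit 76) (nat_lit 415678442665) (nat_lit 50) (nat_lit 5) (nat_lit 52) (nat_lit 5) (nat_lit 51) (nat_lit 5) (nat_lit 475) (nat_lit 444) (nat_lit 281))))) (XT.nd (nat_lit 234) (nat_lit 304) (nat_lit 0) (XT.nd (nat_lit 78) (nat_lit 76) (nat_lit 0) (XT.lf (nat_lit 0) (nat_lit 139222506724) (nat_lit 228) (nat_lit 259999248234) (nat_lit 76) (nat_lit 109206204545) (nat_lit 48) (nat_lit 5) (nat_lit 51) (nat_lit 5) (nat_lit 49) (nat_lit 4) (nat_lit 476) (nat_lit 444) (nat_lit 280)) (XT.nd (nat_lit 78) (nat_lit 0) (nat_lit 0) (XT.lf (nat_lit 0) (nat_lit 58027302880)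 (nat_lit 76) (nat_lit 234092648774) (nat_lit 152) (nat_lit 242378146492) (nat_lit 47) (nat_lit 5) (nat_lit 48) (nat_lit 5) (nat_lit 49) (nat_lit 4) (nat_lit 477) (nat_lit 444) (nat_lit 279)) (XT.lf (nat_lit 0) (nat_lit 416282199764) (nat_lit 76) (nat_lit 48075742886) (nat_lit 152) (nat_lit 97727205195) (nat_lit 47) (nat_lit 5) (nat_lit 48) (nat_lit 5) (nat_lit 49) (nat_lit 4) (nat_lit 478) (nat_lit 444) (nat_lit 278)))) (XT.nd (nat_lit 156) (nat_lit 152) (nat_lit 0) (XT.nd (nat_lit 78) (nat_lit 0) (nat_lit 0) (XT.lf (nat_lit 0) (nat_lit 64733695784) (nat_lit 152) (nat_lit 374226538808) (nat_lit 76) (nat_lit 152073254336) (nat_lit 45) (nat_lit 5) (nat_lit 47) (nat_lit 5) (nat_lit 46) (nat_lit 4) (nat_lit 479) (nat_lit 444) (nat_lit 277)) (XT.lf (nat_lit 0) (nat_lit 240250354355) (nat_lit 152) (nat_lit 9151987724) (nat_lit 76) (nat_lit 372265190266) (nat_lit 45) (nat_lit 5) (nat_lit 47) (nat_lit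 5) (nat_lit 46) (nat_lit 4) (nat_lit 480) (nat_lit 444) (nat_lit 276))) (XT.nd (nat_lit 78) (nat_lit 76) (nat_lit 0) (XT.lf (nat_lit 0) (nat_lit 405408558185) (nat_lit 76) (nat_lit 34149794891) (nat_lit 152) (nat_lit 214413945566) (nat_lit 44) (nat_lit 5) (nat_lit 45) (nat_lit 5) (nat_lit 46) (nat_lit 4) (nat_lit 481) (nat_lit 444) (nat_lit 275)) (XT.lf (nat_lit 0) (nat_lit 168463930439) (nat_lit 76) (nat_lit 495424948376) (nat_lit 76) (nat_lit 24246336459) (nat_lit 43) (nat_lit 4) (nat_lit 44) (nat_lit 5) (nat_lit 44) (nat_lit 4) (nat_lit 482) (nat_lit 444) (nat_lit 274))))))) (XT.nd (nat_lit 1092) (nat_lit 988) (nat_lit 0) (XT.nd (nat_lit 546) (nat_lit 456) (nat_lit 0) (XT.nd (nat_lit 234) (nat_lit 304) (nat_lit 0) (XT.nd (nat_lit 78) (nat_lit 152) (nat_lit 0) (XT.lf (nat_lit 0) (nat_lit 179933218715) (nat_lit 152) (nat_lit 96917589569) (nat_lit 76) (nat_lit 447203083263) (nat_lit 42)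 (nat_lit 5) (nat_lit 44) (nat_lit 5) (nat_lit 43) (nat_lit 4) (nat_lit 483) (nat_lit 444) (nat_lit 273)) (XT.nd (nat_lit 78) (nat_lit 76) (nat_lit 0) (XT.lf (nat_lit 0) (nat_lit 377932187715) (nat_lit 76) (nat_lit 30294225465) (nat_lit 152) (nat_lit 353842130200) (nat_lit 41) (nat_lit 5) (nat_lit 42) (nat_lit 5) (nat_lit 43) (nat_lit 4) (nat_lit 484) (nat_lit 444) (nat_lit 272)) (XT.lf (nat_lit 0) (nat_lit 92239076502) (nat_lit 76) (nat_lit 573156485267) (nat_lit 76) (nat_lit 136879805707) (nat_lit 40) (nat_lit 4) (nat_lit 41) (nat_lit 5) (nat_lit 41) (nat_lit 4) (nat_lit 485) (nat_lit 444) (nat_lit 271)))) (XT.nd (nat_lit 156) (nat_lit 152) (nat_lit 0) (XT.nd (nat_lit 78) (nat_lit 76) (nat_lit 0) (XT.lf (nat_lit 0) (nat_lit 104127751543) (nat_lit 152) (nat_lit 219691009697) (nat_lit 76) (nat_lit 520767497229) (nat_lit 39) (nat_lit 5) (nat_lit 41) (nat_lit 5) (nat_lit 40) (nat_lit 4) (nat_lit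 486) (nat_lit 444) (nat_lit 270)) (XT.lf (nat_lit 0) (nat_lit 322457054455) (nat_lit 76) (nat_lit 42318828602) (nat_lit 152) (nat_lit 524601309355) (nat_lit 38) (nat_lit 5) (nat_lit 39) (nat_lit 5) (nat_lit 40) (nat_lit 4) (nat_lit 487) (nat_lit 444) (nat_lit 269))) (XT.nd (nat_lit 78) (nat_lit 152) (nat_lit 0) (XT.lf (nat_lit 0) (nat_lit 658732478578) (nat_lit 152) (nat_lit 23249940803) (nat_lit 0) (nat_lit 254772452613) (nat_lit 38) (nat_lit 5) (nat_lit 40) (nat_lit 4) (nat_lit 38) (nat_lit 4) (nat_lit 488) (nat_lit 444) (nat_lit 268)) (XT.lf (nat_lit 0) (nat_lit 4615214867) (nat_lit 152) (nat_lit 394360418253) (nat_lit 76) (nat_lit 587709977543) (nat_lit 36) (nat_lit 5) (nat_lit 38) (nat_lit 5) (nat_lit 37) (nat_lit 4) (nat_lit 489) (nat_lit 444) (nat_lit 267))))) (XT.nd (nat_lit 234) (nat_lit 304) (nat_lit 0) (XT.nd (nat_lit 78) (nat_lit 76) (nat_lit 0) (XT.lf (nat_lit 0) (nat_lit 221764179275)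 (nat_lit 76) (nat_lit 79064801859) (nat_lit 152) (nat_lit 738725272030) (nat_lit 35) (nat_lit 5) (nat_lit 36) (nat_lit 5) (nat_lit 37) (nat_lit 4) (nat_lit 490) (nat_lit 444) (nat_lit 266)) (XT.nd (nat_lit 78) (nat_lit 76) (nat_lit 0) (XT.lf (nat_lit 0) (nat_lit 638210228754) (nat_lit 152) (nat_lit 192871461287) (nat_lit 0) (nat_lit 264173066621) (nat_lit 35) (nat_lit 5) (nat_lit 37) (nat_lit 4) (nat_lit 35) (nat_lit 4) (nat_lit 491) (nat_lit 444) (nat_lit 265)) (XT.lf (nat_lit 0) (nat_lit 505262158268) (nat_lit 76) (nat_lit 511524960847) (nat_lit 76) (nat_lit 137487769891) (nat_lit 34) (nat_lit 4) (nat_lit 35) (nat_lit 5) (nat_lit 35) (nat_lit 4) (nat_lit 492) (nat_lit 444) (nat_lit 264)))) (XT.nd (nat_lit 156) (nat_lit 152) (nat_lit 0) (XT.nd (nat_lit 78) (nat_lit 0) (nat_lit 0) (XT.lf (nat_lit 0) (nat_lit 49990536812) (nat_lit 76) (nat_lit 153868960521) (nat_lit 152) (nat_lit 1013228636207)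 (nat_lit 32) (nat_lit 5) (nat_lit 33) (nat_lit 5) (nat_lit 34) (nat_lit 4) (nat_lit 493) (nat_lit 444) (nat_lit 263)) (XT.lf (nat_lit 0) (nat_lit 588881865679) (nat_lit 152) (nat_lit 451304178931) (nat_lit 0) (nat_lit 242551085722) (nat_lit 32) (nat_lit 5) (nat_lit 34) (nat_lit 4) (nat_lit 32) (nat_lit 4) (nat_lit 494) (nat_lit 444) (nat_lit 262))) (XT.nd (nat_lit 78) (nat_lit 76) (nat_lit 0) (XT.lf (nat_lit 0) (nat_lit 334488482025) (nat_lit 76) (nat_lit 682258542935) (nat_lit 76) (nat_lit 335927741792) (nat_lit 31) (nat_lit 4) (nat_lit 32) (nat_lit 5) (nat_lit 32) (nat_lit 4) (nat_lit 495) (nat_lit 444) (nat_lit 261)) (XT.lf (nat_lit 0) (nat_lit 60760976524) (nat_lit 152) (nat_lit 219947989586) (nat_lit 76) (nat_lit 1146388235252) (nat_lit 30) (nat_lit 5) (nat_lit 32) (nat_lit 5) (nat_lit 31) (nat_lit 4) (nat_lit 496) (nat_lit 444) (nat_lit 260)))))) (XT.nd (nat_lit 546) (nat_lit 532)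 (nat_lit 0) (XT.nd (nat_lit 234) (nat_lit 304) (nat_lit 0) (XT.nd (nat_lit 78) (nat_lit 76) (nat_lit 0) (XT.lf (nat_lit 0) (nat_lit 491393924289) (nat_lit 152) (nat_lit 843035616762) (nat_lit 0) (nat_lit 170717221585) (nat_lit 29) (nat_lit 5) (nat_lit 31) (nat_lit 4) (nat_lit 29) (nat_lit 4) (nat_lit 497) (nat_lit 444) (nat_lit 259)) (XT.nd (nat_lit 78) (nat_lit 0) (nat_lit 0) (XT.lf (nat_lit 0) (nat_lit 32460846015) (nat_lit 76) (nat_lit 938258410588) (nat_lit 76) (nat_lit 617581692311) (nat_lit 28) (nat_lit 4) (nat_lit 29) (nat_lit 5) (nat_lit 29) (nat_lit 4) (nat_lit 498) (nat_lit 444) (nat_lit 258)) (XT.lf (nat_lit 0) (nat_lit 1025941115665) (nat_lit 76) (nat_lit 485499541881) (nat_lit 76) (nat_lit 164822809186) (nat_lit 28) (nat_lit 4) (nat_lit 29) (nat_lit 5) (nat_lit 29) (nat_lit 4) (nat_lit 499) (nat_lit 444) (nat_lit 257)))) (XT.nd (nat_lit 156) (nat_lit 152) (nat_lit 0) (XT.nd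 (nat_lit 78) (nat_lit 0) (nat_lit 0) (XT.lf (nat_lit 0) (nat_lit 316534844853) (nat_lit 152) (nat_lit 1433805035358) (nat_lit 0) (nat_lit 19611931848) (nat_lit 26) (nat_lit 5) (nat_lit 28) (nat_lit 4) (nat_lit 26) (nat_lit 4) (nat_lit 500) (nat_lit 444) (nat_lit 256)) (XT.lf (nat_lit 0) (nat_lit 858349541611) (nat_lit 152) (nat_lit 448548325831) (nat_lit 0) (nat_lit 561426617160) (nat_lit 26) (nat_lit 5) (nat_lit 28) (nat_lit 4) (nat_lit 26) (nat_lit 4) (nat_lit 501) (nat_lit 444) (nat_lit 255))) (XT.nd (nat_lit 78) (nat_lit 76) (nat_lit 0) (XT.lf (nat_lit 0) (nat_lit 647941496637) (nat_lit 76) (nat_lit 811150885942) (nat_lit 76) (nat_lit 514227950894) (nat_lit 25) (nat_lit 4) (nat_lit 26) (nat_lit 5) (nat_lit 26) (nat_lit 4) (nat_lit 502) (nat_lit 444) (nat_lit 254)) (XT.lf (nat_lit 0) (nat_lit 32701965461) (nat_lit 152) (nat_lit 228902856700) (nat_lit 76) (nat_lit 1824063670896) (nat_lit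 24) (nat_lit 5) (nat_lit 26) (nat_lit 5) (nat_lit 25) (nat_lit 4) (nat_lit 503) (nat_lit 444) (nat_lit 253))))) (XT.nd (nat_lit 312) (nat_lit 228) (nat_lit 0) (XT.nd (nat_lit 156) (nat_lit 228) (nat_lit 0) (XT.nd (nat_lit 78) (nat_lit 0) (nat_lit 0) (XT.lf (nat_lit 0) (nat_lit 628399649176) (nat_lit 152) (nat_lit 1221441739310) (nat_lit 0) (nat_lit 353470988114) (nat_lit 23) (nat_lit 5) (nat_lit 25) (nat_lit 4) (nat_lit 23) (nat_lit 4) (nat_lit 504) (nat_lit 444) (nat_lit 252)) (XT.lf (nat_lit 0) (nat_lit 1284969212052) (nat_lit 152) (nat_lit 34300730418) (nat_lit 0) (nat_lit 1010040543200) (nat_lit 23) (nat_lit 5) (nat_lit 25) (nat_lit 4) (nat_lit 23) (nat_lit 4) (nat_lit 505) (nat_lit 444) (nat_lit 251))) (XT.nd (nat_lit 78) (nat_lit 152) (nat_lit 0) (XT.lf (nat_lit 0) (nat_lit 1313519030774) (nat_lit 76) (nat_lit 712135439178) (nat_lit 76) (nat_lit 437206763113) (nat_lit 22) (nat_lit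 4) (nat_lit 23) (nat_lit 5) (nat_lit 23) (nat_lit 4) (nat_lit 506) (nat_lit 444) (nat_lit 250)) (XT.lf (nat_lit 0) (nat_lit 167177652122) (nat_lit 76) (nat_lit 45373470409) (nat_lit 152) (nat_lit 2393725902603) (nat_lit 20) (nat_lit 5) (nat_lit 21) (nat_lit 5) (nat_lit 22) (nat_lit 4) (nat_lit 507) (nat_lit 444) (nat_lit 249)))) (XT.nd (nat_lit 156) (nat_lit 152) (nat_lit 0) (XT.nd (nat_lit 78) (nat_lit 76) (nat_lit 0) (XT.lf (nat_lit 0) (nat_lit 939137630988) (nat_lit 152) (nat_lit 1132668456808) (nat_lit 0) (nat_lit 684574030130) (nat_lit 20) (nat_lit 5) (nat_lit 22) (nat_lit 4) (nat_lit 20) (nat_lit 4) (nat_lit 508) (nat_lit 444) (nat_lit 248)) (XT.lf (nat_lit 0) (nat_lit 291689843311) (nat_lit 76) (nat_lit 1440354864585) (nat_lit 76) (nat_lit 1185791258425) (nat_lit 19) (nat_lit 4) (nat_lit 20) (nat_lit 5) (nat_lit 20) (nat_lit 4) (nat_lit 509) (nat_lit 444) (nat_lit 247))) (XT.nd (nat_lit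 78) (nat_lit 152) (nat_lit 0) (XT.lf (nat_lit 0) (nat_lit 1894412602861) (nat_lit 76) (nat_lit 724940880117) (nat_lit 76) (nat_lit 470377269048) (nat_lit 19) (nat_lit 4) (nat_lit 20) (nat_lit 5) (nat_lit 20) (nat_lit 4) (nat_lit 510) (nat_lit 444) (nat_lit 246)) (XT.lf (nat_lit 0) (nat_lit 297386669447) (nat_lit 152) (nat_lit 2914910258112) (nat_lit 0) (nat_lit 61679617953) (nat_lit 17) (nat_lit 5) (nat_lit 19) (nat_lit 4) (nat_lit 17) (nat_lit 4) (nat_lit 511) (nat_lit 444) (nat_lit 245))))))))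
noncomputable def xc187 : XT := (XT.nd (nat_lit 57252) (nat_lit 0) (nat_lit 3800) (XT.nd (nat_lit 1092) (nat_lit 456) (nat_lit 0) (XT.nd (nat_lit 546) (nat_lit 228) (nat_lit 0) (XT.nd (nat_lit 234) (nat_lit 228) (nat_lit 0) (XT.nd (nat_lit 78) (nat_lit 76) (nat_lit 0) (XT.lf (nat_lit 0) (nat_lit 1153519739509) (nat_lit 152) (nat_lit 1396463323009) (nat_lit 0) (nat_lit 917812684118) (nat_lit 17) (nat_lit 5) (nat_lit 19) (nat_lit 4) (nat_lit 17) (nat_lit 4) (nat_lit 512) (nat_lit 444) (nat_lit 244)) (XT.nd (nat_lit 78) (nat_lit 0) (nat_lit 0) (XT.lf (nat_lit 0) (nat_lit 256279447005) (nat_lit 76) (nat_lit 1828027507932) (nat_lit 76) (nat_lit 1592320448932) (nat_lit 16) (nat_lit 4) (nat_lit 17) (nat_lit 5) (nat_lit 17) (nat_lit 4) (nat_lit 513) (nat_lit 444) (nat_lit 243)) (XT.lf (nat_lit 0) (nat_lit 2120659690813) (nat_lit 76) (nat_lit 1007079212380) (nat_lit 76) (nat_lit 771372150039) (nat_lit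 16) (nat_lit 4) (nat_lit 17) (nat_lit 5) (nat_lit 17) (nat_lit 4) (nat_lit 514) (nat_lit 444) (nat_lit 242)))) (XT.nd (nat_lit 156) (nat_lit 76) (nat_lit 0) (XT.nd (nat_lit 78) (nat_lit 76) (nat_lit 0) (XT.lf (nat_lit 0) (nat_lit 109486615230) (nat_lit 152) (nat_lit 7974905755) (nat_lit 76) (nat_lit 4021710130473) (nat_lit 15) (nat_lit 5) (nat_lit 17) (nat_lit 5) (nat_lit 16) (nat_lit 4) (nat_lit 515) (nat_lit 444) (nat_lit 241)) (XT.lf (nat_lit 0) (nat_lit 1088880098720) (nat_lit 152) (nat_lit 2431742122442) (nat_lit 0) (nat_lit 870632813259) (nat_lit 14) (nat_lit 5) (nat_lit 16) (nat_lit 4) (nat_lit 14) (nat_lit 4) (nat_lit 516) (nat_lit 444) (nat_lit 240))) (XT.nd (nat_lit 78) (nat_lit 76) (nat_lit 0) (XT.lf (nat_lit 0) (nat_lit 2149899697927) (nat_lit 152) (nat_lit 581691009121) (nat_lit 0) (nat_lit 1931652410010) (nat_lit 14) (nat_lit 5) (nat_lit 16) (nat_lit 4) (nat_lit 14) (nat_lit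 4) (nat_lit 517) (nat_lit 444) (nat_lit 239)) (XT.lf (nat_lit 0) (nat_lit 1490947375030) (nat_lit 76) (nat_lit 1840710788784) (nat_lit 76) (nat_lit 1622463498594) (nat_lit 13) (nat_lit 4) (nat_lit 14) (nat_lit 5) (nat_lit 14) (nat_lit 4) (nat_lit 518) (nat_lit 444) (nat_lit 238))))) (XT.nd (nat_lit 234) (nat_lit 76) (nat_lit 0) (XT.nd (nat_lit 78) (nat_lit 152) (nat_lit 0) (XT.lf (nat_lit 0) (nat_lit 3762478069841) (nat_lit 76) (nat_lit 861383679236) (nat_lit 76) (nat_lit 643136386940) (nat_lit 13) (nat_lit 4) (nat_lit 14) (nat_lit 5) (nat_lit 14) (nat_lit 4) (nat_lit 519) (nat_lit 444) (nat_lit 237)) (XT.nd (nat_lit 78) (nat_lit 0) (nat_lit 0) (XT.lf (nat_lit 0) (nat_lit 414386450649) (nat_lit 152) (nat_lit 4975768174736) (nat_lit 0) (nat_lit 212305622644) (nat_lit 11) (nat_lit 5) (nat_lit 13) (nat_lit 4) (nat_lit 11) (nat_lit 4) (nat_lit 520) (nat_lit 444) (nat_lit 236)) (XT.lf (nat_lit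 0) (nat_lit 1586343346439) (nat_lit 152) (nat_lit 2987650814427) (nat_lit 0) (nat_lit 1384262516763) (nat_lit 11) (nat_lit 5) (nat_lit 13) (nat_lit 4) (nat_lit 11) (nat_lit 4) (nat_lit 521) (nat_lit 444) (nat_lit 235)))) (XT.nd (nat_lit 156) (nat_lit 0) (nat_lit 0) (XT.nd (nat_lit 78) (nat_lit 76) (nat_lit 0) (XT.lf (nat_lit 0) (nat_lit 2852056775497) (nat_lit 152) (nat_lit 840484103301) (nat_lit 0) (nat_lit 2649975944273) (nat_lit 11) (nat_lit 5) (nat_lit 13) (nat_lit 4) (nat_lit 11) (nat_lit 4) (nat_lit 522) (nat_lit 444) (nat_lit 234)) (XT.lf (nat_lit 0) (nat_lit 1556308777669) (nat_lit 76) (nat_lit 2700147747707) (nat_lit 76) (nat_lit 2498066915051) (nat_lit 10) (nat_lit 4) (nat_lit 11) (nat_lit 5) (nat_lit 11) (nat_lit 4) (nat_lit 523) (nat_lit 444) (nat_lit 233))) (XT.nd (nat_lit 78) (nat_lit 0) (nat_lit 0) (XT.lf (nat_lit 0) (nat_lit 4192644130504) (nat_lit 76) (nat_lit 1603544432996)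 (nat_lit 76) (nat_lit 1401463599012) (nat_lit 10) (nat_lit 4) (nat_lit 11) (nat_lit 5) (nat_lit 11) (nat_lit 4) (nat_lit 524) (nat_lit 444) (nat_lit 232)) (XT.lf (nat_lit 0) (nat_lit 7039886279805) (nat_lit 76) (nat_lit 419212869499) (nat_lit 76) (nat_lit 217132034287) (nat_lit 10) (nat_lit 4) (nat_lit 11) (nat_lit 5) (nat_lit 11) (nat_lit 4) (nat_lit 525) (nat_lit 444) (nat_lit 231)))))) (XT.nd (nat_lit 546) (nat_lit 228) (nat_lit 0) (XT.nd (nat_lit 234) (nat_lit 76) (nat_lit 0) (XT.nd (nat_lit 78) (nat_lit 0) (nat_lit 0) (XT.lf (nat_lit 0) (nat_lit 1079420152412) (nat_lit 152) (nat_lit 6213677165636) (nat_lit 0) (nat_lit 892308266904) (nat_lit 8) (nat_lit 5) (nat_lit 10) (nat_lit 4) (nat_lit 8) (nat_lit 4) (nat_lit 526) (nat_lit 444) (nat_lit 230)) (XT.nd (nat_lit 78) (nat_lit 0) (nat_lit 0) (XT.lf (nat_lit 0) (nat_lit 2496705089960) (nat_lit 152) (nat_lit 3926265313894) (nat_lit 0) (nat_lit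 2309593203476) (nat_lit 8) (nat_lit 5) (nat_lit 10) (nat_lit 4) (nat_lit 8) (nat_lit 4) (nat_lit 527) (nat_lit 444) (nat_lit 229)) (XT.lf (nat_lit 0) (nat_lit 4027372809002) (nat_lit 152) (nat_lit 1455860541961) (nat_lit 0) (nat_lit 3840260921615) (nat_lit 8) (nat_lit 5) (nat_lit 10) (nat_lit 4) (nat_lit 8) (nat_lit 4) (nat_lit 528) (nat_lit 444) (nat_lit 228)))) (XT.nd (nat_lit 156) (nat_lit 0) (nat_lit 0) (XT.nd (nat_lit 78) (nat_lit 0) (nat_lit 0) (XT.lf (nat_lit 0) (nat_lit 1276007656696) (nat_lit 76) (nat_lit 4435174291194) (nat_lit 76) (nat_lit 4248062402971) (nat_lit 7) (nat_lit 4) (nat_lit 8) (nat_lit 5) (nat_lit 8) (nat_lit 4) (nat_lit 529) (nat_lit 444) (nat_lit 227)) (XT.lf (nat_lit 0) (nat_lit 4309221365047) (nat_lit 76) (nat_lit 3260280247876) (nat_lit 76) (nat_lit 3073168358879) (nat_lit 7) (nat_lit 4) (nat_lit 8) (nat_lit 5) (nat_lit 8) (nat_lit 4) (nat_lit 530) (nat_lit 444)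 (nat_lit 226))) (XT.nd (nat_lit 78) (nat_lit 0) (nat_lit 0) (XT.lf (nat_lit 0) (nat_lit 7585092146711) (nat_lit 76) (nat_lit 1991394693162) (nat_lit 76) (nat_lit 1804282803449) (nat_lit 7) (nat_lit 4) (nat_lit 8) (nat_lit 5) (nat_lit 8) (nat_lit 4) (nat_lit 531) (nat_lit 444) (nat_lit 225)) (XT.lf (nat_lit 0) (nat_lit 11123032569283) (nat_lit 76) (nat_lit 620998305247) (nat_lit 76) (nat_lit 433886414870) (nat_lit 7) (nat_lit 4) (nat_lit 8) (nat_lit 5) (nat_lit 8) (nat_lit 4) (nat_lit 532) (nat_lit 444) (nat_lit 224))))) (XT.nd (nat_lit 234) (nat_lit 76) (nat_lit 0) (XT.nd (nat_lit 78) (nat_lit 0) (nat_lit 0) (XT.lf (nat_lit 0) (nat_lit 1063954090771) (nat_lit 152) (nat_lit 11076555965929) (nat_lit 0) (nat_lit 890702339853) (nat_lit 5) (nat_lit 5) (nat_lit 7) (nat_lit 4) (nat_lit 5) (nat_lit 4) (nat_lit 533) (nat_lit 444) (nat_lit 223)) (XT.nd (nat_lit 78) (nat_lit 0) (nat_lit 0) (XT.lf (nat_lit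 0) (nat_lit 2703902088242) (nat_lit 152) (nat_lit 8713659394075) (nat_lit 0) (nat_lit 2530650336797) (nat_lit 5) (nat_lit 5) (nat_lit 7) (nat_lit 4) (nat_lit 5) (nat_lit 4) (nat_lit 534) (nat_lit 444) (nat_lit 222)) (XT.lf (nat_lit 0) (nat_lit 4475045916324) (nat_lit 152) (nat_lit 6161731115501) (nat_lit 0) (nat_lit 4301794164390) (nat_lit 5) (nat_lit 5) (nat_lit 7) (nat_lit 4) (nat_lit 5) (nat_lit 4) (nat_lit 535) (nat_lit 444) (nat_lit 221)))) (XT.nd (nat_lit 156) (nat_lit 76) (nat_lit 0) (XT.nd (nat_lit 78) (nat_lit 0) (nat_lit 0) (XT.lf (nat_lit 0) (nat_lit 6387881242144) (nat_lit 152) (nat_lit 3405648592260) (nat_lit 0) (nat_lit 6214629489759) (nat_lit 5) (nat_lit 5) (nat_lit 7) (nat_lit 4) (nat_lit 5) (nat_lit 4) (nat_lit 536) (nat_lit 444) (nat_lit 220)) (XT.lf (nat_lit 0) (nat_lit 8453743386154) (nat_lit 152) (nat_lit 429079483474) (nat_lit 0) (nat_lit 8280491633351) (nat_lit 5)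 (nat_lit 5) (nat_lit 7) (nat_lit 4) (nat_lit 5) (nat_lit 4) (nat_lit 537) (nat_lit 444) (nat_lit 219))) (XT.nd (nat_lit 78) (nat_lit 0) (nat_lit 0) (XT.lf (nat_lit 0) (nat_lit 2932300695590) (nat_lit 76) (nat_lit 7823095701052) (nat_lit 76) (nat_lit 7649843947861) (nat_lit 4) (nat_lit 4) (nat_lit 5) (nat_lit 5) (nat_lit 5) (nat_lit 4) (nat_lit 538) (nat_lit 444) (nat_lit 218)) (XT.lf (nat_lit 0) (nat_lit 6586993404679) (nat_lit 76) (nat_lit 6665920029655) (nat_lit 76) (nat_lit 6492668276106) (nat_lit 4) (nat_lit 4) (nat_lit 5) (nat_lit 5) (nat_lit 5) (nat_lit 4) (nat_lit 539) (nat_lit 444) (nat_lit 217))))))) (XT.nd (nat_lit 1092) (nat_lit 1596) (nat_lit 0) (XT.nd (nat_lit 546) (nat_lit 836) (nat_lit 0) (XT.nd (nat_lit 234) (nat_lit 0) (nat_lit 76) (XT.nd (nat_lit 78) (nat_lit 532) (nat_lit 0) (XT.lf (nat_lit 0) (nat_lit 63925118723) (nat_lit 532) (nat_lit 435238179) (nat_lit 532) (nat_lit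 435238179) (nat_lit 93) (nat_lit 3) (nat_lit 100) (nat_lit 3) (nat_lit 100) (nat_lit 5) (nat_lit 445) (nat_lit 445) (nat_lit 310)) (XT.nd (nat_lit 78) (nat_lit 532) (nat_lit 0) (XT.lf (nat_lit 76) (nat_lit 67018604090) (nat_lit 0) (nat_lit 67561121552) (nat_lit 532) (nat_lit 65873344) (nat_lit 94) (nat_lit 5) (nat_lit 93) (nat_lit 3) (nat_lit 100) (nat_lit 5) (nat_lit 446) (nat_lit 445) (nat_lit 309)) (XT.lf (nat_lit 76) (nat_lit 255887807) (nat_lit 0) (nat_lit 1430311779) (nat_lit 608) (nat_lit 138412391847) (nat_lit 87) (nat_lit 5) (nat_lit 86) (nat_lit 5) (nat_lit 94) (nat_lit 5) (nat_lit 447) (nat_lit 445) (nat_lit 308)))) (XT.nd (nat_lit 156) (nat_lit 0) (nat_lit 76) (XT.nd (nat_lit 78) (nat_lit 0) (nat_lit 0) (XT.lf (nat_lit 0) (nat_lit 7154876112) (nat_lit 532) (nat_lit 70157769874) (nat_lit 608) (nat_lit 68388640722) (nat_lit 87) (nat_lit 5) (nat_lit 94) (nat_lit 5) (nat_lit 95)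 (nat_lit 5) (nat_lit 448) (nat_lit 445) (nat_lit 307)) (XT.lf (nat_lit 76) (nat_lit 5331262088) (nat_lit 0) (nat_lit 7894822371) (nat_lit 608) (nat_lit 138512910167) (nat_lit 88) (nat_lit 5) (nat_lit 87) (nat_lit 5) (nat_lit 95) (nat_lit 5) (nat_lit 449) (nat_lit 445) (nat_lit 306))) (XT.nd (nat_lit 78) (nat_lit 0) (nat_lit 0) (XT.lf (nat_lit 0) (nat_lit 23363931887) (nat_lit 532) (nat_lit 68920180793) (nat_lit 608) (nat_lit 65689131143) (nat_lit 88) (nat_lit 5) (nat_lit 95) (nat_lit 5) (nat_lit 96) (nat_lit 5) (nat_lit 450) (nat_lit 445) (nat_lit 305)) (XT.lf (nat_lit 76) (nat_lit 15327836591) (nat_lit 0) (nat_lit 19558379205) (nat_lit 608) (nat_lit 129774144499) (nat_lit 89) (nat_lit 5) (nat_lit 88) (nat_lit 5) (nat_lit 96) (nat_lit 5) (nat_lit 451) (nat_lit 445) (nat_lit 304))))) (XT.nd (nat_lit 234) (nat_lit 532) (nat_lit 0) (XT.nd (nat_lit 78) (nat_lit 532) (nat_lit 0) (XT.lf (nat_lit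 0) (nat_lit 50681958421) (nat_lit 532) (nat_lit 62964248250) (nat_lit 76) (nat_lit 57968105363) (nat_lit 89) (nat_lit 5) (nat_lit 96) (nat_lit 5) (nat_lit 90) (nat_lit 5) (nat_lit 452) (nat_lit 445) (nat_lit 303)) (XT.nd (nat_lit 78) (nat_lit 0) (nat_lit 0) (XT.lf (nat_lit 0) (nat_lit 31374734356) (nat_lit 532) (nat_lit 37628949133) (nat_lit 608) (nat_lit 110019910609) (nat_lit 82) (nat_lit 5) (nat_lit 89) (nat_lit 5) (nat_lit 90) (nat_lit 5) (nat_lit 453) (nat_lit 445) (nat_lit 302)) (XT.lf (nat_lit 0) (nat_lit 91626676675) (nat_lit 608) (nat_lit 51160688495) (nat_lit 76) (nat_lit 44011411175) (nat_lit 82) (nat_lit 5) (nat_lit 90) (nat_lit 5) (nat_lit 83) (nat_lit 5) (nat_lit 454) (nat_lit 445) (nat_lit 301)))) (XT.nd (nat_lit 156) (nat_lit 304) (nat_lit 0) (XT.nd (nat_lit 78) (nat_lit 0) (nat_lit 0) (XT.lf (nat_lit 0) (nat_lit 54810787740) (nat_lit 228) (nat_lit 63544078381) (nat_lit 304)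 (nat_lit 76657478530) (nat_lit 79) (nat_lit 5) (nat_lit 82) (nat_lit 5) (nat_lit 83) (nat_lit 5) (nat_lit 455) (nat_lit 445) (nat_lit 300)) (XT.lf (nat_lit 0) (nat_lit 149186289443) (nat_lit 304) (nat_lit 32168161857) (nat_lit 76) (nat_lit 22371348848) (nat_lit 79) (nat_lit 5) (nat_lit 83) (nat_lit 5) (nat_lit 80) (nat_lit 5) (nat_lit 456) (nat_lit 445) (nat_lit 299))) (XT.nd (nat_lit 78) (nat_lit 76) (nat_lit 0) (XT.lf (nat_lit 0) (nat_lit 87220298263) (nat_lit 228) (nat_lit 99011880815) (nat_lit 304) (nat_lit 26604316831) (nat_lit 76) (nat_lit 5) (nat_lit 79) (nat_lit 5) (nat_lit 80) (nat_lit 5) (nat_lit 457) (nat_lit 445) (nat_lit 298)) (XT.lf (nat_lit 0) (nat_lit 4289512687) (nat_lit 304) (nat_lit 4725245424) (nat_lit 76) (nat_lit 213582253597) (nat_lit 75) (nat_lit 5) (nat_lit 79) (nat_lit 5) (nat_lit 76) (nat_lit 5) (nat_lit 458) (nat_lit 445) (nat_lit 297)))))) (XT.nd (nat_lit 546)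 (nat_lit 608) (nat_lit 0) (XT.nd (nat_lit 234) (nat_lit 532) (nat_lit 0) (XT.nd (nat_lit 78) (nat_lit 228) (nat_lit 0) (XT.lf (nat_lit 0) (nat_lit 41606618531) (nat_lit 304) (nat_lit 103314959447) (nat_lit 76) (nat_lit 87730381586) (nat_lit 72) (nat_lit 5) (nat_lit 76) (nat_lit 5) (nat_lit 73) (nat_lit 5) (nat_lit 459) (nat_lit 445) (nat_lit 296)) (XT.nd (nat_lit 78) (nat_lit 0) (nat_lit 0) (XT.lf (nat_lit 0) (nat_lit 32268462432) (nat_lit 228) (nat_lit 50783221622) (nat_lit 304) (nat_lit 160368211912) (nat_lit 69) (nat_lit 5) (nat_lit 72) (nat_lit 5) (nat_lit 73) (nat_lit 5) (nat_lit 460) (nat_lit 445) (nat_lit 295)) (XT.lf (nat_lit 0) (nat_lit 131934193204) (nat_lit 304) (nat_lit 71546521211) (nat_lit 76) (nat_lit 51238805810) (nat_lit 69) (nat_lit 5) (nat_lit 73) (nat_lit 5) (nat_lit 70) (nat_lit 5) (nat_lit 461) (nat_lit 445) (nat_lit 294)))) (XT.nd (nat_lit 156) (nat_lit 380) (nat_lit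 0) (XT.nd (nat_lit 78) (nat_lit 0) (nat_lit 0) (XT.lf (nat_lit 0) (nat_lit 82010004347) (nat_lit 152) (nat_lit 106008536120) (nat_lit 228) (nat_lit 78641274979) (nat_lit 67) (nat_lit 5) (nat_lit 69) (nat_lit 5) (nat_lit 70) (nat_lit 5) (nat_lit 462) (nat_lit 445) (nat_lit 293)) (XT.lf (nat_lit 0) (nat_lit 250578746773) (nat_lit 228) (nat_lit 27512131680) (nat_lit 76) (nat_lit 1305326944) (nat_lit 67) (nat_lit 5) (nat_lit 70) (nat_lit 5) (nat_lit 68) (nat_lit 5) (nat_lit 463) (nat_lit 445) (nat_lit 292))) (XT.nd (nat_lit 78) (nat_lit 152) (nat_lit 0) (XT.lf (nat_lit 0) (nat_lit 30188791543) (nat_lit 228) (nat_lit 146627384273) (nat_lit 76) (nat_lit 115771506159) (nat_lit 64) (nat_lit 5) (nat_lit 67) (nat_lit 5) (nat_lit 65) (nat_lit 5) (nat_lit 464) (nat_lit 445) (nat_lit 291)) (XT.lf (nat_lit 0) (nat_lit 28771907257) (nat_lit 152) (nat_lit 65050344789) (nat_lit 228) (nat_lit 212835256081)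 (nat_lit 62) (nat_lit 5) (nat_lit 64) (nat_lit 5) (nat_lit 65) (nat_lit 5) (nat_lit 465) (nat_lit 445) (nat_lit 290))))) (XT.nd (nat_lit 312) (nat_lit 304) (nat_lit 0) (XT.nd (nat_lit 156) (nat_lit 152) (nat_lit 0) (XT.nd (nat_lit 78) (nat_lit 152) (nat_lit 0) (XT.lf (nat_lit 0) (nat_lit 167997990590) (nat_lit 228) (nat_lit 96433104523) (nat_lit 76) (nat_lit 56985697172) (nat_lit 62) (nat_lit 5) (nat_lit 65) (nat_lit 5) (nat_lit 63) (nat_lit 5) (nat_lit 466) (nat_lit 445) (nat_lit 289)) (XT.lf (nat_lit 0) (nat_lit 102998170549) (nat_lit 152) (nat_lit 149276226224) (nat_lit 228) (nat_lit 84749093726) (nat_lit 60) (nat_lit 5) (nat_lit 62) (nat_lit 5) (nat_lit 63) (nat_lit 5) (nat_lit 467) (nat_lit 445) (nat_lit 288))) (XT.nd (nat_lit 78) (nat_lit 152) (nat_lit 0) (XT.lf (nat_lit 0) (nat_lit 323868001199) (nat_lit 152) (nat_lit 22061451401) (nat_lit 228) (nat_lit 7738349007) (nat_lit 60) (nat_lit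 5) (nat_lit 62) (nat_lit 5) (nat_lit 63) (nat_lit 5) (nat_lit 468) (nat_lit 445) (nat_lit 287)) (XT.lf (nat_lit 0) (nat_lit 79388267453) (nat_lit 152) (nat_lit 175161763317) (nat_lit 76) (nat_lit 116330213983) (nat_lit 58) (nat_lit 5) (nat_lit 60) (nat_lit 5) (nat_lit 59) (nat_lit 5) (nat_lit 469) (nat_lit 445) (nat_lit 286)))) (XT.nd (nat_lit 156) (nat_lit 152) (nat_lit 0) (XT.nd (nat_lit 78) (nat_lit 0) (nat_lit 0) (XT.lf (nat_lit 0) (nat_lit 53446726529) (nat_lit 152) (nat_lit 122314470410) (nat_lit 228) (nat_lit 213476866287) (nat_lit 56) (nat_lit 5) (nat_lit 58) (nat_lit 5) (nat_lit 59) (nat_lit 5) (nat_lit 470) (nat_lit 445) (nat_lit 285)) (XT.lf (nat_lit 0) (nat_lit 285250508796) (nat_lit 228) (nat_lit 98993467132) (nat_lit 76) (nat_lit 24388007416) (nat_lit 56) (nat_lit 5) (nat_lit 59) (nat_lit 5) (nat_lit 57) (nat_lit 4) (nat_lit 471) (nat_lit 445) (nat_lit 284))) (XT.nd (nat_lit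 78) (nat_lit 76) (nat_lit 0) (XT.lf (nat_lit 0) (nat_lit 161657847013) (nat_lit 76) (nat_lit 248905896073) (nat_lit 152) (nat_lit 18448491789) (nat_lit 55) (nat_lit 5) (nat_lit 56) (nat_lit 5) (nat_lit 57) (nat_lit 4) (nat_lit 472) (nat_lit 445) (nat_lit 283)) (XT.lf (nat_lit 0) (nat_lit 92909754859) (nat_lit 152) (nat_lit 4367576464) (nat_lit 76) (nat_lit 353340878496) (nat_lit 54) (nat_lit 5) (nat_lit 56) (nat_lit 5) (nat_lit 55) (nat_lit 5) (nat_lit 473) (nat_lit 445) (nat_lit 282))))))))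
noncomputable def xc188 : XT := (XT.nd (nat_lit 2184) (nat_lit 1444) (nat_lit 0) (XT.nd (nat_lit 1092) (nat_lit 988) (nat_lit 0) (XT.nd (nat_lit 546) (nat_lit 456) (nat_lit 0) (XT.nd (nat_lit 234) (nat_lit 380) (nat_lit 0) (XT.nd (nat_lit 78) (nat_lit 152) (nat_lit 0) (XT.lf (nat_lit 0) (nat_lit 221042599967) (nat_lit 228) (nat_lit 181263909442) (nat_lit 76) (nat_lit 70898807907) (nat_lit 52) (nat_lit 5) (nat_lit 55) (nat_lit 5) (nat_lit 53) (nat_lit 4) (nat_lit 474) (nat_lit 445) (nat_lit 281)) (XT.nd (nat_lit 78) (nat_lit 76) (nat_lit 0) (XT.lf (nat_lit 0) (nat_lit 117985847226) (nat_lit 76) (nat_lit 246926903396) (nat_lit 152) (nat_lit 132247708561) (nat_lit 51) (nat_lit 5) (nat_lit 52) (nat_lit 5) (nat_lit 53) (nat_lit 4) (nat_lit 475) (nat_lit 445) (nat_lit 280)) (XT.lf (nat_lit 0) (nat_lit 2482260679) (nat_lit 152) (nat_lit 71214303471) (nat_lit 76) (nat_lit 448933941540) (nat_lit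 50) (nat_lit 5) (nat_lit 52) (nat_lit 5) (nat_lit 51) (nat_lit 5) (nat_lit 476) (nat_lit 445) (nat_lit 279)))) (XT.nd (nat_lit 156) (nat_lit 152) (nat_lit 0) (XT.nd (nat_lit 78) (nat_lit 76) (nat_lit 0) (XT.lf (nat_lit 0) (nat_lit 150361980049) (nat_lit 228) (nat_lit 280796112510) (nat_lit 76) (nat_lit 117943969820) (nat_lit 48) (nat_lit 5) (nat_lit 51) (nat_lit 5) (nat_lit 49) (nat_lit 4) (nat_lit 477) (nat_lit 445) (nat_lit 278)) (XT.lf (nat_lit 0) (nat_lit 62672484829) (nat_lit 76) (nat_lit 252818683928) (nat_lit 152) (nat_lit 261766647506) (nat_lit 47) (nat_lit 5) (nat_lit 48) (nat_lit 5) (nat_lit 49) (nat_lit 4) (nat_lit 478) (nat_lit 445) (nat_lit 277))) (XT.nd (nat_lit 78) (nat_lit 152) (nat_lit 0) (XT.lf (nat_lit 0) (nat_lit 449587551411) (nat_lit 76) (nat_lit 51920527551) (nat_lit 152) (nat_lit 105543760587) (nat_lit 47) (nat_lit 5) (nat_lit 48) (nat_lit 5) (nat_lit 49) (nat_lit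 4) (nat_lit 479) (nat_lit 445) (nat_lit 276)) (XT.lf (nat_lit 0) (nat_lit 69913915343) (nat_lit 152) (nat_lit 404161789026) (nat_lit 76) (nat_lit 164240341718) (nat_lit 45) (nat_lit 5) (nat_lit 47) (nat_lit 5) (nat_lit 46) (nat_lit 4) (nat_lit 480) (nat_lit 445) (nat_lit 275))))) (XT.nd (nat_lit 234) (nat_lit 304) (nat_lit 0) (XT.nd (nat_lit 78) (nat_lit 152) (nat_lit 0) (XT.lf (nat_lit 0) (nat_lit 259471793718) (nat_lit 152) (nat_lit 9881486663) (nat_lit 76) (nat_lit 402047541631) (nat_lit 45) (nat_lit 5) (nat_lit 47) (nat_lit 5) (nat_lit 46) (nat_lit 4) (nat_lit 481) (nat_lit 445) (nat_lit 274)) (XT.nd (nat_lit 78) (nat_lit 76) (nat_lit 0) (XT.lf (nat_lit 0) (nat_lit 437843835575) (nat_lit 76) (nat_lit 36880554596) (nat_lit 152) (nat_lit 231565582816) (nat_lit 44) (nat_lit 5) (nat_lit 45) (nat_lit 5) (nat_lit 46) (nat_lit 4) (nat_lit 482) (nat_lit 445) (nat_lit 273)) (XT.lf (nat_lit 0)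 (nat_lit 181943650054) (nat_lit 76) (nat_lit 535057696429) (nat_lit 76) (nat_lit 26184577389) (nat_lit 43) (nat_lit 4) (nat_lit 44) (nat_lit 5) (nat_lit 44) (nat_lit 4) (nat_lit 483) (nat_lit 445) (nat_lit 272)))) (XT.nd (nat_lit 156) (nat_lit 152) (nat_lit 0) (XT.nd (nat_lit 78) (nat_lit 76) (nat_lit 0) (XT.lf (nat_lit 0) (nat_lit 194329165704) (nat_lit 152) (nat_lit 104668516598) (nat_lit 76) (nat_lit 482980417379) (nat_lit 42) (nat_lit 5) (nat_lit 44) (nat_lit 5) (nat_lit 43) (nat_lit 4) (nat_lit 484) (nat_lit 445) (nat_lit 271)) (XT.lf (nat_lit 0) (nat_lit 408169180080) (nat_lit 76) (nat_lit 32716598265) (nat_lit 152) (nat_lit 382148148307) (nat_lit 41) (nat_lit 5) (nat_lit 42) (nat_lit 5) (nat_lit 43) (nat_lit 4) (nat_lit 485) (nat_lit 445) (nat_lit 270))) (XT.nd (nat_lit 78) (nat_lit 76) (nat_lit 0) (XT.lf (nat_lit 0) (nat_lit 99620629117) (nat_lit 76) (nat_lit 619007821262) (nat_lit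 76) (nat_lit 147828846976) (nat_lit 40) (nat_lit 4) (nat_lit 41) (nat_lit 5) (nat_lit 41) (nat_lit 4) (nat_lit 486) (nat_lit 445) (nat_lit 269)) (XT.lf (nat_lit 0) (nat_lit 112459153144) (nat_lit 152) (nat_lit 237263981482) (nat_lit 76) (nat_lit 562429929980) (nat_lit 39) (nat_lit 5) (nat_lit 41) (nat_lit 5) (nat_lit 40) (nat_lit 4) (nat_lit 487) (nat_lit 445) (nat_lit 268)))))) (XT.nd (nat_lit 546) (nat_lit 456) (nat_lit 0) (XT.nd (nat_lit 234) (nat_lit 304) (nat_lit 0) (XT.nd (nat_lit 78) (nat_lit 152) (nat_lit 0) (XT.lf (nat_lit 0) (nat_lit 348255869347) (nat_lit 76) (nat_lit 45703232441) (nat_lit 152) (nat_lit 566568174150) (nat_lit 38) (nat_lit 5) (nat_lit 39) (nat_lit 5) (nat_lit 40) (nat_lit 4) (nat_lit 488) (nat_lit 445) (nat_lit 267)) (XT.nd (nat_lit 78) (nat_lit 152) (nat_lit 0) (XT.lf (nat_lit 0) (nat_lit 711432164457) (nat_lit 152) (nat_lit 25107791725) (nat_lit 0) (nat_lit 275155218545)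 (nat_lit 38) (nat_lit 5) (nat_lit 40) (nat_lit 4) (nat_lit 38) (nat_lit 4) (nat_lit 489) (nat_lit 445) (nat_lit 266)) (XT.lf (nat_lit 0) (nat_lit 4985516831) (nat_lit 152) (nat_lit 425907104520) (nat_lit 76) (nat_lit 634727751367) (nat_lit 36) (nat_lit 5) (nat_lit 38) (nat_lit 5) (nat_lit 37) (nat_lit 4) (nat_lit 490) (nat_lit 445) (nat_lit 265)))) (XT.nd (nat_lit 156) (nat_lit 228) (nat_lit 0) (XT.nd (nat_lit 78) (nat_lit 0) (nat_lit 0) (XT.lf (nat_lit 0) (nat_lit 239507406451) (nat_lit 76) (nat_lit 85388947928) (nat_lit 152) (nat_lit 797822154643) (nat_lit 35) (nat_lit 5) (nat_lit 36) (nat_lit 5) (nat_lit 37) (nat_lit 4) (nat_lit 491) (nat_lit 445) (nat_lit 264)) (XT.lf (nat_lit 0) (nat_lit 689268046795) (nat_lit 152) (nat_lit 208299185354) (nat_lit 0) (nat_lit 285307825053) (nat_lit 35) (nat_lit 5) (nat_lit 37) (nat_lit 4) (nat_lit 35) (nat_lit 4) (nat_lit 492) (nat_lit 445) (nat_lit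 263))) (XT.nd (nat_lit 78) (nat_lit 152) (nat_lit 0) (XT.lf (nat_lit 0) (nat_lit 545685073314) (nat_lit 76) (nat_lit 552445987730) (nat_lit 76) (nat_lit 148485741277) (nat_lit 34) (nat_lit 4) (nat_lit 35) (nat_lit 5) (nat_lit 35) (nat_lit 4) (nat_lit 493) (nat_lit 445) (nat_lit 262)) (XT.lf (nat_lit 0) (nat_lit 53991724185) (nat_lit 76) (nat_lit 166177503467) (nat_lit 152) (nat_lit 1094285878919) (nat_lit 32) (nat_lit 5) (nat_lit 33) (nat_lit 5) (nat_lit 34) (nat_lit 4) (nat_lit 494) (nat_lit 445) (nat_lit 261))))) (XT.nd (nat_lit 234) (nat_lit 304) (nat_lit 0) (XT.nd (nat_lit 78) (nat_lit 152) (nat_lit 0) (XT.lf (nat_lit 0) (nat_lit 635993335261) (nat_lit 152) (nat_lit 487406662635) (nat_lit 0) (nat_lit 261956029226) (nat_lit 32) (nat_lit 5) (nat_lit 34) (nat_lit 4) (nat_lit 32) (nat_lit 4) (nat_lit 495) (nat_lit 445) (nat_lit 260)) (XT.nd (nat_lit 78) (nat_lit 76) (nat_lit 0) (XT.lf (nat_lit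 0) (nat_lit 361249364346) (nat_lit 76) (nat_lit 736838318146) (nat_lit 76) (nat_lit 362800993948) (nat_lit 31) (nat_lit 4) (nat_lit 32) (nat_lit 5) (nat_lit 32) (nat_lit 4) (nat_lit 496) (nat_lit 445) (nat_lit 259)) (XT.lf (nat_lit 0) (nat_lit 65622705392) (nat_lit 152) (nat_lit 237542113799) (nat_lit 76) (nat_lit 1238100090213) (nat_lit 30) (nat_lit 5) (nat_lit 32) (nat_lit 5) (nat_lit 31) (nat_lit 4) (nat_lit 497) (nat_lit 445) (nat_lit 258)))) (XT.nd (nat_lit 156) (nat_lit 152) (nat_lit 0) (XT.nd (nat_lit 78) (nat_lit 76) (nat_lit 0) (XT.lf (nat_lit 0) (nat_lit 530706286450) (nat_lit 152) (nat_lit 910476748612) (nat_lit 0) (nat_lit 184375400721) (nat_lit 29) (nat_lit 5) (nat_lit 31) (nat_lit 4) (nat_lit 29) (nat_lit 4) (nat_lit 498) (nat_lit 445) (nat_lit 257)) (XT.lf (nat_lit 0) (nat_lit 35059387706) (nat_lit 76) (nat_lit 1013318235071) (nat_lit 76) (nat_lit 666987335992) (nat_lit 28)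 (nat_lit 4) (nat_lit 29) (nat_lit 5) (nat_lit 29) (nat_lit 4) (nat_lit 499) (nat_lit 445) (nat_lit 256))) (XT.nd (nat_lit 78) (nat_lit 152) (nat_lit 0) (XT.lf (nat_lit 0) (nat_lit 1108017954927) (nat_lit 76) (nat_lit 524338719709) (nat_lit 76) (nat_lit 178007808268) (nat_lit 28) (nat_lit 4) (nat_lit 29) (nat_lit 5) (nat_lit 29) (nat_lit 4) (nat_lit 500) (nat_lit 445) (nat_lit 255)) (XT.lf (nat_lit 0) (nat_lit 341858414932) (nat_lit 152) (nat_lit 1548507845005) (nat_lit 0) (nat_lit 21181634482) (nat_lit 26) (nat_lit 5) (nat_lit 28) (nat_lit 4) (nat_lit 26) (nat_lit 4) (nat_lit 501) (nat_lit 445) (nat_lit 254))))))) (XT.nd (nat_lit 1092) (nat_lit 684) (nat_lit 0) (XT.nd (nat_lit 546) (nat_lit 304) (nat_lit 0) (XT.nd (nat_lit 234) (nat_lit 304) (nat_lit 0) (XT.nd (nat_lit 78) (nat_lit 152) (nat_lit 0) (XT.lf (nat_lit 0) (nat_lit 927018229469) (nat_lit 152) (nat_lit 484430716729) (nat_lit 0)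 (nat_lit 606341439206) (nat_lit 26) (nat_lit 5) (nat_lit 28) (nat_lit 4) (nat_lit 26) (nat_lit 4) (nat_lit 502) (nat_lit 445) (nat_lit 253)) (XT.nd (nat_lit 78) (nat_lit 76) (nat_lit 0) (XT.lf (nat_lit 0) (nat_lit 699778254190) (nat_lit 76) (nat_lit 876042224435) (nat_lit 76) (nat_lit 555365425086) (nat_lit 25) (nat_lit 4) (nat_lit 26) (nat_lit 5) (nat_lit 26) (nat_lit 4) (nat_lit 503) (nat_lit 445) (nat_lit 252)) (XT.lf (nat_lit 0) (nat_lit 35318792853) (nat_lit 152) (nat_lit 247213718626) (nat_lit 76) (nat_lit 1969989407407) (nat_lit 24) (nat_lit 5) (nat_lit 26) (nat_lit 5) (nat_lit 25) (nat_lit 4) (nat_lit 504) (nat_lit 445) (nat_lit 251)))) (XT.nd (nat_lit 156) (nat_lit 228) (nat_lit 0) (XT.nd (nat_lit 78) (nat_lit 0) (nat_lit 0) (XT.lf (nat_lit 0) (nat_lit 678672290000) (nat_lit 152) (nat_lit 1319155710576) (nat_lit 0) (nat_lit 381749312637) (nat_lit 23) (nat_lit 5) (nat_lit 25) (nat_lit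 4) (nat_lit 23) (nat_lit 4) (nat_lit 505) (nat_lit 445) (nat_lit 250)) (XT.lf (nat_lit 0) (nat_lit 1387767368358) (nat_lit 152) (nat_lit 37043522297) (nat_lit 0) (nat_lit 1090844384317) (nat_lit 23) (nat_lit 5) (nat_lit 25) (nat_lit 4) (nat_lit 23) (nat_lit 4) (nat_lit 506) (nat_lit 445) (nat_lit 249))) (XT.nd (nat_lit 78) (nat_lit 152) (nat_lit 0) (XT.lf (nat_lit 0) (nat_lit 1418601787726) (nat_lit 76) (nat_lit 769105642977) (nat_lit 76) (nat_lit 472182652752) (nat_lit 22) (nat_lit 4) (nat_lit 23) (nat_lit 5) (nat_lit 23) (nat_lit 4) (nat_lit 507) (nat_lit 445) (nat_lit 248)) (XT.lf (nat_lit 0) (nat_lit 180553099293) (nat_lit 76) (nat_lit 49002715727) (nat_lit 152) (nat_lit 2585223323906) (nat_lit 20) (nat_lit 5) (nat_lit 21) (nat_lit 5) (nat_lit 22) (nat_lit 4) (nat_lit 508) (nat_lit 445) (nat_lit 247))))) (XT.nd (nat_lit 234) (nat_lit 228) (nat_lit 0) (XT.nd (nat_lit 78) (nat_lit 76)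 (nat_lit 0) (XT.lf (nat_lit 0) (nat_lit 1014269213592) (nat_lit 152) (nat_lit 1223280759268) (nat_lit 0) (nat_lit 739340508728) (nat_lit 20) (nat_lit 5) (nat_lit 22) (nat_lit 4) (nat_lit 20) (nat_lit 4) (nat_lit 509) (nat_lit 445) (nat_lit 246)) (XT.nd (nat_lit 78) (nat_lit 0) (nat_lit 0) (XT.lf (nat_lit 0) (nat_lit 315026175137) (nat_lit 76) (nat_lit 1555582666658) (nat_lit 76) (nat_lit 1280653957249) (nat_lit 19) (nat_lit 4) (nat_lit 20) (nat_lit 5) (nat_lit 20) (nat_lit 4) (nat_lit 510) (nat_lit 445) (nat_lit 245)) (XT.lf (nat_lit 0) (nat_lit 2045966670683) (nat_lit 76) (nat_lit 782935606921) (nat_lit 76) (nat_lit 508006893303) (nat_lit 19) (nat_lit 4) (nat_lit 20) (nat_lit 5) (nat_lit 20) (nat_lit 4) (nat_lit 511) (nat_lit 445) (nat_lit 244)))) (XT.nd (nat_lit 156) (nat_lit 76) (nat_lit 0) (XT.nd (nat_lit 78) (nat_lit 0) (nat_lit 0) (XT.lf (nat_lit 0) (nat_lit 321178131763) (nat_lit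 152) (nat_lit 3148101990653) (nat_lit 0) (nat_lit 66614504435) (nat_lit 17) (nat_lit 5) (nat_lit 19) (nat_lit 4) (nat_lit 17) (nat_lit 4) (nat_lit 512) (nat_lit 445) (nat_lit 243)) (XT.lf (nat_lit 0) (nat_lit 1245801808262) (nat_lit 152) (nat_lit 1508179381343) (nat_lit 0) (nat_lit 991238177593) (nat_lit 17) (nat_lit 5) (nat_lit 19) (nat_lit 4) (nat_lit 17) (nat_lit 4) (nat_lit 513) (nat_lit 445) (nat_lit 242))) (XT.nd (nat_lit 78) (nat_lit 0) (nat_lit 0) (XT.lf (nat_lit 0) (nat_lit 276782784766) (nat_lit 76) (nat_lit 1974269203509) (nat_lit 76) (nat_lit 1719705569746) (nat_lit 16) (nat_lit 4) (nat_lit 17) (nat_lit 5) (nat_lit 17) (nat_lit 4) (nat_lit 514) (nat_lit 445) (nat_lit 241)) (XT.lf (nat_lit 0) (nat_lit 2290313375338) (nat_lit 76) (nat_lit 1087645081725) (nat_lit 76) (nat_lit 833081445098) (nat_lit 16) (nat_lit 4) (nat_lit 17) (nat_lit 5) (nat_lit 17) (nat_lit 4) (nat_lit 515) (nat_lit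 445) (nat_lit 240)))))) (XT.nd (nat_lit 546) (nat_lit 304) (nat_lit 0) (XT.nd (nat_lit 234) (nat_lit 228) (nat_lit 0) (XT.nd (nat_lit 78) (nat_lit 76) (nat_lit 0) (XT.lf (nat_lit 0) (nat_lit 118245963972) (nat_lit 152) (nat_lit 8612034216) (nat_lit 76) (nat_lit 4343447351824) (nat_lit 15) (nat_lit 5) (nat_lit 17) (nat_lit 5) (nat_lit 16) (nat_lit 4) (nat_lit 516) (nat_lit 445) (nat_lit 239)) (XT.nd (nat_lit 78) (nat_lit 0) (nat_lit 0) (XT.lf (nat_lit 0) (nat_lit 1175990925743) (nat_lit 152) (nat_lit 2626280627838) (nat_lit 0) (nat_lit 940283850063) (nat_lit 14) (nat_lit 5) (nat_lit 16) (nat_lit 4) (nat_lit 14) (nat_lit 4) (nat_lit 517) (nat_lit 445) (nat_lit 238)) (XT.lf (nat_lit 0) (nat_lit 2321892061840) (nat_lit 152) (nat_lit 628225489481) (nat_lit 0) (nat_lit 2086184984055) (nat_lit 14) (nat_lit 5) (nat_lit 16) (nat_lit 4) (nat_lit 14) (nat_lit 4) (nat_lit 518) (nat_lit 445) (nat_lit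 237)))) (XT.nd (nat_lit 156) (nat_lit 152) (nat_lit 0) (XT.nd (nat_lit 78) (nat_lit 0) (nat_lit 0) (XT.lf (nat_lit 0) (nat_lit 1610223945140) (nat_lit 76) (nat_lit 1987967249873) (nat_lit 76) (nat_lit 1752260170139) (nat_lit 13) (nat_lit 4) (nat_lit 14) (nat_lit 5) (nat_lit 14) (nat_lit 4) (nat_lit 519) (nat_lit 445) (nat_lit 236)) (XT.lf (nat_lit 0) (nat_lit 4063477037750) (nat_lit 76) (nat_lit 930294001340) (nat_lit 76) (nat_lit 694586919800) (nat_lit 13) (nat_lit 4) (nat_lit 14) (nat_lit 5) (nat_lit 14) (nat_lit 4) (nat_lit 520) (nat_lit 445) (nat_lit 235))) (XT.nd (nat_lit 78) (nat_lit 0) (nat_lit 0) (XT.lf (nat_lit 0) (nat_lit 447537725611) (nat_lit 152) (nat_lit 5373828887206) (nat_lit 0) (nat_lit 229290426341) (nat_lit 11) (nat_lit 5) (nat_lit 13) (nat_lit 4) (nat_lit 11) (nat_lit 4) (nat_lit 521) (nat_lit 445) (nat_lit 234)) (XT.lf (nat_lit 0) (nat_lit 1713251146478) (nat_lit 152)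 (nat_lit 3226662192999) (nat_lit 0) (nat_lit 1495003845776) (nat_lit 11) (nat_lit 5) (nat_lit 13) (nat_lit 4) (nat_lit 11) (nat_lit 4) (nat_lit 522) (nat_lit 445) (nat_lit 233))))) (XT.nd (nat_lit 312) (nat_lit 228) (nat_lit 0) (XT.nd (nat_lit 156) (nat_lit 0) (nat_lit 0) (XT.nd (nat_lit 78) (nat_lit 76) (nat_lit 0) (XT.lf (nat_lit 0) (nat_lit 3080221625243) (nat_lit 152) (nat_lit 907722195841) (nat_lit 0) (nat_lit 2861974323214) (nat_lit 11) (nat_lit 5) (nat_lit 13) (nat_lit 4) (nat_lit 11) (nat_lit 4) (nat_lit 523) (nat_lit 445) (nat_lit 232)) (XT.lf (nat_lit 0) (nat_lit 1680814099512) (nat_lit 76) (nat_lit 2916159247710) (nat_lit 76) (nat_lit 2697911944453) (nat_lit 10) (nat_lit 4) (nat_lit 11) (nat_lit 5) (nat_lit 11) (nat_lit 4) (nat_lit 524) (nat_lit 445) (nat_lit 231))) (XT.nd (nat_lit 78) (nat_lit 0) (nat_lit 0) (XT.lf (nat_lit 0) (nat_lit 4528056234675) (nat_lit 76) (nat_lit 1731827691511)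 (nat_lit 76) (nat_lit 1513580387116) (nat_lit 10) (nat_lit 4) (nat_lit 11) (nat_lit 5) (nat_lit 11) (nat_lit 4) (nat_lit 525) (nat_lit 445) (nat_lit 230)) (XT.lf (nat_lit 0) (nat_lit 7603077713422) (nat_lit 76) (nat_lit 452749624871) (nat_lit 76) (nat_lit 234502319423) (nat_lit 10) (nat_lit 4) (nat_lit 11) (nat_lit 5) (nat_lit 11) (nat_lit 4) (nat_lit 526) (nat_lit 445) (nat_lit 229)))) (XT.nd (nat_lit 156) (nat_lit 76) (nat_lit 0) (XT.nd (nat_lit 78) (nat_lit 0) (nat_lit 0) (XT.lf (nat_lit 0) (nat_lit 1165774028168) (nat_lit 152) (nat_lit 6710770793608) (nat_lit 0) (nat_lit 963693188887) (nat_lit 8) (nat_lit 5) (nat_lit 10) (nat_lit 4) (nat_lit 8) (nat_lit 4) (nat_lit 527) (nat_lit 445) (nat_lit 228)) (XT.lf (nat_lit 0) (nat_lit 2696441741196) (nat_lit 152) (nat_lit 4240366034117) (nat_lit 0) (nat_lit 2494360901079) (nat_lit 8) (nat_lit 5) (nat_lit 10) (nat_lit 4) (nat_lit 8) (nat_lit 4)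 (nat_lit 528) (nat_lit 445) (nat_lit 227))) (XT.nd (nat_lit 78) (nat_lit 76) (nat_lit 0) (XT.lf (nat_lit 0) (nat_lit 4349562859684) (nat_lit 152) (nat_lit 1572328917829) (nat_lit 0) (nat_lit 4147482018793) (nat_lit 8) (nat_lit 5) (nat_lit 10) (nat_lit 4) (nat_lit 8) (nat_lit 4) (nat_lit 529) (nat_lit 445) (nat_lit 226)) (XT.lf (nat_lit 0) (nat_lit 1378088724885) (nat_lit 76) (nat_lit 4789987999018) (nat_lit 76) (nat_lit 4587907157410) (nat_lit 7) (nat_lit 4) (nat_lit 8) (nat_lit 5) (nat_lit 8) (nat_lit 4) (nat_lit 530) (nat_lit 445) (nat_lit 225))))))))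
noncomputable def xc189 : XT := (XT.nd (nat_lit 57330) (nat_lit 0) (nat_lit 2356) (XT.nd (nat_lit 56238) (nat_lit 0) (nat_lit 4788) (XT.nd (nat_lit 546) (nat_lit 76) (nat_lit 0) (XT.nd (nat_lit 234) (nat_lit 152) (nat_lit 0) (XT.nd (nat_lit 78) (nat_lit 0) (nat_lit 0) (XT.lf (nat_lit 0) (nat_lit 4653959496152) (nat_lit 76) (nat_lit 3521102449677) (nat_lit 76) (nat_lit 3319021607406) (nat_lit 7) (nat_lit 4) (nat_lit 8) (nat_lit 5) (nat_lit 8) (nat_lit 4) (nat_lit 531) (nat_lit 445) (nat_lit 224)) (XT.nd (nat_lit 78) (nat_lit 0) (nat_lit 0) (XT.lf (nat_lit 0) (nat_lit 8191899909098) (nat_lit 76) (nat_lit 2150706066737) (nat_lit 76) (nat_lit 1948625223851) (nat_lit 7) (nat_lit 4) (nat_lit 8) (nat_lit 5) (nat_lit 8) (nat_lit 4) (nat_lit 532) (nat_lit 445) (nat_lit 223)) (XT.lf (nat_lit 0) (nat_lit 12012875536538) (nat_lit 76) (nat_lit 670677982743) (nat_lit 76) (nat_lit 468597139288) (nat_lit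 7) (nat_lit 4) (nat_lit 8) (nat_lit 5) (nat_lit 8) (nat_lit 4) (nat_lit 533) (nat_lit 445) (nat_lit 222)))) (XT.nd (nat_lit 156) (nat_lit 0) (nat_lit 0) (XT.nd (nat_lit 78) (nat_lit 0) (nat_lit 0) (XT.lf (nat_lit 0) (nat_lit 1149070597276) (nat_lit 152) (nat_lit 11962680071962) (nat_lit 0) (nat_lit 961958704700) (nat_lit 5) (nat_lit 5) (nat_lit 7) (nat_lit 4) (nat_lit 5) (nat_lit 4) (nat_lit 534) (nat_lit 445) (nat_lit 221)) (XT.lf (nat_lit 0) (nat_lit 2920214421267) (nat_lit 152) (nat_lit 9410751801859) (nat_lit 0) (nat_lit 2733102528240) (nat_lit 5) (nat_lit 5) (nat_lit 7) (nat_lit 4) (nat_lit 5) (nat_lit 4) (nat_lit 535) (nat_lit 445) (nat_lit 220))) (XT.nd (nat_lit 78) (nat_lit 0) (nat_lit 0) (XT.lf (nat_lit 0) (nat_lit 4833049743301) (nat_lit 152) (nat_lit 6654669286461) (nat_lit 0) (nat_lit 4645937849856) (nat_lit 5) (nat_lit 5) (nat_lit 7) (nat_lit 4) (nat_lit 5) (nat_lit 4) (nat_lit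 536) (nat_lit 445) (nat_lit 219)) (XT.lf (nat_lit 0) (nat_lit 6898911883805) (nat_lit 152) (nat_lit 3678100184937) (nat_lit 0) (nat_lit 6711799989972) (nat_lit 5) (nat_lit 5) (nat_lit 7) (nat_lit 4) (nat_lit 5) (nat_lit 4) (nat_lit 537) (nat_lit 445) (nat_lit 218))))) (XT.nd (nat_lit 55380) (nat_lit 0) (nat_lit 6232) (XT.nd (nat_lit 78) (nat_lit 76) (nat_lit 0) (XT.lf (nat_lit 0) (nat_lit 9130042988795) (nat_lit 152) (nat_lit 463405569278) (nat_lit 0) (nat_lit 8942931094604) (nat_lit 5) (nat_lit 5) (nat_lit 7) (nat_lit 4) (nat_lit 5) (nat_lit 4) (nat_lit 538) (nat_lit 445) (nat_lit 217)) (XT.nd (nat_lit 55224) (nat_lit 0) (nat_lit 6764) (XT.lf (nat_lit 0) (nat_lit 3166885017203) (nat_lit 76) (nat_lit 8448943219556) (nat_lit 76) (nat_lit 8261831325033) (nat_lit 4) (nat_lit 4) (nat_lit 5) (nat_lit 5) (nat_lit 5) (nat_lit 4) (nat_lit 539) (nat_lit 445) (nat_lit 216)) (XT.lf (nat_lit 0) (nat_lit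 69042719382) (nat_lit 532) (nat_lit 468117767) (nat_lit 532) (nat_lit 468117767) (nat_lit 93) (nat_lit 3) (nat_lit 100) (nat_lit 3) (nat_lit 100) (nat_lit 5) (nat_lit 446) (nat_lit 446) (nat_lit 308)))) (XT.nd (nat_lit 156) (nat_lit 0) (nat_lit 76) (XT.nd (nat_lit 78) (nat_lit 532) (nat_lit 0) (XT.lf (nat_lit 76) (nat_lit 72383873149) (nat_lit 0) (nat_lit 72968971769) (nat_lit 532) (nat_lit 63861801) (nat_lit 94) (nat_lit 5) (nat_lit 93) (nat_lit 3) (nat_lit 100) (nat_lit 5) (nat_lit 447) (nat_lit 446) (nat_lit 307)) (XT.lf (nat_lit 76) (nat_lit 280399674) (nat_lit 0) (nat_lit 1547197843) (nat_lit 608) (nat_lit 149478360312) (nat_lit 87) (nat_lit 5) (nat_lit 86) (nat_lit 5) (nat_lit 94) (nat_lit 5) (nat_lit 448) (nat_lit 446) (nat_lit 306))) (XT.nd (nat_lit 78) (nat_lit 0) (nat_lit 0) (XT.lf (nat_lit 0) (nat_lit 7733231733) (nat_lit 532) (nat_lit 75766112806) (nat_lit 608) (nat_lit 73857567159)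 (nat_lit 87) (nat_lit 5) (nat_lit 94) (nat_lit 5) (nat_lit 95) (nat_lit 5) (nat_lit 449) (nat_lit 446) (nat_lit 305)) (XT.lf (nat_lit 76) (nat_lit 5761933393) (nat_lit 0) (nat_lit 8527861761) (nat_lit 608) (nat_lit 149587868477) (nat_lit 88) (nat_lit 5) (nat_lit 87) (nat_lit 5) (nat_lit 95) (nat_lit 5) (nat_lit 450) (nat_lit 446) (nat_lit 304)))))) (XT.nd (nat_lit 546) (nat_lit 912) (nat_lit 0) (XT.nd (nat_lit 234) (nat_lit 684) (nat_lit 0) (XT.nd (nat_lit 78) (nat_lit 0) (nat_lit 0) (XT.lf (nat_lit 0) (nat_lit 25238221418) (nat_lit 532) (nat_lit 74429484272) (nat_lit 608) (nat_lit 70942983037) (nat_lit 88) (nat_lit 5) (nat_lit 95) (nat_lit 5) (nat_lit 96) (nat_lit 5) (nat_lit 451) (nat_lit 446) (nat_lit 303)) (XT.nd (nat_lit 78) (nat_lit 0) (nat_lit 76) (XT.lf (nat_lit 76) (nat_lit 16558265364) (nat_lit 0) (nat_lit 21123740398) (nat_lit 608) (nat_lit 140150791382) (nat_lit 89) (nat_lit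 5) (nat_lit 88) (nat_lit 5) (nat_lit 96) (nat_lit 5) (nat_lit 452) (nat_lit 446) (nat_lit 302)) (XT.lf (nat_lit 0) (nat_lit 54741029990) (nat_lit 532) (nat_lit 67997119188) (nat_lit 76) (nat_lit 62604946109) (nat_lit 89) (nat_lit 5) (nat_lit 96) (nat_lit 5) (nat_lit 90) (nat_lit 5) (nat_lit 453) (nat_lit 446) (nat_lit 301)))) (XT.nd (nat_lit 156) (nat_lit 228) (nat_lit 0) (XT.nd (nat_lit 78) (nat_lit 0) (nat_lit 0) (XT.lf (nat_lit 0) (nat_lit 33888873952) (nat_lit 532) (nat_lit 40639384743) (nat_lit 608) (nat_lit 118816880009) (nat_lit 82) (nat_lit 5) (nat_lit 89) (nat_lit 5) (nat_lit 90) (nat_lit 5) (nat_lit 454) (nat_lit 446) (nat_lit 300)) (XT.lf (nat_lit 0) (nat_lit 98960771595) (nat_lit 608) (nat_lit 55249370753) (nat_lit 76) (nat_lit 47532218798) (nat_lit 82) (nat_lit 5) (nat_lit 90) (nat_lit 5) (nat_lit 83) (nat_lit 5) (nat_lit 455) (nat_lit 446) (nat_lit 299))) (XT.nd (nat_lit 78)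 (nat_lit 0) (nat_lit 0) (XT.lf (nat_lit 0) (nat_lit 59199717941) (nat_lit 228) (nat_lit 68627302681) (nat_lit 304) (nat_lit 82786009974) (nat_lit 79) (nat_lit 5) (nat_lit 82) (nat_lit 5) (nat_lit 83) (nat_lit 5) (nat_lit 456) (nat_lit 446) (nat_lit 298)) (XT.lf (nat_lit 0) (nat_lit 161124685629) (nat_lit 304) (nat_lit 34737576337) (nat_lit 76) (nat_lit 24161322371) (nat_lit 79) (nat_lit 5) (nat_lit 83) (nat_lit 5) (nat_lit 80) (nat_lit 5) (nat_lit 457) (nat_lit 446) (nat_lit 297))))) (XT.nd (nat_lit 234) (nat_lit 380) (nat_lit 0) (XT.nd (nat_lit 78) (nat_lit 304) (nat_lit 0) (XT.lf (nat_lit 0) (nat_lit 94201858354) (nat_lit 228) (nat_lit 106932224004) (nat_lit 304) (nat_lit 28729066555) (nat_lit 76) (nat_lit 5) (nat_lit 79) (nat_lit 5) (nat_lit 80) (nat_lit 5) (nat_lit 458) (nat_lit 446) (nat_lit 296)) (XT.nd (nat_lit 78) (nat_lit 228) (nat_lit 0) (XT.lf (nat_lit 0) (nat_lit 4635836438)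 (nat_lit 304) (nat_lit 5099453555) (nat_lit 76) (nat_lit 230669229331) (nat_lit 75) (nat_lit 5) (nat_lit 79) (nat_lit 5) (nat_lit 76) (nat_lit 5) (nat_lit 459) (nat_lit 446) (nat_lit 295)) (XT.lf (nat_lit 0) (nat_lit 44938182587) (nat_lit 304) (nat_lit 111576216258) (nat_lit 76) (nat_lit 94749474439) (nat_lit 72) (nat_lit 5) (nat_lit 76) (nat_lit 5) (nat_lit 73) (nat_lit 5) (nat_lit 460) (nat_lit 446) (nat_lit 294)))) (XT.nd (nat_lit 156) (nat_lit 152) (nat_lit 0) (XT.nd (nat_lit 78) (nat_lit 0) (nat_lit 0) (XT.lf (nat_lit 0) (nat_lit 34853779627) (nat_lit 228) (nat_lit 54844941299) (nat_lit 304) (nat_lit 173194534288) (nat_lit 69) (nat_lit 5) (nat_lit 72) (nat_lit 5) (nat_lit 73) (nat_lit 5) (nat_lit 461) (nat_lit 446) (nat_lit 293)) (XT.lf (nat_lit 0) (nat_lit 142491636722) (nat_lit 304) (nat_lit 77266492843) (nat_lit 76) (nat_lit 55338735394) (nat_lit 69) (nat_lit 5) (nat_lit 73) (nat_lit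 5) (nat_lit 70) (nat_lit 5) (nat_lit 462) (nat_lit 446) (nat_lit 292))) (XT.nd (nat_lit 78) (nat_lit 0) (nat_lit 0) (XT.lf (nat_lit 0) (nat_lit 88574459822) (nat_lit 152) (nat_lit 114488159254) (nat_lit 228) (nat_lit 84929773755) (nat_lit 67) (nat_lit 5) (nat_lit 69) (nat_lit 5) (nat_lit 70) (nat_lit 5) (nat_lit 463) (nat_lit 446) (nat_lit 291)) (XT.lf (nat_lit 0) (nat_lit 270627473235) (nat_lit 228) (nat_lit 29709548982) (nat_lit 76) (nat_lit 1410685269) (nat_lit 67) (nat_lit 5) (nat_lit 70) (nat_lit 5) (nat_lit 68) (nat_lit 5) (nat_lit 464) (nat_lit 446) (nat_lit 290))))))) (XT.nd (nat_lit 1092) (nat_lit 988) (nat_lit 0) (XT.nd (nat_lit 546) (nat_lit 608) (nat_lit 0) (XT.nd (nat_lit 234) (nat_lit 456) (nat_lit 0) (XT.nd (nat_lit 78) (nat_lit 152) (nat_lit 0) (XT.lf (nat_lit 0) (nat_lit 32606285828) (nat_lit 228) (nat_lit 158353985657) (nat_lit 76) (nat_lit 125034233594) (nat_lit 64) (nat_lit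 5) (nat_lit 67) (nat_lit 5) (nat_lit 65) (nat_lit 5) (nat_lit 465) (nat_lit 446) (nat_lit 289)) (XT.nd (nat_lit 78) (nat_lit 0) (nat_lit 0) (XT.lf (nat_lit 0) (nat_lit 31077158326) (nat_lit 152) (nat_lit 70253171877) (nat_lit 228) (nat_lit 229859594573) (nat_lit 62) (nat_lit 5) (nat_lit 64) (nat_lit 5) (nat_lit 65) (nat_lit 5) (nat_lit 466) (nat_lit 446) (nat_lit 288)) (XT.lf (nat_lit 0) (nat_lit 181439984342) (nat_lit 228) (nat_lit 104144369905) (nat_lit 76) (nat_lit 61545608910) (nat_lit 62) (nat_lit 5) (nat_lit 65) (nat_lit 5) (nat_lit 63) (nat_lit 5) (nat_lit 467) (nat_lit 446) (nat_lit 287)))) (XT.nd (nat_lit 156) (nat_lit 304) (nat_lit 0) (XT.nd (nat_lit 78) (nat_lit 0) (nat_lit 0) (XT.lf (nat_lit 0) (nat_lit 111241321528) (nat_lit 152) (nat_lit 161217101199) (nat_lit 228) (nat_lit 91526780936) (nat_lit 60) (nat_lit 5) (nat_lit 62) (nat_lit 5) (nat_lit 63) (nat_lit 5) (nat_lit 468)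 (nat_lit 446) (nat_lit 286)) (XT.lf (nat_lit 0) (nat_lit 349780494382) (nat_lit 152) (nat_lit 23825234992) (nat_lit 228) (nat_lit 8355342586) (nat_lit 60) (nat_lit 5) (nat_lit 62) (nat_lit 5) (nat_lit 63) (nat_lit 5) (nat_lit 469) (nat_lit 446) (nat_lit 285))) (XT.nd (nat_lit 78) (nat_lit 152) (nat_lit 0) (XT.lf (nat_lit 0) (nat_lit 85741255800) (nat_lit 152) (nat_lit 189171503673) (nat_lit 76) (nat_lit 125637750593) (nat_lit 58) (nat_lit 5) (nat_lit 60) (nat_lit 5) (nat_lit 59) (nat_lit 5) (nat_lit 470) (nat_lit 446) (nat_lit 284)) (XT.lf (nat_lit 0) (nat_lit 57725584331) (nat_lit 152) (nat_lit 132098367606) (nat_lit 228) (nat_lit 230553007505) (nat_lit 56) (nat_lit 5) (nat_lit 58) (nat_lit 5) (nat_lit 59) (nat_lit 5) (nat_lit 471) (nat_lit 446) (nat_lit 283))))) (XT.nd (nat_lit 234) (nat_lit 456) (nat_lit 0) (XT.nd (nat_lit 78) (nat_lit 152) (nat_lit 0) (XT.lf (nat_lit 0) (nat_lit 308072299088)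 (nat_lit 228) (nat_lit 106909946162) (nat_lit 76) (nat_lit 26340156698) (nat_lit 56) (nat_lit 5) (nat_lit 59) (nat_lit 5) (nat_lit 57) (nat_lit 4) (nat_lit 472) (nat_lit 446) (nat_lit 282)) (XT.nd (nat_lit 78) (nat_lit 76) (nat_lit 0) (XT.lf (nat_lit 0) (nat_lit 174593397207) (nat_lit 76) (nat_lit 268817135600) (nat_lit 152) (nat_lit 19922545548) (nat_lit 55) (nat_lit 5) (nat_lit 56) (nat_lit 5) (nat_lit 57) (nat_lit 4) (nat_lit 473) (nat_lit 446) (nat_lit 281)) (XT.lf (nat_lit 0) (nat_lit 100344141045) (nat_lit 152) (nat_lit 4714191990) (nat_lit 76) (nat_lit 381609205030) (nat_lit 54) (nat_lit 5) (nat_lit 56) (nat_lit 5) (nat_lit 55) (nat_lit 5) (nat_lit 474) (nat_lit 446) (nat_lit 280)))) (XT.nd (nat_lit 156) (nat_lit 228) (nat_lit 0) (XT.nd (nat_lit 78) (nat_lit 76) (nat_lit 0) (XT.lf (nat_lit 0) (nat_lit 238727588311) (nat_lit 228) (nat_lit 195762206086) (nat_lit 76) (nat_lit 76571821807)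 (nat_lit 52) (nat_lit 5) (nat_lit 55) (nat_lit 5) (nat_lit 53) (nat_lit 4) (nat_lit 475) (nat_lit 446) (nat_lit 279)) (XT.lf (nat_lit 0) (nat_lit 127427459821) (nat_lit 76) (nat_lit 266679840147) (nat_lit 152) (nat_lit 142825873541) (nat_lit 51) (nat_lit 5) (nat_lit 52) (nat_lit 5) (nat_lit 53) (nat_lit 4) (nat_lit 476) (nat_lit 446) (nat_lit 278))) (XT.nd (nat_lit 78) (nat_lit 152) (nat_lit 0) (XT.lf (nat_lit 0) (nat_lit 2682294386) (nat_lit 152) (nat_lit 76908829691) (nat_lit 76) (nat_lit 484849705785) (nat_lit 50) (nat_lit 5) (nat_lit 52) (nat_lit 5) (nat_lit 51) (nat_lit 5) (nat_lit 477) (nat_lit 446) (nat_lit 277)) (XT.lf (nat_lit 0) (nat_lit 162392372598) (nat_lit 228) (nat_lit 303257164695) (nat_lit 76) (nat_lit 127380575293) (nat_lit 48) (nat_lit 5) (nat_lit 51) (nat_lit 5) (nat_lit 49) (nat_lit 4) (nat_lit 478) (nat_lit 446) (nat_lit 276)))))) (XT.nd (nat_lit 546) (nat_lit 532)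 (nat_lit 0) (XT.nd (nat_lit 234) (nat_lit 228) (nat_lit 0) (XT.nd (nat_lit 78) (nat_lit 152) (nat_lit 0) (XT.lf (nat_lit 0) (nat_lit 67688853677) (nat_lit 76) (nat_lit 273042998304) (nat_lit 152) (nat_lit 282706478359) (nat_lit 47) (nat_lit 5) (nat_lit 48) (nat_lit 5) (nat_lit 49) (nat_lit 4) (nat_lit 479) (nat_lit 446) (nat_lit 275)) (XT.nd (nat_lit 78) (nat_lit 152) (nat_lit 0) (XT.lf (nat_lit 0) (nat_lit 485556935210) (nat_lit 76) (nat_lit 56073076849) (nat_lit 152) (nat_lit 113985871668) (nat_lit 47) (nat_lit 5) (nat_lit 48) (nat_lit 5) (nat_lit 49) (nat_lit 4) (nat_lit 480) (nat_lit 446) (nat_lit 274)) (XT.lf (nat_lit 0) (nat_lit 75508335065) (nat_lit 152) (nat_lit 436492269112) (nat_lit 76) (nat_lit 177380621040) (nat_lit 45) (nat_lit 5) (nat_lit 47) (nat_lit 5) (nat_lit 46) (nat_lit 4) (nat_lit 481) (nat_lit 446) (nat_lit 273)))) (XT.nd (nat_lit 156) (nat_lit 152) (nat_lit 0) (XT.nd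 (nat_lit 78) (nat_lit 76) (nat_lit 0) (XT.lf (nat_lit 0) (nat_lit 280230746932) (nat_lit 152) (nat_lit 10669725006) (nat_lit 76) (nat_lit 434212319021) (nat_lit 45) (nat_lit 5) (nat_lit 47) (nat_lit 5) (nat_lit 46) (nat_lit 4) (nat_lit 482) (nat_lit 446) (nat_lit 272)) (XT.lf (nat_lit 0) (nat_lit 472873565275) (nat_lit 76) (nat_lit 39829949679) (nat_lit 152) (nat_lit 250089561955) (nat_lit 44) (nat_lit 5) (nat_lit 45) (nat_lit 5) (nat_lit 46) (nat_lit 4) (nat_lit 483) (nat_lit 446) (nat_lit 271))) (XT.nd (nat_lit 78) (nat_lit 76) (nat_lit 0) (XT.lf (nat_lit 0) (nat_lit 196501375581) (nat_lit 76) (nat_lit 577861242340) (nat_lit 76) (nat_lit 28278086733) (nat_lit 43) (nat_lit 4) (nat_lit 44) (nat_lit 5) (nat_lit 44) (nat_lit 4) (nat_lit 484) (nat_lit 446) (nat_lit 270)) (XT.lf (nat_lit 0) (nat_lit 209876604493) (nat_lit 152) (nat_lit 113039871609) (nat_lit 76) (nat_lit 521619783086) (nat_lit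 42) (nat_lit 5) (nat_lit 44) (nat_lit 5) (nat_lit 43) (nat_lit 4) (nat_lit 485) (nat_lit 446) (nat_lit 269))))) (XT.nd (nat_lit 312) (nat_lit 228) (nat_lit 0) (XT.nd (nat_lit 156) (nat_lit 152) (nat_lit 0) (XT.nd (nat_lit 78) (nat_lit 76) (nat_lit 0) (XT.lf (nat_lit 0) (nat_lit 440824786973) (nat_lit 76) (nat_lit 35332927124) (nat_lit 152) (nat_lit 412718840785) (nat_lit 41) (nat_lit 5) (nat_lit 42) (nat_lit 5) (nat_lit 43) (nat_lit 4) (nat_lit 486) (nat_lit 446) (nat_lit 268)) (XT.lf (nat_lit 0) (nat_lit 107592359775) (nat_lit 76) (nat_lit 668527432879) (nat_lit 76) (nat_lit 159654003167) (nat_lit 40) (nat_lit 4) (nat_lit 41) (nat_lit 5) (nat_lit 41) (nat_lit 4) (nat_lit 487) (nat_lit 446) (nat_lit 267))) (XT.nd (nat_lit 78) (nat_lit 76) (nat_lit 0) (XT.lf (nat_lit 0) (nat_lit 121456898322) (nat_lit 152) (nat_lit 256243120413) (nat_lit 76) (nat_lit 607425209987) (nat_lit 39) (nat_lit 5)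 (nat_lit 41) (nat_lit 5) (nat_lit 40) (nat_lit 4) (nat_lit 488) (nat_lit 446) (nat_lit 266)) (XT.lf (nat_lit 0) (nat_lit 376118268366) (nat_lit 76) (nat_lit 49358545863) (nat_lit 152) (nat_lit 611892565022) (nat_lit 38) (nat_lit 5) (nat_lit 39) (nat_lit 5) (nat_lit 40) (nat_lit 4) (nat_lit 489) (nat_lit 446) (nat_lit 265)))) (XT.nd (nat_lit 156) (nat_lit 76) (nat_lit 0) (XT.nd (nat_lit 78) (nat_lit 152) (nat_lit 0) (XT.lf (nat_lit 0) (nat_lit 768347670049) (nat_lit 152) (nat_lit 27114576636) (nat_lit 0) (nat_lit 297168467409) (nat_lit 38) (nat_lit 5) (nat_lit 40) (nat_lit 4) (nat_lit 38) (nat_lit 4) (nat_lit 490) (nat_lit 446) (nat_lit 264)) (XT.lf (nat_lit 0) (nat_lit 5385288198) (nat_lit 152) (nat_lit 459977832009) (nat_lit 76) (nat_lit 685506807913) (nat_lit 36) (nat_lit 5) (nat_lit 38) (nat_lit 5) (nat_lit 37) (nat_lit 4) (nat_lit 491) (nat_lit 446) (nat_lit 263))) (XT.nd (nat_lit 78)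 (nat_lit 0) (nat_lit 0) (XT.lf (nat_lit 0) (nat_lit 258669793235) (nat_lit 76) (nat_lit 92219173776) (nat_lit 152) (nat_lit 861646950378) (nat_lit 35) (nat_lit 5) (nat_lit 36) (nat_lit 5) (nat_lit 37) (nat_lit 4) (nat_lit 492) (nat_lit 446) (nat_lit 262)) (XT.lf (nat_lit 0) (nat_lit 744410347655) (nat_lit 152) (nat_lit 224961411646) (nat_lit 0) (nat_lit 308133233896) (nat_lit 35) (nat_lit 5) (nat_lit 37) (nat_lit 4) (nat_lit 35) (nat_lit 4) (nat_lit 493) (nat_lit 446) (nat_lit 261))))))))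
noncomputable def xc190 : XT := (XT.nd (nat_lit 2184) (nat_lit 608) (nat_lit 0) (XT.nd (nat_lit 1092) (nat_lit 760) (nat_lit 0) (XT.nd (nat_lit 546) (nat_lit 380) (nat_lit 0) (XT.nd (nat_lit 234) (nat_lit 304) (nat_lit 0) (XT.nd (nat_lit 78) (nat_lit 152) (nat_lit 0) (XT.lf (nat_lit 0) (nat_lit 589341544462) (nat_lit 76) (nat_lit 596640835142) (nat_lit 76) (nat_lit 160363700198) (nat_lit 34) (nat_lit 4) (nat_lit 35) (nat_lit 5) (nat_lit 35) (nat_lit 4) (nat_lit 494) (nat_lit 446) (nat_lit 260)) (XT.nd (nat_lit 78) (nat_lit 0) (nat_lit 0) (XT.lf (nat_lit 0) (nat_lit 58312729153) (nat_lit 76) (nat_lit 179470868785) (nat_lit 152) (nat_lit 1181827850582) (nat_lit 32) (nat_lit 5) (nat_lit 33) (nat_lit 5) (nat_lit 34) (nat_lit 4) (nat_lit 495) (nat_lit 446) (nat_lit 259)) (XT.lf (nat_lit 0) (nat_lit 686873591115) (nat_lit 152) (nat_lit 526397609046) (nat_lit 0) (nat_lit 282913246001) (nat_lit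 32) (nat_lit 5) (nat_lit 34) (nat_lit 4) (nat_lit 32) (nat_lit 4) (nat_lit 496) (nat_lit 446) (nat_lit 258)))) (XT.nd (nat_lit 156) (nat_lit 152) (nat_lit 0) (XT.nd (nat_lit 78) (nat_lit 76) (nat_lit 0) (XT.lf (nat_lit 0) (nat_lit 390150859927) (nat_lit 76) (nat_lit 795784604942) (nat_lit 76) (nat_lit 391824244256) (nat_lit 31) (nat_lit 4) (nat_lit 32) (nat_lit 5) (nat_lit 32) (nat_lit 4) (nat_lit 497) (nat_lit 446) (nat_lit 257)) (XT.lf (nat_lit 0) (nat_lit 70873251201) (nat_lit 152) (nat_lit 256544012605) (nat_lit 76) (nat_lit 1337148779993) (nat_lit 30) (nat_lit 5) (nat_lit 32) (nat_lit 5) (nat_lit 31) (nat_lit 4) (nat_lit 498) (nat_lit 446) (nat_lit 256))) (XT.nd (nat_lit 78) (nat_lit 76) (nat_lit 0) (XT.lf (nat_lit 0) (nat_lit 573163516575) (nat_lit 152) (nat_lit 983313416029) (nat_lit 0) (nat_lit 199126119857) (nat_lit 29) (nat_lit 5) (nat_lit 31) (nat_lit 4) (nat_lit 29) (nat_lit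 4) (nat_lit 499) (nat_lit 446) (nat_lit 255)) (XT.lf (nat_lit 0) (nat_lit 37865573916) (nat_lit 76) (nat_lit 1094382966541) (nat_lit 76) (nat_lit 720345558378) (nat_lit 28) (nat_lit 4) (nat_lit 29) (nat_lit 5) (nat_lit 29) (nat_lit 4) (nat_lit 500) (nat_lit 446) (nat_lit 254))))) (XT.nd (nat_lit 234) (nat_lit 228) (nat_lit 0) (XT.nd (nat_lit 78) (nat_lit 152) (nat_lit 0) (XT.lf (nat_lit 0) (nat_lit 1196660720204) (nat_lit 76) (nat_lit 566285143827) (nat_lit 76) (nat_lit 192247725066) (nat_lit 28) (nat_lit 4) (nat_lit 29) (nat_lit 5) (nat_lit 29) (nat_lit 4) (nat_lit 501) (nat_lit 446) (nat_lit 253)) (XT.nd (nat_lit 78) (nat_lit 0) (nat_lit 0) (XT.lf (nat_lit 0) (nat_lit 369207758987) (nat_lit 152) (nat_lit 1672387106708) (nat_lit 0) (nat_lit 22876806604) (nat_lit 26) (nat_lit 5) (nat_lit 28) (nat_lit 4) (nat_lit 26) (nat_lit 4) (nat_lit 502) (nat_lit 446) (nat_lit 252)) (XT.lf (nat_lit 0)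 (nat_lit 1001180308993) (nat_lit 152) (nat_lit 523183909348) (nat_lit 0) (nat_lit 654849348197) (nat_lit 26) (nat_lit 5) (nat_lit 28) (nat_lit 4) (nat_lit 26) (nat_lit 4) (nat_lit 503) (nat_lit 446) (nat_lit 251)))) (XT.nd (nat_lit 156) (nat_lit 76) (nat_lit 0) (XT.nd (nat_lit 78) (nat_lit 76) (nat_lit 0) (XT.lf (nat_lit 0) (nat_lit 755761747226) (nat_lit 76) (nat_lit 946124974489) (nat_lit 76) (nat_lit 599794005904) (nat_lit 25) (nat_lit 4) (nat_lit 26) (nat_lit 5) (nat_lit 26) (nat_lit 4) (nat_lit 504) (nat_lit 446) (nat_lit 250)) (XT.lf (nat_lit 0) (nat_lit 38144870831) (nat_lit 152) (nat_lit 266989644468) (nat_lit 76) (nat_lit 2127589111130) (nat_lit 24) (nat_lit 5) (nat_lit 26) (nat_lit 5) (nat_lit 25) (nat_lit 4) (nat_lit 505) (nat_lit 446) (nat_lit 249))) (XT.nd (nat_lit 78) (nat_lit 0) (nat_lit 0) (XT.lf (nat_lit 0) (nat_lit 732966646666) (nat_lit 152) (nat_lit 1424686994686) (nat_lit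 0) (nat_lit 412289811039) (nat_lit 23) (nat_lit 5) (nat_lit 25) (nat_lit 4) (nat_lit 23) (nat_lit 4) (nat_lit 506) (nat_lit 446) (nat_lit 248)) (XT.lf (nat_lit 0) (nat_lit 1498789288813) (nat_lit 152) (nat_lit 40005918214) (nat_lit 0) (nat_lit 1178112447461) (nat_lit 23) (nat_lit 5) (nat_lit 25) (nat_lit 4) (nat_lit 23) (nat_lit 4) (nat_lit 507) (nat_lit 446) (nat_lit 247)))))) (XT.nd (nat_lit 546) (nat_lit 304) (nat_lit 0) (XT.nd (nat_lit 234) (nat_lit 228) (nat_lit 0) (XT.nd (nat_lit 78) (nat_lit 152) (nat_lit 0) (XT.lf (nat_lit 0) (nat_lit 1532090989120) (nat_lit 76) (nat_lit 830633553147) (nat_lit 76) (nat_lit 509956706493) (nat_lit 22) (nat_lit 4) (nat_lit 23) (nat_lit 5) (nat_lit 23) (nat_lit 4) (nat_lit 508) (nat_lit 446) (nat_lit 246)) (XT.nd (nat_lit 78) (nat_lit 0) (nat_lit 0) (XT.lf (nat_lit 0) (nat_lit 194998406051) (nat_lit 76) (nat_lit 52922390878) (nat_lit 152) (nat_lit 2792040631772)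 (nat_lit 20) (nat_lit 5) (nat_lit 21) (nat_lit 5) (nat_lit 22) (nat_lit 4) (nat_lit 509) (nat_lit 446) (nat_lit 245)) (XT.lf (nat_lit 0) (nat_lit 1095411241184) (nat_lit 152) (nat_lit 1321142213421) (nat_lit 0) (nat_lit 798488226268) (nat_lit 20) (nat_lit 5) (nat_lit 22) (nat_lit 4) (nat_lit 20) (nat_lit 4) (nat_lit 510) (nat_lit 446) (nat_lit 244)))) (XT.nd (nat_lit 156) (nat_lit 152) (nat_lit 0) (XT.nd (nat_lit 78) (nat_lit 0) (nat_lit 0) (XT.lf (nat_lit 0) (nat_lit 340229250253) (nat_lit 76) (nat_lit 1680028776651) (nat_lit 76) (nat_lit 1383105757839) (nat_lit 19) (nat_lit 4) (nat_lit 20) (nat_lit 5) (nat_lit 20) (nat_lit 4) (nat_lit 511) (nat_lit 446) (nat_lit 243)) (XT.lf (nat_lit 0) (nat_lit 2209644912769) (nat_lit 76) (nat_lit 845569989420) (nat_lit 76) (nat_lit 548646966999) (nat_lit 19) (nat_lit 4) (nat_lit 20) (nat_lit 5) (nat_lit 20) (nat_lit 4) (nat_lit 512) (nat_lit 446) (nat_lit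 242))) (XT.nd (nat_lit 78) (nat_lit 0) (nat_lit 0) (XT.lf (nat_lit 0) (nat_lit 346872835629) (nat_lit 152) (nat_lit 3399949217029) (nat_lit 0) (nat_lit 71944108073) (nat_lit 17) (nat_lit 5) (nat_lit 19) (nat_lit 4) (nat_lit 17) (nat_lit 4) (nat_lit 513) (nat_lit 446) (nat_lit 241)) (XT.lf (nat_lit 0) (nat_lit 1345466372669) (nat_lit 152) (nat_lit 1628832868076) (nat_lit 0) (nat_lit 1070537642248) (nat_lit 17) (nat_lit 5) (nat_lit 19) (nat_lit 4) (nat_lit 17) (nat_lit 4) (nat_lit 514) (nat_lit 446) (nat_lit 240))))) (XT.nd (nat_lit 234) (nat_lit 152) (nat_lit 0) (XT.nd (nat_lit 78) (nat_lit 76) (nat_lit 0) (XT.lf (nat_lit 0) (nat_lit 298926249454) (nat_lit 76) (nat_lit 2132210306784) (nat_lit 76) (nat_lit 1857281573711) (nat_lit 16) (nat_lit 4) (nat_lit 17) (nat_lit 5) (nat_lit 17) (nat_lit 4) (nat_lit 515) (nat_lit 446) (nat_lit 239)) (XT.nd (nat_lit 78) (nat_lit 76) (nat_lit 0) (XT.lf (nat_lit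 0) (nat_lit 2473539224908) (nat_lit 76) (nat_lit 1174656287332) (nat_lit 76) (nat_lit 899727551803) (nat_lit 16) (nat_lit 4) (nat_lit 17) (nat_lit 5) (nat_lit 17) (nat_lit 4) (nat_lit 516) (nat_lit 446) (nat_lit 238)) (XT.lf (nat_lit 0) (nat_lit 127706000764) (nat_lit 152) (nat_lit 9300256212) (nat_lit 76) (nat_lit 4690923492261) (nat_lit 15) (nat_lit 5) (nat_lit 17) (nat_lit 5) (nat_lit 16) (nat_lit 4) (nat_lit 517) (nat_lit 446) (nat_lit 237)))) (XT.nd (nat_lit 156) (nat_lit 76) (nat_lit 0) (XT.nd (nat_lit 78) (nat_lit 0) (nat_lit 0) (XT.lf (nat_lit 0) (nat_lit 1270070559135) (nat_lit 152) (nat_lit 2836382336982) (nat_lit 0) (nat_lit 1015506911072) (nat_lit 14) (nat_lit 5) (nat_lit 16) (nat_lit 4) (nat_lit 14) (nat_lit 4) (nat_lit 518) (nat_lit 446) (nat_lit 236)) (XT.lf (nat_lit 0) (nat_lit 2507643759503) (nat_lit 152) (nat_lit 678482842451) (nat_lit 0) (nat_lit 2253080109635) (nat_lit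 14) (nat_lit 5) (nat_lit 16) (nat_lit 4) (nat_lit 14) (nat_lit 4) (nat_lit 519) (nat_lit 446) (nat_lit 235))) (XT.nd (nat_lit 78) (nat_lit 0) (nat_lit 0) (XT.lf (nat_lit 0) (nat_lit 1739042529568) (nat_lit 76) (nat_lit 2147004285201) (nat_lit 76) (nat_lit 1892440633662) (nat_lit 13) (nat_lit 4) (nat_lit 14) (nat_lit 5) (nat_lit 14) (nat_lit 4) (nat_lit 520) (nat_lit 446) (nat_lit 234)) (XT.lf (nat_lit 0) (nat_lit 4388555820045) (nat_lit 76) (nat_lit 1004717202316) (nat_lit 76) (nat_lit 750153549229) (nat_lit 13) (nat_lit 4) (nat_lit 14) (nat_lit 5) (nat_lit 14) (nat_lit 4) (nat_lit 521) (nat_lit 446) (nat_lit 233))))))) (XT.nd (nat_lit 1092) (nat_lit 0) (nat_lit 0) (XT.nd (nat_lit 546) (nat_lit 228) (nat_lit 0) (XT.nd (nat_lit 234) (nat_lit 228) (nat_lit 0) (XT.nd (nat_lit 78) (nat_lit 0) (nat_lit 0) (XT.lf (nat_lit 0) (nat_lit 483341051366) (nat_lit 152) (nat_lit 5803734562458) (nat_lit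 0) (nat_lit 247633963848) (nat_lit 11) (nat_lit 5) (nat_lit 13) (nat_lit 4) (nat_lit 11) (nat_lit 4) (nat_lit 522) (nat_lit 446) (nat_lit 232)) (XT.nd (nat_lit 78) (nat_lit 0) (nat_lit 0) (XT.lf (nat_lit 0) (nat_lit 1850311523110) (nat_lit 152) (nat_lit 3484794579806) (nat_lit 0) (nat_lit 1614604434364) (nat_lit 11) (nat_lit 5) (nat_lit 13) (nat_lit 4) (nat_lit 11) (nat_lit 4) (nat_lit 523) (nat_lit 446) (nat_lit 231)) (XT.lf (nat_lit 0) (nat_lit 3326639619072) (nat_lit 152) (nat_lit 980339426478) (nat_lit 0) (nat_lit 3090932529188) (nat_lit 11) (nat_lit 5) (nat_lit 13) (nat_lit 4) (nat_lit 11) (nat_lit 4) (nat_lit 524) (nat_lit 446) (nat_lit 230)))) (XT.nd (nat_lit 156) (nat_lit 152) (nat_lit 0) (XT.nd (nat_lit 78) (nat_lit 0) (nat_lit 0) (XT.lf (nat_lit 0) (nat_lit 1815279758706) (nat_lit 76) (nat_lit 3149451713338) (nat_lit 76) (nat_lit 2913744622401) (nat_lit 10) (nat_lit 4) (nat_lit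 11) (nat_lit 5) (nat_lit 11) (nat_lit 4) (nat_lit 525) (nat_lit 446) (nat_lit 229)) (XT.lf (nat_lit 0) (nat_lit 4890301225332) (nat_lit 76) (nat_lit 1870373652954) (nat_lit 76) (nat_lit 1634666561041) (nat_lit 10) (nat_lit 4) (nat_lit 11) (nat_lit 5) (nat_lit 11) (nat_lit 4) (nat_lit 526) (nat_lit 446) (nat_lit 228))) (XT.nd (nat_lit 78) (nat_lit 152) (nat_lit 0) (XT.lf (nat_lit 0) (nat_lit 8211324385943) (nat_lit 76) (nat_lit 488969359787) (nat_lit 76) (nat_lit 253262266972) (nat_lit 10) (nat_lit 4) (nat_lit 11) (nat_lit 5) (nat_lit 11) (nat_lit 4) (nat_lit 527) (nat_lit 446) (nat_lit 227)) (XT.lf (nat_lit 0) (nat_lit 1259036176384) (nat_lit 152) (nat_lit 7247631989608) (nat_lit 0) (nat_lit 1040788867448) (nat_lit 8) (nat_lit 5) (nat_lit 10) (nat_lit 4) (nat_lit 8) (nat_lit 4) (nat_lit 528) (nat_lit 446) (nat_lit 226))))) (XT.nd (nat_lit 234) (nat_lit 152) (nat_lit 0) (XT.nd (nat_lit 78)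 (nat_lit 76) (nat_lit 0) (XT.lf (nat_lit 0) (nat_lit 2912157289716) (nat_lit 152) (nat_lit 4579594883987) (nat_lit 0) (nat_lit 2693909980063) (nat_lit 8) (nat_lit 5) (nat_lit 10) (nat_lit 4) (nat_lit 8) (nat_lit 4) (nat_lit 529) (nat_lit 446) (nat_lit 225)) (XT.nd (nat_lit 78) (nat_lit 76) (nat_lit 0) (XT.lf (nat_lit 0) (nat_lit 4697528082185) (nat_lit 152) (nat_lit 1698114830459) (nat_lit 0) (nat_lit 4479280771869) (nat_lit 8) (nat_lit 5) (nat_lit 10) (nat_lit 4) (nat_lit 8) (nat_lit 4) (nat_lit 530) (nat_lit 446) (nat_lit 224)) (XT.lf (nat_lit 0) (nat_lit 1488336213526) (nat_lit 76) (nat_lit 5173186837061) (nat_lit 76) (nat_lit 4954939526130) (nat_lit 7) (nat_lit 4) (nat_lit 8) (nat_lit 5) (nat_lit 8) (nat_lit 4) (nat_lit 531) (nat_lit 446) (nat_lit 223)))) (XT.nd (nat_lit 156) (nat_lit 152) (nat_lit 0) (XT.nd (nat_lit 78) (nat_lit 0) (nat_lit 0) (XT.lf (nat_lit 0) (nat_lit 5026276617557)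 (nat_lit 76) (nat_lit 3802790458727) (nat_lit 76) (nat_lit 3584543147227) (nat_lit 7) (nat_lit 4) (nat_lit 8) (nat_lit 5) (nat_lit 8) (nat_lit 4) (nat_lit 532) (nat_lit 446) (nat_lit 222)) (XT.lf (nat_lit 0) (nat_lit 8847252236745) (nat_lit 76) (nat_lit 2322762378998) (nat_lit 76) (nat_lit 2104515066971) (nat_lit 7) (nat_lit 4) (nat_lit 8) (nat_lit 5) (nat_lit 8) (nat_lit 4) (nat_lit 533) (nat_lit 446) (nat_lit 221))) (XT.nd (nat_lit 78) (nat_lit 152) (nat_lit 0) (XT.lf (nat_lit 0) (nat_lit 12973905889572) (nat_lit 76) (nat_lit 724332061105) (nat_lit 76) (nat_lit 506084748590) (nat_lit 7) (nat_lit 4) (nat_lit 8) (nat_lit 5) (nat_lit 8) (nat_lit 4) (nat_lit 534) (nat_lit 446) (nat_lit 220)) (XT.lf (nat_lit 0) (nat_lit 1240996398730) (nat_lit 152) (nat_lit 12919694159439) (nat_lit 0) (nat_lit 1038915553391) (nat_lit 5) (nat_lit 5) (nat_lit 7) (nat_lit 4) (nat_lit 5) (nat_lit 4) (nat_lit 535)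 (nat_lit 446) (nat_lit 219)))))) (XT.nd (nat_lit 55770) (nat_lit 0) (nat_lit 5624) (XT.nd (nat_lit 234) (nat_lit 0) (nat_lit 0) (XT.nd (nat_lit 78) (nat_lit 0) (nat_lit 0) (XT.lf (nat_lit 0) (nat_lit 3153831717258) (nat_lit 152) (nat_lit 10163611651303) (nat_lit 0) (nat_lit 2951750871531) (nat_lit 5) (nat_lit 5) (nat_lit 7) (nat_lit 4) (nat_lit 5) (nat_lit 4) (nat_lit 536) (nat_lit 446) (nat_lit 218)) (XT.nd (nat_lit 78) (nat_lit 0) (nat_lit 0) (XT.lf (nat_lit 0) (nat_lit 5219693854514) (nat_lit 152) (nat_lit 7187042556504) (nat_lit 0) (nat_lit 5017613008429) (nat_lit 5) (nat_lit 5) (nat_lit 7) (nat_lit 4) (nat_lit 5) (nat_lit 4) (nat_lit 537) (nat_lit 446) (nat_lit 217)) (XT.lf (nat_lit 0) (nat_lit 7450824956499) (nat_lit 152) (nat_lit 3972347947071) (nat_lit 0) (nat_lit 7248744110082) (nat_lit 5) (nat_lit 5) (nat_lit 7) (nat_lit 4) (nat_lit 5) (nat_lit 4) (nat_lit 538) (nat_lit 446) (nat_lit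 216)))) (XT.nd (nat_lit 55380) (nat_lit 0) (nat_lit 6156) (XT.nd (nat_lit 55302) (nat_lit 0) (nat_lit 6688) (XT.lf (nat_lit 0) (nat_lit 9860446540853) (nat_lit 152) (nat_lit 500477780875) (nat_lit 0) (nat_lit 9658365694128) (nat_lit 5) (nat_lit 5) (nat_lit 7) (nat_lit 4) (nat_lit 5) (nat_lit 4) (nat_lit 539) (nat_lit 446) (nat_lit 215)) (XT.lf (nat_lit 0) (nat_lit 74569215775) (nat_lit 532) (nat_lit 503904409) (nat_lit 532) (nat_lit 503904409) (nat_lit 93) (nat_lit 3) (nat_lit 100) (nat_lit 3) (nat_lit 100) (nat_lit 5) (nat_lit 447) (nat_lit 447) (nat_lit 306))) (XT.nd (nat_lit 78) (nat_lit 532) (nat_lit 0) (XT.lf (nat_lit 76) (nat_lit 78177824370) (nat_lit 0) (nat_lit 78809027656) (nat_lit 532) (nat_lit 62728110) (nat_lit 94) (nat_lit 5) (nat_lit 93) (nat_lit 3) (nat_lit 100) (nat_lit 5) (nat_lit 448) (nat_lit 447) (nat_lit 305)) (XT.lf (nat_lit 76) (nat_lit 306296019) (nat_lit 0) (nat_lit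 1673083686) (nat_lit 608) (nat_lit 161430608148) (nat_lit 87) (nat_lit 5) (nat_lit 86) (nat_lit 5) (nat_lit 94) (nat_lit 5) (nat_lit 449) (nat_lit 447) (nat_lit 304))))) (XT.nd (nat_lit 312) (nat_lit 608) (nat_lit 0) (XT.nd (nat_lit 156) (nat_lit 0) (nat_lit 76) (XT.nd (nat_lit 78) (nat_lit 0) (nat_lit 0) (XT.lf (nat_lit 0) (nat_lit 8357004753) (nat_lit 532) (nat_lit 81823733572) (nat_lit 608) (nat_lit 79764316546) (nat_lit 87) (nat_lit 5) (nat_lit 94) (nat_lit 5) (nat_lit 95) (nat_lit 5) (nat_lit 450) (nat_lit 447) (nat_lit 303)) (XT.lf (nat_lit 76) (nat_lit 6226463456) (nat_lit 0) (nat_lit 9211336930) (nat_lit 608) (nat_lit 161549690046) (nat_lit 88) (nat_lit 5) (nat_lit 87) (nat_lit 5) (nat_lit 95) (nat_lit 5) (nat_lit 451) (nat_lit 447) (nat_lit 302))) (XT.nd (nat_lit 78) (nat_lit 0) (nat_lit 0) (XT.lf (nat_lit 0) (nat_lit 27261715843) (nat_lit 532) (nat_lit 80380147039) (nat_lit 608)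 (nat_lit 76617325489) (nat_lit 88) (nat_lit 5) (nat_lit 95) (nat_lit 5) (nat_lit 96) (nat_lit 5) (nat_lit 452) (nat_lit 447) (nat_lit 301)) (XT.lf (nat_lit 76) (nat_lit 17886528998) (nat_lit 0) (nat_lit 22814231928) (nat_lit 608) (nat_lit 151358323933) (nat_lit 89) (nat_lit 5) (nat_lit 88) (nat_lit 5) (nat_lit 96) (nat_lit 5) (nat_lit 453) (nat_lit 447) (nat_lit 300)))) (XT.nd (nat_lit 156) (nat_lit 228) (nat_lit 0) (XT.nd (nat_lit 78) (nat_lit 532) (nat_lit 0) (XT.lf (nat_lit 0) (nat_lit 59124183185) (nat_lit 532) (nat_lit 73433228810) (nat_lit 76) (nat_lit 67612820808) (nat_lit 89) (nat_lit 5) (nat_lit 96) (nat_lit 5) (nat_lit 90) (nat_lit 5) (nat_lit 454) (nat_lit 447) (nat_lit 299)) (XT.lf (nat_lit 0) (nat_lit 36603551125) (nat_lit 532) (nat_lit 43890638128) (nat_lit 608) (nat_lit 128318266548) (nat_lit 82) (nat_lit 5) (nat_lit 89) (nat_lit 5) (nat_lit 90) (nat_lit 5) (nat_lit 455) (nat_lit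 447) (nat_lit 298))) (XT.nd (nat_lit 78) (nat_lit 228) (nat_lit 0) (XT.lf (nat_lit 0) (nat_lit 106881029058) (nat_lit 608) (nat_lit 59665742890) (nat_lit 76) (nat_lit 51334706049) (nat_lit 82) (nat_lit 5) (nat_lit 90) (nat_lit 5) (nat_lit 83) (nat_lit 5) (nat_lit 456) (nat_lit 447) (nat_lit 297)) (XT.lf (nat_lit 0) (nat_lit 63939182328) (nat_lit 228) (nat_lit 74117228004) (nat_lit 304) (nat_lit 89405404114) (nat_lit 79) (nat_lit 5) (nat_lit 82) (nat_lit 5) (nat_lit 83) (nat_lit 5) (nat_lit 457) (nat_lit 447) (nat_lit 296))))))))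
noncomputable def xc191 : XT := (XT.nd (nat_lit 2184) (nat_lit 1976) (nat_lit 0) (XT.nd (nat_lit 1092) (nat_lit 1140) (nat_lit 0) (XT.nd (nat_lit 546) (nat_lit 684) (nat_lit 0) (XT.nd (nat_lit 234) (nat_lit 608) (nat_lit 0) (XT.nd (nat_lit 78) (nat_lit 304) (nat_lit 0) (XT.lf (nat_lit 0) (nat_lit 174017655190) (nat_lit 304) (nat_lit 37513120107) (nat_lit 76) (nat_lit 26094455884) (nat_lit 79) (nat_lit 5) (nat_lit 83) (nat_lit 5) (nat_lit 80) (nat_lit 5) (nat_lit 458) (nat_lit 447) (nat_lit 295)) (XT.nd (nat_lit 78) (nat_lit 76) (nat_lit 0) (XT.lf (nat_lit 0) (nat_lit 101741381704) (nat_lit 228) (nat_lit 115486281284) (nat_lit 304) (nat_lit 31024309213) (nat_lit 76) (nat_lit 5) (nat_lit 79) (nat_lit 5) (nat_lit 80) (nat_lit 5) (nat_lit 459) (nat_lit 447) (nat_lit 294)) (XT.lf (nat_lit 0) (nat_lit 5009414890) (nat_lit 304) (nat_lit 5504142090) (nat_lit 76) (nat_lit 249123106709) (nat_lit 75)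 (nat_lit 5) (nat_lit 79) (nat_lit 5) (nat_lit 76) (nat_lit 5) (nat_lit 460) (nat_lit 447) (nat_lit 293)))) (XT.nd (nat_lit 156) (nat_lit 152) (nat_lit 0) (XT.nd (nat_lit 78) (nat_lit 228) (nat_lit 0) (XT.lf (nat_lit 0) (nat_lit 48535838851) (nat_lit 304) (nat_lit 120498935690) (nat_lit 76) (nat_lit 102330000233) (nat_lit 72) (nat_lit 5) (nat_lit 76) (nat_lit 5) (nat_lit 73) (nat_lit 5) (nat_lit 461) (nat_lit 447) (nat_lit 292)) (XT.lf (nat_lit 0) (nat_lit 37645374349) (nat_lit 228) (nat_lit 59231732373) (nat_lit 304) (nat_lit 187047409636) (nat_lit 69) (nat_lit 5) (nat_lit 72) (nat_lit 5) (nat_lit 73) (nat_lit 5) (nat_lit 462) (nat_lit 447) (nat_lit 291))) (XT.nd (nat_lit 78) (nat_lit 152) (nat_lit 0) (XT.lf (nat_lit 0) (nat_lit 153893289387) (nat_lit 304) (nat_lit 83444597193) (nat_lit 76) (nat_lit 59766541632) (nat_lit 69) (nat_lit 5) (nat_lit 73) (nat_lit 5) (nat_lit 70) (nat_lit 5) (nat_lit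 463) (nat_lit 447) (nat_lit 290)) (XT.lf (nat_lit 0) (nat_lit 95663550290) (nat_lit 152) (nat_lit 123646303424) (nat_lit 228) (nat_lit 91721752344) (nat_lit 67) (nat_lit 5) (nat_lit 69) (nat_lit 5) (nat_lit 70) (nat_lit 5) (nat_lit 464) (nat_lit 447) (nat_lit 289))))) (XT.nd (nat_lit 234) (nat_lit 304) (nat_lit 0) (XT.nd (nat_lit 78) (nat_lit 380) (nat_lit 0) (XT.lf (nat_lit 0) (nat_lit 292279751616) (nat_lit 228) (nat_lit 32083266576) (nat_lit 76) (nat_lit 1524339276) (nat_lit 67) (nat_lit 5) (nat_lit 70) (nat_lit 5) (nat_lit 68) (nat_lit 5) (nat_lit 465) (nat_lit 447) (nat_lit 288)) (XT.nd (nat_lit 78) (nat_lit 152) (nat_lit 0) (XT.lf (nat_lit 0) (nat_lit 35216838559) (nat_lit 228) (nat_lit 171019227214) (nat_lit 76) (nat_lit 135037835573) (nat_lit 64) (nat_lit 5) (nat_lit 67) (nat_lit 5) (nat_lit 65) (nat_lit 5) (nat_lit 466) (nat_lit 447) (nat_lit 287)) (XT.lf (nat_lit 0) (nat_lit 33566330381)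 (nat_lit 152) (nat_lit 75872396396) (nat_lit 228) (nat_lit 248246234228) (nat_lit 62) (nat_lit 5) (nat_lit 64) (nat_lit 5) (nat_lit 65) (nat_lit 5) (nat_lit 467) (nat_lit 447) (nat_lit 286)))) (XT.nd (nat_lit 156) (nat_lit 152) (nat_lit 0) (XT.nd (nat_lit 78) (nat_lit 152) (nat_lit 0) (XT.lf (nat_lit 0) (nat_lit 195957030229) (nat_lit 228) (nat_lit 112473019137) (nat_lit 76) (nat_lit 66470162943) (nat_lit 62) (nat_lit 5) (nat_lit 65) (nat_lit 5) (nat_lit 63) (nat_lit 5) (nat_lit 468) (nat_lit 447) (nat_lit 285)) (XT.lf (nat_lit 0) (nat_lit 120143454184) (nat_lit 152) (nat_lit 174113420664) (nat_lit 228) (nat_lit 98847002724) (nat_lit 60) (nat_lit 5) (nat_lit 62) (nat_lit 5) (nat_lit 63) (nat_lit 5) (nat_lit 469) (nat_lit 447) (nat_lit 284))) (XT.nd (nat_lit 78) (nat_lit 152) (nat_lit 0) (XT.lf (nat_lit 0) (nat_lit 377765551464) (nat_lit 152) (nat_lit 25730282838) (nat_lit 228) (nat_lit 9021991579)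 (nat_lit 60) (nat_lit 5) (nat_lit 62) (nat_lit 5) (nat_lit 63) (nat_lit 5) (nat_lit 470) (nat_lit 447) (nat_lit 283)) (XT.lf (nat_lit 0) (nat_lit 92602208314) (nat_lit 152) (nat_lit 204302479874) (nat_lit 76) (nat_lit 135689730424) (nat_lit 58) (nat_lit 5) (nat_lit 60) (nat_lit 5) (nat_lit 59) (nat_lit 5) (nat_lit 471) (nat_lit 447) (nat_lit 282)))))) (XT.nd (nat_lit 546) (nat_lit 532) (nat_lit 0) (XT.nd (nat_lit 234) (nat_lit 380) (nat_lit 0) (XT.nd (nat_lit 78) (nat_lit 76) (nat_lit 0) (XT.lf (nat_lit 0) (nat_lit 62346305699) (nat_lit 152) (nat_lit 142665156394) (nat_lit 228) (nat_lit 248995526497) (nat_lit 56) (nat_lit 5) (nat_lit 58) (nat_lit 5) (nat_lit 59) (nat_lit 5) (nat_lit 472) (nat_lit 447) (nat_lit 281)) (XT.nd (nat_lit 78) (nat_lit 76) (nat_lit 0) (XT.lf (nat_lit 0) (nat_lit 332719583005) (nat_lit 228) (nat_lit 115460171261) (nat_lit 76) (nat_lit 28448319757) (nat_lit 56) (nat_lit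 5) (nat_lit 59) (nat_lit 5) (nat_lit 57) (nat_lit 4) (nat_lit 473) (nat_lit 447) (nat_lit 280)) (XT.lf (nat_lit 0) (nat_lit 188563374499) (nat_lit 76) (nat_lit 290321450070) (nat_lit 152) (nat_lit 21514784047) (nat_lit 55) (nat_lit 5) (nat_lit 56) (nat_lit 5) (nat_lit 57) (nat_lit 4) (nat_lit 474) (nat_lit 447) (nat_lit 279)))) (XT.nd (nat_lit 156) (nat_lit 152) (nat_lit 0) (XT.nd (nat_lit 78) (nat_lit 152) (nat_lit 0) (XT.lf (nat_lit 0) (nat_lit 108373049041) (nat_lit 152) (nat_lit 5088934868) (nat_lit 76) (nat_lit 412138847000) (nat_lit 54) (nat_lit 5) (nat_lit 56) (nat_lit 5) (nat_lit 55) (nat_lit 5) (nat_lit 475) (nat_lit 447) (nat_lit 278)) (XT.lf (nat_lit 0) (nat_lit 257827150269) (nat_lit 228) (nat_lit 211420768212) (nat_lit 76) (nat_lit 82698518569) (nat_lit 52) (nat_lit 5) (nat_lit 55) (nat_lit 5) (nat_lit 53) (nat_lit 4) (nat_lit 476) (nat_lit 447) (nat_lit 277))) (XT.nd (nat_lit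 78) (nat_lit 76) (nat_lit 0) (XT.lf (nat_lit 0) (nat_lit 137624009845) (nat_lit 76) (nat_lit 288013185246) (nat_lit 152) (nat_lit 154250527353) (nat_lit 51) (nat_lit 5) (nat_lit 52) (nat_lit 5) (nat_lit 53) (nat_lit 4) (nat_lit 477) (nat_lit 447) (nat_lit 276)) (XT.lf (nat_lit 0) (nat_lit 2898123524) (nat_lit 152) (nat_lit 83059291504) (nat_lit 76) (nat_lit 523638581529) (nat_lit 50) (nat_lit 5) (nat_lit 52) (nat_lit 5) (nat_lit 51) (nat_lit 5) (nat_lit 478) (nat_lit 447) (nat_lit 275))))) (XT.nd (nat_lit 234) (nat_lit 304) (nat_lit 0) (XT.nd (nat_lit 78) (nat_lit 76) (nat_lit 0) (XT.lf (nat_lit 0) (nat_lit 175384991955) (nat_lit 228) (nat_lit 327515477226) (nat_lit 76) (nat_lit 137571954005) (nat_lit 48) (nat_lit 5) (nat_lit 51) (nat_lit 5) (nat_lit 49) (nat_lit 4) (nat_lit 479) (nat_lit 447) (nat_lit 274)) (XT.nd (nat_lit 78) (nat_lit 0) (nat_lit 0) (XT.lf (nat_lit 0) (nat_lit 73106165385)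 (nat_lit 76) (nat_lit 294885426218) (nat_lit 152) (nat_lit 305321709806) (nat_lit 47) (nat_lit 5) (nat_lit 48) (nat_lit 5) (nat_lit 49) (nat_lit 4) (nat_lit 480) (nat_lit 447) (nat_lit 273)) (XT.lf (nat_lit 0) (nat_lit 524403530225) (nat_lit 76) (nat_lit 60557986006) (nat_lit 152) (nat_lit 123103549900) (nat_lit 47) (nat_lit 5) (nat_lit 48) (nat_lit 5) (nat_lit 49) (nat_lit 4) (nat_lit 481) (nat_lit 447) (nat_lit 272)))) (XT.nd (nat_lit 156) (nat_lit 152) (nat_lit 0) (XT.nd (nat_lit 78) (nat_lit 0) (nat_lit 0) (XT.lf (nat_lit 0) (nat_lit 81550121978) (nat_lit 152) (nat_lit 471409538984) (nat_lit 76) (nat_lit 191571972631) (nat_lit 45) (nat_lit 5) (nat_lit 47) (nat_lit 5) (nat_lit 46) (nat_lit 4) (nat_lit 482) (nat_lit 447) (nat_lit 271)) (XT.lf (nat_lit 0) (nat_lit 302650243825) (nat_lit 152) (nat_lit 11521347768) (nat_lit 76) (nat_lit 468950139643) (nat_lit 45) (nat_lit 5) (nat_lit 47)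 (nat_lit 5) (nat_lit 46) (nat_lit 4) (nat_lit 483) (nat_lit 447) (nat_lit 270))) (XT.nd (nat_lit 78) (nat_lit 76) (nat_lit 0) (XT.lf (nat_lit 0) (nat_lit 510705356235) (nat_lit 76) (nat_lit 43015446061) (nat_lit 152) (nat_lit 270095640246) (nat_lit 44) (nat_lit 5) (nat_lit 45) (nat_lit 5) (nat_lit 46) (nat_lit 4) (nat_lit 484) (nat_lit 447) (nat_lit 269)) (XT.lf (nat_lit 0) (nat_lit 212223400512) (nat_lit 76) (nat_lit 624089224544) (nat_lit 76) (nat_lit 30539256128) (nat_lit 43) (nat_lit 4) (nat_lit 44) (nat_lit 5) (nat_lit 44) (nat_lit 4) (nat_lit 485) (nat_lit 447) (nat_lit 268))))))) (XT.nd (nat_lit 1092) (nat_lit 988) (nat_lit 0) (XT.nd (nat_lit 546) (nat_lit 456) (nat_lit 0) (XT.nd (nat_lit 234) (nat_lit 304) (nat_lit 0) (XT.nd (nat_lit 78) (nat_lit 152) (nat_lit 0) (XT.lf (nat_lit 0) (nat_lit 226667680668) (nat_lit 152) (nat_lit 122081238363) (nat_lit 76) (nat_lit 563350165044) (nat_lit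 42) (nat_lit 5) (nat_lit 44) (nat_lit 5) (nat_lit 43) (nat_lit 4) (nat_lit 486) (nat_lit 447) (nat_lit 267)) (XT.nd (nat_lit 78) (nat_lit 76) (nat_lit 0) (XT.lf (nat_lit 0) (nat_lit 476092546754) (nat_lit 76) (nat_lit 38158704811) (nat_lit 152) (nat_lit 445735354061) (nat_lit 41) (nat_lit 5) (nat_lit 42) (nat_lit 5) (nat_lit 43) (nat_lit 4) (nat_lit 487) (nat_lit 447) (nat_lit 266)) (XT.lf (nat_lit 0) (nat_lit 116201532103) (nat_lit 76) (nat_lit 722008758097) (nat_lit 76) (nat_lit 172425336138) (nat_lit 40) (nat_lit 4) (nat_lit 41) (nat_lit 5) (nat_lit 41) (nat_lit 4) (nat_lit 488) (nat_lit 447) (nat_lit 265)))) (XT.nd (nat_lit 156) (nat_lit 152) (nat_lit 0) (XT.nd (nat_lit 78) (nat_lit 76) (nat_lit 0) (XT.lf (nat_lit 0) (nat_lit 131174318609) (nat_lit 152) (nat_lit 276740872868) (nat_lit 76) (nat_lit 656019986052) (nat_lit 39) (nat_lit 5) (nat_lit 41) (nat_lit 5) (nat_lit 40) (nat_lit 4)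 (nat_lit 489) (nat_lit 447) (nat_lit 264)) (XT.lf (nat_lit 0) (nat_lit 406209384047) (nat_lit 76) (nat_lit 53306419199) (nat_lit 152) (nat_lit 660843058821) (nat_lit 38) (nat_lit 5) (nat_lit 39) (nat_lit 5) (nat_lit 40) (nat_lit 4) (nat_lit 490) (nat_lit 447) (nat_lit 263))) (XT.nd (nat_lit 78) (nat_lit 152) (nat_lit 0) (XT.lf (nat_lit 0) (nat_lit 829816283066) (nat_lit 152) (nat_lit 29282166611) (nat_lit 0) (nat_lit 320942657577) (nat_lit 38) (nat_lit 5) (nat_lit 40) (nat_lit 4) (nat_lit 38) (nat_lit 4) (nat_lit 491) (nat_lit 447) (nat_lit 262)) (XT.lf (nat_lit 0) (nat_lit 5816908596) (nat_lit 152) (nat_lit 496774480319) (nat_lit 76) (nat_lit 740348069656) (nat_lit 36) (nat_lit 5) (nat_lit 38) (nat_lit 5) (nat_lit 37) (nat_lit 4) (nat_lit 492) (nat_lit 447) (nat_lit 261))))) (XT.nd (nat_lit 234) (nat_lit 304) (nat_lit 0) (XT.nd (nat_lit 78) (nat_lit 76) (nat_lit 0) (XT.lf (nat_lit 0) (nat_lit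 279364914989) (nat_lit 76) (nat_lit 99595944659) (nat_lit 152) (nat_lit 930577869099) (nat_lit 35) (nat_lit 5) (nat_lit 36) (nat_lit 5) (nat_lit 37) (nat_lit 4) (nat_lit 493) (nat_lit 447) (nat_lit 260)) (XT.nd (nat_lit 78) (nat_lit 76) (nat_lit 0) (XT.lf (nat_lit 0) (nat_lit 803963910307) (nat_lit 152) (nat_lit 242956859783) (nat_lit 0) (nat_lit 332784563765) (nat_lit 35) (nat_lit 5) (nat_lit 37) (nat_lit 4) (nat_lit 35) (nat_lit 4) (nat_lit 494) (nat_lit 447) (nat_lit 259)) (XT.lf (nat_lit 0) (nat_lit 636490295729) (nat_lit 76) (nat_lit 644371388986) (nat_lit 76) (nat_lit 173192024282) (nat_lit 34) (nat_lit 4) (nat_lit 35) (nat_lit 5) (nat_lit 35) (nat_lit 4) (nat_lit 495) (nat_lit 447) (nat_lit 258)))) (XT.nd (nat_lit 156) (nat_lit 152) (nat_lit 0) (XT.nd (nat_lit 78) (nat_lit 0) (nat_lit 0) (XT.lf (nat_lit 0) (nat_lit 62979176698) (nat_lit 76) (nat_lit 193827822445) (nat_lit 152) (nat_lit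 1276373308182) (nat_lit 32) (nat_lit 5) (nat_lit 33) (nat_lit 5) (nat_lit 34) (nat_lit 4) (nat_lit 496) (nat_lit 447) (nat_lit 257)) (XT.lf (nat_lit 0) (nat_lit 741824154872) (nat_lit 152) (nat_lit 568508057516) (nat_lit 0) (nat_lit 305546935341) (nat_lit 32) (nat_lit 5) (nat_lit 34) (nat_lit 4) (nat_lit 32) (nat_lit 4) (nat_lit 497) (nat_lit 447) (nat_lit 256))) (XT.nd (nat_lit 78) (nat_lit 76) (nat_lit 0) (XT.lf (nat_lit 0) (nat_lit 421364254538) (nat_lit 76) (nat_lit 859446705766) (nat_lit 76) (nat_lit 423169472884) (nat_lit 31) (nat_lit 4) (nat_lit 32) (nat_lit 5) (nat_lit 32) (nat_lit 4) (nat_lit 498) (nat_lit 447) (nat_lit 255)) (XT.lf (nat_lit 0) (nat_lit 76543736620) (nat_lit 152) (nat_lit 277066273071) (nat_lit 76) (nat_lit 1444121267579) (nat_lit 30) (nat_lit 5) (nat_lit 32) (nat_lit 5) (nat_lit 31) (nat_lit 4) (nat_lit 499) (nat_lit 447) (nat_lit 254)))))) (XT.nd (nat_lit 546)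 (nat_lit 532) (nat_lit 0) (XT.nd (nat_lit 234) (nat_lit 304) (nat_lit 0) (XT.nd (nat_lit 78) (nat_lit 76) (nat_lit 0) (XT.lf (nat_lit 0) (nat_lit 619017221365) (nat_lit 152) (nat_lit 1061977226905) (nat_lit 0) (nat_lit 215056798506) (nat_lit 29) (nat_lit 5) (nat_lit 31) (nat_lit 4) (nat_lit 29) (nat_lit 4) (nat_lit 500) (nat_lit 447) (nat_lit 253)) (XT.nd (nat_lit 78) (nat_lit 0) (nat_lit 0) (XT.lf (nat_lit 0) (nat_lit 40896050277) (nat_lit 76) (nat_lit 1181932980291) (nat_lit 76) (nat_lit 777972547619) (nat_lit 28) (nat_lit 4) (nat_lit 29) (nat_lit 5) (nat_lit 29) (nat_lit 4) (nat_lit 501) (nat_lit 447) (nat_lit 252)) (XT.lf (nat_lit 0) (nat_lit 1292394717124) (nat_lit 76) (nat_lit 611587377951) (nat_lit 76) (nat_lit 207626936192) (nat_lit 28) (nat_lit 4) (nat_lit 29) (nat_lit 5) (nat_lit 29) (nat_lit 4) (nat_lit 502) (nat_lit 447) (nat_lit 251)))) (XT.nd (nat_lit 156) (nat_lit 152) (nat_lit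 0) (XT.nd (nat_lit 78) (nat_lit 0) (nat_lit 0) (XT.lf (nat_lit 0) (nat_lit 398744954860) (nat_lit 152) (nat_lit 1806176904209) (nat_lit 0) (nat_lit 24707500998) (nat_lit 26) (nat_lit 5) (nat_lit 28) (nat_lit 4) (nat_lit 26) (nat_lit 4) (nat_lit 503) (nat_lit 447) (nat_lit 250)) (XT.lf (nat_lit 0) (nat_lit 1081275266263) (nat_lit 152) (nat_lit 565037537803) (nat_lit 0) (nat_lit 707237805188) (nat_lit 26) (nat_lit 5) (nat_lit 28) (nat_lit 4) (nat_lit 26) (nat_lit 4) (nat_lit 504) (nat_lit 447) (nat_lit 249))) (XT.nd (nat_lit 78) (nat_lit 76) (nat_lit 0) (XT.lf (nat_lit 0) (nat_lit 816223743847) (nat_lit 76) (nat_lit 1021814434125) (nat_lit 76) (nat_lit 647776966372) (nat_lit 25) (nat_lit 4) (nat_lit 26) (nat_lit 5) (nat_lit 26) (nat_lit 4) (nat_lit 505) (nat_lit 447) (nat_lit 248)) (XT.lf (nat_lit 0) (nat_lit 41196953082) (nat_lit 152) (nat_lit 288347811526) (nat_lit 76) (nat_lit 2297796712526)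 (nat_lit 24) (nat_lit 5) (nat_lit 26) (nat_lit 5) (nat_lit 25) (nat_lit 4) (nat_lit 506) (nat_lit 447) (nat_lit 247))))) (XT.nd (nat_lit 312) (nat_lit 228) (nat_lit 0) (XT.nd (nat_lit 156) (nat_lit 228) (nat_lit 0) (XT.nd (nat_lit 78) (nat_lit 0) (nat_lit 0) (XT.lf (nat_lit 0) (nat_lit 791604470053) (nat_lit 152) (nat_lit 1538660948829) (nat_lit 0) (nat_lit 445273470365) (nat_lit 23) (nat_lit 5) (nat_lit 25) (nat_lit 4) (nat_lit 23) (nat_lit 4) (nat_lit 507) (nat_lit 447) (nat_lit 246)) (XT.lf (nat_lit 0) (nat_lit 1618692887154) (nat_lit 152) (nat_lit 43205460716) (nat_lit 0) (nat_lit 1272361882557) (nat_lit 23) (nat_lit 5) (nat_lit 25) (nat_lit 4) (nat_lit 23) (nat_lit 4) (nat_lit 508) (nat_lit 447) (nat_lit 245))) (XT.nd (nat_lit 78) (nat_lit 152) (nat_lit 0) (XT.lf (nat_lit 0) (nat_lit 1654659175637) (nat_lit 76) (nat_lit 897083773348) (nat_lit 76) (nat_lit 550752764206) (nat_lit 22)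 (nat_lit 4) (nat_lit 23) (nat_lit 5) (nat_lit 23) (nat_lit 4) (nat_lit 509) (nat_lit 447) (nat_lit 244)) (XT.lf (nat_lit 0) (nat_lit 210599186298) (nat_lit 76) (nat_lit 57155717379) (nat_lit 152) (nat_lit 3015403403880) (nat_lit 20) (nat_lit 5) (nat_lit 21) (nat_lit 5) (nat_lit 22) (nat_lit 4) (nat_lit 510) (nat_lit 447) (nat_lit 243)))) (XT.nd (nat_lit 156) (nat_lit 152) (nat_lit 0) (XT.nd (nat_lit 78) (nat_lit 76) (nat_lit 0) (XT.lf (nat_lit 0) (nat_lit 1183044561007) (nat_lit 152) (nat_lit 1426832727507) (nat_lit 0) (nat_lit 862367693185) (nat_lit 20) (nat_lit 5) (nat_lit 22) (nat_lit 4) (nat_lit 20) (nat_lit 4) (nat_lit 511) (nat_lit 447) (nat_lit 242)) (XT.lf (nat_lit 0) (nat_lit 367448431414) (nat_lit 76) (nat_lit 1814430647251) (nat_lit 76) (nat_lit 1493753776088) (nat_lit 19) (nat_lit 4) (nat_lit 20) (nat_lit 5) (nat_lit 20) (nat_lit 4) (nat_lit 512) (nat_lit 447) (nat_lit 241)))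 (XT.nd (nat_lit 78) (nat_lit 152) (nat_lit 0) (XT.lf (nat_lit 0) (nat_lit 2386417284624) (nat_lit 76) (nat_lit 913215189007) (nat_lit 76) (nat_lit 592538314750) (nat_lit 19) (nat_lit 4) (nat_lit 20) (nat_lit 5) (nat_lit 20) (nat_lit 4) (nat_lit 513) (nat_lit 447) (nat_lit 240)) (XT.lf (nat_lit 0) (nat_lit 374623051134) (nat_lit 152) (nat_lit 3671944354600) (nat_lit 0) (nat_lit 77700016763) (nat_lit 17) (nat_lit 5) (nat_lit 19) (nat_lit 4) (nat_lit 17) (nat_lit 4) (nat_lit 514) (nat_lit 447) (nat_lit 239))))))))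
noncomputable def xc192 : XT := (XT.nd (nat_lit 57486) (nat_lit 0) (nat_lit 3496) (XT.nd (nat_lit 1092) (nat_lit 380) (nat_lit 0) (XT.nd (nat_lit 546) (nat_lit 228) (nat_lit 0) (XT.nd (nat_lit 234) (nat_lit 228) (nat_lit 0) (XT.nd (nat_lit 78) (nat_lit 76) (nat_lit 0) (XT.lf (nat_lit 0) (nat_lit 1453104042347) (nat_lit 152) (nat_lit 1759138756974) (nat_lit 0) (nat_lit 1156181005520) (nat_lit 17) (nat_lit 5) (nat_lit 19) (nat_lit 4) (nat_lit 17) (nat_lit 4) (nat_lit 515) (nat_lit 447) (nat_lit 238)) (XT.nd (nat_lit 78) (nat_lit 0) (nat_lit 0) (XT.lf (nat_lit 0) (nat_lit 322841071210) (nat_lit 76) (nat_lit 2302786760094) (nat_lit 76) (nat_lit 2005863720994) (nat_lit 16) (nat_lit 4) (nat_lit 17) (nat_lit 5) (nat_lit 17) (nat_lit 4) (nat_lit 516) (nat_lit 447) (nat_lit 237)) (XT.lf (nat_lit 0) (nat_lit 2671423031234) (nat_lit 76) (nat_lit 1268628446585) (nat_lit 76) (nat_lit 971705405379) (nat_lit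 16) (nat_lit 4) (nat_lit 17) (nat_lit 5) (nat_lit 17) (nat_lit 4) (nat_lit 517) (nat_lit 447) (nat_lit 236)))) (XT.nd (nat_lit 156) (nat_lit 76) (nat_lit 0) (XT.nd (nat_lit 78) (nat_lit 76) (nat_lit 0) (XT.lf (nat_lit 0) (nat_lit 137922789187) (nat_lit 152) (nat_lit 10043641644) (nat_lit 76) (nat_lit 5066197673675) (nat_lit 15) (nat_lit 5) (nat_lit 17) (nat_lit 5) (nat_lit 16) (nat_lit 4) (nat_lit 518) (nat_lit 447) (nat_lit 235)) (XT.lf (nat_lit 0) (nat_lit 1371676511935) (nat_lit 152) (nat_lit 3063292288581) (nat_lit 0) (nat_lit 1096747766601) (nat_lit 14) (nat_lit 5) (nat_lit 16) (nat_lit 4) (nat_lit 14) (nat_lit 4) (nat_lit 519) (nat_lit 447) (nat_lit 234))) (XT.nd (nat_lit 78) (nat_lit 76) (nat_lit 0) (XT.lf (nat_lit 0) (nat_lit 2708255545512) (nat_lit 152) (nat_lit 732760881551) (nat_lit 0) (nat_lit 2433326798631) (nat_lit 14) (nat_lit 5) (nat_lit 16) (nat_lit 4) (nat_lit 14) (nat_lit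 4) (nat_lit 520) (nat_lit 447) (nat_lit 233)) (XT.lf (nat_lit 0) (nat_lit 1878166505336) (nat_lit 76) (nat_lit 2318764332525) (nat_lit 76) (nat_lit 2043835584211) (nat_lit 13) (nat_lit 4) (nat_lit 14) (nat_lit 5) (nat_lit 14) (nat_lit 4) (nat_lit 521) (nat_lit 447) (nat_lit 232))))) (XT.nd (nat_lit 234) (nat_lit 76) (nat_lit 0) (XT.nd (nat_lit 78) (nat_lit 152) (nat_lit 0) (XT.lf (nat_lit 0) (nat_lit 4739640816576) (nat_lit 76) (nat_lit 1085094304897) (nat_lit 76) (nat_lit 810165555257) (nat_lit 13) (nat_lit 4) (nat_lit 14) (nat_lit 5) (nat_lit 14) (nat_lit 4) (nat_lit 522) (nat_lit 447) (nat_lit 231)) (XT.nd (nat_lit 78) (nat_lit 0) (nat_lit 0) (XT.lf (nat_lit 0) (nat_lit 522008599285) (nat_lit 152) (nat_lit 6268032782424) (nat_lit 0) (nat_lit 267444941073) (nat_lit 11) (nat_lit 5) (nat_lit 13) (nat_lit 4) (nat_lit 11) (nat_lit 4) (nat_lit 523) (nat_lit 447) (nat_lit 230)) (XT.lf (nat_lit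 0) (nat_lit 1998336689227) (nat_lit 152) (nat_lit 3763577641532) (nat_lit 0) (nat_lit 1743773029962) (nat_lit 11) (nat_lit 5) (nat_lit 13) (nat_lit 4) (nat_lit 11) (nat_lit 4) (nat_lit 524) (nat_lit 447) (nat_lit 229)))) (XT.nd (nat_lit 156) (nat_lit 0) (nat_lit 0) (XT.nd (nat_lit 78) (nat_lit 76) (nat_lit 0) (XT.lf (nat_lit 0) (nat_lit 3592771014772) (nat_lit 152) (nat_lit 1058766113319) (nat_lit 0) (nat_lit 3338207354531) (nat_lit 11) (nat_lit 5) (nat_lit 13) (nat_lit 4) (nat_lit 11) (nat_lit 4) (nat_lit 525) (nat_lit 447) (nat_lit 228)) (XT.lf (nat_lit 0) (nat_lit 1960502594849) (nat_lit 76) (nat_lit 3401407615332) (nat_lit 76) (nat_lit 3146843954189) (nat_lit 10) (nat_lit 4) (nat_lit 11) (nat_lit 5) (nat_lit 11) (nat_lit 4) (nat_lit 526) (nat_lit 447) (nat_lit 227))) (XT.nd (nat_lit 78) (nat_lit 0) (nat_lit 0) (XT.lf (nat_lit 0) (nat_lit 5281525745068) (nat_lit 76) (nat_lit 2020003327530)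 (nat_lit 76) (nat_lit 1765439665551) (nat_lit 10) (nat_lit 4) (nat_lit 11) (nat_lit 5) (nat_lit 11) (nat_lit 4) (nat_lit 527) (nat_lit 447) (nat_lit 226)) (XT.lf (nat_lit 0) (nat_lit 8868230727290) (nat_lit 76) (nat_lit 528086707033) (nat_lit 76) (nat_lit 273523044280) (nat_lit 10) (nat_lit 4) (nat_lit 11) (nat_lit 5) (nat_lit 11) (nat_lit 4) (nat_lit 528) (nat_lit 447) (nat_lit 225)))))) (XT.nd (nat_lit 546) (nat_lit 152) (nat_lit 0) (XT.nd (nat_lit 234) (nat_lit 76) (nat_lit 0) (XT.nd (nat_lit 78) (nat_lit 0) (nat_lit 0) (XT.lf (nat_lit 0) (nat_lit 1359759264221) (nat_lit 152) (nat_lit 7827442147980) (nat_lit 0) (nat_lit 1124052168415) (nat_lit 8) (nat_lit 5) (nat_lit 10) (nat_lit 4) (nat_lit 8) (nat_lit 4) (nat_lit 529) (nat_lit 447) (nat_lit 224)) (XT.nd (nat_lit 78) (nat_lit 0) (nat_lit 0) (XT.lf (nat_lit 0) (nat_lit 3145130052270) (nat_lit 152) (nat_lit 4945962103598) (nat_lit 0) (nat_lit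 2909422955849) (nat_lit 8) (nat_lit 5) (nat_lit 10) (nat_lit 4) (nat_lit 8) (nat_lit 4) (nat_lit 530) (nat_lit 447) (nat_lit 223)) (XT.lf (nat_lit 0) (nat_lit 5073330494849) (nat_lit 152) (nat_lit 1833963673277) (nat_lit 0) (nat_lit 4837623397860) (nat_lit 8) (nat_lit 5) (nat_lit 10) (nat_lit 4) (nat_lit 8) (nat_lit 4) (nat_lit 531) (nat_lit 447) (nat_lit 222)))) (XT.nd (nat_lit 156) (nat_lit 0) (nat_lit 0) (XT.nd (nat_lit 78) (nat_lit 0) (nat_lit 0) (XT.lf (nat_lit 0) (nat_lit 1607403445527) (nat_lit 76) (nat_lit 5587041610948) (nat_lit 76) (nat_lit 5351334513432) (nat_lit 7) (nat_lit 4) (nat_lit 8) (nat_lit 5) (nat_lit 8) (nat_lit 4) (nat_lit 532) (nat_lit 447) (nat_lit 221)) (XT.lf (nat_lit 0) (nat_lit 5428379057073) (nat_lit 76) (nat_lit 4107013535168) (nat_lit 76) (nat_lit 3871306437164) (nat_lit 7) (nat_lit 4) (nat_lit 8) (nat_lit 5) (nat_lit 8) (nat_lit 4) (nat_lit 533) (nat_lit 447)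 (nat_lit 220))) (XT.nd (nat_lit 78) (nat_lit 0) (nat_lit 0) (XT.lf (nat_lit 0) (nat_lit 9555032702824) (nat_lit 76) (nat_lit 2508583220931) (nat_lit 76) (nat_lit 2272876122475) (nat_lit 7) (nat_lit 4) (nat_lit 8) (nat_lit 5) (nat_lit 8) (nat_lit 4) (nat_lit 534) (nat_lit 447) (nat_lit 219)) (XT.lf (nat_lit 0) (nat_lit 14011818626607) (nat_lit 76) (nat_lit 782278488598) (nat_lit 76) (nat_lit 546571389724) (nat_lit 7) (nat_lit 4) (nat_lit 8) (nat_lit 5) (nat_lit 8) (nat_lit 4) (nat_lit 535) (nat_lit 447) (nat_lit 218))))) (XT.nd (nat_lit 234) (nat_lit 0) (nat_lit 0) (XT.nd (nat_lit 78) (nat_lit 0) (nat_lit 0) (XT.lf (nat_lit 0) (nat_lit 1340276242378) (nat_lit 152) (nat_lit 13953269419320) (nat_lit 0) (nat_lit 1122028928247) (nat_lit 5) (nat_lit 5) (nat_lit 7) (nat_lit 4) (nat_lit 5) (nat_lit 4) (nat_lit 536) (nat_lit 447) (nat_lit 217)) (XT.nd (nat_lit 78) (nat_lit 0) (nat_lit 0) (XT.lf (nat_lit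 0) (nat_lit 3406138376628) (nat_lit 152) (nat_lit 10976700330747) (nat_lit 0) (nat_lit 3187891062165) (nat_lit 5) (nat_lit 5) (nat_lit 7) (nat_lit 4) (nat_lit 5) (nat_lit 4) (nat_lit 537) (nat_lit 447) (nat_lit 216)) (XT.lf (nat_lit 0) (nat_lit 5637269475829) (nat_lit 152) (nat_lit 7762005727079) (nat_lit 0) (nat_lit 5419022161059) (nat_lit 5) (nat_lit 5) (nat_lit 7) (nat_lit 4) (nat_lit 5) (nat_lit 4) (nat_lit 538) (nat_lit 447) (nat_lit 215)))) (XT.nd (nat_lit 55458) (nat_lit 0) (nat_lit 6156) (XT.nd (nat_lit 55380) (nat_lit 0) (nat_lit 6688) (XT.lf (nat_lit 0) (nat_lit 8046891057606) (nat_lit 152) (nat_lit 4290135566221) (nat_lit 0) (nat_lit 7828643742551) (nat_lit 5) (nat_lit 5) (nat_lit 7) (nat_lit 4) (nat_lit 5) (nat_lit 4) (nat_lit 539) (nat_lit 447) (nat_lit 214)) (XT.lf (nat_lit 0) (nat_lit 80537392647) (nat_lit 532) (nat_lit 542791196) (nat_lit 532) (nat_lit 542791196) (nat_lit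 93) (nat_lit 3) (nat_lit 100) (nat_lit 3) (nat_lit 100) (nat_lit 5) (nat_lit 448) (nat_lit 448) (nat_lit 304))) (XT.nd (nat_lit 78) (nat_lit 532) (nat_lit 0) (XT.lf (nat_lit 76) (nat_lit 84434829270) (nat_lit 0) (nat_lit 85115925919) (nat_lit 532) (nat_lit 62394305) (nat_lit 94) (nat_lit 5) (nat_lit 93) (nat_lit 3) (nat_lit 100) (nat_lit 5) (nat_lit 449) (nat_lit 448) (nat_lit 303)) (XT.lf (nat_lit 76) (nat_lit 333769841) (nat_lit 0) (nat_lit 1808739379) (nat_lit 608) (nat_lit 174339894772) (nat_lit 87) (nat_lit 5) (nat_lit 86) (nat_lit 5) (nat_lit 94) (nat_lit 5) (nat_lit 450) (nat_lit 448) (nat_lit 302))))))) (XT.nd (nat_lit 1092) (nat_lit 1368) (nat_lit 0) (XT.nd (nat_lit 546) (nat_lit 988) (nat_lit 0) (XT.nd (nat_lit 234) (nat_lit 380) (nat_lit 0) (XT.nd (nat_lit 78) (nat_lit 0) (nat_lit 0) (XT.lf (nat_lit 0) (nat_lit 9029949977) (nat_lit 532) (nat_lit 88366487316) (nat_lit 608) (nat_lit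 86143870662) (nat_lit 87) (nat_lit 5) (nat_lit 94) (nat_lit 5) (nat_lit 95) (nat_lit 5) (nat_lit 451) (nat_lit 448) (nat_lit 301)) (XT.nd (nat_lit 78) (nat_lit 0) (nat_lit 76) (XT.lf (nat_lit 76) (nat_lit 6727645855) (nat_lit 0) (nat_lit 9949312324) (nat_lit 608) (nat_lit 174469200308) (nat_lit 88) (nat_lit 5) (nat_lit 87) (nat_lit 5) (nat_lit 95) (nat_lit 5) (nat_lit 452) (nat_lit 448) (nat_lit 300)) (XT.lf (nat_lit 0) (nat_lit 29446456875) (nat_lit 532) (nat_lit 86807390100) (nat_lit 608) (nat_lit 82745771721) (nat_lit 88) (nat_lit 5) (nat_lit 95) (nat_lit 5) (nat_lit 96) (nat_lit 5) (nat_lit 453) (nat_lit 448) (nat_lit 299)))) (XT.nd (nat_lit 156) (nat_lit 456) (nat_lit 0) (XT.nd (nat_lit 78) (nat_lit 0) (nat_lit 76) (XT.lf (nat_lit 76) (nat_lit 19320539800) (nat_lit 0) (nat_lit 24639878283) (nat_lit 608) (nat_lit 163463105452) (nat_lit 89) (nat_lit 5) (nat_lit 88) (nat_lit 5) (nat_lit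 96) (nat_lit 5) (nat_lit 454) (nat_lit 448) (nat_lit 298)) (XT.lf (nat_lit 0) (nat_lit 63857436423) (nat_lit 532) (nat_lit 79304749329) (nat_lit 76) (nat_lit 73021399808) (nat_lit 89) (nat_lit 5) (nat_lit 96) (nat_lit 5) (nat_lit 90) (nat_lit 5) (nat_lit 455) (nat_lit 448) (nat_lit 297))) (XT.nd (nat_lit 78) (nat_lit 0) (nat_lit 0) (XT.lf (nat_lit 0) (nat_lit 39534893563) (nat_lit 532) (nat_lit 47401977146) (nat_lit 608) (nat_lit 138580329499) (nat_lit 82) (nat_lit 5) (nat_lit 89) (nat_lit 5) (nat_lit 90) (nat_lit 5) (nat_lit 456) (nat_lit 448) (nat_lit 296)) (XT.lf (nat_lit 0) (nat_lit 115434422679) (nat_lit 608) (nat_lit 64435935173) (nat_lit 76) (nat_lit 55441405156) (nat_lit 82) (nat_lit 5) (nat_lit 90) (nat_lit 5) (nat_lit 83) (nat_lit 5) (nat_lit 457) (nat_lit 448) (nat_lit 295))))) (XT.nd (nat_lit 234) (nat_lit 532) (nat_lit 0) (XT.nd (nat_lit 78) (nat_lit 228) (nat_lit 0) (XT.lf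 (nat_lit 0) (nat_lit 69057306414) (nat_lit 228) (nat_lit 80046384287) (nat_lit 304) (nat_lit 96554847195) (nat_lit 79) (nat_lit 5) (nat_lit 82) (nat_lit 5) (nat_lit 83) (nat_lit 5) (nat_lit 458) (nat_lit 448) (nat_lit 294)) (XT.nd (nat_lit 78) (nat_lit 228) (nat_lit 0) (XT.lf (nat_lit 0) (nat_lit 187941635087) (nat_lit 304) (nat_lit 40511201321) (nat_lit 76) (nat_lit 28182207590) (nat_lit 79) (nat_lit 5) (nat_lit 83) (nat_lit 5) (nat_lit 80) (nat_lit 5) (nat_lit 459) (nat_lit 448) (nat_lit 293)) (XT.lf (nat_lit 0) (nat_lit 109883585487) (nat_lit 228) (nat_lit 124724737421) (nat_lit 304) (nat_lit 33503611060) (nat_lit 76) (nat_lit 5) (nat_lit 79) (nat_lit 5) (nat_lit 80) (nat_lit 5) (nat_lit 460) (nat_lit 448) (nat_lit 292)))) (XT.nd (nat_lit 156) (nat_lit 228) (nat_lit 0) (XT.nd (nat_lit 78) (nat_lit 228) (nat_lit 0) (XT.lf (nat_lit 0) (nat_lit 5412492786) (nat_lit 304) (nat_lit 5941671889)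 (nat_lit 76) (nat_lit 269053245910) (nat_lit 75) (nat_lit 5) (nat_lit 79) (nat_lit 5) (nat_lit 76) (nat_lit 5) (nat_lit 461) (nat_lit 448) (nat_lit 291)) (XT.lf (nat_lit 0) (nat_lit 52420936461) (nat_lit 304) (nat_lit 130135954568) (nat_lit 76) (nat_lit 110516887082) (nat_lit 72) (nat_lit 5) (nat_lit 76) (nat_lit 5) (nat_lit 73) (nat_lit 5) (nat_lit 462) (nat_lit 448) (nat_lit 290))) (XT.nd (nat_lit 78) (nat_lit 0) (nat_lit 0) (XT.lf (nat_lit 0) (nat_lit 40659826959) (nat_lit 228) (nat_lit 63969581466) (nat_lit 304) (nat_lit 202008898399) (nat_lit 69) (nat_lit 5) (nat_lit 72) (nat_lit 5) (nat_lit 73) (nat_lit 5) (nat_lit 463) (nat_lit 448) (nat_lit 289)) (XT.lf (nat_lit 0) (nat_lit 166206743044) (nat_lit 304) (nat_lit 90117408559) (nat_lit 76) (nat_lit 64548471449) (nat_lit 69) (nat_lit 5) (nat_lit 73) (nat_lit 5) (nat_lit 70) (nat_lit 5) (nat_lit 464) (nat_lit 448) (nat_lit 288)))))) (XT.nd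 (nat_lit 546) (nat_lit 684) (nat_lit 0) (XT.nd (nat_lit 234) (nat_lit 304) (nat_lit 0) (XT.nd (nat_lit 78) (nat_lit 228) (nat_lit 0) (XT.lf (nat_lit 0) (nat_lit 103319320941) (nat_lit 152) (nat_lit 133537228745) (nat_lit 228) (nat_lit 99057432080) (nat_lit 67) (nat_lit 5) (nat_lit 69) (nat_lit 5) (nat_lit 70) (nat_lit 5) (nat_lit 465) (nat_lit 448) (nat_lit 287)) (XT.nd (nat_lit 78) (nat_lit 228) (nat_lit 0) (XT.lf (nat_lit 0) (nat_lit 315663915457) (nat_lit 228) (nat_lit 34647316170) (nat_lit 76) (nat_lit 1646971590) (nat_lit 67) (nat_lit 5) (nat_lit 70) (nat_lit 5) (nat_lit 68) (nat_lit 5) (nat_lit 466) (nat_lit 448) (nat_lit 286)) (XT.lf (nat_lit 0) (nat_lit 38035943073) (nat_lit 228) (nat_lit 184698127106) (nat_lit 76) (nat_lit 145841602551) (nat_lit 64) (nat_lit 5) (nat_lit 67) (nat_lit 5) (nat_lit 65) (nat_lit 5) (nat_lit 467) (nat_lit 448) (nat_lit 285)))) (XT.nd (nat_lit 156) (nat_lit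 152) (nat_lit 0) (XT.nd (nat_lit 78) (nat_lit 0) (nat_lit 0) (XT.lf (nat_lit 0) (nat_lit 36254208305) (nat_lit 152) (nat_lit 81941305707) (nat_lit 228) (nat_lit 268104108625) (nat_lit 62) (nat_lit 5) (nat_lit 64) (nat_lit 5) (nat_lit 65) (nat_lit 5) (nat_lit 468) (nat_lit 448) (nat_lit 284)) (XT.lf (nat_lit 0) (nat_lit 211635176272) (nat_lit 228) (nat_lit 121468374077) (nat_lit 76) (nat_lit 71788552144) (nat_lit 62) (nat_lit 5) (nat_lit 65) (nat_lit 5) (nat_lit 63) (nat_lit 5) (nat_lit 469) (nat_lit 448) (nat_lit 283))) (XT.nd (nat_lit 78) (nat_lit 0) (nat_lit 0) (XT.lf (nat_lit 0) (nat_lit 129757354159) (nat_lit 152) (nat_lit 188041595285) (nat_lit 228) (nat_lit 106753116262) (nat_lit 60) (nat_lit 5) (nat_lit 62) (nat_lit 5) (nat_lit 63) (nat_lit 5) (nat_lit 470) (nat_lit 448) (nat_lit 282)) (XT.lf (nat_lit 0) (nat_lit 407989039692) (nat_lit 152) (nat_lit 27787873028) (nat_lit 228) (nat_lit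 9742226202) (nat_lit 60) (nat_lit 5) (nat_lit 62) (nat_lit 5) (nat_lit 63) (nat_lit 5) (nat_lit 471) (nat_lit 448) (nat_lit 281))))) (XT.nd (nat_lit 234) (nat_lit 380) (nat_lit 0) (XT.nd (nat_lit 78) (nat_lit 152) (nat_lit 0) (XT.lf (nat_lit 0) (nat_lit 100011801346) (nat_lit 152) (nat_lit 220644325646) (nat_lit 76) (nat_lit 146545731718) (nat_lit 58) (nat_lit 5) (nat_lit 60) (nat_lit 5) (nat_lit 59) (nat_lit 5) (nat_lit 472) (nat_lit 448) (nat_lit 280)) (XT.nd (nat_lit 78) (nat_lit 0) (nat_lit 0) (XT.lf (nat_lit 0) (nat_lit 67336303213) (nat_lit 152) (nat_lit 154077442446) (nat_lit 228) (nat_lit 268913692615) (nat_lit 56) (nat_lit 5) (nat_lit 58) (nat_lit 5) (nat_lit 59) (nat_lit 5) (nat_lit 473) (nat_lit 448) (nat_lit 279)) (XT.lf (nat_lit 0) (nat_lit 359338435646) (nat_lit 228) (nat_lit 124694781092) (nat_lit 76) (nat_lit 30725000258) (nat_lit 56) (nat_lit 5) (nat_lit 59) (nat_lit 5)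 (nat_lit 57) (nat_lit 4) (nat_lit 474) (nat_lit 448) (nat_lit 278)))) (XT.nd (nat_lit 156) (nat_lit 228) (nat_lit 0) (XT.nd (nat_lit 78) (nat_lit 76) (nat_lit 0) (XT.lf (nat_lit 0) (nat_lit 203650592535) (nat_lit 76) (nat_lit 313546260402) (nat_lit 152) (nat_lit 23234624912) (nat_lit 55) (nat_lit 5) (nat_lit 56) (nat_lit 5) (nat_lit 57) (nat_lit 4) (nat_lit 475) (nat_lit 448) (nat_lit 277)) (XT.lf (nat_lit 0) (nat_lit 117044073273) (nat_lit 152) (nat_lit 5493998490) (nat_lit 76) (nat_lit 445110731138) (nat_lit 54) (nat_lit 5) (nat_lit 56) (nat_lit 5) (nat_lit 55) (nat_lit 5) (nat_lit 476) (nat_lit 448) (nat_lit 276))) (XT.nd (nat_lit 78) (nat_lit 76) (nat_lit 0) (XT.lf (nat_lit 0) (nat_lit 278454483892) (nat_lit 228) (nat_lit 228332359743) (nat_lit 76) (nat_lit 89315215399) (nat_lit 52) (nat_lit 5) (nat_lit 55) (nat_lit 5) (nat_lit 53) (nat_lit 4) (nat_lit 477) (nat_lit 448) (nat_lit 275))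 (XT.lf (nat_lit 0) (nat_lit 148635948155) (nat_lit 76) (nat_lit 311053346622) (nat_lit 152) (nat_lit 166589355488) (nat_lit 51) (nat_lit 5) (nat_lit 52) (nat_lit 5) (nat_lit 53) (nat_lit 4) (nat_lit 478) (nat_lit 448) (nat_lit 274))))))))
noncomputable def xc193 : XT := (XT.nd (nat_lit 2184) (nat_lit 1368) (nat_lit 0) (XT.nd (nat_lit 1092) (nat_lit 988) (nat_lit 0) (XT.nd (nat_lit 546) (nat_lit 456) (nat_lit 0) (XT.nd (nat_lit 234) (nat_lit 228) (nat_lit 0) (XT.nd (nat_lit 78) (nat_lit 228) (nat_lit 0) (XT.lf (nat_lit 0) (nat_lit 3131041295) (nat_lit 152) (nat_lit 89702110474) (nat_lit 76) (nat_lit 565530439040) (nat_lit 50) (nat_lit 5) (nat_lit 52) (nat_lit 5) (nat_lit 51) (nat_lit 5) (nat_lit 479) (nat_lit 448) (nat_lit 273)) (XT.nd (nat_lit 78) (nat_lit 76) (nat_lit 0) (XT.lf (nat_lit 0) (nat_lit 189416845451) (nat_lit 228) (nat_lit 353714777266) (nat_lit 76) (nat_lit 148578509955) (nat_lit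 48) (nat_lit 5) (nat_lit 51) (nat_lit 5) (nat_lit 49) (nat_lit 4) (nat_lit 480) (nat_lit 448) (nat_lit 272)) (XT.lf (nat_lit 0) (nat_lit 78956547687) (nat_lit 76) (nat_lit 318475392731) (nat_lit 152) (nat_lit 329746343349) (nat_lit 47) (nat_lit 5) (nat_lit 48) (nat_lit 5) (nat_lit 49) (nat_lit 4) (nat_lit 481) (nat_lit 448) (nat_lit 271)))) (XT.nd (nat_lit 156) (nat_lit 76) (nat_lit 0) (XT.nd (nat_lit 78) (nat_lit 152) (nat_lit 0) (XT.lf (nat_lit 0) (nat_lit 566357561783) (nat_lit 76) (nat_lit 65401821568) (nat_lit 152) (nat_lit 132950812373) (nat_lit 47) (nat_lit 5) (nat_lit 48) (nat_lit 5) (nat_lit 49) (nat_lit 4) (nat_lit 482) (nat_lit 448) (nat_lit 270)) (XT.lf (nat_lit 0) (nat_lit 88075092049) (nat_lit 152) (nat_lit 509120491697) (nat_lit 76) (nat_lit 206898503681) (nat_lit 45) (nat_lit 5) (nat_lit 47) (nat_lit 5) (nat_lit 46) (nat_lit 4) (nat_lit 483) (nat_lit 448) (nat_lit 269)))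 (XT.nd (nat_lit 78) (nat_lit 76) (nat_lit 0) (XT.lf (nat_lit 0) (nat_lit 326863152509) (nat_lit 152) (nat_lit 12441379289) (nat_lit 76) (nat_lit 506466866777) (nat_lit 45) (nat_lit 5) (nat_lit 47) (nat_lit 5) (nat_lit 46) (nat_lit 4) (nat_lit 484) (nat_lit 448) (nat_lit 268)) (XT.lf (nat_lit 0) (nat_lit 551563418597) (nat_lit 76) (nat_lit 46455910490) (nat_lit 152) (nat_lit 291702359826) (nat_lit 44) (nat_lit 5) (nat_lit 45) (nat_lit 5) (nat_lit 46) (nat_lit 4) (nat_lit 485) (nat_lit 448) (nat_lit 267))))) (XT.nd (nat_lit 234) (nat_lit 228) (nat_lit 0) (XT.nd (nat_lit 78) (nat_lit 152) (nat_lit 0) (XT.lf (nat_lit 0) (nat_lit 229202914259) (nat_lit 76) (nat_lit 674015576171) (nat_lit 76) (nat_lit 32981472798) (nat_lit 43) (nat_lit 4) (nat_lit 44) (nat_lit 5) (nat_lit 44) (nat_lit 4) (nat_lit 486) (nat_lit 448) (nat_lit 266)) (XT.nd (nat_lit 78) (nat_lit 76) (nat_lit 0) (XT.lf (nat_lit 0)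 (nat_lit 244801907720) (nat_lit 152) (nat_lit 131846174526) (nat_lit 76) (nat_lit 608418863529) (nat_lit 42) (nat_lit 5) (nat_lit 44) (nat_lit 5) (nat_lit 43) (nat_lit 4) (nat_lit 487) (nat_lit 448) (nat_lit 265)) (XT.lf (nat_lit 0) (nat_lit 514181473834) (nat_lit 76) (nat_lit 41210666899) (nat_lit 152) (nat_lit 481393330202) (nat_lit 41) (nat_lit 5) (nat_lit 42) (nat_lit 5) (nat_lit 43) (nat_lit 4) (nat_lit 488) (nat_lit 448) (nat_lit 264)))) (XT.nd (nat_lit 156) (nat_lit 76) (nat_lit 0) (XT.nd (nat_lit 78) (nat_lit 76) (nat_lit 0) (XT.lf (nat_lit 0) (nat_lit 125499183775) (nat_lit 76) (nat_lit 779768713363) (nat_lit 76) (nat_lit 186218516593) (nat_lit 40) (nat_lit 4) (nat_lit 41) (nat_lit 5) (nat_lit 41) (nat_lit 4) (nat_lit 489) (nat_lit 448) (nat_lit 263)) (XT.lf (nat_lit 0) (nat_lit 141669008629) (nat_lit 152) (nat_lit 298878687642) (nat_lit 76) (nat_lit 708502235885) (nat_lit 39) (nat_lit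 5) (nat_lit 41) (nat_lit 5) (nat_lit 40) (nat_lit 4) (nat_lit 490) (nat_lit 448) (nat_lit 262))) (XT.nd (nat_lit 78) (nat_lit 0) (nat_lit 0) (XT.lf (nat_lit 0) (nat_lit 438707552990) (nat_lit 76) (nat_lit 57570238004) (nat_lit 152) (nat_lit 713709722146) (nat_lit 38) (nat_lit 5) (nat_lit 39) (nat_lit 5) (nat_lit 40) (nat_lit 4) (nat_lit 491) (nat_lit 448) (nat_lit 261)) (XT.lf (nat_lit 0) (nat_lit 896202271079) (nat_lit 152) (nat_lit 31623388641) (nat_lit 0) (nat_lit 346618681273) (nat_lit 38) (nat_lit 5) (nat_lit 40) (nat_lit 4) (nat_lit 38) (nat_lit 4) (nat_lit 492) (nat_lit 448) (nat_lit 260)))))) (XT.nd (nat_lit 546) (nat_lit 456) (nat_lit 0) (XT.nd (nat_lit 234) (nat_lit 304) (nat_lit 0) (XT.nd (nat_lit 78) (nat_lit 76) (nat_lit 0) (XT.lf (nat_lit 0) (nat_lit 6282944875) (nat_lit 152) (nat_lit 536515085649) (nat_lit 76) (nat_lit 799576530035) (nat_lit 36) (nat_lit 5) (nat_lit 38) (nat_lit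 5) (nat_lit 37) (nat_lit 4) (nat_lit 493) (nat_lit 448) (nat_lit 259)) (XT.nd (nat_lit 78) (nat_lit 0) (nat_lit 0) (XT.lf (nat_lit 0) (nat_lit 301715427028) (nat_lit 76) (nat_lit 107562966065) (nat_lit 152) (nat_lit 1005023380770) (nat_lit 35) (nat_lit 5) (nat_lit 36) (nat_lit 5) (nat_lit 37) (nat_lit 4) (nat_lit 494) (nat_lit 448) (nat_lit 258)) (XT.lf (nat_lit 0) (nat_lit 868281653137) (nat_lit 152) (nat_lit 262392152741) (nat_lit 0) (nat_lit 359407904276) (nat_lit 35) (nat_lit 5) (nat_lit 37) (nat_lit 4) (nat_lit 35) (nat_lit 4) (nat_lit 495) (nat_lit 448) (nat_lit 257)))) (XT.nd (nat_lit 156) (nat_lit 76) (nat_lit 0) (XT.nd (nat_lit 78) (nat_lit 152) (nat_lit 0) (XT.lf (nat_lit 0) (nat_lit 687410743420) (nat_lit 76) (nat_lit 695920488850) (nat_lit 76) (nat_lit 187046724417) (nat_lit 34) (nat_lit 4) (nat_lit 35) (nat_lit 5) (nat_lit 35) (nat_lit 4) (nat_lit 496) (nat_lit 448) (nat_lit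 256)) (XT.lf (nat_lit 0) (nat_lit 68018736153) (nat_lit 76) (nat_lit 209333434521) (nat_lit 152) (nat_lit 1378482512302) (nat_lit 32) (nat_lit 5) (nat_lit 33) (nat_lit 5) (nat_lit 34) (nat_lit 4) (nat_lit 497) (nat_lit 448) (nat_lit 255))) (XT.nd (nat_lit 78) (nat_lit 76) (nat_lit 0) (XT.lf (nat_lit 0) (nat_lit 801170667225) (nat_lit 152) (nat_lit 613987535919) (nat_lit 0) (nat_lit 329991230001) (nat_lit 32) (nat_lit 5) (nat_lit 34) (nat_lit 4) (nat_lit 32) (nat_lit 4) (nat_lit 498) (nat_lit 448) (nat_lit 254)) (XT.lf (nat_lit 0) (nat_lit 455074531575) (nat_lit 76) (nat_lit 928201869892) (nat_lit 76) (nat_lit 457022421223) (nat_lit 31) (nat_lit 4) (nat_lit 32) (nat_lit 5) (nat_lit 32) (nat_lit 4) (nat_lit 499) (nat_lit 448) (nat_lit 253))))) (XT.nd (nat_lit 234) (nat_lit 228) (nat_lit 0) (XT.nd (nat_lit 78) (nat_lit 152) (nat_lit 0) (XT.lf (nat_lit 0) (nat_lit 82667771664) (nat_lit 152)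 (nat_lit 299230494205) (nat_lit 76) (nat_lit 1559651470690) (nat_lit 30) (nat_lit 5) (nat_lit 32) (nat_lit 5) (nat_lit 31) (nat_lit 4) (nat_lit 500) (nat_lit 448) (nat_lit 252)) (XT.nd (nat_lit 78) (nat_lit 76) (nat_lit 0) (XT.lf (nat_lit 0) (nat_lit 668539133595) (nat_lit 152) (nat_lit 1146934322747) (nat_lit 0) (nat_lit 232261847410) (nat_lit 29) (nat_lit 5) (nat_lit 31) (nat_lit 4) (nat_lit 29) (nat_lit 4) (nat_lit 501) (nat_lit 448) (nat_lit 251)) (XT.lf (nat_lit 0) (nat_lit 44168789209) (nat_lit 76) (nat_lit 1276487084102) (nat_lit 76) (nat_lit 840209789503) (nat_lit 28) (nat_lit 4) (nat_lit 29) (nat_lit 5) (nat_lit 29) (nat_lit 4) (nat_lit 502) (nat_lit 448) (nat_lit 250)))) (XT.nd (nat_lit 156) (nat_lit 76) (nat_lit 0) (XT.nd (nat_lit 78) (nat_lit 152) (nat_lit 0) (XT.lf (nat_lit 0) (nat_lit 1395787271263) (nat_lit 76) (nat_lit 660513873174) (nat_lit 76) (nat_lit 224236570786) (nat_lit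 28) (nat_lit 4) (nat_lit 29) (nat_lit 5) (nat_lit 29) (nat_lit 4) (nat_lit 503) (nat_lit 448) (nat_lit 249)) (XT.lf (nat_lit 0) (nat_lit 430645044351) (nat_lit 152) (nat_lit 1950670052570) (nat_lit 0) (nat_lit 26684572498) (nat_lit 26) (nat_lit 5) (nat_lit 28) (nat_lit 4) (nat_lit 26) (nat_lit 4) (nat_lit 504) (nat_lit 448) (nat_lit 248))) (XT.nd (nat_lit 78) (nat_lit 76) (nat_lit 0) (XT.lf (nat_lit 0) (nat_lit 1167777744140) (nat_lit 152) (nat_lit 610239611221) (nat_lit 0) (nat_lit 763817266104) (nat_lit 26) (nat_lit 5) (nat_lit 28) (nat_lit 4) (nat_lit 26) (nat_lit 4) (nat_lit 505) (nat_lit 448) (nat_lit 247)) (XT.lf (nat_lit 0) (nat_lit 881522549427) (nat_lit 76) (nat_lit 1103559127330) (nat_lit 76) (nat_lit 699598643568) (nat_lit 25) (nat_lit 4) (nat_lit 26) (nat_lit 5) (nat_lit 26) (nat_lit 4) (nat_lit 506) (nat_lit 448) (nat_lit 246))))))) (XT.nd (nat_lit 1092) (nat_lit 532) (nat_lit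 0) (XT.nd (nat_lit 546) (nat_lit 380) (nat_lit 0) (XT.nd (nat_lit 234) (nat_lit 304) (nat_lit 0) (XT.nd (nat_lit 78) (nat_lit 76) (nat_lit 0) (XT.lf (nat_lit 0) (nat_lit 44493131639) (nat_lit 152) (nat_lit 311414775252) (nat_lit 76) (nat_lit 2481620854626) (nat_lit 24) (nat_lit 5) (nat_lit 26) (nat_lit 5) (nat_lit 25) (nat_lit 4) (nat_lit 507) (nat_lit 448) (nat_lit 245)) (XT.nd (nat_lit 78) (nat_lit 0) (nat_lit 0) (XT.lf (nat_lit 0) (nat_lit 854933249171) (nat_lit 152) (nat_lit 1661752962739) (nat_lit 0) (nat_lit 480895754752) (nat_lit 23) (nat_lit 5) (nat_lit 25) (nat_lit 4) (nat_lit 23) (nat_lit 4) (nat_lit 508) (nat_lit 448) (nat_lit 244)) (XT.lf (nat_lit 0) (nat_lit 1748188708417) (nat_lit 152) (nat_lit 46661099429) (nat_lit 0) (nat_lit 1374151209789) (nat_lit 23) (nat_lit 5) (nat_lit 25) (nat_lit 4) (nat_lit 23) (nat_lit 4) (nat_lit 509) (nat_lit 448) (nat_lit 243)))) (XT.nd (nat_lit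 156) (nat_lit 76) (nat_lit 0) (XT.nd (nat_lit 78) (nat_lit 152) (nat_lit 0) (XT.lf (nat_lit 0) (nat_lit 1787032687626) (nat_lit 76) (nat_lit 968850077368) (nat_lit 76) (nat_lit 594812574844) (nat_lit 22) (nat_lit 4) (nat_lit 23) (nat_lit 5) (nat_lit 23) (nat_lit 4) (nat_lit 510) (nat_lit 448) (nat_lit 242)) (XT.lf (nat_lit 0) (nat_lit 227447899462) (nat_lit 76) (nat_lit 61727776304) (nat_lit 152) (nat_lit 3256635266010) (nat_lit 20) (nat_lit 5) (nat_lit 21) (nat_lit 5) (nat_lit 22) (nat_lit 4) (nat_lit 511) (nat_lit 448) (nat_lit 241))) (XT.nd (nat_lit 78) (nat_lit 76) (nat_lit 0) (XT.lf (nat_lit 0) (nat_lit 1277688486423) (nat_lit 152) (nat_lit 1540978605835) (nat_lit 0) (nat_lit 931357459133) (nat_lit 20) (nat_lit 5) (nat_lit 22) (nat_lit 4) (nat_lit 20) (nat_lit 4) (nat_lit 512) (nat_lit 448) (nat_lit 240)) (XT.lf (nat_lit 0) (nat_lit 396845027068) (nat_lit 76) (nat_lit 1959584729062)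 (nat_lit 76) (nat_lit 1613253698908) (nat_lit 19) (nat_lit 4) (nat_lit 20) (nat_lit 5) (nat_lit 20) (nat_lit 4) (nat_lit 513) (nat_lit 448) (nat_lit 239))))) (XT.nd (nat_lit 234) (nat_lit 228) (nat_lit 0) (XT.nd (nat_lit 78) (nat_lit 152) (nat_lit 0) (XT.lf (nat_lit 0) (nat_lit 2577331335117) (nat_lit 76) (nat_lit 986272061563) (nat_lit 76) (nat_lit 639941028756) (nat_lit 19) (nat_lit 4) (nat_lit 20) (nat_lit 5) (nat_lit 20) (nat_lit 4) (nat_lit 514) (nat_lit 448) (nat_lit 238)) (XT.nd (nat_lit 78) (nat_lit 0) (nat_lit 0) (XT.lf (nat_lit 0) (nat_lit 404593228432) (nat_lit 152) (nat_lit 3965699217275) (nat_lit 0) (nat_lit 83916343930) (nat_lit 17) (nat_lit 5) (nat_lit 19) (nat_lit 4) (nat_lit 17) (nat_lit 4) (nat_lit 515) (nat_lit 448) (nat_lit 237)) (XT.lf (nat_lit 0) (nat_lit 1569352674261) (nat_lit 152) (nat_lit 1899869222632) (nat_lit 0) (nat_lit 1248675787653) (nat_lit 17) (nat_lit 5)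 (nat_lit 19) (nat_lit 4) (nat_lit 17) (nat_lit 4) (nat_lit 516) (nat_lit 448) (nat_lit 236)))) (XT.nd (nat_lit 156) (nat_lit 152) (nat_lit 0) (XT.nd (nat_lit 78) (nat_lit 0) (nat_lit 0) (XT.lf (nat_lit 0) (nat_lit 348668975734) (nat_lit 76) (nat_lit 2487009382630) (nat_lit 76) (nat_lit 2166332494073) (nat_lit 16) (nat_lit 4) (nat_lit 17) (nat_lit 5) (nat_lit 17) (nat_lit 4) (nat_lit 517) (nat_lit 448) (nat_lit 235)) (XT.lf (nat_lit 0) (nat_lit 2885137446720) (nat_lit 76) (nat_lit 1370118427616) (nat_lit 76) (nat_lit 1049441537254) (nat_lit 16) (nat_lit 4) (nat_lit 17) (nat_lit 5) (nat_lit 17) (nat_lit 4) (nat_lit 518) (nat_lit 448) (nat_lit 234))) (XT.nd (nat_lit 78) (nat_lit 76) (nat_lit 0) (XT.lf (nat_lit 0) (nat_lit 148956876694) (nat_lit 152) (nat_lit 10846588509) (nat_lit 76) (nat_lit 5471493746514) (nat_lit 15) (nat_lit 5) (nat_lit 17) (nat_lit 5) (nat_lit 16) (nat_lit 4) (nat_lit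 519) (nat_lit 448) (nat_lit 233)) (XT.lf (nat_lit 0) (nat_lit 1481410897009) (nat_lit 152) (nat_lit 3308355126949) (nat_lit 0) (nat_lit 1184487847398) (nat_lit 14) (nat_lit 5) (nat_lit 16) (nat_lit 4) (nat_lit 14) (nat_lit 4) (nat_lit 520) (nat_lit 448) (nat_lit 232)))))) (XT.nd (nat_lit 546) (nat_lit 228) (nat_lit 0) (XT.nd (nat_lit 234) (nat_lit 228) (nat_lit 0) (XT.nd (nat_lit 78) (nat_lit 76) (nat_lit 0) (XT.lf (nat_lit 0) (nat_lit 2924916233709) (nat_lit 152) (nat_lit 791381247706) (nat_lit 0) (nat_lit 2627993182770) (nat_lit 14) (nat_lit 5) (nat_lit 16) (nat_lit 4) (nat_lit 14) (nat_lit 4) (nat_lit 521) (nat_lit 448) (nat_lit 231)) (XT.nd (nat_lit 78) (nat_lit 0) (nat_lit 0) (XT.lf (nat_lit 0) (nat_lit 2028420317363) (nat_lit 76) (nat_lit 2504265225790) (nat_lit 76) (nat_lit 2207342173624) (nat_lit 13) (nat_lit 4) (nat_lit 14) (nat_lit 5) (nat_lit 14) (nat_lit 4) (nat_lit 522) (nat_lit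 448) (nat_lit 230)) (XT.lf (nat_lit 0) (nat_lit 5118812537088) (nat_lit 76) (nat_lit 1171901614718) (nat_lit 76) (nat_lit 874978561413) (nat_lit 13) (nat_lit 4) (nat_lit 14) (nat_lit 5) (nat_lit 14) (nat_lit 4) (nat_lit 523) (nat_lit 448) (nat_lit 229)))) (XT.nd (nat_lit 156) (nat_lit 76) (nat_lit 0) (XT.nd (nat_lit 78) (nat_lit 0) (nat_lit 0) (XT.lf (nat_lit 0) (nat_lit 563769513402) (nat_lit 152) (nat_lit 6769474937741) (nat_lit 0) (nat_lit 288840759367) (nat_lit 11) (nat_lit 5) (nat_lit 13) (nat_lit 4) (nat_lit 11) (nat_lit 4) (nat_lit 524) (nat_lit 448) (nat_lit 228)) (XT.lf (nat_lit 0) (nat_lit 2158203833785) (nat_lit 152) (nat_lit 4064663420191) (nat_lit 0) (nat_lit 1883275078848) (nat_lit 11) (nat_lit 5) (nat_lit 13) (nat_lit 4) (nat_lit 11) (nat_lit 4) (nat_lit 525) (nat_lit 448) (nat_lit 227))) (XT.nd (nat_lit 78) (nat_lit 76) (nat_lit 0) (XT.lf (nat_lit 0) (nat_lit 3880192889861)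 (nat_lit 152) (nat_lit 1143467001771) (nat_lit 0) (nat_lit 3605264134087) (nat_lit 11) (nat_lit 5) (nat_lit 13) (nat_lit 4) (nat_lit 11) (nat_lit 4) (nat_lit 526) (nat_lit 448) (nat_lit 226)) (XT.lf (nat_lit 0) (nat_lit 2117343192909) (nat_lit 76) (nat_lit 3673520023022) (nat_lit 76) (nat_lit 3398591266474) (nat_lit 10) (nat_lit 4) (nat_lit 11) (nat_lit 5) (nat_lit 11) (nat_lit 4) (nat_lit 527) (nat_lit 448) (nat_lit 225))))) (XT.nd (nat_lit 312) (nat_lit 76) (nat_lit 0) (XT.nd (nat_lit 156) (nat_lit 152) (nat_lit 0) (XT.nd (nat_lit 78) (nat_lit 0) (nat_lit 0) (XT.lf (nat_lit 0) (nat_lit 5704048166222) (nat_lit 76) (nat_lit 2181603407124) (nat_lit 76) (nat_lit 1906674649859) (nat_lit 10) (nat_lit 4) (nat_lit 11) (nat_lit 5) (nat_lit 11) (nat_lit 4) (nat_lit 528) (nat_lit 448) (nat_lit 224)) (XT.lf (nat_lit 0) (nat_lit 9577689520240) (nat_lit 76) (nat_lit 570333470811) (nat_lit 76) (nat_lit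 295404712882) (nat_lit 10) (nat_lit 4) (nat_lit 11) (nat_lit 5) (nat_lit 11) (nat_lit 4) (nat_lit 529) (nat_lit 448) (nat_lit 223))) (XT.nd (nat_lit 78) (nat_lit 0) (nat_lit 0) (XT.lf (nat_lit 0) (nat_lit 1468540171448) (nat_lit 152) (nat_lit 8453637176200) (nat_lit 0) (nat_lit 1213976506130) (nat_lit 8) (nat_lit 5) (nat_lit 10) (nat_lit 4) (nat_lit 8) (nat_lit 4) (nat_lit 530) (nat_lit 448) (nat_lit 222)) (XT.lf (nat_lit 0) (nat_lit 3396740610238) (nat_lit 152) (nat_lit 5341638753720) (nat_lit 0) (nat_lit 3142176944393) (nat_lit 8) (nat_lit 5) (nat_lit 10) (nat_lit 4) (nat_lit 8) (nat_lit 4) (nat_lit 531) (nat_lit 448) (nat_lit 221)))) (XT.nd (nat_lit 156) (nat_lit 0) (nat_lit 0) (XT.nd (nat_lit 78) (nat_lit 76) (nat_lit 0) (XT.lf (nat_lit 0) (nat_lit 5479197076832) (nat_lit 152) (nat_lit 1980680472542) (nat_lit 0) (nat_lit 5224633410500) (nat_lit 8) (nat_lit 5) (nat_lit 10) (nat_lit 4)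 (nat_lit 8) (nat_lit 4) (nat_lit 532) (nat_lit 448) (nat_lit 220)) (XT.lf (nat_lit 0) (nat_lit 1735996008309) (nat_lit 76) (nat_lit 6034004791437) (nat_lit 76) (nat_lit 5779441124653) (nat_lit 7) (nat_lit 4) (nat_lit 8) (nat_lit 5) (nat_lit 8) (nat_lit 4) (nat_lit 533) (nat_lit 448) (nat_lit 219))) (XT.nd (nat_lit 78) (nat_lit 0) (nat_lit 0) (XT.lf (nat_lit 0) (nat_lit 5862649647508) (nat_lit 76) (nat_lit 4435574480586) (nat_lit 76) (nat_lit 4181010813384) (nat_lit 7) (nat_lit 4) (nat_lit 8) (nat_lit 5) (nat_lit 8) (nat_lit 4) (nat_lit 534) (nat_lit 448) (nat_lit 218)) (XT.lf (nat_lit 0) (nat_lit 10319435565225) (nat_lit 76) (nat_lit 2709269751388) (nat_lit 76) (nat_lit 2454706083799) (nat_lit 7) (nat_lit 4) (nat_lit 8) (nat_lit 5) (nat_lit 8) (nat_lit 4) (nat_lit 535) (nat_lit 448) (nat_lit 217))))))))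
noncomputable def xc194 : XT := (XT.nd (nat_lit 57564) (nat_lit 0) (nat_lit 1900) (XT.nd (nat_lit 56472) (nat_lit 0) (nat_lit 4180) (XT.nd (nat_lit 55926) (nat_lit 0) (nat_lit 5852) (XT.nd (nat_lit 234) (nat_lit 0) (nat_lit 0) (XT.nd (nat_lit 78) (nat_lit 152) (nat_lit 0) (XT.lf (nat_lit 0) (nat_lit 15132764344676) (nat_lit 76) (nat_lit 844860649892) (nat_lit 76) (nat_lit 590296981944) (nat_lit 7) (nat_lit 4) (nat_lit 8) (nat_lit 5) (nat_lit 8) (nat_lit 4) (nat_lit 536) (nat_lit 448) (nat_lit 216)) (XT.nd (nat_lit 78) (nat_lit 0) (nat_lit 0) (XT.lf (nat_lit 0) (nat_lit 1447498454721) (nat_lit 152) (nat_lit 15069530738920) (nat_lit 0) (nat_lit 1211791354462) (nat_lit 5) (nat_lit 5) (nat_lit 7) (nat_lit 4) (nat_lit 5) (nat_lit 4) (nat_lit 537) (nat_lit 448) (nat_lit 215)) (XT.lf (nat_lit 0) (nat_lit 3678629551345) (nat_lit 152) (nat_lit 11854836140590) (nat_lit 0) (nat_lit 3442922450801) (nat_lit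 5) (nat_lit 5) (nat_lit 7) (nat_lit 4) (nat_lit 5) (nat_lit 4) (nat_lit 538) (nat_lit 448) (nat_lit 214)))) (XT.nd (nat_lit 55536) (nat_lit 0) (nat_lit 6156) (XT.nd (nat_lit 55458) (nat_lit 0) (nat_lit 6688) (XT.lf (nat_lit 0) (nat_lit 6088251130735) (nat_lit 152) (nat_lit 8382965984675) (nat_lit 0) (nat_lit 5852544029927) (nat_lit 5) (nat_lit 5) (nat_lit 7) (nat_lit 4) (nat_lit 5) (nat_lit 4) (nat_lit 539) (nat_lit 448) (nat_lit 213)) (XT.lf (nat_lit 0) (nat_lit 86982647100) (nat_lit 532) (nat_lit 584992299) (nat_lit 532) (nat_lit 584992299) (nat_lit 93) (nat_lit 3) (nat_lit 100) (nat_lit 3) (nat_lit 100) (nat_lit 5) (nat_lit 449) (nat_lit 449) (nat_lit 302))) (XT.nd (nat_lit 78) (nat_lit 532) (nat_lit 0) (XT.lf (nat_lit 76) (nat_lit 91191998114) (nat_lit 0) (nat_lit 91927065605) (nat_lit 532) (nat_lit 62797326) (nat_lit 94) (nat_lit 5) (nat_lit 93) (nat_lit 3) (nat_lit 100) (nat_lit 5)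 (nat_lit 450) (nat_lit 449) (nat_lit 301)) (XT.lf (nat_lit 76) (nat_lit 363017844) (nat_lit 0) (nat_lit 1954989454) (nat_lit 608) (nat_lit 188282660747) (nat_lit 87) (nat_lit 5) (nat_lit 86) (nat_lit 5) (nat_lit 94) (nat_lit 5) (nat_lit 451) (nat_lit 449) (nat_lit 300))))) (XT.nd (nat_lit 234) (nat_lit 380) (nat_lit 0) (XT.nd (nat_lit 78) (nat_lit 0) (nat_lit 0) (XT.lf (nat_lit 0) (nat_lit 9756105273) (nat_lit 532) (nat_lit 95433110022) (nat_lit 608) (nat_lit 93034016110) (nat_lit 87) (nat_lit 5) (nat_lit 94) (nat_lit 5) (nat_lit 95) (nat_lit 5) (nat_lit 452) (nat_lit 449) (nat_lit 299)) (XT.nd (nat_lit 78) (nat_lit 0) (nat_lit 76) (XT.lf (nat_lit 76) (nat_lit 7268485543) (nat_lit 0) (nat_lit 10746173325) (nat_lit 608) (nat_lit 188422908365) (nat_lit 88) (nat_lit 5) (nat_lit 87) (nat_lit 5) (nat_lit 95) (nat_lit 5) (nat_lit 453) (nat_lit 449) (nat_lit 298)) (XT.lf (nat_lit 0) (nat_lit 31805434540)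 (nat_lit 532) (nat_lit 93749264657) (nat_lit 608) (nat_lit 89364627726) (nat_lit 88) (nat_lit 5) (nat_lit 95) (nat_lit 5) (nat_lit 96) (nat_lit 5) (nat_lit 454) (nat_lit 449) (nat_lit 297)))) (XT.nd (nat_lit 156) (nat_lit 456) (nat_lit 0) (XT.nd (nat_lit 78) (nat_lit 0) (nat_lit 76) (XT.lf (nat_lit 76) (nat_lit 20868830859) (nat_lit 0) (nat_lit 26611503902) (nat_lit 608) (nat_lit 176536823645) (nat_lit 89) (nat_lit 5) (nat_lit 88) (nat_lit 5) (nat_lit 96) (nat_lit 5) (nat_lit 455) (nat_lit 449) (nat_lit 296)) (XT.lf (nat_lit 0) (nat_lit 68968876487) (nat_lit 532) (nat_lit 85646439131) (nat_lit 76) (nat_lit 78862728849) (nat_lit 89) (nat_lit 5) (nat_lit 96) (nat_lit 5) (nat_lit 90) (nat_lit 5) (nat_lit 456) (nat_lit 449) (nat_lit 295))) (XT.nd (nat_lit 78) (nat_lit 0) (nat_lit 0) (XT.lf (nat_lit 0) (nat_lit 42700307088) (nat_lit 532) (nat_lit 51194210736) (nat_lit 608) (nat_lit 149663842301)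 (nat_lit 82) (nat_lit 5) (nat_lit 89) (nat_lit 5) (nat_lit 90) (nat_lit 5) (nat_lit 457) (nat_lit 449) (nat_lit 294)) (XT.lf (nat_lit 0) (nat_lit 124671672461) (nat_lit 608) (nat_lit 69588180401) (nat_lit 76) (nat_lit 59876651231) (nat_lit 82) (nat_lit 5) (nat_lit 90) (nat_lit 5) (nat_lit 83) (nat_lit 5) (nat_lit 458) (nat_lit 449) (nat_lit 293)))))) (XT.nd (nat_lit 546) (nat_lit 684) (nat_lit 0) (XT.nd (nat_lit 234) (nat_lit 532) (nat_lit 0) (XT.nd (nat_lit 78) (nat_lit 228) (nat_lit 0) (XT.lf (nat_lit 0) (nat_lit 74584453941) (nat_lit 228) (nat_lit 86449904737) (nat_lit 304) (nat_lit 104276672173) (nat_lit 79) (nat_lit 5) (nat_lit 82) (nat_lit 5) (nat_lit 83) (nat_lit 5) (nat_lit 459) (nat_lit 449) (nat_lit 292)) (XT.nd (nat_lit 78) (nat_lit 228) (nat_lit 0) (XT.lf (nat_lit 0) (nat_lit 202979167096) (nat_lit 304) (nat_lit 43749552506) (nat_lit 76) (nat_lit 30436951580) (nat_lit 79) (nat_lit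 5) (nat_lit 83) (nat_lit 5) (nat_lit 80) (nat_lit 5) (nat_lit 460) (nat_lit 449) (nat_lit 291)) (XT.lf (nat_lit 0) (nat_lit 118676752818) (nat_lit 228) (nat_lit 134702333728) (nat_lit 304) (nat_lit 36181634093) (nat_lit 76) (nat_lit 5) (nat_lit 79) (nat_lit 5) (nat_lit 80) (nat_lit 5) (nat_lit 461) (nat_lit 449) (nat_lit 290)))) (XT.nd (nat_lit 156) (nat_lit 228) (nat_lit 0) (XT.nd (nat_lit 78) (nat_lit 228) (nat_lit 0) (XT.lf (nat_lit 0) (nat_lit 5847485269) (nat_lit 304) (nat_lit 6414603747) (nat_lit 76) (nat_lit 290577754781) (nat_lit 75) (nat_lit 5) (nat_lit 79) (nat_lit 5) (nat_lit 76) (nat_lit 5) (nat_lit 462) (nat_lit 449) (nat_lit 289)) (XT.lf (nat_lit 0) (nat_lit 56616523674) (nat_lit 304) (nat_lit 140544348099) (nat_lit 76) (nat_lit 119358655427) (nat_lit 72) (nat_lit 5) (nat_lit 76) (nat_lit 5) (nat_lit 73) (nat_lit 5) (nat_lit 463) (nat_lit 449) (nat_lit 288))) (XT.nd (nat_lit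 78) (nat_lit 0) (nat_lit 0) (XT.lf (nat_lit 0) (nat_lit 43915033093) (nat_lit 228) (nat_lit 69086556851) (nat_lit 304) (nat_lit 218167634955) (nat_lit 69) (nat_lit 5) (nat_lit 72) (nat_lit 5) (nat_lit 73) (nat_lit 5) (nat_lit 464) (nat_lit 449) (nat_lit 287)) (XT.lf (nat_lit 0) (nat_lit 179504989026) (nat_lit 304) (nat_lit 97324438067) (nat_lit 76) (nat_lit 69712869129) (nat_lit 69) (nat_lit 5) (nat_lit 73) (nat_lit 5) (nat_lit 70) (nat_lit 5) (nat_lit 465) (nat_lit 449) (nat_lit 286))))) (XT.nd (nat_lit 234) (nat_lit 304) (nat_lit 0) (XT.nd (nat_lit 78) (nat_lit 228) (nat_lit 0) (XT.lf (nat_lit 0) (nat_lit 111587169966) (nat_lit 152) (nat_lit 144219539219) (nat_lit 228) (nat_lit 106980260141) (nat_lit 67) (nat_lit 5) (nat_lit 69) (nat_lit 5) (nat_lit 70) (nat_lit 5) (nat_lit 466) (nat_lit 449) (nat_lit 285)) (XT.nd (nat_lit 78) (nat_lit 228) (nat_lit 0) (XT.lf (nat_lit 0) (nat_lit 340918557939)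 (nat_lit 228) (nat_lit 37416862324) (nat_lit 76) (nat_lit 1779316742) (nat_lit 67) (nat_lit 5) (nat_lit 70) (nat_lit 5) (nat_lit 68) (nat_lit 5) (nat_lit 467) (nat_lit 449) (nat_lit 284)) (XT.lf (nat_lit 0) (nat_lit 41080325230) (nat_lit 228) (nat_lit 199471715370) (nat_lit 76) (nat_lit 157509565300) (nat_lit 64) (nat_lit 5) (nat_lit 67) (nat_lit 5) (nat_lit 65) (nat_lit 5) (nat_lit 468) (nat_lit 449) (nat_lit 283)))) (XT.nd (nat_lit 156) (nat_lit 152) (nat_lit 0) (XT.nd (nat_lit 78) (nat_lit 0) (nat_lit 0) (XT.lf (nat_lit 0) (nat_lit 39156749610) (nat_lit 152) (nat_lit 88495853648) (nat_lit 228) (nat_lit 289550873238) (nat_lit 62) (nat_lit 5) (nat_lit 64) (nat_lit 5) (nat_lit 65) (nat_lit 5) (nat_lit 469) (nat_lit 449) (nat_lit 282)) (XT.lf (nat_lit 0) (nat_lit 228567348077) (nat_lit 228) (nat_lit 131183712152) (nat_lit 76) (nat_lit 77532301752) (nat_lit 62) (nat_lit 5) (nat_lit 65) (nat_lit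 5) (nat_lit 63) (nat_lit 5) (nat_lit 470) (nat_lit 449) (nat_lit 281))) (XT.nd (nat_lit 78) (nat_lit 0) (nat_lit 0) (XT.lf (nat_lit 0) (nat_lit 140140020372) (nat_lit 152) (nat_lit 203084152133) (nat_lit 228) (nat_lit 115291953801) (nat_lit 60) (nat_lit 5) (nat_lit 62) (nat_lit 5) (nat_lit 63) (nat_lit 5) (nat_lit 471) (nat_lit 449) (nat_lit 280)) (XT.lf (nat_lit 0) (nat_lit 440630086831) (nat_lit 152) (nat_lit 30010189190) (nat_lit 228) (nat_lit 10520297111) (nat_lit 60) (nat_lit 5) (nat_lit 62) (nat_lit 5) (nat_lit 63) (nat_lit 5) (nat_lit 472) (nat_lit 449) (nat_lit 279))))))) (XT.nd (nat_lit 1092) (nat_lit 1064) (nat_lit 0) (XT.nd (nat_lit 546) (nat_lit 532) (nat_lit 0) (XT.nd (nat_lit 234) (nat_lit 380) (nat_lit 0) (XT.nd (nat_lit 78) (nat_lit 152) (nat_lit 0) (XT.lf (nat_lit 0) (nat_lit 108013959759) (nat_lit 152) (nat_lit 238293854708) (nat_lit 76) (nat_lit 158270095725) (nat_lit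 58) (nat_lit 5) (nat_lit 60) (nat_lit 5) (nat_lit 59) (nat_lit 5) (nat_lit 473) (nat_lit 449) (nat_lit 278)) (XT.nd (nat_lit 78) (nat_lit 0) (nat_lit 0) (XT.lf (nat_lit 0) (nat_lit 72725173397) (nat_lit 152) (nat_lit 166402843553) (nat_lit 228) (nat_lit 290425522590) (nat_lit 56) (nat_lit 5) (nat_lit 58) (nat_lit 5) (nat_lit 59) (nat_lit 5) (nat_lit 474) (nat_lit 449) (nat_lit 277)) (XT.lf (nat_lit 0) (nat_lit 388086613035) (nat_lit 228) (nat_lit 134668474116) (nat_lit 76) (nat_lit 33183698941) (nat_lit 56) (nat_lit 5) (nat_lit 59) (nat_lit 5) (nat_lit 57) (nat_lit 4) (nat_lit 475) (nat_lit 449) (nat_lit 276)))) (XT.nd (nat_lit 156) (nat_lit 228) (nat_lit 0) (XT.nd (nat_lit 78) (nat_lit 76) (nat_lit 0) (XT.lf (nat_lit 0) (nat_lit 219944481566) (nat_lit 76) (nat_lit 338629184765) (nat_lit 152) (nat_lit 25092244478) (nat_lit 55) (nat_lit 5) (nat_lit 56) (nat_lit 5) (nat_lit 57) (nat_lit 4)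 (nat_lit 476) (nat_lit 449) (nat_lit 275)) (XT.lf (nat_lit 0) (nat_lit 126408611060) (nat_lit 152) (nat_lit 5931759824) (nat_lit 76) (nat_lit 480720255248) (nat_lit 54) (nat_lit 5) (nat_lit 56) (nat_lit 5) (nat_lit 55) (nat_lit 5) (nat_lit 477) (nat_lit 449) (nat_lit 274))) (XT.nd (nat_lit 78) (nat_lit 76) (nat_lit 0) (XT.lf (nat_lit 0) (nat_lit 300731838490) (nat_lit 228) (nat_lit 246597173895) (nat_lit 76) (nat_lit 96461131657) (nat_lit 52) (nat_lit 5) (nat_lit 55) (nat_lit 5) (nat_lit 53) (nat_lit 4) (nat_lit 478) (nat_lit 449) (nat_lit 273)) (XT.lf (nat_lit 0) (nat_lit 160528553708) (nat_lit 76) (nat_lit 335936848368) (nat_lit 152) (nat_lit 179915463073) (nat_lit 51) (nat_lit 5) (nat_lit 52) (nat_lit 5) (nat_lit 53) (nat_lit 4) (nat_lit 479) (nat_lit 449) (nat_lit 272))))) (XT.nd (nat_lit 234) (nat_lit 228) (nat_lit 0) (XT.nd (nat_lit 78) (nat_lit 228) (nat_lit 0) (XT.lf (nat_lit 0)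 (nat_lit 3382440142) (nat_lit 152) (nat_lit 96876629492) (nat_lit 76) (nat_lit 610773535162) (nat_lit 50) (nat_lit 5) (nat_lit 52) (nat_lit 5) (nat_lit 51) (nat_lit 5) (nat_lit 480) (nat_lit 449) (nat_lit 271)) (XT.nd (nat_lit 78) (nat_lit 76) (nat_lit 0) (XT.lf (nat_lit 0) (nat_lit 204571096842) (nat_lit 228) (nat_lit 382010297806) (nat_lit 76) (nat_lit 160465476306) (nat_lit 48) (nat_lit 5) (nat_lit 51) (nat_lit 5) (nat_lit 49) (nat_lit 4) (nat_lit 481) (nat_lit 449) (nat_lit 270)) (XT.lf (nat_lit 0) (nat_lit 85274691077) (nat_lit 76) (nat_lit 343952680336) (nat_lit 152) (nat_lit 356125104966) (nat_lit 47) (nat_lit 5) (nat_lit 48) (nat_lit 5) (nat_lit 49) (nat_lit 4) (nat_lit 482) (nat_lit 449) (nat_lit 269)))) (XT.nd (nat_lit 156) (nat_lit 76) (nat_lit 0) (XT.nd (nat_lit 78) (nat_lit 152) (nat_lit 0) (XT.lf (nat_lit 0) (nat_lit 611667666332) (nat_lit 76) (nat_lit 70633278577) (nat_lit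 152) (nat_lit 143586001574) (nat_lit 47) (nat_lit 5) (nat_lit 48) (nat_lit 5) (nat_lit 49) (nat_lit 4) (nat_lit 483) (nat_lit 449) (nat_lit 268)) (XT.lf (nat_lit 0) (nat_lit 95121922726) (nat_lit 152) (nat_lit 549848578901) (nat_lit 76) (nat_lit 223451046905) (nat_lit 45) (nat_lit 5) (nat_lit 47) (nat_lit 5) (nat_lit 46) (nat_lit 4) (nat_lit 484) (nat_lit 449) (nat_lit 267))) (XT.nd (nat_lit 78) (nat_lit 76) (nat_lit 0) (XT.lf (nat_lit 0) (nat_lit 353012967037) (nat_lit 152) (nat_lit 13435252473) (nat_lit 76) (nat_lit 546984829943) (nat_lit 45) (nat_lit 5) (nat_lit 47) (nat_lit 5) (nat_lit 46) (nat_lit 4) (nat_lit 485) (nat_lit 449) (nat_lit 266)) (XT.lf (nat_lit 0) (nat_lit 595689892860) (nat_lit 76) (nat_lit 50171722101) (nat_lit 152) (nat_lit 315037749881) (nat_lit 44) (nat_lit 5) (nat_lit 45) (nat_lit 5) (nat_lit 46) (nat_lit 4) (nat_lit 486) (nat_lit 449) (nat_lit 265)))))) (XT.nd (nat_lit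 546) (nat_lit 608) (nat_lit 0) (XT.nd (nat_lit 234) (nat_lit 228) (nat_lit 0) (XT.nd (nat_lit 78) (nat_lit 152) (nat_lit 0) (XT.lf (nat_lit 0) (nat_lit 247540554897) (nat_lit 76) (nat_lit 727936148108) (nat_lit 76) (nat_lit 35619198595) (nat_lit 43) (nat_lit 4) (nat_lit 44) (nat_lit 5) (nat_lit 44) (nat_lit 4) (nat_lit 487) (nat_lit 449) (nat_lit 264)) (XT.nd (nat_lit 78) (nat_lit 76) (nat_lit 0) (XT.lf (nat_lit 0) (nat_lit 264386757010) (nat_lit 152) (nat_lit 142392528548) (nat_lit 76) (nat_lit 657092960129) (nat_lit 42) (nat_lit 5) (nat_lit 44) (nat_lit 5) (nat_lit 43) (nat_lit 4) (nat_lit 488) (nat_lit 449) (nat_lit 263)) (XT.lf (nat_lit 0) (nat_lit 555317297759) (nat_lit 76) (nat_lit 44506890711) (nat_lit 152) (nat_lit 519904066008) (nat_lit 41) (nat_lit 5) (nat_lit 42) (nat_lit 5) (nat_lit 43) (nat_lit 4) (nat_lit 489) (nat_lit 449) (nat_lit 262)))) (XT.nd (nat_lit 156) (nat_lit 76)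 (nat_lit 0) (XT.nd (nat_lit 78) (nat_lit 76) (nat_lit 0) (XT.lf (nat_lit 0) (nat_lit 135540429437) (nat_lit 76) (nat_lit 842149571387) (nat_lit 76) (nat_lit 201115272238) (nat_lit 40) (nat_lit 4) (nat_lit 41) (nat_lit 5) (nat_lit 41) (nat_lit 4) (nat_lit 490) (nat_lit 449) (nat_lit 261)) (XT.lf (nat_lit 0) (nat_lit 153003167635) (nat_lit 152) (nat_lit 322787735177) (nat_lit 76) (nat_lit 765182972839) (nat_lit 39) (nat_lit 5) (nat_lit 41) (nat_lit 5) (nat_lit 40) (nat_lit 4) (nat_lit 491) (nat_lit 449) (nat_lit 260))) (XT.nd (nat_lit 78) (nat_lit 0) (nat_lit 0) (XT.lf (nat_lit 0) (nat_lit 473805373124) (nat_lit 76) (nat_lit 62175261425) (nat_lit 152) (nat_lit 770805830010) (nat_lit 38) (nat_lit 5) (nat_lit 39) (nat_lit 5) (nat_lit 40) (nat_lit 4) (nat_lit 492) (nat_lit 449) (nat_lit 259)) (XT.lf (nat_lit 0) (nat_lit 967899040358) (nat_lit 152) (nat_lit 34152101211) (nat_lit 0) (nat_lit 374348699686)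 (nat_lit 38) (nat_lit 5) (nat_lit 40) (nat_lit 4) (nat_lit 38) (nat_lit 4) (nat_lit 493) (nat_lit 449) (nat_lit 258))))) (XT.nd (nat_lit 312) (nat_lit 304) (nat_lit 0) (XT.nd (nat_lit 156) (nat_lit 76) (nat_lit 0) (XT.nd (nat_lit 78) (nat_lit 76) (nat_lit 0) (XT.lf (nat_lit 0) (nat_lit 6786166536) (nat_lit 152) (nat_lit 579435132439) (nat_lit 76) (nat_lit 863543179535) (nat_lit 36) (nat_lit 5) (nat_lit 38) (nat_lit 5) (nat_lit 37) (nat_lit 4) (nat_lit 494) (nat_lit 449) (nat_lit 257)) (XT.lf (nat_lit 0) (nat_lit 325853791884) (nat_lit 76) (nat_lit 116167442508) (nat_lit 152) (nat_lit 1085424635784) (nat_lit 35) (nat_lit 5) (nat_lit 36) (nat_lit 5) (nat_lit 37) (nat_lit 4) (nat_lit 495) (nat_lit 449) (nat_lit 256))) (XT.nd (nat_lit 78) (nat_lit 76) (nat_lit 0) (XT.lf (nat_lit 0) (nat_lit 937744725517) (nat_lit 152) (nat_lit 283382448293) (nat_lit 0) (nat_lit 388161029939) (nat_lit 35) (nat_lit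 5) (nat_lit 37) (nat_lit 4) (nat_lit 35) (nat_lit 4) (nat_lit 496) (nat_lit 449) (nat_lit 255)) (XT.lf (nat_lit 0) (nat_lit 742404652303) (nat_lit 76) (nat_lit 751593603905) (nat_lit 76) (nat_lit 202009894977) (nat_lit 34) (nat_lit 4) (nat_lit 35) (nat_lit 5) (nat_lit 35) (nat_lit 4) (nat_lit 497) (nat_lit 449) (nat_lit 254)))) (XT.nd (nat_lit 156) (nat_lit 152) (nat_lit 0) (XT.nd (nat_lit 78) (nat_lit 0) (nat_lit 0) (XT.lf (nat_lit 0) (nat_lit 73461285560) (nat_lit 76) (nat_lit 226079583117) (nat_lit 152) (nat_lit 1488760546984) (nat_lit 32) (nat_lit 5) (nat_lit 33) (nat_lit 5) (nat_lit 34) (nat_lit 4) (nat_lit 498) (nat_lit 449) (nat_lit 253)) (XT.lf (nat_lit 0) (nat_lit 865264817827) (nat_lit 152) (nat_lit 663105538966) (nat_lit 0) (nat_lit 356390991221) (nat_lit 32) (nat_lit 5) (nat_lit 34) (nat_lit 4) (nat_lit 32) (nat_lit 4) (nat_lit 499) (nat_lit 449) (nat_lit 252))) (XT.nd (nat_lit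 78) (nat_lit 76) (nat_lit 0) (XT.lf (nat_lit 0) (nat_lit 491481468616) (nat_lit 76) (nat_lit 1002457528798) (nat_lit 76) (nat_lit 493583692379) (nat_lit 31) (nat_lit 4) (nat_lit 32) (nat_lit 5) (nat_lit 32) (nat_lit 4) (nat_lit 500) (nat_lit 449) (nat_lit 251)) (XT.lf (nat_lit 0) (nat_lit 89281653028) (nat_lit 152) (nat_lit 323168007205) (nat_lit 76) (nat_lit 1684424018475) (nat_lit 30) (nat_lit 5) (nat_lit 32) (nat_lit 5) (nat_lit 31) (nat_lit 4) (nat_lit 501) (nat_lit 449) (nat_lit 250))))))))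
noncomputable def xc195 : XT := (XT.nd (nat_lit 2184) (nat_lit 380) (nat_lit 0) (XT.nd (nat_lit 1092) (nat_lit 684) (nat_lit 0) (XT.nd (nat_lit 546) (nat_lit 380) (nat_lit 0) (XT.nd (nat_lit 234) (nat_lit 304) (nat_lit 0) (XT.nd (nat_lit 78) (nat_lit 76) (nat_lit 0) (XT.lf (nat_lit 0) (nat_lit 722022722548) (nat_lit 152) (nat_lit 1238688140660) (nat_lit 0) (nat_lit 250843228179) (nat_lit 29) (nat_lit 5) (nat_lit 31) (nat_lit 4) (nat_lit 29) (nat_lit 4) (nat_lit 502) (nat_lit 449) (nat_lit 249)) (XT.nd (nat_lit 78) (nat_lit 0) (nat_lit 0) (XT.lf (nat_lit 0) (nat_lit 47703196762) (nat_lit 76) (nat_lit 1378605592485) (nat_lit 76) (nat_lit 907426090903) (nat_lit 28) (nat_lit 4) (nat_lit 29) (nat_lit 5) (nat_lit 29) (nat_lit 4) (nat_lit 503) (nat_lit 449) (nat_lit 248)) (XT.lf (nat_lit 0) (nat_lit 1507451090385) (nat_lit 76) (nat_lit 713354558635) (nat_lit 76) (nat_lit 242175050375) (nat_lit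 28) (nat_lit 4) (nat_lit 29) (nat_lit 5) (nat_lit 29) (nat_lit 4) (nat_lit 504) (nat_lit 449) (nat_lit 247)))) (XT.nd (nat_lit 156) (nat_lit 152) (nat_lit 0) (XT.nd (nat_lit 78) (nat_lit 0) (nat_lit 0) (XT.lf (nat_lit 0) (nat_lit 465097070655) (nat_lit 152) (nat_lit 2106722796029) (nat_lit 0) (nat_lit 28819742466) (nat_lit 26) (nat_lit 5) (nat_lit 28) (nat_lit 4) (nat_lit 26) (nat_lit 4) (nat_lit 505) (nat_lit 449) (nat_lit 246)) (XT.lf (nat_lit 0) (nat_lit 1261200355112) (nat_lit 152) (nat_lit 659057983131) (nat_lit 0) (nat_lit 824923021621) (nat_lit 26) (nat_lit 5) (nat_lit 28) (nat_lit 4) (nat_lit 26) (nat_lit 4) (nat_lit 506) (nat_lit 449) (nat_lit 245))) (XT.nd (nat_lit 78) (nat_lit 76) (nat_lit 0) (XT.lf (nat_lit 0) (nat_lit 952045130192) (nat_lit 76) (nat_lit 1191843461833) (nat_lit 76) (nat_lit 755566123434) (nat_lit 25) (nat_lit 4) (nat_lit 26) (nat_lit 5) (nat_lit 26) (nat_lit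 4) (nat_lit 507) (nat_lit 449) (nat_lit 244)) (XT.lf (nat_lit 0) (nat_lit 48052944234) (nat_lit 152) (nat_lit 336327218935) (nat_lit 76) (nat_lit 2680150870302) (nat_lit 24) (nat_lit 5) (nat_lit 26) (nat_lit 5) (nat_lit 25) (nat_lit 4) (nat_lit 508) (nat_lit 449) (nat_lit 243))))) (XT.nd (nat_lit 234) (nat_lit 228) (nat_lit 0) (XT.nd (nat_lit 78) (nat_lit 76) (nat_lit 0) (XT.lf (nat_lit 0) (nat_lit 923328270485) (nat_lit 152) (nat_lit 1794692460736) (nat_lit 0) (nat_lit 519367763862) (nat_lit 23) (nat_lit 5) (nat_lit 25) (nat_lit 4) (nat_lit 23) (nat_lit 4) (nat_lit 509) (nat_lit 449) (nat_lit 242)) (XT.nd (nat_lit 78) (nat_lit 76) (nat_lit 0) (XT.lf (nat_lit 0) (nat_lit 1888044139702) (nat_lit 152) (nat_lit 50393303103) (nat_lit 0) (nat_lit 1484083629470) (nat_lit 23) (nat_lit 5) (nat_lit 25) (nat_lit 4) (nat_lit 23) (nat_lit 4) (nat_lit 510) (nat_lit 449) (nat_lit 241)) (XT.lf (nat_lit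 0) (nat_lit 1929995969592) (nat_lit 76) (nat_lit 1046357742467) (nat_lit 76) (nat_lit 642397228894) (nat_lit 22) (nat_lit 4) (nat_lit 23) (nat_lit 5) (nat_lit 23) (nat_lit 4) (nat_lit 511) (nat_lit 449) (nat_lit 240)))) (XT.nd (nat_lit 156) (nat_lit 76) (nat_lit 0) (XT.nd (nat_lit 78) (nat_lit 0) (nat_lit 0) (XT.lf (nat_lit 0) (nat_lit 245644398652) (nat_lit 76) (nat_lit 66665656789) (nat_lit 152) (nat_lit 3517165735627) (nat_lit 20) (nat_lit 5) (nat_lit 21) (nat_lit 5) (nat_lit 22) (nat_lit 4) (nat_lit 512) (nat_lit 449) (nat_lit 239)) (XT.lf (nat_lit 0) (nat_lit 1379903874438) (nat_lit 152) (nat_lit 1664256259980) (nat_lit 0) (nat_lit 1005866356354) (nat_lit 20) (nat_lit 5) (nat_lit 22) (nat_lit 4) (nat_lit 20) (nat_lit 4) (nat_lit 513) (nat_lit 449) (nat_lit 238))) (XT.nd (nat_lit 78) (nat_lit 0) (nat_lit 0) (XT.lf (nat_lit 0) (nat_lit 428593247497) (nat_lit 76) (nat_lit 2116351190198)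 (nat_lit 76) (nat_lit 1742313669659) (nat_lit 19) (nat_lit 4) (nat_lit 20) (nat_lit 5) (nat_lit 20) (nat_lit 4) (nat_lit 514) (nat_lit 449) (nat_lit 237)) (XT.lf (nat_lit 0) (nat_lit 2783518414393) (nat_lit 76) (nat_lit 1065173532795) (nat_lit 76) (nat_lit 691136009982) (nat_lit 19) (nat_lit 4) (nat_lit 20) (nat_lit 5) (nat_lit 20) (nat_lit 4) (nat_lit 515) (nat_lit 449) (nat_lit 236)))))) (XT.nd (nat_lit 546) (nat_lit 304) (nat_lit 0) (XT.nd (nat_lit 234) (nat_lit 152) (nat_lit 0) (XT.nd (nat_lit 78) (nat_lit 76) (nat_lit 0) (XT.lf (nat_lit 0) (nat_lit 436960972379) (nat_lit 152) (nat_lit 4282954566787) (nat_lit 0) (nat_lit 90629930788) (nat_lit 17) (nat_lit 5) (nat_lit 19) (nat_lit 4) (nat_lit 17) (nat_lit 4) (nat_lit 516) (nat_lit 449) (nat_lit 235)) (XT.nd (nat_lit 78) (nat_lit 76) (nat_lit 0) (XT.lf (nat_lit 0) (nat_lit 1694901152713) (nat_lit 152) (nat_lit 2051858216118) (nat_lit 0)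 (nat_lit 1348570109317) (nat_lit 17) (nat_lit 5) (nat_lit 19) (nat_lit 4) (nat_lit 17) (nat_lit 4) (nat_lit 517) (nat_lit 449) (nat_lit 234)) (XT.lf (nat_lit 0) (nat_lit 376563024337) (nat_lit 76) (nat_lit 2685969860374) (nat_lit 76) (nat_lit 2339638815307) (nat_lit 16) (nat_lit 4) (nat_lit 17) (nat_lit 5) (nat_lit 17) (nat_lit 4) (nat_lit 518) (nat_lit 449) (nat_lit 233)))) (XT.nd (nat_lit 156) (nat_lit 76) (nat_lit 0) (XT.nd (nat_lit 78) (nat_lit 76) (nat_lit 0) (XT.lf (nat_lit 0) (nat_lit 3115948933703) (nat_lit 76) (nat_lit 1479727649170) (nat_lit 76) (nat_lit 1133396602556) (nat_lit 16) (nat_lit 4) (nat_lit 17) (nat_lit 5) (nat_lit 17) (nat_lit 4) (nat_lit 519) (nat_lit 449) (nat_lit 232)) (XT.lf (nat_lit 0) (nat_lit 160873653485) (nat_lit 152) (nat_lit 11713848797) (nat_lit 76) (nat_lit 5909213468239) (nat_lit 15) (nat_lit 5) (nat_lit 17) (nat_lit 5) (nat_lit 16) (nat_lit 4) (nat_lit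 520) (nat_lit 449) (nat_lit 231))) (XT.nd (nat_lit 78) (nat_lit 0) (nat_lit 0) (XT.lf (nat_lit 0) (nat_lit 1599923995210) (nat_lit 152) (nat_lit 3573023070096) (nat_lit 0) (nat_lit 1279247097642) (nat_lit 14) (nat_lit 5) (nat_lit 16) (nat_lit 4) (nat_lit 14) (nat_lit 4) (nat_lit 521) (nat_lit 449) (nat_lit 230)) (XT.lf (nat_lit 0) (nat_lit 3158909742072) (nat_lit 152) (nat_lit 854691315108) (nat_lit 0) (nat_lit 2838232843366) (nat_lit 14) (nat_lit 5) (nat_lit 16) (nat_lit 4) (nat_lit 14) (nat_lit 4) (nat_lit 522) (nat_lit 449) (nat_lit 229))))) (XT.nd (nat_lit 234) (nat_lit 76) (nat_lit 0) (XT.nd (nat_lit 78) (nat_lit 152) (nat_lit 0) (XT.lf (nat_lit 0) (nat_lit 2190694364219) (nat_lit 76) (nat_lit 2704606226658) (nat_lit 76) (nat_lit 2383929326899) (nat_lit 13) (nat_lit 4) (nat_lit 14) (nat_lit 5) (nat_lit 14) (nat_lit 4) (nat_lit 523) (nat_lit 449) (nat_lit 228)) (XT.nd (nat_lit 78) (nat_lit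 152) (nat_lit 0) (XT.lf (nat_lit 0) (nat_lit 5528317930303) (nat_lit 76) (nat_lit 1265653542788) (nat_lit 76) (nat_lit 944976642054) (nat_lit 13) (nat_lit 4) (nat_lit 14) (nat_lit 5) (nat_lit 14) (nat_lit 4) (nat_lit 524) (nat_lit 449) (nat_lit 227)) (XT.lf (nat_lit 0) (nat_lit 608871268381) (nat_lit 152) (nat_lit 7311032532147) (nat_lit 0) (nat_lit 311948211310) (nat_lit 11) (nat_lit 5) (nat_lit 13) (nat_lit 4) (nat_lit 11) (nat_lit 4) (nat_lit 525) (nat_lit 449) (nat_lit 226)))) (XT.nd (nat_lit 156) (nat_lit 76) (nat_lit 0) (XT.nd (nat_lit 78) (nat_lit 0) (nat_lit 0) (XT.lf (nat_lit 0) (nat_lit 2330860320032) (nat_lit 152) (nat_lit 4389836122867) (nat_lit 0) (nat_lit 2033937262187) (nat_lit 11) (nat_lit 5) (nat_lit 13) (nat_lit 4) (nat_lit 11) (nat_lit 4) (nat_lit 526) (nat_lit 449) (nat_lit 225)) (XT.lf (nat_lit 0) (nat_lit 4190608487294) (nat_lit 152) (nat_lit 1234944018451) (nat_lit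 0) (nat_lit 3893685428732) (nat_lit 11) (nat_lit 5) (nat_lit 13) (nat_lit 4) (nat_lit 11) (nat_lit 4) (nat_lit 527) (nat_lit 449) (nat_lit 224))) (XT.nd (nat_lit 78) (nat_lit 0) (nat_lit 0) (XT.lf (nat_lit 0) (nat_lit 2286730983108) (nat_lit 76) (nat_lit 3967401452078) (nat_lit 76) (nat_lit 3670478392852) (nat_lit 10) (nat_lit 4) (nat_lit 11) (nat_lit 5) (nat_lit 11) (nat_lit 4) (nat_lit 528) (nat_lit 449) (nat_lit 223)) (XT.lf (nat_lit 0) (nat_lit 6160372329488) (nat_lit 76) (nat_lit 2356131519707) (nat_lit 76) (nat_lit 2059208459867) (nat_lit 10) (nat_lit 4) (nat_lit 11) (nat_lit 5) (nat_lit 11) (nat_lit 4) (nat_lit 529) (nat_lit 449) (nat_lit 222))))))) (XT.nd (nat_lit 56550) (nat_lit 0) (nat_lit 4712) (XT.nd (nat_lit 546) (nat_lit 152) (nat_lit 0) (XT.nd (nat_lit 234) (nat_lit 76) (nat_lit 0) (XT.nd (nat_lit 78) (nat_lit 152) (nat_lit 0) (XT.lf (nat_lit 0) (nat_lit 10343904968868) (nat_lit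 76) (nat_lit 615960000340) (nat_lit 76) (nat_lit 319036939930) (nat_lit 10) (nat_lit 4) (nat_lit 11) (nat_lit 5) (nat_lit 11) (nat_lit 4) (nat_lit 530) (nat_lit 449) (nat_lit 221)) (XT.nd (nat_lit 78) (nat_lit 0) (nat_lit 0) (XT.lf (nat_lit 0) (nat_lit 1586023527558) (nat_lit 152) (nat_lit 9129927855699) (nat_lit 0) (nat_lit 1311094767432) (nat_lit 8) (nat_lit 5) (nat_lit 10) (nat_lit 4) (nat_lit 8) (nat_lit 4) (nat_lit 531) (nat_lit 449) (nat_lit 220)) (XT.lf (nat_lit 0) (nat_lit 3668479990904) (nat_lit 152) (nat_lit 5768969581243) (nat_lit 0) (nat_lit 3393551230325) (nat_lit 8) (nat_lit 5) (nat_lit 10) (nat_lit 4) (nat_lit 8) (nat_lit 4) (nat_lit 532) (nat_lit 449) (nat_lit 219)))) (XT.nd (nat_lit 156) (nat_lit 0) (nat_lit 0) (XT.nd (nat_lit 78) (nat_lit 76) (nat_lit 0) (XT.lf (nat_lit 0) (nat_lit 5917532965059) (nat_lit 152) (nat_lit 2139134657776) (nat_lit 0) (nat_lit 5642604204062)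 (nat_lit 8) (nat_lit 5) (nat_lit 10) (nat_lit 4) (nat_lit 8) (nat_lit 4) (nat_lit 533) (nat_lit 449) (nat_lit 218)) (XT.lf (nat_lit 0) (nat_lit 1874875935149) (nat_lit 76) (nat_lit 6516725047535) (nat_lit 76) (nat_lit 6241796286151) (nat_lit 7) (nat_lit 4) (nat_lit 8) (nat_lit 5) (nat_lit 8) (nat_lit 4) (nat_lit 534) (nat_lit 449) (nat_lit 217))) (XT.nd (nat_lit 78) (nat_lit 0) (nat_lit 0) (XT.lf (nat_lit 0) (nat_lit 6331661847249) (nat_lit 76) (nat_lit 4790420321239) (nat_lit 76) (nat_lit 4515491559497) (nat_lit 7) (nat_lit 4) (nat_lit 8) (nat_lit 5) (nat_lit 8) (nat_lit 4) (nat_lit 535) (nat_lit 449) (nat_lit 216)) (XT.lf (nat_lit 0) (nat_lit 11144990621499) (nat_lit 76) (nat_lit 2926011222431) (nat_lit 76) (nat_lit 2651082460356) (nat_lit 7) (nat_lit 4) (nat_lit 8) (nat_lit 5) (nat_lit 8) (nat_lit 4) (nat_lit 536) (nat_lit 449) (nat_lit 215))))) (XT.nd (nat_lit 55692) (nat_lit 0) (nat_lit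 6156) (XT.nd (nat_lit 78) (nat_lit 152) (nat_lit 0) (XT.lf (nat_lit 0) (nat_lit 16343385687672) (nat_lit 76) (nat_lit 912449400894) (nat_lit 76) (nat_lit 637520638512) (nat_lit 7) (nat_lit 4) (nat_lit 8) (nat_lit 5) (nat_lit 8) (nat_lit 4) (nat_lit 537) (nat_lit 449) (nat_lit 214)) (XT.nd (nat_lit 78) (nat_lit 0) (nat_lit 0) (XT.lf (nat_lit 0) (nat_lit 1563298427938) (nat_lit 152) (nat_lit 16275092997463) (nat_lit 0) (nat_lit 1308734758803) (nat_lit 5) (nat_lit 5) (nat_lit 7) (nat_lit 4) (nat_lit 5) (nat_lit 4) (nat_lit 538) (nat_lit 449) (nat_lit 213)) (XT.lf (nat_lit 0) (nat_lit 3972920005119) (nat_lit 152) (nat_lit 12803222846124) (nat_lit 0) (nat_lit 3718356335739) (nat_lit 5) (nat_lit 5) (nat_lit 7) (nat_lit 4) (nat_lit 5) (nat_lit 4) (nat_lit 539) (nat_lit 449) (nat_lit 212)))) (XT.nd (nat_lit 156) (nat_lit 532) (nat_lit 0) (XT.nd (nat_lit 78) (nat_lit 0) (nat_lit 0) (XT.lf (nat_lit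 0) (nat_lit 93943199060) (nat_lit 532) (nat_lit 630743849) (nat_lit 532) (nat_lit 630743849) (nat_lit 93) (nat_lit 3) (nat_lit 100) (nat_lit 3) (nat_lit 100) (nat_lit 5) (nat_lit 450) (nat_lit 450) (nat_lit 300)) (XT.lf (nat_lit 76) (nat_lit 98489400576) (nat_lit 0) (nat_lit 99282830315) (nat_lit 532) (nat_lit 63887193) (nat_lit 94) (nat_lit 5) (nat_lit 93) (nat_lit 3) (nat_lit 100) (nat_lit 5) (nat_lit 451) (nat_lit 450) (nat_lit 299))) (XT.nd (nat_lit 78) (nat_lit 0) (nat_lit 76) (XT.lf (nat_lit 76) (nat_lit 394242413) (nat_lit 0) (nat_lit 2112718277) (nat_lit 608) (nat_lit 203341479362) (nat_lit 87) (nat_lit 5) (nat_lit 86) (nat_lit 5) (nat_lit 94) (nat_lit 5) (nat_lit 452) (nat_lit 450) (nat_lit 298)) (XT.lf (nat_lit 0) (nat_lit 10539816686) (nat_lit 532) (nat_lit 103065447198) (nat_lit 608) (nat_lit 100475567814) (nat_lit 87) (nat_lit 5) (nat_lit 94) (nat_lit 5) (nat_lit 95) (nat_lit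 5) (nat_lit 453) (nat_lit 450) (nat_lit 297)))))) (XT.nd (nat_lit 546) (nat_lit 912) (nat_lit 0) (XT.nd (nat_lit 234) (nat_lit 608) (nat_lit 0) (XT.nd (nat_lit 78) (nat_lit 0) (nat_lit 76) (XT.lf (nat_lit 76) (nat_lit 7852217490) (nat_lit 0) (nat_lit 11606652525) (nat_lit 608) (nat_lit 203493459168) (nat_lit 88) (nat_lit 5) (nat_lit 87) (nat_lit 5) (nat_lit 95) (nat_lit 5) (nat_lit 454) (nat_lit 450) (nat_lit 296)) (XT.nd (nat_lit 78) (nat_lit 0) (nat_lit 0) (XT.lf (nat_lit 0) (nat_lit 34352665183) (nat_lit 532) (nat_lit 101246876739) (nat_lit 608) (nat_lit 96513107158) (nat_lit 88) (nat_lit 5) (nat_lit 95) (nat_lit 5) (nat_lit 96) (nat_lit 5) (nat_lit 455) (nat_lit 450) (nat_lit 295)) (XT.lf (nat_lit 76) (nat_lit 22540607455) (nat_lit 0) (nat_lit 28740797463) (nat_lit 608) (nat_lit 190656914389) (nat_lit 89) (nat_lit 5) (nat_lit 88) (nat_lit 5) (nat_lit 96) (nat_lit 5) (nat_lit 456) (nat_lit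 450) (nat_lit 294)))) (XT.nd (nat_lit 156) (nat_lit 228) (nat_lit 0) (XT.nd (nat_lit 78) (nat_lit 532) (nat_lit 0) (XT.lf (nat_lit 0) (nat_lit 74488825863) (nat_lit 532) (nat_lit 92495847895) (nat_lit 76) (nat_lit 85171418845) (nat_lit 89) (nat_lit 5) (nat_lit 96) (nat_lit 5) (nat_lit 90) (nat_lit 5) (nat_lit 457) (nat_lit 450) (nat_lit 293)) (XT.lf (nat_lit 0) (nat_lit 46118579632) (nat_lit 532) (nat_lit 55289812253) (nat_lit 608) (nat_lit 161634451780) (nat_lit 82) (nat_lit 5) (nat_lit 89) (nat_lit 5) (nat_lit 90) (nat_lit 5) (nat_lit 458) (nat_lit 450) (nat_lit 292))) (XT.nd (nat_lit 78) (nat_lit 228) (nat_lit 0) (XT.lf (nat_lit 0) (nat_lit 134647546147) (nat_lit 608) (nat_lit 75152980387) (nat_lit 76) (nat_lit 64666726455) (nat_lit 82) (nat_lit 5) (nat_lit 90) (nat_lit 5) (nat_lit 83) (nat_lit 5) (nat_lit 459) (nat_lit 450) (nat_lit 291)) (XT.lf (nat_lit 0) (nat_lit 80553407628) (nat_lit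 228) (nat_lit 93365733971) (nat_lit 304) (nat_lit 112616608761) (nat_lit 79) (nat_lit 5) (nat_lit 82) (nat_lit 5) (nat_lit 83) (nat_lit 5) (nat_lit 460) (nat_lit 450) (nat_lit 290))))) (XT.nd (nat_lit 312) (nat_lit 380) (nat_lit 0) (XT.nd (nat_lit 156) (nat_lit 304) (nat_lit 0) (XT.nd (nat_lit 78) (nat_lit 228) (nat_lit 0) (XT.lf (nat_lit 0) (nat_lit 219219387639) (nat_lit 304) (nat_lit 47247334847) (nat_lit 76) (nat_lit 32872051210) (nat_lit 79) (nat_lit 5) (nat_lit 83) (nat_lit 5) (nat_lit 80) (nat_lit 5) (nat_lit 461) (nat_lit 450) (nat_lit 289)) (XT.lf (nat_lit 0) (nat_lit 128173019666) (nat_lit 228) (nat_lit 145478192334) (nat_lit 304) (nat_lit 39074222218) (nat_lit 76) (nat_lit 5) (nat_lit 79) (nat_lit 5) (nat_lit 80) (nat_lit 5) (nat_lit 462) (nat_lit 450) (nat_lit 288))) (XT.nd (nat_lit 78) (nat_lit 228) (nat_lit 0) (XT.lf (nat_lit 0) (nat_lit 6316992819) (nat_lit 304) (nat_lit 6925712810)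 (nat_lit 76) (nat_lit 313824188811) (nat_lit 75) (nat_lit 5) (nat_lit 79) (nat_lit 5) (nat_lit 76) (nat_lit 5) (nat_lit 463) (nat_lit 450) (nat_lit 287)) (XT.lf (nat_lit 0) (nat_lit 61147485053) (nat_lit 304) (nat_lit 151785767317) (nat_lit 76) (nat_lit 128907705696) (nat_lit 72) (nat_lit 5) (nat_lit 76) (nat_lit 5) (nat_lit 73) (nat_lit 5) (nat_lit 464) (nat_lit 450) (nat_lit 286)))) (XT.nd (nat_lit 156) (nat_lit 152) (nat_lit 0) (XT.nd (nat_lit 78) (nat_lit 0) (nat_lit 0) (XT.lf (nat_lit 0) (nat_lit 47430310481) (nat_lit 228) (nat_lit 74612974598) (nat_lit 304) (nat_lit 235619352237) (nat_lit 69) (nat_lit 5) (nat_lit 72) (nat_lit 5) (nat_lit 73) (nat_lit 5) (nat_lit 465) (nat_lit 450) (nat_lit 285)) (XT.lf (nat_lit 0) (nat_lit 193866851230) (nat_lit 304) (nat_lit 105108367068) (nat_lit 76) (nat_lit 75290344446) (nat_lit 69) (nat_lit 5) (nat_lit 73) (nat_lit 5) (nat_lit 70) (nat_lit 5)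 (nat_lit 466) (nat_lit 450) (nat_lit 284))) (XT.nd (nat_lit 78) (nat_lit 0) (nat_lit 0) (XT.lf (nat_lit 0) (nat_lit 120516118315) (nat_lit 152) (nat_lit 155756529803) (nat_lit 228) (nat_lit 115537166458) (nat_lit 67) (nat_lit 5) (nat_lit 69) (nat_lit 5) (nat_lit 70) (nat_lit 5) (nat_lit 467) (nat_lit 450) (nat_lit 283)) (XT.lf (nat_lit 0) (nat_lit 368193353656) (nat_lit 228) (nat_lit 40408291609) (nat_lit 76) (nat_lit 1922165704) (nat_lit 67) (nat_lit 5) (nat_lit 70) (nat_lit 5) (nat_lit 68) (nat_lit 5) (nat_lit 468) (nat_lit 450) (nat_lit 282))))))))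
noncomputable def xc196 : XT := (XT.nd (nat_lit 2184) (nat_lit 1672) (nat_lit 0) (XT.nd (nat_lit 1092) (nat_lit 988) (nat_lit 0) (XT.nd (nat_lit 546) (nat_lit 608) (nat_lit 0) (XT.nd (nat_lit 234) (nat_lit 456) (nat_lit 0) (XT.nd (nat_lit 78) (nat_lit 152) (nat_lit 0) (XT.lf (nat_lit 0) (nat_lit 44368043011) (nat_lit 228) (nat_lit 215427513382) (nat_lit 76) (nat_lit 170110874544) (nat_lit 64) (nat_lit 5) (nat_lit 67) (nat_lit 5) (nat_lit 65) (nat_lit 5) (nat_lit 469) (nat_lit 450) (nat_lit 281)) (XT.nd (nat_lit 78) (nat_lit 0) (nat_lit 0) (XT.lf (nat_lit 0) (nat_lit 42291179703) (nat_lit 152) (nat_lit 95574873350) (nat_lit 228) (nat_lit 312713602152) (nat_lit 62) (nat_lit 5) (nat_lit 64) (nat_lit 5) (nat_lit 65) (nat_lit 5) (nat_lit 470) (nat_lit 450) (nat_lit 280)) (XT.lf (nat_lit 0) (nat_lit 246853899935) (nat_lit 228) (nat_lit 141676581405) (nat_lit 76) (nat_lit 83735456397) (nat_lit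 62) (nat_lit 5) (nat_lit 65) (nat_lit 5) (nat_lit 63) (nat_lit 5) (nat_lit 471) (nat_lit 450) (nat_lit 279)))) (XT.nd (nat_lit 156) (nat_lit 304) (nat_lit 0) (XT.nd (nat_lit 78) (nat_lit 0) (nat_lit 0) (XT.lf (nat_lit 0) (nat_lit 151353003449) (nat_lit 152) (nat_lit 219330223489) (nat_lit 228) (nat_lit 124514099747) (nat_lit 60) (nat_lit 5) (nat_lit 62) (nat_lit 5) (nat_lit 63) (nat_lit 5) (nat_lit 472) (nat_lit 450) (nat_lit 278)) (XT.lf (nat_lit 0) (nat_lit 475882143266) (nat_lit 152) (nat_lit 32410392459) (nat_lit 228) (nat_lit 11360800178) (nat_lit 60) (nat_lit 5) (nat_lit 62) (nat_lit 5) (nat_lit 63) (nat_lit 5) (nat_lit 473) (nat_lit 450) (nat_lit 277))) (XT.nd (nat_lit 78) (nat_lit 152) (nat_lit 0) (XT.lf (nat_lit 0) (nat_lit 116656117612) (nat_lit 152) (nat_lit 257355633841) (nat_lit 76) (nat_lit 170932308210) (nat_lit 58) (nat_lit 5) (nat_lit 60) (nat_lit 5) (nat_lit 59) (nat_lit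 5) (nat_lit 474) (nat_lit 450) (nat_lit 276)) (XT.lf (nat_lit 0) (nat_lit 78544872734) (nat_lit 152) (nat_lit 179714390062) (nat_lit 228) (nat_lit 313658479492) (nat_lit 56) (nat_lit 5) (nat_lit 58) (nat_lit 5) (nat_lit 59) (nat_lit 5) (nat_lit 475) (nat_lit 450) (nat_lit 275))))) (XT.nd (nat_lit 234) (nat_lit 456) (nat_lit 0) (XT.nd (nat_lit 78) (nat_lit 152) (nat_lit 0) (XT.lf (nat_lit 0) (nat_lit 419134487326) (nat_lit 228) (nat_lit 145440332136) (nat_lit 76) (nat_lit 35838993846) (nat_lit 56) (nat_lit 5) (nat_lit 59) (nat_lit 5) (nat_lit 57) (nat_lit 4) (nat_lit 476) (nat_lit 450) (nat_lit 274)) (XT.nd (nat_lit 78) (nat_lit 76) (nat_lit 0) (XT.lf (nat_lit 0) (nat_lit 237541618991) (nat_lit 76) (nat_lit 365718853849) (nat_lit 152) (nat_lit 27098637729) (nat_lit 55) (nat_lit 5) (nat_lit 56) (nat_lit 5) (nat_lit 57) (nat_lit 4) (nat_lit 477) (nat_lit 450) (nat_lit 273)) (XT.lf (nat_lit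 0) (nat_lit 136522167507) (nat_lit 152) (nat_lit 6404792940) (nat_lit 76) (nat_lit 519178446329) (nat_lit 54) (nat_lit 5) (nat_lit 56) (nat_lit 5) (nat_lit 55) (nat_lit 5) (nat_lit 478) (nat_lit 450) (nat_lit 272)))) (XT.nd (nat_lit 156) (nat_lit 228) (nat_lit 0) (XT.nd (nat_lit 78) (nat_lit 76) (nat_lit 0) (XT.lf (nat_lit 0) (nat_lit 324791239382) (nat_lit 228) (nat_lit 266323426349) (nat_lit 76) (nat_lit 104178621492) (nat_lit 52) (nat_lit 5) (nat_lit 55) (nat_lit 5) (nat_lit 53) (nat_lit 4) (nat_lit 479) (nat_lit 450) (nat_lit 271)) (XT.lf (nat_lit 0) (nat_lit 173372320944) (nat_lit 76) (nat_lit 362811139530) (nat_lit 152) (nat_lit 194307807753) (nat_lit 51) (nat_lit 5) (nat_lit 52) (nat_lit 5) (nat_lit 53) (nat_lit 4) (nat_lit 480) (nat_lit 450) (nat_lit 270))) (XT.nd (nat_lit 78) (nat_lit 152) (nat_lit 0) (XT.lf (nat_lit 0) (nat_lit 3653820285) (nat_lit 152) (nat_lit 104625345396) (nat_lit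 76) (nat_lit 659635984674) (nat_lit 50) (nat_lit 5) (nat_lit 52) (nat_lit 5) (nat_lit 51) (nat_lit 5) (nat_lit 481) (nat_lit 450) (nat_lit 269)) (XT.lf (nat_lit 0) (nat_lit 220937559413) (nat_lit 228) (nat_lit 412569697041) (nat_lit 76) (nat_lit 173303302162) (nat_lit 48) (nat_lit 5) (nat_lit 51) (nat_lit 5) (nat_lit 49) (nat_lit 4) (nat_lit 482) (nat_lit 450) (nat_lit 268)))))) (XT.nd (nat_lit 546) (nat_lit 532) (nat_lit 0) (XT.nd (nat_lit 234) (nat_lit 228) (nat_lit 0) (XT.nd (nat_lit 78) (nat_lit 152) (nat_lit 0) (XT.lf (nat_lit 0) (nat_lit 92098054887) (nat_lit 76) (nat_lit 371468257063) (nat_lit 152) (nat_lit 384614302448) (nat_lit 47) (nat_lit 5) (nat_lit 48) (nat_lit 5) (nat_lit 49) (nat_lit 4) (nat_lit 483) (nat_lit 450) (nat_lit 267)) (XT.nd (nat_lit 78) (nat_lit 152) (nat_lit 0) (XT.lf (nat_lit 0) (nat_lit 660602365309) (nat_lit 76) (nat_lit 76283350400) (nat_lit 152) (nat_lit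 155072130852) (nat_lit 47) (nat_lit 5) (nat_lit 48) (nat_lit 5) (nat_lit 49) (nat_lit 4) (nat_lit 484) (nat_lit 450) (nat_lit 266)) (XT.lf (nat_lit 0) (nat_lit 102732382403) (nat_lit 152) (nat_lit 593835134511) (nat_lit 76) (nat_lit 241327699012) (nat_lit 45) (nat_lit 5) (nat_lit 47) (nat_lit 5) (nat_lit 46) (nat_lit 4) (nat_lit 485) (nat_lit 450) (nat_lit 265)))) (XT.nd (nat_lit 156) (nat_lit 152) (nat_lit 0) (XT.nd (nat_lit 78) (nat_lit 76) (nat_lit 0) (XT.lf (nat_lit 0) (nat_lit 381254657972) (nat_lit 152) (nat_lit 14508840540) (nat_lit 76) (nat_lit 590744142592) (nat_lit 45) (nat_lit 5) (nat_lit 47) (nat_lit 5) (nat_lit 46) (nat_lit 4) (nat_lit 486) (nat_lit 450) (nat_lit 264)) (XT.lf (nat_lit 0) (nat_lit 643346285227) (nat_lit 76) (nat_lit 54184892973) (nat_lit 152) (nat_lit 340240085088) (nat_lit 44) (nat_lit 5) (nat_lit 45) (nat_lit 5) (nat_lit 46) (nat_lit 4) (nat_lit 487) (nat_lit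 450) (nat_lit 263))) (XT.nd (nat_lit 78) (nat_lit 76) (nat_lit 0) (XT.lf (nat_lit 0) (nat_lit 267345005992) (nat_lit 76) (nat_lit 786170461975) (nat_lit 76) (nat_lit 38468055447) (nat_lit 43) (nat_lit 4) (nat_lit 44) (nat_lit 5) (nat_lit 44) (nat_lit 4) (nat_lit 488) (nat_lit 450) (nat_lit 262)) (XT.lf (nat_lit 0) (nat_lit 285538294856) (nat_lit 152) (nat_lit 153782782048) (nat_lit 76) (nat_lit 709660900641) (nat_lit 42) (nat_lit 5) (nat_lit 44) (nat_lit 5) (nat_lit 43) (nat_lit 4) (nat_lit 489) (nat_lit 450) (nat_lit 261))))) (XT.nd (nat_lit 234) (nat_lit 304) (nat_lit 0) (XT.nd (nat_lit 78) (nat_lit 152) (nat_lit 0) (XT.lf (nat_lit 0) (nat_lit 599743801279) (nat_lit 76) (nat_lit 48066902238) (nat_lit 152) (nat_lit 561495764908) (nat_lit 41) (nat_lit 5) (nat_lit 42) (nat_lit 5) (nat_lit 43) (nat_lit 4) (nat_lit 490) (nat_lit 450) (nat_lit 260)) (XT.nd (nat_lit 78) (nat_lit 76) (nat_lit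 0) (XT.lf (nat_lit 0) (nat_lit 146384787729) (nat_lit 76) (nat_lit 909520989221) (nat_lit 76) (nat_lit 217203871861) (nat_lit 40) (nat_lit 4) (nat_lit 41) (nat_lit 5) (nat_lit 41) (nat_lit 4) (nat_lit 491) (nat_lit 450) (nat_lit 259)) (XT.lf (nat_lit 0) (nat_lit 165243968299) (nat_lit 152) (nat_lit 348609684481) (nat_lit 76) (nat_lit 826398089133) (nat_lit 39) (nat_lit 5) (nat_lit 41) (nat_lit 5) (nat_lit 40) (nat_lit 4) (nat_lit 492) (nat_lit 450) (nat_lit 258)))) (XT.nd (nat_lit 156) (nat_lit 228) (nat_lit 0) (XT.nd (nat_lit 78) (nat_lit 0) (nat_lit 0) (XT.lf (nat_lit 0) (nat_lit 511710845407) (nat_lit 76) (nat_lit 67148771692) (nat_lit 152) (nat_lit 832469722072) (nat_lit 38) (nat_lit 5) (nat_lit 39) (nat_lit 5) (nat_lit 40) (nat_lit 4) (nat_lit 493) (nat_lit 450) (nat_lit 257)) (XT.lf (nat_lit 0) (nat_lit 1045331467352) (nat_lit 152) (nat_lit 36883276063) (nat_lit 0) (nat_lit 404297044831)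 (nat_lit 38) (nat_lit 5) (nat_lit 40) (nat_lit 4) (nat_lit 38) (nat_lit 4) (nat_lit 494) (nat_lit 450) (nat_lit 256))) (XT.nd (nat_lit 78) (nat_lit 76) (nat_lit 0) (XT.lf (nat_lit 0) (nat_lit 7329562319) (nat_lit 152) (nat_lit 625788948468) (nat_lit 76) (nat_lit 932627085798) (nat_lit 36) (nat_lit 5) (nat_lit 38) (nat_lit 5) (nat_lit 37) (nat_lit 4) (nat_lit 495) (nat_lit 450) (nat_lit 255)) (XT.lf (nat_lit 0) (nat_lit 351923064621) (nat_lit 76) (nat_lit 125460357077) (nat_lit 152) (nat_lit 1172258079001) (nat_lit 35) (nat_lit 5) (nat_lit 36) (nat_lit 5) (nat_lit 37) (nat_lit 4) (nat_lit 496) (nat_lit 450) (nat_lit 254))))))) (XT.nd (nat_lit 1092) (nat_lit 760) (nat_lit 0) (XT.nd (nat_lit 546) (nat_lit 456) (nat_lit 0) (XT.nd (nat_lit 234) (nat_lit 228) (nat_lit 0) (XT.nd (nat_lit 78) (nat_lit 228) (nat_lit 0) (XT.lf (nat_lit 0) (nat_lit 1012764766632) (nat_lit 152) (nat_lit 306052121087)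 (nat_lit 0) (nat_lit 419214335278) (nat_lit 35) (nat_lit 5) (nat_lit 37) (nat_lit 4) (nat_lit 35) (nat_lit 4) (nat_lit 497) (nat_lit 450) (nat_lit 253)) (XT.nd (nat_lit 78) (nat_lit 152) (nat_lit 0) (XT.lf (nat_lit 0) (nat_lit 801797924188) (nat_lit 76) (nat_lit 811720642927) (nat_lit 76) (nat_lit 218170200127) (nat_lit 34) (nat_lit 4) (nat_lit 35) (nat_lit 5) (nat_lit 35) (nat_lit 4) (nat_lit 498) (nat_lit 450) (nat_lit 252)) (XT.lf (nat_lit 0) (nat_lit 79339089051) (nat_lit 76) (nat_lit 244165498664) (nat_lit 152) (nat_lit 1607860905230) (nat_lit 32) (nat_lit 5) (nat_lit 33) (nat_lit 5) (nat_lit 34) (nat_lit 4) (nat_lit 499) (nat_lit 450) (nat_lit 251)))) (XT.nd (nat_lit 156) (nat_lit 152) (nat_lit 0) (XT.nd (nat_lit 78) (nat_lit 76) (nat_lit 0) (XT.lf (nat_lit 0) (nat_lit 934486429543) (nat_lit 152) (nat_lit 716153124892) (nat_lit 0) (nat_lit 384902667311) (nat_lit 32) (nat_lit 5) (nat_lit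 34) (nat_lit 4) (nat_lit 32) (nat_lit 4) (nat_lit 500) (nat_lit 450) (nat_lit 250)) (XT.lf (nat_lit 0) (nat_lit 530800821595) (nat_lit 76) (nat_lit 1082653710419) (nat_lit 76) (nat_lit 533069939774) (nat_lit 31) (nat_lit 4) (nat_lit 32) (nat_lit 5) (nat_lit 32) (nat_lit 4) (nat_lit 501) (nat_lit 450) (nat_lit 249))) (XT.nd (nat_lit 78) (nat_lit 76) (nat_lit 0) (XT.lf (nat_lit 0) (nat_lit 96424579331) (nat_lit 152) (nat_lit 349020653425) (nat_lit 76) (nat_lit 1819178308721) (nat_lit 30) (nat_lit 5) (nat_lit 32) (nat_lit 5) (nat_lit 31) (nat_lit 4) (nat_lit 502) (nat_lit 450) (nat_lit 248)) (XT.lf (nat_lit 0) (nat_lit 779784933240) (nat_lit 152) (nat_lit 1337782396382) (nat_lit 0) (nat_lit 270911057641) (nat_lit 29) (nat_lit 5) (nat_lit 31) (nat_lit 4) (nat_lit 29) (nat_lit 4) (nat_lit 503) (nat_lit 450) (nat_lit 247))))) (XT.nd (nat_lit 234) (nat_lit 228) (nat_lit 0) (XT.nd (nat_lit 78) (nat_lit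 152) (nat_lit 0) (XT.lf (nat_lit 0) (nat_lit 51520227893) (nat_lit 76) (nat_lit 1488893646927) (nat_lit 76) (nat_lit 980019765144) (nat_lit 28) (nat_lit 4) (nat_lit 29) (nat_lit 5) (nat_lit 29) (nat_lit 4) (nat_lit 504) (nat_lit 450) (nat_lit 246)) (XT.nd (nat_lit 78) (nat_lit 152) (nat_lit 0) (XT.lf (nat_lit 0) (nat_lit 1628047895570) (nat_lit 76) (nat_lit 770422559477) (nat_lit 76) (nat_lit 261548671968) (nat_lit 28) (nat_lit 4) (nat_lit 29) (nat_lit 5) (nat_lit 29) (nat_lit 4) (nat_lit 505) (nat_lit 450) (nat_lit 245)) (XT.lf (nat_lit 0) (nat_lit 502305198752) (nat_lit 152) (nat_lit 2275259881760) (nat_lit 0) (nat_lit 31125668372) (nat_lit 26) (nat_lit 5) (nat_lit 28) (nat_lit 4) (nat_lit 26) (nat_lit 4) (nat_lit 506) (nat_lit 450) (nat_lit 244)))) (XT.nd (nat_lit 156) (nat_lit 152) (nat_lit 0) (XT.nd (nat_lit 78) (nat_lit 76) (nat_lit 0) (XT.lf (nat_lit 0) (nat_lit 1362096719118) (nat_lit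 152) (nat_lit 711781938493) (nat_lit 0) (nat_lit 890917184192) (nat_lit 26) (nat_lit 5) (nat_lit 28) (nat_lit 4) (nat_lit 26) (nat_lit 4) (nat_lit 507) (nat_lit 450) (nat_lit 243)) (XT.lf (nat_lit 0) (nat_lit 1028209406597) (nat_lit 76) (nat_lit 1287190599545) (nat_lit 76) (nat_lit 816011060411) (nat_lit 25) (nat_lit 4) (nat_lit 26) (nat_lit 5) (nat_lit 26) (nat_lit 4) (nat_lit 508) (nat_lit 450) (nat_lit 242))) (XT.nd (nat_lit 78) (nat_lit 76) (nat_lit 0) (XT.lf (nat_lit 0) (nat_lit 51897490185) (nat_lit 152) (nat_lit 363232763445) (nat_lit 76) (nat_lit 2894563237685) (nat_lit 24) (nat_lit 5) (nat_lit 26) (nat_lit 5) (nat_lit 25) (nat_lit 4) (nat_lit 509) (nat_lit 450) (nat_lit 241)) (XT.lf (nat_lit 0) (nat_lit 997194841950) (nat_lit 152) (nat_lit 1938267224002) (nat_lit 0) (nat_lit 560917483951) (nat_lit 23) (nat_lit 5) (nat_lit 25) (nat_lit 4) (nat_lit 23) (nat_lit 4) (nat_lit 510) (nat_lit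 450) (nat_lit 240)))))) (XT.nd (nat_lit 546) (nat_lit 304) (nat_lit 0) (XT.nd (nat_lit 234) (nat_lit 228) (nat_lit 0) (XT.nd (nat_lit 78) (nat_lit 228) (nat_lit 0) (XT.lf (nat_lit 0) (nat_lit 2039087957753) (nat_lit 152) (nat_lit 54424180692) (nat_lit 0) (nat_lit 1602810596661) (nat_lit 23) (nat_lit 5) (nat_lit 25) (nat_lit 4) (nat_lit 23) (nat_lit 4) (nat_lit 511) (nat_lit 450) (nat_lit 239)) (XT.nd (nat_lit 78) (nat_lit 152) (nat_lit 0) (XT.lf (nat_lit 0) (nat_lit 2084396218968) (nat_lit 76) (nat_lit 1130066069434) (nat_lit 76) (nat_lit 693788705477) (nat_lit 22) (nat_lit 4) (nat_lit 23) (nat_lit 5) (nat_lit 23) (nat_lit 4) (nat_lit 512) (nat_lit 450) (nat_lit 238)) (XT.lf (nat_lit 0) (nat_lit 265296522588) (nat_lit 76) (nat_lit 71998616448) (nat_lit 152) (nat_lit 3798538692982) (nat_lit 20) (nat_lit 5) (nat_lit 21) (nat_lit 5) (nat_lit 22) (nat_lit 4) (nat_lit 513) (nat_lit 450) (nat_lit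 237)))) (XT.nd (nat_lit 156) (nat_lit 152) (nat_lit 0) (XT.nd (nat_lit 78) (nat_lit 76) (nat_lit 0) (XT.lf (nat_lit 0) (nat_lit 1490296449397) (nat_lit 152) (nat_lit 1797396216950) (nat_lit 0) (nat_lit 1086335922485) (nat_lit 20) (nat_lit 5) (nat_lit 22) (nat_lit 4) (nat_lit 20) (nat_lit 4) (nat_lit 514) (nat_lit 450) (nat_lit 236)) (XT.lf (nat_lit 0) (nat_lit 462881237357) (nat_lit 76) (nat_lit 2285659013476) (nat_lit 76) (nat_lit 1881698484459) (nat_lit 19) (nat_lit 4) (nat_lit 20) (nat_lit 5) (nat_lit 20) (nat_lit 4) (nat_lit 515) (nat_lit 450) (nat_lit 235))) (XT.nd (nat_lit 78) (nat_lit 152) (nat_lit 0) (XT.lf (nat_lit 0) (nat_lit 3006200378341) (nat_lit 76) (nat_lit 1150387163623) (nat_lit 76) (nat_lit 746426632657) (nat_lit 19) (nat_lit 4) (nat_lit 20) (nat_lit 5) (nat_lit 20) (nat_lit 4) (nat_lit 516) (nat_lit 450) (nat_lit 234)) (XT.lf (nat_lit 0) (nat_lit 471918095087) (nat_lit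 152) (nat_lit 4625590428126) (nat_lit 0) (nat_lit 97880564743) (nat_lit 17) (nat_lit 5) (nat_lit 19) (nat_lit 4) (nat_lit 17) (nat_lit 4) (nat_lit 517) (nat_lit 450) (nat_lit 233))))) (XT.nd (nat_lit 312) (nat_lit 152) (nat_lit 0) (XT.nd (nat_lit 156) (nat_lit 76) (nat_lit 0) (XT.nd (nat_lit 78) (nat_lit 76) (nat_lit 0) (XT.lf (nat_lit 0) (nat_lit 1830493471706) (nat_lit 152) (nat_lit 2216006406737) (nat_lit 0) (nat_lit 1456455939814) (nat_lit 17) (nat_lit 5) (nat_lit 19) (nat_lit 4) (nat_lit 17) (nat_lit 4) (nat_lit 518) (nat_lit 450) (nat_lit 232)) (XT.lf (nat_lit 0) (nat_lit 406688521140) (nat_lit 76) (nat_lit 2900847215264) (nat_lit 76) (nat_lit 2526809681940) (nat_lit 16) (nat_lit 4) (nat_lit 17) (nat_lit 5) (nat_lit 17) (nat_lit 4) (nat_lit 519) (nat_lit 450) (nat_lit 231))) (XT.nd (nat_lit 78) (nat_lit 76) (nat_lit 0) (XT.lf (nat_lit 0) (nat_lit 3365225269562) (nat_lit 76) (nat_lit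 1598105644494) (nat_lit 76) (nat_lit 1224068109843) (nat_lit 16) (nat_lit 4) (nat_lit 17) (nat_lit 5) (nat_lit 17) (nat_lit 4) (nat_lit 520) (nat_lit 450) (nat_lit 230)) (XT.lf (nat_lit 0) (nat_lit 173743740084) (nat_lit 152) (nat_lit 12650556502) (nat_lit 76) (nat_lit 6381950736030) (nat_lit 15) (nat_lit 5) (nat_lit 17) (nat_lit 5) (nat_lit 16) (nat_lit 4) (nat_lit 521) (nat_lit 450) (nat_lit 229)))) (XT.nd (nat_lit 156) (nat_lit 76) (nat_lit 0) (XT.nd (nat_lit 78) (nat_lit 0) (nat_lit 0) (XT.lf (nat_lit 0) (nat_lit 1727918108963) (nat_lit 152) (nat_lit 3858864515320) (nat_lit 0) (nat_lit 1381587056170) (nat_lit 14) (nat_lit 5) (nat_lit 16) (nat_lit 4) (nat_lit 14) (nat_lit 4) (nat_lit 522) (nat_lit 450) (nat_lit 228)) (XT.lf (nat_lit 0) (nat_lit 3411622701194) (nat_lit 152) (nat_lit 923066249590) (nat_lit 0) (nat_lit 3065291647425) (nat_lit 14) (nat_lit 5) (nat_lit 16) (nat_lit 4) (nat_lit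 14) (nat_lit 4) (nat_lit 523) (nat_lit 450) (nat_lit 227))) (XT.nd (nat_lit 78) (nat_lit 0) (nat_lit 0) (XT.lf (nat_lit 0) (nat_lit 2365950274698) (nat_lit 76) (nat_lit 2920974538581) (nat_lit 76) (nat_lit 2574643483909) (nat_lit 13) (nat_lit 4) (nat_lit 14) (nat_lit 5) (nat_lit 14) (nat_lit 4) (nat_lit 524) (nat_lit 450) (nat_lit 226)) (XT.lf (nat_lit 0) (nat_lit 5970583699302) (nat_lit 76) (nat_lit 1366905653794) (nat_lit 76) (nat_lit 1020574598287) (nat_lit 13) (nat_lit 4) (nat_lit 14) (nat_lit 5) (nat_lit 14) (nat_lit 4) (nat_lit 525) (nat_lit 450) (nat_lit 225))))))))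
noncomputable def xc197 : XT := (XT.nd (nat_lit 57720) (nat_lit 0) (nat_lit 2584) (XT.nd (nat_lit 56628) (nat_lit 0) (nat_lit 5320) (XT.nd (nat_lit 546) (nat_lit 228) (nat_lit 0) (XT.nd (nat_lit 234) (nat_lit 228) (nat_lit 0) (XT.nd (nat_lit 78) (nat_lit 0) (nat_lit 0) (XT.lf (nat_lit 0) (nat_lit 657581136096) (nat_lit 152) (nat_lit 7895914791256) (nat_lit 0) (nat_lit 336904232132) (nat_lit 11) (nat_lit 5) (nat_lit 13) (nat_lit 4) (nat_lit 11) (nat_lit 4) (nat_lit 526) (nat_lit 450) (nat_lit 224)) (XT.nd (nat_lit 78) (nat_lit 0) (nat_lit 0) (XT.lf (nat_lit 0) (nat_lit 2517329299565) (nat_lit 152) (nat_lit 4741022694676) (nat_lit 0) (nat_lit 2196652394937) (nat_lit 11) (nat_lit 5) (nat_lit 13) (nat_lit 4) (nat_lit 11) (nat_lit 4) (nat_lit 527) (nat_lit 450) (nat_lit 223)) (XT.lf (nat_lit 0) (nat_lit 4525857308806) (nat_lit 152) (nat_lit 1333739245463) (nat_lit 0) (nat_lit 4205180403563) (nat_lit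 11) (nat_lit 5) (nat_lit 13) (nat_lit 4) (nat_lit 11) (nat_lit 4) (nat_lit 528) (nat_lit 450) (nat_lit 222)))) (XT.nd (nat_lit 156) (nat_lit 152) (nat_lit 0) (XT.nd (nat_lit 78) (nat_lit 0) (nat_lit 0) (XT.lf (nat_lit 0) (nat_lit 2469669748765) (nat_lit 76) (nat_lit 4284793420109) (nat_lit 76) (nat_lit 3964116514297) (nat_lit 10) (nat_lit 4) (nat_lit 11) (nat_lit 5) (nat_lit 11) (nat_lit 4) (nat_lit 529) (nat_lit 450) (nat_lit 221)) (XT.lf (nat_lit 0) (nat_lit 6653202381596) (nat_lit 76) (nat_lit 2544621904121) (nat_lit 76) (nat_lit 2223944997783) (nat_lit 10) (nat_lit 4) (nat_lit 11) (nat_lit 5) (nat_lit 11) (nat_lit 4) (nat_lit 530) (nat_lit 450) (nat_lit 220))) (XT.nd (nat_lit 78) (nat_lit 152) (nat_lit 0) (XT.lf (nat_lit 0) (nat_lit 11171417612441) (nat_lit 76) (nat_lit 665236673365) (nat_lit 76) (nat_lit 344559766538) (nat_lit 10) (nat_lit 4) (nat_lit 11) (nat_lit 5) (nat_lit 11) (nat_lit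 4) (nat_lit 531) (nat_lit 450) (nat_lit 219)) (XT.lf (nat_lit 0) (nat_lit 1712905531843) (nat_lit 152) (nat_lit 9860321831585) (nat_lit 0) (nat_lit 1415982469549) (nat_lit 8) (nat_lit 5) (nat_lit 10) (nat_lit 4) (nat_lit 8) (nat_lit 4) (nat_lit 532) (nat_lit 450) (nat_lit 218))))) (XT.nd (nat_lit 234) (nat_lit 152) (nat_lit 0) (XT.nd (nat_lit 78) (nat_lit 76) (nat_lit 0) (XT.lf (nat_lit 0) (nat_lit 3961958503213) (nat_lit 152) (nat_lit 6230486913881) (nat_lit 0) (nat_lit 3665035440532) (nat_lit 8) (nat_lit 5) (nat_lit 10) (nat_lit 4) (nat_lit 8) (nat_lit 4) (nat_lit 533) (nat_lit 450) (nat_lit 217)) (XT.nd (nat_lit 78) (nat_lit 76) (nat_lit 0) (XT.lf (nat_lit 0) (nat_lit 6390935706928) (nat_lit 152) (nat_lit 2310265213860) (nat_lit 0) (nat_lit 6094012643888) (nat_lit 8) (nat_lit 5) (nat_lit 10) (nat_lit 4) (nat_lit 8) (nat_lit 4) (nat_lit 534) (nat_lit 450) (nat_lit 216)) (XT.lf (nat_lit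 0) (nat_lit 2024866221017) (nat_lit 76) (nat_lit 7038062942269) (nat_lit 76) (nat_lit 6741139878896) (nat_lit 7) (nat_lit 4) (nat_lit 8) (nat_lit 5) (nat_lit 8) (nat_lit 4) (nat_lit 535) (nat_lit 450) (nat_lit 215)))) (XT.nd (nat_lit 156) (nat_lit 152) (nat_lit 0) (XT.nd (nat_lit 78) (nat_lit 0) (nat_lit 0) (XT.lf (nat_lit 0) (nat_lit 6838194990451) (nat_lit 76) (nat_lit 5173653845949) (nat_lit 76) (nat_lit 4876730782269) (nat_lit 7) (nat_lit 4) (nat_lit 8) (nat_lit 5) (nat_lit 8) (nat_lit 4) (nat_lit 536) (nat_lit 450) (nat_lit 214)) (XT.lf (nat_lit 0) (nat_lit 12036590052165) (nat_lit 76) (nat_lit 3160092026716) (nat_lit 76) (nat_lit 2863168962752) (nat_lit 7) (nat_lit 4) (nat_lit 8) (nat_lit 5) (nat_lit 8) (nat_lit 4) (nat_lit 537) (nat_lit 450) (nat_lit 213))) (XT.nd (nat_lit 78) (nat_lit 152) (nat_lit 0) (XT.lf (nat_lit 0) (nat_lit 17650856710229) (nat_lit 76) (nat_lit 985445266383)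 (nat_lit 76) (nat_lit 688522202155) (nat_lit 7) (nat_lit 4) (nat_lit 8) (nat_lit 5) (nat_lit 8) (nat_lit 4) (nat_lit 538) (nat_lit 450) (nat_lit 212)) (XT.lf (nat_lit 0) (nat_lit 1688362385198) (nat_lit 152) (nat_lit 17577100265304) (nat_lit 0) (nat_lit 1413433621798) (nat_lit 5) (nat_lit 5) (nat_lit 7) (nat_lit 4) (nat_lit 5) (nat_lit 4) (nat_lit 539) (nat_lit 450) (nat_lit 211)))))) (XT.nd (nat_lit 546) (nat_lit 836) (nat_lit 0) (XT.nd (nat_lit 234) (nat_lit 0) (nat_lit 76) (XT.nd (nat_lit 78) (nat_lit 532) (nat_lit 0) (XT.lf (nat_lit 0) (nat_lit 101460318387) (nat_lit 532) (nat_lit 680305009) (nat_lit 532) (nat_lit 680305009) (nat_lit 93) (nat_lit 3) (nat_lit 100) (nat_lit 3) (nat_lit 100) (nat_lit 5) (nat_lit 451) (nat_lit 451) (nat_lit 298)) (XT.nd (nat_lit 78) (nat_lit 532) (nat_lit 0) (XT.lf (nat_lit 76) (nat_lit 106370303832) (nat_lit 0) (nat_lit 107226828022) (nat_lit 532) (nat_lit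 65625467) (nat_lit 94) (nat_lit 5) (nat_lit 93) (nat_lit 3) (nat_lit 100) (nat_lit 5) (nat_lit 452) (nat_lit 451) (nat_lit 297)) (XT.lf (nat_lit 76) (nat_lit 427653498) (nat_lit 0) (nat_lit 2282875715) (nat_lit 608) (nat_lit 219605544758) (nat_lit 87) (nat_lit 5) (nat_lit 86) (nat_lit 5) (nat_lit 94) (nat_lit 5) (nat_lit 453) (nat_lit 451) (nat_lit 296)))) (XT.nd (nat_lit 156) (nat_lit 0) (nat_lit 76) (XT.nd (nat_lit 78) (nat_lit 0) (nat_lit 0) (XT.lf (nat_lit 0) (nat_lit 11385765216) (nat_lit 532) (nat_lit 111308701128) (nat_lit 608) (nat_lit 108512610508) (nat_lit 87) (nat_lit 5) (nat_lit 94) (nat_lit 5) (nat_lit 95) (nat_lit 5) (nat_lit 454) (nat_lit 451) (nat_lit 295)) (XT.lf (nat_lit 76) (nat_lit 8482326562) (nat_lit 0) (nat_lit 12535858026) (nat_lit 608) (nat_lit 219770122231) (nat_lit 88) (nat_lit 5) (nat_lit 87) (nat_lit 5) (nat_lit 95) (nat_lit 5) (nat_lit 455) (nat_lit 451) (nat_lit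 294))) (XT.nd (nat_lit 78) (nat_lit 0) (nat_lit 0) (XT.lf (nat_lit 0) (nat_lit 37103275415) (nat_lit 532) (nat_lit 109344630058) (nat_lit 608) (nat_lit 104233563492) (nat_lit 88) (nat_lit 5) (nat_lit 95) (nat_lit 5) (nat_lit 96) (nat_lit 5) (nat_lit 456) (nat_lit 451) (nat_lit 293)) (XT.lf (nat_lit 76) (nat_lit 24345802319) (nat_lit 0) (nat_lit 31040381260) (nat_lit 608) (nat_lit 205907019712) (nat_lit 89) (nat_lit 5) (nat_lit 88) (nat_lit 5) (nat_lit 96) (nat_lit 5) (nat_lit 457) (nat_lit 451) (nat_lit 292))))) (XT.nd (nat_lit 234) (nat_lit 532) (nat_lit 0) (XT.nd (nat_lit 78) (nat_lit 532) (nat_lit 0) (XT.lf (nat_lit 0) (nat_lit 80450023203) (nat_lit 532) (nat_lit 99893538390) (nat_lit 76) (nat_lit 91984850878) (nat_lit 89) (nat_lit 5) (nat_lit 96) (nat_lit 5) (nat_lit 90) (nat_lit 5) (nat_lit 458) (nat_lit 451) (nat_lit 291)) (XT.nd (nat_lit 78) (nat_lit 0) (nat_lit 0) (XT.lf (nat_lit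 0) (nat_lit 49809993281) (nat_lit 532) (nat_lit 59713052668) (nat_lit 608) (nat_lit 174563066371) (nat_lit 82) (nat_lit 5) (nat_lit 89) (nat_lit 5) (nat_lit 90) (nat_lit 5) (nat_lit 459) (nat_lit 451) (nat_lit 290)) (XT.lf (nat_lit 0) (nat_lit 145421184449) (nat_lit 608) (nat_lit 81163285994) (nat_lit 76) (nat_lit 69840015810) (nat_lit 82) (nat_lit 5) (nat_lit 90) (nat_lit 5) (nat_lit 83) (nat_lit 5) (nat_lit 460) (nat_lit 451) (nat_lit 289)))) (XT.nd (nat_lit 156) (nat_lit 304) (nat_lit 0) (XT.nd (nat_lit 78) (nat_lit 0) (nat_lit 0) (XT.lf (nat_lit 0) (nat_lit 86999564130) (nat_lit 228) (nat_lit 100834852818) (nat_lit 304) (nat_lit 121624053729) (nat_lit 79) (nat_lit 5) (nat_lit 82) (nat_lit 5) (nat_lit 83) (nat_lit 5) (nat_lit 461) (nat_lit 451) (nat_lit 288)) (XT.lf (nat_lit 0) (nat_lit 236758556599) (nat_lit 304) (nat_lit 51025251042) (nat_lit 76) (nat_lit 35501938339) (nat_lit 79) (nat_lit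 5) (nat_lit 83) (nat_lit 5) (nat_lit 80) (nat_lit 5) (nat_lit 462) (nat_lit 451) (nat_lit 287))) (XT.nd (nat_lit 78) (nat_lit 76) (nat_lit 0) (XT.lf (nat_lit 0) (nat_lit 138428684475) (nat_lit 228) (nat_lit 157116166435) (nat_lit 304) (nat_lit 42198494526) (nat_lit 76) (nat_lit 5) (nat_lit 79) (nat_lit 5) (nat_lit 80) (nat_lit 5) (nat_lit 463) (nat_lit 451) (nat_lit 286)) (XT.lf (nat_lit 0) (nat_lit 6823817203) (nat_lit 304) (nat_lit 7478004372) (nat_lit 76) (nat_lit 338930307084) (nat_lit 75) (nat_lit 5) (nat_lit 79) (nat_lit 5) (nat_lit 76) (nat_lit 5) (nat_lit 464) (nat_lit 451) (nat_lit 285))))))) (XT.nd (nat_lit 1092) (nat_lit 1216) (nat_lit 0) (XT.nd (nat_lit 546) (nat_lit 532) (nat_lit 0) (XT.nd (nat_lit 234) (nat_lit 532) (nat_lit 0) (XT.nd (nat_lit 78) (nat_lit 228) (nat_lit 0) (XT.lf (nat_lit 0) (nat_lit 66040689452) (nat_lit 304) (nat_lit 163926803746) (nat_lit 76) (nat_lit 139220628937)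 (nat_lit 72) (nat_lit 5) (nat_lit 76) (nat_lit 5) (nat_lit 73) (nat_lit 5) (nat_lit 465) (nat_lit 451) (nat_lit 284)) (XT.nd (nat_lit 78) (nat_lit 0) (nat_lit 0) (XT.lf (nat_lit 0) (nat_lit 51226514076) (nat_lit 228) (nat_lit 80581578066) (nat_lit 304) (nat_lit 254467448500) (nat_lit 69) (nat_lit 5) (nat_lit 72) (nat_lit 5) (nat_lit 73) (nat_lit 5) (nat_lit 466) (nat_lit 451) (nat_lit 283)) (XT.lf (nat_lit 0) (nat_lit 209377453685) (nat_lit 304) (nat_lit 113515299428) (nat_lit 76) (nat_lit 81313954191) (nat_lit 69) (nat_lit 5) (nat_lit 73) (nat_lit 5) (nat_lit 70) (nat_lit 5) (nat_lit 467) (nat_lit 451) (nat_lit 282)))) (XT.nd (nat_lit 156) (nat_lit 380) (nat_lit 0) (XT.nd (nat_lit 78) (nat_lit 0) (nat_lit 0) (XT.lf (nat_lit 0) (nat_lit 130159100811) (nat_lit 152) (nat_lit 168216561315) (nat_lit 228) (nat_lit 124778841341) (nat_lit 67) (nat_lit 5) (nat_lit 69) (nat_lit 5) (nat_lit 70) (nat_lit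 5) (nat_lit 468) (nat_lit 451) (nat_lit 281)) (XT.lf (nat_lit 0) (nat_lit 397649945989) (nat_lit 228) (nat_lit 43639309103) (nat_lit 76) (nat_lit 2076370735) (nat_lit 67) (nat_lit 5) (nat_lit 70) (nat_lit 5) (nat_lit 68) (nat_lit 5) (nat_lit 469) (nat_lit 451) (nat_lit 280))) (XT.nd (nat_lit 78) (nat_lit 152) (nat_lit 0) (XT.lf (nat_lit 0) (nat_lit 47918593930) (nat_lit 228) (nat_lit 232660051885) (nat_lit 76) (nat_lit 183720210917) (nat_lit 64) (nat_lit 5) (nat_lit 67) (nat_lit 5) (nat_lit 65) (nat_lit 5) (nat_lit 470) (nat_lit 451) (nat_lit 279)) (XT.lf (nat_lit 0) (nat_lit 45676094556) (nat_lit 152) (nat_lit 103220307156) (nat_lit 228) (nat_lit 337729540680) (nat_lit 62) (nat_lit 5) (nat_lit 64) (nat_lit 5) (nat_lit 65) (nat_lit 5) (nat_lit 471) (nat_lit 451) (nat_lit 278))))) (XT.nd (nat_lit 234) (nat_lit 380) (nat_lit 0) (XT.nd (nat_lit 78) (nat_lit 152) (nat_lit 0) (XT.lf (nat_lit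 0) (nat_lit 266603209882) (nat_lit 228) (nat_lit 153009140943) (nat_lit 76) (nat_lit 90434782025) (nat_lit 62) (nat_lit 5) (nat_lit 65) (nat_lit 5) (nat_lit 63) (nat_lit 5) (nat_lit 472) (nat_lit 451) (nat_lit 277)) (XT.nd (nat_lit 78) (nat_lit 0) (nat_lit 0) (XT.lf (nat_lit 0) (nat_lit 163462771029) (nat_lit 152) (nat_lit 236876074825) (nat_lit 228) (nat_lit 134474190039) (nat_lit 60) (nat_lit 5) (nat_lit 62) (nat_lit 5) (nat_lit 63) (nat_lit 5) (nat_lit 473) (nat_lit 451) (nat_lit 276)) (XT.lf (nat_lit 0) (nat_lit 513954128897) (nat_lit 152) (nat_lit 35002699279) (nat_lit 228) (nat_lit 12268703370) (nat_lit 60) (nat_lit 5) (nat_lit 62) (nat_lit 5) (nat_lit 63) (nat_lit 5) (nat_lit 474) (nat_lit 451) (nat_lit 275)))) (XT.nd (nat_lit 156) (nat_lit 76) (nat_lit 0) (XT.nd (nat_lit 78) (nat_lit 152) (nat_lit 0) (XT.lf (nat_lit 0) (nat_lit 125989499572) (nat_lit 152) (nat_lit 277942602000) (nat_lit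 76) (nat_lit 184607411408) (nat_lit 58) (nat_lit 5) (nat_lit 60) (nat_lit 5) (nat_lit 59) (nat_lit 5) (nat_lit 475) (nat_lit 451) (nat_lit 274)) (XT.lf (nat_lit 0) (nat_lit 84829907568) (nat_lit 152) (nat_lit 194090957441) (nat_lit 228) (nat_lit 338750227720) (nat_lit 56) (nat_lit 5) (nat_lit 58) (nat_lit 5) (nat_lit 59) (nat_lit 5) (nat_lit 476) (nat_lit 451) (nat_lit 273))) (XT.nd (nat_lit 78) (nat_lit 76) (nat_lit 0) (XT.lf (nat_lit 0) (nat_lit 452666056710) (nat_lit 228) (nat_lit 157074169895) (nat_lit 76) (nat_lit 38706626892) (nat_lit 56) (nat_lit 5) (nat_lit 59) (nat_lit 5) (nat_lit 57) (nat_lit 4) (nat_lit 477) (nat_lit 451) (nat_lit 272)) (XT.lf (nat_lit 0) (nat_lit 256546302162) (nat_lit 76) (nat_lit 394975791429) (nat_lit 152) (nat_lit 29265683149) (nat_lit 55) (nat_lit 5) (nat_lit 56) (nat_lit 5) (nat_lit 57) (nat_lit 4) (nat_lit 478) (nat_lit 451) (nat_lit 271)))))) (XT.nd (nat_lit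 546) (nat_lit 608) (nat_lit 0) (XT.nd (nat_lit 234) (nat_lit 304) (nat_lit 0) (XT.nd (nat_lit 78) (nat_lit 228) (nat_lit 0) (XT.lf (nat_lit 0) (nat_lit 147444684702) (nat_lit 152) (nat_lit 6915883792) (nat_lit 76) (nat_lit 560713211286) (nat_lit 54) (nat_lit 5) (nat_lit 56) (nat_lit 5) (nat_lit 55) (nat_lit 5) (nat_lit 479) (nat_lit 451) (nat_lit 270)) (XT.nd (nat_lit 78) (nat_lit 76) (nat_lit 0) (XT.lf (nat_lit 0) (nat_lit 350775270538) (nat_lit 228) (nat_lit 287627996052) (nat_lit 76) (nat_lit 112513425016) (nat_lit 52) (nat_lit 5) (nat_lit 55) (nat_lit 5) (nat_lit 53) (nat_lit 4) (nat_lit 480) (nat_lit 451) (nat_lit 269)) (XT.lf (nat_lit 0) (nat_lit 187243378001) (nat_lit 76) (nat_lit 391835467671) (nat_lit 152) (nat_lit 209851667315) (nat_lit 51) (nat_lit 5) (nat_lit 52) (nat_lit 5) (nat_lit 53) (nat_lit 4) (nat_lit 481) (nat_lit 451) (nat_lit 268)))) (XT.nd (nat_lit 156) (nat_lit 76)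 (nat_lit 0) (XT.nd (nat_lit 78) (nat_lit 152) (nat_lit 0) (XT.lf (nat_lit 0) (nat_lit 3946798859) (nat_lit 152) (nat_lit 112994160360) (nat_lit 76) (nat_lit 712407349302) (nat_lit 50) (nat_lit 5) (nat_lit 52) (nat_lit 5) (nat_lit 51) (nat_lit 5) (nat_lit 482) (nat_lit 451) (nat_lit 267)) (XT.lf (nat_lit 0) (nat_lit 238613228453) (nat_lit 228) (nat_lit 445574051448) (nat_lit 76) (nat_lit 187168070237) (nat_lit 48) (nat_lit 5) (nat_lit 51) (nat_lit 5) (nat_lit 49) (nat_lit 4) (nat_lit 483) (nat_lit 451) (nat_lit 266))) (XT.nd (nat_lit 78) (nat_lit 0) (nat_lit 0) (XT.lf (nat_lit 0) (nat_lit 99467089713) (nat_lit 76) (nat_lit 401185170903) (nat_lit 152) (nat_lit 415382751414) (nat_lit 47) (nat_lit 5) (nat_lit 48) (nat_lit 5) (nat_lit 49) (nat_lit 4) (nat_lit 484) (nat_lit 451) (nat_lit 265)) (XT.lf (nat_lit 0) (nat_lit 713451656789) (nat_lit 76) (nat_lit 82385512205) (nat_lit 152) (nat_lit 167477257590)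 (nat_lit 47) (nat_lit 5) (nat_lit 48) (nat_lit 5) (nat_lit 49) (nat_lit 4) (nat_lit 485) (nat_lit 451) (nat_lit 264))))) (XT.nd (nat_lit 312) (nat_lit 304) (nat_lit 0) (XT.nd (nat_lit 156) (nat_lit 152) (nat_lit 0) (XT.nd (nat_lit 78) (nat_lit 0) (nat_lit 0) (XT.lf (nat_lit 0) (nat_lit 110951578155) (nat_lit 152) (nat_lit 641340804410) (nat_lit 76) (nat_lit 260634402205) (nat_lit 45) (nat_lit 5) (nat_lit 47) (nat_lit 5) (nat_lit 46) (nat_lit 4) (nat_lit 486) (nat_lit 451) (nat_lit 263)) (XT.lf (nat_lit 0) (nat_lit 411755590943) (nat_lit 152) (nat_lit 15668491428) (nat_lit 76) (nat_lit 638004125178) (nat_lit 45) (nat_lit 5) (nat_lit 47) (nat_lit 5) (nat_lit 46) (nat_lit 4) (nat_lit 487) (nat_lit 451) (nat_lit 262))) (XT.nd (nat_lit 78) (nat_lit 76) (nat_lit 0) (XT.lf (nat_lit 0) (nat_lit 694815017656) (nat_lit 76) (nat_lit 58519198389) (nat_lit 152) (nat_lit 367458704803) (nat_lit 44) (nat_lit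 5) (nat_lit 45) (nat_lit 5) (nat_lit 46) (nat_lit 4) (nat_lit 488) (nat_lit 451) (nat_lit 261)) (XT.lf (nat_lit 0) (nat_lit 288733641024) (nat_lit 76) (nat_lit 849063603408) (nat_lit 76) (nat_lit 41544917720) (nat_lit 43) (nat_lit 4) (nat_lit 44) (nat_lit 5) (nat_lit 44) (nat_lit 4) (nat_lit 489) (nat_lit 451) (nat_lit 260)))) (XT.nd (nat_lit 156) (nat_lit 152) (nat_lit 0) (XT.nd (nat_lit 78) (nat_lit 76) (nat_lit 0) (XT.lf (nat_lit 0) (nat_lit 308381870520) (nat_lit 152) (nat_lit 166084419716) (nat_lit 76) (nat_lit 766434204535) (nat_lit 42) (nat_lit 5) (nat_lit 44) (nat_lit 5) (nat_lit 43) (nat_lit 4) (nat_lit 490) (nat_lit 451) (nat_lit 259)) (XT.lf (nat_lit 0) (nat_lit 647724265344) (nat_lit 76) (nat_lit 51911791685) (nat_lit 152) (nat_lit 606414889081) (nat_lit 41) (nat_lit 5) (nat_lit 42) (nat_lit 5) (nat_lit 43) (nat_lit 4) (nat_lit 491) (nat_lit 451) (nat_lit 258))) (XT.nd (nat_lit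 78) (nat_lit 76) (nat_lit 0) (XT.lf (nat_lit 0) (nat_lit 158096534342) (nat_lit 76) (nat_lit 982282198641) (nat_lit 76) (nat_lit 234579648212) (nat_lit 40) (nat_lit 4) (nat_lit 41) (nat_lit 5) (nat_lit 41) (nat_lit 4) (nat_lit 492) (nat_lit 451) (nat_lit 257)) (XT.lf (nat_lit 0) (nat_lit 178463954944) (nat_lit 152) (nat_lit 376497542308) (nat_lit 76) (nat_lit 892510346472) (nat_lit 39) (nat_lit 5) (nat_lit 41) (nat_lit 5) (nat_lit 40) (nat_lit 4) (nat_lit 493) (nat_lit 451) (nat_lit 256))))))))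
noncomputable def xc198 : XT := (XT.nd (nat_lit 2184) (nat_lit 684) (nat_lit 0) (XT.nd (nat_lit 1092) (nat_lit 760) (nat_lit 0) (XT.nd (nat_lit 546) (nat_lit 456) (nat_lit 0) (XT.nd (nat_lit 234) (nat_lit 304) (nat_lit 0) (XT.nd (nat_lit 78) (nat_lit 152) (nat_lit 0) (XT.lf (nat_lit 0) (nat_lit 552648606758) (nat_lit 76) (nat_lit 72520235629) (nat_lit 152) (nat_lit 899066807435) (nat_lit 38) (nat_lit 5) (nat_lit 39) (nat_lit 5) (nat_lit 40) (nat_lit 4) (nat_lit 494) (nat_lit 451) (nat_lit 255)) (XT.nd (nat_lit 78) (nat_lit 152) (nat_lit 0) (XT.lf (nat_lit 0) (nat_lit 1128958416639) (nat_lit 152) (nat_lit 39833086600) (nat_lit 0) (nat_lit 436641193507) (nat_lit 38) (nat_lit 5) (nat_lit 40) (nat_lit 4) (nat_lit 38) (nat_lit 4) (nat_lit 495) (nat_lit 451) (nat_lit 254)) (XT.lf (nat_lit 0) (nat_lit 7916358084) (nat_lit 152) (nat_lit 675851211666) (nat_lit 76) (nat_lit 1007237640094) (nat_lit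 36) (nat_lit 5) (nat_lit 38) (nat_lit 5) (nat_lit 37) (nat_lit 4) (nat_lit 496) (nat_lit 451) (nat_lit 253)))) (XT.nd (nat_lit 156) (nat_lit 228) (nat_lit 0) (XT.nd (nat_lit 78) (nat_lit 0) (nat_lit 0) (XT.lf (nat_lit 0) (nat_lit 380077740884) (nat_lit 76) (nat_lit 135496773407) (nat_lit 152) (nat_lit 1266038272949) (nat_lit 35) (nat_lit 5) (nat_lit 36) (nat_lit 5) (nat_lit 37) (nat_lit 4) (nat_lit 497) (nat_lit 451) (nat_lit 252)) (XT.lf (nat_lit 0) (nat_lit 1093786344973) (nat_lit 152) (nat_lit 330535499392) (nat_lit 0) (nat_lit 452751844706) (nat_lit 35) (nat_lit 5) (nat_lit 37) (nat_lit 4) (nat_lit 35) (nat_lit 4) (nat_lit 498) (nat_lit 451) (nat_lit 251))) (XT.nd (nat_lit 78) (nat_lit 152) (nat_lit 0) (XT.lf (nat_lit 0) (nat_lit 865942529471) (nat_lit 76) (nat_lit 876657909167) (nat_lit 76) (nat_lit 235623399087) (nat_lit 34) (nat_lit 4) (nat_lit 35) (nat_lit 5) (nat_lit 35) (nat_lit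 4) (nat_lit 499) (nat_lit 451) (nat_lit 250)) (XT.lf (nat_lit 0) (nat_lit 85686988334) (nat_lit 76) (nat_lit 263698351810) (nat_lit 152) (nat_lit 1736489361400) (nat_lit 32) (nat_lit 5) (nat_lit 33) (nat_lit 5) (nat_lit 34) (nat_lit 4) (nat_lit 500) (nat_lit 451) (nat_lit 249))))) (XT.nd (nat_lit 234) (nat_lit 304) (nat_lit 0) (XT.nd (nat_lit 78) (nat_lit 152) (nat_lit 0) (XT.lf (nat_lit 0) (nat_lit 1009245709381) (nat_lit 152) (nat_lit 773444639981) (nat_lit 0) (nat_lit 415695220882) (nat_lit 32) (nat_lit 5) (nat_lit 34) (nat_lit 4) (nat_lit 32) (nat_lit 4) (nat_lit 501) (nat_lit 451) (nat_lit 248)) (XT.nd (nat_lit 78) (nat_lit 76) (nat_lit 0) (XT.lf (nat_lit 0) (nat_lit 573265603621) (nat_lit 76) (nat_lit 1169265646584) (nat_lit 76) (nat_lit 575715150872) (nat_lit 31) (nat_lit 4) (nat_lit 32) (nat_lit 5) (nat_lit 32) (nat_lit 4) (nat_lit 502) (nat_lit 451) (nat_lit 247)) (XT.lf (nat_lit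 0) (nat_lit 104138883520) (nat_lit 152) (nat_lit 376941624667) (nat_lit 76) (nat_lit 1964712889577) (nat_lit 30) (nat_lit 5) (nat_lit 32) (nat_lit 5) (nat_lit 31) (nat_lit 4) (nat_lit 503) (nat_lit 451) (nat_lit 246)))) (XT.nd (nat_lit 156) (nat_lit 152) (nat_lit 0) (XT.nd (nat_lit 78) (nat_lit 76) (nat_lit 0) (XT.lf (nat_lit 0) (nat_lit 842168064738) (nat_lit 152) (nat_lit 1444804306053) (nat_lit 0) (nat_lit 292584260503) (nat_lit 29) (nat_lit 5) (nat_lit 31) (nat_lit 4) (nat_lit 29) (nat_lit 4) (nat_lit 504) (nat_lit 451) (nat_lit 245)) (XT.lf (nat_lit 0) (nat_lit 55642510897) (nat_lit 76) (nat_lit 1608004801784) (nat_lit 76) (nat_lit 1058420992247) (nat_lit 28) (nat_lit 4) (nat_lit 29) (nat_lit 5) (nat_lit 29) (nat_lit 4) (nat_lit 505) (nat_lit 451) (nat_lit 244))) (XT.nd (nat_lit 78) (nat_lit 152) (nat_lit 0) (XT.lf (nat_lit 0) (nat_lit 1758292342746) (nat_lit 76) (nat_lit 832056052294)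 (nat_lit 76) (nat_lit 282472237848) (nat_lit 28) (nat_lit 4) (nat_lit 29) (nat_lit 5) (nat_lit 29) (nat_lit 4) (nat_lit 506) (nat_lit 451) (nat_lit 243)) (XT.lf (nat_lit 0) (nat_lit 542489925390) (nat_lit 152) (nat_lit 2457280039627) (nat_lit 0) (nat_lit 33616018917) (nat_lit 26) (nat_lit 5) (nat_lit 28) (nat_lit 4) (nat_lit 26) (nat_lit 4) (nat_lit 507) (nat_lit 451) (nat_lit 242)))))) (XT.nd (nat_lit 546) (nat_lit 304) (nat_lit 0) (XT.nd (nat_lit 234) (nat_lit 304) (nat_lit 0) (XT.nd (nat_lit 78) (nat_lit 152) (nat_lit 0) (XT.lf (nat_lit 0) (nat_lit 1471064744367) (nat_lit 152) (nat_lit 768723907763) (nat_lit 0) (nat_lit 962190833997) (nat_lit 26) (nat_lit 5) (nat_lit 28) (nat_lit 4) (nat_lit 26) (nat_lit 4) (nat_lit 508) (nat_lit 451) (nat_lit 241)) (XT.nd (nat_lit 78) (nat_lit 76) (nat_lit 0) (XT.lf (nat_lit 0) (nat_lit 1110466730104) (nat_lit 76) (nat_lit 1390165556669) (nat_lit 76)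 (nat_lit 881291642691) (nat_lit 25) (nat_lit 4) (nat_lit 26) (nat_lit 5) (nat_lit 26) (nat_lit 4) (nat_lit 509) (nat_lit 451) (nat_lit 240)) (XT.lf (nat_lit 0) (nat_lit 56049555527) (nat_lit 152) (nat_lit 392290841821) (nat_lit 76) (nat_lit 3126128551980) (nat_lit 24) (nat_lit 5) (nat_lit 26) (nat_lit 5) (nat_lit 25) (nat_lit 4) (nat_lit 510) (nat_lit 451) (nat_lit 239)))) (XT.nd (nat_lit 156) (nat_lit 228) (nat_lit 0) (XT.nd (nat_lit 78) (nat_lit 0) (nat_lit 0) (XT.lf (nat_lit 0) (nat_lit 1076970694931) (nat_lit 152) (nat_lit 2093328058719) (nat_lit 0) (nat_lit 605791138994) (nat_lit 23) (nat_lit 5) (nat_lit 25) (nat_lit 4) (nat_lit 23) (nat_lit 4) (nat_lit 511) (nat_lit 451) (nat_lit 238)) (XT.lf (nat_lit 0) (nat_lit 2202215240323) (nat_lit 152) (nat_lit 58777612181) (nat_lit 0) (nat_lit 1731035681733) (nat_lit 23) (nat_lit 5) (nat_lit 25) (nat_lit 4) (nat_lit 23) (nat_lit 4) (nat_lit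 512) (nat_lit 451) (nat_lit 237))) (XT.nd (nat_lit 78) (nat_lit 152) (nat_lit 0) (XT.lf (nat_lit 0) (nat_lit 2251148406718) (nat_lit 76) (nat_lit 1220471104276) (nat_lit 76) (nat_lit 749291543231) (nat_lit 22) (nat_lit 4) (nat_lit 23) (nat_lit 5) (nat_lit 23) (nat_lit 4) (nat_lit 513) (nat_lit 451) (nat_lit 236)) (XT.lf (nat_lit 0) (nat_lit 286520734832) (nat_lit 76) (nat_lit 77758254663) (nat_lit 152) (nat_lit 4102421529938) (nat_lit 20) (nat_lit 5) (nat_lit 21) (nat_lit 5) (nat_lit 22) (nat_lit 4) (nat_lit 514) (nat_lit 451) (nat_lit 235))))) (XT.nd (nat_lit 234) (nat_lit 228) (nat_lit 0) (XT.nd (nat_lit 78) (nat_lit 76) (nat_lit 0) (XT.lf (nat_lit 0) (nat_lit 1609520392547) (nat_lit 152) (nat_lit 1941187448061) (nat_lit 0) (nat_lit 1173243017154) (nat_lit 20) (nat_lit 5) (nat_lit 22) (nat_lit 4) (nat_lit 20) (nat_lit 4) (nat_lit 515) (nat_lit 451) (nat_lit 234)) (XT.nd (nat_lit 78) (nat_lit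 0) (nat_lit 0) (XT.lf (nat_lit 0) (nat_lit 499912190787) (nat_lit 76) (nat_lit 2468511501410) (nat_lit 76) (nat_lit 2032234124212) (nat_lit 19) (nat_lit 4) (nat_lit 20) (nat_lit 5) (nat_lit 20) (nat_lit 4) (nat_lit 516) (nat_lit 451) (nat_lit 233)) (XT.lf (nat_lit 0) (nat_lit 3246696829388) (nat_lit 76) (nat_lit 1242417920840) (nat_lit 76) (nat_lit 806140541971) (nat_lit 19) (nat_lit 4) (nat_lit 20) (nat_lit 5) (nat_lit 20) (nat_lit 4) (nat_lit 517) (nat_lit 451) (nat_lit 232)))) (XT.nd (nat_lit 156) (nat_lit 76) (nat_lit 0) (XT.nd (nat_lit 78) (nat_lit 0) (nat_lit 0) (XT.lf (nat_lit 0) (nat_lit 509671752672) (nat_lit 152) (nat_lit 4995637230273) (nat_lit 0) (nat_lit 105711215249) (nat_lit 17) (nat_lit 5) (nat_lit 19) (nat_lit 4) (nat_lit 17) (nat_lit 4) (nat_lit 518) (nat_lit 451) (nat_lit 231)) (XT.lf (nat_lit 0) (nat_lit 1976933143866) (nat_lit 152) (nat_lit 2393286519181) (nat_lit 0)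 (nat_lit 1572972605116) (nat_lit 17) (nat_lit 5) (nat_lit 19) (nat_lit 4) (nat_lit 17) (nat_lit 4) (nat_lit 519) (nat_lit 451) (nat_lit 230))) (XT.nd (nat_lit 78) (nat_lit 0) (nat_lit 0) (XT.lf (nat_lit 0) (nat_lit 439223992798) (nat_lit 76) (nat_lit 3132914791920) (nat_lit 76) (nat_lit 2728954251942) (nat_lit 16) (nat_lit 4) (nat_lit 17) (nat_lit 5) (nat_lit 17) (nat_lit 4) (nat_lit 520) (nat_lit 451) (nat_lit 229)) (XT.lf (nat_lit 0) (nat_lit 3634443652207) (nat_lit 76) (nat_lit 1725953910344) (nat_lit 76) (nat_lit 1321993369229) (nat_lit 16) (nat_lit 4) (nat_lit 17) (nat_lit 5) (nat_lit 17) (nat_lit 4) (nat_lit 521) (nat_lit 451) (nat_lit 228))))))) (XT.nd (nat_lit 1092) (nat_lit 76) (nat_lit 0) (XT.nd (nat_lit 546) (nat_lit 228) (nat_lit 0) (XT.nd (nat_lit 234) (nat_lit 228) (nat_lit 0) (XT.nd (nat_lit 78) (nat_lit 76) (nat_lit 0) (XT.lf (nat_lit 0) (nat_lit 187643405890) (nat_lit 152)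 (nat_lit 13662257916) (nat_lit 76) (nat_lit 6892506958092) (nat_lit 15) (nat_lit 5) (nat_lit 17) (nat_lit 5) (nat_lit 16) (nat_lit 4) (nat_lit 522) (nat_lit 451) (nat_lit 227)) (XT.nd (nat_lit 78) (nat_lit 0) (nat_lit 0) (XT.lf (nat_lit 0) (nat_lit 1866151724121) (nat_lit 152) (nat_lit 4167573333280) (nat_lit 0) (nat_lit 1492114184173) (nat_lit 14) (nat_lit 5) (nat_lit 16) (nat_lit 4) (nat_lit 14) (nat_lit 4) (nat_lit 523) (nat_lit 451) (nat_lit 226)) (XT.lf (nat_lit 0) (nat_lit 3684552671401) (nat_lit 152) (nat_lit 996911231720) (nat_lit 0) (nat_lit 3310515130616) (nat_lit 14) (nat_lit 5) (nat_lit 16) (nat_lit 4) (nat_lit 14) (nat_lit 4) (nat_lit 524) (nat_lit 451) (nat_lit 225)))) (XT.nd (nat_lit 156) (nat_lit 152) (nat_lit 0) (XT.nd (nat_lit 78) (nat_lit 0) (nat_lit 0) (XT.lf (nat_lit 0) (nat_lit 2555226606465) (nat_lit 76) (nat_lit 3154652342022) (nat_lit 76) (nat_lit 2780614800464)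 (nat_lit 13) (nat_lit 4) (nat_lit 14) (nat_lit 5) (nat_lit 14) (nat_lit 4) (nat_lit 525) (nat_lit 451) (nat_lit 224)) (XT.lf (nat_lit 0) (nat_lit 6448230682090) (nat_lit 76) (nat_lit 1476257958278) (nat_lit 76) (nat_lit 1102220416003) (nat_lit 13) (nat_lit 4) (nat_lit 14) (nat_lit 5) (nat_lit 14) (nat_lit 4) (nat_lit 526) (nat_lit 451) (nat_lit 223))) (XT.nd (nat_lit 78) (nat_lit 0) (nat_lit 0) (XT.lf (nat_lit 0) (nat_lit 710187769512) (nat_lit 152) (nat_lit 8527587680094) (nat_lit 0) (nat_lit 363856711235) (nat_lit 11) (nat_lit 5) (nat_lit 13) (nat_lit 4) (nat_lit 11) (nat_lit 4) (nat_lit 527) (nat_lit 451) (nat_lit 222)) (XT.lf (nat_lit 0) (nat_lit 2718715775501) (nat_lit 152) (nat_lit 5120304237599) (nat_lit 0) (nat_lit 2372384716655) (nat_lit 11) (nat_lit 5) (nat_lit 13) (nat_lit 4) (nat_lit 11) (nat_lit 4) (nat_lit 528) (nat_lit 451) (nat_lit 221))))) (XT.nd (nat_lit 234) (nat_lit 152)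 (nat_lit 0) (XT.nd (nat_lit 78) (nat_lit 76) (nat_lit 0) (XT.lf (nat_lit 0) (nat_lit 4887926015705) (nat_lit 152) (nat_lit 1440438132646) (nat_lit 0) (nat_lit 4541594956333) (nat_lit 11) (nat_lit 5) (nat_lit 13) (nat_lit 4) (nat_lit 11) (nat_lit 4) (nat_lit 529) (nat_lit 451) (nat_lit 220)) (XT.nd (nat_lit 78) (nat_lit 0) (nat_lit 0) (XT.lf (nat_lit 0) (nat_lit 2667243574730) (nat_lit 76) (nat_lit 4627576766715) (nat_lit 76) (nat_lit 4281245706855) (nat_lit 10) (nat_lit 4) (nat_lit 11) (nat_lit 5) (nat_lit 11) (nat_lit 4) (nat_lit 530) (nat_lit 451) (nat_lit 219)) (XT.lf (nat_lit 0) (nat_lit 7185458799961) (nat_lit 76) (nat_lit 2748191538856) (nat_lit 76) (nat_lit 2401860478544) (nat_lit 10) (nat_lit 4) (nat_lit 11) (nat_lit 5) (nat_lit 11) (nat_lit 4) (nat_lit 531) (nat_lit 451) (nat_lit 218)))) (XT.nd (nat_lit 156) (nat_lit 0) (nat_lit 0) (XT.nd (nat_lit 78) (nat_lit 152) (nat_lit 0) (XT.lf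 (nat_lit 0) (nat_lit 12065131232396) (nat_lit 76) (nat_lit 718455498350) (nat_lit 76) (nat_lit 372124437619) (nat_lit 10) (nat_lit 4) (nat_lit 11) (nat_lit 5) (nat_lit 11) (nat_lit 4) (nat_lit 532) (nat_lit 451) (nat_lit 217)) (XT.lf (nat_lit 0) (nat_lit 1849938079055) (nat_lit 152) (nat_lit 10649147361574) (nat_lit 0) (nat_lit 1529261170613) (nat_lit 8) (nat_lit 5) (nat_lit 10) (nat_lit 4) (nat_lit 8) (nat_lit 4) (nat_lit 533) (nat_lit 451) (nat_lit 216))) (XT.nd (nat_lit 78) (nat_lit 0) (nat_lit 0) (XT.lf (nat_lit 0) (nat_lit 4278915280382) (nat_lit 152) (nat_lit 6728925666494) (nat_lit 0) (nat_lit 3958238371608) (nat_lit 8) (nat_lit 5) (nat_lit 10) (nat_lit 4) (nat_lit 8) (nat_lit 4) (nat_lit 534) (nat_lit 451) (nat_lit 215)) (XT.lf (nat_lit 0) (nat_lit 6902210653215) (nat_lit 152) (nat_lit 2495086245323) (nat_lit 0) (nat_lit 6581533744133) (nat_lit 8) (nat_lit 5) (nat_lit 10) (nat_lit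 4) (nat_lit 8) (nat_lit 4) (nat_lit 535) (nat_lit 451) (nat_lit 214)))))) (XT.nd (nat_lit 56160) (nat_lit 0) (nat_lit 5472) (XT.nd (nat_lit 234) (nat_lit 0) (nat_lit 0) (XT.nd (nat_lit 78) (nat_lit 0) (nat_lit 0) (XT.lf (nat_lit 0) (nat_lit 2186855699645) (nat_lit 76) (nat_lit 7601107884142) (nat_lit 76) (nat_lit 7280430974775) (nat_lit 7) (nat_lit 4) (nat_lit 8) (nat_lit 5) (nat_lit 8) (nat_lit 4) (nat_lit 536) (nat_lit 451) (nat_lit 213)) (XT.nd (nat_lit 78) (nat_lit 0) (nat_lit 0) (XT.lf (nat_lit 0) (nat_lit 7385250757230) (nat_lit 76) (nat_lit 5587546067043) (nat_lit 76) (nat_lit 5266869157413) (nat_lit 7) (nat_lit 4) (nat_lit 8) (nat_lit 5) (nat_lit 8) (nat_lit 4) (nat_lit 537) (nat_lit 451) (nat_lit 212)) (XT.lf (nat_lit 0) (nat_lit 12999517411471) (nat_lit 76) (nat_lit 3412899308685) (nat_lit 76) (nat_lit 3092222398811) (nat_lit 7) (nat_lit 4) (nat_lit 8) (nat_lit 5) (nat_lit 8) (nat_lit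 4) (nat_lit 538) (nat_lit 451) (nat_lit 211)))) (XT.nd (nat_lit 55770) (nat_lit 0) (nat_lit 6004) (XT.nd (nat_lit 55692) (nat_lit 0) (nat_lit 6536) (XT.lf (nat_lit 0) (nat_lit 19062925390689) (nat_lit 76) (nat_lit 1064280813463) (nat_lit 76) (nat_lit 743603903364) (nat_lit 7) (nat_lit 4) (nat_lit 8) (nat_lit 5) (nat_lit 8) (nat_lit 4) (nat_lit 539) (nat_lit 451) (nat_lit 210)) (XT.lf (nat_lit 0) (nat_lit 109578569958) (nat_lit 532) (nat_lit 733959221) (nat_lit 532) (nat_lit 733959221) (nat_lit 93) (nat_lit 3) (nat_lit 100) (nat_lit 3) (nat_lit 100) (nat_lit 5) (nat_lit 452) (nat_lit 452) (nat_lit 296))) (XT.nd (nat_lit 78) (nat_lit 532) (nat_lit 0) (XT.lf (nat_lit 76) (nat_lit 114881429519) (nat_lit 0) (nat_lit 115806149916) (nat_lit 532) (nat_lit 67983956) (nat_lit 94) (nat_lit 5) (nat_lit 93) (nat_lit 3) (nat_lit 100) (nat_lit 5) (nat_lit 453) (nat_lit 452) (nat_lit 295)) (XT.lf (nat_lit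 76) (nat_lit 463470452) (nat_lit 0) (nat_lit 2466483118) (nat_lit 608) (nat_lit 237171199455) (nat_lit 87) (nat_lit 5) (nat_lit 86) (nat_lit 5) (nat_lit 94) (nat_lit 5) (nat_lit 454) (nat_lit 452) (nat_lit 294))))) (XT.nd (nat_lit 312) (nat_lit 608) (nat_lit 0) (XT.nd (nat_lit 156) (nat_lit 0) (nat_lit 76) (XT.nd (nat_lit 78) (nat_lit 0) (nat_lit 0) (XT.lf (nat_lit 0) (nat_lit 12298995428) (nat_lit 532) (nat_lit 120211698104) (nat_lit 608) (nat_lit 117192759668) (nat_lit 87) (nat_lit 5) (nat_lit 94) (nat_lit 5) (nat_lit 95) (nat_lit 5) (nat_lit 455) (nat_lit 452) (nat_lit 293)) (XT.lf (nat_lit 76) (nat_lit 9162568785) (nat_lit 0) (nat_lit 13539303912) (nat_lit 608) (nat_lit 237349319740) (nat_lit 88) (nat_lit 5) (nat_lit 87) (nat_lit 5) (nat_lit 95) (nat_lit 5) (nat_lit 456) (nat_lit 452) (nat_lit 292))) (XT.nd (nat_lit 78) (nat_lit 0) (nat_lit 0) (XT.lf (nat_lit 0) (nat_lit 40073592504)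 (nat_lit 532) (nat_lit 118090488511) (nat_lit 608) (nat_lit 112571740823) (nat_lit 88) (nat_lit 5) (nat_lit 95) (nat_lit 5) (nat_lit 96) (nat_lit 5) (nat_lit 457) (nat_lit 452) (nat_lit 291)) (XT.lf (nat_lit 76) (nat_lit 26295135115) (nat_lit 0) (nat_lit 33523886110) (nat_lit 608) (nat_lit 222377482671) (nat_lit 89) (nat_lit 5) (nat_lit 88) (nat_lit 5) (nat_lit 96) (nat_lit 5) (nat_lit 458) (nat_lit 452) (nat_lit 290)))) (XT.nd (nat_lit 156) (nat_lit 228) (nat_lit 0) (XT.nd (nat_lit 78) (nat_lit 532) (nat_lit 0) (XT.lf (nat_lit 0) (nat_lit 86887817986) (nat_lit 532) (nat_lit 107883326213) (nat_lit 76) (nat_lit 99343397630) (nat_lit 89) (nat_lit 5) (nat_lit 96) (nat_lit 5) (nat_lit 90) (nat_lit 5) (nat_lit 459) (nat_lit 452) (nat_lit 289)) (XT.lf (nat_lit 0) (nat_lit 53796445074) (nat_lit 532) (nat_lit 64490144408) (nat_lit 608) (nat_lit 188526275646) (nat_lit 82) (nat_lit 5) (nat_lit 89)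 (nat_lit 5) (nat_lit 90) (nat_lit 5) (nat_lit 460) (nat_lit 452) (nat_lit 288))) (XT.nd (nat_lit 78) (nat_lit 228) (nat_lit 0) (XT.lf (nat_lit 0) (nat_lit 157056452088) (nat_lit 608) (nat_lit 87654691788) (nat_lit 76) (nat_lit 75427175271) (nat_lit 82) (nat_lit 5) (nat_lit 90) (nat_lit 5) (nat_lit 83) (nat_lit 5) (nat_lit 461) (nat_lit 452) (nat_lit 287)) (XT.lf (nat_lit 0) (nat_lit 93961144394) (nat_lit 228) (nat_lit 108901521127) (nat_lit 304) (nat_lit 131352363030) (nat_lit 79) (nat_lit 5) (nat_lit 82) (nat_lit 5) (nat_lit 83) (nat_lit 5) (nat_lit 462) (nat_lit 452) (nat_lit 286))))))))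
noncomputable def xc199 : XT := (XT.nd (nat_lit 2184) (nat_lit 1976) (nat_lit 0) (XT.nd (nat_lit 1092) (nat_lit 1140) (nat_lit 0) (XT.nd (nat_lit 546) (nat_lit 684) (nat_lit 0) (XT.nd (nat_lit 234) (nat_lit 608) (nat_lit 0) (XT.nd (nat_lit 78) (nat_lit 304) (nat_lit 0) (XT.lf (nat_lit 0) (nat_lit 255700628257) (nat_lit 304) (nat_lit 55105667394) (nat_lit 76) (nat_lit 38342198886) (nat_lit 79) (nat_lit 5) (nat_lit 83) (nat_lit 5) (nat_lit 80) (nat_lit 5) (nat_lit 463) (nat_lit 452) (nat_lit 285)) (XT.nd (nat_lit 78) (nat_lit 76) (nat_lit 0) (XT.lf (nat_lit 0) (nat_lit 149504542364) (nat_lit 228) (nat_lit 169685218592) (nat_lit 304) (nat_lit 45572946217) (nat_lit 76) (nat_lit 5) (nat_lit 79) (nat_lit 5) (nat_lit 80) (nat_lit 5) (nat_lit 464) (nat_lit 452) (nat_lit 284)) (XT.lf (nat_lit 0) (nat_lit 7370978545) (nat_lit 304) (nat_lit 8074731122) (nat_lit 76) (nat_lit 366044888688) (nat_lit 75)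 (nat_lit 5) (nat_lit 79) (nat_lit 5) (nat_lit 76) (nat_lit 5) (nat_lit 465) (nat_lit 452) (nat_lit 283)))) (XT.nd (nat_lit 156) (nat_lit 152) (nat_lit 0) (XT.nd (nat_lit 78) (nat_lit 228) (nat_lit 0) (XT.lf (nat_lit 0) (nat_lit 71325149679) (nat_lit 304) (nat_lit 177039383439) (nat_lit 76) (nat_lit 150358542271) (nat_lit 72) (nat_lit 5) (nat_lit 76) (nat_lit 5) (nat_lit 73) (nat_lit 5) (nat_lit 466) (nat_lit 452) (nat_lit 282)) (XT.lf (nat_lit 0) (nat_lit 55326160198) (nat_lit 228) (nat_lit 87027731797) (nat_lit 304) (nat_lit 274823599597) (nat_lit 69) (nat_lit 5) (nat_lit 72) (nat_lit 5) (nat_lit 73) (nat_lit 5) (nat_lit 467) (nat_lit 452) (nat_lit 281))) (XT.nd (nat_lit 78) (nat_lit 152) (nat_lit 0) (XT.lf (nat_lit 0) (nat_lit 226128725388) (nat_lit 304) (nat_lit 122595034180) (nat_lit 76) (nat_lit 87819398192) (nat_lit 69) (nat_lit 5) (nat_lit 73) (nat_lit 5) (nat_lit 70) (nat_lit 5)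 (nat_lit 468) (nat_lit 452) (nat_lit 280)) (XT.lf (nat_lit 0) (nat_lit 140573280377) (nat_lit 152) (nat_lit 181673465377) (nat_lit 228) (nat_lit 134760035450) (nat_lit 67) (nat_lit 5) (nat_lit 69) (nat_lit 5) (nat_lit 70) (nat_lit 5) (nat_lit 469) (nat_lit 452) (nat_lit 279))))) (XT.nd (nat_lit 234) (nat_lit 304) (nat_lit 0) (XT.nd (nat_lit 78) (nat_lit 380) (nat_lit 0) (XT.lf (nat_lit 0) (nat_lit 429462905352) (nat_lit 228) (nat_lit 47129042794) (nat_lit 76) (nat_lit 2242850571) (nat_lit 67) (nat_lit 5) (nat_lit 70) (nat_lit 5) (nat_lit 68) (nat_lit 5) (nat_lit 470) (nat_lit 452) (nat_lit 278)) (XT.nd (nat_lit 78) (nat_lit 152) (nat_lit 0) (XT.lf (nat_lit 0) (nat_lit 51753030928) (nat_lit 228) (nat_lit 251271430653) (nat_lit 76) (nat_lit 198418227661) (nat_lit 64) (nat_lit 5) (nat_lit 67) (nat_lit 5) (nat_lit 65) (nat_lit 5) (nat_lit 471) (nat_lit 452) (nat_lit 277)) (XT.lf (nat_lit 0)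 (nat_lit 49331571418) (nat_lit 152) (nat_lit 111477454996) (nat_lit 228) (nat_lit 364746918300) (nat_lit 62) (nat_lit 5) (nat_lit 64) (nat_lit 5) (nat_lit 65) (nat_lit 5) (nat_lit 472) (nat_lit 452) (nat_lit 276)))) (XT.nd (nat_lit 156) (nat_lit 152) (nat_lit 0) (XT.nd (nat_lit 78) (nat_lit 152) (nat_lit 0) (XT.lf (nat_lit 0) (nat_lit 287932322256) (nat_lit 228) (nat_lit 165248528791) (nat_lit 76) (nat_lit 97669983925) (nat_lit 62) (nat_lit 5) (nat_lit 65) (nat_lit 5) (nat_lit 63) (nat_lit 5) (nat_lit 473) (nat_lit 452) (nat_lit 275)) (XT.lf (nat_lit 0) (nat_lit 176541102129) (nat_lit 152) (nat_lit 255825675092) (nat_lit 228) (nat_lit 145231235593) (nat_lit 60) (nat_lit 5) (nat_lit 62) (nat_lit 5) (nat_lit 63) (nat_lit 5) (nat_lit 474) (nat_lit 452) (nat_lit 274))) (XT.nd (nat_lit 78) (nat_lit 152) (nat_lit 0) (XT.lf (nat_lit 0) (nat_lit 555071671632) (nat_lit 152) (nat_lit 37802465482)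 (nat_lit 228) (nat_lit 13249375890) (nat_lit 60) (nat_lit 5) (nat_lit 62) (nat_lit 5) (nat_lit 63) (nat_lit 5) (nat_lit 475) (nat_lit 452) (nat_lit 273)) (XT.lf (nat_lit 0) (nat_lit 136069424756) (nat_lit 152) (nat_lit 300176739115) (nat_lit 76) (nat_lit 199376448886) (nat_lit 58) (nat_lit 5) (nat_lit 60) (nat_lit 5) (nat_lit 59) (nat_lit 5) (nat_lit 476) (nat_lit 452) (nat_lit 272)))))) (XT.nd (nat_lit 546) (nat_lit 532) (nat_lit 0) (XT.nd (nat_lit 234) (nat_lit 380) (nat_lit 0) (XT.nd (nat_lit 78) (nat_lit 76) (nat_lit 0) (XT.lf (nat_lit 0) (nat_lit 91617539041) (nat_lit 152) (nat_lit 209617733500) (nat_lit 228) (nat_lit 365849448499) (nat_lit 56) (nat_lit 5) (nat_lit 58) (nat_lit 5) (nat_lit 59) (nat_lit 5) (nat_lit 477) (nat_lit 452) (nat_lit 271)) (XT.nd (nat_lit 78) (nat_lit 76) (nat_lit 0) (XT.lf (nat_lit 0) (nat_lit 488880036033) (nat_lit 228) (nat_lit 169638912804) (nat_lit 76)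 (nat_lit 41803597319) (nat_lit 56) (nat_lit 5) (nat_lit 59) (nat_lit 5) (nat_lit 57) (nat_lit 4) (nat_lit 478) (nat_lit 452) (nat_lit 270)) (XT.lf (nat_lit 0) (nat_lit 277071166874) (nat_lit 76) (nat_lit 426573365436) (nat_lit 152) (nat_lit 31606212837) (nat_lit 55) (nat_lit 5) (nat_lit 56) (nat_lit 5) (nat_lit 57) (nat_lit 4) (nat_lit 479) (nat_lit 452) (nat_lit 269)))) (XT.nd (nat_lit 156) (nat_lit 152) (nat_lit 0) (XT.nd (nat_lit 78) (nat_lit 152) (nat_lit 0) (XT.lf (nat_lit 0) (nat_lit 159240897163) (nat_lit 152) (nat_lit 7468046313) (nat_lit 76) (nat_lit 605570687642) (nat_lit 54) (nat_lit 5) (nat_lit 56) (nat_lit 5) (nat_lit 55) (nat_lit 5) (nat_lit 480) (nat_lit 452) (nat_lit 268)) (XT.lf (nat_lit 0) (nat_lit 378837919759) (nat_lit 228) (nat_lit 310637117420) (nat_lit 76) (nat_lit 121514939523) (nat_lit 52) (nat_lit 5) (nat_lit 55) (nat_lit 5) (nat_lit 53) (nat_lit 4) (nat_lit 481)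 (nat_lit 452) (nat_lit 267))) (XT.nd (nat_lit 78) (nat_lit 76) (nat_lit 0) (XT.lf (nat_lit 0) (nat_lit 202223938246) (nat_lit 76) (nat_lit 423181822385) (nat_lit 152) (nat_lit 226639144785) (nat_lit 51) (nat_lit 5) (nat_lit 52) (nat_lit 5) (nat_lit 53) (nat_lit 4) (nat_lit 482) (nat_lit 452) (nat_lit 266)) (XT.lf (nat_lit 0) (nat_lit 4263119716) (nat_lit 152) (nat_lit 122032653522) (nat_lit 76) (nat_lit 769400353787) (nat_lit 50) (nat_lit 5) (nat_lit 52) (nat_lit 5) (nat_lit 51) (nat_lit 5) (nat_lit 483) (nat_lit 452) (nat_lit 265))))) (XT.nd (nat_lit 234) (nat_lit 304) (nat_lit 0) (XT.nd (nat_lit 78) (nat_lit 76) (nat_lit 0) (XT.lf (nat_lit 0) (nat_lit 257702856249) (nat_lit 228) (nat_lit 481218928448) (nat_lit 76) (nat_lit 202141947871) (nat_lit 48) (nat_lit 5) (nat_lit 51) (nat_lit 5) (nat_lit 49) (nat_lit 4) (nat_lit 484) (nat_lit 452) (nat_lit 264)) (XT.nd (nat_lit 78) (nat_lit 0) (nat_lit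 0) (XT.lf (nat_lit 0) (nat_lit 107425477497) (nat_lit 76) (nat_lit 433279515846) (nat_lit 152) (nat_lit 448612775480) (nat_lit 47) (nat_lit 5) (nat_lit 48) (nat_lit 5) (nat_lit 49) (nat_lit 4) (nat_lit 485) (nat_lit 452) (nat_lit 263)) (XT.lf (nat_lit 0) (nat_lit 770528734338) (nat_lit 76) (nat_lit 88975919173) (nat_lit 152) (nat_lit 180874886301) (nat_lit 47) (nat_lit 5) (nat_lit 48) (nat_lit 5) (nat_lit 49) (nat_lit 4) (nat_lit 486) (nat_lit 452) (nat_lit 262)))) (XT.nd (nat_lit 156) (nat_lit 152) (nat_lit 0) (XT.nd (nat_lit 78) (nat_lit 0) (nat_lit 0) (XT.lf (nat_lit 0) (nat_lit 119828223235) (nat_lit 152) (nat_lit 692647090657) (nat_lit 76) (nat_lit 281485572139) (nat_lit 45) (nat_lit 5) (nat_lit 47) (nat_lit 5) (nat_lit 46) (nat_lit 4) (nat_lit 487) (nat_lit 452) (nat_lit 261)) (XT.lf (nat_lit 0) (nat_lit 444696518614) (nat_lit 152) (nat_lit 16921065089) (nat_lit 76) (nat_lit 689044842005)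 (nat_lit 45) (nat_lit 5) (nat_lit 47) (nat_lit 5) (nat_lit 46) (nat_lit 4) (nat_lit 488) (nat_lit 452) (nat_lit 260))) (XT.nd (nat_lit 78) (nat_lit 76) (nat_lit 0) (XT.lf (nat_lit 0) (nat_lit 750401101795) (nat_lit 76) (nat_lit 63200317575) (nat_lit 152) (nat_lit 396854897852) (nat_lit 44) (nat_lit 5) (nat_lit 45) (nat_lit 5) (nat_lit 46) (nat_lit 4) (nat_lit 489) (nat_lit 452) (nat_lit 259)) (XT.lf (nat_lit 0) (nat_lit 311833219269) (nat_lit 76) (nat_lit 916988266847) (nat_lit 76) (nat_lit 44868012026) (nat_lit 43) (nat_lit 4) (nat_lit 44) (nat_lit 5) (nat_lit 44) (nat_lit 4) (nat_lit 490) (nat_lit 452) (nat_lit 258))))))) (XT.nd (nat_lit 1092) (nat_lit 988) (nat_lit 0) (XT.nd (nat_lit 546) (nat_lit 456) (nat_lit 0) (XT.nd (nat_lit 234) (nat_lit 304) (nat_lit 0) (XT.nd (nat_lit 78) (nat_lit 152) (nat_lit 0) (XT.lf (nat_lit 0) (nat_lit 333052859183) (nat_lit 152) (nat_lit 179370328903) (nat_lit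 76) (nat_lit 827749311134) (nat_lit 42) (nat_lit 5) (nat_lit 44) (nat_lit 5) (nat_lit 43) (nat_lit 4) (nat_lit 491) (nat_lit 452) (nat_lit 257)) (XT.nd (nat_lit 78) (nat_lit 76) (nat_lit 0) (XT.lf (nat_lit 0) (nat_lit 699543029584) (nat_lit 76) (nat_lit 56064338303) (nat_lit 152) (nat_lit 654927619799) (nat_lit 41) (nat_lit 5) (nat_lit 42) (nat_lit 5) (nat_lit 43) (nat_lit 4) (nat_lit 492) (nat_lit 452) (nat_lit 256)) (XT.lf (nat_lit 0) (nat_lit 170745083216) (nat_lit 76) (nat_lit 1060864371826) (nat_lit 76) (nat_lit 253345562766) (nat_lit 40) (nat_lit 4) (nat_lit 41) (nat_lit 5) (nat_lit 41) (nat_lit 4) (nat_lit 493) (nat_lit 452) (nat_lit 255)))) (XT.nd (nat_lit 156) (nat_lit 152) (nat_lit 0) (XT.nd (nat_lit 78) (nat_lit 76) (nat_lit 0) (XT.lf (nat_lit 0) (nat_lit 192741473586) (nat_lit 152) (nat_lit 406616559571) (nat_lit 76) (nat_lit 963911525877) (nat_lit 39) (nat_lit 5) (nat_lit 41)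 (nat_lit 5) (nat_lit 40) (nat_lit 4) (nat_lit 494) (nat_lit 452) (nat_lit 254)) (XT.lf (nat_lit 0) (nat_lit 596861261519) (nat_lit 76) (nat_lit 78321479139) (nat_lit 152) (nat_lit 970991729874) (nat_lit 38) (nat_lit 5) (nat_lit 39) (nat_lit 5) (nat_lit 40) (nat_lit 4) (nat_lit 495) (nat_lit 452) (nat_lit 253))) (XT.nd (nat_lit 78) (nat_lit 152) (nat_lit 0) (XT.lf (nat_lit 0) (nat_lit 1219275460253) (nat_lit 152) (nat_lit 43019003464) (nat_lit 0) (nat_lit 471572819141) (nat_lit 38) (nat_lit 5) (nat_lit 40) (nat_lit 4) (nat_lit 38) (nat_lit 4) (nat_lit 496) (nat_lit 452) (nat_lit 252)) (XT.lf (nat_lit 0) (nat_lit 8550036054) (nat_lit 152) (nat_lit 729918577563) (nat_lit 76) (nat_lit 1087816983463) (nat_lit 36) (nat_lit 5) (nat_lit 38) (nat_lit 5) (nat_lit 37) (nat_lit 4) (nat_lit 497) (nat_lit 452) (nat_lit 251))))) (XT.nd (nat_lit 234) (nat_lit 304) (nat_lit 0) (XT.nd (nat_lit 78) (nat_lit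 76) (nat_lit 0) (XT.lf (nat_lit 0) (nat_lit 410484672683) (nat_lit 76) (nat_lit 146336161854) (nat_lit 152) (nat_lit 1367320946949) (nat_lit 35) (nat_lit 5) (nat_lit 36) (nat_lit 5) (nat_lit 37) (nat_lit 4) (nat_lit 498) (nat_lit 452) (nat_lit 250)) (XT.nd (nat_lit 78) (nat_lit 76) (nat_lit 0) (XT.lf (nat_lit 0) (nat_lit 1181289592944) (nat_lit 152) (nat_lit 356977660860) (nat_lit 0) (nat_lit 488972303158) (nat_lit 35) (nat_lit 5) (nat_lit 37) (nat_lit 4) (nat_lit 35) (nat_lit 4) (nat_lit 499) (nat_lit 452) (nat_lit 249)) (XT.lf (nat_lit 0) (nat_lit 935218593135) (nat_lit 76) (nat_lit 946790211658) (nat_lit 76) (nat_lit 254472913460) (nat_lit 34) (nat_lit 4) (nat_lit 35) (nat_lit 5) (nat_lit 35) (nat_lit 4) (nat_lit 500) (nat_lit 452) (nat_lit 248)))) (XT.nd (nat_lit 156) (nat_lit 152) (nat_lit 0) (XT.nd (nat_lit 78) (nat_lit 0) (nat_lit 0) (XT.lf (nat_lit 0) (nat_lit 92542609402) (nat_lit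 76) (nat_lit 284793888381) (nat_lit 152) (nat_lit 1875408153446) (nat_lit 32) (nat_lit 5) (nat_lit 33) (nat_lit 5) (nat_lit 34) (nat_lit 4) (nat_lit 501) (nat_lit 452) (nat_lit 247)) (XT.lf (nat_lit 0) (nat_lit 1089985679468) (nat_lit 152) (nat_lit 835319581119) (nat_lit 0) (nat_lit 448951130207) (nat_lit 32) (nat_lit 5) (nat_lit 34) (nat_lit 4) (nat_lit 32) (nat_lit 4) (nat_lit 502) (nat_lit 452) (nat_lit 246))) (XT.nd (nat_lit 78) (nat_lit 76) (nat_lit 0) (XT.lf (nat_lit 0) (nat_lit 619127466020) (nat_lit 76) (nat_lit 1262806589096) (nat_lit 76) (nat_lit 621772033652) (nat_lit 31) (nat_lit 4) (nat_lit 32) (nat_lit 5) (nat_lit 32) (nat_lit 4) (nat_lit 503) (nat_lit 452) (nat_lit 245)) (XT.lf (nat_lit 0) (nat_lit 112470283847) (nat_lit 152) (nat_lit 407096370766) (nat_lit 76) (nat_lit 2121890191798) (nat_lit 30) (nat_lit 5) (nat_lit 32) (nat_lit 5) (nat_lit 31) (nat_lit 4) (nat_lit 504)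 (nat_lit 452) (nat_lit 244)))))) (XT.nd (nat_lit 546) (nat_lit 532) (nat_lit 0) (XT.nd (nat_lit 234) (nat_lit 304) (nat_lit 0) (XT.nd (nat_lit 78) (nat_lit 76) (nat_lit 0) (XT.lf (nat_lit 0) (nat_lit 909541798702) (nat_lit 152) (nat_lit 1560388065799) (nat_lit 0) (nat_lit 315991274192) (nat_lit 29) (nat_lit 5) (nat_lit 31) (nat_lit 4) (nat_lit 29) (nat_lit 4) (nat_lit 505) (nat_lit 452) (nat_lit 243)) (XT.nd (nat_lit 78) (nat_lit 0) (nat_lit 0) (XT.lf (nat_lit 0) (nat_lit 60094481704) (nat_lit 76) (nat_lit 1736644897092) (nat_lit 76) (nat_lit 1143094368036) (nat_lit 28) (nat_lit 4) (nat_lit 29) (nat_lit 5) (nat_lit 29) (nat_lit 4) (nat_lit 506) (nat_lit 452) (nat_lit 242)) (XT.lf (nat_lit 0) (nat_lit 1898956257884) (nat_lit 76) (nat_lit 898620269038) (nat_lit 76) (nat_lit 305069735773) (nat_lit 28) (nat_lit 4) (nat_lit 29) (nat_lit 5) (nat_lit 29) (nat_lit 4) (nat_lit 507) (nat_lit 452)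 (nat_lit 241)))) (XT.nd (nat_lit 156) (nat_lit 152) (nat_lit 0) (XT.nd (nat_lit 78) (nat_lit 0) (nat_lit 0) (XT.lf (nat_lit 0) (nat_lit 585889385829) (nat_lit 152) (nat_lit 2653861900380) (nat_lit 0) (nat_lit 36305555125) (nat_lit 26) (nat_lit 5) (nat_lit 28) (nat_lit 4) (nat_lit 26) (nat_lit 4) (nat_lit 508) (nat_lit 452) (nat_lit 240)) (XT.lf (nat_lit 0) (nat_lit 1588750170591) (nat_lit 152) (nat_lit 830221318146) (nat_lit 0) (nat_lit 1039166336545) (nat_lit 26) (nat_lit 5) (nat_lit 28) (nat_lit 4) (nat_lit 26) (nat_lit 4) (nat_lit 509) (nat_lit 452) (nat_lit 239))) (XT.nd (nat_lit 78) (nat_lit 76) (nat_lit 0) (XT.lf (nat_lit 0) (nat_lit 1199304558035) (nat_lit 76) (nat_lit 1501378551855) (nat_lit 76) (nat_lit 951794714716) (nat_lit 25) (nat_lit 4) (nat_lit 26) (nat_lit 5) (nat_lit 26) (nat_lit 4) (nat_lit 510) (nat_lit 452) (nat_lit 238)) (XT.lf (nat_lit 0) (nat_lit 60533748131) (nat_lit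 152) (nat_lit 423673643889) (nat_lit 76) (nat_lit 3376219055000) (nat_lit 24) (nat_lit 5) (nat_lit 26) (nat_lit 5) (nat_lit 25) (nat_lit 4) (nat_lit 511) (nat_lit 452) (nat_lit 237))))) (XT.nd (nat_lit 312) (nat_lit 228) (nat_lit 0) (XT.nd (nat_lit 156) (nat_lit 228) (nat_lit 0) (XT.nd (nat_lit 78) (nat_lit 0) (nat_lit 0) (XT.lf (nat_lit 0) (nat_lit 1163128578257) (nat_lit 152) (nat_lit 2260793837707) (nat_lit 0) (nat_lit 654254649872) (nat_lit 23) (nat_lit 5) (nat_lit 25) (nat_lit 4) (nat_lit 23) (nat_lit 4) (nat_lit 512) (nat_lit 452) (nat_lit 236)) (XT.lf (nat_lit 0) (nat_lit 2378392670411) (nat_lit 152) (nat_lit 63479389942) (nat_lit 0) (nat_lit 1869518739752) (nat_lit 23) (nat_lit 5) (nat_lit 25) (nat_lit 4) (nat_lit 23) (nat_lit 4) (nat_lit 513) (nat_lit 452) (nat_lit 235))) (XT.nd (nat_lit 78) (nat_lit 152) (nat_lit 0) (XT.lf (nat_lit 0) (nat_lit 2431240699551) (nat_lit 76) (nat_lit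 1318108577674) (nat_lit 76) (nat_lit 809234644910) (nat_lit 22) (nat_lit 4) (nat_lit 23) (nat_lit 5) (nat_lit 23) (nat_lit 4) (nat_lit 514) (nat_lit 452) (nat_lit 234)) (XT.lf (nat_lit 0) (nat_lit 309442814088) (nat_lit 76) (nat_lit 83978699758) (nat_lit 152) (nat_lit 4430615030725) (nat_lit 20) (nat_lit 5) (nat_lit 21) (nat_lit 5) (nat_lit 22) (nat_lit 4) (nat_lit 515) (nat_lit 452) (nat_lit 233)))) (XT.nd (nat_lit 156) (nat_lit 152) (nat_lit 0) (XT.nd (nat_lit 78) (nat_lit 76) (nat_lit 0) (XT.lf (nat_lit 0) (nat_lit 1738282218737) (nat_lit 152) (nat_lit 2096482044175) (nat_lit 0) (nat_lit 1267102647887) (nat_lit 20) (nat_lit 5) (nat_lit 22) (nat_lit 4) (nat_lit 20) (nat_lit 4) (nat_lit 516) (nat_lit 452) (nat_lit 232)) (XT.lf (nat_lit 0) (nat_lit 539905555661) (nat_lit 76) (nat_lit 2665992221641) (nat_lit 76) (nat_lit 2194812649243) (nat_lit 19) (nat_lit 4) (nat_lit 20) (nat_lit 5) (nat_lit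 20) (nat_lit 4) (nat_lit 517) (nat_lit 452) (nat_lit 231))) (XT.nd (nat_lit 78) (nat_lit 152) (nat_lit 0) (XT.lf (nat_lit 0) (nat_lit 3506432936489) (nat_lit 76) (nat_lit 1341811169430) (nat_lit 76) (nat_lit 870631595600) (nat_lit 19) (nat_lit 4) (nat_lit 20) (nat_lit 5) (nat_lit 20) (nat_lit 4) (nat_lit 518) (nat_lit 452) (nat_lit 230)) (XT.lf (nat_lit 0) (nat_lit 550445672908) (nat_lit 152) (nat_lit 5395287838237) (nat_lit 0) (nat_lit 114168288503) (nat_lit 17) (nat_lit 5) (nat_lit 19) (nat_lit 4) (nat_lit 17) (nat_lit 4) (nat_lit 519) (nat_lit 452) (nat_lit 229))))))))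
noncomputable def xc200 : XT := (XT.nd (nat_lit 57876) (nat_lit 0) (nat_lit 2888) (XT.nd (nat_lit 1092) (nat_lit 228) (nat_lit 0) (XT.nd (nat_lit 546) (nat_lit 228) (nat_lit 0) (XT.nd (nat_lit 234) (nat_lit 228) (nat_lit 0) (XT.nd (nat_lit 78) (nat_lit 76) (nat_lit 0) (XT.lf (nat_lit 0) (nat_lit 2135087962062) (nat_lit 152) (nat_lit 2584749097698) (nat_lit 0) (nat_lit 1698810576520) (nat_lit 17) (nat_lit 5) (nat_lit 19) (nat_lit 4) (nat_lit 17) (nat_lit 4) (nat_lit 520) (nat_lit 452) (nat_lit 228)) (XT.nd (nat_lit 78) (nat_lit 0) (nat_lit 0) (XT.lf (nat_lit 0) (nat_lit 474362246554) (nat_lit 76) (nat_lit 3383547803322) (nat_lit 76) (nat_lit 2947270416726) (nat_lit 16) (nat_lit 4) (nat_lit 17) (nat_lit 5) (nat_lit 17) (nat_lit 4) (nat_lit 521) (nat_lit 452) (nat_lit 227)) (XT.lf (nat_lit 0) (nat_lit 3925199453951) (nat_lit 76) (nat_lit 1864030063957) (nat_lit 76) (nat_lit 1427752676386) (nat_lit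 16) (nat_lit 4) (nat_lit 17) (nat_lit 5) (nat_lit 17) (nat_lit 4) (nat_lit 522) (nat_lit 452) (nat_lit 226)))) (XT.nd (nat_lit 156) (nat_lit 76) (nat_lit 0) (XT.nd (nat_lit 78) (nat_lit 76) (nat_lit 0) (XT.lf (nat_lit 0) (nat_lit 202655021193) (nat_lit 152) (nat_lit 14754944391) (nat_lit 76) (nat_lit 7443907654639) (nat_lit 15) (nat_lit 5) (nat_lit 17) (nat_lit 5) (nat_lit 16) (nat_lit 4) (nat_lit 523) (nat_lit 452) (nat_lit 225)) (XT.lf (nat_lit 0) (nat_lit 2015444004746) (nat_lit 152) (nat_lit 4500978905649) (nat_lit 0) (nat_lit 1611483459089) (nat_lit 14) (nat_lit 5) (nat_lit 16) (nat_lit 4) (nat_lit 14) (nat_lit 4) (nat_lit 524) (nat_lit 452) (nat_lit 224))) (XT.nd (nat_lit 78) (nat_lit 76) (nat_lit 0) (XT.lf (nat_lit 0) (nat_lit 3979317017238) (nat_lit 152) (nat_lit 1076663857762) (nat_lit 0) (nat_lit 3575356470865) (nat_lit 14) (nat_lit 5) (nat_lit 16) (nat_lit 4) (nat_lit 14) (nat_lit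 4) (nat_lit 525) (nat_lit 452) (nat_lit 223)) (XT.lf (nat_lit 0) (nat_lit 2759645000579) (nat_lit 76) (nat_lit 3407024392514) (nat_lit 76) (nat_lit 3003063845476) (nat_lit 13) (nat_lit 4) (nat_lit 14) (nat_lit 5) (nat_lit 14) (nat_lit 4) (nat_lit 526) (nat_lit 452) (nat_lit 222))))) (XT.nd (nat_lit 234) (nat_lit 76) (nat_lit 0) (XT.nd (nat_lit 78) (nat_lit 152) (nat_lit 0) (XT.lf (nat_lit 0) (nat_lit 6964089382580) (nat_lit 76) (nat_lit 1594358468209) (nat_lit 76) (nat_lit 1190397920557) (nat_lit 13) (nat_lit 4) (nat_lit 14) (nat_lit 5) (nat_lit 14) (nat_lit 4) (nat_lit 527) (nat_lit 452) (nat_lit 221)) (XT.nd (nat_lit 78) (nat_lit 0) (nat_lit 0) (XT.lf (nat_lit 0) (nat_lit 767002913268) (nat_lit 152) (nat_lit 9209794442046) (nat_lit 0) (nat_lit 392965368619) (nat_lit 11) (nat_lit 5) (nat_lit 13) (nat_lit 4) (nat_lit 11) (nat_lit 4) (nat_lit 528) (nat_lit 452) (nat_lit 220)) (XT.lf (nat_lit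 0) (nat_lit 2936213150684) (nat_lit 152) (nat_lit 5529928342853) (nat_lit 0) (nat_lit 2562175605547) (nat_lit 11) (nat_lit 5) (nat_lit 13) (nat_lit 4) (nat_lit 11) (nat_lit 4) (nat_lit 529) (nat_lit 452) (nat_lit 219)))) (XT.nd (nat_lit 156) (nat_lit 0) (nat_lit 0) (XT.nd (nat_lit 78) (nat_lit 76) (nat_lit 0) (XT.lf (nat_lit 0) (nat_lit 5278960201724) (nat_lit 152) (nat_lit 1555672966818) (nat_lit 0) (nat_lit 4904922656135) (nat_lit 11) (nat_lit 5) (nat_lit 13) (nat_lit 4) (nat_lit 11) (nat_lit 4) (nat_lit 530) (nat_lit 452) (nat_lit 218)) (XT.lf (nat_lit 0) (nat_lit 2880623271669) (nat_lit 76) (nat_lit 4997782799168) (nat_lit 76) (nat_lit 4623745253161) (nat_lit 10) (nat_lit 4) (nat_lit 11) (nat_lit 5) (nat_lit 11) (nat_lit 4) (nat_lit 531) (nat_lit 452) (nat_lit 217))) (XT.nd (nat_lit 78) (nat_lit 0) (nat_lit 0) (XT.lf (nat_lit 0) (nat_lit 7760295699291) (nat_lit 76) (nat_lit 2968046761146)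 (nat_lit 76) (nat_lit 2594009214752) (nat_lit 10) (nat_lit 4) (nat_lit 11) (nat_lit 5) (nat_lit 11) (nat_lit 4) (nat_lit 532) (nat_lit 452) (nat_lit 216)) (XT.lf (nat_lit 0) (nat_lit 13030341911852) (nat_lit 76) (nat_lit 775931844867) (nat_lit 76) (nat_lit 401894298114) (nat_lit 10) (nat_lit 4) (nat_lit 11) (nat_lit 5) (nat_lit 11) (nat_lit 4) (nat_lit 533) (nat_lit 452) (nat_lit 215)))))) (XT.nd (nat_lit 56238) (nat_lit 0) (nat_lit 6004) (XT.nd (nat_lit 234) (nat_lit 76) (nat_lit 0) (XT.nd (nat_lit 78) (nat_lit 0) (nat_lit 0) (XT.lf (nat_lit 0) (nat_lit 1997933215112) (nat_lit 152) (nat_lit 11501078964853) (nat_lit 0) (nat_lit 1651602152997) (nat_lit 8) (nat_lit 5) (nat_lit 10) (nat_lit 4) (nat_lit 8) (nat_lit 4) (nat_lit 534) (nat_lit 452) (nat_lit 214)) (XT.nd (nat_lit 78) (nat_lit 0) (nat_lit 0) (XT.lf (nat_lit 0) (nat_lit 4621228585898) (nat_lit 152) (nat_lit 7267239547918) (nat_lit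 0) (nat_lit 4274897523498) (nat_lit 8) (nat_lit 5) (nat_lit 10) (nat_lit 4) (nat_lit 8) (nat_lit 4) (nat_lit 535) (nat_lit 452) (nat_lit 213)) (XT.lf (nat_lit 0) (nat_lit 7454387582404) (nat_lit 152) (nat_lit 2694692985787) (nat_lit 0) (nat_lit 7108056519740) (nat_lit 8) (nat_lit 5) (nat_lit 10) (nat_lit 4) (nat_lit 8) (nat_lit 4) (nat_lit 536) (nat_lit 452) (nat_lit 212)))) (XT.nd (nat_lit 156) (nat_lit 0) (nat_lit 0) (XT.nd (nat_lit 78) (nat_lit 0) (nat_lit 0) (XT.lf (nat_lit 0) (nat_lit 2361804310749) (nat_lit 76) (nat_lit 8209196434704) (nat_lit 76) (nat_lit 7862865371797) (nat_lit 7) (nat_lit 4) (nat_lit 8) (nat_lit 5) (nat_lit 8) (nat_lit 4) (nat_lit 537) (nat_lit 452) (nat_lit 211)) (XT.lf (nat_lit 0) (nat_lit 7976070961450) (nat_lit 76) (nat_lit 6034549678176) (nat_lit 76) (nat_lit 5688218615042) (nat_lit 7) (nat_lit 4) (nat_lit 8) (nat_lit 5) (nat_lit 8) (nat_lit 4) (nat_lit 538)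 (nat_lit 452) (nat_lit 210))) (XT.nd (nat_lit 55770) (nat_lit 0) (nat_lit 6536) (XT.lf (nat_lit 0) (nat_lit 14039478937390) (nat_lit 76) (nat_lit 3685931184648) (nat_lit 76) (nat_lit 3339600121305) (nat_lit 7) (nat_lit 4) (nat_lit 8) (nat_lit 5) (nat_lit 8) (nat_lit 4) (nat_lit 539) (nat_lit 452) (nat_lit 209)) (XT.lf (nat_lit 0) (nat_lit 118346078205) (nat_lit 532) (nat_lit 792015646) (nat_lit 532) (nat_lit 792015646) (nat_lit 93) (nat_lit 3) (nat_lit 100) (nat_lit 3) (nat_lit 100) (nat_lit 5) (nat_lit 453) (nat_lit 453) (nat_lit 294))))) (XT.nd (nat_lit 234) (nat_lit 0) (nat_lit 76) (XT.nd (nat_lit 78) (nat_lit 532) (nat_lit 0) (XT.lf (nat_lit 76) (nat_lit 124073231073) (nat_lit 0) (nat_lit 125071649842) (nat_lit 532) (nat_lit 70943636) (nat_lit 94) (nat_lit 5) (nat_lit 93) (nat_lit 3) (nat_lit 100) (nat_lit 5) (nat_lit 454) (nat_lit 453) (nat_lit 293)) (XT.nd (nat_lit 78) (nat_lit 0)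 (nat_lit 76) (XT.lf (nat_lit 76) (nat_lit 501923837) (nat_lit 0) (nat_lit 2664639684) (nat_lit 608) (nat_lit 256142504394) (nat_lit 87) (nat_lit 5) (nat_lit 86) (nat_lit 5) (nat_lit 94) (nat_lit 5) (nat_lit 455) (nat_lit 453) (nat_lit 292)) (XT.lf (nat_lit 0) (nat_lit 13284946093) (nat_lit 532) (nat_lit 129827177236) (nat_lit 608) (nat_lit 126567443405) (nat_lit 87) (nat_lit 5) (nat_lit 94) (nat_lit 5) (nat_lit 95) (nat_lit 5) (nat_lit 456) (nat_lit 453) (nat_lit 291)))) (XT.nd (nat_lit 156) (nat_lit 0) (nat_lit 76) (XT.nd (nat_lit 78) (nat_lit 0) (nat_lit 76) (XT.lf (nat_lit 76) (nat_lit 9896994125) (nat_lit 0) (nat_lit 14622943120) (nat_lit 608) (nat_lit 256335197188) (nat_lit 88) (nat_lit 5) (nat_lit 87) (nat_lit 5) (nat_lit 95) (nat_lit 5) (nat_lit 457) (nat_lit 453) (nat_lit 290)) (XT.lf (nat_lit 0) (nat_lit 43281241783) (nat_lit 532) (nat_lit 127536259870) (nat_lit 608) (nat_lit 121577044776)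 (nat_lit 88) (nat_lit 5) (nat_lit 95) (nat_lit 5) (nat_lit 96) (nat_lit 5) (nat_lit 458) (nat_lit 453) (nat_lit 289))) (XT.nd (nat_lit 78) (nat_lit 0) (nat_lit 76) (XT.lf (nat_lit 76) (nat_lit 28400176489) (nat_lit 0) (nat_lit 36206032208) (nat_lit 608) (nat_lit 240165882058) (nat_lit 89) (nat_lit 5) (nat_lit 88) (nat_lit 5) (nat_lit 96) (nat_lit 5) (nat_lit 459) (nat_lit 453) (nat_lit 288)) (XT.lf (nat_lit 0) (nat_lit 93840380571) (nat_lit 532) (nat_lit 116512538909) (nat_lit 76) (nat_lit 107290662548) (nat_lit 89) (nat_lit 5) (nat_lit 96) (nat_lit 5) (nat_lit 90) (nat_lit 5) (nat_lit 460) (nat_lit 453) (nat_lit 287))))))) (XT.nd (nat_lit 1092) (nat_lit 1292) (nat_lit 0) (XT.nd (nat_lit 546) (nat_lit 760) (nat_lit 0) (XT.nd (nat_lit 234) (nat_lit 532) (nat_lit 0) (XT.nd (nat_lit 78) (nat_lit 228) (nat_lit 0) (XT.lf (nat_lit 0) (nat_lit 58101577286) (nat_lit 532) (nat_lit 69649396707) (nat_lit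 608) (nat_lit 203606803593) (nat_lit 82) (nat_lit 5) (nat_lit 89) (nat_lit 5) (nat_lit 90) (nat_lit 5) (nat_lit 461) (nat_lit 453) (nat_lit 286)) (XT.nd (nat_lit 78) (nat_lit 228) (nat_lit 0) (XT.lf (nat_lit 0) (nat_lit 169622316748) (nat_lit 608) (nat_lit 94665646448) (nat_lit 76) (nat_lit 81461313452) (nat_lit 82) (nat_lit 5) (nat_lit 90) (nat_lit 5) (nat_lit 83) (nat_lit 5) (nat_lit 462) (nat_lit 453) (nat_lit 285)) (XT.lf (nat_lit 0) (nat_lit 101479420663) (nat_lit 228) (nat_lit 117613540007) (nat_lit 304) (nat_lit 141859167472) (nat_lit 79) (nat_lit 5) (nat_lit 82) (nat_lit 5) (nat_lit 83) (nat_lit 5) (nat_lit 463) (nat_lit 453) (nat_lit 284)))) (XT.nd (nat_lit 156) (nat_lit 304) (nat_lit 0) (XT.nd (nat_lit 78) (nat_lit 228) (nat_lit 0) (XT.lf (nat_lit 0) (nat_lit 276157867759) (nat_lit 304) (nat_lit 59512745844) (nat_lit 76) (nat_lit 41409665228) (nat_lit 79) (nat_lit 5) (nat_lit 83)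 (nat_lit 5) (nat_lit 80) (nat_lit 5) (nat_lit 464) (nat_lit 453) (nat_lit 283)) (XT.lf (nat_lit 0) (nat_lit 161466245886) (nat_lit 228) (nat_lit 183259829326) (nat_lit 304) (nat_lit 49217557745) (nat_lit 76) (nat_lit 5) (nat_lit 79) (nat_lit 5) (nat_lit 80) (nat_lit 5) (nat_lit 465) (nat_lit 453) (nat_lit 282))) (XT.nd (nat_lit 78) (nat_lit 228) (nat_lit 0) (XT.lf (nat_lit 0) (nat_lit 7961733617) (nat_lit 304) (nat_lit 8719411943) (nat_lit 76) (nat_lit 395328614417) (nat_lit 75) (nat_lit 5) (nat_lit 79) (nat_lit 5) (nat_lit 76) (nat_lit 5) (nat_lit 466) (nat_lit 453) (nat_lit 281)) (XT.lf (nat_lit 0) (nat_lit 77032194807) (nat_lit 304) (nat_lit 191201192716) (nat_lit 76) (nat_lit 162387451149) (nat_lit 72) (nat_lit 5) (nat_lit 76) (nat_lit 5) (nat_lit 73) (nat_lit 5) (nat_lit 467) (nat_lit 453) (nat_lit 280))))) (XT.nd (nat_lit 234) (nat_lit 380) (nat_lit 0) (XT.nd (nat_lit 78) (nat_lit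 152) (nat_lit 0) (XT.lf (nat_lit 0) (nat_lit 59753560452) (nat_lit 228) (nat_lit 93989630970) (nat_lit 304) (nat_lit 296808420363) (nat_lit 69) (nat_lit 5) (nat_lit 72) (nat_lit 5) (nat_lit 73) (nat_lit 5) (nat_lit 468) (nat_lit 453) (nat_lit 279)) (XT.nd (nat_lit 78) (nat_lit 152) (nat_lit 0) (XT.lf (nat_lit 0) (nat_lit 244219945409) (nat_lit 304) (nat_lit 132401360163) (nat_lit 76) (nat_lit 94845230968) (nat_lit 69) (nat_lit 5) (nat_lit 73) (nat_lit 5) (nat_lit 70) (nat_lit 5) (nat_lit 469) (nat_lit 453) (nat_lit 278)) (XT.lf (nat_lit 0) (nat_lit 151820387235) (nat_lit 152) (nat_lit 196206981801) (nat_lit 228) (nat_lit 145539883898) (nat_lit 67) (nat_lit 5) (nat_lit 69) (nat_lit 5) (nat_lit 70) (nat_lit 5) (nat_lit 470) (nat_lit 453) (nat_lit 277)))) (XT.nd (nat_lit 156) (nat_lit 152) (nat_lit 0) (XT.nd (nat_lit 78) (nat_lit 228) (nat_lit 0) (XT.lf (nat_lit 0) (nat_lit 463820763984) (nat_lit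 228) (nat_lit 50898156480) (nat_lit 76) (nat_lit 2422595984) (nat_lit 67) (nat_lit 5) (nat_lit 70) (nat_lit 5) (nat_lit 68) (nat_lit 5) (nat_lit 471) (nat_lit 453) (nat_lit 276)) (XT.lf (nat_lit 0) (nat_lit 55894087432) (nat_lit 228) (nat_lit 271371923069) (nat_lit 76) (nat_lit 214292028698) (nat_lit 64) (nat_lit 5) (nat_lit 67) (nat_lit 5) (nat_lit 65) (nat_lit 5) (nat_lit 472) (nat_lit 453) (nat_lit 275))) (XT.nd (nat_lit 78) (nat_lit 0) (nat_lit 0) (XT.lf (nat_lit 0) (nat_lit 53279288231) (nat_lit 152) (nat_lit 120395242673) (nat_lit 228) (nat_lit 393925826742) (nat_lit 62) (nat_lit 5) (nat_lit 64) (nat_lit 5) (nat_lit 65) (nat_lit 5) (nat_lit 473) (nat_lit 453) (nat_lit 274)) (XT.lf (nat_lit 0) (nat_lit 310967641561) (nat_lit 228) (nat_lit 178467259321) (nat_lit 76) (nat_lit 105483942153) (nat_lit 62) (nat_lit 5) (nat_lit 65) (nat_lit 5) (nat_lit 63) (nat_lit 5) (nat_lit 474) (nat_lit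 453) (nat_lit 273)))))) (XT.nd (nat_lit 546) (nat_lit 684) (nat_lit 0) (XT.nd (nat_lit 234) (nat_lit 304) (nat_lit 0) (XT.nd (nat_lit 78) (nat_lit 152) (nat_lit 0) (XT.lf (nat_lit 0) (nat_lit 190665512913) (nat_lit 152) (nat_lit 276291312674) (nat_lit 228) (nat_lit 156848971709) (nat_lit 60) (nat_lit 5) (nat_lit 62) (nat_lit 5) (nat_lit 63) (nat_lit 5) (nat_lit 475) (nat_lit 453) (nat_lit 272)) (XT.nd (nat_lit 78) (nat_lit 152) (nat_lit 0) (XT.lf (nat_lit 0) (nat_lit 599478444820) (nat_lit 152) (nat_lit 40826277141) (nat_lit 228) (nat_lit 14308619729) (nat_lit 60) (nat_lit 5) (nat_lit 62) (nat_lit 5) (nat_lit 63) (nat_lit 5) (nat_lit 476) (nat_lit 453) (nat_lit 271)) (XT.lf (nat_lit 0) (nat_lit 146955634789) (nat_lit 152) (nat_lit 324189788527) (nat_lit 76) (nat_lit 215326945940) (nat_lit 58) (nat_lit 5) (nat_lit 60) (nat_lit 5) (nat_lit 59) (nat_lit 5) (nat_lit 477) (nat_lit 453) (nat_lit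 270)))) (XT.nd (nat_lit 156) (nat_lit 152) (nat_lit 0) (XT.nd (nat_lit 78) (nat_lit 0) (nat_lit 0) (XT.lf (nat_lit 0) (nat_lit 98948004293) (nat_lit 152) (nat_lit 226386723050) (nat_lit 228) (nat_lit 395116720705) (nat_lit 56) (nat_lit 5) (nat_lit 58) (nat_lit 5) (nat_lit 59) (nat_lit 5) (nat_lit 478) (nat_lit 453) (nat_lit 269)) (XT.lf (nat_lit 0) (nat_lit 527991034582) (nat_lit 228) (nat_lit 183209005010) (nat_lit 76) (nat_lit 45148262571) (nat_lit 56) (nat_lit 5) (nat_lit 59) (nat_lit 5) (nat_lit 57) (nat_lit 4) (nat_lit 479) (nat_lit 453) (nat_lit 268))) (XT.nd (nat_lit 78) (nat_lit 76) (nat_lit 0) (XT.lf (nat_lit 0) (nat_lit 299237855199) (nat_lit 76) (nat_lit 460698815169) (nat_lit 152) (nat_lit 34134088323) (nat_lit 55) (nat_lit 5) (nat_lit 56) (nat_lit 5) (nat_lit 57) (nat_lit 4) (nat_lit 480) (nat_lit 453) (nat_lit 267)) (XT.lf (nat_lit 0) (nat_lit 171980715647) (nat_lit 152) (nat_lit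 8064539931) (nat_lit 76) (nat_lit 654016702266) (nat_lit 54) (nat_lit 5) (nat_lit 56) (nat_lit 5) (nat_lit 55) (nat_lit 5) (nat_lit 481) (nat_lit 453) (nat_lit 266))))) (XT.nd (nat_lit 234) (nat_lit 380) (nat_lit 0) (XT.nd (nat_lit 78) (nat_lit 152) (nat_lit 0) (XT.lf (nat_lit 0) (nat_lit 409145491386) (nat_lit 228) (nat_lit 335487128038) (nat_lit 76) (nat_lit 131236512347) (nat_lit 52) (nat_lit 5) (nat_lit 55) (nat_lit 5) (nat_lit 53) (nat_lit 4) (nat_lit 482) (nat_lit 453) (nat_lit 265)) (XT.nd (nat_lit 78) (nat_lit 76) (nat_lit 0) (XT.lf (nat_lit 0) (nat_lit 218402787809) (nat_lit 76) (nat_lit 457035954339) (nat_lit 152) (nat_lit 244769714026) (nat_lit 51) (nat_lit 5) (nat_lit 52) (nat_lit 5) (nat_lit 53) (nat_lit 4) (nat_lit 483) (nat_lit 453) (nat_lit 264)) (XT.lf (nat_lit 0) (nat_lit 4604663933) (nat_lit 152) (nat_lit 131794374458) (nat_lit 76) (nat_lit 830952739207) (nat_lit 50) (nat_lit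 5) (nat_lit 52) (nat_lit 5) (nat_lit 51) (nat_lit 5) (nat_lit 484) (nat_lit 453) (nat_lit 263)))) (XT.nd (nat_lit 156) (nat_lit 152) (nat_lit 0) (XT.nd (nat_lit 78) (nat_lit 76) (nat_lit 0) (XT.lf (nat_lit 0) (nat_lit 278319573019) (nat_lit 228) (nat_lit 519715544991) (nat_lit 76) (nat_lit 218313674085) (nat_lit 48) (nat_lit 5) (nat_lit 51) (nat_lit 5) (nat_lit 49) (nat_lit 4) (nat_lit 485) (nat_lit 453) (nat_lit 262)) (XT.lf (nat_lit 0) (nat_lit 116020390703) (nat_lit 76) (nat_lit 467941475255) (nat_lit 152) (nat_lit 484501286504) (nat_lit 47) (nat_lit 5) (nat_lit 48) (nat_lit 5) (nat_lit 49) (nat_lit 4) (nat_lit 486) (nat_lit 453) (nat_lit 261))) (XT.nd (nat_lit 78) (nat_lit 152) (nat_lit 0) (XT.lf (nat_lit 0) (nat_lit 832171843276) (nat_lit 76) (nat_lit 96093620615) (nat_lit 152) (nat_lit 195344404044) (nat_lit 47) (nat_lit 5) (nat_lit 48) (nat_lit 5) (nat_lit 49) (nat_lit 4) (nat_lit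 487) (nat_lit 453) (nat_lit 260)) (XT.lf (nat_lit 0) (nat_lit 129414925904) (nat_lit 152) (nat_lit 748058019341) (nat_lit 76) (nat_lit 304004776070) (nat_lit 45) (nat_lit 5) (nat_lit 47) (nat_lit 5) (nat_lit 46) (nat_lit 4) (nat_lit 488) (nat_lit 453) (nat_lit 259))))))))
noncomputable def xc201 : XT := (XT.nd (nat_lit 2184) (nat_lit 988) (nat_lit 0) (XT.nd (nat_lit 1092) (nat_lit 912) (nat_lit 0) (XT.nd (nat_lit 546) (nat_lit 532) (nat_lit 0) (XT.nd (nat_lit 234) (nat_lit 304) (nat_lit 0) (XT.nd (nat_lit 78) (nat_lit 152) (nat_lit 0) (XT.lf (nat_lit 0) (nat_lit 480272651965) (nat_lit 152) (nat_lit 18273973845) (nat_lit 76) (nat_lit 744168760995) (nat_lit 45) (nat_lit 5) (nat_lit 47) (nat_lit 5) (nat_lit 46) (nat_lit 4) (nat_lit 489) (nat_lit 453) (nat_lit 258)) (XT.nd (nat_lit 78) (nat_lit 76) (nat_lit 0) (XT.lf (nat_lit 0) (nat_lit 810433946733) (nat_lit 76) (nat_lit 68255985740) (nat_lit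 152) (nat_lit 428602858150) (nat_lit 44) (nat_lit 5) (nat_lit 45) (nat_lit 5) (nat_lit 46) (nat_lit 4) (nat_lit 490) (nat_lit 453) (nat_lit 257)) (XT.lf (nat_lit 0) (nat_lit 336780637237) (nat_lit 76) (nat_lit 990346963969) (nat_lit 76) (nat_lit 48457025081) (nat_lit 43) (nat_lit 4) (nat_lit 44) (nat_lit 5) (nat_lit 44) (nat_lit 4) (nat_lit 491) (nat_lit 453) (nat_lit 256)))) (XT.nd (nat_lit 156) (nat_lit 152) (nat_lit 0) (XT.nd (nat_lit 78) (nat_lit 76) (nat_lit 0) (XT.lf (nat_lit 0) (nat_lit 359697464309) (nat_lit 152) (nat_lit 193719231288) (nat_lit 76) (nat_lit 893969573442) (nat_lit 42) (nat_lit 5) (nat_lit 44) (nat_lit 5) (nat_lit 43) (nat_lit 4) (nat_lit 492) (nat_lit 453) (nat_lit 255)) (XT.lf (nat_lit 0) (nat_lit 755507177552) (nat_lit 76) (nat_lit 60549145245) (nat_lit 152) (nat_lit 707321434657) (nat_lit 41) (nat_lit 5) (nat_lit 42) (nat_lit 5) (nat_lit 43) (nat_lit 4) (nat_lit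 493) (nat_lit 453) (nat_lit 254))) (XT.nd (nat_lit 78) (nat_lit 76) (nat_lit 0) (XT.lf (nat_lit 0) (nat_lit 184405398144) (nat_lit 76) (nat_lit 1145733176317) (nat_lit 76) (nat_lit 273612815724) (nat_lit 40) (nat_lit 4) (nat_lit 41) (nat_lit 5) (nat_lit 41) (nat_lit 4) (nat_lit 494) (nat_lit 453) (nat_lit 253)) (XT.lf (nat_lit 0) (nat_lit 208161136335) (nat_lit 152) (nat_lit 439145210364) (nat_lit 76) (nat_lit 1041024749462) (nat_lit 39) (nat_lit 5) (nat_lit 41) (nat_lit 5) (nat_lit 40) (nat_lit 4) (nat_lit 495) (nat_lit 453) (nat_lit 252))))) (XT.nd (nat_lit 234) (nat_lit 304) (nat_lit 0) (XT.nd (nat_lit 78) (nat_lit 152) (nat_lit 0) (XT.lf (nat_lit 0) (nat_lit 644610819350) (nat_lit 76) (nat_lit 84586875675) (nat_lit 152) (nat_lit 1048670706334) (nat_lit 38) (nat_lit 5) (nat_lit 39) (nat_lit 5) (nat_lit 40) (nat_lit 4) (nat_lit 496) (nat_lit 453) (nat_lit 251)) (XT.nd (nat_lit 78) (nat_lit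 152) (nat_lit 0) (XT.lf (nat_lit 0) (nat_lit 1316817814531) (nat_lit 152) (nat_lit 46459897828) (nat_lit 0) (nat_lit 509298927725) (nat_lit 38) (nat_lit 5) (nat_lit 40) (nat_lit 4) (nat_lit 38) (nat_lit 4) (nat_lit 497) (nat_lit 453) (nat_lit 250)) (XT.lf (nat_lit 0) (nat_lit 9234355574) (nat_lit 152) (nat_lit 788311437023) (nat_lit 76) (nat_lit 1174842626914) (nat_lit 36) (nat_lit 5) (nat_lit 38) (nat_lit 5) (nat_lit 37) (nat_lit 4) (nat_lit 498) (nat_lit 453) (nat_lit 249)))) (XT.nd (nat_lit 156) (nat_lit 228) (nat_lit 0) (XT.nd (nat_lit 78) (nat_lit 0) (nat_lit 0) (XT.lf (nat_lit 0) (nat_lit 443324057376) (nat_lit 76) (nat_lit 158042751796) (nat_lit 152) (nat_lit 1476706290198) (nat_lit 35) (nat_lit 5) (nat_lit 36) (nat_lit 5) (nat_lit 37) (nat_lit 4) (nat_lit 499) (nat_lit 453) (nat_lit 248)) (XT.lf (nat_lit 0) (nat_lit 1275793052194) (nat_lit 152) (nat_lit 385535292039) (nat_lit 0)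 (nat_lit 528090353937) (nat_lit 35) (nat_lit 5) (nat_lit 37) (nat_lit 4) (nat_lit 35) (nat_lit 4) (nat_lit 500) (nat_lit 453) (nat_lit 247))) (XT.nd (nat_lit 78) (nat_lit 152) (nat_lit 0) (XT.lf (nat_lit 0) (nat_lit 1010036647549) (nat_lit 76) (nat_lit 1022533145462) (nat_lit 76) (nat_lit 274830439992) (nat_lit 34) (nat_lit 4) (nat_lit 35) (nat_lit 5) (nat_lit 35) (nat_lit 4) (nat_lit 501) (nat_lit 453) (nat_lit 246)) (XT.lf (nat_lit 0) (nat_lit 99946585714) (nat_lit 76) (nat_lit 307577115180) (nat_lit 152) (nat_lit 2025440499766) (nat_lit 32) (nat_lit 5) (nat_lit 33) (nat_lit 5) (nat_lit 34) (nat_lit 4) (nat_lit 502) (nat_lit 453) (nat_lit 245)))))) (XT.nd (nat_lit 546) (nat_lit 456) (nat_lit 0) (XT.nd (nat_lit 234) (nat_lit 304) (nat_lit 0) (XT.nd (nat_lit 78) (nat_lit 152) (nat_lit 0) (XT.lf (nat_lit 0) (nat_lit 1177184802460) (nat_lit 152) (nat_lit 902144607433) (nat_lit 0) (nat_lit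 484867470671) (nat_lit 32) (nat_lit 5) (nat_lit 34) (nat_lit 4) (nat_lit 32) (nat_lit 4) (nat_lit 503) (nat_lit 453) (nat_lit 244)) (XT.nd (nat_lit 78) (nat_lit 76) (nat_lit 0) (XT.lf (nat_lit 0) (nat_lit 668658189802) (nat_lit 76) (nat_lit 1363830851122) (nat_lit 76) (nat_lit 671513514032) (nat_lit 31) (nat_lit 4) (nat_lit 32) (nat_lit 5) (nat_lit 32) (nat_lit 4) (nat_lit 504) (nat_lit 453) (nat_lit 243)) (XT.lf (nat_lit 0) (nat_lit 121468154880) (nat_lit 152) (nat_lit 439663579848) (nat_lit 76) (nat_lit 2291641639528) (nat_lit 30) (nat_lit 5) (nat_lit 32) (nat_lit 5) (nat_lit 31) (nat_lit 4) (nat_lit 505) (nat_lit 453) (nat_lit 242)))) (XT.nd (nat_lit 156) (nat_lit 152) (nat_lit 0) (XT.nd (nat_lit 78) (nat_lit 76) (nat_lit 0) (XT.lf (nat_lit 0) (nat_lit 982305390185) (nat_lit 152) (nat_lit 1685218609744) (nat_lit 0) (nat_lit 341270810051) (nat_lit 29) (nat_lit 5) (nat_lit 31) (nat_lit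 4) (nat_lit 29) (nat_lit 4) (nat_lit 506) (nat_lit 453) (nat_lit 241)) (XT.lf (nat_lit 0) (nat_lit 64902528868) (nat_lit 76) (nat_lit 1875576241230) (nat_lit 76) (nat_lit 1234541657199) (nat_lit 28) (nat_lit 4) (nat_lit 29) (nat_lit 5) (nat_lit 29) (nat_lit 4) (nat_lit 507) (nat_lit 453) (nat_lit 240))) (XT.nd (nat_lit 78) (nat_lit 152) (nat_lit 0) (XT.lf (nat_lit 0) (nat_lit 2050873210947) (nat_lit 76) (nat_lit 970509661274) (nat_lit 76) (nat_lit 329475073635) (nat_lit 28) (nat_lit 4) (nat_lit 29) (nat_lit 5) (nat_lit 29) (nat_lit 4) (nat_lit 508) (nat_lit 453) (nat_lit 239)) (XT.lf (nat_lit 0) (nat_lit 632760765097) (nat_lit 152) (nat_lit 2866170387376) (nat_lit 0) (nat_lit 39210217894) (nat_lit 26) (nat_lit 5) (nat_lit 28) (nat_lit 4) (nat_lit 26) (nat_lit 4) (nat_lit 509) (nat_lit 453) (nat_lit 238))))) (XT.nd (nat_lit 234) (nat_lit 304) (nat_lit 0) (XT.nd (nat_lit 78) (nat_lit 152)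 (nat_lit 0) (XT.lf (nat_lit 0) (nat_lit 1715850395721) (nat_lit 152) (nat_lit 896638593010) (nat_lit 0) (nat_lit 1122299845653) (nat_lit 26) (nat_lit 5) (nat_lit 28) (nat_lit 4) (nat_lit 26) (nat_lit 4) (nat_lit 510) (nat_lit 453) (nat_lit 237)) (XT.nd (nat_lit 78) (nat_lit 76) (nat_lit 0) (XT.lf (nat_lit 0) (nat_lit 1295249342364) (nat_lit 76) (nat_lit 1621488622228) (nat_lit 76) (nat_lit 1027938069508) (nat_lit 25) (nat_lit 4) (nat_lit 26) (nat_lit 5) (nat_lit 26) (nat_lit 4) (nat_lit 511) (nat_lit 453) (nat_lit 236)) (XT.lf (nat_lit 0) (nat_lit 65376643593) (nat_lit 152) (nat_lit 457567136500) (nat_lit 76) (nat_lit 3646316767039) (nat_lit 24) (nat_lit 5) (nat_lit 26) (nat_lit 5) (nat_lit 25) (nat_lit 4) (nat_lit 512) (nat_lit 453) (nat_lit 235)))) (XT.nd (nat_lit 156) (nat_lit 228) (nat_lit 0) (XT.nd (nat_lit 78) (nat_lit 0) (nat_lit 0) (XT.lf (nat_lit 0) (nat_lit 1256179059760) (nat_lit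 152) (nat_lit 2441656945452) (nat_lit 0) (nat_lit 706595210270) (nat_lit 23) (nat_lit 5) (nat_lit 25) (nat_lit 4) (nat_lit 23) (nat_lit 4) (nat_lit 513) (nat_lit 453) (nat_lit 234)) (XT.lf (nat_lit 0) (nat_lit 2568664264824) (nat_lit 152) (nat_lit 68557371443) (nat_lit 0) (nat_lit 2019080413384) (nat_lit 23) (nat_lit 5) (nat_lit 25) (nat_lit 4) (nat_lit 23) (nat_lit 4) (nat_lit 514) (nat_lit 453) (nat_lit 233))) (XT.nd (nat_lit 78) (nat_lit 152) (nat_lit 0) (XT.lf (nat_lit 0) (nat_lit 2625740315851) (nat_lit 76) (nat_lit 1423557079607) (nat_lit 76) (nat_lit 873973226362) (nat_lit 22) (nat_lit 4) (nat_lit 23) (nat_lit 5) (nat_lit 23) (nat_lit 4) (nat_lit 515) (nat_lit 453) (nat_lit 232)) (XT.lf (nat_lit 0) (nat_lit 334198599700) (nat_lit 76) (nat_lit 90696811172) (nat_lit 152) (nat_lit 4785064043190) (nat_lit 20) (nat_lit 5) (nat_lit 21) (nat_lit 5) (nat_lit 22) (nat_lit 4) (nat_lit 516)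 (nat_lit 453) (nat_lit 231))))))) (XT.nd (nat_lit 1092) (nat_lit 304) (nat_lit 0) (XT.nd (nat_lit 546) (nat_lit 380) (nat_lit 0) (XT.nd (nat_lit 234) (nat_lit 228) (nat_lit 0) (XT.nd (nat_lit 78) (nat_lit 76) (nat_lit 0) (XT.lf (nat_lit 0) (nat_lit 1877344963234) (nat_lit 152) (nat_lit 2264200265005) (nat_lit 0) (nat_lit 1368471022064) (nat_lit 20) (nat_lit 5) (nat_lit 22) (nat_lit 4) (nat_lit 20) (nat_lit 4) (nat_lit 517) (nat_lit 453) (nat_lit 230)) (XT.nd (nat_lit 78) (nat_lit 0) (nat_lit 0) (XT.lf (nat_lit 0) (nat_lit 583098334142) (nat_lit 76) (nat_lit 2879271428004) (nat_lit 76) (nat_lit 2370397485508) (nat_lit 19) (nat_lit 4) (nat_lit 20) (nat_lit 5) (nat_lit 20) (nat_lit 4) (nat_lit 518) (nat_lit 453) (nat_lit 229)) (XT.lf (nat_lit 0) (nat_lit 3786947880694) (nat_lit 76) (nat_lit 1449155904311) (nat_lit 76) (nat_lit 940281960586) (nat_lit 19) (nat_lit 4) (nat_lit 20) (nat_lit 5)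 (nat_lit 20) (nat_lit 4) (nat_lit 519) (nat_lit 453) (nat_lit 228)))) (XT.nd (nat_lit 156) (nat_lit 76) (nat_lit 0) (XT.nd (nat_lit 78) (nat_lit 0) (nat_lit 0) (XT.lf (nat_lit 0) (nat_lit 594481481080) (nat_lit 152) (nat_lit 5826910547688) (nat_lit 0) (nat_lit 123301902504) (nat_lit 17) (nat_lit 5) (nat_lit 19) (nat_lit 4) (nat_lit 17) (nat_lit 4) (nat_lit 520) (nat_lit 453) (nat_lit 227)) (XT.lf (nat_lit 0) (nat_lit 2305895141934) (nat_lit 152) (nat_lit 2791528731432) (nat_lit 0) (nat_lit 1834715562383) (nat_lit 17) (nat_lit 5) (nat_lit 19) (nat_lit 4) (nat_lit 17) (nat_lit 4) (nat_lit 521) (nat_lit 453) (nat_lit 226))) (XT.nd (nat_lit 78) (nat_lit 0) (nat_lit 0) (XT.lf (nat_lit 0) (nat_lit 512311512915) (nat_lit 76) (nat_lit 3654231480166) (nat_lit 76) (nat_lit 3183051899711) (nat_lit 16) (nat_lit 4) (nat_lit 17) (nat_lit 5) (nat_lit 17) (nat_lit 4) (nat_lit 522) (nat_lit 453) (nat_lit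 225)) (XT.lf (nat_lit 0) (nat_lit 4239215675671) (nat_lit 76) (nat_lit 2013152332572) (nat_lit 76) (nat_lit 1541972751282) (nat_lit 16) (nat_lit 4) (nat_lit 17) (nat_lit 5) (nat_lit 17) (nat_lit 4) (nat_lit 523) (nat_lit 453) (nat_lit 224))))) (XT.nd (nat_lit 234) (nat_lit 228) (nat_lit 0) (XT.nd (nat_lit 78) (nat_lit 76) (nat_lit 0) (XT.lf (nat_lit 0) (nat_lit 218867545343) (nat_lit 152) (nat_lit 15935087749) (nat_lit 76) (nat_lit 8039420386951) (nat_lit 15) (nat_lit 5) (nat_lit 17) (nat_lit 5) (nat_lit 16) (nat_lit 4) (nat_lit 524) (nat_lit 453) (nat_lit 223)) (XT.nd (nat_lit 78) (nat_lit 0) (nat_lit 0) (XT.lf (nat_lit 0) (nat_lit 2176679647465) (nat_lit 152) (nat_lit 4861056965790) (nat_lit 0) (nat_lit 1740402256000) (nat_lit 14) (nat_lit 5) (nat_lit 16) (nat_lit 4) (nat_lit 14) (nat_lit 4) (nat_lit 525) (nat_lit 453) (nat_lit 222)) (XT.lf (nat_lit 0) (nat_lit 4297662491894) (nat_lit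 152) (nat_lit 1162796732763) (nat_lit 0) (nat_lit 3861385099815) (nat_lit 14) (nat_lit 5) (nat_lit 16) (nat_lit 4) (nat_lit 14) (nat_lit 4) (nat_lit 526) (nat_lit 453) (nat_lit 221)))) (XT.nd (nat_lit 156) (nat_lit 152) (nat_lit 0) (XT.nd (nat_lit 78) (nat_lit 0) (nat_lit 0) (XT.lf (nat_lit 0) (nat_lit 2980416828331) (nat_lit 76) (nat_lit 3679586226571) (nat_lit 76) (nat_lit 3243308833923) (nat_lit 13) (nat_lit 4) (nat_lit 14) (nat_lit 5) (nat_lit 14) (nat_lit 4) (nat_lit 527) (nat_lit 453) (nat_lit 220)) (XT.lf (nat_lit 0) (nat_lit 7521216744025) (nat_lit 76) (nat_lit 1721907037014) (nat_lit 76) (nat_lit 1285629643840) (nat_lit 13) (nat_lit 4) (nat_lit 14) (nat_lit 5) (nat_lit 14) (nat_lit 4) (nat_lit 528) (nat_lit 453) (nat_lit 219))) (XT.nd (nat_lit 78) (nat_lit 0) (nat_lit 0) (XT.lf (nat_lit 0) (nat_lit 828363251091) (nat_lit 152) (nat_lit 9946577780971) (nat_lit 0) (nat_lit 424402701404)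 (nat_lit 11) (nat_lit 5) (nat_lit 13) (nat_lit 4) (nat_lit 11) (nat_lit 4) (nat_lit 529) (nat_lit 453) (nat_lit 218)) (XT.lf (nat_lit 0) (nat_lit 3171110299741) (nat_lit 152) (nat_lit 5972322409874) (nat_lit 0) (nat_lit 2767149749635) (nat_lit 11) (nat_lit 5) (nat_lit 13) (nat_lit 4) (nat_lit 11) (nat_lit 4) (nat_lit 530) (nat_lit 453) (nat_lit 217)))))) (XT.nd (nat_lit 546) (nat_lit 76) (nat_lit 0) (XT.nd (nat_lit 234) (nat_lit 152) (nat_lit 0) (XT.nd (nat_lit 78) (nat_lit 76) (nat_lit 0) (XT.lf (nat_lit 0) (nat_lit 5701277107678) (nat_lit 152) (nat_lit 1680126618602) (nat_lit 0) (nat_lit 5297316557186) (nat_lit 11) (nat_lit 5) (nat_lit 13) (nat_lit 4) (nat_lit 11) (nat_lit 4) (nat_lit 531) (nat_lit 453) (nat_lit 216)) (XT.nd (nat_lit 78) (nat_lit 0) (nat_lit 0) (XT.lf (nat_lit 0) (nat_lit 3111073314266) (nat_lit 76) (nat_lit 5397605329751) (nat_lit 76) (nat_lit 4993644778900) (nat_lit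 10) (nat_lit 4) (nat_lit 11) (nat_lit 5) (nat_lit 11) (nat_lit 4) (nat_lit 532) (nat_lit 453) (nat_lit 215)) (XT.lf (nat_lit 0) (nat_lit 8381119522701) (nat_lit 76) (nat_lit 3205490415602) (nat_lit 76) (nat_lit 2801529864418) (nat_lit 10) (nat_lit 4) (nat_lit 11) (nat_lit 5) (nat_lit 11) (nat_lit 4) (nat_lit 533) (nat_lit 453) (nat_lit 214)))) (XT.nd (nat_lit 156) (nat_lit 0) (nat_lit 0) (XT.nd (nat_lit 78) (nat_lit 152) (nat_lit 0) (XT.lf (nat_lit 0) (nat_lit 14072769419862) (nat_lit 76) (nat_lit 838006312423) (nat_lit 76) (nat_lit 434045760932) (nat_lit 10) (nat_lit 4) (nat_lit 11) (nat_lit 5) (nat_lit 11) (nat_lit 4) (nat_lit 534) (nat_lit 453) (nat_lit 213)) (XT.lf (nat_lit 0) (nat_lit 2157767949253) (nat_lit 152) (nat_lit 12421165122880) (nat_lit 0) (nat_lit 1783730401312) (nat_lit 8) (nat_lit 5) (nat_lit 10) (nat_lit 4) (nat_lit 8) (nat_lit 4) (nat_lit 535) (nat_lit 453) (nat_lit 212)))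 (XT.nd (nat_lit 78) (nat_lit 0) (nat_lit 0) (XT.lf (nat_lit 0) (nat_lit 4990926944003) (nat_lit 152) (nat_lit 7848618564380) (nat_lit 0) (nat_lit 4616889395818) (nat_lit 8) (nat_lit 5) (nat_lit 10) (nat_lit 4) (nat_lit 8) (nat_lit 4) (nat_lit 536) (nat_lit 453) (nat_lit 211)) (XT.lf (nat_lit 0) (nat_lit 8050738654952) (nat_lit 152) (nat_lit 2910268288194) (nat_lit 0) (nat_lit 7676701106542) (nat_lit 8) (nat_lit 5) (nat_lit 10) (nat_lit 4) (nat_lit 8) (nat_lit 4) (nat_lit 537) (nat_lit 453) (nat_lit 210))))) (XT.nd (nat_lit 56082) (nat_lit 0) (nat_lit 6004) (XT.nd (nat_lit 55926) (nat_lit 0) (nat_lit 6536) (XT.nd (nat_lit 78) (nat_lit 0) (nat_lit 0) (XT.lf (nat_lit 0) (nat_lit 2550748788610) (nat_lit 76) (nat_lit 8865932080749) (nat_lit 76) (nat_lit 8491894532129) (nat_lit 7) (nat_lit 4) (nat_lit 8) (nat_lit 5) (nat_lit 8) (nat_lit 4) (nat_lit 538) (nat_lit 453) (nat_lit 209)) (XT.lf (nat_lit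 0) (nat_lit 8614156761515) (nat_lit 76) (nat_lit 6517313588789) (nat_lit 76) (nat_lit 6143276039976) (nat_lit 7) (nat_lit 4) (nat_lit 8) (nat_lit 5) (nat_lit 8) (nat_lit 4) (nat_lit 539) (nat_lit 453) (nat_lit 208))) (XT.nd (nat_lit 78) (nat_lit 0) (nat_lit 0) (XT.lf (nat_lit 0) (nat_lit 127814812687) (nat_lit 532) (nat_lit 854810785) (nat_lit 532) (nat_lit 854810785) (nat_lit 93) (nat_lit 3) (nat_lit 100) (nat_lit 3) (nat_lit 100) (nat_lit 5) (nat_lit 454) (nat_lit 454) (nat_lit 292)) (XT.lf (nat_lit 76) (nat_lit 134000193119) (nat_lit 0) (nat_lit 135078245969) (nat_lit 532) (nat_lit 74493753) (nat_lit 94) (nat_lit 5) (nat_lit 93) (nat_lit 3) (nat_lit 100) (nat_lit 5) (nat_lit 455) (nat_lit 454) (nat_lit 291)))) (XT.nd (nat_lit 156) (nat_lit 0) (nat_lit 76) (XT.nd (nat_lit 78) (nat_lit 0) (nat_lit 76) (XT.lf (nat_lit 76) (nat_lit 543257228) (nat_lit 0) (nat_lit 2878529236) (nat_lit 608)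 (nat_lit 276631854833) (nat_lit 87) (nat_lit 5) (nat_lit 86) (nat_lit 5) (nat_lit 94) (nat_lit 5) (nat_lit 456) (nat_lit 454) (nat_lit 290)) (XT.lf (nat_lit 0) (nat_lit 14349483063) (nat_lit 532) (nat_lit 140212102516) (nat_lit 608) (nat_lit 136692206987) (nat_lit 87) (nat_lit 5) (nat_lit 94) (nat_lit 5) (nat_lit 95) (nat_lit 5) (nat_lit 457) (nat_lit 454) (nat_lit 289))) (XT.nd (nat_lit 78) (nat_lit 0) (nat_lit 76) (XT.lf (nat_lit 76) (nat_lit 10689970937) (nat_lit 0) (nat_lit 15793202861) (nat_lit 608) (nat_lit 276840239873) (nat_lit 88) (nat_lit 5) (nat_lit 87) (nat_lit 5) (nat_lit 95) (nat_lit 5) (nat_lit 458) (nat_lit 454) (nat_lit 288)) (XT.lf (nat_lit 0) (nat_lit 46745251653) (nat_lit 532) (nat_lit 137737902324) (nat_lit 608) (nat_lit 131302835148) (nat_lit 88) (nat_lit 5) (nat_lit 95) (nat_lit 5) (nat_lit 96) (nat_lit 5) (nat_lit 459) (nat_lit 454) (nat_lit 287))))))))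
noncomputable def xc202 : XT := (XT.nd (nat_lit 2184) (nat_lit 1900) (nat_lit 0) (XT.nd (nat_lit 1092) (nat_lit 1292) (nat_lit 0) (XT.nd (nat_lit 546) (nat_lit 912) (nat_lit 0) (XT.nd (nat_lit 234) (nat_lit 456) (nat_lit 0) (XT.nd (nat_lit 78) (nat_lit 456) (nat_lit 0) (XT.lf (nat_lit 76) (nat_lit 30673417087) (nat_lit 0) (nat_lit 39102716439) (nat_lit 608) (nat_lit 259377610076) (nat_lit 89) (nat_lit 5) (nat_lit 88) (nat_lit 5) (nat_lit 96) (nat_lit 5) (nat_lit 460) (nat_lit 454) (nat_lit 286)) (XT.nd (nat_lit 78) (nat_lit 532) (nat_lit 0) (XT.lf (nat_lit 0) (nat_lit 101348928872) (nat_lit 532) (nat_lit 125832295964) (nat_lit 76) (nat_lit 115873738175) (nat_lit 89) (nat_lit 5) (nat_lit 96) (nat_lit 5) (nat_lit 90) (nat_lit 5) (nat_lit 461) (nat_lit 454) (nat_lit 285)) (XT.lf (nat_lit 0) (nat_lit 62750917981) (nat_lit 532) (nat_lit 75221383376) (nat_lit 608) (nat_lit 219893998340) (nat_lit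 82) (nat_lit 5) (nat_lit 89) (nat_lit 5) (nat_lit 90) (nat_lit 5) (nat_lit 462) (nat_lit 454) (nat_lit 284)))) (XT.nd (nat_lit 156) (nat_lit 228) (nat_lit 0) (XT.nd (nat_lit 78) (nat_lit 228) (nat_lit 0) (XT.lf (nat_lit 0) (nat_lit 183193258204) (nat_lit 608) (nat_lit 102237680157) (nat_lit 76) (nat_lit 87978187801) (nat_lit 82) (nat_lit 5) (nat_lit 90) (nat_lit 5) (nat_lit 83) (nat_lit 5) (nat_lit 463) (nat_lit 454) (nat_lit 283)) (XT.lf (nat_lit 0) (nat_lit 109598961487) (nat_lit 228) (nat_lit 127022535066) (nat_lit 304) (nat_lit 153206713799) (nat_lit 79) (nat_lit 5) (nat_lit 82) (nat_lit 5) (nat_lit 83) (nat_lit 5) (nat_lit 464) (nat_lit 454) (nat_lit 282))) (XT.nd (nat_lit 78) (nat_lit 228) (nat_lit 0) (XT.lf (nat_lit 0) (nat_lit 298251516762) (nat_lit 304) (nat_lit 64272586721) (nat_lit 76) (nat_lit 44722515977) (nat_lit 79) (nat_lit 5) (nat_lit 83) (nat_lit 5) (nat_lit 80) (nat_lit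 5) (nat_lit 465) (nat_lit 454) (nat_lit 281)) (XT.lf (nat_lit 0) (nat_lit 174384694504) (nat_lit 228) (nat_lit 197920438414) (nat_lit 304) (nat_lit 53153912837) (nat_lit 76) (nat_lit 5) (nat_lit 79) (nat_lit 5) (nat_lit 80) (nat_lit 5) (nat_lit 466) (nat_lit 454) (nat_lit 280))))) (XT.nd (nat_lit 234) (nat_lit 380) (nat_lit 0) (XT.nd (nat_lit 78) (nat_lit 456) (nat_lit 0) (XT.lf (nat_lit 0) (nat_lit 8599595479) (nat_lit 304) (nat_lit 9415852357) (nat_lit 76) (nat_lit 426955018997) (nat_lit 75) (nat_lit 5) (nat_lit 79) (nat_lit 5) (nat_lit 76) (nat_lit 5) (nat_lit 467) (nat_lit 454) (nat_lit 279)) (XT.nd (nat_lit 78) (nat_lit 228) (nat_lit 0) (XT.lf (nat_lit 0) (nat_lit 83195656155) (nat_lit 304) (nat_lit 206496138101) (nat_lit 76) (nat_lit 175378640568) (nat_lit 72) (nat_lit 5) (nat_lit 76) (nat_lit 5) (nat_lit 73) (nat_lit 5) (nat_lit 468) (nat_lit 454) (nat_lit 278)) (XT.lf (nat_lit 0)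 (nat_lit 64534966206) (nat_lit 228) (nat_lit 101508527639) (nat_lit 304) (nat_lit 320552179039) (nat_lit 69) (nat_lit 5) (nat_lit 72) (nat_lit 5) (nat_lit 73) (nat_lit 5) (nat_lit 469) (nat_lit 454) (nat_lit 277)))) (XT.nd (nat_lit 156) (nat_lit 228) (nat_lit 0) (XT.nd (nat_lit 78) (nat_lit 152) (nat_lit 0) (XT.lf (nat_lit 0) (nat_lit 263758331499) (nat_lit 304) (nat_lit 142992374368) (nat_lit 76) (nat_lit 102433090290) (nat_lit 69) (nat_lit 5) (nat_lit 73) (nat_lit 5) (nat_lit 70) (nat_lit 5) (nat_lit 470) (nat_lit 454) (nat_lit 276)) (XT.lf (nat_lit 0) (nat_lit 163967085111) (nat_lit 152) (nat_lit 211903231012) (nat_lit 228) (nat_lit 157182256376) (nat_lit 67) (nat_lit 5) (nat_lit 69) (nat_lit 5) (nat_lit 70) (nat_lit 5) (nat_lit 471) (nat_lit 454) (nat_lit 275))) (XT.nd (nat_lit 78) (nat_lit 228) (nat_lit 0) (XT.lf (nat_lit 0) (nat_lit 500927133440) (nat_lit 228) (nat_lit 54968971843)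 (nat_lit 76) (nat_lit 2616675754) (nat_lit 67) (nat_lit 5) (nat_lit 70) (nat_lit 5) (nat_lit 68) (nat_lit 5) (nat_lit 472) (nat_lit 454) (nat_lit 274)) (XT.lf (nat_lit 0) (nat_lit 60366312326) (nat_lit 228) (nat_lit 293080629215) (nat_lit 76) (nat_lit 231435684911) (nat_lit 64) (nat_lit 5) (nat_lit 67) (nat_lit 5) (nat_lit 65) (nat_lit 5) (nat_lit 473) (nat_lit 454) (nat_lit 273)))))) (XT.nd (nat_lit 546) (nat_lit 684) (nat_lit 0) (XT.nd (nat_lit 234) (nat_lit 304) (nat_lit 0) (XT.nd (nat_lit 78) (nat_lit 152) (nat_lit 0) (XT.lf (nat_lit 0) (nat_lit 57542652465) (nat_lit 152) (nat_lit 130026511674) (nat_lit 228) (nat_lit 425439168410) (nat_lit 62) (nat_lit 5) (nat_lit 64) (nat_lit 5) (nat_lit 65) (nat_lit 5) (nat_lit 474) (nat_lit 454) (nat_lit 272)) (XT.nd (nat_lit 78) (nat_lit 152) (nat_lit 0) (XT.lf (nat_lit 0) (nat_lit 335845681765) (nat_lit 228) (nat_lit 192743652607) (nat_lit 76) (nat_lit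 113922965752) (nat_lit 62) (nat_lit 5) (nat_lit 65) (nat_lit 5) (nat_lit 63) (nat_lit 5) (nat_lit 475) (nat_lit 454) (nat_lit 271)) (XT.lf (nat_lit 0) (nat_lit 205919716407) (nat_lit 152) (nat_lit 298394260670) (nat_lit 228) (nat_lit 169396235527) (nat_lit 60) (nat_lit 5) (nat_lit 62) (nat_lit 5) (nat_lit 63) (nat_lit 5) (nat_lit 476) (nat_lit 454) (nat_lit 270)))) (XT.nd (nat_lit 156) (nat_lit 152) (nat_lit 0) (XT.nd (nat_lit 78) (nat_lit 152) (nat_lit 0) (XT.lf (nat_lit 0) (nat_lit 647437611573) (nat_lit 152) (nat_lit 44092048740) (nat_lit 228) (nat_lit 15452703827) (nat_lit 60) (nat_lit 5) (nat_lit 62) (nat_lit 5) (nat_lit 63) (nat_lit 5) (nat_lit 477) (nat_lit 454) (nat_lit 269)) (XT.lf (nat_lit 0) (nat_lit 158712648030) (nat_lit 152) (nat_lit 350124037352) (nat_lit 76) (nat_lit 232553428385) (nat_lit 58) (nat_lit 5) (nat_lit 60) (nat_lit 5) (nat_lit 59) (nat_lit 5) (nat_lit 478) (nat_lit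 454) (nat_lit 268))) (XT.nd (nat_lit 78) (nat_lit 0) (nat_lit 0) (XT.lf (nat_lit 0) (nat_lit 106864755241) (nat_lit 152) (nat_lit 244497292985) (nat_lit 228) (nat_lit 426725472220) (nat_lit 56) (nat_lit 5) (nat_lit 58) (nat_lit 5) (nat_lit 59) (nat_lit 5) (nat_lit 479) (nat_lit 454) (nat_lit 267)) (XT.lf (nat_lit 0) (nat_lit 570230828037) (nat_lit 228) (nat_lit 197864850224) (nat_lit 76) (nat_lit 48760447192) (nat_lit 56) (nat_lit 5) (nat_lit 59) (nat_lit 5) (nat_lit 57) (nat_lit 4) (nat_lit 480) (nat_lit 454) (nat_lit 266))))) (XT.nd (nat_lit 234) (nat_lit 380) (nat_lit 0) (XT.nd (nat_lit 78) (nat_lit 228) (nat_lit 0) (XT.lf (nat_lit 0) (nat_lit 323177736645) (nat_lit 76) (nat_lit 497554360727) (nat_lit 152) (nat_lit 36864282518) (nat_lit 55) (nat_lit 5) (nat_lit 56) (nat_lit 5) (nat_lit 57) (nat_lit 4) (nat_lit 481) (nat_lit 454) (nat_lit 265)) (XT.nd (nat_lit 78) (nat_lit 152) (nat_lit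 0) (XT.lf (nat_lit 0) (nat_lit 185739641616) (nat_lit 152) (nat_lit 8708888579) (nat_lit 76) (nat_lit 706338346758) (nat_lit 54) (nat_lit 5) (nat_lit 56) (nat_lit 5) (nat_lit 55) (nat_lit 5) (nat_lit 482) (nat_lit 454) (nat_lit 264)) (XT.lf (nat_lit 0) (nat_lit 441877591985) (nat_lit 228) (nat_lit 362325276285) (nat_lit 76) (nat_lit 141735757119) (nat_lit 52) (nat_lit 5) (nat_lit 55) (nat_lit 5) (nat_lit 53) (nat_lit 4) (nat_lit 483) (nat_lit 454) (nat_lit 263)))) (XT.nd (nat_lit 156) (nat_lit 228) (nat_lit 0) (XT.nd (nat_lit 78) (nat_lit 76) (nat_lit 0) (XT.lf (nat_lit 0) (nat_lit 235875812020) (nat_lit 76) (nat_lit 493598475887) (nat_lit 152) (nat_lit 264350809031) (nat_lit 51) (nat_lit 5) (nat_lit 52) (nat_lit 5) (nat_lit 53) (nat_lit 4) (nat_lit 484) (nat_lit 454) (nat_lit 262)) (XT.lf (nat_lit 0) (nat_lit 4973461121) (nat_lit 152) (nat_lit 142337160228) (nat_lit 76) (nat_lit 897429264514)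 (nat_lit 50) (nat_lit 5) (nat_lit 52) (nat_lit 5) (nat_lit 51) (nat_lit 5) (nat_lit 485) (nat_lit 454) (nat_lit 261))) (XT.nd (nat_lit 78) (nat_lit 76) (nat_lit 0) (XT.lf (nat_lit 0) (nat_lit 300585557474) (nat_lit 228) (nat_lit 561292018928) (nat_lit 76) (nat_lit 235779085555) (nat_lit 48) (nat_lit 5) (nat_lit 51) (nat_lit 5) (nat_lit 49) (nat_lit 4) (nat_lit 486) (nat_lit 454) (nat_lit 260)) (XT.lf (nat_lit 0) (nat_lit 125302772135) (nat_lit 76) (nat_lit 505376448746) (nat_lit 152) (nat_lit 523260951312) (nat_lit 47) (nat_lit 5) (nat_lit 48) (nat_lit 5) (nat_lit 49) (nat_lit 4) (nat_lit 487) (nat_lit 454) (nat_lit 259))))))) (XT.nd (nat_lit 1092) (nat_lit 988) (nat_lit 0) (XT.nd (nat_lit 546) (nat_lit 456) (nat_lit 0) (XT.nd (nat_lit 234) (nat_lit 304) (nat_lit 0) (XT.nd (nat_lit 78) (nat_lit 152) (nat_lit 0) (XT.lf (nat_lit 0) (nat_lit 898746285346) (nat_lit 76) (nat_lit 103780791255)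 (nat_lit 152) (nat_lit 210971550708) (nat_lit 47) (nat_lit 5) (nat_lit 48) (nat_lit 5) (nat_lit 49) (nat_lit 4) (nat_lit 488) (nat_lit 454) (nat_lit 258)) (XT.nd (nat_lit 78) (nat_lit 0) (nat_lit 0) (XT.lf (nat_lit 0) (nat_lit 139768501330) (nat_lit 152) (nat_lit 807901941952) (nat_lit 76) (nat_lit 328325465220) (nat_lit 45) (nat_lit 5) (nat_lit 47) (nat_lit 5) (nat_lit 46) (nat_lit 4) (nat_lit 489) (nat_lit 454) (nat_lit 257)) (XT.lf (nat_lit 0) (nat_lit 518694817227) (nat_lit 152) (nat_lit 19735226070) (nat_lit 76) (nat_lit 803702546193) (nat_lit 45) (nat_lit 5) (nat_lit 47) (nat_lit 5) (nat_lit 46) (nat_lit 4) (nat_lit 490) (nat_lit 454) (nat_lit 256)))) (XT.nd (nat_lit 156) (nat_lit 152) (nat_lit 0) (XT.nd (nat_lit 78) (nat_lit 76) (nat_lit 0) (XT.lf (nat_lit 0) (nat_lit 875269311302) (nat_lit 76) (nat_lit 73716158324) (nat_lit 152) (nat_lit 462890716835) (nat_lit 44) (nat_lit 5) (nat_lit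 45) (nat_lit 5) (nat_lit 46) (nat_lit 4) (nat_lit 491) (nat_lit 454) (nat_lit 255)) (XT.lf (nat_lit 0) (nat_lit 363723740160) (nat_lit 76) (nat_lit 1069574408821) (nat_lit 76) (nat_lit 52333220225) (nat_lit 43) (nat_lit 4) (nat_lit 44) (nat_lit 5) (nat_lit 44) (nat_lit 4) (nat_lit 492) (nat_lit 454) (nat_lit 254))) (XT.nd (nat_lit 78) (nat_lit 76) (nat_lit 0) (XT.lf (nat_lit 0) (nat_lit 388473584147) (nat_lit 152) (nat_lit 209216149139) (nat_lit 76) (nat_lit 965487411452) (nat_lit 42) (nat_lit 5) (nat_lit 44) (nat_lit 5) (nat_lit 43) (nat_lit 4) (nat_lit 493) (nat_lit 454) (nat_lit 253)) (XT.lf (nat_lit 0) (nat_lit 815948356695) (nat_lit 76) (nat_lit 65392785266) (nat_lit 152) (nat_lit 763906811016) (nat_lit 41) (nat_lit 5) (nat_lit 42) (nat_lit 5) (nat_lit 43) (nat_lit 4) (nat_lit 494) (nat_lit 454) (nat_lit 252))))) (XT.nd (nat_lit 234) (nat_lit 228) (nat_lit 0) (XT.nd (nat_lit 78) (nat_lit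 152) (nat_lit 0) (XT.lf (nat_lit 0) (nat_lit 199158437224) (nat_lit 76) (nat_lit 1237391534421) (nat_lit 76) (nat_lit 295501504850) (nat_lit 40) (nat_lit 4) (nat_lit 41) (nat_lit 5) (nat_lit 41) (nat_lit 4) (nat_lit 495) (nat_lit 454) (nat_lit 251)) (XT.nd (nat_lit 78) (nat_lit 76) (nat_lit 0) (XT.lf (nat_lit 0) (nat_lit 224814322906) (nat_lit 152) (nat_lit 474276249370) (nat_lit 76) (nat_lit 1124306987920) (nat_lit 39) (nat_lit 5) (nat_lit 41) (nat_lit 5) (nat_lit 40) (nat_lit 4) (nat_lit 496) (nat_lit 454) (nat_lit 250)) (XT.lf (nat_lit 0) (nat_lit 696180248093) (nat_lit 76) (nat_lit 91353549842) (nat_lit 152) (nat_lit 1132564052543) (nat_lit 38) (nat_lit 5) (nat_lit 39) (nat_lit 5) (nat_lit 40) (nat_lit 4) (nat_lit 497) (nat_lit 454) (nat_lit 249)))) (XT.nd (nat_lit 156) (nat_lit 76) (nat_lit 0) (XT.nd (nat_lit 78) (nat_lit 152) (nat_lit 0) (XT.lf (nat_lit 0) (nat_lit 1422163511862) (nat_lit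 152) (nat_lit 50176153035) (nat_lit 0) (nat_lit 550043084615) (nat_lit 38) (nat_lit 5) (nat_lit 40) (nat_lit 4) (nat_lit 38) (nat_lit 4) (nat_lit 498) (nat_lit 454) (nat_lit 248)) (XT.lf (nat_lit 0) (nat_lit 9973375484) (nat_lit 152) (nat_lit 851375814652) (nat_lit 76) (nat_lit 1268830281215) (nat_lit 36) (nat_lit 5) (nat_lit 38) (nat_lit 5) (nat_lit 37) (nat_lit 4) (nat_lit 499) (nat_lit 454) (nat_lit 247))) (XT.nd (nat_lit 78) (nat_lit 0) (nat_lit 0) (XT.lf (nat_lit 0) (nat_lit 478790505696) (nat_lit 76) (nat_lit 170685912162) (nat_lit 152) (nat_lit 1594842508343) (nat_lit 35) (nat_lit 5) (nat_lit 36) (nat_lit 5) (nat_lit 37) (nat_lit 4) (nat_lit 500) (nat_lit 454) (nat_lit 246)) (XT.lf (nat_lit 0) (nat_lit 1377856746554) (nat_lit 152) (nat_lit 416377616696) (nat_lit 0) (nat_lit 570337810755) (nat_lit 35) (nat_lit 5) (nat_lit 37) (nat_lit 4) (nat_lit 35) (nat_lit 4) (nat_lit 501) (nat_lit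 454) (nat_lit 245)))))) (XT.nd (nat_lit 546) (nat_lit 456) (nat_lit 0) (XT.nd (nat_lit 234) (nat_lit 304) (nat_lit 0) (XT.nd (nat_lit 78) (nat_lit 152) (nat_lit 0) (XT.lf (nat_lit 0) (nat_lit 1090840065433) (nat_lit 76) (nat_lit 1104335554361) (nat_lit 76) (nat_lit 296816612379) (nat_lit 34) (nat_lit 4) (nat_lit 35) (nat_lit 5) (nat_lit 35) (nat_lit 4) (nat_lit 502) (nat_lit 454) (nat_lit 244)) (XT.nd (nat_lit 78) (nat_lit 0) (nat_lit 0) (XT.lf (nat_lit 0) (nat_lit 107942799163) (nat_lit 76) (nat_lit 332183040678) (nat_lit 152) (nat_lit 2187475477440) (nat_lit 32) (nat_lit 5) (nat_lit 33) (nat_lit 5) (nat_lit 34) (nat_lit 4) (nat_lit 503) (nat_lit 454) (nat_lit 243)) (XT.lf (nat_lit 0) (nat_lit 1271359816968) (nat_lit 152) (nat_lit 974315712914) (nat_lit 0) (nat_lit 523657082699) (nat_lit 32) (nat_lit 5) (nat_lit 34) (nat_lit 4) (nat_lit 32) (nat_lit 4) (nat_lit 504) (nat_lit 454) (nat_lit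 242)))) (XT.nd (nat_lit 156) (nat_lit 152) (nat_lit 0) (XT.nd (nat_lit 78) (nat_lit 76) (nat_lit 0) (XT.lf (nat_lit 0) (nat_lit 722151296375) (nat_lit 76) (nat_lit 1472937091930) (nat_lit 76) (nat_lit 725234353116) (nat_lit 31) (nat_lit 4) (nat_lit 32) (nat_lit 5) (nat_lit 32) (nat_lit 4) (nat_lit 505) (nat_lit 454) (nat_lit 241)) (XT.lf (nat_lit 0) (nat_lit 131185820168) (nat_lit 152) (nat_lit 474836237070) (nat_lit 76) (nat_lit 2474973169924) (nat_lit 30) (nat_lit 5) (nat_lit 32) (nat_lit 5) (nat_lit 31) (nat_lit 4) (nat_lit 506) (nat_lit 454) (nat_lit 240))) (XT.nd (nat_lit 78) (nat_lit 76) (nat_lit 0) (XT.lf (nat_lit 0) (nat_lit 1060890033665) (nat_lit 152) (nat_lit 1820035668723) (nat_lit 0) (nat_lit 368572675407) (nat_lit 29) (nat_lit 5) (nat_lit 31) (nat_lit 4) (nat_lit 29) (nat_lit 4) (nat_lit 507) (nat_lit 454) (nat_lit 239)) (XT.lf (nat_lit 0) (nat_lit 70095150097) (nat_lit 76)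 (nat_lit 2025622128226) (nat_lit 76) (nat_lit 1333304766627) (nat_lit 28) (nat_lit 4) (nat_lit 29) (nat_lit 5) (nat_lit 29) (nat_lit 4) (nat_lit 508) (nat_lit 454) (nat_lit 238))))) (XT.nd (nat_lit 312) (nat_lit 228) (nat_lit 0) (XT.nd (nat_lit 156) (nat_lit 76) (nat_lit 0) (XT.nd (nat_lit 78) (nat_lit 152) (nat_lit 0) (XT.lf (nat_lit 0) (nat_lit 2214943455711) (nat_lit 76) (nat_lit 1048150237600) (nat_lit 76) (nat_lit 355832872907) (nat_lit 28) (nat_lit 4) (nat_lit 29) (nat_lit 5) (nat_lit 29) (nat_lit 4) (nat_lit 509) (nat_lit 454) (nat_lit 237)) (XT.lf (nat_lit 0) (nat_lit 683381822123) (nat_lit 152) (nat_lit 3095463619674) (nat_lit 0) (nat_lit 42347222533) (nat_lit 26) (nat_lit 5) (nat_lit 28) (nat_lit 4) (nat_lit 26) (nat_lit 4) (nat_lit 510) (nat_lit 454) (nat_lit 236))) (XT.nd (nat_lit 78) (nat_lit 76) (nat_lit 0) (XT.lf (nat_lit 0) (nat_lit 1853118608691) (nat_lit 152) (nat_lit 968369311292)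 (nat_lit 0) (nat_lit 1212084006646) (nat_lit 26) (nat_lit 5) (nat_lit 28) (nat_lit 4) (nat_lit 26) (nat_lit 4) (nat_lit 511) (nat_lit 454) (nat_lit 235)) (XT.lf (nat_lit 0) (nat_lit 1398869649567) (nat_lit 76) (nat_lit 1751207528728) (nat_lit 76) (nat_lit 1110172924409) (nat_lit 25) (nat_lit 4) (nat_lit 26) (nat_lit 5) (nat_lit 26) (nat_lit 4) (nat_lit 512) (nat_lit 454) (nat_lit 234)))) (XT.nd (nat_lit 156) (nat_lit 76) (nat_lit 0) (XT.nd (nat_lit 78) (nat_lit 76) (nat_lit 0) (XT.lf (nat_lit 0) (nat_lit 70606942786) (nat_lit 152) (nat_lit 494172165427) (nat_lit 76) (nat_lit 3938022269272) (nat_lit 24) (nat_lit 5) (nat_lit 26) (nat_lit 5) (nat_lit 25) (nat_lit 4) (nat_lit 513) (nat_lit 454) (nat_lit 233)) (XT.lf (nat_lit 0) (nat_lit 1356673551930) (nat_lit 152) (nat_lit 2636989158778) (nat_lit 0) (nat_lit 763122988620) (nat_lit 23) (nat_lit 5) (nat_lit 25) (nat_lit 4) (nat_lit 23) (nat_lit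 4) (nat_lit 514) (nat_lit 454) (nat_lit 232))) (XT.nd (nat_lit 78) (nat_lit 76) (nat_lit 0) (XT.lf (nat_lit 0) (nat_lit 2774157561000) (nat_lit 152) (nat_lit 74041644204) (nat_lit 0) (nat_lit 2180606996019) (nat_lit 23) (nat_lit 5) (nat_lit 25) (nat_lit 4) (nat_lit 23) (nat_lit 4) (nat_lit 515) (nat_lit 454) (nat_lit 231)) (XT.lf (nat_lit 0) (nat_lit 2835799850050) (nat_lit 76) (nat_lit 1537441487984) (nat_lit 76) (nat_lit 943890921456) (nat_lit 22) (nat_lit 4) (nat_lit 23) (nat_lit 5) (nat_lit 23) (nat_lit 4) (nat_lit 516) (nat_lit 454) (nat_lit 230))))))))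
noncomputable def xc203 : XT := (XT.nd (nat_lit 58032) (nat_lit 0) (nat_lit 3040) (XT.nd (nat_lit 1092) (nat_lit 304) (nat_lit 0) (XT.nd (nat_lit 546) (nat_lit 380) (nat_lit 0) (XT.nd (nat_lit 234) (nat_lit 228) (nat_lit 0) (XT.nd (nat_lit 78) (nat_lit 76) (nat_lit 0) (XT.lf (nat_lit 0) (nat_lit 360934796734) (nat_lit 76) (nat_lit 97952397830) (nat_lit 152) (nat_lit 5167869003757) (nat_lit 20) (nat_lit 5) (nat_lit 21) (nat_lit 5) (nat_lit 22) (nat_lit 4) (nat_lit 517) (nat_lit 454) (nat_lit 229)) (XT.nd (nat_lit 78) (nat_lit 76) (nat_lit 0) (XT.lf (nat_lit 0) (nat_lit 2027532703466) (nat_lit 152) (nat_lit 2445335992392) (nat_lit 0) (nat_lit 1477948843015) (nat_lit 20) (nat_lit 5) (nat_lit 22) (nat_lit 4) (nat_lit 20) (nat_lit 4) (nat_lit 518) (nat_lit 454) (nat_lit 228)) (XT.lf (nat_lit 0) (nat_lit 629746487249) (nat_lit 76) (nat_lit 3109612995325) (nat_lit 76) (nat_lit 2560029133736) (nat_lit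 19) (nat_lit 4) (nat_lit 20) (nat_lit 5) (nat_lit 20) (nat_lit 4) (nat_lit 519) (nat_lit 454) (nat_lit 227)))) (XT.nd (nat_lit 156) (nat_lit 76) (nat_lit 0) (XT.nd (nat_lit 78) (nat_lit 152) (nat_lit 0) (XT.lf (nat_lit 0) (nat_lit 4089903976311) (nat_lit 76) (nat_lit 1565088240619) (nat_lit 76) (nat_lit 1015504377977) (nat_lit 19) (nat_lit 4) (nat_lit 20) (nat_lit 5) (nat_lit 20) (nat_lit 4) (nat_lit 520) (nat_lit 454) (nat_lit 226)) (XT.lf (nat_lit 0) (nat_lit 642040131888) (nat_lit 152) (nat_lit 6293063119205) (nat_lit 0) (nat_lit 133166184094) (nat_lit 17) (nat_lit 5) (nat_lit 19) (nat_lit 4) (nat_lit 17) (nat_lit 4) (nat_lit 521) (nat_lit 454) (nat_lit 225))) (XT.nd (nat_lit 78) (nat_lit 76) (nat_lit 0) (XT.lf (nat_lit 0) (nat_lit 2490366875809) (nat_lit 152) (nat_lit 3014850777819) (nat_lit 0) (nat_lit 1981492927179) (nat_lit 17) (nat_lit 5) (nat_lit 19) (nat_lit 4) (nat_lit 17) (nat_lit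 4) (nat_lit 522) (nat_lit 454) (nat_lit 224)) (XT.lf (nat_lit 0) (nat_lit 553296679693) (nat_lit 76) (nat_lit 3946569872189) (nat_lit 76) (nat_lit 3437695922785) (nat_lit 16) (nat_lit 4) (nat_lit 17) (nat_lit 5) (nat_lit 17) (nat_lit 4) (nat_lit 523) (nat_lit 454) (nat_lit 223))))) (XT.nd (nat_lit 234) (nat_lit 228) (nat_lit 0) (XT.nd (nat_lit 78) (nat_lit 152) (nat_lit 0) (XT.lf (nat_lit 0) (nat_lit 4578353157266) (nat_lit 76) (nat_lit 2174204402150) (nat_lit 76) (nat_lit 1665330452029) (nat_lit 16) (nat_lit 4) (nat_lit 17) (nat_lit 5) (nat_lit 17) (nat_lit 4) (nat_lit 524) (nat_lit 454) (nat_lit 222)) (XT.nd (nat_lit 78) (nat_lit 76) (nat_lit 0) (XT.lf (nat_lit 0) (nat_lit 236377053956) (nat_lit 152) (nat_lit 17209678554) (nat_lit 76) (nat_lit 8682574120738) (nat_lit 15) (nat_lit 5) (nat_lit 17) (nat_lit 5) (nat_lit 16) (nat_lit 4) (nat_lit 525) (nat_lit 454) (nat_lit 221)) (XT.lf (nat_lit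 0) (nat_lit 2350814124147) (nat_lit 152) (nat_lit 5249941306738) (nat_lit 0) (nat_lit 1879634539519) (nat_lit 14) (nat_lit 5) (nat_lit 16) (nat_lit 4) (nat_lit 14) (nat_lit 4) (nat_lit 526) (nat_lit 454) (nat_lit 220)))) (XT.nd (nat_lit 156) (nat_lit 152) (nat_lit 0) (XT.nd (nat_lit 78) (nat_lit 76) (nat_lit 0) (XT.lf (nat_lit 0) (nat_lit 4641475588362) (nat_lit 152) (nat_lit 1255820271092) (nat_lit 0) (nat_lit 4170296003206) (nat_lit 14) (nat_lit 5) (nat_lit 16) (nat_lit 4) (nat_lit 14) (nat_lit 4) (nat_lit 527) (nat_lit 454) (nat_lit 219)) (XT.lf (nat_lit 0) (nat_lit 3218850369818) (nat_lit 76) (nat_lit 3973953024093) (nat_lit 76) (nat_lit 3502773438450) (nat_lit 13) (nat_lit 4) (nat_lit 14) (nat_lit 5) (nat_lit 14) (nat_lit 4) (nat_lit 528) (nat_lit 454) (nat_lit 218))) (XT.nd (nat_lit 78) (nat_lit 152) (nat_lit 0) (XT.lf (nat_lit 0) (nat_lit 8122914264307) (nat_lit 76) (nat_lit 1859659506824)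 (nat_lit 76) (nat_lit 1388479920729) (nat_lit 13) (nat_lit 4) (nat_lit 14) (nat_lit 5) (nat_lit 14) (nat_lit 4) (nat_lit 529) (nat_lit 454) (nat_lit 217)) (XT.lf (nat_lit 0) (nat_lit 894632400996) (nat_lit 152) (nat_lit 10742303817887) (nat_lit 0) (nat_lit 458355006076) (nat_lit 11) (nat_lit 5) (nat_lit 13) (nat_lit 4) (nat_lit 11) (nat_lit 4) (nat_lit 530) (nat_lit 454) (nat_lit 216)))))) (XT.nd (nat_lit 546) (nat_lit 76) (nat_lit 0) (XT.nd (nat_lit 234) (nat_lit 152) (nat_lit 0) (XT.nd (nat_lit 78) (nat_lit 76) (nat_lit 0) (XT.lf (nat_lit 0) (nat_lit 3424799206884) (nat_lit 152) (nat_lit 6450108030848) (nat_lit 0) (nat_lit 2988521811606) (nat_lit 11) (nat_lit 5) (nat_lit 13) (nat_lit 4) (nat_lit 11) (nat_lit 4) (nat_lit 531) (nat_lit 454) (nat_lit 215)) (XT.nd (nat_lit 78) (nat_lit 76) (nat_lit 0) (XT.lf (nat_lit 0) (nat_lit 6157379353296) (nat_lit 152) (nat_lit 1814536589001) (nat_lit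 0) (nat_lit 5721101957686) (nat_lit 11) (nat_lit 5) (nat_lit 13) (nat_lit 4) (nat_lit 11) (nat_lit 4) (nat_lit 532) (nat_lit 454) (nat_lit 214)) (XT.lf (nat_lit 0) (nat_lit 3359959334469) (nat_lit 76) (nat_lit 5829413676098) (nat_lit 76) (nat_lit 5393136280180) (nat_lit 10) (nat_lit 4) (nat_lit 11) (nat_lit 5) (nat_lit 11) (nat_lit 4) (nat_lit 533) (nat_lit 454) (nat_lit 213)))) (XT.nd (nat_lit 156) (nat_lit 152) (nat_lit 0) (XT.nd (nat_lit 78) (nat_lit 0) (nat_lit 0) (XT.lf (nat_lit 0) (nat_lit 9051609228093) (nat_lit 76) (nat_lit 3461929574746) (nat_lit 76) (nat_lit 3025652178543) (nat_lit 10) (nat_lit 4) (nat_lit 11) (nat_lit 5) (nat_lit 11) (nat_lit 4) (nat_lit 534) (nat_lit 454) (nat_lit 212)) (XT.lf (nat_lit 0) (nat_lit 15198591106392) (nat_lit 76) (nat_lit 905046748802) (nat_lit 76) (nat_lit 468769352336) (nat_lit 10) (nat_lit 4) (nat_lit 11) (nat_lit 5) (nat_lit 11) (nat_lit 4) (nat_lit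 535) (nat_lit 454) (nat_lit 211))) (XT.nd (nat_lit 78) (nat_lit 0) (nat_lit 0) (XT.lf (nat_lit 0) (nat_lit 2330389451149) (nat_lit 152) (nat_lit 13414858196255) (nat_lit 0) (nat_lit 1926428898640) (nat_lit 8) (nat_lit 5) (nat_lit 10) (nat_lit 4) (nat_lit 8) (nat_lit 4) (nat_lit 536) (nat_lit 454) (nat_lit 210)) (XT.lf (nat_lit 0) (nat_lit 5390201160594) (nat_lit 152) (nat_lit 8476507923183) (nat_lit 0) (nat_lit 4986240607875) (nat_lit 8) (nat_lit 5) (nat_lit 10) (nat_lit 4) (nat_lit 8) (nat_lit 4) (nat_lit 537) (nat_lit 454) (nat_lit 209))))) (XT.nd (nat_lit 56082) (nat_lit 0) (nat_lit 6004) (XT.nd (nat_lit 78) (nat_lit 76) (nat_lit 0) (XT.lf (nat_lit 0) (nat_lit 8694797803895) (nat_lit 152) (nat_lit 3143089634261) (nat_lit 0) (nat_lit 8290837250983) (nat_lit 8) (nat_lit 5) (nat_lit 10) (nat_lit 4) (nat_lit 8) (nat_lit 4) (nat_lit 538) (nat_lit 454) (nat_lit 208)) (XT.nd (nat_lit 55926)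 (nat_lit 0) (nat_lit 6536) (XT.lf (nat_lit 0) (nat_lit 2754808805725) (nat_lit 76) (nat_lit 9575206588282) (nat_lit 76) (nat_lit 9171246035191) (nat_lit 7) (nat_lit 4) (nat_lit 8) (nat_lit 5) (nat_lit 8) (nat_lit 4) (nat_lit 539) (nat_lit 454) (nat_lit 207)) (XT.lf (nat_lit 0) (nat_lit 138040896387) (nat_lit 532) (nat_lit 922710299) (nat_lit 532) (nat_lit 922710299) (nat_lit 93) (nat_lit 3) (nat_lit 100) (nat_lit 3) (nat_lit 100) (nat_lit 5) (nat_lit 455) (nat_lit 455) (nat_lit 290)))) (XT.nd (nat_lit 156) (nat_lit 0) (nat_lit 76) (XT.nd (nat_lit 78) (nat_lit 532) (nat_lit 0) (XT.lf (nat_lit 76) (nat_lit 144721154693) (nat_lit 0) (nat_lit 145885246507) (nat_lit 532) (nat_lit 78631087) (nat_lit 94) (nat_lit 5) (nat_lit 93) (nat_lit 3) (nat_lit 100) (nat_lit 5) (nat_lit 456) (nat_lit 455) (nat_lit 289)) (XT.lf (nat_lit 76) (nat_lit 587729023) (nat_lit 0) (nat_lit 3109427469) (nat_lit 608)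 (nat_lit 298760645751) (nat_lit 87) (nat_lit 5) (nat_lit 86) (nat_lit 5) (nat_lit 94) (nat_lit 5) (nat_lit 457) (nat_lit 455) (nat_lit 288))) (XT.nd (nat_lit 78) (nat_lit 0) (nat_lit 0) (XT.lf (nat_lit 0) (nat_lit 15498934576) (nat_lit 532) (nat_lit 151427999987) (nat_lit 608) (nat_lit 147627041801) (nat_lit 87) (nat_lit 5) (nat_lit 94) (nat_lit 5) (nat_lit 95) (nat_lit 5) (nat_lit 458) (nat_lit 455) (nat_lit 287)) (XT.lf (nat_lit 76) (nat_lit 11546212235) (nat_lit 0) (nat_lit 17057022852) (nat_lit 608) (nat_lit 298985938924) (nat_lit 88) (nat_lit 5) (nat_lit 87) (nat_lit 5) (nat_lit 95) (nat_lit 5) (nat_lit 459) (nat_lit 455) (nat_lit 286))))))) (XT.nd (nat_lit 1092) (nat_lit 1520) (nat_lit 0) (XT.nd (nat_lit 546) (nat_lit 912) (nat_lit 0) (XT.nd (nat_lit 234) (nat_lit 684) (nat_lit 0) (XT.nd (nat_lit 78) (nat_lit 0) (nat_lit 0) (XT.lf (nat_lit 0) (nat_lit 50486166819) (nat_lit 532) (nat_lit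 148755855690) (nat_lit 608) (nat_lit 141806741992) (nat_lit 88) (nat_lit 5) (nat_lit 95) (nat_lit 5) (nat_lit 96) (nat_lit 5) (nat_lit 460) (nat_lit 455) (nat_lit 285)) (XT.nd (nat_lit 78) (nat_lit 0) (nat_lit 76) (XT.lf (nat_lit 76) (nat_lit 33128341962) (nat_lit 0) (nat_lit 42231106641) (nat_lit 608) (nat_lit 280126496396) (nat_lit 89) (nat_lit 5) (nat_lit 88) (nat_lit 5) (nat_lit 96) (nat_lit 5) (nat_lit 461) (nat_lit 455) (nat_lit 284)) (XT.lf (nat_lit 0) (nat_lit 109457973030) (nat_lit 532) (nat_lit 135897811347) (nat_lit 76) (nat_lit 125143485157) (nat_lit 89) (nat_lit 5) (nat_lit 96) (nat_lit 5) (nat_lit 90) (nat_lit 5) (nat_lit 462) (nat_lit 455) (nat_lit 283)))) (XT.nd (nat_lit 156) (nat_lit 228) (nat_lit 0) (XT.nd (nat_lit 78) (nat_lit 0) (nat_lit 0) (XT.lf (nat_lit 0) (nat_lit 67772032668) (nat_lit 532) (nat_lit 81239123996) (nat_lit 608) (nat_lit 237484361194) (nat_lit 82) (nat_lit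 5) (nat_lit 89) (nat_lit 5) (nat_lit 90) (nat_lit 5) (nat_lit 463) (nat_lit 455) (nat_lit 282)) (XT.lf (nat_lit 0) (nat_lit 197849710043) (nat_lit 608) (nat_lit 110415650324) (nat_lit 76) (nat_lit 95016416481) (nat_lit 82) (nat_lit 5) (nat_lit 90) (nat_lit 5) (nat_lit 83) (nat_lit 5) (nat_lit 464) (nat_lit 455) (nat_lit 281))) (XT.nd (nat_lit 78) (nat_lit 0) (nat_lit 0) (XT.lf (nat_lit 0) (nat_lit 118367896214) (nat_lit 228) (nat_lit 137184262303) (nat_lit 304) (nat_lit 165462233181) (nat_lit 79) (nat_lit 5) (nat_lit 82) (nat_lit 5) (nat_lit 83) (nat_lit 5) (nat_lit 465) (nat_lit 455) (nat_lit 280)) (XT.lf (nat_lit 0) (nat_lit 322112512230) (nat_lit 304) (nat_lit 69413383036) (nat_lit 76) (nat_lit 48300383726) (nat_lit 79) (nat_lit 5) (nat_lit 83) (nat_lit 5) (nat_lit 80) (nat_lit 5) (nat_lit 466) (nat_lit 455) (nat_lit 279))))) (XT.nd (nat_lit 234) (nat_lit 380) (nat_lit 0) (XT.nd (nat_lit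 78) (nat_lit 304) (nat_lit 0) (XT.lf (nat_lit 0) (nat_lit 188336455102) (nat_lit 228) (nat_lit 213753921518) (nat_lit 304) (nat_lit 57405326063) (nat_lit 76) (nat_lit 5) (nat_lit 79) (nat_lit 5) (nat_lit 80) (nat_lit 5) (nat_lit 467) (nat_lit 455) (nat_lit 278)) (XT.nd (nat_lit 78) (nat_lit 228) (nat_lit 0) (XT.lf (nat_lit 0) (nat_lit 9288354589) (nat_lit 304) (nat_lit 10168166721) (nat_lit 76) (nat_lit 461111519477) (nat_lit 75) (nat_lit 5) (nat_lit 79) (nat_lit 5) (nat_lit 76) (nat_lit 5) (nat_lit 468) (nat_lit 455) (nat_lit 277)) (XT.lf (nat_lit 0) (nat_lit 89852068046) (nat_lit 304) (nat_lit 223014843181) (nat_lit 76) (nat_lit 189409097561) (nat_lit 72) (nat_lit 5) (nat_lit 76) (nat_lit 5) (nat_lit 73) (nat_lit 5) (nat_lit 469) (nat_lit 455) (nat_lit 276)))) (XT.nd (nat_lit 156) (nat_lit 152) (nat_lit 0) (XT.nd (nat_lit 78) (nat_lit 0) (nat_lit 0) (XT.lf (nat_lit 0) (nat_lit 69698724509)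 (nat_lit 228) (nat_lit 109628975103) (nat_lit 304) (nat_lit 346195568937) (nat_lit 69) (nat_lit 5) (nat_lit 72) (nat_lit 5) (nat_lit 73) (nat_lit 5) (nat_lit 470) (nat_lit 455) (nat_lit 275)) (XT.lf (nat_lit 0) (nat_lit 284859675709) (nat_lit 304) (nat_lit 154430825867) (nat_lit 76) (nat_lit 110627943999) (nat_lit 69) (nat_lit 5) (nat_lit 73) (nat_lit 5) (nat_lit 70) (nat_lit 5) (nat_lit 471) (nat_lit 455) (nat_lit 274))) (XT.nd (nat_lit 78) (nat_lit 0) (nat_lit 0) (XT.lf (nat_lit 0) (nat_lit 177085366612) (nat_lit 152) (nat_lit 228855224290) (nat_lit 228) (nat_lit 169756135382) (nat_lit 67) (nat_lit 5) (nat_lit 69) (nat_lit 5) (nat_lit 70) (nat_lit 5) (nat_lit 472) (nat_lit 455) (nat_lit 273)) (XT.lf (nat_lit 0) (nat_lit 541001911399) (nat_lit 228) (nat_lit 59365600398) (nat_lit 76) (nat_lit 2826243089) (nat_lit 67) (nat_lit 5) (nat_lit 70) (nat_lit 5) (nat_lit 68) (nat_lit 5) (nat_lit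 473) (nat_lit 455) (nat_lit 272)))))) (XT.nd (nat_lit 546) (nat_lit 684) (nat_lit 0) (XT.nd (nat_lit 234) (nat_lit 456) (nat_lit 0) (XT.nd (nat_lit 78) (nat_lit 152) (nat_lit 0) (XT.lf (nat_lit 0) (nat_lit 65196215648) (nat_lit 228) (nat_lit 316526181319) (nat_lit 76) (nat_lit 249950791690) (nat_lit 64) (nat_lit 5) (nat_lit 67) (nat_lit 5) (nat_lit 65) (nat_lit 5) (nat_lit 474) (nat_lit 455) (nat_lit 271)) (XT.nd (nat_lit 78) (nat_lit 0) (nat_lit 0) (XT.lf (nat_lit 0) (nat_lit 62146940155) (nat_lit 152) (nat_lit 140428332185) (nat_lit 228) (nat_lit 459473680767) (nat_lit 62) (nat_lit 5) (nat_lit 64) (nat_lit 5) (nat_lit 65) (nat_lit 5) (nat_lit 475) (nat_lit 455) (nat_lit 270)) (XT.lf (nat_lit 0) (nat_lit 362713875469) (nat_lit 228) (nat_lit 208162298228) (nat_lit 76) (nat_lit 123037067266) (nat_lit 62) (nat_lit 5) (nat_lit 65) (nat_lit 5) (nat_lit 63) (nat_lit 5) (nat_lit 476) (nat_lit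 455) (nat_lit 269)))) (XT.nd (nat_lit 156) (nat_lit 304) (nat_lit 0) (XT.nd (nat_lit 78) (nat_lit 0) (nat_lit 0) (XT.lf (nat_lit 0) (nat_lit 222394118874) (nat_lit 152) (nat_lit 322265495439) (nat_lit 228) (nat_lit 182947373739) (nat_lit 60) (nat_lit 5) (nat_lit 62) (nat_lit 5) (nat_lit 63) (nat_lit 5) (nat_lit 477) (nat_lit 455) (nat_lit 268)) (XT.lf (nat_lit 0) (nat_lit 699233384532) (nat_lit 152) (nat_lit 47619129227) (nat_lit 228) (nat_lit 16688401031) (nat_lit 60) (nat_lit 5) (nat_lit 62) (nat_lit 5) (nat_lit 63) (nat_lit 5) (nat_lit 478) (nat_lit 455) (nat_lit 267))) (XT.nd (nat_lit 78) (nat_lit 152) (nat_lit 0) (XT.lf (nat_lit 0) (nat_lit 171410142091) (nat_lit 152) (nat_lit 378133159366) (nat_lit 76) (nat_lit 251157982807) (nat_lit 58) (nat_lit 5) (nat_lit 60) (nat_lit 5) (nat_lit 59) (nat_lit 5) (nat_lit 479) (nat_lit 455) (nat_lit 266)) (XT.lf (nat_lit 0) (nat_lit 115414716357)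 (nat_lit 152) (nat_lit 264056761000) (nat_lit 228) (nat_lit 460863007477) (nat_lit 56) (nat_lit 5) (nat_lit 58) (nat_lit 5) (nat_lit 59) (nat_lit 5) (nat_lit 480) (nat_lit 455) (nat_lit 265))))) (XT.nd (nat_lit 312) (nat_lit 380) (nat_lit 0) (XT.nd (nat_lit 156) (nat_lit 228) (nat_lit 0) (XT.nd (nat_lit 78) (nat_lit 76) (nat_lit 0) (XT.lf (nat_lit 0) (nat_lit 615849732113) (nat_lit 228) (nat_lit 213693287910) (nat_lit 76) (nat_lit 52661560416) (nat_lit 56) (nat_lit 5) (nat_lit 59) (nat_lit 5) (nat_lit 57) (nat_lit 4) (nat_lit 481) (nat_lit 455) (nat_lit 264)) (XT.lf (nat_lit 0) (nat_lit 349032686913) (nat_lit 76) (nat_lit 537358401239) (nat_lit 152) (nat_lit 39812968269) (nat_lit 55) (nat_lit 5) (nat_lit 56) (nat_lit 5) (nat_lit 57) (nat_lit 4) (nat_lit 482) (nat_lit 455) (nat_lit 263))) (XT.nd (nat_lit 78) (nat_lit 152) (nat_lit 0) (XT.lf (nat_lit 0) (nat_lit 200599214794) (nat_lit 152)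 (nat_lit 9404901323) (nat_lit 76) (nat_lit 762845678826) (nat_lit 54) (nat_lit 5) (nat_lit 56) (nat_lit 5) (nat_lit 55) (nat_lit 5) (nat_lit 483) (nat_lit 455) (nat_lit 262)) (XT.lf (nat_lit 0) (nat_lit 477228194824) (nat_lit 228) (nat_lit 391310593658) (nat_lit 76) (nat_lit 153074895281) (nat_lit 52) (nat_lit 5) (nat_lit 55) (nat_lit 5) (nat_lit 53) (nat_lit 4) (nat_lit 484) (nat_lit 455) (nat_lit 261)))) (XT.nd (nat_lit 156) (nat_lit 228) (nat_lit 0) (XT.nd (nat_lit 78) (nat_lit 76) (nat_lit 0) (XT.lf (nat_lit 0) (nat_lit 254746563870) (nat_lit 76) (nat_lit 533086049775) (nat_lit 152) (nat_lit 285498460416) (nat_lit 51) (nat_lit 5) (nat_lit 52) (nat_lit 5) (nat_lit 53) (nat_lit 4) (nat_lit 485) (nat_lit 455) (nat_lit 260)) (XT.lf (nat_lit 0) (nat_lit 5371701585) (nat_lit 152) (nat_lit 153723477880) (nat_lit 76) (nat_lit 969223868167) (nat_lit 50) (nat_lit 5) (nat_lit 52) (nat_lit 5) (nat_lit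 51) (nat_lit 5) (nat_lit 486) (nat_lit 455) (nat_lit 259))) (XT.nd (nat_lit 78) (nat_lit 76) (nat_lit 0) (XT.lf (nat_lit 0) (nat_lit 324632760966) (nat_lit 228) (nat_lit 606194720582) (nat_lit 76) (nat_lit 254641684643) (nat_lit 48) (nat_lit 5) (nat_lit 51) (nat_lit 5) (nat_lit 49) (nat_lit 4) (nat_lit 487) (nat_lit 455) (nat_lit 258)) (XT.lf (nat_lit 0) (nat_lit 135327637061) (nat_lit 76) (nat_lit 545806269267) (nat_lit 152) (nat_lit 565121451807) (nat_lit 47) (nat_lit 5) (nat_lit 48) (nat_lit 5) (nat_lit 49) (nat_lit 4) (nat_lit 488) (nat_lit 455) (nat_lit 257))))))))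
noncomputable def xc204 : XT := (XT.nd (nat_lit 2184) (nat_lit 1140) (nat_lit 0) (XT.nd (nat_lit 1092) (nat_lit 912) (nat_lit 0) (XT.nd (nat_lit 546) (nat_lit 456) (nat_lit 0) (XT.nd (nat_lit 234) (nat_lit 304) (nat_lit 0) (XT.nd (nat_lit 78) (nat_lit 152) (nat_lit 0) (XT.lf (nat_lit 0) (nat_lit 970646583688) (nat_lit 76) (nat_lit 112082981057) (nat_lit 152) (nat_lit 227848926977) (nat_lit 47) (nat_lit 5) (nat_lit 48) (nat_lit 5) (nat_lit 49) (nat_lit 4) (nat_lit 489) (nat_lit 455) (nat_lit 256)) (XT.nd (nat_lit 78) (nat_lit 0) (nat_lit 0) (XT.lf (nat_lit 0) (nat_lit 150950308385) (nat_lit 152) (nat_lit 872533480935) (nat_lit 76) (nat_lit 354591765696) (nat_lit 45) (nat_lit 5) (nat_lit 47) (nat_lit 5) (nat_lit 46) (nat_lit 4) (nat_lit 490) (nat_lit 455) (nat_lit 255)) (XT.lf (nat_lit 0) (nat_lit 560190705336) (nat_lit 152) (nat_lit 21313473440) (nat_lit 76) (nat_lit 867998993646) (nat_lit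 45) (nat_lit 5) (nat_lit 47) (nat_lit 5) (nat_lit 46) (nat_lit 4) (nat_lit 491) (nat_lit 455) (nat_lit 254)))) (XT.nd (nat_lit 156) (nat_lit 152) (nat_lit 0) (XT.nd (nat_lit 78) (nat_lit 76) (nat_lit 0) (XT.lf (nat_lit 0) (nat_lit 945291412473) (nat_lit 76) (nat_lit 79613188407) (nat_lit 152) (nat_lit 499921656995) (nat_lit 44) (nat_lit 5) (nat_lit 45) (nat_lit 5) (nat_lit 46) (nat_lit 4) (nat_lit 492) (nat_lit 455) (nat_lit 253)) (XT.lf (nat_lit 0) (nat_lit 392822198310) (nat_lit 76) (nat_lit 1155140093809) (nat_lit 76) (nat_lit 56519563319) (nat_lit 43) (nat_lit 4) (nat_lit 44) (nat_lit 5) (nat_lit 44) (nat_lit 4) (nat_lit 493) (nat_lit 455) (nat_lit 252))) (XT.nd (nat_lit 78) (nat_lit 76) (nat_lit 0) (XT.lf (nat_lit 0) (nat_lit 419551747538) (nat_lit 152) (nat_lit 225952908961) (nat_lit 76) (nat_lit 1042726637680) (nat_lit 42) (nat_lit 5) (nat_lit 44) (nat_lit 5) (nat_lit 43) (nat_lit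 4) (nat_lit 494) (nat_lit 455) (nat_lit 251)) (XT.lf (nat_lit 0) (nat_lit 881224743869) (nat_lit 76) (nat_lit 70623958088) (nat_lit 152) (nat_lit 825019065761) (nat_lit 41) (nat_lit 5) (nat_lit 42) (nat_lit 5) (nat_lit 43) (nat_lit 4) (nat_lit 495) (nat_lit 455) (nat_lit 250))))) (XT.nd (nat_lit 234) (nat_lit 228) (nat_lit 0) (XT.nd (nat_lit 78) (nat_lit 152) (nat_lit 0) (XT.lf (nat_lit 0) (nat_lit 215091632802) (nat_lit 76) (nat_lit 1336382603401) (nat_lit 76) (nat_lit 319141337060) (nat_lit 40) (nat_lit 4) (nat_lit 41) (nat_lit 5) (nat_lit 41) (nat_lit 4) (nat_lit 496) (nat_lit 455) (nat_lit 249)) (XT.nd (nat_lit 78) (nat_lit 76) (nat_lit 0) (XT.lf (nat_lit 0) (nat_lit 242799722222) (nat_lit 152) (nat_lit 512217853930) (nat_lit 76) (nat_lit 1214251768576) (nat_lit 39) (nat_lit 5) (nat_lit 41) (nat_lit 5) (nat_lit 40) (nat_lit 4) (nat_lit 497) (nat_lit 455) (nat_lit 248)) (XT.lf (nat_lit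 0) (nat_lit 751875150789) (nat_lit 76) (nat_lit 98661597301) (nat_lit 152) (nat_lit 1223168910717) (nat_lit 38) (nat_lit 5) (nat_lit 39) (nat_lit 5) (nat_lit 40) (nat_lit 4) (nat_lit 498) (nat_lit 455) (nat_lit 247)))) (XT.nd (nat_lit 156) (nat_lit 76) (nat_lit 0) (XT.nd (nat_lit 78) (nat_lit 152) (nat_lit 0) (XT.lf (nat_lit 0) (nat_lit 1535936826152) (nat_lit 152) (nat_lit 54189785213) (nat_lit 0) (nat_lit 594046739437) (nat_lit 38) (nat_lit 5) (nat_lit 40) (nat_lit 4) (nat_lit 38) (nat_lit 4) (nat_lit 499) (nat_lit 455) (nat_lit 246)) (XT.lf (nat_lit 0) (nat_lit 10771478259) (nat_lit 152) (nat_lit 919485419148) (nat_lit 76) (nat_lit 1370336913030) (nat_lit 36) (nat_lit 5) (nat_lit 38) (nat_lit 5) (nat_lit 37) (nat_lit 4) (nat_lit 500) (nat_lit 455) (nat_lit 245))) (XT.nd (nat_lit 78) (nat_lit 0) (nat_lit 0) (XT.lf (nat_lit 0) (nat_lit 517094195166) (nat_lit 76) (nat_lit 184340562416) (nat_lit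 152) (nat_lit 1722429664608) (nat_lit 35) (nat_lit 5) (nat_lit 36) (nat_lit 5) (nat_lit 37) (nat_lit 4) (nat_lit 501) (nat_lit 455) (nat_lit 244)) (XT.lf (nat_lit 0) (nat_lit 1488085500770) (nat_lit 152) (nat_lit 449687398473) (nat_lit 0) (nat_lit 615965031520) (nat_lit 35) (nat_lit 5) (nat_lit 37) (nat_lit 4) (nat_lit 35) (nat_lit 4) (nat_lit 502) (nat_lit 455) (nat_lit 243)))))) (XT.nd (nat_lit 546) (nat_lit 380) (nat_lit 0) (XT.nd (nat_lit 234) (nat_lit 304) (nat_lit 0) (XT.nd (nat_lit 78) (nat_lit 152) (nat_lit 0) (XT.lf (nat_lit 0) (nat_lit 1178107687403) (nat_lit 76) (nat_lit 1192682190601) (nat_lit 76) (nat_lit 320561716049) (nat_lit 34) (nat_lit 4) (nat_lit 35) (nat_lit 5) (nat_lit 35) (nat_lit 4) (nat_lit 503) (nat_lit 455) (nat_lit 242)) (XT.nd (nat_lit 78) (nat_lit 0) (nat_lit 0) (XT.lf (nat_lit 0) (nat_lit 116578640269) (nat_lit 76) (nat_lit 358757474985) (nat_lit 152) (nat_lit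 2362473290749) (nat_lit 32) (nat_lit 5) (nat_lit 33) (nat_lit 5) (nat_lit 34) (nat_lit 4) (nat_lit 504) (nat_lit 455) (nat_lit 241)) (XT.lf (nat_lit 0) (nat_lit 1373068799780) (nat_lit 152) (nat_lit 1052260572902) (nat_lit 0) (nat_lit 565549833107) (nat_lit 32) (nat_lit 5) (nat_lit 34) (nat_lit 4) (nat_lit 32) (nat_lit 4) (nat_lit 505) (nat_lit 455) (nat_lit 240)))) (XT.nd (nat_lit 156) (nat_lit 152) (nat_lit 0) (XT.nd (nat_lit 78) (nat_lit 76) (nat_lit 0) (XT.lf (nat_lit 0) (nat_lit 779923787079) (nat_lit 76) (nat_lit 1590771864427) (nat_lit 76) (nat_lit 783252893857) (nat_lit 31) (nat_lit 4) (nat_lit 32) (nat_lit 5) (nat_lit 32) (nat_lit 4) (nat_lit 506) (nat_lit 455) (nat_lit 239)) (XT.lf (nat_lit 0) (nat_lit 141680868308) (nat_lit 152) (nat_lit 512822768096) (nat_lit 76) (nat_lit 2672971194328) (nat_lit 30) (nat_lit 5) (nat_lit 32) (nat_lit 5) (nat_lit 31) (nat_lit 4) (nat_lit 507) (nat_lit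 455) (nat_lit 238))) (XT.nd (nat_lit 78) (nat_lit 76) (nat_lit 0) (XT.lf (nat_lit 0) (nat_lit 1145761418342) (nat_lit 152) (nat_lit 1965638153736) (nat_lit 0) (nat_lit 398058661380) (nat_lit 29) (nat_lit 5) (nat_lit 31) (nat_lit 4) (nat_lit 29) (nat_lit 4) (nat_lit 508) (nat_lit 455) (nat_lit 237)) (XT.lf (nat_lit 0) (nat_lit 75703121260) (nat_lit 76) (nat_lit 2187671716470) (nat_lit 76) (nat_lit 1439968956644) (nat_lit 28) (nat_lit 4) (nat_lit 29) (nat_lit 5) (nat_lit 29) (nat_lit 4) (nat_lit 509) (nat_lit 455) (nat_lit 236))))) (XT.nd (nat_lit 234) (nat_lit 228) (nat_lit 0) (XT.nd (nat_lit 78) (nat_lit 152) (nat_lit 0) (XT.lf (nat_lit 0) (nat_lit 2392139264720) (nat_lit 76) (nat_lit 1132002088076) (nat_lit 76) (nat_lit 384299325598) (nat_lit 28) (nat_lit 4) (nat_lit 29) (nat_lit 5) (nat_lit 29) (nat_lit 4) (nat_lit 510) (nat_lit 455) (nat_lit 235)) (XT.nd (nat_lit 78) (nat_lit 0) (nat_lit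 0) (XT.lf (nat_lit 0) (nat_lit 738052535775) (nat_lit 152) (nat_lit 3343100367434) (nat_lit 0) (nat_lit 45735160836) (nat_lit 26) (nat_lit 5) (nat_lit 28) (nat_lit 4) (nat_lit 26) (nat_lit 4) (nat_lit 511) (nat_lit 455) (nat_lit 234)) (XT.lf (nat_lit 0) (nat_lit 2001368252833) (nat_lit 152) (nat_lit 1045838539700) (nat_lit 0) (nat_lit 1309050875789) (nat_lit 26) (nat_lit 5) (nat_lit 28) (nat_lit 4) (nat_lit 26) (nat_lit 4) (nat_lit 512) (nat_lit 455) (nat_lit 233)))) (XT.nd (nat_lit 156) (nat_lit 76) (nat_lit 0) (XT.nd (nat_lit 78) (nat_lit 76) (nat_lit 0) (XT.lf (nat_lit 0) (nat_lit 1510779530015) (nat_lit 76) (nat_lit 1891303973895) (nat_lit 76) (nat_lit 1198986594901) (nat_lit 25) (nat_lit 4) (nat_lit 26) (nat_lit 5) (nat_lit 26) (nat_lit 4) (nat_lit 513) (nat_lit 455) (nat_lit 232)) (XT.lf (nat_lit 0) (nat_lit 76255641990) (nat_lit 152) (nat_lit 533705645458) (nat_lit 76) (nat_lit 4253064188734)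 (nat_lit 24) (nat_lit 5) (nat_lit 26) (nat_lit 5) (nat_lit 25) (nat_lit 4) (nat_lit 514) (nat_lit 455) (nat_lit 231))) (XT.nd (nat_lit 78) (nat_lit 0) (nat_lit 0) (XT.lf (nat_lit 0) (nat_lit 1465207579593) (nat_lit 152) (nat_lit 2847947998005) (nat_lit 0) (nat_lit 824172966196) (nat_lit 23) (nat_lit 5) (nat_lit 25) (nat_lit 4) (nat_lit 23) (nat_lit 4) (nat_lit 515) (nat_lit 455) (nat_lit 230)) (XT.lf (nat_lit 0) (nat_lit 2996090298759) (nat_lit 152) (nat_lit 79964704003) (nat_lit 0) (nat_lit 2355055683928) (nat_lit 23) (nat_lit 5) (nat_lit 25) (nat_lit 4) (nat_lit 23) (nat_lit 4) (nat_lit 516) (nat_lit 455) (nat_lit 229))))))) (XT.nd (nat_lit 1092) (nat_lit 380) (nat_lit 0) (XT.nd (nat_lit 546) (nat_lit 304) (nat_lit 0) (XT.nd (nat_lit 234) (nat_lit 228) (nat_lit 0) (XT.nd (nat_lit 78) (nat_lit 152) (nat_lit 0) (XT.lf (nat_lit 0) (nat_lit 3062664102911) (nat_lit 76) (nat_lit 1660436671571)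 (nat_lit 76) (nat_lit 1019402055414) (nat_lit 22) (nat_lit 4) (nat_lit 23) (nat_lit 5) (nat_lit 23) (nat_lit 4) (nat_lit 517) (nat_lit 455) (nat_lit 228)) (XT.nd (nat_lit 78) (nat_lit 0) (nat_lit 0) (XT.lf (nat_lit 0) (nat_lit 389809845440) (nat_lit 76) (nat_lit 105788453995) (nat_lit 152) (nat_lit 5581298384407) (nat_lit 20) (nat_lit 5) (nat_lit 21) (nat_lit 5) (nat_lit 22) (nat_lit 4) (nat_lit 518) (nat_lit 455) (nat_lit 227)) (XT.lf (nat_lit 0) (nat_lit 2189735442492) (nat_lit 152) (nat_lit 2640962619885) (nat_lit 0) (nat_lit 1596184869785) (nat_lit 20) (nat_lit 5) (nat_lit 22) (nat_lit 4) (nat_lit 20) (nat_lit 4) (nat_lit 519) (nat_lit 455) (nat_lit 226)))) (XT.nd (nat_lit 156) (nat_lit 152) (nat_lit 0) (XT.nd (nat_lit 78) (nat_lit 0) (nat_lit 0) (XT.lf (nat_lit 0) (nat_lit 680126451749) (nat_lit 76) (nat_lit 3358381908991) (nat_lit 76) (nat_lit 2764831335309) (nat_lit 19) (nat_lit 4)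 (nat_lit 20) (nat_lit 5) (nat_lit 20) (nat_lit 4) (nat_lit 520) (nat_lit 455) (nat_lit 225)) (XT.lf (nat_lit 0) (nat_lit 4417096521750) (nat_lit 76) (nat_lit 1690295183239) (nat_lit 76) (nat_lit 1096744608655) (nat_lit 19) (nat_lit 4) (nat_lit 20) (nat_lit 5) (nat_lit 20) (nat_lit 4) (nat_lit 521) (nat_lit 455) (nat_lit 224))) (XT.nd (nat_lit 78) (nat_lit 0) (nat_lit 0) (XT.lf (nat_lit 0) (nat_lit 693403455883) (nat_lit 152) (nat_lit 6796507935290) (nat_lit 0) (nat_lit 143819589753) (nat_lit 17) (nat_lit 5) (nat_lit 19) (nat_lit 4) (nat_lit 17) (nat_lit 4) (nat_lit 522) (nat_lit 455) (nat_lit 223)) (XT.lf (nat_lit 0) (nat_lit 2689596330915) (nat_lit 152) (nat_lit 3256038623886) (nat_lit 0) (nat_lit 2140012464068) (nat_lit 17) (nat_lit 5) (nat_lit 19) (nat_lit 4) (nat_lit 17) (nat_lit 4) (nat_lit 523) (nat_lit 455) (nat_lit 222))))) (XT.nd (nat_lit 234) (nat_lit 152) (nat_lit 0) (XT.nd (nat_lit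 78) (nat_lit 76) (nat_lit 0) (XT.lf (nat_lit 0) (nat_lit 597560624755) (nat_lit 76) (nat_lit 4262295353605) (nat_lit 76) (nat_lit 3712711486094) (nat_lit 16) (nat_lit 4) (nat_lit 17) (nat_lit 5) (nat_lit 17) (nat_lit 4) (nat_lit 524) (nat_lit 455) (nat_lit 221)) (XT.nd (nat_lit 78) (nat_lit 76) (nat_lit 0) (XT.lf (nat_lit 0) (nat_lit 4944621604927) (nat_lit 76) (nat_lit 2348140653989) (nat_lit 76) (nat_lit 1798556785864) (nat_lit 16) (nat_lit 4) (nat_lit 17) (nat_lit 5) (nat_lit 17) (nat_lit 4) (nat_lit 525) (nat_lit 455) (nat_lit 220)) (XT.lf (nat_lit 0) (nat_lit 255287308281) (nat_lit 152) (nat_lit 18586267469) (nat_lit 76) (nat_lit 9377180138558) (nat_lit 15) (nat_lit 5) (nat_lit 17) (nat_lit 5) (nat_lit 16) (nat_lit 4) (nat_lit 526) (nat_lit 455) (nat_lit 219)))) (XT.nd (nat_lit 156) (nat_lit 76) (nat_lit 0) (XT.nd (nat_lit 78) (nat_lit 0) (nat_lit 0) (XT.lf (nat_lit 0) (nat_lit 2538879344002)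 (nat_lit 152) (nat_lit 5669936425822) (nat_lit 0) (nat_lit 2030005391019) (nat_lit 14) (nat_lit 5) (nat_lit 16) (nat_lit 4) (nat_lit 14) (nat_lit 4) (nat_lit 527) (nat_lit 455) (nat_lit 218)) (XT.lf (nat_lit 0) (nat_lit 5012793718692) (nat_lit 152) (nat_lit 1356285721062) (nat_lit 0) (nat_lit 4503919765258) (nat_lit 14) (nat_lit 5) (nat_lit 16) (nat_lit 4) (nat_lit 14) (nat_lit 4) (nat_lit 528) (nat_lit 455) (nat_lit 217))) (XT.nd (nat_lit 78) (nat_lit 0) (nat_lit 0) (XT.lf (nat_lit 0) (nat_lit 3476358566775) (nat_lit 76) (nat_lit 4291869179769) (nat_lit 76) (nat_lit 3782995225917) (nat_lit 13) (nat_lit 4) (nat_lit 14) (nat_lit 5) (nat_lit 14) (nat_lit 4) (nat_lit 529) (nat_lit 455) (nat_lit 216)) (XT.lf (nat_lit 0) (nat_lit 8772747560425) (nat_lit 76) (nat_lit 2008432187508) (nat_lit 76) (nat_lit 1499558233268) (nat_lit 13) (nat_lit 4) (nat_lit 14) (nat_lit 5) (nat_lit 14) (nat_lit 4) (nat_lit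 530) (nat_lit 455) (nat_lit 215)))))) (XT.nd (nat_lit 546) (nat_lit 0) (nat_lit 0) (XT.nd (nat_lit 234) (nat_lit 228) (nat_lit 0) (XT.nd (nat_lit 78) (nat_lit 0) (nat_lit 0) (XT.lf (nat_lit 0) (nat_lit 966203070079) (nat_lit 152) (nat_lit 11601687964228) (nat_lit 0) (nat_lit 495023482488) (nat_lit 11) (nat_lit 5) (nat_lit 13) (nat_lit 4) (nat_lit 11) (nat_lit 4) (nat_lit 531) (nat_lit 455) (nat_lit 214)) (XT.nd (nat_lit 78) (nat_lit 0) (nat_lit 0) (XT.lf (nat_lit 0) (nat_lit 3698783214734) (nat_lit 152) (nat_lit 6966116526011) (nat_lit 0) (nat_lit 3227603626836) (nat_lit 11) (nat_lit 5) (nat_lit 13) (nat_lit 4) (nat_lit 11) (nat_lit 4) (nat_lit 532) (nat_lit 455) (nat_lit 213)) (XT.lf (nat_lit 0) (nat_lit 6649969767578) (nat_lit 152) (nat_lit 1959699379727) (nat_lit 0) (nat_lit 6178790179395) (nat_lit 11) (nat_lit 5) (nat_lit 13) (nat_lit 4) (nat_lit 11) (nat_lit 4) (nat_lit 533) (nat_lit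 455) (nat_lit 212)))) (XT.nd (nat_lit 156) (nat_lit 152) (nat_lit 0) (XT.nd (nat_lit 78) (nat_lit 0) (nat_lit 0) (XT.lf (nat_lit 0) (nat_lit 3628756214168) (nat_lit 76) (nat_lit 6295766701571) (nat_lit 76) (nat_lit 5824587113124) (nat_lit 10) (nat_lit 4) (nat_lit 11) (nat_lit 5) (nat_lit 11) (nat_lit 4) (nat_lit 534) (nat_lit 455) (nat_lit 211)) (XT.lf (nat_lit 0) (nat_lit 9775738089433) (nat_lit 76) (nat_lit 3738883877192) (nat_lit 76) (nat_lit 3267704288502) (nat_lit 10) (nat_lit 4) (nat_lit 11) (nat_lit 5) (nat_lit 11) (nat_lit 4) (nat_lit 535) (nat_lit 455) (nat_lit 210))) (XT.nd (nat_lit 78) (nat_lit 152) (nat_lit 0) (XT.lf (nat_lit 0) (nat_lit 16414478508878) (nat_lit 76) (nat_lit 977450429879) (nat_lit 76) (nat_lit 506270840962) (nat_lit 10) (nat_lit 4) (nat_lit 11) (nat_lit 5) (nat_lit 11) (nat_lit 4) (nat_lit 536) (nat_lit 455) (nat_lit 209)) (XT.lf (nat_lit 0) (nat_lit 2516820663788)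 (nat_lit 152) (nat_lit 14488046734967) (nat_lit 0) (nat_lit 2080543266449) (nat_lit 8) (nat_lit 5) (nat_lit 10) (nat_lit 4) (nat_lit 8) (nat_lit 4) (nat_lit 537) (nat_lit 455) (nat_lit 208))))) (XT.nd (nat_lit 56238) (nat_lit 0) (nat_lit 5928) (XT.nd (nat_lit 56082) (nat_lit 0) (nat_lit 6460) (XT.nd (nat_lit 78) (nat_lit 0) (nat_lit 0) (XT.lf (nat_lit 0) (nat_lit 5821417305800) (nat_lit 152) (nat_lit 9154628448714) (nat_lit 0) (nat_lit 5385139908281) (nat_lit 8) (nat_lit 5) (nat_lit 10) (nat_lit 4) (nat_lit 8) (nat_lit 4) (nat_lit 538) (nat_lit 455) (nat_lit 207)) (XT.lf (nat_lit 0) (nat_lit 9390381676687) (nat_lit 152) (nat_lit 3394536704703) (nat_lit 0) (nat_lit 8954104279003) (nat_lit 8) (nat_lit 5) (nat_lit 10) (nat_lit 4) (nat_lit 8) (nat_lit 4) (nat_lit 539) (nat_lit 455) (nat_lit 206))) (XT.nd (nat_lit 78) (nat_lit 0) (nat_lit 0) (XT.lf (nat_lit 0) (nat_lit 149084938575) (nat_lit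 532) (nat_lit 996111014) (nat_lit 532) (nat_lit 996111014) (nat_lit 93) (nat_lit 3) (nat_lit 100) (nat_lit 3) (nat_lit 100) (nat_lit 5) (nat_lit 456) (nat_lit 456) (nat_lit 288)) (XT.lf (nat_lit 76) (nat_lit 156299658218) (nat_lit 0) (nat_lit 157556701396) (nat_lit 532) (nat_lit 83359361) (nat_lit 94) (nat_lit 5) (nat_lit 93) (nat_lit 3) (nat_lit 100) (nat_lit 5) (nat_lit 457) (nat_lit 456) (nat_lit 287)))) (XT.nd (nat_lit 156) (nat_lit 0) (nat_lit 76) (XT.nd (nat_lit 78) (nat_lit 0) (nat_lit 76) (XT.lf (nat_lit 76) (nat_lit 635614300) (nat_lit 0) (nat_lit 3358709696) (nat_lit 608) (nat_lit 322659990664) (nat_lit 87) (nat_lit 5) (nat_lit 86) (nat_lit 5) (nat_lit 94) (nat_lit 5) (nat_lit 458) (nat_lit 456) (nat_lit 286)) (XT.lf (nat_lit 0) (nat_lit 16740129236) (nat_lit 532) (nat_lit 163541322008) (nat_lit 608) (nat_lit 159436740687) (nat_lit 87) (nat_lit 5) (nat_lit 94) (nat_lit 5) (nat_lit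 95) (nat_lit 5) (nat_lit 459) (nat_lit 456) (nat_lit 285))) (XT.nd (nat_lit 78) (nat_lit 0) (nat_lit 76) (XT.lf (nat_lit 76) (nat_lit 12470803952) (nat_lit 0) (nat_lit 18421896548) (nat_lit 608) (nat_lit 322903510764) (nat_lit 88) (nat_lit 5) (nat_lit 87) (nat_lit 5) (nat_lit 95) (nat_lit 5) (nat_lit 460) (nat_lit 456) (nat_lit 284)) (XT.lf (nat_lit 0) (nat_lit 54526170447) (nat_lit 532) (nat_lit 160655399232) (nat_lit 608) (nat_lit 153151007031) (nat_lit 88) (nat_lit 5) (nat_lit 95) (nat_lit 5) (nat_lit 96) (nat_lit 5) (nat_lit 461) (nat_lit 456) (nat_lit 283))))))))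
noncomputable def xc205 : XT := (XT.nd (nat_lit 2184) (nat_lit 1900) (nat_lit 0) (XT.nd (nat_lit 1092) (nat_lit 1292) (nat_lit 0) (XT.nd (nat_lit 546) (nat_lit 912) (nat_lit 0) (XT.nd (nat_lit 234) (nat_lit 456) (nat_lit 0) (XT.nd (nat_lit 78) (nat_lit 456) (nat_lit 0) (XT.lf (nat_lit 76) (nat_lit 35779510817) (nat_lit 0) (nat_lit 45609743394) (nat_lit 608) (nat_lit 302535482290) (nat_lit 89) (nat_lit 5) (nat_lit 88) (nat_lit 5) (nat_lit 96) (nat_lit 5) (nat_lit 462) (nat_lit 456) (nat_lit 282)) (XT.nd (nat_lit 78) (nat_lit 532) (nat_lit 0) (XT.lf (nat_lit 0) (nat_lit 118215579535) (nat_lit 532) (nat_lit 146768720365) (nat_lit 76) (nat_lit 135154833592) (nat_lit 89) (nat_lit 5) (nat_lit 96) (nat_lit 5) (nat_lit 90) (nat_lit 5) (nat_lit 463) (nat_lit 456) (nat_lit 281)) (XT.lf (nat_lit 0) (nat_lit 73194687984) (nat_lit 532) (nat_lit 87738279593) (nat_lit 608) (nat_lit 256482118136) (nat_lit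 82) (nat_lit 5) (nat_lit 89) (nat_lit 5) (nat_lit 90) (nat_lit 5) (nat_lit 464) (nat_lit 456) (nat_lit 280)))) (XT.nd (nat_lit 156) (nat_lit 228) (nat_lit 0) (XT.nd (nat_lit 78) (nat_lit 228) (nat_lit 0) (XT.lf (nat_lit 0) (nat_lit 213678536626) (nat_lit 608) (nat_lit 119248007079) (nat_lit 76) (nat_lit 102617707214) (nat_lit 82) (nat_lit 5) (nat_lit 90) (nat_lit 5) (nat_lit 83) (nat_lit 5) (nat_lit 465) (nat_lit 456) (nat_lit 279)) (XT.lf (nat_lit 0) (nat_lit 127838200518) (nat_lit 228) (nat_lit 148158938500) (nat_lit 304) (nat_lit 178698339302) (nat_lit 79) (nat_lit 5) (nat_lit 82) (nat_lit 5) (nat_lit 83) (nat_lit 5) (nat_lit 466) (nat_lit 456) (nat_lit 278))) (XT.nd (nat_lit 78) (nat_lit 228) (nat_lit 0) (XT.lf (nat_lit 0) (nat_lit 347882262632) (nat_lit 304) (nat_lit 74965587232) (nat_lit 76) (nat_lit 52164471411) (nat_lit 79) (nat_lit 5) (nat_lit 83) (nat_lit 5) (nat_lit 80) (nat_lit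 5) (nat_lit 467) (nat_lit 456) (nat_lit 277)) (XT.lf (nat_lit 0) (nat_lit 203404216021) (nat_lit 228) (nat_lit 230854104949) (nat_lit 304) (nat_lit 61996980714) (nat_lit 76) (nat_lit 5) (nat_lit 79) (nat_lit 5) (nat_lit 80) (nat_lit 5) (nat_lit 468) (nat_lit 456) (nat_lit 276))))) (XT.nd (nat_lit 234) (nat_lit 380) (nat_lit 0) (XT.nd (nat_lit 78) (nat_lit 456) (nat_lit 0) (XT.lf (nat_lit 0) (nat_lit 10032101516) (nat_lit 304) (nat_lit 10980802307) (nat_lit 76) (nat_lit 498000525877) (nat_lit 75) (nat_lit 5) (nat_lit 79) (nat_lit 5) (nat_lit 76) (nat_lit 5) (nat_lit 469) (nat_lit 456) (nat_lit 275)) (XT.nd (nat_lit 78) (nat_lit 228) (nat_lit 0) (XT.lf (nat_lit 0) (nat_lit 97040884552) (nat_lit 304) (nat_lit 240855185328) (nat_lit 76) (nat_lit 204561967466) (nat_lit 72) (nat_lit 5) (nat_lit 76) (nat_lit 5) (nat_lit 73) (nat_lit 5) (nat_lit 470) (nat_lit 456) (nat_lit 274)) (XT.lf (nat_lit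 0) (nat_lit 75275446378) (nat_lit 228) (nat_lit 118399091854) (nat_lit 304) (nat_lit 373890541934) (nat_lit 69) (nat_lit 5) (nat_lit 72) (nat_lit 5) (nat_lit 73) (nat_lit 5) (nat_lit 471) (nat_lit 456) (nat_lit 273)))) (XT.nd (nat_lit 156) (nat_lit 228) (nat_lit 0) (XT.nd (nat_lit 78) (nat_lit 152) (nat_lit 0) (XT.lf (nat_lit 0) (nat_lit 307649030776) (nat_lit 304) (nat_lit 166784487367) (nat_lit 76) (nat_lit 119478356546) (nat_lit 69) (nat_lit 5) (nat_lit 73) (nat_lit 5) (nat_lit 70) (nat_lit 5) (nat_lit 472) (nat_lit 456) (nat_lit 272)) (XT.lf (nat_lit 0) (nat_lit 191252980142) (nat_lit 152) (nat_lit 247163414865) (nat_lit 228) (nat_lit 183336024786) (nat_lit 67) (nat_lit 5) (nat_lit 69) (nat_lit 5) (nat_lit 70) (nat_lit 5) (nat_lit 473) (nat_lit 456) (nat_lit 271))) (XT.nd (nat_lit 78) (nat_lit 228) (nat_lit 0) (XT.lf (nat_lit 0) (nat_lit 584282584960) (nat_lit 228) (nat_lit 64114086090)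 (nat_lit 76) (nat_lit 3052542532) (nat_lit 67) (nat_lit 5) (nat_lit 70) (nat_lit 5) (nat_lit 68) (nat_lit 5) (nat_lit 474) (nat_lit 456) (nat_lit 270)) (XT.lf (nat_lit 0) (nat_lit 70412425876) (nat_lit 228) (nat_lit 341847505734) (nat_lit 76) (nat_lit 269947071063) (nat_lit 64) (nat_lit 5) (nat_lit 67) (nat_lit 5) (nat_lit 65) (nat_lit 5) (nat_lit 475) (nat_lit 456) (nat_lit 269)))))) (XT.nd (nat_lit 546) (nat_lit 684) (nat_lit 0) (XT.nd (nat_lit 234) (nat_lit 304) (nat_lit 0) (XT.nd (nat_lit 78) (nat_lit 152) (nat_lit 0) (XT.lf (nat_lit 0) (nat_lit 67119445962) (nat_lit 152) (nat_lit 151662341196) (nat_lit 228) (nat_lit 496231042720) (nat_lit 62) (nat_lit 5) (nat_lit 64) (nat_lit 5) (nat_lit 65) (nat_lit 5) (nat_lit 476) (nat_lit 456) (nat_lit 268)) (XT.nd (nat_lit 78) (nat_lit 152) (nat_lit 0) (XT.lf (nat_lit 0) (nat_lit 391731447751) (nat_lit 228) (nat_lit 224814556274) (nat_lit 76) (nat_lit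 132880259203) (nat_lit 62) (nat_lit 5) (nat_lit 65) (nat_lit 5) (nat_lit 63) (nat_lit 5) (nat_lit 477) (nat_lit 456) (nat_lit 267)) (XT.lf (nat_lit 0) (nat_lit 240186355821) (nat_lit 152) (nat_lit 348046472655) (nat_lit 228) (nat_lit 197582682988) (nat_lit 60) (nat_lit 5) (nat_lit 62) (nat_lit 5) (nat_lit 63) (nat_lit 5) (nat_lit 478) (nat_lit 456) (nat_lit 266)))) (XT.nd (nat_lit 156) (nat_lit 152) (nat_lit 0) (XT.nd (nat_lit 78) (nat_lit 152) (nat_lit 0) (XT.lf (nat_lit 0) (nat_lit 755172710329) (nat_lit 152) (nat_lit 51428416585) (nat_lit 228) (nat_lit 18023028067) (nat_lit 60) (nat_lit 5) (nat_lit 62) (nat_lit 5) (nat_lit 63) (nat_lit 5) (nat_lit 479) (nat_lit 456) (nat_lit 265)) (XT.lf (nat_lit 0) (nat_lit 185123366882) (nat_lit 152) (nat_lit 408383125409) (nat_lit 76) (nat_lit 271250861617) (nat_lit 58) (nat_lit 5) (nat_lit 60) (nat_lit 5) (nat_lit 59) (nat_lit 5) (nat_lit 480) (nat_lit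 456) (nat_lit 264))) (XT.nd (nat_lit 78) (nat_lit 0) (nat_lit 0) (XT.lf (nat_lit 0) (nat_lit 124648562987) (nat_lit 152) (nat_lit 285181031456) (nat_lit 228) (nat_lit 497731617244) (nat_lit 56) (nat_lit 5) (nat_lit 58) (nat_lit 5) (nat_lit 59) (nat_lit 5) (nat_lit 481) (nat_lit 456) (nat_lit 263)) (XT.lf (nat_lit 0) (nat_lit 665118086053) (nat_lit 228) (nat_lit 230788107654) (nat_lit 76) (nat_lit 56874723117) (nat_lit 56) (nat_lit 5) (nat_lit 59) (nat_lit 5) (nat_lit 57) (nat_lit 4) (nat_lit 482) (nat_lit 456) (nat_lit 262))))) (XT.nd (nat_lit 234) (nat_lit 380) (nat_lit 0) (XT.nd (nat_lit 78) (nat_lit 228) (nat_lit 0) (XT.lf (nat_lit 0) (nat_lit 376955928868) (nat_lit 76) (nat_lit 580346808981) (nat_lit 152) (nat_lit 42997614055) (nat_lit 55) (nat_lit 5) (nat_lit 56) (nat_lit 5) (nat_lit 57) (nat_lit 4) (nat_lit 483) (nat_lit 456) (nat_lit 261)) (XT.nd (nat_lit 78) (nat_lit 152) (nat_lit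 0) (XT.lf (nat_lit 0) (nat_lit 216647496499) (nat_lit 152) (nat_lit 10156694712) (nat_lit 76) (nat_lit 823873559749) (nat_lit 54) (nat_lit 5) (nat_lit 56) (nat_lit 5) (nat_lit 55) (nat_lit 5) (nat_lit 484) (nat_lit 456) (nat_lit 260)) (XT.lf (nat_lit 0) (nat_lit 515406789471) (nat_lit 228) (nat_lit 422614836959) (nat_lit 76) (nat_lit 165321124895) (nat_lit 52) (nat_lit 5) (nat_lit 55) (nat_lit 5) (nat_lit 53) (nat_lit 4) (nat_lit 485) (nat_lit 456) (nat_lit 259)))) (XT.nd (nat_lit 156) (nat_lit 228) (nat_lit 0) (XT.nd (nat_lit 78) (nat_lit 76) (nat_lit 0) (XT.lf (nat_lit 0) (nat_lit 275126877875) (nat_lit 76) (nat_lit 575732672969) (nat_lit 152) (nat_lit 308337982879) (nat_lit 51) (nat_lit 5) (nat_lit 52) (nat_lit 5) (nat_lit 53) (nat_lit 4) (nat_lit 486) (nat_lit 456) (nat_lit 258)) (XT.lf (nat_lit 0) (nat_lit 5801749419) (nat_lit 152) (nat_lit 166020794411) (nat_lit 76) (nat_lit 1046762002665)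 (nat_lit 50) (nat_lit 5) (nat_lit 52) (nat_lit 5) (nat_lit 51) (nat_lit 5) (nat_lit 487) (nat_lit 456) (nat_lit 257))) (XT.nd (nat_lit 78) (nat_lit 76) (nat_lit 0) (XT.lf (nat_lit 0) (nat_lit 350603689536) (nat_lit 228) (nat_lit 654689732505) (nat_lit 76) (nat_lit 275013252818) (nat_lit 48) (nat_lit 5) (nat_lit 51) (nat_lit 5) (nat_lit 49) (nat_lit 4) (nat_lit 488) (nat_lit 456) (nat_lit 256)) (XT.lf (nat_lit 0) (nat_lit 146154399428) (nat_lit 76) (nat_lit 589470517568) (nat_lit 152) (nat_lit 610330845926) (nat_lit 47) (nat_lit 5) (nat_lit 48) (nat_lit 5) (nat_lit 49) (nat_lit 4) (nat_lit 489) (nat_lit 456) (nat_lit 255))))))) (XT.nd (nat_lit 1092) (nat_lit 988) (nat_lit 0) (XT.nd (nat_lit 546) (nat_lit 456) (nat_lit 0) (XT.nd (nat_lit 234) (nat_lit 304) (nat_lit 0) (XT.nd (nat_lit 78) (nat_lit 152) (nat_lit 0) (XT.lf (nat_lit 0) (nat_lit 1048298820940) (nat_lit 76) (nat_lit 121049385060)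 (nat_lit 152) (nat_lit 246076542963) (nat_lit 47) (nat_lit 5) (nat_lit 48) (nat_lit 5) (nat_lit 49) (nat_lit 4) (nat_lit 490) (nat_lit 456) (nat_lit 254)) (XT.nd (nat_lit 78) (nat_lit 0) (nat_lit 0) (XT.lf (nat_lit 0) (nat_lit 163026613362) (nat_lit 152) (nat_lit 942335630970) (nat_lit 76) (nat_lit 382959332654) (nat_lit 45) (nat_lit 5) (nat_lit 47) (nat_lit 5) (nat_lit 46) (nat_lit 4) (nat_lit 491) (nat_lit 456) (nat_lit 253)) (XT.lf (nat_lit 0) (nat_lit 605006221306) (nat_lit 152) (nat_lit 23018062019) (nat_lit 76) (nat_lit 937439122121) (nat_lit 45) (nat_lit 5) (nat_lit 47) (nat_lit 5) (nat_lit 46) (nat_lit 4) (nat_lit 492) (nat_lit 456) (nat_lit 252)))) (XT.nd (nat_lit 156) (nat_lit 152) (nat_lit 0) (XT.nd (nat_lit 78) (nat_lit 76) (nat_lit 0) (XT.lf (nat_lit 0) (nat_lit 1020915202380) (nat_lit 76) (nat_lit 85982018357) (nat_lit 152) (nat_lit 539915117617) (nat_lit 44) (nat_lit 5) (nat_lit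 45) (nat_lit 5) (nat_lit 46) (nat_lit 4) (nat_lit 493) (nat_lit 456) (nat_lit 251)) (XT.lf (nat_lit 0) (nat_lit 424248453373) (nat_lit 76) (nat_lit 1247551071790) (nat_lit 76) (nat_lit 61040858730) (nat_lit 43) (nat_lit 4) (nat_lit 44) (nat_lit 5) (nat_lit 44) (nat_lit 4) (nat_lit 494) (nat_lit 456) (nat_lit 250))) (XT.nd (nat_lit 78) (nat_lit 76) (nat_lit 0) (XT.lf (nat_lit 0) (nat_lit 453116124531) (nat_lit 152) (nat_lit 244028685481) (nat_lit 76) (nat_lit 1126144968721) (nat_lit 42) (nat_lit 5) (nat_lit 44) (nat_lit 5) (nat_lit 43) (nat_lit 4) (nat_lit 495) (nat_lit 456) (nat_lit 249)) (XT.lf (nat_lit 0) (nat_lit 951723168026) (nat_lit 76) (nat_lit 76273660401) (nat_lit 152) (nat_lit 891020342278) (nat_lit 41) (nat_lit 5) (nat_lit 42) (nat_lit 5) (nat_lit 43) (nat_lit 4) (nat_lit 496) (nat_lit 456) (nat_lit 248))))) (XT.nd (nat_lit 234) (nat_lit 228) (nat_lit 0) (XT.nd (nat_lit 78) (nat_lit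 152) (nat_lit 0) (XT.lf (nat_lit 0) (nat_lit 232299409757) (nat_lit 76) (nat_lit 1443292994103) (nat_lit 76) (nat_lit 344672396958) (nat_lit 40) (nat_lit 4) (nat_lit 41) (nat_lit 5) (nat_lit 41) (nat_lit 4) (nat_lit 497) (nat_lit 456) (nat_lit 247)) (XT.nd (nat_lit 78) (nat_lit 76) (nat_lit 0) (XT.lf (nat_lit 0) (nat_lit 262223917322) (nat_lit 152) (nat_lit 553194857527) (nat_lit 76) (nat_lit 1311392100068) (nat_lit 39) (nat_lit 5) (nat_lit 41) (nat_lit 5) (nat_lit 40) (nat_lit 4) (nat_lit 498) (nat_lit 456) (nat_lit 246)) (XT.lf (nat_lit 0) (nat_lit 812025576816) (nat_lit 76) (nat_lit 106554322300) (nat_lit 152) (nat_lit 1321022195497) (nat_lit 38) (nat_lit 5) (nat_lit 39) (nat_lit 5) (nat_lit 40) (nat_lit 4) (nat_lit 499) (nat_lit 456) (nat_lit 245)))) (XT.nd (nat_lit 156) (nat_lit 76) (nat_lit 0) (XT.nd (nat_lit 78) (nat_lit 152) (nat_lit 0) (XT.lf (nat_lit 0) (nat_lit 1658811972297)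 (nat_lit 152) (nat_lit 58524573598) (nat_lit 0) (nat_lit 641570656963) (nat_lit 38) (nat_lit 5) (nat_lit 40) (nat_lit 4) (nat_lit 38) (nat_lit 4) (nat_lit 500) (nat_lit 456) (nat_lit 244)) (XT.lf (nat_lit 0) (nat_lit 11633396054) (nat_lit 152) (nat_lit 993043857724) (nat_lit 76) (nat_lit 1479964045528) (nat_lit 36) (nat_lit 5) (nat_lit 38) (nat_lit 5) (nat_lit 37) (nat_lit 4) (nat_lit 501) (nat_lit 456) (nat_lit 243))) (XT.nd (nat_lit 78) (nat_lit 0) (nat_lit 0) (XT.lf (nat_lit 0) (nat_lit 558462115736) (nat_lit 76) (nat_lit 199087616465) (nat_lit 152) (nat_lit 1860223828241) (nat_lit 35) (nat_lit 5) (nat_lit 36) (nat_lit 5) (nat_lit 37) (nat_lit 4) (nat_lit 502) (nat_lit 456) (nat_lit 242)) (XT.lf (nat_lit 0) (nat_lit 1607132524725) (nat_lit 152) (nat_lit 485662023787) (nat_lit 0) (nat_lit 665242401998) (nat_lit 35) (nat_lit 5) (nat_lit 37) (nat_lit 4) (nat_lit 35) (nat_lit 4) (nat_lit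 503) (nat_lit 456) (nat_lit 241)))))) (XT.nd (nat_lit 546) (nat_lit 456) (nat_lit 0) (XT.nd (nat_lit 234) (nat_lit 304) (nat_lit 0) (XT.nd (nat_lit 78) (nat_lit 152) (nat_lit 0) (XT.lf (nat_lit 0) (nat_lit 1272356659679) (nat_lit 76) (nat_lit 1288096587430) (nat_lit 76) (nat_lit 346206460158) (nat_lit 34) (nat_lit 4) (nat_lit 35) (nat_lit 5) (nat_lit 35) (nat_lit 4) (nat_lit 504) (nat_lit 456) (nat_lit 240)) (XT.nd (nat_lit 78) (nat_lit 0) (nat_lit 0) (XT.lf (nat_lit 0) (nat_lit 125905289150) (nat_lit 76) (nat_lit 387457893845) (nat_lit 152) (nat_lit 2551470961206) (nat_lit 32) (nat_lit 5) (nat_lit 33) (nat_lit 5) (nat_lit 34) (nat_lit 4) (nat_lit 505) (nat_lit 456) (nat_lit 239)) (XT.lf (nat_lit 0) (nat_lit 1482914473048) (nat_lit 152) (nat_lit 1136441078332) (nat_lit 0) (nat_lit 610793977328) (nat_lit 32) (nat_lit 5) (nat_lit 34) (nat_lit 4) (nat_lit 32) (nat_lit 4) (nat_lit 506) (nat_lit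 456) (nat_lit 238)))) (XT.nd (nat_lit 156) (nat_lit 152) (nat_lit 0) (XT.nd (nat_lit 78) (nat_lit 76) (nat_lit 0) (XT.lf (nat_lit 0) (nat_lit 842318021829) (nat_lit 76) (nat_lit 1718033446522) (nat_lit 76) (nat_lit 845912947461) (nat_lit 31) (nat_lit 4) (nat_lit 32) (nat_lit 5) (nat_lit 32) (nat_lit 4) (nat_lit 507) (nat_lit 456) (nat_lit 237)) (XT.lf (nat_lit 0) (nat_lit 153015494259) (nat_lit 152) (nat_lit 553848274094) (nat_lit 76) (nat_lit 2886809036317) (nat_lit 30) (nat_lit 5) (nat_lit 32) (nat_lit 5) (nat_lit 31) (nat_lit 4) (nat_lit 508) (nat_lit 456) (nat_lit 236))) (XT.nd (nat_lit 78) (nat_lit 76) (nat_lit 0) (XT.lf (nat_lit 0) (nat_lit 1237422487830) (nat_lit 152) (nat_lit 2122888890119) (nat_lit 0) (nat_lit 429903501702) (nat_lit 29) (nat_lit 5) (nat_lit 31) (nat_lit 4) (nat_lit 29) (nat_lit 4) (nat_lit 509) (nat_lit 456) (nat_lit 235)) (XT.lf (nat_lit 0) (nat_lit 81759678879)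 (nat_lit 76) (nat_lit 2362685297739) (nat_lit 76) (nat_lit 1555166309155) (nat_lit 28) (nat_lit 4) (nat_lit 29) (nat_lit 5) (nat_lit 29) (nat_lit 4) (nat_lit 510) (nat_lit 456) (nat_lit 234))))) (XT.nd (nat_lit 312) (nat_lit 228) (nat_lit 0) (XT.nd (nat_lit 156) (nat_lit 76) (nat_lit 0) (XT.nd (nat_lit 78) (nat_lit 152) (nat_lit 0) (XT.lf (nat_lit 0) (nat_lit 2583510691007) (nat_lit 76) (nat_lit 1222562110632) (nat_lit 76) (nat_lit 415043119775) (nat_lit 28) (nat_lit 4) (nat_lit 29) (nat_lit 5) (nat_lit 29) (nat_lit 4) (nat_lit 511) (nat_lit 456) (nat_lit 233)) (XT.lf (nat_lit 0) (nat_lit 797096882569) (nat_lit 152) (nat_lit 3610548103778) (nat_lit 0) (nat_lit 49394111307) (nat_lit 26) (nat_lit 5) (nat_lit 28) (nat_lit 4) (nat_lit 26) (nat_lit 4) (nat_lit 512) (nat_lit 456) (nat_lit 232))) (XT.nd (nat_lit 78) (nat_lit 76) (nat_lit 0) (XT.lf (nat_lit 0) (nat_lit 2161477846330) (nat_lit 152)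 (nat_lit 1129505351533) (nat_lit 0) (nat_lit 1413775073263) (nat_lit 26) (nat_lit 5) (nat_lit 28) (nat_lit 4) (nat_lit 26) (nat_lit 4) (nat_lit 513) (nat_lit 456) (nat_lit 231)) (XT.lf (nat_lit 0) (nat_lit 1631642156890) (nat_lit 76) (nat_lit 2042608157091) (nat_lit 76) (nat_lit 1294905382353) (nat_lit 25) (nat_lit 4) (nat_lit 26) (nat_lit 5) (nat_lit 26) (nat_lit 4) (nat_lit 514) (nat_lit 456) (nat_lit 230)))) (XT.nd (nat_lit 156) (nat_lit 76) (nat_lit 0) (XT.nd (nat_lit 78) (nat_lit 76) (nat_lit 0) (XT.lf (nat_lit 0) (nat_lit 82356216618) (nat_lit 152) (nat_lit 576401845719) (nat_lit 76) (nat_lit 4593309442077) (nat_lit 24) (nat_lit 5) (nat_lit 26) (nat_lit 5) (nat_lit 25) (nat_lit 4) (nat_lit 515) (nat_lit 456) (nat_lit 229)) (XT.lf (nat_lit 0) (nat_lit 1582424308997) (nat_lit 152) (nat_lit 3075783586237) (nat_lit 0) (nat_lit 890106922220) (nat_lit 23) (nat_lit 5) (nat_lit 25) (nat_lit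 4) (nat_lit 23) (nat_lit 4) (nat_lit 516) (nat_lit 456) (nat_lit 228))) (XT.nd (nat_lit 78) (nat_lit 76) (nat_lit 0) (XT.lf (nat_lit 0) (nat_lit 3235777636581) (nat_lit 152) (nat_lit 86361647353) (nat_lit 0) (nat_lit 2543460248576) (nat_lit 23) (nat_lit 5) (nat_lit 25) (nat_lit 4) (nat_lit 23) (nat_lit 4) (nat_lit 517) (nat_lit 456) (nat_lit 227)) (XT.lf (nat_lit 0) (nat_lit 3307677458217) (nat_lit 76) (nat_lit 1793271489169) (nat_lit 76) (nat_lit 1100954100026) (nat_lit 22) (nat_lit 4) (nat_lit 23) (nat_lit 5) (nat_lit 23) (nat_lit 4) (nat_lit 518) (nat_lit 456) (nat_lit 226))))))))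
noncomputable def xc206 : XT := (XT.nd (nat_lit 58188) (nat_lit 0) (nat_lit 2812) (XT.nd (nat_lit 1092) (nat_lit 228) (nat_lit 0) (XT.nd (nat_lit 546) (nat_lit 380) (nat_lit 0) (XT.nd (nat_lit 234) (nat_lit 228) (nat_lit 0) (XT.nd (nat_lit 78) (nat_lit 76) (nat_lit 0) (XT.lf (nat_lit 0) (nat_lit 420994860242) (nat_lit 76) (nat_lit 114251414006) (nat_lit 152) (nat_lit 6027802135432) (nat_lit 20) (nat_lit 5) (nat_lit 21) (nat_lit 5) (nat_lit 22) (nat_lit 4) (nat_lit 519) (nat_lit 456) (nat_lit 225)) (XT.nd (nat_lit 78) (nat_lit 76) (nat_lit 0) (XT.lf (nat_lit 0) (nat_lit 2364914383128) (nat_lit 152) (nat_lit 2852239413515) (nat_lit 0) (nat_lit 1723879761674) (nat_lit 20) (nat_lit 5) (nat_lit 22) (nat_lit 4) (nat_lit 20) (nat_lit 4) (nat_lit 520) (nat_lit 456) (nat_lit 224)) (XT.lf (nat_lit 0) (nat_lit 734536778384) (nat_lit 76) (nat_lit 3627052353720) (nat_lit 76) (nat_lit 2986017731429) (nat_lit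 19) (nat_lit 4) (nat_lit 20) (nat_lit 5) (nat_lit 20) (nat_lit 4) (nat_lit 521) (nat_lit 456) (nat_lit 223)))) (XT.nd (nat_lit 156) (nat_lit 76) (nat_lit 0) (XT.nd (nat_lit 78) (nat_lit 152) (nat_lit 0) (XT.lf (nat_lit 0) (nat_lit 4770464438393) (nat_lit 76) (nat_lit 1825518697907) (nat_lit 76) (nat_lit 1184484074843) (nat_lit 19) (nat_lit 4) (nat_lit 20) (nat_lit 5) (nat_lit 20) (nat_lit 4) (nat_lit 522) (nat_lit 456) (nat_lit 222)) (XT.lf (nat_lit 0) (nat_lit 748875829614) (nat_lit 152) (nat_lit 7340228369966) (nat_lit 0) (nat_lit 155325252039) (nat_lit 17) (nat_lit 5) (nat_lit 19) (nat_lit 4) (nat_lit 17) (nat_lit 4) (nat_lit 523) (nat_lit 456) (nat_lit 221))) (XT.nd (nat_lit 78) (nat_lit 76) (nat_lit 0) (XT.lf (nat_lit 0) (nat_lit 2904764127444) (nat_lit 152) (nat_lit 3516521528476) (nat_lit 0) (nat_lit 2311213549254) (nat_lit 17) (nat_lit 5) (nat_lit 19) (nat_lit 4) (nat_lit 17) (nat_lit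 4) (nat_lit 524) (nat_lit 456) (nat_lit 220)) (XT.lf (nat_lit 0) (nat_lit 645365655365) (nat_lit 76) (nat_lit 4603278888993) (nat_lit 76) (nat_lit 4009728310234) (nat_lit 16) (nat_lit 4) (nat_lit 17) (nat_lit 5) (nat_lit 17) (nat_lit 4) (nat_lit 525) (nat_lit 456) (nat_lit 219))))) (XT.nd (nat_lit 234) (nat_lit 228) (nat_lit 0) (XT.nd (nat_lit 78) (nat_lit 152) (nat_lit 0) (XT.lf (nat_lit 0) (nat_lit 5340191500571) (nat_lit 76) (nat_lit 2535991820290) (nat_lit 76) (nat_lit 1942441241004) (nat_lit 16) (nat_lit 4) (nat_lit 17) (nat_lit 5) (nat_lit 17) (nat_lit 4) (nat_lit 526) (nat_lit 456) (nat_lit 218)) (XT.nd (nat_lit 78) (nat_lit 76) (nat_lit 0) (XT.lf (nat_lit 0) (nat_lit 275710370111) (nat_lit 152) (nat_lit 20073009942) (nat_lit 76) (nat_lit 10127354625226) (nat_lit 15) (nat_lit 5) (nat_lit 17) (nat_lit 5) (nat_lit 16) (nat_lit 4) (nat_lit 527) (nat_lit 456) (nat_lit 217)) (XT.lf (nat_lit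 0) (nat_lit 2741989768616) (nat_lit 152) (nat_lit 6123531180890) (nat_lit 0) (nat_lit 2192405898037) (nat_lit 14) (nat_lit 5) (nat_lit 16) (nat_lit 4) (nat_lit 14) (nat_lit 4) (nat_lit 528) (nat_lit 456) (nat_lit 216)))) (XT.nd (nat_lit 156) (nat_lit 152) (nat_lit 0) (XT.nd (nat_lit 78) (nat_lit 76) (nat_lit 0) (XT.lf (nat_lit 0) (nat_lit 5413817287571) (nat_lit 152) (nat_lit 1464788431526) (nat_lit 0) (nat_lit 4864233416605) (nat_lit 14) (nat_lit 5) (nat_lit 16) (nat_lit 4) (nat_lit 14) (nat_lit 4) (nat_lit 529) (nat_lit 456) (nat_lit 215)) (XT.lf (nat_lit 0) (nat_lit 3754467395610) (nat_lit 76) (nat_lit 4635218640204) (nat_lit 76) (nat_lit 4085634768879) (nat_lit 13) (nat_lit 4) (nat_lit 14) (nat_lit 5) (nat_lit 14) (nat_lit 4) (nat_lit 530) (nat_lit 456) (nat_lit 214))) (XT.nd (nat_lit 78) (nat_lit 152) (nat_lit 0) (XT.lf (nat_lit 0) (nat_lit 9474567498123) (nat_lit 76) (nat_lit 2169106694039)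 (nat_lit 76) (nat_lit 1619522822382) (nat_lit 13) (nat_lit 4) (nat_lit 14) (nat_lit 5) (nat_lit 14) (nat_lit 4) (nat_lit 531) (nat_lit 456) (nat_lit 213)) (XT.lf (nat_lit 0) (nat_lit 1043499381703) (nat_lit 152) (nat_lit 12529822864973) (nat_lit 0) (nat_lit 534625426181) (nat_lit 11) (nat_lit 5) (nat_lit 13) (nat_lit 4) (nat_lit 11) (nat_lit 4) (nat_lit 532) (nat_lit 456) (nat_lit 212)))))) (XT.nd (nat_lit 56550) (nat_lit 0) (nat_lit 5928) (XT.nd (nat_lit 234) (nat_lit 152) (nat_lit 0) (XT.nd (nat_lit 78) (nat_lit 76) (nat_lit 0) (XT.lf (nat_lit 0) (nat_lit 3994685933041) (nat_lit 152) (nat_lit 7523405721801) (nat_lit 0) (nat_lit 3485811977255) (nat_lit 11) (nat_lit 5) (nat_lit 13) (nat_lit 4) (nat_lit 11) (nat_lit 4) (nat_lit 533) (nat_lit 456) (nat_lit 211)) (XT.nd (nat_lit 78) (nat_lit 76) (nat_lit 0) (XT.lf (nat_lit 0) (nat_lit 7181967405584) (nat_lit 152) (nat_lit 2116475213170) (nat_lit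 0) (nat_lit 6673093449554) (nat_lit 11) (nat_lit 5) (nat_lit 13) (nat_lit 4) (nat_lit 11) (nat_lit 4) (nat_lit 534) (nat_lit 456) (nat_lit 210)) (XT.lf (nat_lit 0) (nat_lit 3919056825276) (nat_lit 76) (nat_lit 6799427978870) (nat_lit 76) (nat_lit 6290554022614) (nat_lit 10) (nat_lit 4) (nat_lit 11) (nat_lit 5) (nat_lit 11) (nat_lit 4) (nat_lit 535) (nat_lit 456) (nat_lit 209)))) (XT.nd (nat_lit 156) (nat_lit 152) (nat_lit 0) (XT.nd (nat_lit 78) (nat_lit 0) (nat_lit 0) (XT.lf (nat_lit 0) (nat_lit 10557797242120) (nat_lit 76) (nat_lit 4037994532899) (nat_lit 76) (nat_lit 3529120576433) (nat_lit 10) (nat_lit 4) (nat_lit 11) (nat_lit 5) (nat_lit 11) (nat_lit 4) (nat_lit 536) (nat_lit 456) (nat_lit 208)) (XT.lf (nat_lit 0) (nat_lit 17727636887303) (nat_lit 76) (nat_lit 1055646413835) (nat_lit 76) (nat_lit 546772457176) (nat_lit 10) (nat_lit 4) (nat_lit 11) (nat_lit 5) (nat_lit 11) (nat_lit 4)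 (nat_lit 537) (nat_lit 456) (nat_lit 207))) (XT.nd (nat_lit 78) (nat_lit 0) (nat_lit 0) (XT.lf (nat_lit 0) (nat_lit 2718166365371) (nat_lit 152) (nat_lit 15647090373465) (nat_lit 0) (nat_lit 2246986775706) (nat_lit 8) (nat_lit 5) (nat_lit 10) (nat_lit 4) (nat_lit 8) (nat_lit 4) (nat_lit 538) (nat_lit 456) (nat_lit 206)) (XT.lf (nat_lit 0) (nat_lit 6287130735152) (nat_lit 152) (nat_lit 9886998631742) (nat_lit 0) (nat_lit 5815951145333) (nat_lit 8) (nat_lit 5) (nat_lit 10) (nat_lit 4) (nat_lit 8) (nat_lit 4) (nat_lit 539) (nat_lit 456) (nat_lit 205))))) (XT.nd (nat_lit 234) (nat_lit 0) (nat_lit 76) (XT.nd (nat_lit 78) (nat_lit 532) (nat_lit 0) (XT.lf (nat_lit 0) (nat_lit 161012394221) (nat_lit 532) (nat_lit 1075443148) (nat_lit 532) (nat_lit 1075443148) (nat_lit 93) (nat_lit 3) (nat_lit 100) (nat_lit 3) (nat_lit 100) (nat_lit 5) (nat_lit 457) (nat_lit 457) (nat_lit 286)) (XT.nd (nat_lit 78)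 (nat_lit 532) (nat_lit 0) (XT.lf (nat_lit 76) (nat_lit 168804326305) (nat_lit 0) (nat_lit 170161782062) (nat_lit 532) (nat_lit 88688763) (nat_lit 94) (nat_lit 5) (nat_lit 93) (nat_lit 3) (nat_lit 100) (nat_lit 5) (nat_lit 458) (nat_lit 457) (nat_lit 285)) (XT.lf (nat_lit 76) (nat_lit 687206719) (nat_lit 0) (nat_lit 3627859171) (nat_lit 608) (nat_lit 348471498125) (nat_lit 87) (nat_lit 5) (nat_lit 86) (nat_lit 5) (nat_lit 94) (nat_lit 5) (nat_lit 459) (nat_lit 457) (nat_lit 284)))) (XT.nd (nat_lit 156) (nat_lit 0) (nat_lit 76) (XT.nd (nat_lit 78) (nat_lit 0) (nat_lit 0) (XT.lf (nat_lit 0) (nat_lit 18080436878) (nat_lit 532) (nat_lit 176623840750) (nat_lit 608) (nat_lit 172191281744) (nat_lit 87) (nat_lit 5) (nat_lit 94) (nat_lit 5) (nat_lit 95) (nat_lit 5) (nat_lit 460) (nat_lit 457) (nat_lit 283)) (XT.lf (nat_lit 76) (nat_lit 13469235362) (nat_lit 0) (nat_lit 19895915647) (nat_lit 608) (nat_lit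 348734674278) (nat_lit 88) (nat_lit 5) (nat_lit 87) (nat_lit 5) (nat_lit 95) (nat_lit 5) (nat_lit 461) (nat_lit 457) (nat_lit 282))) (XT.nd (nat_lit 78) (nat_lit 0) (nat_lit 0) (XT.lf (nat_lit 0) (nat_lit 58889215972) (nat_lit 532) (nat_lit 173507038206) (nat_lit 608) (nat_lit 165402852408) (nat_lit 88) (nat_lit 5) (nat_lit 95) (nat_lit 5) (nat_lit 96) (nat_lit 5) (nat_lit 462) (nat_lit 457) (nat_lit 281)) (XT.lf (nat_lit 76) (nat_lit 38642644572) (nat_lit 0) (nat_lit 49258649942) (nat_lit 608) (nat_lit 326737348807) (nat_lit 89) (nat_lit 5) (nat_lit 88) (nat_lit 5) (nat_lit 96) (nat_lit 5) (nat_lit 463) (nat_lit 457) (nat_lit 280))))))) (XT.nd (nat_lit 1092) (nat_lit 1292) (nat_lit 0) (XT.nd (nat_lit 546) (nat_lit 988) (nat_lit 0) (XT.nd (nat_lit 234) (nat_lit 532) (nat_lit 0) (XT.nd (nat_lit 78) (nat_lit 532) (nat_lit 0) (XT.lf (nat_lit 0) (nat_lit 127673656370) (nat_lit 532) (nat_lit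 158509432767) (nat_lit 76) (nat_lit 145967108502) (nat_lit 89) (nat_lit 5) (nat_lit 96) (nat_lit 5) (nat_lit 90) (nat_lit 5) (nat_lit 464) (nat_lit 457) (nat_lit 279)) (XT.nd (nat_lit 78) (nat_lit 0) (nat_lit 0) (XT.lf (nat_lit 0) (nat_lit 79051028371) (nat_lit 532) (nat_lit 94757363974) (nat_lit 608) (nat_lit 276999837148) (nat_lit 82) (nat_lit 5) (nat_lit 89) (nat_lit 5) (nat_lit 90) (nat_lit 5) (nat_lit 465) (nat_lit 457) (nat_lit 278)) (XT.lf (nat_lit 0) (nat_lit 230773548105) (nat_lit 608) (nat_lit 128787080094) (nat_lit 76) (nat_lit 110827104428) (nat_lit 82) (nat_lit 5) (nat_lit 90) (nat_lit 5) (nat_lit 83) (nat_lit 5) (nat_lit 466) (nat_lit 457) (nat_lit 277)))) (XT.nd (nat_lit 156) (nat_lit 304) (nat_lit 0) (XT.nd (nat_lit 78) (nat_lit 0) (nat_lit 0) (XT.lf (nat_lit 0) (nat_lit 138066004679) (nat_lit 228) (nat_lit 160011598035) (nat_lit 304) (nat_lit 192993458390) (nat_lit 79) (nat_lit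 5) (nat_lit 82) (nat_lit 5) (nat_lit 83) (nat_lit 5) (nat_lit 467) (nat_lit 457) (nat_lit 276)) (XT.lf (nat_lit 0) (nat_lit 375713486152) (nat_lit 304) (nat_lit 80962091373) (nat_lit 76) (nat_lit 56337677982) (nat_lit 79) (nat_lit 5) (nat_lit 83) (nat_lit 5) (nat_lit 80) (nat_lit 5) (nat_lit 468) (nat_lit 457) (nat_lit 275))) (XT.nd (nat_lit 78) (nat_lit 76) (nat_lit 0) (XT.lf (nat_lit 0) (nat_lit 219677277335) (nat_lit 228) (nat_lit 249322321642) (nat_lit 304) (nat_lit 66956077790) (nat_lit 76) (nat_lit 5) (nat_lit 79) (nat_lit 5) (nat_lit 80) (nat_lit 5) (nat_lit 469) (nat_lit 457) (nat_lit 274)) (XT.lf (nat_lit 0) (nat_lit 10835251392) (nat_lit 304) (nat_lit 11858565402) (nat_lit 76) (nat_lit 537840640686) (nat_lit 75) (nat_lit 5) (nat_lit 79) (nat_lit 5) (nat_lit 76) (nat_lit 5) (nat_lit 470) (nat_lit 457) (nat_lit 273))))) (XT.nd (nat_lit 234) (nat_lit 532) (nat_lit 0) (XT.nd (nat_lit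 78) (nat_lit 228) (nat_lit 0) (XT.lf (nat_lit 0) (nat_lit 104804713497) (nat_lit 304) (nat_lit 260122875438) (nat_lit 76) (nat_lit 220927046693) (nat_lit 72) (nat_lit 5) (nat_lit 76) (nat_lit 5) (nat_lit 73) (nat_lit 5) (nat_lit 471) (nat_lit 457) (nat_lit 272)) (XT.nd (nat_lit 78) (nat_lit 0) (nat_lit 0) (XT.lf (nat_lit 0) (nat_lit 81298188457) (nat_lit 228) (nat_lit 127870846656) (nat_lit 304) (nat_lit 403801208713) (nat_lit 69) (nat_lit 5) (nat_lit 72) (nat_lit 5) (nat_lit 73) (nat_lit 5) (nat_lit 472) (nat_lit 457) (nat_lit 271)) (XT.lf (nat_lit 0) (nat_lit 332261451360) (nat_lit 304) (nat_lit 180126556567) (nat_lit 76) (nat_lit 129036776843) (nat_lit 69) (nat_lit 5) (nat_lit 73) (nat_lit 5) (nat_lit 70) (nat_lit 5) (nat_lit 473) (nat_lit 457) (nat_lit 270)))) (XT.nd (nat_lit 156) (nat_lit 380) (nat_lit 0) (XT.nd (nat_lit 78) (nat_lit 0) (nat_lit 0) (XT.lf (nat_lit 0) (nat_lit 206553890879)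 (nat_lit 152) (nat_lit 266936293122) (nat_lit 228) (nat_lit 198002391143) (nat_lit 67) (nat_lit 5) (nat_lit 69) (nat_lit 5) (nat_lit 70) (nat_lit 5) (nat_lit 474) (nat_lit 457) (nat_lit 269)) (XT.lf (nat_lit 0) (nat_lit 631025638129) (nat_lit 228) (nat_lit 69242559394) (nat_lit 76) (nat_lit 3296917398) (nat_lit 67) (nat_lit 5) (nat_lit 70) (nat_lit 5) (nat_lit 68) (nat_lit 5) (nat_lit 475) (nat_lit 457) (nat_lit 268))) (XT.nd (nat_lit 78) (nat_lit 152) (nat_lit 0) (XT.lf (nat_lit 0) (nat_lit 76045859741) (nat_lit 228) (nat_lit 369194645965) (nat_lit 76) (nat_lit 291543021966) (nat_lit 64) (nat_lit 5) (nat_lit 67) (nat_lit 5) (nat_lit 65) (nat_lit 5) (nat_lit 476) (nat_lit 457) (nat_lit 267)) (XT.lf (nat_lit 0) (nat_lit 72489645152) (nat_lit 152) (nat_lit 163795107672) (nat_lit 228) (nat_lit 535929069599) (nat_lit 62) (nat_lit 5) (nat_lit 64) (nat_lit 5) (nat_lit 65) (nat_lit 5) (nat_lit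 477) (nat_lit 457) (nat_lit 266)))))) (XT.nd (nat_lit 546) (nat_lit 760) (nat_lit 0) (XT.nd (nat_lit 234) (nat_lit 380) (nat_lit 0) (XT.nd (nat_lit 78) (nat_lit 152) (nat_lit 0) (XT.lf (nat_lit 0) (nat_lit 423070359872) (nat_lit 228) (nat_lit 242799098509) (nat_lit 76) (nat_lit 143510874174) (nat_lit 62) (nat_lit 5) (nat_lit 65) (nat_lit 5) (nat_lit 63) (nat_lit 5) (nat_lit 478) (nat_lit 457) (nat_lit 265)) (XT.nd (nat_lit 78) (nat_lit 0) (nat_lit 0) (XT.lf (nat_lit 0) (nat_lit 259401870801) (nat_lit 152) (nat_lit 375889965486) (nat_lit 228) (nat_lit 213388885547) (nat_lit 60) (nat_lit 5) (nat_lit 62) (nat_lit 5) (nat_lit 63) (nat_lit 5) (nat_lit 479) (nat_lit 457) (nat_lit 264)) (XT.lf (nat_lit 0) (nat_lit 815587088742) (nat_lit 152) (nat_lit 55542481595) (nat_lit 228) (nat_lit 19464488757) (nat_lit 60) (nat_lit 5) (nat_lit 62) (nat_lit 5) (nat_lit 63) (nat_lit 5) (nat_lit 480) (nat_lit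 457) (nat_lit 263)))) (XT.nd (nat_lit 156) (nat_lit 76) (nat_lit 0) (XT.nd (nat_lit 78) (nat_lit 152) (nat_lit 0) (XT.lf (nat_lit 0) (nat_lit 199933590677) (nat_lit 152) (nat_lit 441053186701) (nat_lit 76) (nat_lit 292951136466) (nat_lit 58) (nat_lit 5) (nat_lit 60) (nat_lit 5) (nat_lit 59) (nat_lit 5) (nat_lit 481) (nat_lit 457) (nat_lit 262)) (XT.lf (nat_lit 0) (nat_lit 134621021862) (nat_lit 152) (nat_lit 307995282127) (nat_lit 228) (nat_lit 537549777256) (nat_lit 56) (nat_lit 5) (nat_lit 58) (nat_lit 5) (nat_lit 59) (nat_lit 5) (nat_lit 482) (nat_lit 457) (nat_lit 261))) (XT.nd (nat_lit 78) (nat_lit 76) (nat_lit 0) (XT.lf (nat_lit 0) (nat_lit 718327854758) (nat_lit 228) (nat_lit 249250604751) (nat_lit 76) (nat_lit 61424904899) (nat_lit 56) (nat_lit 5) (nat_lit 59) (nat_lit 5) (nat_lit 57) (nat_lit 4) (nat_lit 483) (nat_lit 457) (nat_lit 260)) (XT.lf (nat_lit 0) (nat_lit 407112940732)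 (nat_lit 76) (nat_lit 626774327055) (nat_lit 152) (nat_lit 46437087381) (nat_lit 55) (nat_lit 5) (nat_lit 56) (nat_lit 5) (nat_lit 57) (nat_lit 4) (nat_lit 484) (nat_lit 457) (nat_lit 259))))) (XT.nd (nat_lit 312) (nat_lit 380) (nat_lit 0) (XT.nd (nat_lit 156) (nat_lit 152) (nat_lit 0) (XT.nd (nat_lit 78) (nat_lit 152) (nat_lit 0) (XT.lf (nat_lit 0) (nat_lit 233979591590) (nat_lit 152) (nat_lit 10968716987) (nat_lit 76) (nat_lit 889783638817) (nat_lit 54) (nat_lit 5) (nat_lit 56) (nat_lit 5) (nat_lit 55) (nat_lit 5) (nat_lit 485) (nat_lit 457) (nat_lit 258)) (XT.lf (nat_lit 0) (nat_lit 556639623318) (nat_lit 228) (nat_lit 456423505919) (nat_lit 76) (nat_lit 178547018926) (nat_lit 52) (nat_lit 5) (nat_lit 55) (nat_lit 5) (nat_lit 53) (nat_lit 4) (nat_lit 486) (nat_lit 457) (nat_lit 257))) (XT.nd (nat_lit 78) (nat_lit 76) (nat_lit 0) (XT.lf (nat_lit 0) (nat_lit 297137532988) (nat_lit 76) (nat_lit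 621791063224) (nat_lit 152) (nat_lit 333004717694) (nat_lit 51) (nat_lit 5) (nat_lit 52) (nat_lit 5) (nat_lit 53) (nat_lit 4) (nat_lit 487) (nat_lit 457) (nat_lit 256)) (XT.lf (nat_lit 0) (nat_lit 6266156611) (nat_lit 152) (nat_lit 179301976397) (nat_lit 76) (nat_lit 1130503155817) (nat_lit 50) (nat_lit 5) (nat_lit 52) (nat_lit 5) (nat_lit 51) (nat_lit 5) (nat_lit 488) (nat_lit 457) (nat_lit 255)))) (XT.nd (nat_lit 156) (nat_lit 152) (nat_lit 0) (XT.nd (nat_lit 78) (nat_lit 76) (nat_lit 0) (XT.lf (nat_lit 0) (nat_lit 378652248497) (nat_lit 228) (nat_lit 707064426088) (nat_lit 76) (nat_lit 297014513151) (nat_lit 48) (nat_lit 5) (nat_lit 51) (nat_lit 5) (nat_lit 49) (nat_lit 4) (nat_lit 489) (nat_lit 457) (nat_lit 254)) (XT.lf (nat_lit 0) (nat_lit 157847224121) (nat_lit 76) (nat_lit 636627941862) (nat_lit 152) (nat_lit 659157037515) (nat_lit 47) (nat_lit 5) (nat_lit 48) (nat_lit 5) (nat_lit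 49) (nat_lit 4) (nat_lit 490) (nat_lit 457) (nat_lit 253))) (XT.nd (nat_lit 78) (nat_lit 152) (nat_lit 0) (XT.lf (nat_lit 0) (nat_lit 1132163164336) (nat_lit 76) (nat_lit 130733134836) (nat_lit 152) (nat_lit 265762410766) (nat_lit 47) (nat_lit 5) (nat_lit 48) (nat_lit 5) (nat_lit 49) (nat_lit 4) (nat_lit 491) (nat_lit 457) (nat_lit 252)) (XT.lf (nat_lit 0) (nat_lit 176068982748) (nat_lit 152) (nat_lit 1017722028395) (nat_lit 76) (nat_lit 413596272768) (nat_lit 45) (nat_lit 5) (nat_lit 47) (nat_lit 5) (nat_lit 46) (nat_lit 4) (nat_lit 492) (nat_lit 457) (nat_lit 251))))))))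
noncomputable def xc207 : XT := (XT.nd (nat_lit 2184) (nat_lit 912) (nat_lit 0) (XT.nd (nat_lit 1092) (nat_lit 912) (nat_lit 0) (XT.nd (nat_lit 546) (nat_lit 532) (nat_lit 0) (XT.nd (nat_lit 234) (nat_lit 304) (nat_lit 0) (XT.nd (nat_lit 78) (nat_lit 152) (nat_lit 0) (XT.lf (nat_lit 0) (nat_lit 653406941526) (nat_lit 152) (nat_lit 24859087488) (nat_lit 76) (nat_lit 1012434431060) (nat_lit 45) (nat_lit 5) (nat_lit 47) (nat_lit 5) (nat_lit 46) (nat_lit 4) (nat_lit 493) (nat_lit 457) (nat_lit 250)) (XT.nd (nat_lit 78) (nat_lit 76) (nat_lit 0) (XT.lf (nat_lit 0) (nat_lit 1102588827443) (nat_lit 76) (nat_lit 92860386820) (nat_lit 152) (nat_lit 583108093885) (nat_lit 44) (nat_lit 5) (nat_lit 45) (nat_lit 5) (nat_lit 46) (nat_lit 4) (nat_lit 494) (nat_lit 457) (nat_lit 249)) (XT.lf (nat_lit 0) (nat_lit 458188740478) (nat_lit 76) (nat_lit 1347354960753) (nat_lit 76) (nat_lit 65923896243) (nat_lit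 43) (nat_lit 4) (nat_lit 44) (nat_lit 5) (nat_lit 44) (nat_lit 4) (nat_lit 495) (nat_lit 457) (nat_lit 248)))) (XT.nd (nat_lit 156) (nat_lit 152) (nat_lit 0) (XT.nd (nat_lit 78) (nat_lit 76) (nat_lit 0) (XT.lf (nat_lit 0) (nat_lit 489365617845) (nat_lit 152) (nat_lit 263550589203) (nat_lit 76) (nat_lit 1216236737710) (nat_lit 42) (nat_lit 5) (nat_lit 44) (nat_lit 5) (nat_lit 43) (nat_lit 4) (nat_lit 496) (nat_lit 457) (nat_lit 247)) (XT.lf (nat_lit 0) (nat_lit 1027861402683) (nat_lit 76) (nat_lit 82375369476) (nat_lit 152) (nat_lit 962301756402) (nat_lit 41) (nat_lit 5) (nat_lit 42) (nat_lit 5) (nat_lit 43) (nat_lit 4) (nat_lit 497) (nat_lit 457) (nat_lit 246))) (XT.nd (nat_lit 78) (nat_lit 76) (nat_lit 0) (XT.lf (nat_lit 0) (nat_lit 250883745194) (nat_lit 76) (nat_lit 1558756247101) (nat_lit 76) (nat_lit 372245976895) (nat_lit 40) (nat_lit 4) (nat_lit 41) (nat_lit 5) (nat_lit 41) (nat_lit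 4) (nat_lit 498) (nat_lit 457) (nat_lit 245)) (XT.lf (nat_lit 0) (nat_lit 283202017026) (nat_lit 152) (nat_lit 597450082003) (nat_lit 76) (nat_lit 1416303630973) (nat_lit 39) (nat_lit 5) (nat_lit 41) (nat_lit 5) (nat_lit 40) (nat_lit 4) (nat_lit 499) (nat_lit 457) (nat_lit 244))))) (XT.nd (nat_lit 234) (nat_lit 304) (nat_lit 0) (XT.nd (nat_lit 78) (nat_lit 152) (nat_lit 0) (XT.lf (nat_lit 0) (nat_lit 876987977870) (nat_lit 76) (nat_lit 115078494229) (nat_lit 152) (nat_lit 1426703775597) (nat_lit 38) (nat_lit 5) (nat_lit 39) (nat_lit 5) (nat_lit 40) (nat_lit 4) (nat_lit 500) (nat_lit 457) (nat_lit 243)) (XT.nd (nat_lit 78) (nat_lit 152) (nat_lit 0) (XT.lf (nat_lit 0) (nat_lit 1791517101593) (nat_lit 152) (nat_lit 63206201325) (nat_lit 0) (nat_lit 692896462445) (nat_lit 38) (nat_lit 5) (nat_lit 40) (nat_lit 4) (nat_lit 38) (nat_lit 4) (nat_lit 501) (nat_lit 457) (nat_lit 242)) (XT.lf (nat_lit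 0) (nat_lit 12564238807) (nat_lit 152) (nat_lit 1072487027731) (nat_lit 76) (nat_lit 1598361323025) (nat_lit 36) (nat_lit 5) (nat_lit 38) (nat_lit 5) (nat_lit 37) (nat_lit 4) (nat_lit 502) (nat_lit 457) (nat_lit 241)))) (XT.nd (nat_lit 156) (nat_lit 228) (nat_lit 0) (XT.nd (nat_lit 78) (nat_lit 0) (nat_lit 0) (XT.lf (nat_lit 0) (nat_lit 603139415033) (nat_lit 76) (nat_lit 215014462078) (nat_lit 152) (nat_lit 2009041554857) (nat_lit 35) (nat_lit 5) (nat_lit 36) (nat_lit 5) (nat_lit 37) (nat_lit 4) (nat_lit 503) (nat_lit 457) (nat_lit 240)) (XT.lf (nat_lit 0) (nat_lit 1735703284361) (nat_lit 152) (nat_lit 524514671421) (nat_lit 0) (nat_lit 718461938154) (nat_lit 35) (nat_lit 5) (nat_lit 37) (nat_lit 4) (nat_lit 35) (nat_lit 4) (nat_lit 504) (nat_lit 457) (nat_lit 239))) (XT.nd (nat_lit 78) (nat_lit 152) (nat_lit 0) (XT.lf (nat_lit 0) (nat_lit 1374145498766) (nat_lit 76) (nat_lit 1391144161459)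 (nat_lit 76) (nat_lit 373902811354) (nat_lit 34) (nat_lit 4) (nat_lit 35) (nat_lit 5) (nat_lit 35) (nat_lit 4) (nat_lit 505) (nat_lit 457) (nat_lit 238)) (XT.lf (nat_lit 0) (nat_lit 135978018917) (nat_lit 76) (nat_lit 418454371770) (nat_lit 152) (nat_lit 2755588472804) (nat_lit 32) (nat_lit 5) (nat_lit 33) (nat_lit 5) (nat_lit 34) (nat_lit 4) (nat_lit 506) (nat_lit 457) (nat_lit 237)))))) (XT.nd (nat_lit 546) (nat_lit 456) (nat_lit 0) (XT.nd (nat_lit 234) (nat_lit 304) (nat_lit 0) (XT.nd (nat_lit 78) (nat_lit 152) (nat_lit 0) (XT.lf (nat_lit 0) (nat_lit 1601547776027) (nat_lit 152) (nat_lit 1227356072759) (nat_lit 0) (nat_lit 659657630607) (nat_lit 32) (nat_lit 5) (nat_lit 34) (nat_lit 4) (nat_lit 32) (nat_lit 4) (nat_lit 507) (nat_lit 457) (nat_lit 236)) (XT.nd (nat_lit 78) (nat_lit 76) (nat_lit 0) (XT.lf (nat_lit 0) (nat_lit 909703748028) (nat_lit 76) (nat_lit 1855475979017) (nat_lit 76)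 (nat_lit 913585830733) (nat_lit 31) (nat_lit 4) (nat_lit 32) (nat_lit 5) (nat_lit 32) (nat_lit 4) (nat_lit 508) (nat_lit 457) (nat_lit 235)) (XT.lf (nat_lit 0) (nat_lit 165256867962) (nat_lit 152) (nat_lit 598155865574) (nat_lit 76) (nat_lit 3117753884773) (nat_lit 30) (nat_lit 5) (nat_lit 32) (nat_lit 5) (nat_lit 31) (nat_lit 4) (nat_lit 509) (nat_lit 457) (nat_lit 234)))) (XT.nd (nat_lit 156) (nat_lit 152) (nat_lit 0) (XT.nd (nat_lit 78) (nat_lit 76) (nat_lit 0) (XT.lf (nat_lit 0) (nat_lit 1336416420620) (nat_lit 152) (nat_lit 2292719730481) (nat_lit 0) (nat_lit 464295908220) (nat_lit 29) (nat_lit 5) (nat_lit 31) (nat_lit 4) (nat_lit 29) (nat_lit 4) (nat_lit 510) (nat_lit 457) (nat_lit 233)) (XT.lf (nat_lit 0) (nat_lit 88300717180) (nat_lit 76) (nat_lit 2551699987771) (nat_lit 76) (nat_lit 1679579473266) (nat_lit 28) (nat_lit 4) (nat_lit 29) (nat_lit 5) (nat_lit 29) (nat_lit 4) (nat_lit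 511) (nat_lit 457) (nat_lit 232))) (XT.nd (nat_lit 78) (nat_lit 152) (nat_lit 0) (XT.lf (nat_lit 0) (nat_lit 2790191790723) (nat_lit 76) (nat_lit 1320366955607) (nat_lit 76) (nat_lit 448246439152) (nat_lit 28) (nat_lit 4) (nat_lit 29) (nat_lit 5) (nat_lit 29) (nat_lit 4) (nat_lit 512) (nat_lit 457) (nat_lit 231)) (XT.lf (nat_lit 0) (nat_lit 860864756572) (nat_lit 152) (nat_lit 3899391700836) (nat_lit 0) (nat_lit 53345758184) (nat_lit 26) (nat_lit 5) (nat_lit 28) (nat_lit 4) (nat_lit 26) (nat_lit 4) (nat_lit 513) (nat_lit 457) (nat_lit 230))))) (XT.nd (nat_lit 234) (nat_lit 304) (nat_lit 0) (XT.nd (nat_lit 78) (nat_lit 152) (nat_lit 0) (XT.lf (nat_lit 0) (nat_lit 2334396188294) (nat_lit 152) (nat_lit 1219865547023) (nat_lit 0) (nat_lit 1526877188358) (nat_lit 26) (nat_lit 5) (nat_lit 28) (nat_lit 4) (nat_lit 26) (nat_lit 4) (nat_lit 514) (nat_lit 457) (nat_lit 229)) (XT.nd (nat_lit 78) (nat_lit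 76) (nat_lit 0) (XT.lf (nat_lit 0) (nat_lit 1762173756185) (nat_lit 76) (nat_lit 2206016694163) (nat_lit 76) (nat_lit 1398497692794) (nat_lit 25) (nat_lit 4) (nat_lit 26) (nat_lit 5) (nat_lit 26) (nat_lit 4) (nat_lit 515) (nat_lit 457) (nat_lit 228)) (XT.lf (nat_lit 0) (nat_lit 88944819630) (nat_lit 152) (nat_lit 622513777863) (nat_lit 76) (nat_lit 4960774298818) (nat_lit 24) (nat_lit 5) (nat_lit 26) (nat_lit 5) (nat_lit 25) (nat_lit 4) (nat_lit 516) (nat_lit 457) (nat_lit 227)))) (XT.nd (nat_lit 156) (nat_lit 228) (nat_lit 0) (XT.nd (nat_lit 78) (nat_lit 0) (nat_lit 0) (XT.lf (nat_lit 0) (nat_lit 1709018359200) (nat_lit 152) (nat_lit 3321846057422) (nat_lit 0) (nat_lit 961315577789) (nat_lit 23) (nat_lit 5) (nat_lit 25) (nat_lit 4) (nat_lit 23) (nat_lit 4) (nat_lit 517) (nat_lit 457) (nat_lit 226)) (XT.lf (nat_lit 0) (nat_lit 3494639945178) (nat_lit 152) (nat_lit 93270379406) (nat_lit 0)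 (nat_lit 2746937162713) (nat_lit 23) (nat_lit 5) (nat_lit 25) (nat_lit 4) (nat_lit 23) (nat_lit 4) (nat_lit 518) (nat_lit 457) (nat_lit 225))) (XT.nd (nat_lit 78) (nat_lit 152) (nat_lit 0) (XT.lf (nat_lit 0) (nat_lit 3572291849553) (nat_lit 76) (nat_lit 1936733108741) (nat_lit 76) (nat_lit 1189030325301) (nat_lit 22) (nat_lit 4) (nat_lit 23) (nat_lit 5) (nat_lit 23) (nat_lit 4) (nat_lit 519) (nat_lit 457) (nat_lit 224)) (XT.lf (nat_lit 0) (nat_lit 454674643820) (nat_lit 76) (nat_lit 123391427411) (nat_lit 152) (nat_lit 6510026203619) (nat_lit 20) (nat_lit 5) (nat_lit 21) (nat_lit 5) (nat_lit 22) (nat_lit 4) (nat_lit 520) (nat_lit 457) (nat_lit 223))))))) (XT.nd (nat_lit 1092) (nat_lit 228) (nat_lit 0) (XT.nd (nat_lit 546) (nat_lit 380) (nat_lit 0) (XT.nd (nat_lit 234) (nat_lit 228) (nat_lit 0) (XT.nd (nat_lit 78) (nat_lit 76) (nat_lit 0) (XT.lf (nat_lit 0) (nat_lit 2554107624002) (nat_lit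 152) (nat_lit 3080418381443) (nat_lit 0) (nat_lit 1861790230318) (nat_lit 20) (nat_lit 5) (nat_lit 22) (nat_lit 4) (nat_lit 20) (nat_lit 4) (nat_lit 521) (nat_lit 457) (nat_lit 222)) (XT.nd (nat_lit 78) (nat_lit 0) (nat_lit 0) (XT.lf (nat_lit 0) (nat_lit 793299901120) (nat_lit 76) (nat_lit 3917216449433) (nat_lit 76) (nat_lit 3224899055032) (nat_lit 19) (nat_lit 4) (nat_lit 20) (nat_lit 5) (nat_lit 20) (nat_lit 4) (nat_lit 522) (nat_lit 457) (nat_lit 221)) (XT.lf (nat_lit 0) (nat_lit 5152101760561) (nat_lit 76) (nat_lit 1971560108014) (nat_lit 76) (nat_lit 1279242712949) (nat_lit 19) (nat_lit 4) (nat_lit 20) (nat_lit 5) (nat_lit 20) (nat_lit 4) (nat_lit 523) (nat_lit 457) (nat_lit 220)))) (XT.nd (nat_lit 156) (nat_lit 76) (nat_lit 0) (XT.nd (nat_lit 78) (nat_lit 0) (nat_lit 0) (XT.lf (nat_lit 0) (nat_lit 808785979368) (nat_lit 152) (nat_lit 7927446467970) (nat_lit 0) (nat_lit 167751353740)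 (nat_lit 17) (nat_lit 5) (nat_lit 19) (nat_lit 4) (nat_lit 17) (nat_lit 4) (nat_lit 524) (nat_lit 457) (nat_lit 219)) (XT.lf (nat_lit 0) (nat_lit 3137145334848) (nat_lit 152) (nat_lit 3797843091871) (nat_lit 0) (nat_lit 2496110708692) (nat_lit 17) (nat_lit 5) (nat_lit 19) (nat_lit 4) (nat_lit 17) (nat_lit 4) (nat_lit 525) (nat_lit 457) (nat_lit 218))) (XT.nd (nat_lit 78) (nat_lit 0) (nat_lit 0) (XT.lf (nat_lit 0) (nat_lit 696995062655) (nat_lit 76) (nat_lit 4971541120465) (nat_lit 76) (nat_lit 4330506493822) (nat_lit 16) (nat_lit 4) (nat_lit 17) (nat_lit 5) (nat_lit 17) (nat_lit 4) (nat_lit 526) (nat_lit 457) (nat_lit 217)) (XT.lf (nat_lit 0) (nat_lit 5767406964007) (nat_lit 76) (nat_lit 2738871092165) (nat_lit 76) (nat_lit 2097836465070) (nat_lit 16) (nat_lit 4) (nat_lit 17) (nat_lit 5) (nat_lit 17) (nat_lit 4) (nat_lit 527) (nat_lit 457) (nat_lit 216))))) (XT.nd (nat_lit 234) (nat_lit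 228) (nat_lit 0) (XT.nd (nat_lit 78) (nat_lit 76) (nat_lit 0) (XT.lf (nat_lit 0) (nat_lit 297767265878) (nat_lit 152) (nat_lit 21678714485) (nat_lit 76) (nat_lit 10937543060045) (nat_lit 15) (nat_lit 5) (nat_lit 17) (nat_lit 5) (nat_lit 16) (nat_lit 4) (nat_lit 528) (nat_lit 457) (nat_lit 215)) (XT.nd (nat_lit 78) (nat_lit 0) (nat_lit 0) (XT.lf (nat_lit 0) (nat_lit 2961349016201) (nat_lit 152) (nat_lit 6613413539046) (nat_lit 0) (nat_lit 2367798434812) (nat_lit 14) (nat_lit 5) (nat_lit 16) (nat_lit 4) (nat_lit 14) (nat_lit 4) (nat_lit 529) (nat_lit 457) (nat_lit 214)) (XT.lf (nat_lit 0) (nat_lit 5846922731777) (nat_lit 152) (nat_lit 1581971379831) (nat_lit 0) (nat_lit 5253372150055) (nat_lit 14) (nat_lit 5) (nat_lit 16) (nat_lit 4) (nat_lit 14) (nat_lit 4) (nat_lit 530) (nat_lit 457) (nat_lit 213)))) (XT.nd (nat_lit 156) (nat_lit 152) (nat_lit 0) (XT.nd (nat_lit 78) (nat_lit 0) (nat_lit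 0) (XT.lf (nat_lit 0) (nat_lit 4054824910281) (nat_lit 76) (nat_lit 5006036068023) (nat_lit 76) (nat_lit 4412485485994) (nat_lit 13) (nat_lit 4) (nat_lit 14) (nat_lit 5) (nat_lit 14) (nat_lit 4) (nat_lit 531) (nat_lit 457) (nat_lit 212)) (XT.lf (nat_lit 0) (nat_lit 10232533011882) (nat_lit 76) (nat_lit 2342635170861) (nat_lit 76) (nat_lit 1749084588548) (nat_lit 13) (nat_lit 4) (nat_lit 14) (nat_lit 5) (nat_lit 14) (nat_lit 4) (nat_lit 532) (nat_lit 457) (nat_lit 211))) (XT.nd (nat_lit 78) (nat_lit 0) (nat_lit 0) (XT.lf (nat_lit 0) (nat_lit 1126979388839) (nat_lit 152) (nat_lit 13532208577235) (nat_lit 0) (nat_lit 577395516083) (nat_lit 11) (nat_lit 5) (nat_lit 13) (nat_lit 4) (nat_lit 11) (nat_lit 4) (nat_lit 533) (nat_lit 457) (nat_lit 210)) (XT.lf (nat_lit 0) (nat_lit 4314260860091) (nat_lit 152) (nat_lit 8125278071272) (nat_lit 0) (nat_lit 3764676987109) (nat_lit 11) (nat_lit 5) (nat_lit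 13) (nat_lit 4) (nat_lit 11) (nat_lit 4) (nat_lit 534) (nat_lit 457) (nat_lit 209)))))) (XT.nd (nat_lit 56628) (nat_lit 0) (nat_lit 5624) (XT.nd (nat_lit 234) (nat_lit 152) (nat_lit 0) (XT.nd (nat_lit 78) (nat_lit 76) (nat_lit 0) (XT.lf (nat_lit 0) (nat_lit 7756524846556) (nat_lit 152) (nat_lit 2285793129970) (nat_lit 0) (nat_lit 7206940973364) (nat_lit 11) (nat_lit 5) (nat_lit 13) (nat_lit 4) (nat_lit 11) (nat_lit 4) (nat_lit 535) (nat_lit 457) (nat_lit 208)) (XT.nd (nat_lit 78) (nat_lit 0) (nat_lit 0) (XT.lf (nat_lit 0) (nat_lit 4232581469013) (nat_lit 76) (nat_lit 7343382166745) (nat_lit 76) (nat_lit 6793798293359) (nat_lit 10) (nat_lit 4) (nat_lit 11) (nat_lit 5) (nat_lit 11) (nat_lit 4) (nat_lit 536) (nat_lit 457) (nat_lit 207)) (XT.lf (nat_lit 0) (nat_lit 11402421111967) (nat_lit 76) (nat_lit 4361034048832) (nat_lit 76) (nat_lit 3811450175267) (nat_lit 10) (nat_lit 4) (nat_lit 11)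 (nat_lit 5) (nat_lit 11) (nat_lit 4) (nat_lit 537) (nat_lit 457) (nat_lit 206)))) (XT.nd (nat_lit 56238) (nat_lit 0) (nat_lit 6460) (XT.nd (nat_lit 78) (nat_lit 152) (nat_lit 0) (XT.lf (nat_lit 0) (nat_lit 19145847922063) (nat_lit 76) (nat_lit 1140098083702) (nat_lit 76) (nat_lit 590514209972) (nat_lit 10) (nat_lit 4) (nat_lit 11) (nat_lit 5) (nat_lit 11) (nat_lit 4) (nat_lit 538) (nat_lit 457) (nat_lit 205)) (XT.lf (nat_lit 0) (nat_lit 2935619716165) (nat_lit 152) (nat_lit 16898857517352) (nat_lit 0) (nat_lit 2426745758864) (nat_lit 8) (nat_lit 5) (nat_lit 10) (nat_lit 4) (nat_lit 8) (nat_lit 4) (nat_lit 539) (nat_lit 457) (nat_lit 204))) (XT.nd (nat_lit 78) (nat_lit 0) (nat_lit 0) (XT.lf (nat_lit 0) (nat_lit 173893952082) (nat_lit 532) (nat_lit 1161172748) (nat_lit 532) (nat_lit 1161172748) (nat_lit 93) (nat_lit 3) (nat_lit 100) (nat_lit 3) (nat_lit 100) (nat_lit 5) (nat_lit 458) (nat_lit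 458) (nat_lit 284)) (XT.lf (nat_lit 76) (nat_lit 182309268628) (nat_lit 0) (nat_lit 183775191494) (nat_lit 532) (nat_lit 94635591) (nat_lit 94) (nat_lit 5) (nat_lit 93) (nat_lit 3) (nat_lit 100) (nat_lit 5) (nat_lit 459) (nat_lit 458) (nat_lit 283))))) (XT.nd (nat_lit 312) (nat_lit 304) (nat_lit 0) (XT.nd (nat_lit 156) (nat_lit 0) (nat_lit 76) (XT.nd (nat_lit 78) (nat_lit 0) (nat_lit 76) (XT.lf (nat_lit 76) (nat_lit 742820494) (nat_lit 0) (nat_lit 3918476022) (nat_lit 608) (nat_lit 376348110471) (nat_lit 87) (nat_lit 5) (nat_lit 86) (nat_lit 5) (nat_lit 94) (nat_lit 5) (nat_lit 460) (nat_lit 458) (nat_lit 282)) (XT.lf (nat_lit 0) (nat_lit 19527812589) (nat_lit 532) (nat_lit 190753073269) (nat_lit 608) (nat_lit 185966242892) (nat_lit 87) (nat_lit 5) (nat_lit 94) (nat_lit 5) (nat_lit 95) (nat_lit 5) (nat_lit 461) (nat_lit 458) (nat_lit 281))) (XT.nd (nat_lit 78) (nat_lit 0) (nat_lit 76) (XT.lf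 (nat_lit 76) (nat_lit 14547431850) (nat_lit 0) (nat_lit 21487818131) (nat_lit 608) (nat_lit 376632490275) (nat_lit 88) (nat_lit 5) (nat_lit 87) (nat_lit 5) (nat_lit 95) (nat_lit 5) (nat_lit 462) (nat_lit 458) (nat_lit 280)) (XT.lf (nat_lit 0) (nat_lit 63601169340) (nat_lit 532) (nat_lit 187386921423) (nat_lit 608) (nat_lit 178634878966) (nat_lit 88) (nat_lit 5) (nat_lit 95) (nat_lit 5) (nat_lit 96) (nat_lit 5) (nat_lit 463) (nat_lit 458) (nat_lit 279)))) (XT.nd (nat_lit 156) (nat_lit 456) (nat_lit 0) (XT.nd (nat_lit 78) (nat_lit 0) (nat_lit 76) (XT.lf (nat_lit 76) (nat_lit 41734718766) (nat_lit 0) (nat_lit 53199450885) (nat_lit 608) (nat_lit 352875503322) (nat_lit 89) (nat_lit 5) (nat_lit 88) (nat_lit 5) (nat_lit 96) (nat_lit 5) (nat_lit 464) (nat_lit 458) (nat_lit 278)) (XT.lf (nat_lit 0) (nat_lit 137888260876) (nat_lit 532) (nat_lit 171189514182) (nat_lit 76) (nat_lit 157644381351) (nat_lit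 89) (nat_lit 5) (nat_lit 96) (nat_lit 5) (nat_lit 90) (nat_lit 5) (nat_lit 465) (nat_lit 458) (nat_lit 277))) (XT.nd (nat_lit 78) (nat_lit 0) (nat_lit 0) (XT.lf (nat_lit 0) (nat_lit 85375766804) (nat_lit 532) (nat_lit 102337971965) (nat_lit 608) (nat_lit 299159095005) (nat_lit 82) (nat_lit 5) (nat_lit 89) (nat_lit 5) (nat_lit 90) (nat_lit 5) (nat_lit 466) (nat_lit 458) (nat_lit 276)) (XT.lf (nat_lit 0) (nat_lit 249236056567) (nat_lit 608) (nat_lit 139089388450) (nat_lit 76) (nat_lit 119693256181) (nat_lit 82) (nat_lit 5) (nat_lit 90) (nat_lit 5) (nat_lit 83) (nat_lit 5) (nat_lit 467) (nat_lit 458) (nat_lit 275))))))))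
noncomputable def xc208 : XT := (XT.nd (nat_lit 2184) (nat_lit 1900) (nat_lit 0) (XT.nd (nat_lit 1092) (nat_lit 1216) (nat_lit 0) (XT.nd (nat_lit 546) (nat_lit 684) (nat_lit 0) (XT.nd (nat_lit 234) (nat_lit 532) (nat_lit 0) (XT.nd (nat_lit 78) (nat_lit 228) (nat_lit 0) (XT.lf (nat_lit 0) (nat_lit 149111926445) (nat_lit 228) (nat_lit 172812478258) (nat_lit 304) (nat_lit 208432293724) (nat_lit 79) (nat_lit 5) (nat_lit 82) (nat_lit 5) (nat_lit 83) (nat_lit 5) (nat_lit 468) (nat_lit 458) (nat_lit 274)) (XT.nd (nat_lit 78) (nat_lit 228) (nat_lit 0) (XT.lf (nat_lit 0) (nat_lit 405771115893) (nat_lit 304) (nat_lit 87438421819) (nat_lit 76) (nat_lit 60844734108) (nat_lit 79) (nat_lit 5) (nat_lit 83) (nat_lit 5) (nat_lit 80) (nat_lit 5) (nat_lit 469) (nat_lit 458) (nat_lit 273)) (XT.lf (nat_lit 0) (nat_lit 237252080263) (nat_lit 228) (nat_lit 269268011607) (nat_lit 304) (nat_lit 72311996986) (nat_lit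 76) (nat_lit 5) (nat_lit 79) (nat_lit 5) (nat_lit 80) (nat_lit 5) (nat_lit 470) (nat_lit 458) (nat_lit 272)))) (XT.nd (nat_lit 156) (nat_lit 228) (nat_lit 0) (XT.nd (nat_lit 78) (nat_lit 228) (nat_lit 0) (XT.lf (nat_lit 0) (nat_lit 11702570265) (nat_lit 304) (nat_lit 12806649563) (nat_lit 76) (nat_lit 580867954302) (nat_lit 75) (nat_lit 5) (nat_lit 79) (nat_lit 5) (nat_lit 76) (nat_lit 5) (nat_lit 471) (nat_lit 458) (nat_lit 271)) (XT.lf (nat_lit 0) (nat_lit 113189569127) (nat_lit 304) (nat_lit 280932084147) (nat_lit 76) (nat_lit 238601314877) (nat_lit 72) (nat_lit 5) (nat_lit 76) (nat_lit 5) (nat_lit 73) (nat_lit 5) (nat_lit 472) (nat_lit 458) (nat_lit 270))) (XT.nd (nat_lit 78) (nat_lit 0) (nat_lit 0) (XT.lf (nat_lit 0) (nat_lit 87802649130) (nat_lit 228) (nat_lit 138100366458) (nat_lit 304) (nat_lit 436104811089) (nat_lit 69) (nat_lit 5) (nat_lit 72) (nat_lit 5) (nat_lit 73) (nat_lit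 5) (nat_lit 473) (nat_lit 458) (nat_lit 269)) (XT.lf (nat_lit 0) (nat_lit 358842794529) (nat_lit 304) (nat_lit 194536089710) (nat_lit 76) (nat_lit 139359849111) (nat_lit 69) (nat_lit 5) (nat_lit 73) (nat_lit 5) (nat_lit 70) (nat_lit 5) (nat_lit 474) (nat_lit 458) (nat_lit 268))))) (XT.nd (nat_lit 234) (nat_lit 304) (nat_lit 0) (XT.nd (nat_lit 78) (nat_lit 228) (nat_lit 0) (XT.lf (nat_lit 0) (nat_lit 223078778561) (nat_lit 152) (nat_lit 288291029449) (nat_lit 228) (nat_lit 213842140368) (nat_lit 67) (nat_lit 5) (nat_lit 69) (nat_lit 5) (nat_lit 70) (nat_lit 5) (nat_lit 475) (nat_lit 458) (nat_lit 267)) (XT.nd (nat_lit 78) (nat_lit 228) (nat_lit 0) (XT.lf (nat_lit 0) (nat_lit 681508071871) (nat_lit 228) (nat_lit 74781403803) (nat_lit 76) (nat_lit 3560817792) (nat_lit 67) (nat_lit 5) (nat_lit 70) (nat_lit 5) (nat_lit 68) (nat_lit 5) (nat_lit 476) (nat_lit 458) (nat_lit 266)) (XT.lf (nat_lit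 0) (nat_lit 82129905574) (nat_lit 228) (nat_lit 398729651603) (nat_lit 76) (nat_lit 314866622517) (nat_lit 64) (nat_lit 5) (nat_lit 67) (nat_lit 5) (nat_lit 65) (nat_lit 5) (nat_lit 477) (nat_lit 458) (nat_lit 265)))) (XT.nd (nat_lit 156) (nat_lit 152) (nat_lit 0) (XT.nd (nat_lit 78) (nat_lit 0) (nat_lit 0) (XT.lf (nat_lit 0) (nat_lit 78289368474) (nat_lit 152) (nat_lit 176898526969) (nat_lit 228) (nat_lit 578803003757) (nat_lit 62) (nat_lit 5) (nat_lit 64) (nat_lit 5) (nat_lit 65) (nat_lit 5) (nat_lit 478) (nat_lit 458) (nat_lit 264)) (XT.lf (nat_lit 0) (nat_lit 456916328426) (nat_lit 228) (nat_lit 262222492896) (nat_lit 76) (nat_lit 154991910632) (nat_lit 62) (nat_lit 5) (nat_lit 65) (nat_lit 5) (nat_lit 63) (nat_lit 5) (nat_lit 479) (nat_lit 458) (nat_lit 263))) (XT.nd (nat_lit 78) (nat_lit 0) (nat_lit 0) (XT.lf (nat_lit 0) (nat_lit 280154540452) (nat_lit 152) (nat_lit 405960969839) (nat_lit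 228) (nat_lit 230459643099) (nat_lit 60) (nat_lit 5) (nat_lit 62) (nat_lit 5) (nat_lit 63) (nat_lit 5) (nat_lit 480) (nat_lit 458) (nat_lit 262)) (XT.lf (nat_lit 0) (nat_lit 880834537311) (nat_lit 152) (nat_lit 59985701525) (nat_lit 228) (nat_lit 21021320736) (nat_lit 60) (nat_lit 5) (nat_lit 62) (nat_lit 5) (nat_lit 63) (nat_lit 5) (nat_lit 481) (nat_lit 458) (nat_lit 261)))))) (XT.nd (nat_lit 546) (nat_lit 532) (nat_lit 0) (XT.nd (nat_lit 234) (nat_lit 380) (nat_lit 0) (XT.nd (nat_lit 78) (nat_lit 152) (nat_lit 0) (XT.lf (nat_lit 0) (nat_lit 215928581810) (nat_lit 152) (nat_lit 476336936888) (nat_lit 76) (nat_lit 316387403926) (nat_lit 58) (nat_lit 5) (nat_lit 60) (nat_lit 5) (nat_lit 59) (nat_lit 5) (nat_lit 482) (nat_lit 458) (nat_lit 260)) (XT.nd (nat_lit 78) (nat_lit 0) (nat_lit 0) (XT.lf (nat_lit 0) (nat_lit 145391195582) (nat_lit 152) (nat_lit 332634705927) (nat_lit 228) (nat_lit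 580553442763) (nat_lit 56) (nat_lit 5) (nat_lit 58) (nat_lit 5) (nat_lit 59) (nat_lit 5) (nat_lit 483) (nat_lit 458) (nat_lit 259)) (XT.lf (nat_lit 0) (nat_lit 775794359047) (nat_lit 228) (nat_lit 269190180294) (nat_lit 76) (nat_lit 66339072131) (nat_lit 56) (nat_lit 5) (nat_lit 59) (nat_lit 5) (nat_lit 57) (nat_lit 4) (nat_lit 484) (nat_lit 458) (nat_lit 258)))) (XT.nd (nat_lit 156) (nat_lit 228) (nat_lit 0) (XT.nd (nat_lit 78) (nat_lit 76) (nat_lit 0) (XT.lf (nat_lit 0) (nat_lit 439682436856) (nat_lit 76) (nat_lit 676916078909) (nat_lit 152) (nat_lit 50151766478) (nat_lit 55) (nat_lit 5) (nat_lit 56) (nat_lit 5) (nat_lit 57) (nat_lit 4) (nat_lit 485) (nat_lit 458) (nat_lit 257)) (XT.lf (nat_lit 0) (nat_lit 252698212150) (nat_lit 152) (nat_lit 11845774271) (nat_lit 76) (nat_lit 960966496493) (nat_lit 54) (nat_lit 5) (nat_lit 56) (nat_lit 5) (nat_lit 55) (nat_lit 5) (nat_lit 486) (nat_lit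 458) (nat_lit 256))) (XT.nd (nat_lit 78) (nat_lit 76) (nat_lit 0) (XT.lf (nat_lit 0) (nat_lit 601171042404) (nat_lit 228) (nat_lit 492936942294) (nat_lit 76) (nat_lit 192830955370) (nat_lit 52) (nat_lit 5) (nat_lit 55) (nat_lit 5) (nat_lit 53) (nat_lit 4) (nat_lit 487) (nat_lit 458) (nat_lit 255)) (XT.lf (nat_lit 0) (nat_lit 320908968483) (nat_lit 76) (nat_lit 671534156595) (nat_lit 152) (nat_lit 359644834636) (nat_lit 51) (nat_lit 5) (nat_lit 52) (nat_lit 5) (nat_lit 53) (nat_lit 4) (nat_lit 488) (nat_lit 458) (nat_lit 254))))) (XT.nd (nat_lit 234) (nat_lit 228) (nat_lit 0) (XT.nd (nat_lit 78) (nat_lit 228) (nat_lit 0) (XT.lf (nat_lit 0) (nat_lit 6767678254) (nat_lit 152) (nat_lit 193645721643) (nat_lit 76) (nat_lit 1220943573697) (nat_lit 50) (nat_lit 5) (nat_lit 52) (nat_lit 5) (nat_lit 51) (nat_lit 5) (nat_lit 489) (nat_lit 458) (nat_lit 253)) (XT.nd (nat_lit 78) (nat_lit 76) (nat_lit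 0) (XT.lf (nat_lit 0) (nat_lit 408944654540) (nat_lit 228) (nat_lit 763629164351) (nat_lit 76) (nat_lit 320775845762) (nat_lit 48) (nat_lit 5) (nat_lit 51) (nat_lit 5) (nat_lit 49) (nat_lit 4) (nat_lit 490) (nat_lit 458) (nat_lit 252)) (XT.lf (nat_lit 0) (nat_lit 170475407348) (nat_lit 76) (nat_lit 687557991072) (nat_lit 152) (nat_lit 711889363817) (nat_lit 47) (nat_lit 5) (nat_lit 48) (nat_lit 5) (nat_lit 49) (nat_lit 4) (nat_lit 491) (nat_lit 458) (nat_lit 251)))) (XT.nd (nat_lit 156) (nat_lit 76) (nat_lit 0) (XT.nd (nat_lit 78) (nat_lit 152) (nat_lit 0) (XT.lf (nat_lit 0) (nat_lit 1222736592758) (nat_lit 76) (nat_lit 141191613272) (nat_lit 152) (nat_lit 287023184462) (nat_lit 47) (nat_lit 5) (nat_lit 48) (nat_lit 5) (nat_lit 49) (nat_lit 4) (nat_lit 492) (nat_lit 458) (nat_lit 250)) (XT.lf (nat_lit 0) (nat_lit 190154707402) (nat_lit 152) (nat_lit 1099139402248) (nat_lit 76) (nat_lit 446684140487)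 (nat_lit 45) (nat_lit 5) (nat_lit 47) (nat_lit 5) (nat_lit 46) (nat_lit 4) (nat_lit 493) (nat_lit 458) (nat_lit 249))) (XT.nd (nat_lit 78) (nat_lit 76) (nat_lit 0) (XT.lf (nat_lit 0) (nat_lit 705679687620) (nat_lit 152) (nat_lit 26847454839) (nat_lit 76) (nat_lit 1093429339153) (nat_lit 45) (nat_lit 5) (nat_lit 47) (nat_lit 5) (nat_lit 46) (nat_lit 4) (nat_lit 494) (nat_lit 458) (nat_lit 248)) (XT.lf (nat_lit 0) (nat_lit 1190796284181) (nat_lit 76) (nat_lit 100289052294) (nat_lit 152) (nat_lit 629756541514) (nat_lit 44) (nat_lit 5) (nat_lit 45) (nat_lit 5) (nat_lit 46) (nat_lit 4) (nat_lit 495) (nat_lit 458) (nat_lit 247))))))) (XT.nd (nat_lit 1092) (nat_lit 912) (nat_lit 0) (XT.nd (nat_lit 546) (nat_lit 532) (nat_lit 0) (XT.nd (nat_lit 234) (nat_lit 228) (nat_lit 0) (XT.nd (nat_lit 78) (nat_lit 152) (nat_lit 0) (XT.lf (nat_lit 0) (nat_lit 494844191941) (nat_lit 76) (nat_lit 1455143188906)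 (nat_lit 76) (nat_lit 71197609739) (nat_lit 43) (nat_lit 4) (nat_lit 44) (nat_lit 5) (nat_lit 44) (nat_lit 4) (nat_lit 496) (nat_lit 458) (nat_lit 246)) (XT.nd (nat_lit 78) (nat_lit 76) (nat_lit 0) (XT.lf (nat_lit 0) (nat_lit 528515041615) (nat_lit 152) (nat_lit 284634301021) (nat_lit 76) (nat_lit 1313535823752) (nat_lit 42) (nat_lit 5) (nat_lit 44) (nat_lit 5) (nat_lit 43) (nat_lit 4) (nat_lit 497) (nat_lit 458) (nat_lit 245)) (XT.lf (nat_lit 0) (nat_lit 1110090641727) (nat_lit 76) (nat_lit 88965241492) (nat_lit 152) (nat_lit 1039285714080) (nat_lit 41) (nat_lit 5) (nat_lit 42) (nat_lit 5) (nat_lit 43) (nat_lit 4) (nat_lit 498) (nat_lit 458) (nat_lit 244)))) (XT.nd (nat_lit 156) (nat_lit 76) (nat_lit 0) (XT.nd (nat_lit 78) (nat_lit 76) (nat_lit 0) (XT.lf (nat_lit 0) (nat_lit 270954772876) (nat_lit 76) (nat_lit 1683456586948) (nat_lit 76) (nat_lit 402025473446) (nat_lit 40) (nat_lit 4) (nat_lit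 41) (nat_lit 5) (nat_lit 41) (nat_lit 4) (nat_lit 499) (nat_lit 458) (nat_lit 243)) (XT.lf (nat_lit 0) (nat_lit 305858338126) (nat_lit 152) (nat_lit 645245776384) (nat_lit 76) (nat_lit 1529608061110) (nat_lit 39) (nat_lit 5) (nat_lit 41) (nat_lit 5) (nat_lit 40) (nat_lit 4) (nat_lit 500) (nat_lit 458) (nat_lit 242))) (XT.nd (nat_lit 78) (nat_lit 0) (nat_lit 0) (XT.lf (nat_lit 0) (nat_lit 947147320376) (nat_lit 76) (nat_lit 124284624714) (nat_lit 152) (nat_lit 1540839910001) (nat_lit 38) (nat_lit 5) (nat_lit 39) (nat_lit 5) (nat_lit 40) (nat_lit 4) (nat_lit 501) (nat_lit 458) (nat_lit 241)) (XT.lf (nat_lit 0) (nat_lit 1934838616765) (nat_lit 152) (nat_lit 68262407512) (nat_lit 0) (nat_lit 748328310549) (nat_lit 38) (nat_lit 5) (nat_lit 40) (nat_lit 4) (nat_lit 38) (nat_lit 4) (nat_lit 502) (nat_lit 458) (nat_lit 240))))) (XT.nd (nat_lit 234) (nat_lit 304) (nat_lit 0) (XT.nd (nat_lit 78) (nat_lit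 76) (nat_lit 0) (XT.lf (nat_lit 0) (nat_lit 13569524575) (nat_lit 152) (nat_lit 1158285699645) (nat_lit 76) (nat_lit 1726230360773) (nat_lit 36) (nat_lit 5) (nat_lit 38) (nat_lit 5) (nat_lit 37) (nat_lit 4) (nat_lit 503) (nat_lit 458) (nat_lit 239)) (XT.nd (nat_lit 78) (nat_lit 0) (nat_lit 0) (XT.lf (nat_lit 0) (nat_lit 651390851191) (nat_lit 76) (nat_lit 232215478694) (nat_lit 152) (nat_lit 2169764725231) (nat_lit 35) (nat_lit 5) (nat_lit 36) (nat_lit 5) (nat_lit 37) (nat_lit 4) (nat_lit 504) (nat_lit 458) (nat_lit 238)) (XT.lf (nat_lit 0) (nat_lit 1874559682277) (nat_lit 152) (nat_lit 566475575700) (nat_lit 0) (nat_lit 775939016659) (nat_lit 35) (nat_lit 5) (nat_lit 37) (nat_lit 4) (nat_lit 35) (nat_lit 4) (nat_lit 505) (nat_lit 458) (nat_lit 237)))) (XT.nd (nat_lit 156) (nat_lit 76) (nat_lit 0) (XT.nd (nat_lit 78) (nat_lit 152) (nat_lit 0) (XT.lf (nat_lit 0) (nat_lit 1484077401281) (nat_lit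 76) (nat_lit 1502435563232) (nat_lit 76) (nat_lit 403814894273) (nat_lit 34) (nat_lit 4) (nat_lit 35) (nat_lit 5) (nat_lit 35) (nat_lit 4) (nat_lit 506) (nat_lit 458) (nat_lit 236)) (XT.lf (nat_lit 0) (nat_lit 146856523320) (nat_lit 76) (nat_lit 451930589839) (nat_lit 152) (nat_lit 2976035408912) (nat_lit 32) (nat_lit 5) (nat_lit 33) (nat_lit 5) (nat_lit 34) (nat_lit 4) (nat_lit 507) (nat_lit 458) (nat_lit 235))) (XT.nd (nat_lit 78) (nat_lit 76) (nat_lit 0) (XT.lf (nat_lit 0) (nat_lit 1729671722539) (nat_lit 152) (nat_lit 1325544308374) (nat_lit 0) (nat_lit 712430356875) (nat_lit 32) (nat_lit 5) (nat_lit 34) (nat_lit 4) (nat_lit 32) (nat_lit 4) (nat_lit 508) (nat_lit 458) (nat_lit 234)) (XT.lf (nat_lit 0) (nat_lit 982480291741) (nat_lit 76) (nat_lit 2003913934545) (nat_lit 76) (nat_lit 986672566426) (nat_lit 31) (nat_lit 4) (nat_lit 32) (nat_lit 5) (nat_lit 32) (nat_lit 4) (nat_lit 509)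 (nat_lit 458) (nat_lit 233)))))) (XT.nd (nat_lit 546) (nat_lit 456) (nat_lit 0) (XT.nd (nat_lit 234) (nat_lit 228) (nat_lit 0) (XT.nd (nat_lit 78) (nat_lit 152) (nat_lit 0) (XT.lf (nat_lit 0) (nat_lit 178477532421) (nat_lit 152) (nat_lit 646008102955) (nat_lit 76) (nat_lit 3367174303195) (nat_lit 30) (nat_lit 5) (nat_lit 32) (nat_lit 5) (nat_lit 31) (nat_lit 4) (nat_lit 510) (nat_lit 458) (nat_lit 232)) (XT.nd (nat_lit 78) (nat_lit 76) (nat_lit 0) (XT.lf (nat_lit 0) (nat_lit 1443329848950) (nat_lit 152) (nat_lit 2476137076712) (nat_lit 0) (nat_lit 501439689229) (nat_lit 29) (nat_lit 5) (nat_lit 31) (nat_lit 4) (nat_lit 29) (nat_lit 4) (nat_lit 511) (nat_lit 458) (nat_lit 231)) (XT.lf (nat_lit 0) (nat_lit 95365000884) (nat_lit 76) (nat_lit 2755835872093) (nat_lit 76) (nat_lit 1813945710567) (nat_lit 28) (nat_lit 4) (nat_lit 29) (nat_lit 5) (nat_lit 29) (nat_lit 4) (nat_lit 512) (nat_lit 458)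 (nat_lit 230)))) (XT.nd (nat_lit 156) (nat_lit 76) (nat_lit 0) (XT.nd (nat_lit 78) (nat_lit 152) (nat_lit 0) (XT.lf (nat_lit 0) (nat_lit 3013407343545) (nat_lit 76) (nat_lit 1425996205851) (nat_lit 76) (nat_lit 484106042654) (nat_lit 28) (nat_lit 4) (nat_lit 29) (nat_lit 5) (nat_lit 29) (nat_lit 4) (nat_lit 513) (nat_lit 458) (nat_lit 229)) (XT.lf (nat_lit 0) (nat_lit 929734042892) (nat_lit 152) (nat_lit 4211342821502) (nat_lit 0) (nat_lit 57613519981) (nat_lit 26) (nat_lit 5) (nat_lit 28) (nat_lit 4) (nat_lit 26) (nat_lit 4) (nat_lit 514) (nat_lit 458) (nat_lit 228))) (XT.nd (nat_lit 78) (nat_lit 76) (nat_lit 0) (XT.lf (nat_lit 0) (nat_lit 2521147981315) (nat_lit 152) (nat_lit 1317454591339) (nat_lit 0) (nat_lit 1649027457077) (nat_lit 26) (nat_lit 5) (nat_lit 28) (nat_lit 4) (nat_lit 26) (nat_lit 4) (nat_lit 515) (nat_lit 458) (nat_lit 227)) (XT.lf (nat_lit 0) (nat_lit 1903147851076) (nat_lit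 76) (nat_lit 2382497930676) (nat_lit 76) (nat_lit 1510377405210) (nat_lit 25) (nat_lit 4) (nat_lit 26) (nat_lit 5) (nat_lit 26) (nat_lit 4) (nat_lit 516) (nat_lit 458) (nat_lit 226))))) (XT.nd (nat_lit 234) (nat_lit 304) (nat_lit 0) (XT.nd (nat_lit 78) (nat_lit 76) (nat_lit 0) (XT.lf (nat_lit 0) (nat_lit 96060495807) (nat_lit 152) (nat_lit 672314695324) (nat_lit 76) (nat_lit 5357636329637) (nat_lit 24) (nat_lit 5) (nat_lit 26) (nat_lit 5) (nat_lit 25) (nat_lit 4) (nat_lit 517) (nat_lit 458) (nat_lit 225)) (XT.nd (nat_lit 78) (nat_lit 0) (nat_lit 0) (XT.lf (nat_lit 0) (nat_lit 1845739918371) (nat_lit 152) (nat_lit 3587593557076) (nat_lit 0) (nat_lit 1038220911281) (nat_lit 23) (nat_lit 5) (nat_lit 25) (nat_lit 4) (nat_lit 23) (nat_lit 4) (nat_lit 518) (nat_lit 458) (nat_lit 224)) (XT.lf (nat_lit 0) (nat_lit 3774211224528) (nat_lit 152) (nat_lit 100731838518) (nat_lit 0) (nat_lit 2966692216535)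 (nat_lit 23) (nat_lit 5) (nat_lit 25) (nat_lit 4) (nat_lit 23) (nat_lit 4) (nat_lit 519) (nat_lit 458) (nat_lit 223)))) (XT.nd (nat_lit 156) (nat_lit 76) (nat_lit 0) (XT.nd (nat_lit 78) (nat_lit 152) (nat_lit 0) (XT.lf (nat_lit 0) (nat_lit 3858075364422) (nat_lit 76) (nat_lit 2091671672083) (nat_lit 76) (nat_lit 1284152663254) (nat_lit 22) (nat_lit 4) (nat_lit 23) (nat_lit 5) (nat_lit 23) (nat_lit 4) (nat_lit 520) (nat_lit 458) (nat_lit 222)) (XT.lf (nat_lit 0) (nat_lit 491048782300) (nat_lit 76) (nat_lit 133262656114) (nat_lit 152) (nat_lit 7030828211905) (nat_lit 20) (nat_lit 5) (nat_lit 21) (nat_lit 5) (nat_lit 22) (nat_lit 4) (nat_lit 521) (nat_lit 458) (nat_lit 221))) (XT.nd (nat_lit 78) (nat_lit 76) (nat_lit 0) (XT.lf (nat_lit 0) (nat_lit 2758436311274) (nat_lit 152) (nat_lit 3326851693221) (nat_lit 0) (nat_lit 2010733523941) (nat_lit 20) (nat_lit 5) (nat_lit 22) (nat_lit 4) (nat_lit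 20) (nat_lit 4) (nat_lit 522) (nat_lit 458) (nat_lit 220)) (XT.lf (nat_lit 0) (nat_lit 856764047929) (nat_lit 76) (nat_lit 4230593686011) (nat_lit 76) (nat_lit 3482890898064) (nat_lit 19) (nat_lit 4) (nat_lit 20) (nat_lit 5) (nat_lit 20) (nat_lit 4) (nat_lit 523) (nat_lit 458) (nat_lit 219))))))))
noncomputable def xc209 : XT := (XT.nd (nat_lit 58344) (nat_lit 0) (nat_lit 2356) (XT.nd (nat_lit 1092) (nat_lit 0) (nat_lit 0) (XT.nd (nat_lit 546) (nat_lit 304) (nat_lit 0) (XT.nd (nat_lit 234) (nat_lit 228) (nat_lit 0) (XT.nd (nat_lit 78) (nat_lit 152) (nat_lit 0) (XT.lf (nat_lit 0) (nat_lit 5564270044665) (nat_lit 76) (nat_lit 2129284843158) (nat_lit 76) (nat_lit 1381582054641) (nat_lit 19) (nat_lit 4) (nat_lit 20) (nat_lit 5) (nat_lit 20) (nat_lit 4) (nat_lit 524) (nat_lit 458) (nat_lit 218)) (XT.nd (nat_lit 78) (nat_lit 0) (nat_lit 0) (XT.lf (nat_lit 0) (nat_lit 873488929207) (nat_lit 152)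 (nat_lit 8561642038293) (nat_lit 0) (nat_lit 181171531944) (nat_lit 17) (nat_lit 5) (nat_lit 19) (nat_lit 4) (nat_lit 17) (nat_lit 4) (nat_lit 525) (nat_lit 458) (nat_lit 217)) (XT.lf (nat_lit 0) (nat_lit 3388117027829) (nat_lit 152) (nat_lit 4101670403004) (nat_lit 0) (nat_lit 2695799630115) (nat_lit 17) (nat_lit 5) (nat_lit 19) (nat_lit 4) (nat_lit 17) (nat_lit 4) (nat_lit 526) (nat_lit 458) (nat_lit 216)))) (XT.nd (nat_lit 156) (nat_lit 152) (nat_lit 0) (XT.nd (nat_lit 78) (nat_lit 0) (nat_lit 0) (XT.lf (nat_lit 0) (nat_lit 752754800436) (nat_lit 76) (nat_lit 5369264341818) (nat_lit 76) (nat_lit 4676946943685) (nat_lit 16) (nat_lit 4) (nat_lit 17) (nat_lit 5) (nat_lit 17) (nat_lit 4) (nat_lit 527) (nat_lit 458) (nat_lit 215)) (XT.lf (nat_lit 0) (nat_lit 6228799644061) (nat_lit 76) (nat_lit 2957980716312) (nat_lit 76) (nat_lit 2265663317792) (nat_lit 16) (nat_lit 4) (nat_lit 17) (nat_lit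 5) (nat_lit 17) (nat_lit 4) (nat_lit 528) (nat_lit 458) (nat_lit 214))) (XT.nd (nat_lit 78) (nat_lit 76) (nat_lit 0) (XT.lf (nat_lit 0) (nat_lit 321588703869) (nat_lit 152) (nat_lit 23412894830) (nat_lit 76) (nat_lit 11812546560404) (nat_lit 15) (nat_lit 5) (nat_lit 17) (nat_lit 5) (nat_lit 16) (nat_lit 4) (nat_lit 529) (nat_lit 458) (nat_lit 213)) (XT.lf (nat_lit 0) (nat_lit 3198256994164) (nat_lit 152) (nat_lit 7142486505301) (nat_lit 0) (nat_lit 2557222365265) (nat_lit 14) (nat_lit 5) (nat_lit 16) (nat_lit 4) (nat_lit 14) (nat_lit 4) (nat_lit 530) (nat_lit 458) (nat_lit 212))))) (XT.nd (nat_lit 234) (nat_lit 228) (nat_lit 0) (XT.nd (nat_lit 78) (nat_lit 76) (nat_lit 0) (XT.lf (nat_lit 0) (nat_lit 6314676602788) (nat_lit 152) (nat_lit 1708528982006) (nat_lit 0) (nat_lit 5673641973605) (nat_lit 14) (nat_lit 5) (nat_lit 16) (nat_lit 4) (nat_lit 14) (nat_lit 4) (nat_lit 531) (nat_lit 458)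 (nat_lit 211)) (XT.nd (nat_lit 78) (nat_lit 0) (nat_lit 0) (XT.lf (nat_lit 0) (nat_lit 4379211008576) (nat_lit 76) (nat_lit 5406518899112) (nat_lit 76) (nat_lit 4765484269665) (nat_lit 13) (nat_lit 4) (nat_lit 14) (nat_lit 5) (nat_lit 14) (nat_lit 4) (nat_lit 532) (nat_lit 458) (nat_lit 210)) (XT.lf (nat_lit 0) (nat_lit 11051135750492) (nat_lit 76) (nat_lit 2530045934203) (nat_lit 76) (nat_lit 1889011304512) (nat_lit 13) (nat_lit 4) (nat_lit 14) (nat_lit 5) (nat_lit 14) (nat_lit 4) (nat_lit 533) (nat_lit 458) (nat_lit 209)))) (XT.nd (nat_lit 156) (nat_lit 76) (nat_lit 0) (XT.nd (nat_lit 78) (nat_lit 0) (nat_lit 0) (XT.lf (nat_lit 0) (nat_lit 1217137788471) (nat_lit 152) (nat_lit 14614785163161) (nat_lit 0) (nat_lit 623587205215) (nat_lit 11) (nat_lit 5) (nat_lit 13) (nat_lit 4) (nat_lit 11) (nat_lit 4) (nat_lit 534) (nat_lit 458) (nat_lit 208)) (XT.lf (nat_lit 0) (nat_lit 4659401773829)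 (nat_lit 152) (nat_lit 8775300224147) (nat_lit 0) (nat_lit 4065851190379) (nat_lit 11) (nat_lit 5) (nat_lit 13) (nat_lit 4) (nat_lit 11) (nat_lit 4) (nat_lit 535) (nat_lit 458) (nat_lit 207))) (XT.nd (nat_lit 78) (nat_lit 76) (nat_lit 0) (XT.lf (nat_lit 0) (nat_lit 8377046875883) (nat_lit 152) (nat_lit 2468656494417) (nat_lit 0) (nat_lit 7783496292254) (nat_lit 11) (nat_lit 5) (nat_lit 13) (nat_lit 4) (nat_lit 11) (nat_lit 4) (nat_lit 536) (nat_lit 458) (nat_lit 206)) (XT.lf (nat_lit 0) (nat_lit 4571188070309) (nat_lit 76) (nat_lit 7930852696845) (nat_lit 76) (nat_lit 7337302113049) (nat_lit 10) (nat_lit 4) (nat_lit 11) (nat_lit 5) (nat_lit 11) (nat_lit 4) (nat_lit 537) (nat_lit 458) (nat_lit 205)))))) (XT.nd (nat_lit 56706) (nat_lit 0) (nat_lit 5244) (XT.nd (nat_lit 56394) (nat_lit 0) (nat_lit 5776) (XT.nd (nat_lit 78) (nat_lit 0) (nat_lit 0) (XT.lf (nat_lit 0) (nat_lit 12314614878494)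 (nat_lit 76) (nat_lit 4709916732702) (nat_lit 76) (nat_lit 4116366148753) (nat_lit 10) (nat_lit 4) (nat_lit 11) (nat_lit 5) (nat_lit 11) (nat_lit 4) (nat_lit 538) (nat_lit 458) (nat_lit 204)) (XT.nd (nat_lit 56238) (nat_lit 0) (nat_lit 6308) (XT.lf (nat_lit 0) (nat_lit 20677515827652) (nat_lit 76) (nat_lit 1231305893328) (nat_lit 76) (nat_lit 637755309236) (nat_lit 10) (nat_lit 4) (nat_lit 11) (nat_lit 5) (nat_lit 11) (nat_lit 4) (nat_lit 539) (nat_lit 458) (nat_lit 203)) (XT.lf (nat_lit 0) (nat_lit 187805953780) (nat_lit 532) (nat_lit 1253804348) (nat_lit 532) (nat_lit 1253804348) (nat_lit 93) (nat_lit 3) (nat_lit 100) (nat_lit 3) (nat_lit 100) (nat_lit 5) (nat_lit 459) (nat_lit 459) (nat_lit 282)))) (XT.nd (nat_lit 156) (nat_lit 0) (nat_lit 76) (XT.nd (nat_lit 78) (nat_lit 532) (nat_lit 0) (XT.lf (nat_lit 76) (nat_lit 196894521280) (nat_lit 0) (nat_lit 198477607078) (nat_lit 532) (nat_lit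 101221978) (nat_lit 94) (nat_lit 5) (nat_lit 93) (nat_lit 3) (nat_lit 100) (nat_lit 5) (nat_lit 460) (nat_lit 459) (nat_lit 281)) (XT.lf (nat_lit 76) (nat_lit 802792463) (nat_lit 0) (nat_lit 4232286852) (nat_lit 608) (nat_lit 406455009802) (nat_lit 87) (nat_lit 5) (nat_lit 86) (nat_lit 5) (nat_lit 94) (nat_lit 5) (nat_lit 461) (nat_lit 459) (nat_lit 280))) (XT.nd (nat_lit 78) (nat_lit 0) (nat_lit 0) (XT.lf (nat_lit 0) (nat_lit 21090844147) (nat_lit 532) (nat_lit 206012740648) (nat_lit 608) (nat_lit 200843249636) (nat_lit 87) (nat_lit 5) (nat_lit 94) (nat_lit 5) (nat_lit 95) (nat_lit 5) (nat_lit 462) (nat_lit 459) (nat_lit 279)) (XT.lf (nat_lit 76) (nat_lit 15711790235) (nat_lit 0) (nat_lit 23207040111) (nat_lit 608) (nat_lit 406762268213) (nat_lit 88) (nat_lit 5) (nat_lit 87) (nat_lit 5) (nat_lit 95) (nat_lit 5) (nat_lit 463) (nat_lit 459) (nat_lit 278))))) (XT.nd (nat_lit 234) (nat_lit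 684) (nat_lit 0) (XT.nd (nat_lit 78) (nat_lit 0) (nat_lit 0) (XT.lf (nat_lit 0) (nat_lit 68689962554) (nat_lit 532) (nat_lit 202377292284) (nat_lit 608) (nat_lit 192925496415) (nat_lit 88) (nat_lit 5) (nat_lit 95) (nat_lit 5) (nat_lit 96) (nat_lit 5) (nat_lit 464) (nat_lit 459) (nat_lit 277)) (XT.nd (nat_lit 78) (nat_lit 0) (nat_lit 76) (XT.lf (nat_lit 76) (nat_lit 45074064364) (nat_lit 0) (nat_lit 57455500361) (nat_lit 608) (nat_lit 381104829090) (nat_lit 89) (nat_lit 5) (nat_lit 88) (nat_lit 5) (nat_lit 96) (nat_lit 5) (nat_lit 465) (nat_lit 459) (nat_lit 276)) (XT.lf (nat_lit 0) (nat_lit 148919932167) (nat_lit 532) (nat_lit 184884098151) (nat_lit 76) (nat_lit 170255849700) (nat_lit 89) (nat_lit 5) (nat_lit 96) (nat_lit 5) (nat_lit 90) (nat_lit 5) (nat_lit 466) (nat_lit 459) (nat_lit 275)))) (XT.nd (nat_lit 156) (nat_lit 228) (nat_lit 0) (XT.nd (nat_lit 78) (nat_lit 0) (nat_lit 0) (XT.lf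 (nat_lit 0) (nat_lit 92206390702) (nat_lit 532) (nat_lit 110525025903) (nat_lit 608) (nat_lit 323091197507) (nat_lit 82) (nat_lit 5) (nat_lit 89) (nat_lit 5) (nat_lit 90) (nat_lit 5) (nat_lit 467) (nat_lit 459) (nat_lit 274)) (XT.lf (nat_lit 0) (nat_lit 269175476598) (nat_lit 608) (nat_lit 150215975354) (nat_lit 76) (nat_lit 129268702442) (nat_lit 82) (nat_lit 5) (nat_lit 90) (nat_lit 5) (nat_lit 83) (nat_lit 5) (nat_lit 468) (nat_lit 459) (nat_lit 273))) (XT.nd (nat_lit 78) (nat_lit 0) (nat_lit 0) (XT.lf (nat_lit 0) (nat_lit 161041430451) (nat_lit 228) (nat_lit 186637435691) (nat_lit 304) (nat_lit 225106327378) (nat_lit 79) (nat_lit 5) (nat_lit 82) (nat_lit 5) (nat_lit 83) (nat_lit 5) (nat_lit 469) (nat_lit 459) (nat_lit 272)) (XT.lf (nat_lit 0) (nat_lit 438233277429) (nat_lit 304) (nat_lit 94432949556) (nat_lit 76) (nat_lit 65712348748) (nat_lit 79) (nat_lit 5) (nat_lit 83) (nat_lit 5)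 (nat_lit 80) (nat_lit 5) (nat_lit 470) (nat_lit 459) (nat_lit 271))))))) (XT.nd (nat_lit 1092) (nat_lit 1140) (nat_lit 0) (XT.nd (nat_lit 546) (nat_lit 836) (nat_lit 0) (XT.nd (nat_lit 234) (nat_lit 380) (nat_lit 0) (XT.nd (nat_lit 78) (nat_lit 304) (nat_lit 0) (XT.lf (nat_lit 0) (nat_lit 256232778869) (nat_lit 228) (nat_lit 290809370431) (nat_lit 304) (nat_lit 78096470611) (nat_lit 76) (nat_lit 5) (nat_lit 79) (nat_lit 5) (nat_lit 80) (nat_lit 5) (nat_lit 471) (nat_lit 459) (nat_lit 270)) (XT.nd (nat_lit 78) (nat_lit 228) (nat_lit 0) (XT.lf (nat_lit 0) (nat_lit 12639203494) (nat_lit 304) (nat_lit 13830666206) (nat_lit 76) (nat_lit 627337444111) (nat_lit 75) (nat_lit 5) (nat_lit 79) (nat_lit 5) (nat_lit 76) (nat_lit 5) (nat_lit 472) (nat_lit 459) (nat_lit 269)) (XT.lf (nat_lit 0) (nat_lit 122245144937) (nat_lit 304) (nat_lit 303406118191) (nat_lit 76) (nat_lit 257689509614) (nat_lit 72)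 (nat_lit 5) (nat_lit 76) (nat_lit 5) (nat_lit 73) (nat_lit 5) (nat_lit 473) (nat_lit 459) (nat_lit 268)))) (XT.nd (nat_lit 156) (nat_lit 152) (nat_lit 0) (XT.nd (nat_lit 78) (nat_lit 0) (nat_lit 0) (XT.lf (nat_lit 0) (nat_lit 94827380263) (nat_lit 228) (nat_lit 149148268949) (nat_lit 304) (nat_lit 470992772176) (nat_lit 69) (nat_lit 5) (nat_lit 72) (nat_lit 5) (nat_lit 73) (nat_lit 5) (nat_lit 474) (nat_lit 459) (nat_lit 267)) (XT.lf (nat_lit 0) (nat_lit 387550584226) (nat_lit 304) (nat_lit 210098469871) (nat_lit 76) (nat_lit 150508748597) (nat_lit 69) (nat_lit 5) (nat_lit 73) (nat_lit 5) (nat_lit 70) (nat_lit 5) (nat_lit 475) (nat_lit 459) (nat_lit 266))) (XT.nd (nat_lit 78) (nat_lit 0) (nat_lit 0) (XT.lf (nat_lit 0) (nat_lit 240925575025) (nat_lit 152) (nat_lit 311354168524) (nat_lit 228) (nat_lit 230949132597) (nat_lit 67) (nat_lit 5) (nat_lit 69) (nat_lit 5) (nat_lit 70) (nat_lit 5)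 (nat_lit 476) (nat_lit 459) (nat_lit 265)) (XT.lf (nat_lit 0) (nat_lit 736029045718) (nat_lit 228) (nat_lit 80763435704) (nat_lit 76) (nat_lit 3845809247) (nat_lit 67) (nat_lit 5) (nat_lit 70) (nat_lit 5) (nat_lit 68) (nat_lit 5) (nat_lit 477) (nat_lit 459) (nat_lit 264))))) (XT.nd (nat_lit 234) (nat_lit 456) (nat_lit 0) (XT.nd (nat_lit 78) (nat_lit 152) (nat_lit 0) (XT.lf (nat_lit 0) (nat_lit 88700621282) (nat_lit 228) (nat_lit 430627538443) (nat_lit 76) (nat_lit 340056088459) (nat_lit 64) (nat_lit 5) (nat_lit 67) (nat_lit 5) (nat_lit 65) (nat_lit 5) (nat_lit 478) (nat_lit 459) (nat_lit 263)) (XT.nd (nat_lit 78) (nat_lit 0) (nat_lit 0) (XT.lf (nat_lit 0) (nat_lit 84552990953) (nat_lit 152) (nat_lit 191050246817) (nat_lit 228) (nat_lit 625106908488) (nat_lit 62) (nat_lit 5) (nat_lit 64) (nat_lit 5) (nat_lit 65) (nat_lit 5) (nat_lit 479) (nat_lit 459) (nat_lit 262)) (XT.lf (nat_lit 0) (nat_lit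 493469925992) (nat_lit 228) (nat_lit 283199834943) (nat_lit 76) (nat_lit 167391406251) (nat_lit 62) (nat_lit 5) (nat_lit 65) (nat_lit 5) (nat_lit 63) (nat_lit 5) (nat_lit 480) (nat_lit 459) (nat_lit 261)))) (XT.nd (nat_lit 156) (nat_lit 304) (nat_lit 0) (XT.nd (nat_lit 78) (nat_lit 0) (nat_lit 0) (XT.lf (nat_lit 0) (nat_lit 302567349494) (nat_lit 152) (nat_lit 438437682058) (nat_lit 228) (nat_lit 248896111656) (nat_lit 60) (nat_lit 5) (nat_lit 62) (nat_lit 5) (nat_lit 63) (nat_lit 5) (nat_lit 481) (nat_lit 459) (nat_lit 260)) (XT.lf (nat_lit 0) (nat_lit 951301713079) (nat_lit 152) (nat_lit 64784404528) (nat_lit 228) (nat_lit 22702745940) (nat_lit 60) (nat_lit 5) (nat_lit 62) (nat_lit 5) (nat_lit 63) (nat_lit 5) (nat_lit 482) (nat_lit 459) (nat_lit 259))) (XT.nd (nat_lit 78) (nat_lit 152) (nat_lit 0) (XT.lf (nat_lit 0) (nat_lit 233203128882) (nat_lit 152) (nat_lit 514443459097) (nat_lit 76)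 (nat_lit 341698547598) (nat_lit 58) (nat_lit 5) (nat_lit 60) (nat_lit 5) (nat_lit 59) (nat_lit 5) (nat_lit 483) (nat_lit 459) (nat_lit 258)) (XT.lf (nat_lit 0) (nat_lit 157022913015) (nat_lit 152) (nat_lit 359245311988) (nat_lit 228) (nat_lit 626997446687) (nat_lit 56) (nat_lit 5) (nat_lit 58) (nat_lit 5) (nat_lit 59) (nat_lit 5) (nat_lit 484) (nat_lit 459) (nat_lit 257)))))) (XT.nd (nat_lit 546) (nat_lit 532) (nat_lit 0) (XT.nd (nat_lit 234) (nat_lit 456) (nat_lit 0) (XT.nd (nat_lit 78) (nat_lit 152) (nat_lit 0) (XT.lf (nat_lit 0) (nat_lit 837858144319) (nat_lit 228) (nat_lit 290724989337) (nat_lit 76) (nat_lit 71646347798) (nat_lit 56) (nat_lit 5) (nat_lit 59) (nat_lit 5) (nat_lit 57) (nat_lit 4) (nat_lit 485) (nat_lit 459) (nat_lit 256)) (XT.nd (nat_lit 78) (nat_lit 76) (nat_lit 0) (XT.lf (nat_lit 0) (nat_lit 474857426923) (nat_lit 76) (nat_lit 731069198632) (nat_lit 152) (nat_lit 54163660974)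 (nat_lit 55) (nat_lit 5) (nat_lit 56) (nat_lit 5) (nat_lit 57) (nat_lit 4) (nat_lit 486) (nat_lit 459) (nat_lit 255)) (XT.lf (nat_lit 0) (nat_lit 272914286229) (nat_lit 152) (nat_lit 12793058920) (nat_lit 76) (nat_lit 1037843959020) (nat_lit 54) (nat_lit 5) (nat_lit 56) (nat_lit 5) (nat_lit 55) (nat_lit 5) (nat_lit 487) (nat_lit 459) (nat_lit 254)))) (XT.nd (nat_lit 156) (nat_lit 228) (nat_lit 0) (XT.nd (nat_lit 78) (nat_lit 76) (nat_lit 0) (XT.lf (nat_lit 0) (nat_lit 649264939462) (nat_lit 228) (nat_lit 532371516934) (nat_lit 76) (nat_lit 208257581775) (nat_lit 52) (nat_lit 5) (nat_lit 55) (nat_lit 5) (nat_lit 53) (nat_lit 4) (nat_lit 488) (nat_lit 459) (nat_lit 253)) (XT.lf (nat_lit 0) (nat_lit 346582057066) (nat_lit 76) (nat_lit 725256724782) (nat_lit 152) (nat_lit 388416198094) (nat_lit 51) (nat_lit 5) (nat_lit 52) (nat_lit 5) (nat_lit 53) (nat_lit 4) (nat_lit 489) (nat_lit 459) (nat_lit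 252))) (XT.nd (nat_lit 78) (nat_lit 152) (nat_lit 0) (XT.lf (nat_lit 0) (nat_lit 7309288943) (nat_lit 152) (nat_lit 209137025408) (nat_lit 76) (nat_lit 1318619201408) (nat_lit 50) (nat_lit 5) (nat_lit 52) (nat_lit 5) (nat_lit 51) (nat_lit 5) (nat_lit 490) (nat_lit 459) (nat_lit 251)) (XT.lf (nat_lit 0) (nat_lit 441660420802) (nat_lit 228) (nat_lit 824719140997) (nat_lit 76) (nat_lit 346438060507) (nat_lit 48) (nat_lit 5) (nat_lit 51) (nat_lit 5) (nat_lit 49) (nat_lit 4) (nat_lit 491) (nat_lit 459) (nat_lit 250))))) (XT.nd (nat_lit 312) (nat_lit 304) (nat_lit 0) (XT.nd (nat_lit 156) (nat_lit 152) (nat_lit 0) (XT.nd (nat_lit 78) (nat_lit 0) (nat_lit 0) (XT.lf (nat_lit 0) (nat_lit 184113787412) (nat_lit 76) (nat_lit 742562470774) (nat_lit 152) (nat_lit 768840309992) (nat_lit 47) (nat_lit 5) (nat_lit 48) (nat_lit 5) (nat_lit 49) (nat_lit 4) (nat_lit 492) (nat_lit 459) (nat_lit 249)) (XT.lf (nat_lit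 0) (nat_lit 1320555841916) (nat_lit 76) (nat_lit 152486794571) (nat_lit 152) (nat_lit 309984851320) (nat_lit 47) (nat_lit 5) (nat_lit 48) (nat_lit 5) (nat_lit 49) (nat_lit 4) (nat_lit 493) (nat_lit 459) (nat_lit 248))) (XT.nd (nat_lit 78) (nat_lit 0) (nat_lit 0) (XT.lf (nat_lit 0) (nat_lit 205367260634) (nat_lit 152) (nat_lit 1187070221421) (nat_lit 76) (nat_lit 482419013957) (nat_lit 45) (nat_lit 5) (nat_lit 47) (nat_lit 5) (nat_lit 46) (nat_lit 4) (nat_lit 494) (nat_lit 459) (nat_lit 247)) (XT.lf (nat_lit 0) (nat_lit 762134226186) (nat_lit 152) (nat_lit 28994942887) (nat_lit 76) (nat_lit 1180903817980) (nat_lit 45) (nat_lit 5) (nat_lit 47) (nat_lit 5) (nat_lit 46) (nat_lit 4) (nat_lit 495) (nat_lit 459) (nat_lit 246)))) (XT.nd (nat_lit 156) (nat_lit 152) (nat_lit 0) (XT.nd (nat_lit 78) (nat_lit 76) (nat_lit 0) (XT.lf (nat_lit 0) (nat_lit 1286060287449) (nat_lit 76) (nat_lit 108312034612)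 (nat_lit 152) (nat_lit 680136893469) (nat_lit 44) (nat_lit 5) (nat_lit 45) (nat_lit 5) (nat_lit 46) (nat_lit 4) (nat_lit 496) (nat_lit 459) (nat_lit 245)) (XT.lf (nat_lit 0) (nat_lit 534432029273) (nat_lit 76) (nat_lit 1571554499380) (nat_lit 76) (nat_lit 76893248590) (nat_lit 43) (nat_lit 4) (nat_lit 44) (nat_lit 5) (nat_lit 44) (nat_lit 4) (nat_lit 497) (nat_lit 459) (nat_lit 244))) (XT.nd (nat_lit 78) (nat_lit 76) (nat_lit 0) (XT.lf (nat_lit 0) (nat_lit 570796394414) (nat_lit 152) (nat_lit 307404757621) (nat_lit 76) (nat_lit 1418618815703) (nat_lit 42) (nat_lit 5) (nat_lit 44) (nat_lit 5) (nat_lit 43) (nat_lit 4) (nat_lit 498) (nat_lit 459) (nat_lit 243)) (XT.lf (nat_lit 0) (nat_lit 1198898173269) (nat_lit 76) (nat_lit 96082325745) (nat_lit 152) (nat_lit 1122428414455) (nat_lit 41) (nat_lit 5) (nat_lit 42) (nat_lit 5) (nat_lit 43) (nat_lit 4) (nat_lit 499) (nat_lit 459) (nat_lit 242))))))))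
noncomputable def xc210 : XT := (XT.nd (nat_lit 2184) (nat_lit 532) (nat_lit 0) (XT.nd (nat_lit 1092) (nat_lit 836) (nat_lit 0) (XT.nd (nat_lit 546) (nat_lit 532) (nat_lit 0) (XT.nd (nat_lit 234) (nat_lit 228) (nat_lit 0) (XT.nd (nat_lit 78) (nat_lit 152) (nat_lit 0) (XT.lf (nat_lit 0) (nat_lit 292631435970) (nat_lit 76) (nat_lit 1818132976799) (nat_lit 76) (nat_lit 434187355627) (nat_lit 40) (nat_lit 4) (nat_lit 41) (nat_lit 5) (nat_lit 41) (nat_lit 4) (nat_lit 500) (nat_lit 459) (nat_lit 241)) (XT.nd (nat_lit 78) (nat_lit 76) (nat_lit 0) (XT.lf (nat_lit 0) (nat_lit 330327142125) (nat_lit 152) (nat_lit 696865170851) (nat_lit 76) (nat_lit 1651976825735) (nat_lit 39) (nat_lit 5) (nat_lit 41) (nat_lit 5) (nat_lit 40) (nat_lit 4) (nat_lit 501) (nat_lit 459) (nat_lit 240)) (XT.lf (nat_lit 0) (nat_lit 1022919366874) (nat_lit 76) (nat_lit 134227266902) (nat_lit 152) (nat_lit 1664106959073) (nat_lit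 38) (nat_lit 5) (nat_lit 39) (nat_lit 5) (nat_lit 40) (nat_lit 4) (nat_lit 502) (nat_lit 459) (nat_lit 239)))) (XT.nd (nat_lit 156) (nat_lit 76) (nat_lit 0) (XT.nd (nat_lit 78) (nat_lit 152) (nat_lit 0) (XT.lf (nat_lit 0) (nat_lit 2089625832173) (nat_lit 152) (nat_lit 73723151555) (nat_lit 0) (nat_lit 808194687797) (nat_lit 38) (nat_lit 5) (nat_lit 40) (nat_lit 4) (nat_lit 38) (nat_lit 4) (nat_lit 503) (nat_lit 459) (nat_lit 238)) (XT.lf (nat_lit 0) (nat_lit 14655212281) (nat_lit 152) (nat_lit 1250948306727) (nat_lit 76) (nat_lit 1864328902722) (nat_lit 36) (nat_lit 5) (nat_lit 38) (nat_lit 5) (nat_lit 37) (nat_lit 4) (nat_lit 504) (nat_lit 459) (nat_lit 237))) (XT.nd (nat_lit 78) (nat_lit 0) (nat_lit 0) (XT.lf (nat_lit 0) (nat_lit 703502361874) (nat_lit 76) (nat_lit 250792596661) (nat_lit 152) (nat_lit 2343345771206) (nat_lit 35) (nat_lit 5) (nat_lit 36) (nat_lit 5) (nat_lit 37) (nat_lit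 4) (nat_lit 505) (nat_lit 459) (nat_lit 236)) (XT.lf (nat_lit 0) (nat_lit 2024524572743) (nat_lit 152) (nat_lit 611793390759) (nat_lit 0) (nat_lit 838014243833) (nat_lit 35) (nat_lit 5) (nat_lit 37) (nat_lit 4) (nat_lit 35) (nat_lit 4) (nat_lit 506) (nat_lit 459) (nat_lit 235))))) (XT.nd (nat_lit 234) (nat_lit 304) (nat_lit 0) (XT.nd (nat_lit 78) (nat_lit 152) (nat_lit 0) (XT.lf (nat_lit 0) (nat_lit 1602803818533) (nat_lit 76) (nat_lit 1622630295856) (nat_lit 76) (nat_lit 436119964082) (nat_lit 34) (nat_lit 4) (nat_lit 35) (nat_lit 5) (nat_lit 35) (nat_lit 4) (nat_lit 507) (nat_lit 459) (nat_lit 234)) (XT.nd (nat_lit 78) (nat_lit 0) (nat_lit 0) (XT.lf (nat_lit 0) (nat_lit 158605270572) (nat_lit 76) (nat_lit 488084924138) (nat_lit 152) (nat_lit 3214118120126) (nat_lit 32) (nat_lit 5) (nat_lit 33) (nat_lit 5) (nat_lit 34) (nat_lit 4) (nat_lit 508) (nat_lit 459) (nat_lit 233)) (XT.lf (nat_lit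 0) (nat_lit 1868045567021) (nat_lit 152) (nat_lit 1431587638532) (nat_lit 0) (nat_lit 769424884723) (nat_lit 32) (nat_lit 5) (nat_lit 34) (nat_lit 4) (nat_lit 32) (nat_lit 4) (nat_lit 509) (nat_lit 459) (nat_lit 232)))) (XT.nd (nat_lit 156) (nat_lit 152) (nat_lit 0) (XT.nd (nat_lit 78) (nat_lit 76) (nat_lit 0) (XT.lf (nat_lit 0) (nat_lit 1061078924161) (nat_lit 76) (nat_lit 2164226944033) (nat_lit 76) (nat_lit 1065606259630) (nat_lit 31) (nat_lit 4) (nat_lit 32) (nat_lit 5) (nat_lit 32) (nat_lit 4) (nat_lit 510) (nat_lit 459) (nat_lit 231)) (XT.lf (nat_lit 0) (nat_lit 192755833628) (nat_lit 152) (nat_lit 697688552405) (nat_lit 76) (nat_lit 3636548339734) (nat_lit 30) (nat_lit 5) (nat_lit 32) (nat_lit 5) (nat_lit 31) (nat_lit 4) (nat_lit 511) (nat_lit 459) (nat_lit 230))) (XT.nd (nat_lit 78) (nat_lit 76) (nat_lit 0) (XT.lf (nat_lit 0) (nat_lit 1558796335186) (nat_lit 152) (nat_lit 2674227843768)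 (nat_lit 0) (nat_lit 541554957262) (nat_lit 29) (nat_lit 5) (nat_lit 31) (nat_lit 4) (nat_lit 29) (nat_lit 4) (nat_lit 512) (nat_lit 459) (nat_lit 229)) (XT.lf (nat_lit 0) (nat_lit 102994394995) (nat_lit 76) (nat_lit 2976302643523) (nat_lit 76) (nat_lit 1959061264052) (nat_lit 28) (nat_lit 4) (nat_lit 29) (nat_lit 5) (nat_lit 29) (nat_lit 4) (nat_lit 513) (nat_lit 459) (nat_lit 228)))))) (XT.nd (nat_lit 546) (nat_lit 456) (nat_lit 0) (XT.nd (nat_lit 234) (nat_lit 228) (nat_lit 0) (XT.nd (nat_lit 78) (nat_lit 152) (nat_lit 0) (XT.lf (nat_lit 0) (nat_lit 3254480110696) (nat_lit 76) (nat_lit 1540075811266) (nat_lit 76) (nat_lit 522834430362) (nat_lit 28) (nat_lit 4) (nat_lit 29) (nat_lit 5) (nat_lit 29) (nat_lit 4) (nat_lit 514) (nat_lit 459) (nat_lit 227)) (XT.nd (nat_lit 78) (nat_lit 0) (nat_lit 0) (XT.lf (nat_lit 0) (nat_lit 1004112857025) (nat_lit 152) (nat_lit 4548250062551) (nat_lit 0)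 (nat_lit 62222688293) (nat_lit 26) (nat_lit 5) (nat_lit 28) (nat_lit 4) (nat_lit 26) (nat_lit 4) (nat_lit 515) (nat_lit 459) (nat_lit 226)) (XT.lf (nat_lit 0) (nat_lit 2722839903803) (nat_lit 152) (nat_lit 1422850787654) (nat_lit 0) (nat_lit 1780949733934) (nat_lit 26) (nat_lit 5) (nat_lit 28) (nat_lit 4) (nat_lit 26) (nat_lit 4) (nat_lit 516) (nat_lit 459) (nat_lit 225)))) (XT.nd (nat_lit 156) (nat_lit 76) (nat_lit 0) (XT.nd (nat_lit 78) (nat_lit 76) (nat_lit 0) (XT.lf (nat_lit 0) (nat_lit 2055399845825) (nat_lit 76) (nat_lit 2573097680237) (nat_lit 76) (nat_lit 1631207509314) (nat_lit 25) (nat_lit 4) (nat_lit 26) (nat_lit 5) (nat_lit 26) (nat_lit 4) (nat_lit 517) (nat_lit 459) (nat_lit 224)) (XT.lf (nat_lit 0) (nat_lit 103745413152) (nat_lit 152) (nat_lit 726099712541) (nat_lit 76) (nat_lit 5786247310521) (nat_lit 24) (nat_lit 5) (nat_lit 26) (nat_lit 5) (nat_lit 25) (nat_lit 4) (nat_lit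 518) (nat_lit 459) (nat_lit 223))) (XT.nd (nat_lit 78) (nat_lit 0) (nat_lit 0) (XT.lf (nat_lit 0) (nat_lit 1993399189374) (nat_lit 152) (nat_lit 3874600883086) (nat_lit 0) (nat_lit 1121278659003) (nat_lit 23) (nat_lit 5) (nat_lit 25) (nat_lit 4) (nat_lit 23) (nat_lit 4) (nat_lit 519) (nat_lit 459) (nat_lit 222)) (XT.lf (nat_lit 0) (nat_lit 4076148194281) (nat_lit 152) (nat_lit 108790238789) (nat_lit 0) (nat_lit 3204027663135) (nat_lit 23) (nat_lit 5) (nat_lit 25) (nat_lit 4) (nat_lit 23) (nat_lit 4) (nat_lit 520) (nat_lit 459) (nat_lit 221))))) (XT.nd (nat_lit 234) (nat_lit 228) (nat_lit 0) (XT.nd (nat_lit 78) (nat_lit 152) (nat_lit 0) (XT.lf (nat_lit 0) (nat_lit 4166721536670) (nat_lit 76) (nat_lit 2259005332669) (nat_lit 76) (nat_lit 1386884800807) (nat_lit 22) (nat_lit 4) (nat_lit 23) (nat_lit 5) (nat_lit 23) (nat_lit 4) (nat_lit 521) (nat_lit 459) (nat_lit 220)) (XT.nd (nat_lit 78) (nat_lit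 0) (nat_lit 0) (XT.lf (nat_lit 0) (nat_lit 530332828038) (nat_lit 76) (nat_lit 143923595309) (nat_lit 152) (nat_lit 7593294393409) (nat_lit 20) (nat_lit 5) (nat_lit 21) (nat_lit 5) (nat_lit 22) (nat_lit 4) (nat_lit 522) (nat_lit 459) (nat_lit 219)) (XT.lf (nat_lit 0) (nat_lit 2979111282493) (nat_lit 152) (nat_lit 3592999692586) (nat_lit 0) (nat_lit 2171592270326) (nat_lit 20) (nat_lit 5) (nat_lit 22) (nat_lit 4) (nat_lit 20) (nat_lit 4) (nat_lit 523) (nat_lit 459) (nat_lit 218)))) (XT.nd (nat_lit 156) (nat_lit 152) (nat_lit 0) (XT.nd (nat_lit 78) (nat_lit 0) (nat_lit 0) (XT.lf (nat_lit 0) (nat_lit 925305304410) (nat_lit 76) (nat_lit 4569041112840) (nat_lit 76) (nat_lit 3761522100146) (nat_lit 19) (nat_lit 4) (nat_lit 20) (nat_lit 5) (nat_lit 20) (nat_lit 4) (nat_lit 524) (nat_lit 459) (nat_lit 217)) (XT.lf (nat_lit 0) (nat_lit 6009411771060) (nat_lit 76) (nat_lit 2299627567599) (nat_lit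 76) (nat_lit 1492108554418) (nat_lit 19) (nat_lit 4) (nat_lit 20) (nat_lit 5) (nat_lit 20) (nat_lit 4) (nat_lit 525) (nat_lit 459) (nat_lit 216))) (XT.nd (nat_lit 78) (nat_lit 0) (nat_lit 0) (XT.lf (nat_lit 0) (nat_lit 943368104834) (nat_lit 152) (nat_lit 9246573275230) (nat_lit 0) (nat_lit 195665314433) (nat_lit 17) (nat_lit 5) (nat_lit 19) (nat_lit 4) (nat_lit 17) (nat_lit 4) (nat_lit 526) (nat_lit 459) (nat_lit 215)) (XT.lf (nat_lit 0) (nat_lit 3659166446806) (nat_lit 152) (nat_lit 4429803918460) (nat_lit 0) (nat_lit 2911463656017) (nat_lit 17) (nat_lit 5) (nat_lit 19) (nat_lit 4) (nat_lit 17) (nat_lit 4) (nat_lit 527) (nat_lit 459) (nat_lit 214))))))) (XT.nd (nat_lit 57330) (nat_lit 0) (nat_lit 4484) (XT.nd (nat_lit 546) (nat_lit 228) (nat_lit 0) (XT.nd (nat_lit 234) (nat_lit 152) (nat_lit 0) (XT.nd (nat_lit 78) (nat_lit 76) (nat_lit 0) (XT.lf (nat_lit 0) (nat_lit 812975298298) (nat_lit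 76) (nat_lit 5798805430620) (nat_lit 76) (nat_lit 5051102639473) (nat_lit 16) (nat_lit 4) (nat_lit 17) (nat_lit 5) (nat_lit 17) (nat_lit 4) (nat_lit 528) (nat_lit 459) (nat_lit 213)) (XT.nd (nat_lit 78) (nat_lit 76) (nat_lit 0) (XT.lf (nat_lit 0) (nat_lit 6727103720981) (nat_lit 76) (nat_lit 3194619119411) (nat_lit 76) (nat_lit 2446916327931) (nat_lit 16) (nat_lit 4) (nat_lit 17) (nat_lit 5) (nat_lit 17) (nat_lit 4) (nat_lit 529) (nat_lit 459) (nat_lit 212)) (XT.lf (nat_lit 0) (nat_lit 347315848807) (nat_lit 152) (nat_lit 25285826267) (nat_lit 76) (nat_lit 12757550332867) (nat_lit 15) (nat_lit 5) (nat_lit 17) (nat_lit 5) (nat_lit 16) (nat_lit 4) (nat_lit 530) (nat_lit 459) (nat_lit 211)))) (XT.nd (nat_lit 156) (nat_lit 76) (nat_lit 0) (XT.nd (nat_lit 78) (nat_lit 0) (nat_lit 0) (XT.lf (nat_lit 0) (nat_lit 3454117602279) (nat_lit 152) (nat_lit 7713885325530) (nat_lit 0) (nat_lit 2761800202213)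 (nat_lit 14) (nat_lit 5) (nat_lit 16) (nat_lit 4) (nat_lit 14) (nat_lit 4) (nat_lit 531) (nat_lit 459) (nat_lit 210)) (XT.lf (nat_lit 0) (nat_lit 6819850775995) (nat_lit 152) (nat_lit 1845211207792) (nat_lit 0) (nat_lit 6127533375685) (nat_lit 14) (nat_lit 5) (nat_lit 16) (nat_lit 4) (nat_lit 14) (nat_lit 4) (nat_lit 532) (nat_lit 459) (nat_lit 209))) (XT.nd (nat_lit 78) (nat_lit 0) (nat_lit 0) (XT.lf (nat_lit 0) (nat_lit 4729547979687) (nat_lit 76) (nat_lit 5839040364442) (nat_lit 76) (nat_lit 5146722963906) (nat_lit 13) (nat_lit 4) (nat_lit 14) (nat_lit 5) (nat_lit 14) (nat_lit 4) (nat_lit 533) (nat_lit 459) (nat_lit 208)) (XT.lf (nat_lit 0) (nat_lit 11935226694259) (nat_lit 76) (nat_lit 2732449565792) (nat_lit 76) (nat_lit 2040132165047) (nat_lit 13) (nat_lit 4) (nat_lit 14) (nat_lit 5) (nat_lit 14) (nat_lit 4) (nat_lit 534) (nat_lit 459) (nat_lit 207))))) (XT.nd (nat_lit 234) (nat_lit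 76) (nat_lit 0) (XT.nd (nat_lit 78) (nat_lit 0) (nat_lit 0) (XT.lf (nat_lit 0) (nat_lit 1314508853152) (nat_lit 152) (nat_lit 15783967890263) (nat_lit 0) (nat_lit 673474222653) (nat_lit 11) (nat_lit 5) (nat_lit 13) (nat_lit 4) (nat_lit 11) (nat_lit 4) (nat_lit 535) (nat_lit 459) (nat_lit 206)) (XT.nd (nat_lit 78) (nat_lit 0) (nat_lit 0) (XT.lf (nat_lit 0) (nat_lit 5032153954256) (nat_lit 152) (nat_lit 9477324162494) (nat_lit 0) (nat_lit 4391119323591) (nat_lit 11) (nat_lit 5) (nat_lit 13) (nat_lit 4) (nat_lit 11) (nat_lit 4) (nat_lit 536) (nat_lit 459) (nat_lit 205)) (XT.lf (nat_lit 0) (nat_lit 9047210661621) (nat_lit 152) (nat_lit 2666148940281) (nat_lit 0) (nat_lit 8406176030802) (nat_lit 11) (nat_lit 5) (nat_lit 13) (nat_lit 4) (nat_lit 11) (nat_lit 4) (nat_lit 537) (nat_lit 459) (nat_lit 204)))) (XT.nd (nat_lit 56394) (nat_lit 0) (nat_lit 6308) (XT.nd (nat_lit 78) (nat_lit 0) (nat_lit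 0) (XT.lf (nat_lit 0) (nat_lit 4936883187758) (nat_lit 76) (nat_lit 8565320875522) (nat_lit 76) (nat_lit 7924286244560) (nat_lit 10) (nat_lit 4) (nat_lit 11) (nat_lit 5) (nat_lit 11) (nat_lit 4) (nat_lit 538) (nat_lit 459) (nat_lit 203)) (XT.lf (nat_lit 0) (nat_lit 13299784135277) (nat_lit 76) (nat_lit 5086710036993) (nat_lit 76) (nat_lit 4445675405900) (nat_lit 10) (nat_lit 4) (nat_lit 11) (nat_lit 5) (nat_lit 11) (nat_lit 4) (nat_lit 539) (nat_lit 459) (nat_lit 202))) (XT.nd (nat_lit 78) (nat_lit 0) (nat_lit 0) (XT.lf (nat_lit 0) (nat_lit 202830846348) (nat_lit 532) (nat_lit 1353883885) (nat_lit 532) (nat_lit 1353883885) (nat_lit 93) (nat_lit 3) (nat_lit 100) (nat_lit 3) (nat_lit 100) (nat_lit 5) (nat_lit 460) (nat_lit 460) (nat_lit 280)) (XT.lf (nat_lit 76) (nat_lit 212646521221) (nat_lit 0) (nat_lit 214356158806) (nat_lit 532) (nat_lit 108475721) (nat_lit 94) (nat_lit 5) (nat_lit 93)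 (nat_lit 3) (nat_lit 100) (nat_lit 5) (nat_lit 461) (nat_lit 460) (nat_lit 279)))))) (XT.nd (nat_lit 546) (nat_lit 988) (nat_lit 0) (XT.nd (nat_lit 234) (nat_lit 304) (nat_lit 0) (XT.nd (nat_lit 78) (nat_lit 0) (nat_lit 76) (XT.lf (nat_lit 76) (nat_lit 867484249) (nat_lit 0) (nat_lit 4571155078) (nat_lit 608) (nat_lit 438970596538) (nat_lit 87) (nat_lit 5) (nat_lit 86) (nat_lit 5) (nat_lit 94) (nat_lit 5) (nat_lit 462) (nat_lit 460) (nat_lit 278)) (XT.nd (nat_lit 78) (nat_lit 0) (nat_lit 0) (XT.lf (nat_lit 0) (nat_lit 22778803165) (nat_lit 532) (nat_lit 222493263945) (nat_lit 608) (nat_lit 216910458674) (nat_lit 87) (nat_lit 5) (nat_lit 94) (nat_lit 5) (nat_lit 95) (nat_lit 5) (nat_lit 463) (nat_lit 460) (nat_lit 277)) (XT.lf (nat_lit 76) (nat_lit 16969216854) (nat_lit 0) (nat_lit 25063771812) (nat_lit 608) (nat_lit 439302545552) (nat_lit 88) (nat_lit 5) (nat_lit 87) (nat_lit 5) (nat_lit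 95) (nat_lit 5) (nat_lit 464) (nat_lit 460) (nat_lit 276)))) (XT.nd (nat_lit 156) (nat_lit 456) (nat_lit 0) (XT.nd (nat_lit 78) (nat_lit 0) (nat_lit 0) (XT.lf (nat_lit 0) (nat_lit 74185759409) (nat_lit 532) (nat_lit 218566975964) (nat_lit 608) (nat_lit 208359387922) (nat_lit 88) (nat_lit 5) (nat_lit 95) (nat_lit 5) (nat_lit 96) (nat_lit 5) (nat_lit 465) (nat_lit 460) (nat_lit 275)) (XT.lf (nat_lit 76) (nat_lit 48680476565) (nat_lit 0) (nat_lit 62052020470) (nat_lit 608) (nat_lit 411592602850) (nat_lit 89) (nat_lit 5) (nat_lit 88) (nat_lit 5) (nat_lit 96) (nat_lit 5) (nat_lit 466) (nat_lit 460) (nat_lit 274))) (XT.nd (nat_lit 78) (nat_lit 532) (nat_lit 0) (XT.lf (nat_lit 0) (nat_lit 160834050079) (nat_lit 532) (nat_lit 199674331176) (nat_lit 76) (nat_lit 183876247237) (nat_lit 89) (nat_lit 5) (nat_lit 96) (nat_lit 5) (nat_lit 90) (nat_lit 5) (nat_lit 467) (nat_lit 460) (nat_lit 273)) (XT.lf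 (nat_lit 0) (nat_lit 99583384258) (nat_lit 532) (nat_lit 119367041848) (nat_lit 608) (nat_lit 348937957386) (nat_lit 82) (nat_lit 5) (nat_lit 89) (nat_lit 5) (nat_lit 90) (nat_lit 5) (nat_lit 468) (nat_lit 460) (nat_lit 272))))) (XT.nd (nat_lit 312) (nat_lit 532) (nat_lit 0) (XT.nd (nat_lit 156) (nat_lit 228) (nat_lit 0) (XT.nd (nat_lit 78) (nat_lit 228) (nat_lit 0) (XT.lf (nat_lit 0) (nat_lit 290709973835) (nat_lit 608) (nat_lit 162232769694) (nat_lit 76) (nat_lit 139610186436) (nat_lit 82) (nat_lit 5) (nat_lit 90) (nat_lit 5) (nat_lit 83) (nat_lit 5) (nat_lit 469) (nat_lit 460) (nat_lit 271)) (XT.lf (nat_lit 0) (nat_lit 173925216329) (nat_lit 228) (nat_lit 201568395544) (nat_lit 304) (nat_lit 243114362166) (nat_lit 79) (nat_lit 5) (nat_lit 82) (nat_lit 5) (nat_lit 83) (nat_lit 5) (nat_lit 470) (nat_lit 460) (nat_lit 270))) (XT.nd (nat_lit 78) (nat_lit 228) (nat_lit 0) (XT.lf (nat_lit 0)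 (nat_lit 473292344513) (nat_lit 304) (nat_lit 101987117407) (nat_lit 76) (nat_lit 70969367436) (nat_lit 79) (nat_lit 5) (nat_lit 83) (nat_lit 5) (nat_lit 80) (nat_lit 5) (nat_lit 471) (nat_lit 460) (nat_lit 269)) (XT.lf (nat_lit 0) (nat_lit 276731857441) (nat_lit 228) (nat_lit 314074049674) (nat_lit 304) (nat_lit 84343771478) (nat_lit 76) (nat_lit 5) (nat_lit 79) (nat_lit 5) (nat_lit 80) (nat_lit 5) (nat_lit 472) (nat_lit 460) (nat_lit 268)))) (XT.nd (nat_lit 156) (nat_lit 228) (nat_lit 0) (XT.nd (nat_lit 78) (nat_lit 228) (nat_lit 0) (XT.lf (nat_lit 0) (nat_lit 13650706378) (nat_lit 304) (nat_lit 14936677697) (nat_lit 76) (nat_lit 677524485478) (nat_lit 75) (nat_lit 5) (nat_lit 79) (nat_lit 5) (nat_lit 76) (nat_lit 5) (nat_lit 473) (nat_lit 460) (nat_lit 267)) (XT.lf (nat_lit 0) (nat_lit 132025108280) (nat_lit 304) (nat_lit 327678150952) (nat_lit 76) (nat_lit 278304747156) (nat_lit 72)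 (nat_lit 5) (nat_lit 76) (nat_lit 5) (nat_lit 73) (nat_lit 5) (nat_lit 474) (nat_lit 460) (nat_lit 266))) (XT.nd (nat_lit 78) (nat_lit 0) (nat_lit 0) (XT.lf (nat_lit 0) (nat_lit 102414015816) (nat_lit 228) (nat_lit 161080021731) (nat_lit 304) (nat_lit 508671830609) (nat_lit 69) (nat_lit 5) (nat_lit 72) (nat_lit 5) (nat_lit 73) (nat_lit 5) (nat_lit 475) (nat_lit 460) (nat_lit 265)) (XT.lf (nat_lit 0) (nat_lit 418554944866) (nat_lit 304) (nat_lit 226905912777) (nat_lit 76) (nat_lit 162549544128) (nat_lit 69) (nat_lit 5) (nat_lit 73) (nat_lit 5) (nat_lit 70) (nat_lit 5) (nat_lit 476) (nat_lit 460) (nat_lit 264))))))))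
noncomputable def xc211 : XT := (XT.nd (nat_lit 2184) (nat_lit 1824) (nat_lit 0) (XT.nd (nat_lit 1092) (nat_lit 988) (nat_lit 0) (XT.nd (nat_lit 546) (nat_lit 684) (nat_lit 0) (XT.nd (nat_lit 234) (nat_lit 304) (nat_lit 0) (XT.nd (nat_lit 78) (nat_lit 228) (nat_lit 0) (XT.lf (nat_lit 0) (nat_lit 260200044707) (nat_lit 152) (nat_lit 336262379166) (nat_lit 228) (nat_lit 249424738273) (nat_lit 67) (nat_lit 5) (nat_lit 69) (nat_lit 5) (nat_lit 70) (nat_lit 5) (nat_lit 477) (nat_lit 460) (nat_lit 263)) (XT.nd (nat_lit 78) (nat_lit 228) (nat_lit 0) (XT.lf (nat_lit 0) (nat_lit 794911650665) (nat_lit 228) (nat_lit 87224098692) (nat_lit 76) (nat_lit 4153582038) (nat_lit 67) (nat_lit 5) (nat_lit 70) (nat_lit 5) (nat_lit 68) (nat_lit 5) (nat_lit 478) (nat_lit 460) (nat_lit 262)) (XT.lf (nat_lit 0) (nat_lit 95796948130) (nat_lit 228) (nat_lit 465077325463) (nat_lit 76) (nat_lit 367260692254) (nat_lit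 64) (nat_lit 5) (nat_lit 67) (nat_lit 5) (nat_lit 65) (nat_lit 5) (nat_lit 479) (nat_lit 460) (nat_lit 261)))) (XT.nd (nat_lit 156) (nat_lit 152) (nat_lit 0) (XT.nd (nat_lit 78) (nat_lit 0) (nat_lit 0) (XT.lf (nat_lit 0) (nat_lit 91317635752) (nat_lit 152) (nat_lit 206334127409) (nat_lit 228) (nat_lit 675115173470) (nat_lit 62) (nat_lit 5) (nat_lit 64) (nat_lit 5) (nat_lit 65) (nat_lit 5) (nat_lit 480) (nat_lit 460) (nat_lit 260)) (XT.lf (nat_lit 0) (nat_lit 532947769808) (nat_lit 228) (nat_lit 305855429604) (nat_lit 76) (nat_lit 180782841152) (nat_lit 62) (nat_lit 5) (nat_lit 65) (nat_lit 5) (nat_lit 63) (nat_lit 5) (nat_lit 481) (nat_lit 460) (nat_lit 259))) (XT.nd (nat_lit 78) (nat_lit 0) (nat_lit 0) (XT.lf (nat_lit 0) (nat_lit 326773119660) (nat_lit 152) (nat_lit 473512554845) (nat_lit 228) (nat_lit 268807540908) (nat_lit 60) (nat_lit 5) (nat_lit 62) (nat_lit 5) (nat_lit 63) (nat_lit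 5) (nat_lit 482) (nat_lit 460) (nat_lit 258)) (XT.lf (nat_lit 0) (nat_lit 1027406204020) (nat_lit 152) (nat_lit 69967025616) (nat_lit 228) (nat_lit 24518725171) (nat_lit 60) (nat_lit 5) (nat_lit 62) (nat_lit 5) (nat_lit 63) (nat_lit 5) (nat_lit 483) (nat_lit 460) (nat_lit 257))))) (XT.nd (nat_lit 234) (nat_lit 380) (nat_lit 0) (XT.nd (nat_lit 78) (nat_lit 152) (nat_lit 0) (XT.lf (nat_lit 0) (nat_lit 251859602552) (nat_lit 152) (nat_lit 555598564819) (nat_lit 76) (nat_lit 369034561170) (nat_lit 58) (nat_lit 5) (nat_lit 60) (nat_lit 5) (nat_lit 59) (nat_lit 5) (nat_lit 484) (nat_lit 460) (nat_lit 256)) (XT.nd (nat_lit 78) (nat_lit 0) (nat_lit 0) (XT.lf (nat_lit 0) (nat_lit 169585107670) (nat_lit 152) (nat_lit 387984790845) (nat_lit 228) (nat_lit 677157009658) (nat_lit 56) (nat_lit 5) (nat_lit 58) (nat_lit 5) (nat_lit 59) (nat_lit 5) (nat_lit 485) (nat_lit 460) (nat_lit 255)) (XT.lf (nat_lit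 0) (nat_lit 904886998666) (nat_lit 228) (nat_lit 313982640935) (nat_lit 76) (nat_lit 77378184134) (nat_lit 56) (nat_lit 5) (nat_lit 59) (nat_lit 5) (nat_lit 57) (nat_lit 4) (nat_lit 486) (nat_lit 460) (nat_lit 254)))) (XT.nd (nat_lit 156) (nat_lit 228) (nat_lit 0) (XT.nd (nat_lit 78) (nat_lit 76) (nat_lit 0) (XT.lf (nat_lit 0) (nat_lit 512846359827) (nat_lit 76) (nat_lit 789554591698) (nat_lit 152) (nat_lit 58496542241) (nat_lit 55) (nat_lit 5) (nat_lit 56) (nat_lit 5) (nat_lit 57) (nat_lit 4) (nat_lit 487) (nat_lit 460) (nat_lit 253)) (XT.lf (nat_lit 0) (nat_lit 294747615261) (nat_lit 152) (nat_lit 13816180166) (nat_lit 76) (nat_lit 1120871598176) (nat_lit 54) (nat_lit 5) (nat_lit 56) (nat_lit 5) (nat_lit 55) (nat_lit 5) (nat_lit 488) (nat_lit 460) (nat_lit 252))) (XT.nd (nat_lit 78) (nat_lit 76) (nat_lit 0) (XT.lf (nat_lit 0) (nat_lit 701206317802) (nat_lit 228) (nat_lit 574960911863)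 (nat_lit 76) (nat_lit 224918316896) (nat_lit 52) (nat_lit 5) (nat_lit 55) (nat_lit 5) (nat_lit 53) (nat_lit 4) (nat_lit 489) (nat_lit 460) (nat_lit 251)) (XT.lf (nat_lit 0) (nat_lit 374308939793) (nat_lit 76) (nat_lit 783277121869) (nat_lit 152) (nat_lit 419489302486) (nat_lit 51) (nat_lit 5) (nat_lit 52) (nat_lit 5) (nat_lit 53) (nat_lit 4) (nat_lit 490) (nat_lit 460) (nat_lit 250)))))) (XT.nd (nat_lit 546) (nat_lit 456) (nat_lit 0) (XT.nd (nat_lit 234) (nat_lit 228) (nat_lit 0) (XT.nd (nat_lit 78) (nat_lit 228) (nat_lit 0) (XT.lf (nat_lit 0) (nat_lit 7894200463) (nat_lit 152) (nat_lit 225867683972) (nat_lit 76) (nat_lit 1424108859105) (nat_lit 50) (nat_lit 5) (nat_lit 52) (nat_lit 5) (nat_lit 51) (nat_lit 5) (nat_lit 491) (nat_lit 460) (nat_lit 249)) (XT.nd (nat_lit 78) (nat_lit 76) (nat_lit 0) (XT.lf (nat_lit 0) (nat_lit 476993420704) (nat_lit 228) (nat_lit 890696366633) (nat_lit 76)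 (nat_lit 374153231449) (nat_lit 48) (nat_lit 5) (nat_lit 51) (nat_lit 5) (nat_lit 49) (nat_lit 4) (nat_lit 492) (nat_lit 460) (nat_lit 248)) (XT.lf (nat_lit 0) (nat_lit 198843188311) (nat_lit 76) (nat_lit 801967331619) (nat_lit 152) (nat_lit 830347360811) (nat_lit 47) (nat_lit 5) (nat_lit 48) (nat_lit 5) (nat_lit 49) (nat_lit 4) (nat_lit 493) (nat_lit 460) (nat_lit 247)))) (XT.nd (nat_lit 156) (nat_lit 76) (nat_lit 0) (XT.nd (nat_lit 78) (nat_lit 152) (nat_lit 0) (XT.lf (nat_lit 0) (nat_lit 1426200585108) (nat_lit 76) (nat_lit 164685611454) (nat_lit 152) (nat_lit 334783478333) (nat_lit 47) (nat_lit 5) (nat_lit 48) (nat_lit 5) (nat_lit 49) (nat_lit 4) (nat_lit 494) (nat_lit 460) (nat_lit 246)) (XT.lf (nat_lit 0) (nat_lit 221796792925) (nat_lit 152) (nat_lit 1282035553635) (nat_lit 76) (nat_lit 521012657013) (nat_lit 45) (nat_lit 5) (nat_lit 47) (nat_lit 5) (nat_lit 46) (nat_lit 4) (nat_lit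 495) (nat_lit 460) (nat_lit 245))) (XT.nd (nat_lit 78) (nat_lit 76) (nat_lit 0) (XT.lf (nat_lit 0) (nat_lit 823105104503) (nat_lit 152) (nat_lit 31314273966) (nat_lit 76) (nat_lit 1275376236325) (nat_lit 45) (nat_lit 5) (nat_lit 47) (nat_lit 5) (nat_lit 46) (nat_lit 4) (nat_lit 496) (nat_lit 460) (nat_lit 244)) (XT.lf (nat_lit 0) (nat_lit 1388945368104) (nat_lit 76) (nat_lit 116976875755) (nat_lit 152) (nat_lit 734547698027) (nat_lit 44) (nat_lit 5) (nat_lit 45) (nat_lit 5) (nat_lit 46) (nat_lit 4) (nat_lit 497) (nat_lit 460) (nat_lit 243))))) (XT.nd (nat_lit 234) (nat_lit 228) (nat_lit 0) (XT.nd (nat_lit 78) (nat_lit 152) (nat_lit 0) (XT.lf (nat_lit 0) (nat_lit 577186850510) (nat_lit 76) (nat_lit 1697278735325) (nat_lit 76) (nat_lit 83044562791) (nat_lit 43) (nat_lit 4) (nat_lit 44) (nat_lit 5) (nat_lit 44) (nat_lit 4) (nat_lit 498) (nat_lit 460) (nat_lit 242)) (XT.nd (nat_lit 78) (nat_lit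 76) (nat_lit 0) (XT.lf (nat_lit 0) (nat_lit 616460234113) (nat_lit 152) (nat_lit 331996891761) (nat_lit 76) (nat_lit 1532108429028) (nat_lit 42) (nat_lit 5) (nat_lit 44) (nat_lit 5) (nat_lit 43) (nat_lit 4) (nat_lit 499) (nat_lit 460) (nat_lit 241)) (XT.lf (nat_lit 0) (nat_lit 1294810267360) (nat_lit 76) (nat_lit 103768796006) (nat_lit 152) (nat_lit 1212222553223) (nat_lit 41) (nat_lit 5) (nat_lit 42) (nat_lit 5) (nat_lit 43) (nat_lit 4) (nat_lit 500) (nat_lit 460) (nat_lit 240)))) (XT.nd (nat_lit 156) (nat_lit 76) (nat_lit 0) (XT.nd (nat_lit 78) (nat_lit 76) (nat_lit 0) (XT.lf (nat_lit 0) (nat_lit 316042191986) (nat_lit 76) (nat_lit 1963583497396) (nat_lit 76) (nat_lit 468922210595) (nat_lit 40) (nat_lit 4) (nat_lit 41) (nat_lit 5) (nat_lit 41) (nat_lit 4) (nat_lit 501) (nat_lit 460) (nat_lit 239)) (XT.lf (nat_lit 0) (nat_lit 356753430907) (nat_lit 152) (nat_lit 752614155058) (nat_lit 76)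 (nat_lit 1784135074448) (nat_lit 39) (nat_lit 5) (nat_lit 41) (nat_lit 5) (nat_lit 40) (nat_lit 4) (nat_lit 502) (nat_lit 460) (nat_lit 238))) (XT.nd (nat_lit 78) (nat_lit 0) (nat_lit 0) (XT.lf (nat_lit 0) (nat_lit 1104753139876) (nat_lit 76) (nat_lit 144965338696) (nat_lit 152) (nat_lit 1797235392576) (nat_lit 38) (nat_lit 5) (nat_lit 39) (nat_lit 5) (nat_lit 40) (nat_lit 4) (nat_lit 503) (nat_lit 460) (nat_lit 237)) (XT.lf (nat_lit 0) (nat_lit 2256796006829) (nat_lit 152) (nat_lit 79620790580) (nat_lit 0) (nat_lit 872850359189) (nat_lit 38) (nat_lit 5) (nat_lit 40) (nat_lit 4) (nat_lit 38) (nat_lit 4) (nat_lit 504) (nat_lit 460) (nat_lit 236))))))) (XT.nd (nat_lit 1092) (nat_lit 836) (nat_lit 0) (XT.nd (nat_lit 546) (nat_lit 456) (nat_lit 0) (XT.nd (nat_lit 234) (nat_lit 304) (nat_lit 0) (XT.nd (nat_lit 78) (nat_lit 76) (nat_lit 0) (XT.lf (nat_lit 0) (nat_lit 15827737066) (nat_lit 152)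 (nat_lit 1351023957883) (nat_lit 76) (nat_lit 2013475311895) (nat_lit 36) (nat_lit 5) (nat_lit 38) (nat_lit 5) (nat_lit 37) (nat_lit 4) (nat_lit 505) (nat_lit 460) (nat_lit 235)) (XT.nd (nat_lit 78) (nat_lit 0) (nat_lit 0) (XT.lf (nat_lit 0) (nat_lit 759782758805) (nat_lit 76) (nat_lit 270855901233) (nat_lit 152) (nat_lit 2530813319697) (nat_lit 35) (nat_lit 5) (nat_lit 36) (nat_lit 5) (nat_lit 37) (nat_lit 4) (nat_lit 506) (nat_lit 460) (nat_lit 234)) (XT.lf (nat_lit 0) (nat_lit 2186486637914) (nat_lit 152) (nat_lit 660736663977) (nat_lit 0) (nat_lit 905055474081) (nat_lit 35) (nat_lit 5) (nat_lit 37) (nat_lit 4) (nat_lit 35) (nat_lit 4) (nat_lit 507) (nat_lit 460) (nat_lit 233)))) (XT.nd (nat_lit 156) (nat_lit 76) (nat_lit 0) (XT.nd (nat_lit 78) (nat_lit 152) (nat_lit 0) (XT.lf (nat_lit 0) (nat_lit 1731028317044) (nat_lit 76) (nat_lit 1752440623130) (nat_lit 76) (nat_lit 471009456842)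 (nat_lit 34) (nat_lit 4) (nat_lit 35) (nat_lit 5) (nat_lit 35) (nat_lit 4) (nat_lit 508) (nat_lit 460) (nat_lit 232)) (XT.lf (nat_lit 0) (nat_lit 171293885450) (nat_lit 76) (nat_lit 527131621286) (nat_lit 152) (nat_lit 3471247465570) (nat_lit 32) (nat_lit 5) (nat_lit 33) (nat_lit 5) (nat_lit 34) (nat_lit 4) (nat_lit 509) (nat_lit 460) (nat_lit 231))) (XT.nd (nat_lit 78) (nat_lit 76) (nat_lit 0) (XT.lf (nat_lit 0) (nat_lit 2017489303842) (nat_lit 152) (nat_lit 1546114465706) (nat_lit 0) (nat_lit 830978960632) (nat_lit 32) (nat_lit 5) (nat_lit 34) (nat_lit 4) (nat_lit 32) (nat_lit 4) (nat_lit 510) (nat_lit 460) (nat_lit 230)) (XT.lf (nat_lit 0) (nat_lit 1145965417347) (nat_lit 76) (nat_lit 2337365009299) (nat_lit 76) (nat_lit 1150854664284) (nat_lit 31) (nat_lit 4) (nat_lit 32) (nat_lit 5) (nat_lit 32) (nat_lit 4) (nat_lit 511) (nat_lit 460) (nat_lit 229))))) (XT.nd (nat_lit 234) (nat_lit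 228) (nat_lit 0) (XT.nd (nat_lit 78) (nat_lit 152) (nat_lit 0) (XT.lf (nat_lit 0) (nat_lit 208176384863) (nat_lit 152) (nat_lit 753503466170) (nat_lit 76) (nat_lit 3927472286031) (nat_lit 30) (nat_lit 5) (nat_lit 32) (nat_lit 5) (nat_lit 31) (nat_lit 4) (nat_lit 512) (nat_lit 460) (nat_lit 228)) (XT.nd (nat_lit 78) (nat_lit 76) (nat_lit 0) (XT.lf (nat_lit 0) (nat_lit 1683500126295) (nat_lit 152) (nat_lit 2888165900590) (nat_lit 0) (nat_lit 584879433485) (nat_lit 29) (nat_lit 5) (nat_lit 31) (nat_lit 4) (nat_lit 29) (nat_lit 4) (nat_lit 513) (nat_lit 460) (nat_lit 227)) (XT.lf (nat_lit 0) (nat_lit 111234112953) (nat_lit 76) (nat_lit 3214406770697) (nat_lit 76) (nat_lit 2115786076561) (nat_lit 28) (nat_lit 4) (nat_lit 29) (nat_lit 5) (nat_lit 29) (nat_lit 4) (nat_lit 514) (nat_lit 460) (nat_lit 226)))) (XT.nd (nat_lit 156) (nat_lit 76) (nat_lit 0) (XT.nd (nat_lit 78) (nat_lit 152) (nat_lit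 0) (XT.lf (nat_lit 0) (nat_lit 3514838673587) (nat_lit 76) (nat_lit 1663281798105) (nat_lit 76) (nat_lit 564661102740) (nat_lit 28) (nat_lit 4) (nat_lit 29) (nat_lit 5) (nat_lit 29) (nat_lit 4) (nat_lit 515) (nat_lit 460) (nat_lit 225)) (XT.lf (nat_lit 0) (nat_lit 1084441963349) (nat_lit 152) (nat_lit 4912109909229) (nat_lit 0) (nat_lit 67200577699) (nat_lit 26) (nat_lit 5) (nat_lit 28) (nat_lit 4) (nat_lit 26) (nat_lit 4) (nat_lit 516) (nat_lit 460) (nat_lit 224))) (XT.nd (nat_lit 78) (nat_lit 76) (nat_lit 0) (XT.lf (nat_lit 0) (nat_lit 2940667168110) (nat_lit 152) (nat_lit 1536678704068) (nat_lit 0) (nat_lit 1923425781484) (nat_lit 26) (nat_lit 5) (nat_lit 28) (nat_lit 4) (nat_lit 26) (nat_lit 4) (nat_lit 517) (nat_lit 460) (nat_lit 223)) (XT.lf (nat_lit 0) (nat_lit 2219831976378) (nat_lit 76) (nat_lit 2778945421874) (nat_lit 76) (nat_lit 1761704034346) (nat_lit 25) (nat_lit 4) (nat_lit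 26) (nat_lit 5) (nat_lit 26) (nat_lit 4) (nat_lit 518) (nat_lit 460) (nat_lit 222)))))) (XT.nd (nat_lit 546) (nat_lit 380) (nat_lit 0) (XT.nd (nat_lit 234) (nat_lit 304) (nat_lit 0) (XT.nd (nat_lit 78) (nat_lit 76) (nat_lit 0) (XT.lf (nat_lit 0) (nat_lit 112045112802) (nat_lit 152) (nat_lit 784187553735) (nat_lit 76) (nat_lit 6249147159247) (nat_lit 24) (nat_lit 5) (nat_lit 26) (nat_lit 5) (nat_lit 25) (nat_lit 4) (nat_lit 519) (nat_lit 460) (nat_lit 221)) (XT.nd (nat_lit 78) (nat_lit 0) (nat_lit 0) (XT.lf (nat_lit 0) (nat_lit 2152871190997) (nat_lit 152) (nat_lit 4184568817797) (nat_lit 0) (nat_lit 1210981015869) (nat_lit 23) (nat_lit 5) (nat_lit 25) (nat_lit 4) (nat_lit 23) (nat_lit 4) (nat_lit 520) (nat_lit 460) (nat_lit 220)) (XT.lf (nat_lit 0) (nat_lit 4402240111372) (nat_lit 152) (nat_lit 117493332025) (nat_lit 0) (nat_lit 3460349935580) (nat_lit 23) (nat_lit 5) (nat_lit 25) (nat_lit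 4) (nat_lit 23) (nat_lit 4) (nat_lit 521) (nat_lit 460) (nat_lit 219)))) (XT.nd (nat_lit 156) (nat_lit 76) (nat_lit 0) (XT.nd (nat_lit 78) (nat_lit 152) (nat_lit 0) (XT.lf (nat_lit 0) (nat_lit 4500059382284) (nat_lit 76) (nat_lit 2439725696542) (nat_lit 76) (nat_lit 1497835520136) (nat_lit 22) (nat_lit 4) (nat_lit 23) (nat_lit 5) (nat_lit 23) (nat_lit 4) (nat_lit 522) (nat_lit 460) (nat_lit 218)) (XT.lf (nat_lit 0) (nat_lit 572759577012) (nat_lit 76) (nat_lit 155437420096) (nat_lit 152) (nat_lit 8200757880196) (nat_lit 20) (nat_lit 5) (nat_lit 21) (nat_lit 5) (nat_lit 22) (nat_lit 4) (nat_lit 523) (nat_lit 460) (nat_lit 217))) (XT.nd (nat_lit 78) (nat_lit 76) (nat_lit 0) (XT.lf (nat_lit 0) (nat_lit 3217440241949) (nat_lit 152) (nat_lit 3880439551315) (nat_lit 0) (nat_lit 2345319707225) (nat_lit 20) (nat_lit 5) (nat_lit 22) (nat_lit 4) (nat_lit 20) (nat_lit 4) (nat_lit 524) (nat_lit 460)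 (nat_lit 216)) (XT.lf (nat_lit 0) (nat_lit 999329842487) (nat_lit 76) (nat_lit 4934564343523) (nat_lit 76) (nat_lit 4062443808347) (nat_lit 19) (nat_lit 4) (nat_lit 20) (nat_lit 5) (nat_lit 20) (nat_lit 4) (nat_lit 525) (nat_lit 460) (nat_lit 215))))) (XT.nd (nat_lit 312) (nat_lit 152) (nat_lit 0) (XT.nd (nat_lit 156) (nat_lit 76) (nat_lit 0) (XT.nd (nat_lit 78) (nat_lit 152) (nat_lit 0) (XT.lf (nat_lit 0) (nat_lit 6490164818044) (nat_lit 76) (nat_lit 2483597718985) (nat_lit 76) (nat_lit 1611477183391) (nat_lit 19) (nat_lit 4) (nat_lit 20) (nat_lit 5) (nat_lit 20) (nat_lit 4) (nat_lit 526) (nat_lit 460) (nat_lit 214)) (XT.lf (nat_lit 0) (nat_lit 1018837605767) (nat_lit 152) (nat_lit 9986299029115) (nat_lit 0) (nat_lit 211318590970) (nat_lit 17) (nat_lit 5) (nat_lit 19) (nat_lit 4) (nat_lit 17) (nat_lit 4) (nat_lit 527) (nat_lit 460) (nat_lit 213))) (XT.nd (nat_lit 78) (nat_lit 76) (nat_lit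 0) (XT.lf (nat_lit 0) (nat_lit 3951899811205) (nat_lit 152) (nat_lit 4784188131814) (nat_lit 0) (nat_lit 3144380796075) (nat_lit 17) (nat_lit 5) (nat_lit 19) (nat_lit 4) (nat_lit 17) (nat_lit 4) (nat_lit 528) (nat_lit 460) (nat_lit 212)) (XT.lf (nat_lit 0) (nat_lit 878013419750) (nat_lit 76) (nat_lit 6262709814879) (nat_lit 76) (nat_lit 5455190799442) (nat_lit 16) (nat_lit 4) (nat_lit 17) (nat_lit 5) (nat_lit 17) (nat_lit 4) (nat_lit 529) (nat_lit 460) (nat_lit 211)))) (XT.nd (nat_lit 156) (nat_lit 76) (nat_lit 0) (XT.nd (nat_lit 78) (nat_lit 76) (nat_lit 0) (XT.lf (nat_lit 0) (nat_lit 7265272109020) (nat_lit 76) (nat_lit 3450188602490) (nat_lit 76) (nat_lit 2642669586769) (nat_lit 16) (nat_lit 4) (nat_lit 17) (nat_lit 5) (nat_lit 17) (nat_lit 4) (nat_lit 530) (nat_lit 460) (nat_lit 210)) (XT.lf (nat_lit 0) (nat_lit 375101158402) (nat_lit 152) (nat_lit 27308606507) (nat_lit 76) (nat_lit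 13778154400332) (nat_lit 15) (nat_lit 5) (nat_lit 17) (nat_lit 5) (nat_lit 16) (nat_lit 4) (nat_lit 531) (nat_lit 460) (nat_lit 209))) (XT.nd (nat_lit 78) (nat_lit 0) (nat_lit 0) (XT.lf (nat_lit 0) (nat_lit 3730447052113) (nat_lit 152) (nat_lit 8330996065670) (nat_lit 0) (nat_lit 2982744259308) (nat_lit 14) (nat_lit 5) (nat_lit 16) (nat_lit 4) (nat_lit 14) (nat_lit 4) (nat_lit 532) (nat_lit 460) (nat_lit 208)) (XT.lf (nat_lit 0) (nat_lit 7365438876640) (nat_lit 152) (nat_lit 1992828024877) (nat_lit 0) (nat_lit 6617736083626) (nat_lit 14) (nat_lit 5) (nat_lit 16) (nat_lit 4) (nat_lit 14) (nat_lit 4) (nat_lit 533) (nat_lit 460) (nat_lit 207))))))))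
noncomputable def xc212 : XT := (XT.nd (nat_lit 58500) (nat_lit 0) (nat_lit 1672) (XT.nd (nat_lit 57408) (nat_lit 0) (nat_lit 3952) (XT.nd (nat_lit 56862) (nat_lit 0) (nat_lit 5776) (XT.nd (nat_lit 234) (nat_lit 76) (nat_lit 0) (XT.nd (nat_lit 78) (nat_lit 152) (nat_lit 0) (XT.lf (nat_lit 0) (nat_lit 5107911895587) (nat_lit 76) (nat_lit 6306163553647) (nat_lit 76) (nat_lit 5558460760439) (nat_lit 13) (nat_lit 4) (nat_lit 14) (nat_lit 5) (nat_lit 14) (nat_lit 4) (nat_lit 534) (nat_lit 460) (nat_lit 206)) (XT.nd (nat_lit 78) (nat_lit 152) (nat_lit 0) (XT.lf (nat_lit 0) (nat_lit 12890044901582) (nat_lit 76) (nat_lit 2951045494064) (nat_lit 76) (nat_lit 2203342700677) (nat_lit 13) (nat_lit 4) (nat_lit 14) (nat_lit 5) (nat_lit 14) (nat_lit 4) (nat_lit 535) (nat_lit 460) (nat_lit 205)) (XT.lf (nat_lit 0) (nat_lit 1419669597071) (nat_lit 152) (nat_lit 17046685247795) (nat_lit 0) (nat_lit 727352195633)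 (nat_lit 11) (nat_lit 5) (nat_lit 13) (nat_lit 4) (nat_lit 11) (nat_lit 4) (nat_lit 536) (nat_lit 460) (nat_lit 204)))) (XT.nd (nat_lit 156) (nat_lit 76) (nat_lit 0) (XT.nd (nat_lit 78) (nat_lit 0) (nat_lit 0) (XT.lf (nat_lit 0) (nat_lit 5434726303622) (nat_lit 152) (nat_lit 10235510027263) (nat_lit 0) (nat_lit 4742408902042) (nat_lit 11) (nat_lit 5) (nat_lit 13) (nat_lit 4) (nat_lit 11) (nat_lit 4) (nat_lit 537) (nat_lit 460) (nat_lit 203)) (XT.lf (nat_lit 0) (nat_lit 9770987545130) (nat_lit 152) (nat_lit 2879440792327) (nat_lit 0) (nat_lit 9078670143418) (nat_lit 11) (nat_lit 5) (nat_lit 13) (nat_lit 4) (nat_lit 11) (nat_lit 4) (nat_lit 538) (nat_lit 460) (nat_lit 202))) (XT.nd (nat_lit 56394) (nat_lit 0) (nat_lit 6308) (XT.lf (nat_lit 0) (nat_lit 5331833904356) (nat_lit 76) (nat_lit 9250546513781) (nat_lit 76) (nat_lit 8558229111947) (nat_lit 10) (nat_lit 4) (nat_lit 11) (nat_lit 5) (nat_lit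 11) (nat_lit 4) (nat_lit 539) (nat_lit 460) (nat_lit 201)) (XT.lf (nat_lit 0) (nat_lit 219057670936) (nat_lit 532) (nat_lit 1462001857) (nat_lit 532) (nat_lit 1462001857) (nat_lit 93) (nat_lit 3) (nat_lit 100) (nat_lit 3) (nat_lit 100) (nat_lit 5) (nat_lit 461) (nat_lit 461) (nat_lit 278))))) (XT.nd (nat_lit 234) (nat_lit 0) (nat_lit 76) (XT.nd (nat_lit 78) (nat_lit 532) (nat_lit 0) (XT.lf (nat_lit 76) (nat_lit 229658618638) (nat_lit 0) (nat_lit 231504945716) (nat_lit 532) (nat_lit 116430172) (nat_lit 94) (nat_lit 5) (nat_lit 93) (nat_lit 3) (nat_lit 100) (nat_lit 5) (nat_lit 462) (nat_lit 461) (nat_lit 277)) (XT.nd (nat_lit 78) (nat_lit 0) (nat_lit 76) (XT.lf (nat_lit 76) (nat_lit 937284557) (nat_lit 0) (nat_lit 4937092064) (nat_lit 608) (nat_lit 474087546346) (nat_lit 87) (nat_lit 5) (nat_lit 86) (nat_lit 5) (nat_lit 94) (nat_lit 5) (nat_lit 463) (nat_lit 461) (nat_lit 276)) (XT.lf (nat_lit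 0) (nat_lit 24601700257) (nat_lit 532) (nat_lit 240292299859) (nat_lit 608) (nat_lit 234263080234) (nat_lit 87) (nat_lit 5) (nat_lit 94) (nat_lit 5) (nat_lit 95) (nat_lit 5) (nat_lit 464) (nat_lit 461) (nat_lit 275)))) (XT.nd (nat_lit 156) (nat_lit 0) (nat_lit 76) (XT.nd (nat_lit 78) (nat_lit 0) (nat_lit 76) (XT.lf (nat_lit 76) (nat_lit 18327168639) (nat_lit 0) (nat_lit 27069018012) (nat_lit 608) (nat_lit 474446145528) (nat_lit 88) (nat_lit 5) (nat_lit 87) (nat_lit 5) (nat_lit 95) (nat_lit 5) (nat_lit 465) (nat_lit 461) (nat_lit 274)) (XT.lf (nat_lit 0) (nat_lit 80121134438) (nat_lit 532) (nat_lit 236051905627) (nat_lit 608) (nat_lit 225028011892) (nat_lit 88) (nat_lit 5) (nat_lit 95) (nat_lit 5) (nat_lit 96) (nat_lit 5) (nat_lit 466) (nat_lit 461) (nat_lit 273))) (XT.nd (nat_lit 78) (nat_lit 0) (nat_lit 76) (XT.lf (nat_lit 76) (nat_lit 52575332259) (nat_lit 0) (nat_lit 67016250763) (nat_lit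 608) (nat_lit 444519485901) (nat_lit 89) (nat_lit 5) (nat_lit 88) (nat_lit 5) (nat_lit 96) (nat_lit 5) (nat_lit 467) (nat_lit 461) (nat_lit 272)) (XT.lf (nat_lit 0) (nat_lit 173701222764) (nat_lit 532) (nat_lit 215647853436) (nat_lit 76) (nat_lit 198586286626) (nat_lit 89) (nat_lit 5) (nat_lit 96) (nat_lit 5) (nat_lit 90) (nat_lit 5) (nat_lit 468) (nat_lit 461) (nat_lit 271)))))) (XT.nd (nat_lit 546) (nat_lit 760) (nat_lit 0) (XT.nd (nat_lit 234) (nat_lit 532) (nat_lit 0) (XT.nd (nat_lit 78) (nat_lit 228) (nat_lit 0) (XT.lf (nat_lit 0) (nat_lit 107550468493) (nat_lit 532) (nat_lit 128916417089) (nat_lit 608) (nat_lit 376852534511) (nat_lit 82) (nat_lit 5) (nat_lit 89) (nat_lit 5) (nat_lit 90) (nat_lit 5) (nat_lit 469) (nat_lit 461) (nat_lit 270)) (XT.nd (nat_lit 78) (nat_lit 228) (nat_lit 0) (XT.lf (nat_lit 0) (nat_lit 313967165354) (nat_lit 608) (nat_lit 175210976586) (nat_lit 76) (nat_lit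 150778990889) (nat_lit 82) (nat_lit 5) (nat_lit 90) (nat_lit 5) (nat_lit 83) (nat_lit 5) (nat_lit 470) (nat_lit 461) (nat_lit 269)) (XT.lf (nat_lit 0) (nat_lit 187839637821) (nat_lit 228) (nat_lit 217693837179) (nat_lit 304) (nat_lit 262563106988) (nat_lit 79) (nat_lit 5) (nat_lit 82) (nat_lit 5) (nat_lit 83) (nat_lit 5) (nat_lit 471) (nat_lit 461) (nat_lit 268)))) (XT.nd (nat_lit 156) (nat_lit 304) (nat_lit 0) (XT.nd (nat_lit 78) (nat_lit 228) (nat_lit 0) (XT.lf (nat_lit 0) (nat_lit 511156079202) (nat_lit 304) (nat_lit 110145685467) (nat_lit 76) (nat_lit 76646943227) (nat_lit 79) (nat_lit 5) (nat_lit 83) (nat_lit 5) (nat_lit 80) (nat_lit 5) (nat_lit 472) (nat_lit 461) (nat_lit 267)) (XT.lf (nat_lit 0) (nat_lit 298870797209) (nat_lit 228) (nat_lit 339199913298) (nat_lit 304) (nat_lit 91090915873) (nat_lit 76) (nat_lit 5) (nat_lit 79) (nat_lit 5) (nat_lit 80) (nat_lit 5) (nat_lit 473) (nat_lit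 461) (nat_lit 266))) (XT.nd (nat_lit 78) (nat_lit 228) (nat_lit 0) (XT.lf (nat_lit 0) (nat_lit 14743077193) (nat_lit 304) (nat_lit 16131233136) (nat_lit 76) (nat_lit 731726483615) (nat_lit 75) (nat_lit 5) (nat_lit 79) (nat_lit 5) (nat_lit 76) (nat_lit 5) (nat_lit 474) (nat_lit 461) (nat_lit 265)) (XT.lf (nat_lit 0) (nat_lit 142587418511) (nat_lit 304) (nat_lit 353892011487) (nat_lit 76) (nat_lit 300569192749) (nat_lit 72) (nat_lit 5) (nat_lit 76) (nat_lit 5) (nat_lit 73) (nat_lit 5) (nat_lit 475) (nat_lit 461) (nat_lit 264))))) (XT.nd (nat_lit 234) (nat_lit 380) (nat_lit 0) (XT.nd (nat_lit 78) (nat_lit 152) (nat_lit 0) (XT.lf (nat_lit 0) (nat_lit 110607518710) (nat_lit 228) (nat_lit 173966330249) (nat_lit 304) (nat_lit 549365265552) (nat_lit 69) (nat_lit 5) (nat_lit 72) (nat_lit 5) (nat_lit 73) (nat_lit 5) (nat_lit 476) (nat_lit 461) (nat_lit 263)) (XT.nd (nat_lit 78) (nat_lit 152) (nat_lit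 0) (XT.lf (nat_lit 0) (nat_lit 452039609575) (nat_lit 304) (nat_lit 245058013127) (nat_lit 76) (nat_lit 175553589656) (nat_lit 69) (nat_lit 5) (nat_lit 73) (nat_lit 5) (nat_lit 70) (nat_lit 5) (nat_lit 477) (nat_lit 461) (nat_lit 262)) (XT.lf (nat_lit 0) (nat_lit 281016411520) (nat_lit 152) (nat_lit 363163264183) (nat_lit 228) (nat_lit 269378438758) (nat_lit 67) (nat_lit 5) (nat_lit 69) (nat_lit 5) (nat_lit 70) (nat_lit 5) (nat_lit 478) (nat_lit 461) (nat_lit 261)))) (XT.nd (nat_lit 156) (nat_lit 152) (nat_lit 0) (XT.nd (nat_lit 78) (nat_lit 228) (nat_lit 0) (XT.lf (nat_lit 0) (nat_lit 858504823879) (nat_lit 228) (nat_lit 94201673476) (nat_lit 76) (nat_lit 4485961237) (nat_lit 67) (nat_lit 5) (nat_lit 70) (nat_lit 5) (nat_lit 68) (nat_lit 5) (nat_lit 479) (nat_lit 461) (nat_lit 260)) (XT.lf (nat_lit 0) (nat_lit 103460941588) (nat_lit 228) (nat_lit 502283154799) (nat_lit 76) (nat_lit 396641647702)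 (nat_lit 64) (nat_lit 5) (nat_lit 67) (nat_lit 5) (nat_lit 65) (nat_lit 5) (nat_lit 480) (nat_lit 461) (nat_lit 259))) (XT.nd (nat_lit 78) (nat_lit 0) (nat_lit 0) (XT.lf (nat_lit 0) (nat_lit 98623394283) (nat_lit 152) (nat_lit 222840738299) (nat_lit 228) (nat_lit 729124140693) (nat_lit 62) (nat_lit 5) (nat_lit 64) (nat_lit 5) (nat_lit 65) (nat_lit 5) (nat_lit 481) (nat_lit 461) (nat_lit 258)) (XT.lf (nat_lit 0) (nat_lit 575583805502) (nat_lit 228) (nat_lit 330323527781) (nat_lit 76) (nat_lit 195245573384) (nat_lit 62) (nat_lit 5) (nat_lit 65) (nat_lit 5) (nat_lit 63) (nat_lit 5) (nat_lit 482) (nat_lit 461) (nat_lit 257))))))) (XT.nd (nat_lit 1092) (nat_lit 988) (nat_lit 0) (XT.nd (nat_lit 546) (nat_lit 684) (nat_lit 0) (XT.nd (nat_lit 234) (nat_lit 304) (nat_lit 0) (XT.nd (nat_lit 78) (nat_lit 152) (nat_lit 0) (XT.lf (nat_lit 0) (nat_lit 352915296913) (nat_lit 152) (nat_lit 511393437682)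 (nat_lit 228) (nat_lit 290311921547) (nat_lit 60) (nat_lit 5) (nat_lit 62) (nat_lit 5) (nat_lit 63) (nat_lit 5) (nat_lit 483) (nat_lit 461) (nat_lit 256)) (XT.nd (nat_lit 78) (nat_lit 152) (nat_lit 0) (XT.lf (nat_lit 0) (nat_lit 1109599003749) (nat_lit 152) (nat_lit 75564275118) (nat_lit 228) (nat_lit 26480017042) (nat_lit 60) (nat_lit 5) (nat_lit 62) (nat_lit 5) (nat_lit 63) (nat_lit 5) (nat_lit 484) (nat_lit 461) (nat_lit 255)) (XT.lf (nat_lit 0) (nat_lit 272008562252) (nat_lit 152) (nat_lit 600046131926) (nat_lit 76) (nat_lit 398557437316) (nat_lit 58) (nat_lit 5) (nat_lit 60) (nat_lit 5) (nat_lit 59) (nat_lit 5) (nat_lit 485) (nat_lit 461) (nat_lit 254)))) (XT.nd (nat_lit 156) (nat_lit 152) (nat_lit 0) (XT.nd (nat_lit 78) (nat_lit 0) (nat_lit 0) (XT.lf (nat_lit 0) (nat_lit 183152226309) (nat_lit 152) (nat_lit 419023448854) (nat_lit 228) (nat_lit 731329370872) (nat_lit 56) (nat_lit 5)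 (nat_lit 58) (nat_lit 5) (nat_lit 59) (nat_lit 5) (nat_lit 486) (nat_lit 461) (nat_lit 253)) (XT.lf (nat_lit 0) (nat_lit 977278132428) (nat_lit 228) (nat_lit 339100954243) (nat_lit 76) (nat_lit 83568549043) (nat_lit 56) (nat_lit 5) (nat_lit 59) (nat_lit 5) (nat_lit 57) (nat_lit 4) (nat_lit 487) (nat_lit 461) (nat_lit 252))) (XT.nd (nat_lit 78) (nat_lit 76) (nat_lit 0) (XT.lf (nat_lit 0) (nat_lit 553874359037) (nat_lit 76) (nat_lit 852718836585) (nat_lit 152) (nat_lit 63176084199) (nat_lit 55) (nat_lit 5) (nat_lit 56) (nat_lit 5) (nat_lit 57) (nat_lit 4) (nat_lit 488) (nat_lit 461) (nat_lit 251)) (XT.lf (nat_lit 0) (nat_lit 318327584062) (nat_lit 152) (nat_lit 14921197258) (nat_lit 76) (nat_lit 1210541430997) (nat_lit 54) (nat_lit 5) (nat_lit 56) (nat_lit 5) (nat_lit 55) (nat_lit 5) (nat_lit 489) (nat_lit 461) (nat_lit 250))))) (XT.nd (nat_lit 234) (nat_lit 380) (nat_lit 0) (XT.nd (nat_lit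 78) (nat_lit 152) (nat_lit 0) (XT.lf (nat_lit 0) (nat_lit 757302980277) (nat_lit 228) (nat_lit 620957504955) (nat_lit 76) (nat_lit 242911892484) (nat_lit 52) (nat_lit 5) (nat_lit 55) (nat_lit 5) (nat_lit 53) (nat_lit 4) (nat_lit 490) (nat_lit 461) (nat_lit 249)) (XT.nd (nat_lit 78) (nat_lit 76) (nat_lit 0) (XT.lf (nat_lit 0) (nat_lit 404253927749) (nat_lit 76) (nat_lit 845939170823) (nat_lit 152) (nat_lit 453048282543) (nat_lit 51) (nat_lit 5) (nat_lit 52) (nat_lit 5) (nat_lit 53) (nat_lit 4) (nat_lit 491) (nat_lit 461) (nat_lit 248)) (XT.lf (nat_lit 0) (nat_lit 8525880881) (nat_lit 152) (nat_lit 243936838514) (nat_lit 76) (nat_lit 1538037672073) (nat_lit 50) (nat_lit 5) (nat_lit 52) (nat_lit 5) (nat_lit 51) (nat_lit 5) (nat_lit 492) (nat_lit 461) (nat_lit 247)))) (XT.nd (nat_lit 156) (nat_lit 152) (nat_lit 0) (XT.nd (nat_lit 78) (nat_lit 76) (nat_lit 0) (XT.lf (nat_lit 0) (nat_lit 515153036882)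 (nat_lit 228) (nat_lit 961951813924) (nat_lit 76) (nat_lit 404085598076) (nat_lit 48) (nat_lit 5) (nat_lit 51) (nat_lit 5) (nat_lit 49) (nat_lit 4) (nat_lit 493) (nat_lit 461) (nat_lit 246)) (XT.lf (nat_lit 0) (nat_lit 214750898782) (nat_lit 76) (nat_lit 866124600849) (nat_lit 152) (nat_lit 896775000516) (nat_lit 47) (nat_lit 5) (nat_lit 48) (nat_lit 5) (nat_lit 49) (nat_lit 4) (nat_lit 494) (nat_lit 461) (nat_lit 245))) (XT.nd (nat_lit 78) (nat_lit 152) (nat_lit 0) (XT.lf (nat_lit 0) (nat_lit 1540296868404) (nat_lit 76) (nat_lit 177860351760) (nat_lit 152) (nat_lit 361566018488) (nat_lit 47) (nat_lit 5) (nat_lit 48) (nat_lit 5) (nat_lit 49) (nat_lit 4) (nat_lit 495) (nat_lit 461) (nat_lit 244)) (XT.lf (nat_lit 0) (nat_lit 239540666196) (nat_lit 152) (nat_lit 1384598153155) (nat_lit 76) (nat_lit 562693774117) (nat_lit 45) (nat_lit 5) (nat_lit 47) (nat_lit 5) (nat_lit 46) (nat_lit 4) (nat_lit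 496) (nat_lit 461) (nat_lit 243)))))) (XT.nd (nat_lit 546) (nat_lit 532) (nat_lit 0) (XT.nd (nat_lit 234) (nat_lit 304) (nat_lit 0) (XT.nd (nat_lit 78) (nat_lit 152) (nat_lit 0) (XT.lf (nat_lit 0) (nat_lit 888953633082) (nat_lit 152) (nat_lit 33819189244) (nat_lit 76) (nat_lit 1377406432031) (nat_lit 45) (nat_lit 5) (nat_lit 47) (nat_lit 5) (nat_lit 46) (nat_lit 4) (nat_lit 497) (nat_lit 461) (nat_lit 242)) (XT.nd (nat_lit 78) (nat_lit 76) (nat_lit 0) (XT.lf (nat_lit 0) (nat_lit 1500061218454) (nat_lit 76) (nat_lit 126334921540) (nat_lit 152) (nat_lit 793311387910) (nat_lit 44) (nat_lit 5) (nat_lit 45) (nat_lit 5) (nat_lit 46) (nat_lit 4) (nat_lit 498) (nat_lit 461) (nat_lit 241)) (XT.lf (nat_lit 0) (nat_lit 623362020513) (nat_lit 76) (nat_lit 1833060927837) (nat_lit 76) (nat_lit 89688002913) (nat_lit 43) (nat_lit 4) (nat_lit 44) (nat_lit 5) (nat_lit 44) (nat_lit 4) (nat_lit 499) (nat_lit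 461) (nat_lit 240)))) (XT.nd (nat_lit 156) (nat_lit 152) (nat_lit 0) (XT.nd (nat_lit 78) (nat_lit 76) (nat_lit 0) (XT.lf (nat_lit 0) (nat_lit 665777162707) (nat_lit 152) (nat_lit 358556431794) (nat_lit 76) (nat_lit 1654677196001) (nat_lit 42) (nat_lit 5) (nat_lit 44) (nat_lit 5) (nat_lit 43) (nat_lit 4) (nat_lit 500) (nat_lit 461) (nat_lit 239)) (XT.lf (nat_lit 0) (nat_lit 1398395294708) (nat_lit 76) (nat_lit 112070200408) (nat_lit 152) (nat_lit 1309200242264) (nat_lit 41) (nat_lit 5) (nat_lit 42) (nat_lit 5) (nat_lit 43) (nat_lit 4) (nat_lit 501) (nat_lit 461) (nat_lit 238))) (XT.nd (nat_lit 78) (nat_lit 76) (nat_lit 0) (XT.lf (nat_lit 0) (nat_lit 341325774083) (nat_lit 76) (nat_lit 2120670076411) (nat_lit 76) (nat_lit 506435873003) (nat_lit 40) (nat_lit 4) (nat_lit 41) (nat_lit 5) (nat_lit 41) (nat_lit 4) (nat_lit 502) (nat_lit 461) (nat_lit 237)) (XT.lf (nat_lit 0) (nat_lit 385293806042)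 (nat_lit 152) (nat_lit 812823090736) (nat_lit 76) (nat_lit 1926865968413) (nat_lit 39) (nat_lit 5) (nat_lit 41) (nat_lit 5) (nat_lit 40) (nat_lit 4) (nat_lit 503) (nat_lit 461) (nat_lit 236))))) (XT.nd (nat_lit 312) (nat_lit 228) (nat_lit 0) (XT.nd (nat_lit 156) (nat_lit 228) (nat_lit 0) (XT.nd (nat_lit 78) (nat_lit 0) (nat_lit 0) (XT.lf (nat_lit 0) (nat_lit 1193133582812) (nat_lit 76) (nat_lit 156562471863) (nat_lit 152) (nat_lit 1941014118338) (nat_lit 38) (nat_lit 5) (nat_lit 39) (nat_lit 5) (nat_lit 40) (nat_lit 4) (nat_lit 504) (nat_lit 461) (nat_lit 235)) (XT.lf (nat_lit 0) (nat_lit 2437339780039) (nat_lit 152) (nat_lit 85990271129) (nat_lit 0) (nat_lit 942678470545) (nat_lit 38) (nat_lit 5) (nat_lit 40) (nat_lit 4) (nat_lit 38) (nat_lit 4) (nat_lit 505) (nat_lit 461) (nat_lit 234))) (XT.nd (nat_lit 78) (nat_lit 76) (nat_lit 0) (XT.lf (nat_lit 0) (nat_lit 17094048454) (nat_lit 152)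 (nat_lit 1459105691573) (nat_lit 76) (nat_lit 2174553419969) (nat_lit 36) (nat_lit 5) (nat_lit 38) (nat_lit 5) (nat_lit 37) (nat_lit 4) (nat_lit 506) (nat_lit 461) (nat_lit 233)) (XT.lf (nat_lit 0) (nat_lit 820565557819) (nat_lit 76) (nat_lit 292524284887) (nat_lit 152) (nat_lit 2733278288217) (nat_lit 35) (nat_lit 5) (nat_lit 36) (nat_lit 5) (nat_lit 37) (nat_lit 4) (nat_lit 507) (nat_lit 461) (nat_lit 232)))) (XT.nd (nat_lit 156) (nat_lit 152) (nat_lit 0) (XT.nd (nat_lit 78) (nat_lit 76) (nat_lit 0) (XT.lf (nat_lit 0) (nat_lit 2361405654125) (nat_lit 152) (nat_lit 713595427305) (nat_lit 0) (nat_lit 977459989804) (nat_lit 35) (nat_lit 5) (nat_lit 37) (nat_lit 4) (nat_lit 35) (nat_lit 4) (nat_lit 508) (nat_lit 461) (nat_lit 231)) (XT.lf (nat_lit 0) (nat_lit 1869510747899) (nat_lit 76) (nat_lit 1892635790337) (nat_lit 76) (nat_lit 508690123912) (nat_lit 34) (nat_lit 4) (nat_lit 35) (nat_lit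 5) (nat_lit 35) (nat_lit 4) (nat_lit 509) (nat_lit 461) (nat_lit 230))) (XT.nd (nat_lit 78) (nat_lit 0) (nat_lit 0) (XT.lf (nat_lit 0) (nat_lit 184997561951) (nat_lit 76) (nat_lit 569302068013) (nat_lit 152) (nat_lit 3748947173510) (nat_lit 32) (nat_lit 5) (nat_lit 33) (nat_lit 5) (nat_lit 34) (nat_lit 4) (nat_lit 510) (nat_lit 461) (nat_lit 229)) (XT.lf (nat_lit 0) (nat_lit 2178888526561) (nat_lit 152) (nat_lit 1669803465291) (nat_lit 0) (nat_lit 897457350468) (nat_lit 32) (nat_lit 5) (nat_lit 34) (nat_lit 4) (nat_lit 32) (nat_lit 4) (nat_lit 511) (nat_lit 461) (nat_lit 228))))))))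
noncomputable def xc213 : XT := (XT.nd (nat_lit 58656) (nat_lit 0) (nat_lit 3116) (XT.nd (nat_lit 1092) (nat_lit 684) (nat_lit 0) (XT.nd (nat_lit 546) (nat_lit 456) (nat_lit 0) (XT.nd (nat_lit 234) (nat_lit 228) (nat_lit 0) (XT.nd (nat_lit 78) (nat_lit 152) (nat_lit 0) (XT.lf (nat_lit 0) (nat_lit 1237642804415) (nat_lit 76) (nat_lit 2524354132662) (nat_lit 76) (nat_lit 1242922955022) (nat_lit 31) (nat_lit 4) (nat_lit 32) (nat_lit 5) (nat_lit 32) (nat_lit 4) (nat_lit 512) (nat_lit 461) (nat_lit 227)) (XT.nd (nat_lit 78) (nat_lit 76) (nat_lit 0) (XT.lf (nat_lit 0) (nat_lit 224830568136) (nat_lit 152) (nat_lit 813783597349) (nat_lit 76) (nat_lit 4241670136745) (nat_lit 30) (nat_lit 5) (nat_lit 32) (nat_lit 5) (nat_lit 31) (nat_lit 4) (nat_lit 513) (nat_lit 461) (nat_lit 226)) (XT.lf (nat_lit 0) (nat_lit 1818180208666) (nat_lit 152) (nat_lit 3119219026307) (nat_lit 0) (nat_lit 631669856444)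 (nat_lit 29) (nat_lit 5) (nat_lit 31) (nat_lit 4) (nat_lit 29) (nat_lit 4) (nat_lit 514) (nat_lit 461) (nat_lit 225)))) (XT.nd (nat_lit 156) (nat_lit 152) (nat_lit 0) (XT.nd (nat_lit 78) (nat_lit 0) (nat_lit 0) (XT.lf (nat_lit 0) (nat_lit 120132984616) (nat_lit 76) (nat_lit 3471559240072) (nat_lit 76) (nat_lit 2285048886712) (nat_lit 28) (nat_lit 4) (nat_lit 29) (nat_lit 5) (nat_lit 29) (nat_lit 4) (nat_lit 515) (nat_lit 461) (nat_lit 224)) (XT.lf (nat_lit 0) (nat_lit 3796025899535) (nat_lit 76) (nat_lit 1796344275027) (nat_lit 76) (nat_lit 609833920614) (nat_lit 28) (nat_lit 4) (nat_lit 29) (nat_lit 5) (nat_lit 29) (nat_lit 4) (nat_lit 516) (nat_lit 461) (nat_lit 223))) (XT.nd (nat_lit 78) (nat_lit 0) (nat_lit 0) (XT.lf (nat_lit 0) (nat_lit 1171197387086) (nat_lit 152) (nat_lit 5305078566228) (nat_lit 0) (nat_lit 72576687652) (nat_lit 26) (nat_lit 5) (nat_lit 28) (nat_lit 4) (nat_lit 26)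 (nat_lit 4) (nat_lit 517) (nat_lit 461) (nat_lit 222)) (XT.lf (nat_lit 0) (nat_lit 3175920603288) (nat_lit 152) (nat_lit 1659612874709) (nat_lit 0) (nat_lit 2077299903019) (nat_lit 26) (nat_lit 5) (nat_lit 28) (nat_lit 4) (nat_lit 26) (nat_lit 4) (nat_lit 518) (nat_lit 461) (nat_lit 221))))) (XT.nd (nat_lit 234) (nat_lit 228) (nat_lit 0) (XT.nd (nat_lit 78) (nat_lit 152) (nat_lit 0) (XT.lf (nat_lit 0) (nat_lit 2397418656991) (nat_lit 76) (nat_lit 3001260993225) (nat_lit 76) (nat_lit 1902640292181) (nat_lit 25) (nat_lit 4) (nat_lit 26) (nat_lit 5) (nat_lit 26) (nat_lit 4) (nat_lit 519) (nat_lit 461) (nat_lit 220)) (XT.nd (nat_lit 78) (nat_lit 76) (nat_lit 0) (XT.lf (nat_lit 0) (nat_lit 121008778923) (nat_lit 152) (nat_lit 846922441598) (nat_lit 76) (nat_lit 6749078986756) (nat_lit 24) (nat_lit 5) (nat_lit 26) (nat_lit 5) (nat_lit 25) (nat_lit 4) (nat_lit 520) (nat_lit 461) (nat_lit 219))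 (XT.lf (nat_lit 0) (nat_lit 2325100943266) (nat_lit 152) (nat_lit 4519334206677) (nat_lit 0) (nat_lit 1307859552133) (nat_lit 23) (nat_lit 5) (nat_lit 25) (nat_lit 4) (nat_lit 23) (nat_lit 4) (nat_lit 521) (nat_lit 461) (nat_lit 218)))) (XT.nd (nat_lit 156) (nat_lit 152) (nat_lit 0) (XT.nd (nat_lit 78) (nat_lit 76) (nat_lit 0) (XT.lf (nat_lit 0) (nat_lit 4754419373050) (nat_lit 152) (nat_lit 126892690677) (nat_lit 0) (nat_lit 3737177981348) (nat_lit 23) (nat_lit 5) (nat_lit 25) (nat_lit 4) (nat_lit 23) (nat_lit 4) (nat_lit 522) (nat_lit 461) (nat_lit 217)) (XT.lf (nat_lit 0) (nat_lit 4860064238045) (nat_lit 76) (nat_lit 2634903698476) (nat_lit 76) (nat_lit 1617662306247) (nat_lit 22) (nat_lit 4) (nat_lit 23) (nat_lit 5) (nat_lit 23) (nat_lit 4) (nat_lit 523) (nat_lit 461) (nat_lit 216))) (XT.nd (nat_lit 78) (nat_lit 0) (nat_lit 0) (XT.lf (nat_lit 0) (nat_lit 618580448395) (nat_lit 76) (nat_lit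 167872359831) (nat_lit 152) (nat_lit 8856818455155) (nat_lit 20) (nat_lit 5) (nat_lit 21) (nat_lit 5) (nat_lit 22) (nat_lit 4) (nat_lit 524) (nat_lit 461) (nat_lit 215)) (XT.lf (nat_lit 0) (nat_lit 3474835510050) (nat_lit 152) (nat_lit 4190874615388) (nat_lit 0) (nat_lit 2532945331190) (nat_lit 20) (nat_lit 5) (nat_lit 22) (nat_lit 4) (nat_lit 20) (nat_lit 4) (nat_lit 525) (nat_lit 461) (nat_lit 214)))))) (XT.nd (nat_lit 546) (nat_lit 304) (nat_lit 0) (XT.nd (nat_lit 234) (nat_lit 152) (nat_lit 0) (XT.nd (nat_lit 78) (nat_lit 152) (nat_lit 0) (XT.lf (nat_lit 0) (nat_lit 1079276327386) (nat_lit 76) (nat_lit 5329329440985) (nat_lit 76) (nat_lit 4387439261738) (nat_lit 19) (nat_lit 4) (nat_lit 20) (nat_lit 5) (nat_lit 20) (nat_lit 4) (nat_lit 526) (nat_lit 461) (nat_lit 213)) (XT.nd (nat_lit 78) (nat_lit 152) (nat_lit 0) (XT.lf (nat_lit 0) (nat_lit 7009378093765) (nat_lit 76) (nat_lit 2682285490189)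 (nat_lit 76) (nat_lit 1740395310583) (nat_lit 19) (nat_lit 4) (nat_lit 20) (nat_lit 5) (nat_lit 20) (nat_lit 4) (nat_lit 527) (nat_lit 461) (nat_lit 212)) (XT.lf (nat_lit 0) (nat_lit 1100344659279) (nat_lit 152) (nat_lit 10785202858738) (nat_lit 0) (nat_lit 228224122300) (nat_lit 17) (nat_lit 5) (nat_lit 19) (nat_lit 4) (nat_lit 17) (nat_lit 4) (nat_lit 528) (nat_lit 461) (nat_lit 211)))) (XT.nd (nat_lit 156) (nat_lit 76) (nat_lit 0) (XT.nd (nat_lit 78) (nat_lit 76) (nat_lit 0) (XT.lf (nat_lit 0) (nat_lit 4268051837815) (nat_lit 152) (nat_lit 5166923096519) (nat_lit 0) (nat_lit 3395931300551) (nat_lit 17) (nat_lit 5) (nat_lit 19) (nat_lit 4) (nat_lit 17) (nat_lit 4) (nat_lit 529) (nat_lit 461) (nat_lit 210)) (XT.lf (nat_lit 0) (nat_lit 948254576997) (nat_lit 76) (nat_lit 6763726557038) (nat_lit 76) (nat_lit 5891606019510) (nat_lit 16) (nat_lit 4) (nat_lit 17) (nat_lit 5) (nat_lit 17) (nat_lit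 4) (nat_lit 530) (nat_lit 461) (nat_lit 209))) (XT.nd (nat_lit 78) (nat_lit 76) (nat_lit 0) (XT.lf (nat_lit 0) (nat_lit 7846493955210) (nat_lit 76) (nat_lit 3726203650846) (nat_lit 76) (nat_lit 2854083113074) (nat_lit 16) (nat_lit 4) (nat_lit 17) (nat_lit 5) (nat_lit 17) (nat_lit 4) (nat_lit 531) (nat_lit 461) (nat_lit 208)) (XT.lf (nat_lit 0) (nat_lit 405109286818) (nat_lit 152) (nat_lit 29493221414) (nat_lit 76) (nat_lit 14880406787368) (nat_lit 15) (nat_lit 5) (nat_lit 17) (nat_lit 5) (nat_lit 16) (nat_lit 4) (nat_lit 532) (nat_lit 461) (nat_lit 207))))) (XT.nd (nat_lit 234) (nat_lit 152) (nat_lit 0) (XT.nd (nat_lit 78) (nat_lit 76) (nat_lit 0) (XT.lf (nat_lit 0) (nat_lit 4028882851991) (nat_lit 152) (nat_lit 8997475677277) (nat_lit 0) (nat_lit 3221363835133) (nat_lit 14) (nat_lit 5) (nat_lit 16) (nat_lit 4) (nat_lit 14) (nat_lit 4) (nat_lit 533) (nat_lit 461) (nat_lit 206)) (XT.nd (nat_lit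 78) (nat_lit 76) (nat_lit 0) (XT.lf (nat_lit 0) (nat_lit 7954674019836) (nat_lit 152) (nat_lit 2152254198676) (nat_lit 0) (nat_lit 7147155002799) (nat_lit 14) (nat_lit 5) (nat_lit 16) (nat_lit 4) (nat_lit 14) (nat_lit 4) (nat_lit 534) (nat_lit 461) (nat_lit 205)) (XT.lf (nat_lit 0) (nat_lit 5516544913699) (nat_lit 76) (nat_lit 6810656603687) (nat_lit 76) (nat_lit 6003137586483) (nat_lit 13) (nat_lit 4) (nat_lit 14) (nat_lit 5) (nat_lit 14) (nat_lit 4) (nat_lit 535) (nat_lit 461) (nat_lit 204)))) (XT.nd (nat_lit 156) (nat_lit 0) (nat_lit 0) (XT.nd (nat_lit 78) (nat_lit 152) (nat_lit 0) (XT.lf (nat_lit 0) (nat_lit 13921248555250) (nat_lit 76) (nat_lit 3187129101875) (nat_lit 76) (nat_lit 2379610084517) (nat_lit 13) (nat_lit 4) (nat_lit 14) (nat_lit 5) (nat_lit 14) (nat_lit 4) (nat_lit 536) (nat_lit 461) (nat_lit 203)) (XT.lf (nat_lit 0) (nat_lit 1533243195416) (nat_lit 152) (nat_lit 18410420004442)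 (nat_lit 0) (nat_lit 785540401435) (nat_lit 11) (nat_lit 5) (nat_lit 13) (nat_lit 4) (nat_lit 11) (nat_lit 4) (nat_lit 537) (nat_lit 461) (nat_lit 202))) (XT.nd (nat_lit 56550) (nat_lit 0) (nat_lit 6232) (XT.lf (nat_lit 0) (nat_lit 5869504436226) (nat_lit 152) (nat_lit 11054350770947) (nat_lit 0) (nat_lit 5121801642123) (nat_lit 11) (nat_lit 5) (nat_lit 13) (nat_lit 4) (nat_lit 11) (nat_lit 4) (nat_lit 538) (nat_lit 461) (nat_lit 201)) (XT.lf (nat_lit 0) (nat_lit 236582590577) (nat_lit 532) (nat_lit 1578796763) (nat_lit 532) (nat_lit 1578796763) (nat_lit 93) (nat_lit 3) (nat_lit 100) (nat_lit 3) (nat_lit 100) (nat_lit 5) (nat_lit 462) (nat_lit 462) (nat_lit 276))))))) (XT.nd (nat_lit 1092) (nat_lit 1520) (nat_lit 0) (XT.nd (nat_lit 546) (nat_lit 1064) (nat_lit 0) (XT.nd (nat_lit 234) (nat_lit 0) (nat_lit 76) (XT.nd (nat_lit 78) (nat_lit 532) (nat_lit 0) (XT.lf (nat_lit 76) (nat_lit 248031630248)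 (nat_lit 0) (nat_lit 250025593608) (nat_lit 532) (nat_lit 125124209) (nat_lit 94) (nat_lit 5) (nat_lit 93) (nat_lit 3) (nat_lit 100) (nat_lit 5) (nat_lit 463) (nat_lit 462) (nat_lit 275)) (XT.nd (nat_lit 78) (nat_lit 0) (nat_lit 76) (XT.lf (nat_lit 76) (nat_lit 1012611602) (nat_lit 0) (nat_lit 5332269117) (nat_lit 608) (nat_lit 512013951704) (nat_lit 87) (nat_lit 5) (nat_lit 86) (nat_lit 5) (nat_lit 94) (nat_lit 5) (nat_lit 464) (nat_lit 462) (nat_lit 274)) (XT.lf (nat_lit 0) (nat_lit 26570344541) (nat_lit 532) (nat_lit 259515319306) (nat_lit 608) (nat_lit 253003942210) (nat_lit 87) (nat_lit 5) (nat_lit 94) (nat_lit 5) (nat_lit 95) (nat_lit 5) (nat_lit 465) (nat_lit 462) (nat_lit 273)))) (XT.nd (nat_lit 156) (nat_lit 0) (nat_lit 76) (XT.nd (nat_lit 78) (nat_lit 0) (nat_lit 76) (XT.lf (nat_lit 76) (nat_lit 19793697443) (nat_lit 0) (nat_lit 29234663300) (nat_lit 608) (nat_lit 512401319622)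 (nat_lit 88) (nat_lit 5) (nat_lit 87) (nat_lit 5) (nat_lit 95) (nat_lit 5) (nat_lit 466) (nat_lit 462) (nat_lit 272)) (XT.lf (nat_lit 0) (nat_lit 86531266101) (nat_lit 532) (nat_lit 254935690782) (nat_lit 608) (nat_lit 243030143906) (nat_lit 88) (nat_lit 5) (nat_lit 95) (nat_lit 5) (nat_lit 96) (nat_lit 5) (nat_lit 467) (nat_lit 462) (nat_lit 271))) (XT.nd (nat_lit 78) (nat_lit 0) (nat_lit 76) (XT.lf (nat_lit 76) (nat_lit 56781716837) (nat_lit 0) (nat_lit 72377609685) (nat_lit 608) (nat_lit 480080594518) (nat_lit 89) (nat_lit 5) (nat_lit 88) (nat_lit 5) (nat_lit 96) (nat_lit 5) (nat_lit 468) (nat_lit 462) (nat_lit 270)) (XT.lf (nat_lit 0) (nat_lit 187597705254) (nat_lit 532) (nat_lit 232899317999) (nat_lit 76) (nat_lit 214473137782) (nat_lit 89) (nat_lit 5) (nat_lit 96) (nat_lit 5) (nat_lit 90) (nat_lit 5) (nat_lit 469) (nat_lit 462) (nat_lit 269))))) (XT.nd (nat_lit 234) (nat_lit 532) (nat_lit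 0) (XT.nd (nat_lit 78) (nat_lit 228) (nat_lit 0) (XT.lf (nat_lit 0) (nat_lit 116154860477) (nat_lit 532) (nat_lit 139229740653) (nat_lit 608) (nat_lit 407000343354) (nat_lit 82) (nat_lit 5) (nat_lit 89) (nat_lit 5) (nat_lit 90) (nat_lit 5) (nat_lit 470) (nat_lit 462) (nat_lit 268)) (XT.nd (nat_lit 78) (nat_lit 228) (nat_lit 0) (XT.lf (nat_lit 0) (nat_lit 339084876042) (nat_lit 608) (nat_lit 189227499188) (nat_lit 76) (nat_lit 162841301191) (nat_lit 82) (nat_lit 5) (nat_lit 90) (nat_lit 5) (nat_lit 83) (nat_lit 5) (nat_lit 471) (nat_lit 462) (nat_lit 267)) (XT.lf (nat_lit 0) (nat_lit 202867155371) (nat_lit 228) (nat_lit 235109318425) (nat_lit 304) (nat_lit 283567809052) (nat_lit 79) (nat_lit 5) (nat_lit 82) (nat_lit 5) (nat_lit 83) (nat_lit 5) (nat_lit 472) (nat_lit 462) (nat_lit 266)))) (XT.nd (nat_lit 156) (nat_lit 304) (nat_lit 0) (XT.nd (nat_lit 78) (nat_lit 228) (nat_lit 0) (XT.lf (nat_lit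 0) (nat_lit 552048863145) (nat_lit 304) (nat_lit 118956996227) (nat_lit 76) (nat_lit 82778721316) (nat_lit 79) (nat_lit 5) (nat_lit 83) (nat_lit 5) (nat_lit 80) (nat_lit 5) (nat_lit 473) (nat_lit 462) (nat_lit 265)) (XT.lf (nat_lit 0) (nat_lit 322780796352) (nat_lit 228) (nat_lit 366335854622) (nat_lit 304) (nat_lit 98377882795) (nat_lit 76) (nat_lit 5) (nat_lit 79) (nat_lit 5) (nat_lit 80) (nat_lit 5) (nat_lit 474) (nat_lit 462) (nat_lit 264))) (XT.nd (nat_lit 78) (nat_lit 228) (nat_lit 0) (XT.lf (nat_lit 0) (nat_lit 15922792833) (nat_lit 304) (nat_lit 17421407047) (nat_lit 76) (nat_lit 790264635996) (nat_lit 75) (nat_lit 5) (nat_lit 79) (nat_lit 5) (nat_lit 76) (nat_lit 5) (nat_lit 475) (nat_lit 462) (nat_lit 263)) (XT.lf (nat_lit 0) (nat_lit 153994670537) (nat_lit 304) (nat_lit 382203036723) (nat_lit 76) (nat_lit 324614784600) (nat_lit 72) (nat_lit 5) (nat_lit 76) (nat_lit 5) (nat_lit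 73) (nat_lit 5) (nat_lit 476) (nat_lit 462) (nat_lit 262)))))) (XT.nd (nat_lit 546) (nat_lit 760) (nat_lit 0) (XT.nd (nat_lit 234) (nat_lit 380) (nat_lit 0) (XT.nd (nat_lit 78) (nat_lit 152) (nat_lit 0) (XT.lf (nat_lit 0) (nat_lit 119456447392) (nat_lit 228) (nat_lit 187883556747) (nat_lit 304) (nat_lit 593314219730) (nat_lit 69) (nat_lit 5) (nat_lit 72) (nat_lit 5) (nat_lit 73) (nat_lit 5) (nat_lit 477) (nat_lit 462) (nat_lit 261)) (XT.nd (nat_lit 78) (nat_lit 152) (nat_lit 0) (XT.lf (nat_lit 0) (nat_lit 488203009068) (nat_lit 304) (nat_lit 264662334672) (nat_lit 76) (nat_lit 189597947129) (nat_lit 69) (nat_lit 5) (nat_lit 73) (nat_lit 5) (nat_lit 70) (nat_lit 5) (nat_lit 478) (nat_lit 462) (nat_lit 260)) (XT.lf (nat_lit 0) (nat_lit 303498035858) (nat_lit 152) (nat_lit 392216235027) (nat_lit 228) (nat_lit 290928475024) (nat_lit 67) (nat_lit 5) (nat_lit 69) (nat_lit 5) (nat_lit 70) (nat_lit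 5) (nat_lit 479) (nat_lit 462) (nat_lit 259)))) (XT.nd (nat_lit 156) (nat_lit 152) (nat_lit 0) (XT.nd (nat_lit 78) (nat_lit 228) (nat_lit 0) (XT.lf (nat_lit 0) (nat_lit 927185416547) (nat_lit 228) (nat_lit 101737504619) (nat_lit 76) (nat_lit 4844917557) (nat_lit 67) (nat_lit 5) (nat_lit 70) (nat_lit 5) (nat_lit 68) (nat_lit 5) (nat_lit 480) (nat_lit 462) (nat_lit 258)) (XT.lf (nat_lit 0) (nat_lit 111738020625) (nat_lit 228) (nat_lit 542465501370) (nat_lit 76) (nat_lit 428373065309) (nat_lit 64) (nat_lit 5) (nat_lit 67) (nat_lit 5) (nat_lit 65) (nat_lit 5) (nat_lit 481) (nat_lit 462) (nat_lit 257))) (XT.nd (nat_lit 78) (nat_lit 0) (nat_lit 0) (XT.lf (nat_lit 0) (nat_lit 106513563897) (nat_lit 152) (nat_lit 240667895081) (nat_lit 228) (nat_lit 787453860483) (nat_lit 62) (nat_lit 5) (nat_lit 64) (nat_lit 5) (nat_lit 65) (nat_lit 5) (nat_lit 482) (nat_lit 462) (nat_lit 256)) (XT.lf (nat_lit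 0) (nat_lit 621630693506) (nat_lit 228) (nat_lit 356749121774) (nat_lit 76) (nat_lit 210865309222) (nat_lit 62) (nat_lit 5) (nat_lit 65) (nat_lit 5) (nat_lit 63) (nat_lit 5) (nat_lit 483) (nat_lit 462) (nat_lit 255))))) (XT.nd (nat_lit 312) (nat_lit 304) (nat_lit 0) (XT.nd (nat_lit 156) (nat_lit 304) (nat_lit 0) (XT.nd (nat_lit 78) (nat_lit 0) (nat_lit 0) (XT.lf (nat_lit 0) (nat_lit 381148801599) (nat_lit 152) (nat_lit 552304808487) (nat_lit 228) (nat_lit 313536684398) (nat_lit 60) (nat_lit 5) (nat_lit 62) (nat_lit 5) (nat_lit 63) (nat_lit 5) (nat_lit 484) (nat_lit 462) (nat_lit 254)) (XT.lf (nat_lit 0) (nat_lit 1198367184173) (nat_lit 152) (nat_lit 81609320637) (nat_lit 228) (nat_lit 28598241671) (nat_lit 60) (nat_lit 5) (nat_lit 62) (nat_lit 5) (nat_lit 63) (nat_lit 5) (nat_lit 485) (nat_lit 462) (nat_lit 253))) (XT.nd (nat_lit 78) (nat_lit 152) (nat_lit 0) (XT.lf (nat_lit 0) (nat_lit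 293769411408) (nat_lit 152) (nat_lit 648049549780) (nat_lit 76) (nat_lit 430442127682) (nat_lit 58) (nat_lit 5) (nat_lit 60) (nat_lit 5) (nat_lit 59) (nat_lit 5) (nat_lit 486) (nat_lit 462) (nat_lit 252)) (XT.lf (nat_lit 0) (nat_lit 197804670210) (nat_lit 152) (nat_lit 452545217373) (nat_lit 228) (nat_lit 789835549453) (nat_lit 56) (nat_lit 5) (nat_lit 58) (nat_lit 5) (nat_lit 59) (nat_lit 5) (nat_lit 487) (nat_lit 462) (nat_lit 251)))) (XT.nd (nat_lit 156) (nat_lit 228) (nat_lit 0) (XT.nd (nat_lit 78) (nat_lit 76) (nat_lit 0) (XT.lf (nat_lit 0) (nat_lit 1055460532088) (nat_lit 228) (nat_lit 366228775124) (nat_lit 76) (nat_lit 90254127427) (nat_lit 56) (nat_lit 5) (nat_lit 59) (nat_lit 5) (nat_lit 57) (nat_lit 4) (nat_lit 488) (nat_lit 462) (nat_lit 250)) (XT.lf (nat_lit 0) (nat_lit 598184556751) (nat_lit 76) (nat_lit 920936238532) (nat_lit 152) (nat_lit 68230015395) (nat_lit 55) (nat_lit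 5) (nat_lit 56) (nat_lit 5) (nat_lit 57) (nat_lit 4) (nat_lit 489) (nat_lit 462) (nat_lit 249))) (XT.nd (nat_lit 78) (nat_lit 152) (nat_lit 0) (XT.lf (nat_lit 0) (nat_lit 343793927601) (nat_lit 152) (nat_lit 16114655280) (nat_lit 76) (nat_lit 1307384835470) (nat_lit 54) (nat_lit 5) (nat_lit 56) (nat_lit 5) (nat_lit 55) (nat_lit 5) (nat_lit 490) (nat_lit 462) (nat_lit 248)) (XT.lf (nat_lit 0) (nat_lit 817887353345) (nat_lit 228) (nat_lit 670633865418) (nat_lit 76) (nat_lit 262344938392) (nat_lit 52) (nat_lit 5) (nat_lit 55) (nat_lit 5) (nat_lit 53) (nat_lit 4) (nat_lit 491) (nat_lit 462) (nat_lit 247))))))))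
noncomputable def xc214 : XT := (XT.nd (nat_lit 2184) (nat_lit 1140) (nat_lit 0) (XT.nd (nat_lit 1092) (nat_lit 912) (nat_lit 0) (XT.nd (nat_lit 546) (nat_lit 532) (nat_lit 0) (XT.nd (nat_lit 234) (nat_lit 228) (nat_lit 0) (XT.nd (nat_lit 78) (nat_lit 228) (nat_lit 0) (XT.lf (nat_lit 0) (nat_lit 436594475828) (nat_lit 76) (nat_lit 913614200927) (nat_lit 152) (nat_lit 489292004421) (nat_lit 51) (nat_lit 5) (nat_lit 52) (nat_lit 5) (nat_lit 53) (nat_lit 4) (nat_lit 492) (nat_lit 462) (nat_lit 246)) (XT.nd (nat_lit 78) (nat_lit 152) (nat_lit 0) (XT.lf (nat_lit 0) (nat_lit 9208075135) (nat_lit 152) (nat_lit 263451562537) (nat_lit 76) (nat_lit 1661080775207) (nat_lit 50) (nat_lit 5) (nat_lit 52) (nat_lit 5) (nat_lit 51) (nat_lit 5) (nat_lit 493) (nat_lit 462) (nat_lit 245)) (XT.lf (nat_lit 0) (nat_lit 556365402021) (nat_lit 228) (nat_lit 1038907734381) (nat_lit 76) (nat_lit 436412538610) (nat_lit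 48) (nat_lit 5) (nat_lit 51) (nat_lit 5) (nat_lit 49) (nat_lit 4) (nat_lit 494) (nat_lit 462) (nat_lit 244)))) (XT.nd (nat_lit 156) (nat_lit 152) (nat_lit 0) (XT.nd (nat_lit 78) (nat_lit 0) (nat_lit 0) (XT.lf (nat_lit 0) (nat_lit 231931189654) (nat_lit 76) (nat_lit 935414468352) (nat_lit 152) (nat_lit 968516872676) (nat_lit 47) (nat_lit 5) (nat_lit 48) (nat_lit 5) (nat_lit 49) (nat_lit 4) (nat_lit 495) (nat_lit 462) (nat_lit 243)) (XT.lf (nat_lit 0) (nat_lit 1663520820625) (nat_lit 76) (nat_lit 192089086785) (nat_lit 152) (nat_lit 390491181559) (nat_lit 47) (nat_lit 5) (nat_lit 48) (nat_lit 5) (nat_lit 49) (nat_lit 4) (nat_lit 496) (nat_lit 462) (nat_lit 242))) (XT.nd (nat_lit 78) (nat_lit 0) (nat_lit 0) (XT.lf (nat_lit 0) (nat_lit 258704030805) (nat_lit 152) (nat_lit 1495365795557) (nat_lit 76) (nat_lit 607709365676) (nat_lit 45) (nat_lit 5) (nat_lit 47) (nat_lit 5) (nat_lit 46) (nat_lit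 4) (nat_lit 497) (nat_lit 462) (nat_lit 241)) (XT.lf (nat_lit 0) (nat_lit 960070026797) (nat_lit 152) (nat_lit 36524530078) (nat_lit 76) (nat_lit 1487599029583) (nat_lit 45) (nat_lit 5) (nat_lit 47) (nat_lit 5) (nat_lit 46) (nat_lit 4) (nat_lit 498) (nat_lit 462) (nat_lit 240))))) (XT.nd (nat_lit 234) (nat_lit 304) (nat_lit 0) (XT.nd (nat_lit 78) (nat_lit 152) (nat_lit 0) (XT.lf (nat_lit 0) (nat_lit 1620066305317) (nat_lit 76) (nat_lit 136441625864) (nat_lit 152) (nat_lit 856776190953) (nat_lit 44) (nat_lit 5) (nat_lit 45) (nat_lit 5) (nat_lit 46) (nat_lit 4) (nat_lit 499) (nat_lit 462) (nat_lit 239)) (XT.nd (nat_lit 78) (nat_lit 76) (nat_lit 0) (XT.lf (nat_lit 0) (nat_lit 673231172450) (nat_lit 76) (nat_lit 1979705710917) (nat_lit 76) (nat_lit 96862936062) (nat_lit 43) (nat_lit 4) (nat_lit 44) (nat_lit 5) (nat_lit 44) (nat_lit 4) (nat_lit 500) (nat_lit 462) (nat_lit 238)) (XT.lf (nat_lit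 0) (nat_lit 719039429915) (nat_lit 152) (nat_lit 387240765175) (nat_lit 76) (nat_lit 1787051451115) (nat_lit 42) (nat_lit 5) (nat_lit 44) (nat_lit 5) (nat_lit 43) (nat_lit 4) (nat_lit 501) (nat_lit 462) (nat_lit 237)))) (XT.nd (nat_lit 156) (nat_lit 152) (nat_lit 0) (XT.nd (nat_lit 78) (nat_lit 76) (nat_lit 0) (XT.lf (nat_lit 0) (nat_lit 1510267094860) (nat_lit 76) (nat_lit 121035731326) (nat_lit 152) (nat_lit 1413936162865) (nat_lit 41) (nat_lit 5) (nat_lit 42) (nat_lit 5) (nat_lit 43) (nat_lit 4) (nat_lit 502) (nat_lit 462) (nat_lit 236)) (XT.lf (nat_lit 0) (nat_lit 368632013254) (nat_lit 76) (nat_lit 2290323596124) (nat_lit 76) (nat_lit 546950644730) (nat_lit 40) (nat_lit 4) (nat_lit 41) (nat_lit 5) (nat_lit 41) (nat_lit 4) (nat_lit 503) (nat_lit 462) (nat_lit 235))) (XT.nd (nat_lit 78) (nat_lit 76) (nat_lit 0) (XT.lf (nat_lit 0) (nat_lit 416117396827) (nat_lit 152) (nat_lit 877848769334)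 (nat_lit 76) (nat_lit 2081015321340) (nat_lit 39) (nat_lit 5) (nat_lit 41) (nat_lit 5) (nat_lit 40) (nat_lit 4) (nat_lit 504) (nat_lit 462) (nat_lit 234)) (XT.lf (nat_lit 0) (nat_lit 1288584433828) (nat_lit 76) (nat_lit 169087389083) (nat_lit 152) (nat_lit 2096295157232) (nat_lit 38) (nat_lit 5) (nat_lit 39) (nat_lit 5) (nat_lit 40) (nat_lit 4) (nat_lit 505) (nat_lit 462) (nat_lit 233)))))) (XT.nd (nat_lit 546) (nat_lit 456) (nat_lit 0) (XT.nd (nat_lit 234) (nat_lit 228) (nat_lit 0) (XT.nd (nat_lit 78) (nat_lit 228) (nat_lit 0) (XT.lf (nat_lit 0) (nat_lit 2632327041885) (nat_lit 152) (nat_lit 92869336185) (nat_lit 0) (nat_lit 1018092819022) (nat_lit 38) (nat_lit 5) (nat_lit 40) (nat_lit 4) (nat_lit 38) (nat_lit 4) (nat_lit 506) (nat_lit 462) (nat_lit 232)) (XT.nd (nat_lit 78) (nat_lit 76) (nat_lit 0) (XT.lf (nat_lit 0) (nat_lit 18461651568) (nat_lit 152) (nat_lit 1575833990056) (nat_lit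 76) (nat_lit 2348517764831) (nat_lit 36) (nat_lit 5) (nat_lit 38) (nat_lit 5) (nat_lit 37) (nat_lit 4) (nat_lit 507) (nat_lit 462) (nat_lit 231)) (XT.lf (nat_lit 0) (nat_lit 886210955316) (nat_lit 76) (nat_lit 315926151851) (nat_lit 152) (nat_lit 2951940468065) (nat_lit 35) (nat_lit 5) (nat_lit 36) (nat_lit 5) (nat_lit 37) (nat_lit 4) (nat_lit 508) (nat_lit 462) (nat_lit 230)))) (XT.nd (nat_lit 156) (nat_lit 152) (nat_lit 0) (XT.nd (nat_lit 78) (nat_lit 76) (nat_lit 0) (XT.lf (nat_lit 0) (nat_lit 2550318179481) (nat_lit 152) (nat_lit 770682915922) (nat_lit 0) (nat_lit 1055656855687) (nat_lit 35) (nat_lit 5) (nat_lit 37) (nat_lit 4) (nat_lit 35) (nat_lit 4) (nat_lit 509) (nat_lit 462) (nat_lit 229)) (XT.lf (nat_lit 0) (nat_lit 2019071749613) (nat_lit 76) (nat_lit 2044046582712) (nat_lit 76) (nat_lit 549385257112) (nat_lit 34) (nat_lit 4) (nat_lit 35) (nat_lit 5) (nat_lit 35) (nat_lit 4) (nat_lit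 510) (nat_lit 462) (nat_lit 228))) (XT.nd (nat_lit 78) (nat_lit 0) (nat_lit 0) (XT.lf (nat_lit 0) (nat_lit 199797508939) (nat_lit 76) (nat_lit 614846162315) (nat_lit 152) (nat_lit 4048862870826) (nat_lit 32) (nat_lit 5) (nat_lit 33) (nat_lit 5) (nat_lit 34) (nat_lit 4) (nat_lit 511) (nat_lit 462) (nat_lit 227)) (XT.lf (nat_lit 0) (nat_lit 2353199675912) (nat_lit 152) (nat_lit 1803387607336) (nat_lit 0) (nat_lit 969254001080) (nat_lit 32) (nat_lit 5) (nat_lit 34) (nat_lit 4) (nat_lit 32) (nat_lit 4) (nat_lit 512) (nat_lit 462) (nat_lit 226))))) (XT.nd (nat_lit 234) (nat_lit 228) (nat_lit 0) (XT.nd (nat_lit 78) (nat_lit 152) (nat_lit 0) (XT.lf (nat_lit 0) (nat_lit 1336654360524) (nat_lit 76) (nat_lit 2726302396934) (nat_lit 76) (nat_lit 1342356720775) (nat_lit 31) (nat_lit 4) (nat_lit 32) (nat_lit 5) (nat_lit 32) (nat_lit 4) (nat_lit 513) (nat_lit 462) (nat_lit 225)) (XT.nd (nat_lit 78) (nat_lit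 76) (nat_lit 0) (XT.lf (nat_lit 0) (nat_lit 242817075730) (nat_lit 152) (nat_lit 878886159868) (nat_lit 76) (nat_lit 4581003805839) (nat_lit 30) (nat_lit 5) (nat_lit 32) (nat_lit 5) (nat_lit 31) (nat_lit 4) (nat_lit 514) (nat_lit 462) (nat_lit 224)) (XT.lf (nat_lit 0) (nat_lit 1963634687318) (nat_lit 152) (nat_lit 3368756422957) (nat_lit 0) (nat_lit 682203503499) (nat_lit 29) (nat_lit 5) (nat_lit 31) (nat_lit 4) (nat_lit 29) (nat_lit 4) (nat_lit 515) (nat_lit 462) (nat_lit 223)))) (XT.nd (nat_lit 156) (nat_lit 152) (nat_lit 0) (XT.nd (nat_lit 78) (nat_lit 0) (nat_lit 0) (XT.lf (nat_lit 0) (nat_lit 129743745663) (nat_lit 76) (nat_lit 3749283917309) (nat_lit 76) (nat_lit 2467852732515) (nat_lit 28) (nat_lit 4) (nat_lit 29) (nat_lit 5) (nat_lit 29) (nat_lit 4) (nat_lit 516) (nat_lit 462) (nat_lit 222)) (XT.lf (nat_lit 0) (nat_lit 4099708084719) (nat_lit 76) (nat_lit 1940051759650) (nat_lit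 76) (nat_lit 658620573953) (nat_lit 28) (nat_lit 4) (nat_lit 29) (nat_lit 5) (nat_lit 29) (nat_lit 4) (nat_lit 517) (nat_lit 462) (nat_lit 221))) (XT.nd (nat_lit 78) (nat_lit 0) (nat_lit 0) (XT.lf (nat_lit 0) (nat_lit 1264893235210) (nat_lit 152) (nat_lit 5729484735152) (nat_lit 0) (nat_lit 78382877309) (nat_lit 26) (nat_lit 5) (nat_lit 28) (nat_lit 4) (nat_lit 26) (nat_lit 4) (nat_lit 518) (nat_lit 462) (nat_lit 220)) (XT.lf (nat_lit 0) (nat_lit 3429994304475) (nat_lit 152) (nat_lit 1792381796932) (nat_lit 0) (nat_lit 2243483945857) (nat_lit 26) (nat_lit 5) (nat_lit 28) (nat_lit 4) (nat_lit 26) (nat_lit 4) (nat_lit 519) (nat_lit 462) (nat_lit 219))))))) (XT.nd (nat_lit 1092) (nat_lit 304) (nat_lit 0) (XT.nd (nat_lit 546) (nat_lit 380) (nat_lit 0) (XT.nd (nat_lit 234) (nat_lit 228) (nat_lit 0) (XT.nd (nat_lit 78) (nat_lit 152) (nat_lit 0) (XT.lf (nat_lit 0) (nat_lit 2589212254576) (nat_lit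 76) (nat_lit 3241361819186) (nat_lit 76) (nat_lit 2054851459904) (nat_lit 25) (nat_lit 4) (nat_lit 26) (nat_lit 5) (nat_lit 26) (nat_lit 4) (nat_lit 520) (nat_lit 462) (nat_lit 218)) (XT.nd (nat_lit 78) (nat_lit 76) (nat_lit 0) (XT.lf (nat_lit 0) (nat_lit 130689530189) (nat_lit 152) (nat_lit 914676137102) (nat_lit 76) (nat_lit 7289005352653) (nat_lit 24) (nat_lit 5) (nat_lit 26) (nat_lit 5) (nat_lit 25) (nat_lit 4) (nat_lit 521) (nat_lit 462) (nat_lit 217)) (XT.lf (nat_lit 0) (nat_lit 2511109067586) (nat_lit 152) (nat_lit 4880880843295) (nat_lit 0) (nat_lit 1412488363452) (nat_lit 23) (nat_lit 5) (nat_lit 25) (nat_lit 4) (nat_lit 23) (nat_lit 4) (nat_lit 522) (nat_lit 462) (nat_lit 216)))) (XT.nd (nat_lit 156) (nat_lit 152) (nat_lit 0) (XT.nd (nat_lit 78) (nat_lit 76) (nat_lit 0) (XT.lf (nat_lit 0) (nat_lit 5134772968134) (nat_lit 152) (nat_lit 137044013415) (nat_lit 0) (nat_lit 4036152263512)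 (nat_lit 23) (nat_lit 5) (nat_lit 25) (nat_lit 4) (nat_lit 23) (nat_lit 4) (nat_lit 523) (nat_lit 462) (nat_lit 215)) (XT.lf (nat_lit 0) (nat_lit 5248869467263) (nat_lit 76) (nat_lit 2845695948238) (nat_lit 76) (nat_lit 1747075243164) (nat_lit 22) (nat_lit 4) (nat_lit 23) (nat_lit 5) (nat_lit 23) (nat_lit 4) (nat_lit 524) (nat_lit 462) (nat_lit 214))) (XT.nd (nat_lit 78) (nat_lit 0) (nat_lit 0) (XT.lf (nat_lit 0) (nat_lit 668066974478) (nat_lit 76) (nat_lit 181302102430) (nat_lit 152) (nat_lit 9565363884022) (nat_lit 20) (nat_lit 5) (nat_lit 21) (nat_lit 5) (nat_lit 22) (nat_lit 4) (nat_lit 525) (nat_lit 462) (nat_lit 213)) (XT.lf (nat_lit 0) (nat_lit 3752822392645) (nat_lit 152) (nat_lit 4526144498858) (nat_lit 0) (nat_lit 2735580998313) (nat_lit 20) (nat_lit 5) (nat_lit 22) (nat_lit 4) (nat_lit 20) (nat_lit 4) (nat_lit 526) (nat_lit 462) (nat_lit 212))))) (XT.nd (nat_lit 234) (nat_lit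 152) (nat_lit 0) (XT.nd (nat_lit 78) (nat_lit 152) (nat_lit 0) (XT.lf (nat_lit 0) (nat_lit 1165618517167) (nat_lit 76) (nat_lit 5755675753379) (nat_lit 76) (nat_lit 4738434358714) (nat_lit 19) (nat_lit 4) (nat_lit 20) (nat_lit 5) (nat_lit 20) (nat_lit 4) (nat_lit 527) (nat_lit 462) (nat_lit 211)) (XT.nd (nat_lit 78) (nat_lit 152) (nat_lit 0) (XT.lf (nat_lit 0) (nat_lit 7570128418665) (nat_lit 76) (nat_lit 2896868289696) (nat_lit 76) (nat_lit 1879626894724) (nat_lit 19) (nat_lit 4) (nat_lit 20) (nat_lit 5) (nat_lit 20) (nat_lit 4) (nat_lit 528) (nat_lit 462) (nat_lit 210)) (XT.lf (nat_lit 0) (nat_lit 1188372270645) (nat_lit 152) (nat_lit 11648019007956) (nat_lit 0) (nat_lit 246482089852) (nat_lit 17) (nat_lit 5) (nat_lit 19) (nat_lit 4) (nat_lit 17) (nat_lit 4) (nat_lit 529) (nat_lit 462) (nat_lit 209)))) (XT.nd (nat_lit 156) (nat_lit 76) (nat_lit 0) (XT.nd (nat_lit 78) (nat_lit 76) (nat_lit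 0) (XT.lf (nat_lit 0) (nat_lit 4609496020602) (nat_lit 152) (nat_lit 5580276870647) (nat_lit 0) (nat_lit 3667605839565) (nat_lit 17) (nat_lit 5) (nat_lit 19) (nat_lit 4) (nat_lit 17) (nat_lit 4) (nat_lit 530) (nat_lit 462) (nat_lit 208)) (XT.lf (nat_lit 0) (nat_lit 1024115014887) (nat_lit 76) (nat_lit 7304824644709) (nat_lit 76) (nat_lit 6362934463446) (nat_lit 16) (nat_lit 4) (nat_lit 17) (nat_lit 5) (nat_lit 17) (nat_lit 4) (nat_lit 531) (nat_lit 462) (nat_lit 207))) (XT.nd (nat_lit 78) (nat_lit 76) (nat_lit 0) (XT.lf (nat_lit 0) (nat_lit 8474213538044) (nat_lit 76) (nat_lit 4024299908754) (nat_lit 76) (nat_lit 3082409727282) (nat_lit 16) (nat_lit 4) (nat_lit 17) (nat_lit 5) (nat_lit 17) (nat_lit 4) (nat_lit 532) (nat_lit 462) (nat_lit 206)) (XT.lf (nat_lit 0) (nat_lit 437518060408) (nat_lit 152) (nat_lit 31852616016) (nat_lit 76) (nat_lit 16070839360373) (nat_lit 15) (nat_lit 5) (nat_lit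 17) (nat_lit 5) (nat_lit 16) (nat_lit 4) (nat_lit 533) (nat_lit 462) (nat_lit 205)))))) (XT.nd (nat_lit 57096) (nat_lit 0) (nat_lit 5396) (XT.nd (nat_lit 234) (nat_lit 152) (nat_lit 0) (XT.nd (nat_lit 78) (nat_lit 76) (nat_lit 0) (XT.lf (nat_lit 0) (nat_lit 4351193510766) (nat_lit 152) (nat_lit 9717273668319) (nat_lit 0) (nat_lit 3479072972020) (nat_lit 14) (nat_lit 5) (nat_lit 16) (nat_lit 4) (nat_lit 14) (nat_lit 4) (nat_lit 534) (nat_lit 462) (nat_lit 204)) (XT.nd (nat_lit 78) (nat_lit 76) (nat_lit 0) (XT.lf (nat_lit 0) (nat_lit 8591047969770) (nat_lit 152) (nat_lit 2324434476106) (nat_lit 0) (nat_lit 7718927430871) (nat_lit 14) (nat_lit 5) (nat_lit 16) (nat_lit 4) (nat_lit 14) (nat_lit 4) (nat_lit 535) (nat_lit 462) (nat_lit 203)) (XT.lf (nat_lit 0) (nat_lit 5957868563778) (nat_lit 76) (nat_lit 7355509102617) (nat_lit 76) (nat_lit 6483388563574) (nat_lit 13) (nat_lit 4) (nat_lit 14)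 (nat_lit 5) (nat_lit 14) (nat_lit 4) (nat_lit 536) (nat_lit 462) (nat_lit 202)))) (XT.nd (nat_lit 56706) (nat_lit 0) (nat_lit 6232) (XT.nd (nat_lit 78) (nat_lit 152) (nat_lit 0) (XT.lf (nat_lit 0) (nat_lit 15034948492432) (nat_lit 76) (nat_lit 3442099402835) (nat_lit 76) (nat_lit 2569978863661) (nat_lit 13) (nat_lit 4) (nat_lit 14) (nat_lit 5) (nat_lit 14) (nat_lit 4) (nat_lit 537) (nat_lit 462) (nat_lit 201)) (XT.lf (nat_lit 0) (nat_lit 1655902677266) (nat_lit 152) (nat_lit 19883253550633) (nat_lit 0) (nat_lit 848383659399) (nat_lit 11) (nat_lit 5) (nat_lit 13) (nat_lit 4) (nat_lit 11) (nat_lit 4) (nat_lit 538) (nat_lit 462) (nat_lit 200))) (XT.nd (nat_lit 78) (nat_lit 0) (nat_lit 0) (XT.lf (nat_lit 0) (nat_lit 255509460141) (nat_lit 532) (nat_lit 1704958835) (nat_lit 532) (nat_lit 1704958835) (nat_lit 93) (nat_lit 3) (nat_lit 100) (nat_lit 3) (nat_lit 100) (nat_lit 5) (nat_lit 463) (nat_lit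 463) (nat_lit 274)) (XT.lf (nat_lit 76) (nat_lit 267874436832) (nat_lit 0) (nat_lit 270027857347) (nat_lit 532) (nat_lit 134602273) (nat_lit 94) (nat_lit 5) (nat_lit 93) (nat_lit 3) (nat_lit 100) (nat_lit 5) (nat_lit 464) (nat_lit 463) (nat_lit 273))))) (XT.nd (nat_lit 312) (nat_lit 304) (nat_lit 0) (XT.nd (nat_lit 156) (nat_lit 0) (nat_lit 76) (XT.nd (nat_lit 78) (nat_lit 0) (nat_lit 76) (XT.lf (nat_lit 76) (nat_lit 1093915695) (nat_lit 0) (nat_lit 5759030420) (nat_lit 608) (nat_lit 552974554852) (nat_lit 87) (nat_lit 5) (nat_lit 86) (nat_lit 5) (nat_lit 94) (nat_lit 5) (nat_lit 465) (nat_lit 463) (nat_lit 272)) (XT.lf (nat_lit 0) (nat_lit 28696407859) (nat_lit 532) (nat_lit 280276232315) (nat_lit 608) (nat_lit 273244099457) (nat_lit 87) (nat_lit 5) (nat_lit 94) (nat_lit 5) (nat_lit 95) (nat_lit 5) (nat_lit 466) (nat_lit 463) (nat_lit 271))) (XT.nd (nat_lit 78) (nat_lit 0) (nat_lit 76)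 (XT.lf (nat_lit 76) (nat_lit 21377497862) (nat_lit 0) (nat_lit 31573542542) (nat_lit 608) (nat_lit 553392981478) (nat_lit 88) (nat_lit 5) (nat_lit 87) (nat_lit 5) (nat_lit 95) (nat_lit 5) (nat_lit 467) (nat_lit 463) (nat_lit 270)) (XT.lf (nat_lit 0) (nat_lit 93454145398) (nat_lit 532) (nat_lit 275330231147) (nat_lit 608) (nat_lit 262472462024) (nat_lit 88) (nat_lit 5) (nat_lit 95) (nat_lit 5) (nat_lit 96) (nat_lit 5) (nat_lit 468) (nat_lit 463) (nat_lit 269)))) (XT.nd (nat_lit 156) (nat_lit 456) (nat_lit 0) (XT.nd (nat_lit 78) (nat_lit 0) (nat_lit 76) (XT.lf (nat_lit 76) (nat_lit 61324561109) (nat_lit 0) (nat_lit 78167868924) (nat_lit 608) (nat_lit 518486656059) (nat_lit 89) (nat_lit 5) (nat_lit 88) (nat_lit 5) (nat_lit 96) (nat_lit 5) (nat_lit 469) (nat_lit 463) (nat_lit 268)) (XT.lf (nat_lit 0) (nat_lit 202605851467) (nat_lit 532) (nat_lit 251530951614) (nat_lit 76) (nat_lit 231630944416)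 (nat_lit 89) (nat_lit 5) (nat_lit 96) (nat_lit 5) (nat_lit 90) (nat_lit 5) (nat_lit 470) (nat_lit 463) (nat_lit 267))) (XT.nd (nat_lit 78) (nat_lit 0) (nat_lit 0) (XT.lf (nat_lit 0) (nat_lit 125447553245) (nat_lit 532) (nat_lit 150368128648) (nat_lit 608) (nat_lit 439560033101) (nat_lit 82) (nat_lit 5) (nat_lit 89) (nat_lit 5) (nat_lit 90) (nat_lit 5) (nat_lit 471) (nat_lit 463) (nat_lit 266)) (XT.lf (nat_lit 0) (nat_lit 366211955442) (nat_lit 608) (nat_lit 204365394318) (nat_lit 76) (nat_lit 175868597597) (nat_lit 82) (nat_lit 5) (nat_lit 90) (nat_lit 5) (nat_lit 83) (nat_lit 5) (nat_lit 472) (nat_lit 463) (nat_lit 265))))))))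
noncomputable def xc215 : XT := (XT.nd (nat_lit 2184) (nat_lit 1900) (nat_lit 0) (XT.nd (nat_lit 1092) (nat_lit 1216) (nat_lit 0) (XT.nd (nat_lit 546) (nat_lit 684) (nat_lit 0) (XT.nd (nat_lit 234) (nat_lit 532) (nat_lit 0) (XT.nd (nat_lit 78) (nat_lit 228) (nat_lit 0) (XT.lf (nat_lit 0) (nat_lit 219096824889) (nat_lit 228) (nat_lit 253918041842) (nat_lit 304) (nat_lit 306252936713) (nat_lit 79) (nat_lit 5) (nat_lit 82) (nat_lit 5) (nat_lit 83) (nat_lit 5) (nat_lit 473) (nat_lit 463) (nat_lit 264)) (XT.nd (nat_lit 78) (nat_lit 228) (nat_lit 0) (XT.lf (nat_lit 0) (nat_lit 596213027346) (nat_lit 304) (nat_lit 128473260934) (nat_lit 76) (nat_lit 89401038423) (nat_lit 79) (nat_lit 5) (nat_lit 83) (nat_lit 5) (nat_lit 80) (nat_lit 5) (nat_lit 474) (nat_lit 463) (nat_lit 263)) (XT.lf (nat_lit 0) (nat_lit 348603547584) (nat_lit 228) (nat_lit 395642678634) (nat_lit 304) (nat_lit 106247850776) (nat_lit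 76) (nat_lit 5) (nat_lit 79) (nat_lit 5) (nat_lit 80) (nat_lit 5) (nat_lit 475) (nat_lit 463) (nat_lit 262)))) (XT.nd (nat_lit 156) (nat_lit 228) (nat_lit 0) (XT.nd (nat_lit 78) (nat_lit 228) (nat_lit 0) (XT.lf (nat_lit 0) (nat_lit 17196847283) (nat_lit 304) (nat_lit 18814841198) (nat_lit 76) (nat_lit 853485835761) (nat_lit 75) (nat_lit 5) (nat_lit 79) (nat_lit 5) (nat_lit 76) (nat_lit 5) (nat_lit 476) (nat_lit 463) (nat_lit 261)) (XT.lf (nat_lit 0) (nat_lit 166314465842) (nat_lit 304) (nat_lit 412778991866) (nat_lit 76) (nat_lit 350584015747) (nat_lit 72) (nat_lit 5) (nat_lit 76) (nat_lit 5) (nat_lit 73) (nat_lit 5) (nat_lit 477) (nat_lit 463) (nat_lit 260))) (XT.nd (nat_lit 78) (nat_lit 0) (nat_lit 0) (XT.lf (nat_lit 0) (nat_lit 129013243692) (nat_lit 228) (nat_lit 202914172766) (nat_lit 304) (nat_lit 640779128343) (nat_lit 69) (nat_lit 5) (nat_lit 72) (nat_lit 5) (nat_lit 73) (nat_lit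 5) (nat_lit 478) (nat_lit 463) (nat_lit 259)) (XT.lf (nat_lit 0) (nat_lit 527259447605) (nat_lit 304) (nat_lit 285835047521) (nat_lit 76) (nat_lit 204765843170) (nat_lit 69) (nat_lit 5) (nat_lit 73) (nat_lit 5) (nat_lit 70) (nat_lit 5) (nat_lit 479) (nat_lit 463) (nat_lit 258))))) (XT.nd (nat_lit 234) (nat_lit 304) (nat_lit 0) (XT.nd (nat_lit 78) (nat_lit 228) (nat_lit 0) (XT.lf (nat_lit 0) (nat_lit 327778145717) (nat_lit 152) (nat_lit 423593456419) (nat_lit 228) (nat_lit 314202548264) (nat_lit 67) (nat_lit 5) (nat_lit 69) (nat_lit 5) (nat_lit 70) (nat_lit 5) (nat_lit 480) (nat_lit 463) (nat_lit 257)) (XT.nd (nat_lit 78) (nat_lit 228) (nat_lit 0) (XT.lf (nat_lit 0) (nat_lit 1001360427131) (nat_lit 228) (nat_lit 109876245441) (nat_lit 76) (nat_lit 5232579052) (nat_lit 67) (nat_lit 5) (nat_lit 70) (nat_lit 5) (nat_lit 68) (nat_lit 5) (nat_lit 481) (nat_lit 463) (nat_lit 256)) (XT.lf (nat_lit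 0) (nat_lit 120677236923) (nat_lit 228) (nat_lit 585862479294) (nat_lit 76) (nat_lit 462642984087) (nat_lit 64) (nat_lit 5) (nat_lit 67) (nat_lit 5) (nat_lit 65) (nat_lit 5) (nat_lit 482) (nat_lit 463) (nat_lit 255)))) (XT.nd (nat_lit 156) (nat_lit 152) (nat_lit 0) (XT.nd (nat_lit 78) (nat_lit 0) (nat_lit 0) (XT.lf (nat_lit 0) (nat_lit 115034904557) (nat_lit 152) (nat_lit 259921238997) (nat_lit 228) (nat_lit 850449988023) (nat_lit 62) (nat_lit 5) (nat_lit 64) (nat_lit 5) (nat_lit 65) (nat_lit 5) (nat_lit 483) (nat_lit 463) (nat_lit 254)) (XT.lf (nat_lit 0) (nat_lit 671361306363) (nat_lit 228) (nat_lit 385288804405) (nat_lit 76) (nat_lit 227734611094) (nat_lit 62) (nat_lit 5) (nat_lit 65) (nat_lit 5) (nat_lit 63) (nat_lit 5) (nat_lit 484) (nat_lit 463) (nat_lit 253))) (XT.nd (nat_lit 78) (nat_lit 0) (nat_lit 0) (XT.lf (nat_lit 0) (nat_lit 411640946582) (nat_lit 152) (nat_lit 596489103823)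 (nat_lit 228) (nat_lit 338619455507) (nat_lit 60) (nat_lit 5) (nat_lit 62) (nat_lit 5) (nat_lit 63) (nat_lit 5) (nat_lit 485) (nat_lit 463) (nat_lit 252)) (XT.lf (nat_lit 0) (nat_lit 1294236781920) (nat_lit 152) (nat_lit 88137983563) (nat_lit 228) (nat_lit 30885949484) (nat_lit 60) (nat_lit 5) (nat_lit 62) (nat_lit 5) (nat_lit 63) (nat_lit 5) (nat_lit 486) (nat_lit 463) (nat_lit 251)))))) (XT.nd (nat_lit 546) (nat_lit 532) (nat_lit 0) (XT.nd (nat_lit 234) (nat_lit 380) (nat_lit 0) (XT.nd (nat_lit 78) (nat_lit 152) (nat_lit 0) (XT.lf (nat_lit 0) (nat_lit 317271105076) (nat_lit 152) (nat_lit 699893279966) (nat_lit 76) (nat_lit 464877579670) (nat_lit 58) (nat_lit 5) (nat_lit 60) (nat_lit 5) (nat_lit 59) (nat_lit 5) (nat_lit 487) (nat_lit 463) (nat_lit 250)) (XT.nd (nat_lit 78) (nat_lit 0) (nat_lit 0) (XT.lf (nat_lit 0) (nat_lit 213629271705) (nat_lit 152) (nat_lit 488748742694) (nat_lit 228)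 (nat_lit 853022246728) (nat_lit 56) (nat_lit 5) (nat_lit 58) (nat_lit 5) (nat_lit 59) (nat_lit 5) (nat_lit 488) (nat_lit 463) (nat_lit 249)) (XT.lf (nat_lit 0) (nat_lit 1139897502454) (nat_lit 228) (nat_lit 395526858119) (nat_lit 76) (nat_lit 97474538606) (nat_lit 56) (nat_lit 5) (nat_lit 59) (nat_lit 5) (nat_lit 57) (nat_lit 4) (nat_lit 489) (nat_lit 463) (nat_lit 248)))) (XT.nd (nat_lit 156) (nat_lit 228) (nat_lit 0) (XT.nd (nat_lit 78) (nat_lit 76) (nat_lit 0) (XT.lf (nat_lit 0) (nat_lit 646039534761) (nat_lit 76) (nat_lit 994611047611) (nat_lit 152) (nat_lit 73688283277) (nat_lit 55) (nat_lit 5) (nat_lit 56) (nat_lit 5) (nat_lit 57) (nat_lit 4) (nat_lit 490) (nat_lit 463) (nat_lit 247)) (XT.lf (nat_lit 0) (nat_lit 371297559105) (nat_lit 152) (nat_lit 17403623863) (nat_lit 76) (nat_lit 1411975699462) (nat_lit 54) (nat_lit 5) (nat_lit 56) (nat_lit 5) (nat_lit 55) (nat_lit 5) (nat_lit 491)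 (nat_lit 463) (nat_lit 246))) (XT.nd (nat_lit 78) (nat_lit 76) (nat_lit 0) (XT.lf (nat_lit 0) (nat_lit 883318457050) (nat_lit 228) (nat_lit 724284368948) (nat_lit 76) (nat_lit 283332614490) (nat_lit 52) (nat_lit 5) (nat_lit 55) (nat_lit 5) (nat_lit 53) (nat_lit 4) (nat_lit 492) (nat_lit 463) (nat_lit 245)) (XT.lf (nat_lit 0) (nat_lit 471522234390) (nat_lit 76) (nat_lit 986703248213) (nat_lit 152) (nat_lit 528435244125) (nat_lit 51) (nat_lit 5) (nat_lit 52) (nat_lit 5) (nat_lit 53) (nat_lit 4) (nat_lit 493) (nat_lit 463) (nat_lit 244))))) (XT.nd (nat_lit 234) (nat_lit 228) (nat_lit 0) (XT.nd (nat_lit 78) (nat_lit 228) (nat_lit 0) (XT.lf (nat_lit 0) (nat_lit 9944827270) (nat_lit 152) (nat_lit 284527496303) (nat_lit 76) (nat_lit 1793967313842) (nat_lit 50) (nat_lit 5) (nat_lit 52) (nat_lit 5) (nat_lit 51) (nat_lit 5) (nat_lit 494) (nat_lit 463) (nat_lit 243)) (XT.nd (nat_lit 78) (nat_lit 76)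 (nat_lit 0) (XT.lf (nat_lit 0) (nat_lit 600874738941) (nat_lit 228) (nat_lit 1122020160525) (nat_lit 76) (nat_lit 471325621164) (nat_lit 48) (nat_lit 5) (nat_lit 51) (nat_lit 5) (nat_lit 49) (nat_lit 4) (nat_lit 495) (nat_lit 463) (nat_lit 242)) (XT.lf (nat_lit 0) (nat_lit 250485872557) (nat_lit 76) (nat_lit 1010247539602) (nat_lit 152) (nat_lit 1045998112853) (nat_lit 47) (nat_lit 5) (nat_lit 48) (nat_lit 5) (nat_lit 49) (nat_lit 4) (nat_lit 496) (nat_lit 463) (nat_lit 241)))) (XT.nd (nat_lit 156) (nat_lit 76) (nat_lit 0) (XT.nd (nat_lit 78) (nat_lit 152) (nat_lit 0) (XT.lf (nat_lit 0) (nat_lit 1796602660100) (nat_lit 76) (nat_lit 207456133896) (nat_lit 152) (nat_lit 421730374568) (nat_lit 47) (nat_lit 5) (nat_lit 48) (nat_lit 5) (nat_lit 49) (nat_lit 4) (nat_lit 497) (nat_lit 463) (nat_lit 240)) (XT.lf (nat_lit 0) (nat_lit 279400448702) (nat_lit 152) (nat_lit 1614994879288) (nat_lit 76)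 (nat_lit 656326191772) (nat_lit 45) (nat_lit 5) (nat_lit 47) (nat_lit 5) (nat_lit 46) (nat_lit 4) (nat_lit 498) (nat_lit 463) (nat_lit 239))) (XT.nd (nat_lit 78) (nat_lit 76) (nat_lit 0) (XT.lf (nat_lit 0) (nat_lit 1036875717304) (nat_lit 152) (nat_lit 39446325897) (nat_lit 76) (nat_lit 1606607023101) (nat_lit 45) (nat_lit 5) (nat_lit 47) (nat_lit 5) (nat_lit 46) (nat_lit 4) (nat_lit 499) (nat_lit 463) (nat_lit 238)) (XT.lf (nat_lit 0) (nat_lit 1749671772111) (nat_lit 76) (nat_lit 147356879288) (nat_lit 152) (nat_lit 925318193645) (nat_lit 44) (nat_lit 5) (nat_lit 45) (nat_lit 5) (nat_lit 46) (nat_lit 4) (nat_lit 500) (nat_lit 463) (nat_lit 237))))))) (XT.nd (nat_lit 1092) (nat_lit 912) (nat_lit 0) (XT.nd (nat_lit 546) (nat_lit 532) (nat_lit 0) (XT.nd (nat_lit 234) (nat_lit 228) (nat_lit 0) (XT.nd (nat_lit 78) (nat_lit 152) (nat_lit 0) (XT.lf (nat_lit 0) (nat_lit 727089829394) (nat_lit 76)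 (nat_lit 2138082089646) (nat_lit 76) (nat_lit 104611879140) (nat_lit 43) (nat_lit 4) (nat_lit 44) (nat_lit 5) (nat_lit 44) (nat_lit 4) (nat_lit 501) (nat_lit 463) (nat_lit 236)) (XT.nd (nat_lit 78) (nat_lit 76) (nat_lit 0) (XT.lf (nat_lit 0) (nat_lit 776562665062) (nat_lit 152) (nat_lit 418219871072) (nat_lit 76) (nat_lit 1930015635305) (nat_lit 42) (nat_lit 5) (nat_lit 44) (nat_lit 5) (nat_lit 43) (nat_lit 4) (nat_lit 502) (nat_lit 463) (nat_lit 235)) (XT.lf (nat_lit 0) (nat_lit 1631088613834) (nat_lit 76) (nat_lit 130718516860) (nat_lit 152) (nat_lit 1527050971207) (nat_lit 41) (nat_lit 5) (nat_lit 42) (nat_lit 5) (nat_lit 43) (nat_lit 4) (nat_lit 503) (nat_lit 463) (nat_lit 234)))) (XT.nd (nat_lit 156) (nat_lit 76) (nat_lit 0) (XT.nd (nat_lit 78) (nat_lit 76) (nat_lit 0) (XT.lf (nat_lit 0) (nat_lit 398122726272) (nat_lit 76) (nat_lit 2473549409740) (nat_lit 76) (nat_lit 590706612192)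 (nat_lit 40) (nat_lit 4) (nat_lit 41) (nat_lit 5) (nat_lit 41) (nat_lit 4) (nat_lit 504) (nat_lit 463) (nat_lit 233)) (XT.lf (nat_lit 0) (nat_lit 449406862562) (nat_lit 152) (nat_lit 948076526281) (nat_lit 76) (nat_lit 2247496611737) (nat_lit 39) (nat_lit 5) (nat_lit 41) (nat_lit 5) (nat_lit 40) (nat_lit 4) (nat_lit 505) (nat_lit 463) (nat_lit 232))) (XT.nd (nat_lit 78) (nat_lit 0) (nat_lit 0) (XT.lf (nat_lit 0) (nat_lit 1391671329473) (nat_lit 76) (nat_lit 182614311169) (nat_lit 152) (nat_lit 2263998692159) (nat_lit 38) (nat_lit 5) (nat_lit 39) (nat_lit 5) (nat_lit 40) (nat_lit 4) (nat_lit 506) (nat_lit 463) (nat_lit 231)) (XT.lf (nat_lit 0) (nat_lit 2842913273346) (nat_lit 152) (nat_lit 100298748791) (nat_lit 0) (nat_lit 1099540305272) (nat_lit 38) (nat_lit 5) (nat_lit 40) (nat_lit 4) (nat_lit 38) (nat_lit 4) (nat_lit 507) (nat_lit 463) (nat_lit 230))))) (XT.nd (nat_lit 234) (nat_lit 304)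 (nat_lit 0) (XT.nd (nat_lit 78) (nat_lit 76) (nat_lit 0) (XT.lf (nat_lit 0) (nat_lit 19938651627) (nat_lit 152) (nat_lit 1701900574794) (nat_lit 76) (nat_lit 2536399247116) (nat_lit 36) (nat_lit 5) (nat_lit 38) (nat_lit 5) (nat_lit 37) (nat_lit 4) (nat_lit 508) (nat_lit 463) (nat_lit 229)) (XT.nd (nat_lit 78) (nat_lit 0) (nat_lit 0) (XT.lf (nat_lit 0) (nat_lit 957107962804) (nat_lit 76) (nat_lit 341200178990) (nat_lit 152) (nat_lit 3188095634172) (nat_lit 35) (nat_lit 5) (nat_lit 36) (nat_lit 5) (nat_lit 37) (nat_lit 4) (nat_lit 509) (nat_lit 463) (nat_lit 228)) (XT.lf (nat_lit 0) (nat_lit 2754343696448) (nat_lit 152) (nat_lit 832337424396) (nat_lit 0) (nat_lit 1140109461324) (nat_lit 35) (nat_lit 5) (nat_lit 37) (nat_lit 4) (nat_lit 35) (nat_lit 4) (nat_lit 510) (nat_lit 463) (nat_lit 227)))) (XT.nd (nat_lit 156) (nat_lit 76) (nat_lit 0) (XT.nd (nat_lit 78) (nat_lit 152) (nat_lit 0) (XT.lf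 (nat_lit 0) (nat_lit 2180597611223) (nat_lit 76) (nat_lit 2207570248584) (nat_lit 76) (nat_lit 593336011912) (nat_lit 34) (nat_lit 4) (nat_lit 35) (nat_lit 5) (nat_lit 35) (nat_lit 4) (nat_lit 511) (nat_lit 463) (nat_lit 226)) (XT.lf (nat_lit 0) (nat_lit 215781431423) (nat_lit 76) (nat_lit 664033794311) (nat_lit 152) (nat_lit 4372771834850) (nat_lit 32) (nat_lit 5) (nat_lit 33) (nat_lit 5) (nat_lit 34) (nat_lit 4) (nat_lit 512) (nat_lit 463) (nat_lit 225))) (XT.nd (nat_lit 78) (nat_lit 76) (nat_lit 0) (XT.lf (nat_lit 0) (nat_lit 2541455707620) (nat_lit 152) (nat_lit 1947658500029) (nat_lit 0) (nat_lit 1046794374814) (nat_lit 32) (nat_lit 5) (nat_lit 34) (nat_lit 4) (nat_lit 32) (nat_lit 4) (nat_lit 513) (nat_lit 463) (nat_lit 224)) (XT.lf (nat_lit 0) (nat_lit 1443586822326) (nat_lit 76) (nat_lit 2944406531812) (nat_lit 76) (nat_lit 1449745197868) (nat_lit 31) (nat_lit 4) (nat_lit 32) (nat_lit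 5) (nat_lit 32) (nat_lit 4) (nat_lit 514) (nat_lit 463) (nat_lit 223)))))) (XT.nd (nat_lit 546) (nat_lit 456) (nat_lit 0) (XT.nd (nat_lit 234) (nat_lit 228) (nat_lit 0) (XT.nd (nat_lit 78) (nat_lit 152) (nat_lit 0) (XT.lf (nat_lit 0) (nat_lit 262242495066) (nat_lit 152) (nat_lit 949196945259) (nat_lit 76) (nat_lit 4947484160164) (nat_lit 30) (nat_lit 5) (nat_lit 32) (nat_lit 5) (nat_lit 31) (nat_lit 4) (nat_lit 515) (nat_lit 463) (nat_lit 222)) (XT.nd (nat_lit 78) (nat_lit 76) (nat_lit 0) (XT.lf (nat_lit 0) (nat_lit 2120725515422) (nat_lit 152) (nat_lit 3638256829237) (nat_lit 0) (nat_lit 736779833967) (nat_lit 29) (nat_lit 5) (nat_lit 31) (nat_lit 4) (nat_lit 29) (nat_lit 4) (nat_lit 516) (nat_lit 463) (nat_lit 221)) (XT.lf (nat_lit 0) (nat_lit 140123350151) (nat_lit 76) (nat_lit 4049226577565) (nat_lit 76) (nat_lit 2665280895273) (nat_lit 28) (nat_lit 4) (nat_lit 29) (nat_lit 5) (nat_lit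 29) (nat_lit 4) (nat_lit 517) (nat_lit 463) (nat_lit 220)))) (XT.nd (nat_lit 156) (nat_lit 76) (nat_lit 0) (XT.nd (nat_lit 78) (nat_lit 152) (nat_lit 0) (XT.lf (nat_lit 0) (nat_lit 4427684828565) (nat_lit 76) (nat_lit 2095255851229) (nat_lit 76) (nat_lit 711310168163) (nat_lit 28) (nat_lit 4) (nat_lit 29) (nat_lit 5) (nat_lit 29) (nat_lit 4) (nat_lit 518) (nat_lit 463) (nat_lit 219)) (XT.lf (nat_lit 0) (nat_lit 1366084743030) (nat_lit 152) (nat_lit 6187843414192) (nat_lit 0) (nat_lit 84653554342) (nat_lit 26) (nat_lit 5) (nat_lit 28) (nat_lit 4) (nat_lit 26) (nat_lit 4) (nat_lit 519) (nat_lit 463) (nat_lit 218))) (XT.nd (nat_lit 78) (nat_lit 76) (nat_lit 0) (XT.lf (nat_lit 0) (nat_lit 3704393894206) (nat_lit 152) (nat_lit 1935772248305) (nat_lit 0) (nat_lit 2422962704904) (nat_lit 26) (nat_lit 5) (nat_lit 28) (nat_lit 4) (nat_lit 26) (nat_lit 4) (nat_lit 520) (nat_lit 463) (nat_lit 217))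 (XT.lf (nat_lit 0) (nat_lit 2796349324985) (nat_lit 76) (nat_lit 3500670718855) (nat_lit 76) (nat_lit 2219239528984) (nat_lit 25) (nat_lit 4) (nat_lit 26) (nat_lit 5) (nat_lit 26) (nat_lit 4) (nat_lit 521) (nat_lit 463) (nat_lit 216))))) (XT.nd (nat_lit 312) (nat_lit 228) (nat_lit 0) (XT.nd (nat_lit 156) (nat_lit 76) (nat_lit 0) (XT.nd (nat_lit 78) (nat_lit 76) (nat_lit 0) (XT.lf (nat_lit 0) (nat_lit 141144734572) (nat_lit 152) (nat_lit 987850142487) (nat_lit 76) (nat_lit 7872125821123) (nat_lit 24) (nat_lit 5) (nat_lit 26) (nat_lit 5) (nat_lit 25) (nat_lit 4) (nat_lit 522) (nat_lit 463) (nat_lit 215)) (XT.lf (nat_lit 0) (nat_lit 2711997834882) (nat_lit 152) (nat_lit 5271351225095) (nat_lit 0) (nat_lit 1525487472951) (nat_lit 23) (nat_lit 5) (nat_lit 25) (nat_lit 4) (nat_lit 23) (nat_lit 4) (nat_lit 523) (nat_lit 463) (nat_lit 214))) (XT.nd (nat_lit 78) (nat_lit 76) (nat_lit 0) (XT.lf (nat_lit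 0) (nat_lit 5545554844371) (nat_lit 152) (nat_lit 148007455171) (nat_lit 0) (nat_lit 4359044482021) (nat_lit 23) (nat_lit 5) (nat_lit 25) (nat_lit 4) (nat_lit 23) (nat_lit 4) (nat_lit 524) (nat_lit 463) (nat_lit 213)) (XT.lf (nat_lit 0) (nat_lit 5668779101953) (nat_lit 76) (nat_lit 3073351584560) (nat_lit 76) (nat_lit 1886841221823) (nat_lit 22) (nat_lit 4) (nat_lit 23) (nat_lit 5) (nat_lit 23) (nat_lit 4) (nat_lit 525) (nat_lit 463) (nat_lit 212)))) (XT.nd (nat_lit 156) (nat_lit 76) (nat_lit 0) (XT.nd (nat_lit 78) (nat_lit 0) (nat_lit 0) (XT.lf (nat_lit 0) (nat_lit 721512409778) (nat_lit 76) (nat_lit 195806231026) (nat_lit 152) (nat_lit 10330592953981) (nat_lit 20) (nat_lit 5) (nat_lit 21) (nat_lit 5) (nat_lit 22) (nat_lit 4) (nat_lit 526) (nat_lit 463) (nat_lit 211)) (XT.lf (nat_lit 0) (nat_lit 4053048219886) (nat_lit 152) (nat_lit 4888235985240) (nat_lit 0) (nat_lit 2954427513009) (nat_lit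 20) (nat_lit 5) (nat_lit 22) (nat_lit 4) (nat_lit 20) (nat_lit 4) (nat_lit 527) (nat_lit 463) (nat_lit 210))) (XT.nd (nat_lit 78) (nat_lit 0) (nat_lit 0) (XT.lf (nat_lit 0) (nat_lit 1258868070205) (nat_lit 76) (nat_lit 6216129776883) (nat_lit 76) (nat_lit 5117509069721) (nat_lit 19) (nat_lit 4) (nat_lit 20) (nat_lit 5) (nat_lit 20) (nat_lit 4) (nat_lit 528) (nat_lit 463) (nat_lit 209)) (XT.lf (nat_lit 0) (nat_lit 8175738758515) (nat_lit 76) (nat_lit 3128617718829) (nat_lit 76) (nat_lit 2029997011403) (nat_lit 19) (nat_lit 4) (nat_lit 20) (nat_lit 5) (nat_lit 20) (nat_lit 4) (nat_lit 529) (nat_lit 463) (nat_lit 208))))))))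
noncomputable def xc216 : XT := (XT.nd (nat_lit 58812) (nat_lit 0) (nat_lit 1672) (XT.nd (nat_lit 57720) (nat_lit 0) (nat_lit 4104) (XT.nd (nat_lit 546) (nat_lit 76) (nat_lit 0) (XT.nd (nat_lit 234) (nat_lit 152) (nat_lit 0) (XT.nd (nat_lit 78) (nat_lit 76) (nat_lit 0) (XT.lf (nat_lit 0) (nat_lit 1283442085410) (nat_lit 152) (nat_lit 12579860460450) (nat_lit 0) (nat_lit 266200689419) (nat_lit 17) (nat_lit 5) (nat_lit 19) (nat_lit 4) (nat_lit 17) (nat_lit 4) (nat_lit 530) (nat_lit 463) (nat_lit 207)) (XT.nd (nat_lit 78) (nat_lit 76) (nat_lit 0) (XT.lf (nat_lit 0) (nat_lit 4978255732911) (nat_lit 152) (nat_lit 6026698957205) (nat_lit 0) (nat_lit 3961014336711) (nat_lit 17) (nat_lit 5) (nat_lit 19) (nat_lit 4) (nat_lit 17) (nat_lit 4) (nat_lit 531) (nat_lit 463) (nat_lit 206)) (XT.lf (nat_lit 0) (nat_lit 1106044277576) (nat_lit 76) (nat_lit 7889210584657) (nat_lit 76) (nat_lit 6871969188263)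 (nat_lit 16) (nat_lit 4) (nat_lit 17) (nat_lit 5) (nat_lit 17) (nat_lit 4) (nat_lit 532) (nat_lit 463) (nat_lit 205)))) (XT.nd (nat_lit 156) (nat_lit 76) (nat_lit 0) (XT.nd (nat_lit 78) (nat_lit 76) (nat_lit 0) (XT.lf (nat_lit 0) (nat_lit 9152150678030) (nat_lit 76) (nat_lit 4346243872169) (nat_lit 76) (nat_lit 3329002475596) (nat_lit 16) (nat_lit 4) (nat_lit 17) (nat_lit 5) (nat_lit 17) (nat_lit 4) (nat_lit 533) (nat_lit 463) (nat_lit 204)) (XT.lf (nat_lit 0) (nat_lit 472519531513) (nat_lit 152) (nat_lit 34400771190) (nat_lit 76) (nat_lit 17356506534936) (nat_lit 15) (nat_lit 5) (nat_lit 17) (nat_lit 5) (nat_lit 16) (nat_lit 4) (nat_lit 534) (nat_lit 463) (nat_lit 203))) (XT.nd (nat_lit 78) (nat_lit 0) (nat_lit 0) (XT.lf (nat_lit 0) (nat_lit 4699289017875) (nat_lit 152) (nat_lit 10494655507652) (nat_lit 0) (nat_lit 3757398835567) (nat_lit 14) (nat_lit 5) (nat_lit 16) (nat_lit 4) (nat_lit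 14) (nat_lit 4) (nat_lit 535) (nat_lit 463) (nat_lit 202)) (XT.lf (nat_lit 0) (nat_lit 9278331831655) (nat_lit 152) (nat_lit 2510389184072) (nat_lit 0) (nat_lit 8336441649215) (nat_lit 14) (nat_lit 5) (nat_lit 16) (nat_lit 4) (nat_lit 14) (nat_lit 4) (nat_lit 536) (nat_lit 463) (nat_lit 201))))) (XT.nd (nat_lit 56862) (nat_lit 0) (nat_lit 5548) (XT.nd (nat_lit 78) (nat_lit 0) (nat_lit 0) (XT.lf (nat_lit 0) (nat_lit 6434498097735) (nat_lit 76) (nat_lit 7943949805650) (nat_lit 76) (nat_lit 7002059623088) (nat_lit 13) (nat_lit 4) (nat_lit 14) (nat_lit 5) (nat_lit 14) (nat_lit 4) (nat_lit 537) (nat_lit 463) (nat_lit 200)) (XT.nd (nat_lit 56706) (nat_lit 0) (nat_lit 6080) (XT.lf (nat_lit 0) (nat_lit 16237744417062) (nat_lit 76) (nat_lit 3717467331750) (nat_lit 76) (nat_lit 2775577149075) (nat_lit 13) (nat_lit 4) (nat_lit 14) (nat_lit 5) (nat_lit 14) (nat_lit 4) (nat_lit 538) (nat_lit 463) (nat_lit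 199)) (XT.lf (nat_lit 0) (nat_lit 275950441847) (nat_lit 532) (nat_lit 1841234084) (nat_lit 532) (nat_lit 1841234084) (nat_lit 93) (nat_lit 3) (nat_lit 100) (nat_lit 3) (nat_lit 100) (nat_lit 5) (nat_lit 464) (nat_lit 464) (nat_lit 272)))) (XT.nd (nat_lit 156) (nat_lit 0) (nat_lit 76) (XT.nd (nat_lit 78) (nat_lit 532) (nat_lit 0) (XT.lf (nat_lit 76) (nat_lit 289304628546) (nat_lit 0) (nat_lit 291630271334) (nat_lit 532) (nat_lit 144914460) (nat_lit 94) (nat_lit 5) (nat_lit 93) (nat_lit 3) (nat_lit 100) (nat_lit 5) (nat_lit 465) (nat_lit 464) (nat_lit 271)) (XT.lf (nat_lit 76) (nat_lit 1181682006) (nat_lit 0) (nat_lit 6219906980) (nat_lit 608) (nat_lit 597212079435) (nat_lit 87) (nat_lit 5) (nat_lit 86) (nat_lit 5) (nat_lit 94) (nat_lit 5) (nat_lit 466) (nat_lit 464) (nat_lit 270))) (XT.nd (nat_lit 78) (nat_lit 0) (nat_lit 0) (XT.lf (nat_lit 0) (nat_lit 30992494077) (nat_lit 532) (nat_lit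 302698062951) (nat_lit 608) (nat_lit 295103491843) (nat_lit 87) (nat_lit 5) (nat_lit 94) (nat_lit 5) (nat_lit 95) (nat_lit 5) (nat_lit 467) (nat_lit 464) (nat_lit 269)) (XT.lf (nat_lit 76) (nat_lit 23087958857) (nat_lit 0) (nat_lit 34099516977) (nat_lit 608) (nat_lit 597664039583) (nat_lit 88) (nat_lit 5) (nat_lit 87) (nat_lit 5) (nat_lit 95) (nat_lit 5) (nat_lit 468) (nat_lit 464) (nat_lit 268)))))) (XT.nd (nat_lit 546) (nat_lit 912) (nat_lit 0) (XT.nd (nat_lit 234) (nat_lit 684) (nat_lit 0) (XT.nd (nat_lit 78) (nat_lit 0) (nat_lit 0) (XT.lf (nat_lit 0) (nat_lit 100930801110) (nat_lit 532) (nat_lit 297356379665) (nat_lit 608) (nat_lit 283470178914) (nat_lit 88) (nat_lit 5) (nat_lit 95) (nat_lit 5) (nat_lit 96) (nat_lit 5) (nat_lit 469) (nat_lit 464) (nat_lit 267)) (XT.nd (nat_lit 78) (nat_lit 0) (nat_lit 76) (XT.lf (nat_lit 76) (nat_lit 66230789137) (nat_lit 0) (nat_lit 84421341702) (nat_lit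 608) (nat_lit 559965257593) (nat_lit 89) (nat_lit 5) (nat_lit 88) (nat_lit 5) (nat_lit 96) (nat_lit 5) (nat_lit 470) (nat_lit 464) (nat_lit 266)) (XT.lf (nat_lit 0) (nat_lit 218814602327) (nat_lit 532) (nat_lit 271653160404) (nat_lit 76) (nat_lit 250161381913) (nat_lit 89) (nat_lit 5) (nat_lit 96) (nat_lit 5) (nat_lit 90) (nat_lit 5) (nat_lit 471) (nat_lit 464) (nat_lit 265)))) (XT.nd (nat_lit 156) (nat_lit 228) (nat_lit 0) (XT.nd (nat_lit 78) (nat_lit 0) (nat_lit 0) (XT.lf (nat_lit 0) (nat_lit 135483618076) (nat_lit 532) (nat_lit 162397586434) (nat_lit 608) (nat_lit 474724546208) (nat_lit 82) (nat_lit 5) (nat_lit 89) (nat_lit 5) (nat_lit 90) (nat_lit 5) (nat_lit 472) (nat_lit 464) (nat_lit 264)) (XT.lf (nat_lit 0) (nat_lit 395509159920) (nat_lit 608) (nat_lit 220714364543) (nat_lit 76) (nat_lit 189938078812) (nat_lit 82) (nat_lit 5) (nat_lit 90) (nat_lit 5) (nat_lit 83) (nat_lit 5) (nat_lit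 473) (nat_lit 464) (nat_lit 263))) (XT.nd (nat_lit 78) (nat_lit 0) (nat_lit 0) (XT.lf (nat_lit 0) (nat_lit 236624825586) (nat_lit 228) (nat_lit 274231466278) (nat_lit 304) (nat_lit 330752916966) (nat_lit 79) (nat_lit 5) (nat_lit 82) (nat_lit 5) (nat_lit 83) (nat_lit 5) (nat_lit 474) (nat_lit 464) (nat_lit 262)) (XT.lf (nat_lit 0) (nat_lit 643910288283) (nat_lit 304) (nat_lit 138750868901) (nat_lit 76) (nat_lit 96553138131) (nat_lit 79) (nat_lit 5) (nat_lit 83) (nat_lit 5) (nat_lit 80) (nat_lit 5) (nat_lit 475) (nat_lit 464) (nat_lit 261))))) (XT.nd (nat_lit 234) (nat_lit 380) (nat_lit 0) (XT.nd (nat_lit 78) (nat_lit 304) (nat_lit 0) (XT.lf (nat_lit 0) (nat_lit 376492077895) (nat_lit 228) (nat_lit 427294054894) (nat_lit 304) (nat_lit 114747453663) (nat_lit 76) (nat_lit 5) (nat_lit 79) (nat_lit 5) (nat_lit 80) (nat_lit 5) (nat_lit 476) (nat_lit 464) (nat_lit 260)) (XT.nd (nat_lit 78) (nat_lit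 228) (nat_lit 0) (XT.lf (nat_lit 0) (nat_lit 18572793131) (nat_lit 304) (nat_lit 20319789800) (nat_lit 76) (nat_lit 921764727387) (nat_lit 75) (nat_lit 5) (nat_lit 79) (nat_lit 5) (nat_lit 76) (nat_lit 5) (nat_lit 477) (nat_lit 464) (nat_lit 259)) (XT.lf (nat_lit 0) (nat_lit 179619813148) (nat_lit 304) (nat_lit 445801064478) (nat_lit 76) (nat_lit 378630778485) (nat_lit 72) (nat_lit 5) (nat_lit 76) (nat_lit 5) (nat_lit 73) (nat_lit 5) (nat_lit 478) (nat_lit 464) (nat_lit 258)))) (XT.nd (nat_lit 156) (nat_lit 152) (nat_lit 0) (XT.nd (nat_lit 78) (nat_lit 0) (nat_lit 0) (XT.lf (nat_lit 0) (nat_lit 139334543678) (nat_lit 228) (nat_lit 219147247842) (nat_lit 304) (nat_lit 692041262308) (nat_lit 69) (nat_lit 5) (nat_lit 72) (nat_lit 5) (nat_lit 73) (nat_lit 5) (nat_lit 479) (nat_lit 464) (nat_lit 257)) (XT.lf (nat_lit 0) (nat_lit 569440373004) (nat_lit 304) (nat_lit 308701616476) (nat_lit 76)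 (nat_lit 221147162296) (nat_lit 69) (nat_lit 5) (nat_lit 73) (nat_lit 5) (nat_lit 70) (nat_lit 5) (nat_lit 480) (nat_lit 464) (nat_lit 256))) (XT.nd (nat_lit 78) (nat_lit 0) (nat_lit 0) (XT.lf (nat_lit 0) (nat_lit 354000626275) (nat_lit 152) (nat_lit 457480866565) (nat_lit 228) (nat_lit 339338576574) (nat_lit 67) (nat_lit 5) (nat_lit 69) (nat_lit 5) (nat_lit 70) (nat_lit 5) (nat_lit 481) (nat_lit 464) (nat_lit 255)) (XT.lf (nat_lit 0) (nat_lit 1081469413274) (nat_lit 228) (nat_lit 118666122557) (nat_lit 76) (nat_lit 5651243753) (nat_lit 67) (nat_lit 5) (nat_lit 70) (nat_lit 5) (nat_lit 68) (nat_lit 5) (nat_lit 482) (nat_lit 464) (nat_lit 254))))))) (XT.nd (nat_lit 1092) (nat_lit 988) (nat_lit 0) (XT.nd (nat_lit 546) (nat_lit 608) (nat_lit 0) (XT.nd (nat_lit 234) (nat_lit 456) (nat_lit 0) (XT.nd (nat_lit 78) (nat_lit 152) (nat_lit 0) (XT.lf (nat_lit 0) (nat_lit 130331565610) (nat_lit 228)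 (nat_lit 632731252855) (nat_lit 76) (nat_lit 499654485873) (nat_lit 64) (nat_lit 5) (nat_lit 67) (nat_lit 5) (nat_lit 65) (nat_lit 5) (nat_lit 483) (nat_lit 464) (nat_lit 253)) (XT.nd (nat_lit 78) (nat_lit 0) (nat_lit 0) (XT.lf (nat_lit 0) (nat_lit 124237916013) (nat_lit 152) (nat_lit 280714862936) (nat_lit 228) (nat_lit 918485831631) (nat_lit 62) (nat_lit 5) (nat_lit 64) (nat_lit 5) (nat_lit 65) (nat_lit 5) (nat_lit 484) (nat_lit 464) (nat_lit 252)) (XT.lf (nat_lit 0) (nat_lit 725070345797) (nat_lit 228) (nat_lit 416111696900) (nat_lit 76) (nat_lit 245953446110) (nat_lit 62) (nat_lit 5) (nat_lit 65) (nat_lit 5) (nat_lit 63) (nat_lit 5) (nat_lit 485) (nat_lit 464) (nat_lit 251)))) (XT.nd (nat_lit 156) (nat_lit 304) (nat_lit 0) (XT.nd (nat_lit 78) (nat_lit 0) (nat_lit 0) (XT.lf (nat_lit 0) (nat_lit 444572428803) (nat_lit 152) (nat_lit 644208155531) (nat_lit 228) (nat_lit 365708871651) (nat_lit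 60) (nat_lit 5) (nat_lit 62) (nat_lit 5) (nat_lit 63) (nat_lit 5) (nat_lit 486) (nat_lit 464) (nat_lit 250)) (XT.lf (nat_lit 0) (nat_lit 1397775915672) (nat_lit 152) (nat_lit 95188951324) (nat_lit 228) (nat_lit 33356695538) (nat_lit 60) (nat_lit 5) (nat_lit 62) (nat_lit 5) (nat_lit 63) (nat_lit 5) (nat_lit 487) (nat_lit 464) (nat_lit 249))) (XT.nd (nat_lit 78) (nat_lit 152) (nat_lit 0) (XT.lf (nat_lit 0) (nat_lit 342652914156) (nat_lit 152) (nat_lit 755884541920) (nat_lit 76) (nat_lit 502067856151) (nat_lit 58) (nat_lit 5) (nat_lit 60) (nat_lit 5) (nat_lit 59) (nat_lit 5) (nat_lit 488) (nat_lit 464) (nat_lit 248)) (XT.lf (nat_lit 0) (nat_lit 230719808810) (nat_lit 152) (nat_lit 527848563175) (nat_lit 228) (nat_lit 921263900711) (nat_lit 56) (nat_lit 5) (nat_lit 58) (nat_lit 5) (nat_lit 59) (nat_lit 5) (nat_lit 489) (nat_lit 464) (nat_lit 247))))) (XT.nd (nat_lit 234) (nat_lit 456) (nat_lit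 0) (XT.nd (nat_lit 78) (nat_lit 152) (nat_lit 0) (XT.lf (nat_lit 0) (nat_lit 1231089412217) (nat_lit 228) (nat_lit 427168818999) (nat_lit 76) (nat_lit 105272571126) (nat_lit 56) (nat_lit 5) (nat_lit 59) (nat_lit 5) (nat_lit 57) (nat_lit 4) (nat_lit 490) (nat_lit 464) (nat_lit 246)) (XT.nd (nat_lit 78) (nat_lit 76) (nat_lit 0) (XT.lf (nat_lit 0) (nat_lit 697722880558) (nat_lit 76) (nat_lit 1074179854257) (nat_lit 152) (nat_lit 79583231612) (nat_lit 55) (nat_lit 5) (nat_lit 56) (nat_lit 5) (nat_lit 57) (nat_lit 4) (nat_lit 491) (nat_lit 464) (nat_lit 245)) (XT.lf (nat_lit 0) (nat_lit 401001464396) (nat_lit 152) (nat_lit 18795739013) (nat_lit 76) (nat_lit 1524933821567) (nat_lit 54) (nat_lit 5) (nat_lit 56) (nat_lit 5) (nat_lit 55) (nat_lit 5) (nat_lit 492) (nat_lit 464) (nat_lit 244)))) (XT.nd (nat_lit 156) (nat_lit 228) (nat_lit 0) (XT.nd (nat_lit 78) (nat_lit 76) (nat_lit 0) (XT.lf (nat_lit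 0) (nat_lit 953984032582) (nat_lit 228) (nat_lit 782226942106) (nat_lit 76) (nat_lit 305999293117) (nat_lit 52) (nat_lit 5) (nat_lit 55) (nat_lit 5) (nat_lit 53) (nat_lit 4) (nat_lit 493) (nat_lit 464) (nat_lit 243)) (XT.lf (nat_lit 0) (nat_lit 509244185034) (nat_lit 76) (nat_lit 1065639431949) (nat_lit 152) (nat_lit 570709960218) (nat_lit 51) (nat_lit 5) (nat_lit 52) (nat_lit 5) (nat_lit 53) (nat_lit 4) (nat_lit 494) (nat_lit 464) (nat_lit 242))) (XT.nd (nat_lit 78) (nat_lit 152) (nat_lit 0) (XT.lf (nat_lit 0) (nat_lit 10740504436) (nat_lit 152) (nat_lit 307289532053) (nat_lit 76) (nat_lit 1937484764638) (nat_lit 50) (nat_lit 5) (nat_lit 52) (nat_lit 5) (nat_lit 51) (nat_lit 5) (nat_lit 495) (nat_lit 464) (nat_lit 241)) (XT.lf (nat_lit 0) (nat_lit 648944807869) (nat_lit 228) (nat_lit 1211781608237) (nat_lit 76) (nat_lit 509031738986) (nat_lit 48) (nat_lit 5) (nat_lit 51) (nat_lit 5) (nat_lit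 49) (nat_lit 4) (nat_lit 496) (nat_lit 464) (nat_lit 240)))))) (XT.nd (nat_lit 546) (nat_lit 532) (nat_lit 0) (XT.nd (nat_lit 234) (nat_lit 228) (nat_lit 0) (XT.nd (nat_lit 78) (nat_lit 152) (nat_lit 0) (XT.lf (nat_lit 0) (nat_lit 270524903310) (nat_lit 76) (nat_lit 1091067268852) (nat_lit 152) (nat_lit 1129677867885) (nat_lit 47) (nat_lit 5) (nat_lit 48) (nat_lit 5) (nat_lit 49) (nat_lit 4) (nat_lit 497) (nat_lit 464) (nat_lit 239)) (XT.nd (nat_lit 78) (nat_lit 152) (nat_lit 0) (XT.lf (nat_lit 0) (nat_lit 1940331021935) (nat_lit 76) (nat_lit 224052556165) (nat_lit 152) (nat_lit 455468717500) (nat_lit 47) (nat_lit 5) (nat_lit 48) (nat_lit 5) (nat_lit 49) (nat_lit 4) (nat_lit 498) (nat_lit 464) (nat_lit 238)) (XT.lf (nat_lit 0) (nat_lit 301752566417) (nat_lit 152) (nat_lit 1744194315385) (nat_lit 76) (nat_lit 708832352994) (nat_lit 45) (nat_lit 5) (nat_lit 47) (nat_lit 5) (nat_lit 46) (nat_lit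 4) (nat_lit 499) (nat_lit 464) (nat_lit 237)))) (XT.nd (nat_lit 156) (nat_lit 152) (nat_lit 0) (XT.nd (nat_lit 78) (nat_lit 76) (nat_lit 0) (XT.lf (nat_lit 0) (nat_lit 1119825850447) (nat_lit 152) (nat_lit 42601889148) (nat_lit 76) (nat_lit 1735135645949) (nat_lit 45) (nat_lit 5) (nat_lit 47) (nat_lit 5) (nat_lit 46) (nat_lit 4) (nat_lit 500) (nat_lit 464) (nat_lit 236)) (XT.lf (nat_lit 0) (nat_lit 1889645653086) (nat_lit 76) (nat_lit 159145363920) (nat_lit 152) (nat_lit 999343569761) (nat_lit 44) (nat_lit 5) (nat_lit 45) (nat_lit 5) (nat_lit 46) (nat_lit 4) (nat_lit 501) (nat_lit 464) (nat_lit 235))) (XT.nd (nat_lit 78) (nat_lit 76) (nat_lit 0) (XT.lf (nat_lit 0) (nat_lit 785257155619) (nat_lit 76) (nat_lit 2309128589822) (nat_lit 76) (nat_lit 112980750762) (nat_lit 43) (nat_lit 4) (nat_lit 44) (nat_lit 5) (nat_lit 44) (nat_lit 4) (nat_lit 502) (nat_lit 464) (nat_lit 234)) (XT.lf (nat_lit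 0) (nat_lit 838687747501) (nat_lit 152) (nat_lit 451677327598) (nat_lit 76) (nat_lit 2084416944516) (nat_lit 42) (nat_lit 5) (nat_lit 44) (nat_lit 5) (nat_lit 43) (nat_lit 4) (nat_lit 503) (nat_lit 464) (nat_lit 233))))) (XT.nd (nat_lit 234) (nat_lit 304) (nat_lit 0) (XT.nd (nat_lit 78) (nat_lit 152) (nat_lit 0) (XT.lf (nat_lit 0) (nat_lit 1761575832730) (nat_lit 76) (nat_lit 141175935646) (nat_lit 152) (nat_lit 1649214976297) (nat_lit 41) (nat_lit 5) (nat_lit 42) (nat_lit 5) (nat_lit 43) (nat_lit 4) (nat_lit 504) (nat_lit 464) (nat_lit 232)) (XT.nd (nat_lit 78) (nat_lit 76) (nat_lit 0) (XT.lf (nat_lit 0) (nat_lit 429972674654) (nat_lit 76) (nat_lit 2671433299013) (nat_lit 76) (nat_lit 637963069051) (nat_lit 40) (nat_lit 4) (nat_lit 41) (nat_lit 5) (nat_lit 41) (nat_lit 4) (nat_lit 505) (nat_lit 464) (nat_lit 231)) (XT.lf (nat_lit 0) (nat_lit 485359475001) (nat_lit 152) (nat_lit 1023922524413)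 (nat_lit 76) (nat_lit 2427296396137) (nat_lit 39) (nat_lit 5) (nat_lit 41) (nat_lit 5) (nat_lit 40) (nat_lit 4) (nat_lit 506) (nat_lit 464) (nat_lit 230)))) (XT.nd (nat_lit 156) (nat_lit 228) (nat_lit 0) (XT.nd (nat_lit 78) (nat_lit 0) (nat_lit 0) (XT.lf (nat_lit 0) (nat_lit 1503005156663) (nat_lit 76) (nat_lit 197223396872) (nat_lit 152) (nat_lit 2445118520958) (nat_lit 38) (nat_lit 5) (nat_lit 39) (nat_lit 5) (nat_lit 40) (nat_lit 4) (nat_lit 507) (nat_lit 464) (nat_lit 229)) (XT.lf (nat_lit 0) (nat_lit 3070346393607) (nat_lit 152) (nat_lit 108322533564) (nat_lit 0) (nat_lit 1187503581759) (nat_lit 38) (nat_lit 5) (nat_lit 40) (nat_lit 4) (nat_lit 38) (nat_lit 4) (nat_lit 508) (nat_lit 464) (nat_lit 228))) (XT.nd (nat_lit 78) (nat_lit 76) (nat_lit 0) (XT.lf (nat_lit 0) (nat_lit 21533801999) (nat_lit 152) (nat_lit 1838052505494) (nat_lit 76) (nat_lit 2739311239266) (nat_lit 36) (nat_lit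 5) (nat_lit 38) (nat_lit 5) (nat_lit 37) (nat_lit 4) (nat_lit 509) (nat_lit 464) (nat_lit 227)) (XT.lf (nat_lit 0) (nat_lit 1033676712194) (nat_lit 76) (nat_lit 368496137574) (nat_lit 152) (nat_lit 3443143223744) (nat_lit 35) (nat_lit 5) (nat_lit 36) (nat_lit 5) (nat_lit 37) (nat_lit 4) (nat_lit 510) (nat_lit 464) (nat_lit 226))))))))
noncomputable def xc217 : XT := (XT.nd (nat_lit 58968) (nat_lit 0) (nat_lit 2888) (XT.nd (nat_lit 1092) (nat_lit 684) (nat_lit 0) (XT.nd (nat_lit 546) (nat_lit 456) (nat_lit 0) (XT.nd (nat_lit 234) (nat_lit 228) (nat_lit 0) (XT.nd (nat_lit 78) (nat_lit 228) (nat_lit 0) (XT.lf (nat_lit 0) (nat_lit 2974691245841) (nat_lit 152) (nat_lit 898924311351) (nat_lit 0) (nat_lit 1231318267255) (nat_lit 35) (nat_lit 5) (nat_lit 37) (nat_lit 4) (nat_lit 35) (nat_lit 4) (nat_lit 511) (nat_lit 464) (nat_lit 225)) (XT.nd (nat_lit 78) (nat_lit 152) (nat_lit 0) (XT.lf (nat_lit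 0) (nat_lit 2355045524409) (nat_lit 76) (nat_lit 2384175816391) (nat_lit 76) (nat_lit 640802836479) (nat_lit 34) (nat_lit 4) (nat_lit 35) (nat_lit 5) (nat_lit 35) (nat_lit 4) (nat_lit 512) (nat_lit 464) (nat_lit 224)) (XT.lf (nat_lit 0) (nat_lit 233044050334) (nat_lit 76) (nat_lit 717156445567) (nat_lit 152) (nat_lit 4722593525361) (nat_lit 32) (nat_lit 5) (nat_lit 33) (nat_lit 5) (nat_lit 34) (nat_lit 4) (nat_lit 513) (nat_lit 464) (nat_lit 223)))) (XT.nd (nat_lit 156) (nat_lit 152) (nat_lit 0) (XT.nd (nat_lit 78) (nat_lit 76) (nat_lit 0) (XT.lf (nat_lit 0) (nat_lit 2744772213643) (nat_lit 152) (nat_lit 2103471080671) (nat_lit 0) (nat_lit 1130537970792) (nat_lit 32) (nat_lit 5) (nat_lit 34) (nat_lit 4) (nat_lit 32) (nat_lit 4) (nat_lit 514) (nat_lit 464) (nat_lit 222)) (XT.lf (nat_lit 0) (nat_lit 1559073864957) (nat_lit 76) (nat_lit 3179959005594) (nat_lit 76) (nat_lit 1565724761768) (nat_lit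 31) (nat_lit 4) (nat_lit 32) (nat_lit 5) (nat_lit 32) (nat_lit 4) (nat_lit 515) (nat_lit 464) (nat_lit 221))) (XT.nd (nat_lit 78) (nat_lit 76) (nat_lit 0) (XT.lf (nat_lit 0) (nat_lit 283221940348) (nat_lit 152) (nat_lit 1025132608803) (nat_lit 76) (nat_lit 5343282935723) (nat_lit 30) (nat_lit 5) (nat_lit 32) (nat_lit 5) (nat_lit 31) (nat_lit 4) (nat_lit 516) (nat_lit 464) (nat_lit 220)) (XT.lf (nat_lit 0) (nat_lit 2290383602197) (nat_lit 152) (nat_lit 3929317283363) (nat_lit 0) (nat_lit 795722263712) (nat_lit 29) (nat_lit 5) (nat_lit 31) (nat_lit 4) (nat_lit 29) (nat_lit 4) (nat_lit 517) (nat_lit 464) (nat_lit 219))))) (XT.nd (nat_lit 234) (nat_lit 228) (nat_lit 0) (XT.nd (nat_lit 78) (nat_lit 152) (nat_lit 0) (XT.lf (nat_lit 0) (nat_lit 151333308041) (nat_lit 76) (nat_lit 4373164658221) (nat_lit 76) (nat_lit 2878503319019) (nat_lit 28) (nat_lit 4) (nat_lit 29) (nat_lit 5) (nat_lit 29) (nat_lit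 4) (nat_lit 518) (nat_lit 464) (nat_lit 218)) (XT.nd (nat_lit 78) (nat_lit 152) (nat_lit 0) (XT.lf (nat_lit 0) (nat_lit 4781899698071) (nat_lit 76) (nat_lit 2262876277152) (nat_lit 76) (nat_lit 768214937286) (nat_lit 28) (nat_lit 4) (nat_lit 29) (nat_lit 5) (nat_lit 29) (nat_lit 4) (nat_lit 519) (nat_lit 464) (nat_lit 217)) (XT.lf (nat_lit 0) (nat_lit 1475371564484) (nat_lit 152) (nat_lit 6682870801788) (nat_lit 0) (nat_lit 91425878854) (nat_lit 26) (nat_lit 5) (nat_lit 28) (nat_lit 4) (nat_lit 26) (nat_lit 4) (nat_lit 520) (nat_lit 464) (nat_lit 216)))) (XT.nd (nat_lit 156) (nat_lit 152) (nat_lit 0) (XT.nd (nat_lit 78) (nat_lit 76) (nat_lit 0) (XT.lf (nat_lit 0) (nat_lit 4000745444643) (nat_lit 152) (nat_lit 2090633948967) (nat_lit 0) (nat_lit 2616799758486) (nat_lit 26) (nat_lit 5) (nat_lit 28) (nat_lit 4) (nat_lit 26) (nat_lit 4) (nat_lit 521) (nat_lit 464) (nat_lit 215)) (XT.lf (nat_lit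 0) (nat_lit 3020057348182) (nat_lit 76) (nat_lit 3780724337042) (nat_lit 76) (nat_lit 2396778650397) (nat_lit 25) (nat_lit 4) (nat_lit 26) (nat_lit 5) (nat_lit 26) (nat_lit 4) (nat_lit 522) (nat_lit 464) (nat_lit 214))) (XT.nd (nat_lit 78) (nat_lit 76) (nat_lit 0) (XT.lf (nat_lit 0) (nat_lit 152436349319) (nat_lit 152) (nat_lit 1066878080511) (nat_lit 76) (nat_lit 8501895921327) (nat_lit 24) (nat_lit 5) (nat_lit 26) (nat_lit 5) (nat_lit 25) (nat_lit 4) (nat_lit 523) (nat_lit 464) (nat_lit 213)) (XT.lf (nat_lit 0) (nat_lit 2928957697586) (nat_lit 152) (nat_lit 5693059249661) (nat_lit 0) (nat_lit 1647526505443) (nat_lit 23) (nat_lit 5) (nat_lit 25) (nat_lit 4) (nat_lit 23) (nat_lit 4) (nat_lit 524) (nat_lit 464) (nat_lit 212)))))) (XT.nd (nat_lit 546) (nat_lit 228) (nat_lit 0) (XT.nd (nat_lit 234) (nat_lit 228) (nat_lit 0) (XT.nd (nat_lit 78) (nat_lit 228) (nat_lit 0) (XT.lf (nat_lit 0) (nat_lit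 5989199265173) (nat_lit 152) (nat_lit 159847983583) (nat_lit 0) (nat_lit 4707768072671) (nat_lit 23) (nat_lit 5) (nat_lit 25) (nat_lit 4) (nat_lit 23) (nat_lit 4) (nat_lit 525) (nat_lit 464) (nat_lit 211)) (XT.nd (nat_lit 78) (nat_lit 152) (nat_lit 0) (XT.lf (nat_lit 0) (nat_lit 6122281496390) (nat_lit 76) (nat_lit 3319219677428) (nat_lit 76) (nat_lit 2037788484594) (nat_lit 22) (nat_lit 4) (nat_lit 23) (nat_lit 5) (nat_lit 23) (nat_lit 4) (nat_lit 526) (nat_lit 464) (nat_lit 210)) (XT.lf (nat_lit 0) (nat_lit 779233468868) (nat_lit 76) (nat_lit 211470695559) (nat_lit 152) (nat_lit 11157040355352) (nat_lit 20) (nat_lit 5) (nat_lit 21) (nat_lit 5) (nat_lit 22) (nat_lit 4) (nat_lit 527) (nat_lit 464) (nat_lit 209)))) (XT.nd (nat_lit 156) (nat_lit 152) (nat_lit 0) (XT.nd (nat_lit 78) (nat_lit 76) (nat_lit 0) (XT.lf (nat_lit 0) (nat_lit 4377292108194) (nat_lit 152) (nat_lit 5279294801022) (nat_lit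 0) (nat_lit 3190781743911) (nat_lit 20) (nat_lit 5) (nat_lit 22) (nat_lit 4) (nat_lit 20) (nat_lit 4) (nat_lit 528) (nat_lit 464) (nat_lit 208)) (XT.lf (nat_lit 0) (nat_lit 1359577577263) (nat_lit 76) (nat_lit 6713420127512) (nat_lit 76) (nat_lit 5526909762985) (nat_lit 19) (nat_lit 4) (nat_lit 20) (nat_lit 5) (nat_lit 20) (nat_lit 4) (nat_lit 529) (nat_lit 464) (nat_lit 207))) (XT.nd (nat_lit 78) (nat_lit 152) (nat_lit 0) (XT.lf (nat_lit 0) (nat_lit 8829797916086) (nat_lit 76) (nat_lit 3378907107149) (nat_lit 76) (nat_lit 2192396742395) (nat_lit 19) (nat_lit 4) (nat_lit 20) (nat_lit 5) (nat_lit 20) (nat_lit 4) (nat_lit 530) (nat_lit 464) (nat_lit 206)) (XT.lf (nat_lit 0) (nat_lit 1386117480632) (nat_lit 152) (nat_lit 13586249238865) (nat_lit 0) (nat_lit 287496772334) (nat_lit 17) (nat_lit 5) (nat_lit 19) (nat_lit 4) (nat_lit 17) (nat_lit 4) (nat_lit 531) (nat_lit 464) (nat_lit 205)))))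 (XT.nd (nat_lit 234) (nat_lit 152) (nat_lit 0) (XT.nd (nat_lit 78) (nat_lit 76) (nat_lit 0) (XT.lf (nat_lit 0) (nat_lit 5376516217830) (nat_lit 152) (nat_lit 6508834819687) (nat_lit 0) (nat_lit 4277895509352) (nat_lit 17) (nat_lit 5) (nat_lit 19) (nat_lit 4) (nat_lit 17) (nat_lit 4) (nat_lit 532) (nat_lit 464) (nat_lit 204)) (XT.nd (nat_lit 78) (nat_lit 0) (nat_lit 0) (XT.lf (nat_lit 0) (nat_lit 1194527872506) (nat_lit 76) (nat_lit 8520347404312) (nat_lit 76) (nat_lit 7421726695668) (nat_lit 16) (nat_lit 4) (nat_lit 17) (nat_lit 5) (nat_lit 17) (nat_lit 4) (nat_lit 533) (nat_lit 464) (nat_lit 203)) (XT.lf (nat_lit 0) (nat_lit 9884322781091) (nat_lit 76) (nat_lit 4693943356834) (nat_lit 76) (nat_lit 3595322648036) (nat_lit 16) (nat_lit 4) (nat_lit 17) (nat_lit 5) (nat_lit 17) (nat_lit 4) (nat_lit 534) (nat_lit 464) (nat_lit 202)))) (XT.nd (nat_lit 156) (nat_lit 0) (nat_lit 0) (XT.nd (nat_lit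 78) (nat_lit 76) (nat_lit 0) (XT.lf (nat_lit 0) (nat_lit 510321116559) (nat_lit 152) (nat_lit 37152786497) (nat_lit 76) (nat_lit 18745027079793) (nat_lit 15) (nat_lit 5) (nat_lit 17) (nat_lit 5) (nat_lit 16) (nat_lit 4) (nat_lit 535) (nat_lit 464) (nat_lit 201)) (XT.lf (nat_lit 0) (nat_lit 5075232161808) (nat_lit 152) (nat_lit 11334227901854) (nat_lit 0) (nat_lit 4057990764519) (nat_lit 14) (nat_lit 5) (nat_lit 16) (nat_lit 4) (nat_lit 14) (nat_lit 4) (nat_lit 536) (nat_lit 464) (nat_lit 200))) (XT.nd (nat_lit 56862) (nat_lit 0) (nat_lit 6004) (XT.lf (nat_lit 0) (nat_lit 10020598399024) (nat_lit 152) (nat_lit 2711220275826) (nat_lit 0) (nat_lit 9003357001622) (nat_lit 14) (nat_lit 5) (nat_lit 16) (nat_lit 4) (nat_lit 14) (nat_lit 4) (nat_lit 537) (nat_lit 464) (nat_lit 199)) (XT.lf (nat_lit 0) (nat_lit 298026670006) (nat_lit 532) (nat_lit 1988428680) (nat_lit 532) (nat_lit 1988428680) (nat_lit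 93) (nat_lit 3) (nat_lit 100) (nat_lit 3) (nat_lit 100) (nat_lit 5) (nat_lit 465) (nat_lit 465) (nat_lit 270))))))) (XT.nd (nat_lit 1092) (nat_lit 1520) (nat_lit 0) (XT.nd (nat_lit 546) (nat_lit 1064) (nat_lit 0) (XT.nd (nat_lit 234) (nat_lit 0) (nat_lit 76) (XT.nd (nat_lit 78) (nat_lit 532) (nat_lit 0) (XT.lf (nat_lit 76) (nat_lit 312449201819) (nat_lit 0) (nat_lit 314960851991) (nat_lit 532) (nat_lit 156116674) (nat_lit 94) (nat_lit 5) (nat_lit 93) (nat_lit 3) (nat_lit 100) (nat_lit 5) (nat_lit 466) (nat_lit 465) (nat_lit 269)) (XT.nd (nat_lit 78) (nat_lit 0) (nat_lit 76) (XT.lf (nat_lit 76) (nat_lit 1276433522) (nat_lit 0) (nat_lit 6717631678) (nat_lit 608) (nat_lit 644988668728) (nat_lit 87) (nat_lit 5) (nat_lit 86) (nat_lit 5) (nat_lit 94) (nat_lit 5) (nat_lit 467) (nat_lit 465) (nat_lit 268)) (XT.lf (nat_lit 0) (nat_lit 33472213895) (nat_lit 532) (nat_lit 326913678264) (nat_lit 608)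 (nat_lit 318711654960) (nat_lit 87) (nat_lit 5) (nat_lit 94) (nat_lit 5) (nat_lit 95) (nat_lit 5) (nat_lit 468) (nat_lit 465) (nat_lit 267)))) (XT.nd (nat_lit 156) (nat_lit 0) (nat_lit 76) (XT.nd (nat_lit 78) (nat_lit 0) (nat_lit 76) (XT.lf (nat_lit 76) (nat_lit 24935219473) (nat_lit 0) (nat_lit 36827556379) (nat_lit 608) (nat_lit 645476836606) (nat_lit 88) (nat_lit 5) (nat_lit 87) (nat_lit 5) (nat_lit 95) (nat_lit 5) (nat_lit 469) (nat_lit 465) (nat_lit 266)) (XT.lf (nat_lit 0) (nat_lit 109005543046) (nat_lit 532) (nat_lit 321144658580) (nat_lit 608) (nat_lit 306147724578) (nat_lit 88) (nat_lit 5) (nat_lit 95) (nat_lit 5) (nat_lit 96) (nat_lit 5) (nat_lit 470) (nat_lit 465) (nat_lit 265))) (XT.nd (nat_lit 78) (nat_lit 0) (nat_lit 76) (XT.lf (nat_lit 76) (nat_lit 71529477867) (nat_lit 0) (nat_lit 91175086131) (nat_lit 608) (nat_lit 604762194464) (nat_lit 89) (nat_lit 5) (nat_lit 88) (nat_lit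 5) (nat_lit 96) (nat_lit 5) (nat_lit 471) (nat_lit 465) (nat_lit 264)) (XT.lf (nat_lit 0) (nat_lit 236320012921) (nat_lit 532) (nat_lit 293385184036) (nat_lit 76) (nat_lit 270174259840) (nat_lit 89) (nat_lit 5) (nat_lit 96) (nat_lit 5) (nat_lit 90) (nat_lit 5) (nat_lit 472) (nat_lit 465) (nat_lit 263))))) (XT.nd (nat_lit 234) (nat_lit 532) (nat_lit 0) (XT.nd (nat_lit 78) (nat_lit 228) (nat_lit 0) (XT.lf (nat_lit 0) (nat_lit 146322530920) (nat_lit 532) (nat_lit 175389399775) (nat_lit 608) (nat_lit 512702261669) (nat_lit 82) (nat_lit 5) (nat_lit 89) (nat_lit 5) (nat_lit 90) (nat_lit 5) (nat_lit 473) (nat_lit 465) (nat_lit 262)) (XT.nd (nat_lit 78) (nat_lit 228) (nat_lit 0) (XT.lf (nat_lit 0) (nat_lit 427150105370) (nat_lit 608) (nat_lit 238371289665) (nat_lit 76) (nat_lit 205133119465) (nat_lit 82) (nat_lit 5) (nat_lit 90) (nat_lit 5) (nat_lit 83) (nat_lit 5) (nat_lit 474) (nat_lit 465) (nat_lit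 261)) (XT.lf (nat_lit 0) (nat_lit 255555030001) (nat_lit 228) (nat_lit 296169967368) (nat_lit 304) (nat_lit 357212931972) (nat_lit 79) (nat_lit 5) (nat_lit 82) (nat_lit 5) (nat_lit 83) (nat_lit 5) (nat_lit 475) (nat_lit 465) (nat_lit 260)))) (XT.nd (nat_lit 156) (nat_lit 304) (nat_lit 0) (XT.nd (nat_lit 78) (nat_lit 228) (nat_lit 0) (XT.lf (nat_lit 0) (nat_lit 695423298888) (nat_lit 304) (nat_lit 149850721586) (nat_lit 76) (nat_lit 104277403443) (nat_lit 79) (nat_lit 5) (nat_lit 83) (nat_lit 5) (nat_lit 80) (nat_lit 5) (nat_lit 476) (nat_lit 465) (nat_lit 259)) (XT.lf (nat_lit 0) (nat_lit 406611655465) (nat_lit 228) (nat_lit 461477546680) (nat_lit 304) (nat_lit 123927056906) (nat_lit 76) (nat_lit 5) (nat_lit 79) (nat_lit 5) (nat_lit 80) (nat_lit 5) (nat_lit 477) (nat_lit 465) (nat_lit 258))) (XT.nd (nat_lit 78) (nat_lit 228) (nat_lit 0) (XT.lf (nat_lit 0) (nat_lit 20058786390) (nat_lit 304)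 (nat_lit 21945168343) (nat_lit 76) (nat_lit 995505926809) (nat_lit 75) (nat_lit 5) (nat_lit 79) (nat_lit 5) (nat_lit 76) (nat_lit 5) (nat_lit 478) (nat_lit 465) (nat_lit 257)) (XT.lf (nat_lit 0) (nat_lit 193989561127) (nat_lit 304) (nat_lit 481464938099) (nat_lit 76) (nat_lit 408921276325) (nat_lit 72) (nat_lit 5) (nat_lit 76) (nat_lit 5) (nat_lit 73) (nat_lit 5) (nat_lit 479) (nat_lit 465) (nat_lit 256)))))) (XT.nd (nat_lit 546) (nat_lit 760) (nat_lit 0) (XT.nd (nat_lit 234) (nat_lit 380) (nat_lit 0) (XT.nd (nat_lit 78) (nat_lit 152) (nat_lit 0) (XT.lf (nat_lit 0) (nat_lit 150481513354) (nat_lit 228) (nat_lit 236678977305) (nat_lit 304) (nat_lit 747404394996) (nat_lit 69) (nat_lit 5) (nat_lit 72) (nat_lit 5) (nat_lit 73) (nat_lit 5) (nat_lit 480) (nat_lit 465) (nat_lit 255)) (XT.nd (nat_lit 78) (nat_lit 152) (nat_lit 0) (XT.lf (nat_lit 0) (nat_lit 614995748242) (nat_lit 304) (nat_lit 333397544452)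 (nat_lit 76) (nat_lit 238838979581) (nat_lit 69) (nat_lit 5) (nat_lit 73) (nat_lit 5) (nat_lit 70) (nat_lit 5) (nat_lit 481) (nat_lit 465) (nat_lit 254)) (XT.lf (nat_lit 0) (nat_lit 382320872623) (nat_lit 152) (nat_lit 494079278992) (nat_lit 228) (nat_lit 366485512194) (nat_lit 67) (nat_lit 5) (nat_lit 69) (nat_lit 5) (nat_lit 70) (nat_lit 5) (nat_lit 482) (nat_lit 465) (nat_lit 253)))) (XT.nd (nat_lit 156) (nat_lit 152) (nat_lit 0) (XT.nd (nat_lit 78) (nat_lit 228) (nat_lit 0) (XT.lf (nat_lit 0) (nat_lit 1167987096627) (nat_lit 228) (nat_lit 128159221587) (nat_lit 76) (nat_lit 6103393302) (nat_lit 67) (nat_lit 5) (nat_lit 70) (nat_lit 5) (nat_lit 68) (nat_lit 5) (nat_lit 483) (nat_lit 465) (nat_lit 252)) (XT.lf (nat_lit 0) (nat_lit 140758219231) (nat_lit 228) (nat_lit 683349560370) (nat_lit 76) (nat_lit 539626898806) (nat_lit 64) (nat_lit 5) (nat_lit 67) (nat_lit 5) (nat_lit 65) (nat_lit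 5) (nat_lit 484) (nat_lit 465) (nat_lit 251))) (XT.nd (nat_lit 78) (nat_lit 0) (nat_lit 0) (XT.lf (nat_lit 0) (nat_lit 134177137129) (nat_lit 152) (nat_lit 303171987516) (nat_lit 228) (nat_lit 991964564902) (nat_lit 62) (nat_lit 5) (nat_lit 64) (nat_lit 5) (nat_lit 65) (nat_lit 5) (nat_lit 485) (nat_lit 465) (nat_lit 250)) (XT.lf (nat_lit 0) (nat_lit 783076089137) (nat_lit 228) (nat_lit 449400451018) (nat_lit 76) (nat_lit 265629778495) (nat_lit 62) (nat_lit 5) (nat_lit 65) (nat_lit 5) (nat_lit 63) (nat_lit 5) (nat_lit 486) (nat_lit 465) (nat_lit 249))))) (XT.nd (nat_lit 312) (nat_lit 304) (nat_lit 0) (XT.nd (nat_lit 156) (nat_lit 304) (nat_lit 0) (XT.nd (nat_lit 78) (nat_lit 0) (nat_lit 0) (XT.lf (nat_lit 0) (nat_lit 480138400143) (nat_lit 152) (nat_lit 695744742303) (nat_lit 228) (nat_lit 394965461101) (nat_lit 60) (nat_lit 5) (nat_lit 62) (nat_lit 5) (nat_lit 63) (nat_lit 5) (nat_lit 487)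 (nat_lit 465) (nat_lit 248)) (XT.lf (nat_lit 0) (nat_lit 1509598152848) (nat_lit 152) (nat_lit 102804006624) (nat_lit 228) (nat_lit 36025119808) (nat_lit 60) (nat_lit 5) (nat_lit 62) (nat_lit 5) (nat_lit 63) (nat_lit 5) (nat_lit 488) (nat_lit 465) (nat_lit 247))) (XT.nd (nat_lit 78) (nat_lit 152) (nat_lit 0) (XT.lf (nat_lit 0) (nat_lit 370065250748) (nat_lit 152) (nat_lit 816355133426) (nat_lit 76) (nat_lit 542233344750) (nat_lit 58) (nat_lit 5) (nat_lit 60) (nat_lit 5) (nat_lit 59) (nat_lit 5) (nat_lit 489) (nat_lit 465) (nat_lit 246)) (XT.lf (nat_lit 0) (nat_lit 249177561012) (nat_lit 152) (nat_lit 570076380556) (nat_lit 228) (nat_lit 994964904953) (nat_lit 56) (nat_lit 5) (nat_lit 58) (nat_lit 5) (nat_lit 59) (nat_lit 5) (nat_lit 490) (nat_lit 465) (nat_lit 245)))) (XT.nd (nat_lit 156) (nat_lit 228) (nat_lit 0) (XT.nd (nat_lit 78) (nat_lit 76) (nat_lit 0) (XT.lf (nat_lit 0) (nat_lit 1329576659131)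 (nat_lit 228) (nat_lit 461342163536) (nat_lit 76) (nat_lit 113694436342) (nat_lit 56) (nat_lit 5) (nat_lit 59) (nat_lit 5) (nat_lit 57) (nat_lit 4) (nat_lit 491) (nat_lit 465) (nat_lit 244)) (XT.lf (nat_lit 0) (nat_lit 753540867910) (nat_lit 76) (nat_lit 1160114176442) (nat_lit 152) (nat_lit 85949792125) (nat_lit 55) (nat_lit 5) (nat_lit 56) (nat_lit 5) (nat_lit 57) (nat_lit 4) (nat_lit 492) (nat_lit 465) (nat_lit 243))) (XT.nd (nat_lit 78) (nat_lit 152) (nat_lit 0) (XT.lf (nat_lit 0) (nat_lit 433081667764) (nat_lit 152) (nat_lit 20299248305) (nat_lit 76) (nat_lit 1646928584003) (nat_lit 54) (nat_lit 5) (nat_lit 56) (nat_lit 5) (nat_lit 55) (nat_lit 5) (nat_lit 493) (nat_lit 465) (nat_lit 242)) (XT.lf (nat_lit 0) (nat_lit 1030302840038) (nat_lit 228) (nat_lit 844804946276) (nat_lit 76) (nat_lit 330479296123) (nat_lit 52) (nat_lit 5) (nat_lit 55) (nat_lit 5) (nat_lit 53) (nat_lit 4) (nat_lit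 494) (nat_lit 465) (nat_lit 241))))))))
noncomputable def xc218 : XT := (XT.nd (nat_lit 2184) (nat_lit 912) (nat_lit 0) (XT.nd (nat_lit 1092) (nat_lit 912) (nat_lit 0) (XT.nd (nat_lit 546) (nat_lit 532) (nat_lit 0) (XT.nd (nat_lit 234) (nat_lit 228) (nat_lit 0) (XT.nd (nat_lit 78) (nat_lit 228) (nat_lit 0) (XT.lf (nat_lit 0) (nat_lit 549983867208) (nat_lit 76) (nat_lit 1150890521243) (nat_lit 152) (nat_lit 616366668355) (nat_lit 51) (nat_lit 5) (nat_lit 52) (nat_lit 5) (nat_lit 53) (nat_lit 4) (nat_lit 495) (nat_lit 465) (nat_lit 240)) (XT.nd (nat_lit 78) (nat_lit 152) (nat_lit 0) (XT.lf (nat_lit 0) (nat_lit 11599822795) (nat_lit 152) (nat_lit 331872554052) (nat_lit 76) (nat_lit 2092483602126) (nat_lit 50) (nat_lit 5) (nat_lit 52) (nat_lit 5) (nat_lit 51) (nat_lit 5) (nat_lit 496) (nat_lit 465) (nat_lit 239)) (XT.lf (nat_lit 0) (nat_lit 700860469498) (nat_lit 228) (nat_lit 1308723995324)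 (nat_lit 76) (nat_lit 549754336514) (nat_lit 48) (nat_lit 5) (nat_lit 51) (nat_lit 5) (nat_lit 49) (nat_lit 4) (nat_lit 497) (nat_lit 465) (nat_lit 238)))) (XT.nd (nat_lit 156) (nat_lit 152) (nat_lit 0) (XT.nd (nat_lit 78) (nat_lit 0) (nat_lit 0) (XT.lf (nat_lit 0) (nat_lit 292167033563) (nat_lit 76) (nat_lit 1178352586988) (nat_lit 152) (nat_lit 1220052016729) (nat_lit 47) (nat_lit 5) (nat_lit 48) (nat_lit 5) (nat_lit 49) (nat_lit 4) (nat_lit 498) (nat_lit 465) (nat_lit 237)) (XT.lf (nat_lit 0) (nat_lit 2095557631457) (nat_lit 76) (nat_lit 241976701980) (nat_lit 152) (nat_lit 491906140283) (nat_lit 47) (nat_lit 5) (nat_lit 48) (nat_lit 5) (nat_lit 49) (nat_lit 4) (nat_lit 499) (nat_lit 465) (nat_lit 236))) (XT.nd (nat_lit 78) (nat_lit 0) (nat_lit 0) (XT.lf (nat_lit 0) (nat_lit 325892841877) (nat_lit 152) (nat_lit 1883729728374) (nat_lit 76) (nat_lit 765538997715) (nat_lit 45) (nat_lit 5)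 (nat_lit 47) (nat_lit 5) (nat_lit 46) (nat_lit 4) (nat_lit 500) (nat_lit 465) (nat_lit 235)) (XT.lf (nat_lit 0) (nat_lit 1209411983433) (nat_lit 152) (nat_lit 46009917834) (nat_lit 76) (nat_lit 1873946549922) (nat_lit 45) (nat_lit 5) (nat_lit 47) (nat_lit 5) (nat_lit 46) (nat_lit 4) (nat_lit 501) (nat_lit 465) (nat_lit 234))))) (XT.nd (nat_lit 234) (nat_lit 304) (nat_lit 0) (XT.nd (nat_lit 78) (nat_lit 152) (nat_lit 0) (XT.lf (nat_lit 0) (nat_lit 2040817424679) (nat_lit 76) (nat_lit 171876936697) (nat_lit 152) (nat_lit 1079290987290) (nat_lit 44) (nat_lit 5) (nat_lit 45) (nat_lit 5) (nat_lit 46) (nat_lit 4) (nat_lit 502) (nat_lit 465) (nat_lit 233)) (XT.nd (nat_lit 78) (nat_lit 76) (nat_lit 0) (XT.lf (nat_lit 0) (nat_lit 848077847988) (nat_lit 76) (nat_lit 2493858819570) (nat_lit 76) (nat_lit 122019143343) (nat_lit 43) (nat_lit 4) (nat_lit 44) (nat_lit 5) (nat_lit 44) (nat_lit 4) (nat_lit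 503) (nat_lit 465) (nat_lit 232)) (XT.lf (nat_lit 0) (nat_lit 905782826657) (nat_lit 152) (nat_lit 487811399643) (nat_lit 76) (nat_lit 2251170350134) (nat_lit 42) (nat_lit 5) (nat_lit 44) (nat_lit 5) (nat_lit 43) (nat_lit 4) (nat_lit 504) (nat_lit 465) (nat_lit 231)))) (XT.nd (nat_lit 156) (nat_lit 152) (nat_lit 0) (XT.nd (nat_lit 78) (nat_lit 76) (nat_lit 0) (XT.lf (nat_lit 0) (nat_lit 1902502010621) (nat_lit 76) (nat_lit 152469956861) (nat_lit 152) (nat_lit 1781152112153) (nat_lit 41) (nat_lit 5) (nat_lit 42) (nat_lit 5) (nat_lit 43) (nat_lit 4) (nat_lit 505) (nat_lit 465) (nat_lit 230)) (XT.lf (nat_lit 0) (nat_lit 464370600320) (nat_lit 76) (nat_lit 2885147908487) (nat_lit 76) (nat_lit 689000052747) (nat_lit 40) (nat_lit 4) (nat_lit 41) (nat_lit 5) (nat_lit 41) (nat_lit 4) (nat_lit 506) (nat_lit 465) (nat_lit 229))) (XT.nd (nat_lit 78) (nat_lit 76) (nat_lit 0) (XT.lf (nat_lit 0) (nat_lit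 524188287386) (nat_lit 152) (nat_lit 1105836220081) (nat_lit 76) (nat_lit 2621480155377) (nat_lit 39) (nat_lit 5) (nat_lit 41) (nat_lit 5) (nat_lit 40) (nat_lit 4) (nat_lit 507) (nat_lit 465) (nat_lit 228)) (XT.lf (nat_lit 0) (nat_lit 1623245672791) (nat_lit 76) (nat_lit 213001217875) (nat_lit 152) (nat_lit 2640727945558) (nat_lit 38) (nat_lit 5) (nat_lit 39) (nat_lit 5) (nat_lit 40) (nat_lit 4) (nat_lit 508) (nat_lit 465) (nat_lit 227)))))) (XT.nd (nat_lit 546) (nat_lit 456) (nat_lit 0) (XT.nd (nat_lit 234) (nat_lit 228) (nat_lit 0) (XT.nd (nat_lit 78) (nat_lit 228) (nat_lit 0) (XT.lf (nat_lit 0) (nat_lit 3315974155159) (nat_lit 152) (nat_lit 116988237543) (nat_lit 0) (nat_lit 1282503912937) (nat_lit 38) (nat_lit 5) (nat_lit 40) (nat_lit 4) (nat_lit 38) (nat_lit 4) (nat_lit 509) (nat_lit 465) (nat_lit 226)) (XT.nd (nat_lit 78) (nat_lit 76) (nat_lit 0) (XT.lf (nat_lit 0) (nat_lit 23256556092)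 (nat_lit 152) (nat_lit 1985096607096) (nat_lit 76) (nat_lit 2958456183316) (nat_lit 36) (nat_lit 5) (nat_lit 38) (nat_lit 5) (nat_lit 37) (nat_lit 4) (nat_lit 510) (nat_lit 465) (nat_lit 225)) (XT.lf (nat_lit 0) (nat_lit 1116370945504) (nat_lit 76) (nat_lit 397975780796) (nat_lit 152) (nat_lit 3718594629208) (nat_lit 35) (nat_lit 5) (nat_lit 36) (nat_lit 5) (nat_lit 37) (nat_lit 4) (nat_lit 511) (nat_lit 465) (nat_lit 224)))) (XT.nd (nat_lit 156) (nat_lit 152) (nat_lit 0) (XT.nd (nat_lit 78) (nat_lit 76) (nat_lit 0) (XT.lf (nat_lit 0) (nat_lit 3212666591527) (nat_lit 152) (nat_lit 970838164527) (nat_lit 0) (nat_lit 1329823770666) (nat_lit 35) (nat_lit 5) (nat_lit 37) (nat_lit 4) (nat_lit 35) (nat_lit 4) (nat_lit 512) (nat_lit 465) (nat_lit 223)) (XT.lf (nat_lit 0) (nat_lit 2543449255771) (nat_lit 76) (nat_lit 2574909837054) (nat_lit 76) (nat_lit 692067015056) (nat_lit 34) (nat_lit 4) (nat_lit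 35) (nat_lit 5) (nat_lit 35) (nat_lit 4) (nat_lit 513) (nat_lit 465) (nat_lit 222))) (XT.nd (nat_lit 78) (nat_lit 0) (nat_lit 0) (XT.lf (nat_lit 0) (nat_lit 251687663864) (nat_lit 76) (nat_lit 774528916383) (nat_lit 152) (nat_lit 5100400959140) (nat_lit 32) (nat_lit 5) (nat_lit 33) (nat_lit 5) (nat_lit 34) (nat_lit 4) (nat_lit 514) (nat_lit 465) (nat_lit 221)) (XT.lf (nat_lit 0) (nat_lit 2964354033098) (nat_lit 152) (nat_lit 2271748681939) (nat_lit 0) (nat_lit 1220981047888) (nat_lit 32) (nat_lit 5) (nat_lit 34) (nat_lit 4) (nat_lit 32) (nat_lit 4) (nat_lit 515) (nat_lit 465) (nat_lit 220))))) (XT.nd (nat_lit 234) (nat_lit 228) (nat_lit 0) (XT.nd (nat_lit 78) (nat_lit 152) (nat_lit 0) (XT.lf (nat_lit 0) (nat_lit 1683799857182) (nat_lit 76) (nat_lit 3434355684235) (nat_lit 76) (nat_lit 1690982698189) (nat_lit 31) (nat_lit 4) (nat_lit 32) (nat_lit 5) (nat_lit 32) (nat_lit 4) (nat_lit 516)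 (nat_lit 465) (nat_lit 219)) (XT.nd (nat_lit 78) (nat_lit 76) (nat_lit 0) (XT.lf (nat_lit 0) (nat_lit 305879734736) (nat_lit 152) (nat_lit 1107143138566) (nat_lit 76) (nat_lit 5770745607228) (nat_lit 30) (nat_lit 5) (nat_lit 32) (nat_lit 5) (nat_lit 31) (nat_lit 4) (nat_lit 517) (nat_lit 465) (nat_lit 218)) (XT.lf (nat_lit 0) (nat_lit 2473614329418) (nat_lit 152) (nat_lit 4243662586974) (nat_lit 0) (nat_lit 859380081699) (nat_lit 29) (nat_lit 5) (nat_lit 31) (nat_lit 4) (nat_lit 29) (nat_lit 4) (nat_lit 518) (nat_lit 465) (nat_lit 217)))) (XT.nd (nat_lit 156) (nat_lit 152) (nat_lit 0) (XT.nd (nat_lit 78) (nat_lit 0) (nat_lit 0) (XT.lf (nat_lit 0) (nat_lit 163440049741) (nat_lit 76) (nat_lit 4723017791828) (nat_lit 76) (nat_lit 3108783543495) (nat_lit 28) (nat_lit 4) (nat_lit 29) (nat_lit 5) (nat_lit 29) (nat_lit 4) (nat_lit 519) (nat_lit 465) (nat_lit 216)) (XT.lf (nat_lit 0) (nat_lit 5164451745266)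 (nat_lit 76) (nat_lit 2443906343166) (nat_lit 76) (nat_lit 829672094264) (nat_lit 28) (nat_lit 4) (nat_lit 29) (nat_lit 5) (nat_lit 29) (nat_lit 4) (nat_lit 520) (nat_lit 465) (nat_lit 215))) (XT.nd (nat_lit 78) (nat_lit 0) (nat_lit 0) (XT.lf (nat_lit 0) (nat_lit 1593401325662) (nat_lit 152) (nat_lit 7217500392596) (nat_lit 0) (nat_lit 98739983598) (nat_lit 26) (nat_lit 5) (nat_lit 28) (nat_lit 4) (nat_lit 26) (nat_lit 4) (nat_lit 521) (nat_lit 465) (nat_lit 214)) (XT.lf (nat_lit 0) (nat_lit 4320805113565) (nat_lit 152) (nat_lit 2257884596981) (nat_lit 0) (nat_lit 2826143771049) (nat_lit 26) (nat_lit 5) (nat_lit 28) (nat_lit 4) (nat_lit 26) (nat_lit 4) (nat_lit 522) (nat_lit 465) (nat_lit 213))))))) (XT.nd (nat_lit 1092) (nat_lit 76) (nat_lit 0) (XT.nd (nat_lit 546) (nat_lit 380) (nat_lit 0) (XT.nd (nat_lit 234) (nat_lit 228) (nat_lit 0) (XT.nd (nat_lit 78) (nat_lit 152) (nat_lit 0) (XT.lf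 (nat_lit 0) (nat_lit 3261662002221) (nat_lit 76) (nat_lit 4083182250293) (nat_lit 76) (nat_lit 2588520907359) (nat_lit 25) (nat_lit 4) (nat_lit 26) (nat_lit 5) (nat_lit 26) (nat_lit 4) (nat_lit 523) (nat_lit 465) (nat_lit 212)) (XT.nd (nat_lit 78) (nat_lit 76) (nat_lit 0) (XT.lf (nat_lit 0) (nat_lit 164631288112) (nat_lit 152) (nat_lit 1152228264046) (nat_lit 76) (nat_lit 9182047624624) (nat_lit 24) (nat_lit 5) (nat_lit 26) (nat_lit 5) (nat_lit 25) (nat_lit 4) (nat_lit 524) (nat_lit 465) (nat_lit 211)) (XT.lf (nat_lit 0) (nat_lit 3163274344183) (nat_lit 152) (nat_lit 6148503926669) (nat_lit 0) (nat_lit 1779328655590) (nat_lit 23) (nat_lit 5) (nat_lit 25) (nat_lit 4) (nat_lit 23) (nat_lit 4) (nat_lit 525) (nat_lit 465) (nat_lit 210)))) (XT.nd (nat_lit 156) (nat_lit 152) (nat_lit 0) (XT.nd (nat_lit 78) (nat_lit 76) (nat_lit 0) (XT.lf (nat_lit 0) (nat_lit 6468335234896) (nat_lit 152) (nat_lit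 172635763969) (nat_lit 0) (nat_lit 5084389545996) (nat_lit 23) (nat_lit 5) (nat_lit 25) (nat_lit 4) (nat_lit 23) (nat_lit 4) (nat_lit 526) (nat_lit 465) (nat_lit 209)) (XT.lf (nat_lit 0) (nat_lit 6612064072926) (nat_lit 76) (nat_lit 3584757222561) (nat_lit 76) (nat_lit 2200811533377) (nat_lit 22) (nat_lit 4) (nat_lit 23) (nat_lit 5) (nat_lit 23) (nat_lit 4) (nat_lit 527) (nat_lit 465) (nat_lit 208))) (XT.nd (nat_lit 78) (nat_lit 0) (nat_lit 0) (XT.lf (nat_lit 0) (nat_lit 841572203226) (nat_lit 76) (nat_lit 228388322097) (nat_lit 152) (nat_lit 12049603553819) (nat_lit 20) (nat_lit 5) (nat_lit 21) (nat_lit 5) (nat_lit 22) (nat_lit 4) (nat_lit 528) (nat_lit 465) (nat_lit 207)) (XT.lf (nat_lit 0) (nat_lit 4727475503186) (nat_lit 152) (nat_lit 5701638331060) (nat_lit 0) (nat_lit 3446044309026) (nat_lit 20) (nat_lit 5) (nat_lit 22) (nat_lit 4) (nat_lit 20) (nat_lit 4) (nat_lit 529) (nat_lit 465)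 (nat_lit 206))))) (XT.nd (nat_lit 234) (nat_lit 152) (nat_lit 0) (XT.nd (nat_lit 78) (nat_lit 152) (nat_lit 0) (XT.lf (nat_lit 0) (nat_lit 1468343836120) (nat_lit 76) (nat_lit 7250493710689) (nat_lit 76) (nat_lit 5969062516320) (nat_lit 19) (nat_lit 4) (nat_lit 20) (nat_lit 5) (nat_lit 20) (nat_lit 4) (nat_lit 530) (nat_lit 465) (nat_lit 205)) (XT.nd (nat_lit 78) (nat_lit 152) (nat_lit 0) (XT.lf (nat_lit 0) (nat_lit 9536181798147) (nat_lit 76) (nat_lit 3649219650698) (nat_lit 76) (nat_lit 2367788456136) (nat_lit 19) (nat_lit 4) (nat_lit 20) (nat_lit 5) (nat_lit 20) (nat_lit 4) (nat_lit 531) (nat_lit 465) (nat_lit 204)) (XT.lf (nat_lit 0) (nat_lit 1497006903422) (nat_lit 152) (nat_lit 14673149127888) (nat_lit 0) (nat_lit 310496537920) (nat_lit 17) (nat_lit 5) (nat_lit 19) (nat_lit 4) (nat_lit 17) (nat_lit 4) (nat_lit 532) (nat_lit 465) (nat_lit 203)))) (XT.nd (nat_lit 156) (nat_lit 76) (nat_lit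 0) (XT.nd (nat_lit 78) (nat_lit 76) (nat_lit 0) (XT.lf (nat_lit 0) (nat_lit 5806637537793) (nat_lit 152) (nat_lit 7029541558886) (nat_lit 0) (nat_lit 4620127172138) (nat_lit 17) (nat_lit 5) (nat_lit 19) (nat_lit 4) (nat_lit 17) (nat_lit 4) (nat_lit 533) (nat_lit 465) (nat_lit 202)) (XT.lf (nat_lit 0) (nat_lit 1290090147509) (nat_lit 76) (nat_lit 9201975173409) (nat_lit 76) (nat_lit 8015464807611) (nat_lit 16) (nat_lit 4) (nat_lit 17) (nat_lit 5) (nat_lit 17) (nat_lit 4) (nat_lit 534) (nat_lit 465) (nat_lit 201))) (XT.nd (nat_lit 78) (nat_lit 76) (nat_lit 0) (XT.lf (nat_lit 0) (nat_lit 10675068645432) (nat_lit 76) (nat_lit 5069458803855) (nat_lit 76) (nat_lit 3882948437925) (nat_lit 16) (nat_lit 4) (nat_lit 17) (nat_lit 5) (nat_lit 17) (nat_lit 4) (nat_lit 535) (nat_lit 465) (nat_lit 200)) (XT.lf (nat_lit 0) (nat_lit 551146825194) (nat_lit 152) (nat_lit 40124969646) (nat_lit 76) (nat_lit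 20244629265091) (nat_lit 15) (nat_lit 5) (nat_lit 17) (nat_lit 5) (nat_lit 16) (nat_lit 4) (nat_lit 536) (nat_lit 465) (nat_lit 199)))))) (XT.nd (nat_lit 57408) (nat_lit 0) (nat_lit 4636) (XT.nd (nat_lit 57096) (nat_lit 0) (nat_lit 5472) (XT.nd (nat_lit 56940) (nat_lit 0) (nat_lit 6004) (XT.lf (nat_lit 0) (nat_lit 5481250754045) (nat_lit 152) (nat_lit 12240966094213) (nat_lit 0) (nat_lit 4382630044633) (nat_lit 14) (nat_lit 5) (nat_lit 16) (nat_lit 4) (nat_lit 14) (nat_lit 4) (nat_lit 537) (nat_lit 465) (nat_lit 198)) (XT.nd (nat_lit 78) (nat_lit 0) (nat_lit 0) (XT.lf (nat_lit 0) (nat_lit 321868968912) (nat_lit 532) (nat_lit 2147413699) (nat_lit 532) (nat_lit 2147413699) (nat_lit 93) (nat_lit 3) (nat_lit 100) (nat_lit 3) (nat_lit 100) (nat_lit 5) (nat_lit 466) (nat_lit 466) (nat_lit 268)) (XT.lf (nat_lit 76) (nat_lit 337445311995) (nat_lit 0) (nat_lit 340157856424) (nat_lit 532) (nat_lit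 168270838) (nat_lit 94) (nat_lit 5) (nat_lit 93) (nat_lit 3) (nat_lit 100) (nat_lit 5) (nat_lit 467) (nat_lit 466) (nat_lit 267)))) (XT.nd (nat_lit 156) (nat_lit 0) (nat_lit 76) (XT.nd (nat_lit 78) (nat_lit 0) (nat_lit 76) (XT.lf (nat_lit 76) (nat_lit 1378734207) (nat_lit 0) (nat_lit 7255155500) (nat_lit 608) (nat_lit 696587438956) (nat_lit 87) (nat_lit 5) (nat_lit 86) (nat_lit 5) (nat_lit 94) (nat_lit 5) (nat_lit 468) (nat_lit 466) (nat_lit 266)) (XT.lf (nat_lit 0) (nat_lit 36150265606) (nat_lit 532) (nat_lit 353066575574) (nat_lit 608) (nat_lit 344208487708) (nat_lit 87) (nat_lit 5) (nat_lit 94) (nat_lit 5) (nat_lit 95) (nat_lit 5) (nat_lit 469) (nat_lit 466) (nat_lit 265))) (XT.nd (nat_lit 78) (nat_lit 0) (nat_lit 76) (XT.lf (nat_lit 76) (nat_lit 26930228995) (nat_lit 0) (nat_lit 39773827800) (nat_lit 608) (nat_lit 697114703920) (nat_lit 88) (nat_lit 5) (nat_lit 87) (nat_lit 5) (nat_lit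 95) (nat_lit 5) (nat_lit 470) (nat_lit 466) (nat_lit 264)) (XT.lf (nat_lit 0) (nat_lit 117726224699) (nat_lit 532) (nat_lit 346836032827) (nat_lit 608) (nat_lit 330639483690) (nat_lit 88) (nat_lit 5) (nat_lit 95) (nat_lit 5) (nat_lit 96) (nat_lit 5) (nat_lit 471) (nat_lit 466) (nat_lit 263))))) (XT.nd (nat_lit 312) (nat_lit 532) (nat_lit 0) (XT.nd (nat_lit 156) (nat_lit 456) (nat_lit 0) (XT.nd (nat_lit 78) (nat_lit 0) (nat_lit 76) (XT.lf (nat_lit 76) (nat_lit 77252029511) (nat_lit 0) (nat_lit 98469124822) (nat_lit 608) (nat_lit 653142926762) (nat_lit 89) (nat_lit 5) (nat_lit 88) (nat_lit 5) (nat_lit 96) (nat_lit 5) (nat_lit 472) (nat_lit 466) (nat_lit 262)) (XT.lf (nat_lit 0) (nat_lit 255225821779) (nat_lit 532) (nat_lit 316855802256) (nat_lit 76) (nat_lit 291788172655) (nat_lit 89) (nat_lit 5) (nat_lit 96) (nat_lit 5) (nat_lit 90) (nat_lit 5) (nat_lit 473) (nat_lit 466) (nat_lit 261)))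 (XT.nd (nat_lit 78) (nat_lit 0) (nat_lit 0) (XT.lf (nat_lit 0) (nat_lit 158028524922) (nat_lit 532) (nat_lit 189420557266) (nat_lit 608) (nat_lit 553718229781) (nat_lit 82) (nat_lit 5) (nat_lit 89) (nat_lit 5) (nat_lit 90) (nat_lit 5) (nat_lit 474) (nat_lit 466) (nat_lit 260)) (XT.lf (nat_lit 0) (nat_lit 461322296119) (nat_lit 608) (nat_lit 257440800760) (nat_lit 76) (nat_lit 221543764177) (nat_lit 82) (nat_lit 5) (nat_lit 90) (nat_lit 5) (nat_lit 83) (nat_lit 5) (nat_lit 475) (nat_lit 466) (nat_lit 259)))) (XT.nd (nat_lit 156) (nat_lit 304) (nat_lit 0) (XT.nd (nat_lit 78) (nat_lit 0) (nat_lit 0) (XT.lf (nat_lit 0) (nat_lit 275999619618) (nat_lit 228) (nat_lit 319863550857) (nat_lit 304) (nat_lit 385789779330) (nat_lit 79) (nat_lit 5) (nat_lit 82) (nat_lit 5) (nat_lit 83) (nat_lit 5) (nat_lit 476) (nat_lit 466) (nat_lit 258)) (XT.lf (nat_lit 0) (nat_lit 751057323587) (nat_lit 304) (nat_lit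 161838593419) (nat_lit 76) (nat_lit 112619607945) (nat_lit 79) (nat_lit 5) (nat_lit 83) (nat_lit 5) (nat_lit 80) (nat_lit 5) (nat_lit 477) (nat_lit 466) (nat_lit 257))) (XT.nd (nat_lit 78) (nat_lit 76) (nat_lit 0) (XT.lf (nat_lit 0) (nat_lit 439140769090) (nat_lit 228) (nat_lit 498395722462) (nat_lit 304) (nat_lit 133841055948) (nat_lit 76) (nat_lit 5) (nat_lit 79) (nat_lit 5) (nat_lit 80) (nat_lit 5) (nat_lit 478) (nat_lit 466) (nat_lit 256)) (XT.lf (nat_lit 0) (nat_lit 21663634885) (nat_lit 304) (nat_lit 23700606363) (nat_lit 76) (nat_lit 1075146419157) (nat_lit 75) (nat_lit 5) (nat_lit 79) (nat_lit 5) (nat_lit 76) (nat_lit 5) (nat_lit 479) (nat_lit 466) (nat_lit 255))))))))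
noncomputable def xc219 : XT := (XT.nd (nat_lit 2184) (nat_lit 1824) (nat_lit 0) (XT.nd (nat_lit 1092) (nat_lit 1140) (nat_lit 0) (XT.nd (nat_lit 546) (nat_lit 532) (nat_lit 0) (XT.nd (nat_lit 234) (nat_lit 532) (nat_lit 0) (XT.nd (nat_lit 78) (nat_lit 228) (nat_lit 0) (XT.lf (nat_lit 0) (nat_lit 209508865702) (nat_lit 304) (nat_lit 519981951787) (nat_lit 76) (nat_lit 441635008918) (nat_lit 72) (nat_lit 5) (nat_lit 76) (nat_lit 5) (nat_lit 73) (nat_lit 5) (nat_lit 480) (nat_lit 466) (nat_lit 254)) (XT.nd (nat_lit 78) (nat_lit 0) (nat_lit 0) (XT.lf (nat_lit 0) (nat_lit 162520211191) (nat_lit 228) (nat_lit 255613252310) (nat_lit 304) (nat_lit 807196602308) (nat_lit 69) (nat_lit 5) (nat_lit 72) (nat_lit 5) (nat_lit 73) (nat_lit 5) (nat_lit 481) (nat_lit 466) (nat_lit 253)) (XT.lf (nat_lit 0) (nat_lit 664195532756) (nat_lit 304) (nat_lit 360069175389) (nat_lit 76) (nat_lit 257946135928) (nat_lit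 69) (nat_lit 5) (nat_lit 73) (nat_lit 5) (nat_lit 70) (nat_lit 5) (nat_lit 482) (nat_lit 466) (nat_lit 252)))) (XT.nd (nat_lit 156) (nat_lit 380) (nat_lit 0) (XT.nd (nat_lit 78) (nat_lit 0) (nat_lit 0) (XT.lf (nat_lit 0) (nat_lit 412906710682) (nat_lit 152) (nat_lit 533605572530) (nat_lit 228) (nat_lit 395804224135) (nat_lit 67) (nat_lit 5) (nat_lit 69) (nat_lit 5) (nat_lit 70) (nat_lit 5) (nat_lit 483) (nat_lit 466) (nat_lit 251)) (XT.lf (nat_lit 0) (nat_lit 1261426176062) (nat_lit 228) (nat_lit 138411795755) (nat_lit 76) (nat_lit 6591707675) (nat_lit 67) (nat_lit 5) (nat_lit 70) (nat_lit 5) (nat_lit 68) (nat_lit 5) (nat_lit 484) (nat_lit 466) (nat_lit 250))) (XT.nd (nat_lit 78) (nat_lit 152) (nat_lit 0) (XT.lf (nat_lit 0) (nat_lit 152018986828) (nat_lit 228) (nat_lit 738017359978) (nat_lit 76) (nat_lit 582797097061) (nat_lit 64) (nat_lit 5) (nat_lit 67) (nat_lit 5) (nat_lit 65) (nat_lit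 5) (nat_lit 485) (nat_lit 466) (nat_lit 249)) (XT.lf (nat_lit 0) (nat_lit 144911469138) (nat_lit 152) (nat_lit 327425691257) (nat_lit 228) (nat_lit 1071321615846) (nat_lit 62) (nat_lit 5) (nat_lit 64) (nat_lit 5) (nat_lit 65) (nat_lit 5) (nat_lit 486) (nat_lit 466) (nat_lit 248))))) (XT.nd (nat_lit 234) (nat_lit 380) (nat_lit 0) (XT.nd (nat_lit 78) (nat_lit 152) (nat_lit 0) (XT.lf (nat_lit 0) (nat_lit 845722275442) (nat_lit 228) (nat_lit 485352331378) (nat_lit 76) (nat_lit 286880209381) (nat_lit 62) (nat_lit 5) (nat_lit 65) (nat_lit 5) (nat_lit 63) (nat_lit 5) (nat_lit 487) (nat_lit 466) (nat_lit 247)) (XT.nd (nat_lit 78) (nat_lit 0) (nat_lit 0) (XT.lf (nat_lit 0) (nat_lit 518549623934) (nat_lit 152) (nat_lit 751404265386) (nat_lit 228) (nat_lit 426562594866) (nat_lit 60) (nat_lit 5) (nat_lit 62) (nat_lit 5) (nat_lit 63) (nat_lit 5) (nat_lit 488) (nat_lit 466) (nat_lit 246)) (XT.lf (nat_lit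 0) (nat_lit 1630366145612) (nat_lit 152) (nat_lit 111028275023) (nat_lit 228) (nat_lit 38907033909) (nat_lit 60) (nat_lit 5) (nat_lit 62) (nat_lit 5) (nat_lit 63) (nat_lit 5) (nat_lit 489) (nat_lit 466) (nat_lit 245)))) (XT.nd (nat_lit 156) (nat_lit 76) (nat_lit 0) (XT.nd (nat_lit 78) (nat_lit 152) (nat_lit 0) (XT.lf (nat_lit 0) (nat_lit 399670559507) (nat_lit 152) (nat_lit 881663396768) (nat_lit 76) (nat_lit 585612063861) (nat_lit 58) (nat_lit 5) (nat_lit 60) (nat_lit 5) (nat_lit 59) (nat_lit 5) (nat_lit 490) (nat_lit 466) (nat_lit 244)) (XT.lf (nat_lit 0) (nat_lit 269111909495) (nat_lit 152) (nat_lit 615682432981) (nat_lit 228) (nat_lit 1074562004915) (nat_lit 56) (nat_lit 5) (nat_lit 58) (nat_lit 5) (nat_lit 59) (nat_lit 5) (nat_lit 491) (nat_lit 466) (nat_lit 243))) (XT.nd (nat_lit 78) (nat_lit 76) (nat_lit 0) (XT.lf (nat_lit 0) (nat_lit 1435942872397) (nat_lit 228) (nat_lit 498249398603)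 (nat_lit 76) (nat_lit 122790042283) (nat_lit 56) (nat_lit 5) (nat_lit 59) (nat_lit 5) (nat_lit 57) (nat_lit 4) (nat_lit 492) (nat_lit 466) (nat_lit 242)) (XT.lf (nat_lit 0) (nat_lit 813824271865) (nat_lit 76) (nat_lit 1252923253840) (nat_lit 152) (nat_lit 92825691462) (nat_lit 55) (nat_lit 5) (nat_lit 56) (nat_lit 5) (nat_lit 57) (nat_lit 4) (nat_lit 493) (nat_lit 466) (nat_lit 241)))))) (XT.nd (nat_lit 546) (nat_lit 532) (nat_lit 0) (XT.nd (nat_lit 234) (nat_lit 304) (nat_lit 0) (XT.nd (nat_lit 78) (nat_lit 228) (nat_lit 0) (XT.lf (nat_lit 0) (nat_lit 467728275101) (nat_lit 152) (nat_lit 21923059716) (nat_lit 76) (nat_lit 1778682919344) (nat_lit 54) (nat_lit 5) (nat_lit 56) (nat_lit 5) (nat_lit 55) (nat_lit 5) (nat_lit 494) (nat_lit 466) (nat_lit 240)) (XT.nd (nat_lit 78) (nat_lit 76) (nat_lit 0) (XT.lf (nat_lit 0) (nat_lit 1112727139986) (nat_lit 228) (nat_lit 912389212350) (nat_lit 76)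 (nat_lit 356917690874) (nat_lit 52) (nat_lit 5) (nat_lit 55) (nat_lit 5) (nat_lit 53) (nat_lit 4) (nat_lit 495) (nat_lit 466) (nat_lit 239)) (XT.lf (nat_lit 0) (nat_lit 593982702931) (nat_lit 76) (nat_lit 1242961706991) (nat_lit 152) (nat_lit 665675925794) (nat_lit 51) (nat_lit 5) (nat_lit 52) (nat_lit 5) (nat_lit 53) (nat_lit 4) (nat_lit 496) (nat_lit 466) (nat_lit 238)))) (XT.nd (nat_lit 156) (nat_lit 76) (nat_lit 0) (XT.nd (nat_lit 78) (nat_lit 152) (nat_lit 0) (XT.lf (nat_lit 0) (nat_lit 12527875495) (nat_lit 152) (nat_lit 358422237865) (nat_lit 76) (nat_lit 2259882338579) (nat_lit 50) (nat_lit 5) (nat_lit 52) (nat_lit 5) (nat_lit 51) (nat_lit 5) (nat_lit 497) (nat_lit 466) (nat_lit 237)) (XT.lf (nat_lit 0) (nat_lit 756929373073) (nat_lit 228) (nat_lit 1413421793575) (nat_lit 76) (nat_lit 593734733512) (nat_lit 48) (nat_lit 5) (nat_lit 51) (nat_lit 5) (nat_lit 49) (nat_lit 4) (nat_lit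 498) (nat_lit 466) (nat_lit 236))) (XT.nd (nat_lit 78) (nat_lit 0) (nat_lit 0) (XT.lf (nat_lit 0) (nat_lit 315540514550) (nat_lit 76) (nat_lit 1272620739615) (nat_lit 152) (nat_lit 1317656108978) (nat_lit 47) (nat_lit 5) (nat_lit 48) (nat_lit 5) (nat_lit 49) (nat_lit 4) (nat_lit 499) (nat_lit 466) (nat_lit 235)) (XT.lf (nat_lit 0) (nat_lit 2263202351512) (nat_lit 76) (nat_lit 261334787831) (nat_lit 152) (nat_lit 531258567533) (nat_lit 47) (nat_lit 5) (nat_lit 48) (nat_lit 5) (nat_lit 49) (nat_lit 4) (nat_lit 500) (nat_lit 466) (nat_lit 234))))) (XT.nd (nat_lit 234) (nat_lit 304) (nat_lit 0) (XT.nd (nat_lit 78) (nat_lit 76) (nat_lit 0) (XT.lf (nat_lit 0) (nat_lit 351964329366) (nat_lit 152) (nat_lit 2034427993268) (nat_lit 76) (nat_lit 826782165956) (nat_lit 45) (nat_lit 5) (nat_lit 47) (nat_lit 5) (nat_lit 46) (nat_lit 4) (nat_lit 501) (nat_lit 466) (nat_lit 233)) (XT.nd (nat_lit 78) (nat_lit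 76) (nat_lit 0) (XT.lf (nat_lit 0) (nat_lit 1306164997792) (nat_lit 152) (nat_lit 49690606283) (nat_lit 76) (nat_lit 2023862318753) (nat_lit 45) (nat_lit 5) (nat_lit 47) (nat_lit 5) (nat_lit 46) (nat_lit 4) (nat_lit 502) (nat_lit 466) (nat_lit 232)) (XT.lf (nat_lit 0) (nat_lit 2204082920973) (nat_lit 76) (nat_lit 185627043333) (nat_lit 152) (nat_lit 1165634207930) (nat_lit 44) (nat_lit 5) (nat_lit 45) (nat_lit 5) (nat_lit 46) (nat_lit 4) (nat_lit 503) (nat_lit 466) (nat_lit 231)))) (XT.nd (nat_lit 156) (nat_lit 152) (nat_lit 0) (XT.nd (nat_lit 78) (nat_lit 76) (nat_lit 0) (XT.lf (nat_lit 0) (nat_lit 915924178638) (nat_lit 76) (nat_lit 2693367475891) (nat_lit 76) (nat_lit 131780616956) (nat_lit 43) (nat_lit 4) (nat_lit 44) (nat_lit 5) (nat_lit 44) (nat_lit 4) (nat_lit 504) (nat_lit 466) (nat_lit 230)) (XT.lf (nat_lit 0) (nat_lit 978245503679) (nat_lit 152) (nat_lit 526836213738) (nat_lit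 76) (nat_lit 2431264021060) (nat_lit 42) (nat_lit 5) (nat_lit 44) (nat_lit 5) (nat_lit 43) (nat_lit 4) (nat_lit 505) (nat_lit 466) (nat_lit 229))) (XT.nd (nat_lit 78) (nat_lit 76) (nat_lit 0) (XT.lf (nat_lit 0) (nat_lit 2054702266869) (nat_lit 76) (nat_lit 164667507425) (nat_lit 152) (nat_lit 1923644227758) (nat_lit 41) (nat_lit 5) (nat_lit 42) (nat_lit 5) (nat_lit 43) (nat_lit 4) (nat_lit 506) (nat_lit 466) (nat_lit 228)) (XT.lf (nat_lit 0) (nat_lit 501520344105) (nat_lit 76) (nat_lit 3115959694487) (nat_lit 76) (nat_lit 744120003959) (nat_lit 40) (nat_lit 4) (nat_lit 41) (nat_lit 5) (nat_lit 41) (nat_lit 4) (nat_lit 507) (nat_lit 466) (nat_lit 227))))))) (XT.nd (nat_lit 1092) (nat_lit 912) (nat_lit 0) (XT.nd (nat_lit 546) (nat_lit 456) (nat_lit 0) (XT.nd (nat_lit 234) (nat_lit 304) (nat_lit 0) (XT.nd (nat_lit 78) (nat_lit 76) (nat_lit 0) (XT.lf (nat_lit 0) (nat_lit 566123397003) (nat_lit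 152) (nat_lit 1194303026565) (nat_lit 76) (nat_lit 2831198608572) (nat_lit 39) (nat_lit 5) (nat_lit 41) (nat_lit 5) (nat_lit 40) (nat_lit 4) (nat_lit 508) (nat_lit 466) (nat_lit 226)) (XT.nd (nat_lit 78) (nat_lit 0) (nat_lit 0) (XT.lf (nat_lit 0) (nat_lit 1753105415430) (nat_lit 76) (nat_lit 230041271797) (nat_lit 152) (nat_lit 2851986132269) (nat_lit 38) (nat_lit 5) (nat_lit 39) (nat_lit 5) (nat_lit 40) (nat_lit 4) (nat_lit 509) (nat_lit 466) (nat_lit 225)) (XT.lf (nat_lit 0) (nat_lit 3581252130493) (nat_lit 152) (nat_lit 126347211922) (nat_lit 0) (nat_lit 1385104264241) (nat_lit 38) (nat_lit 5) (nat_lit 40) (nat_lit 4) (nat_lit 38) (nat_lit 4) (nat_lit 510) (nat_lit 466) (nat_lit 224)))) (XT.nd (nat_lit 156) (nat_lit 76) (nat_lit 0) (XT.nd (nat_lit 78) (nat_lit 76) (nat_lit 0) (XT.lf (nat_lit 0) (nat_lit 25117123390) (nat_lit 152) (nat_lit 2143904250927) (nat_lit 76) (nat_lit 3195132716484)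 (nat_lit 36) (nat_lit 5) (nat_lit 38) (nat_lit 5) (nat_lit 37) (nat_lit 4) (nat_lit 511) (nat_lit 466) (nat_lit 223)) (XT.lf (nat_lit 0) (nat_lit 1205680703737) (nat_lit 76) (nat_lit 429813802293) (nat_lit 152) (nat_lit 4016082154589) (nat_lit 35) (nat_lit 5) (nat_lit 36) (nat_lit 5) (nat_lit 37) (nat_lit 4) (nat_lit 512) (nat_lit 466) (nat_lit 222))) (XT.nd (nat_lit 78) (nat_lit 76) (nat_lit 0) (XT.lf (nat_lit 0) (nat_lit 3469679958303) (nat_lit 152) (nat_lit 1048505139043) (nat_lit 0) (nat_lit 1436209708355) (nat_lit 35) (nat_lit 5) (nat_lit 37) (nat_lit 4) (nat_lit 35) (nat_lit 4) (nat_lit 513) (nat_lit 466) (nat_lit 221)) (XT.lf (nat_lit 0) (nat_lit 2746925272887) (nat_lit 76) (nat_lit 2780902585738) (nat_lit 76) (nat_lit 747432334815) (nat_lit 34) (nat_lit 4) (nat_lit 35) (nat_lit 5) (nat_lit 35) (nat_lit 4) (nat_lit 514) (nat_lit 466) (nat_lit 220))))) (XT.nd (nat_lit 234) (nat_lit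 228) (nat_lit 0) (XT.nd (nat_lit 78) (nat_lit 76) (nat_lit 0) (XT.lf (nat_lit 0) (nat_lit 271822753709) (nat_lit 76) (nat_lit 836491191259) (nat_lit 152) (nat_lit 5508432994506) (nat_lit 32) (nat_lit 5) (nat_lit 33) (nat_lit 5) (nat_lit 34) (nat_lit 4) (nat_lit 515) (nat_lit 466) (nat_lit 219)) (XT.nd (nat_lit 78) (nat_lit 76) (nat_lit 0) (XT.lf (nat_lit 0) (nat_lit 3201502392065) (nat_lit 152) (nat_lit 2453488503462) (nat_lit 0) (nat_lit 1318659565526) (nat_lit 32) (nat_lit 5) (nat_lit 34) (nat_lit 4) (nat_lit 32) (nat_lit 4) (nat_lit 516) (nat_lit 466) (nat_lit 218)) (XT.lf (nat_lit 0) (nat_lit 1818503916940) (nat_lit 76) (nat_lit 3709104103131) (nat_lit 76) (nat_lit 1826261275875) (nat_lit 31) (nat_lit 4) (nat_lit 32) (nat_lit 5) (nat_lit 32) (nat_lit 4) (nat_lit 517) (nat_lit 466) (nat_lit 217)))) (XT.nd (nat_lit 156) (nat_lit 76) (nat_lit 0) (XT.nd (nat_lit 78) (nat_lit 76) (nat_lit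 0) (XT.lf (nat_lit 0) (nat_lit 330350147089) (nat_lit 152) (nat_lit 1195714521973) (nat_lit 76) (nat_lit 6232405287225) (nat_lit 30) (nat_lit 5) (nat_lit 32) (nat_lit 5) (nat_lit 31) (nat_lit 4) (nat_lit 518) (nat_lit 466) (nat_lit 216)) (XT.lf (nat_lit 0) (nat_lit 2671503509245) (nat_lit 152) (nat_lit 4583155526153) (nat_lit 0) (nat_lit 928130519861) (nat_lit 29) (nat_lit 5) (nat_lit 31) (nat_lit 4) (nat_lit 29) (nat_lit 4) (nat_lit 519) (nat_lit 466) (nat_lit 215))) (XT.nd (nat_lit 78) (nat_lit 0) (nat_lit 0) (XT.lf (nat_lit 0) (nat_lit 176515319783) (nat_lit 76) (nat_lit 5100859181695) (nat_lit 76) (nat_lit 3357486191784) (nat_lit 28) (nat_lit 4) (nat_lit 29) (nat_lit 5) (nat_lit 29) (nat_lit 4) (nat_lit 520) (nat_lit 466) (nat_lit 214)) (XT.lf (nat_lit 0) (nat_lit 5577607946056) (nat_lit 76) (nat_lit 2639418819620) (nat_lit 76) (nat_lit 896045829221) (nat_lit 28) (nat_lit 4) (nat_lit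 29) (nat_lit 5) (nat_lit 29) (nat_lit 4) (nat_lit 521) (nat_lit 466) (nat_lit 213)))))) (XT.nd (nat_lit 546) (nat_lit 456) (nat_lit 0) (XT.nd (nat_lit 234) (nat_lit 228) (nat_lit 0) (XT.nd (nat_lit 78) (nat_lit 76) (nat_lit 0) (XT.lf (nat_lit 0) (nat_lit 1720873462595) (nat_lit 152) (nat_lit 7794900361130) (nat_lit 0) (nat_lit 106639211808) (nat_lit 26) (nat_lit 5) (nat_lit 28) (nat_lit 4) (nat_lit 26) (nat_lit 4) (nat_lit 522) (nat_lit 466) (nat_lit 212)) (XT.nd (nat_lit 78) (nat_lit 76) (nat_lit 0) (XT.lf (nat_lit 0) (nat_lit 4666469551243) (nat_lit 152) (nat_lit 2438515306523) (nat_lit 0) (nat_lit 3052235300069) (nat_lit 26) (nat_lit 5) (nat_lit 28) (nat_lit 4) (nat_lit 26) (nat_lit 4) (nat_lit 523) (nat_lit 466) (nat_lit 211)) (XT.lf (nat_lit 0) (nat_lit 3522595019141) (nat_lit 76) (nat_lit 4409836801414) (nat_lit 76) (nat_lit 2795602549881) (nat_lit 25) (nat_lit 4) (nat_lit 26) (nat_lit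 5) (nat_lit 26) (nat_lit 4) (nat_lit 524) (nat_lit 466) (nat_lit 210)))) (XT.nd (nat_lit 156) (nat_lit 76) (nat_lit 0) (XT.nd (nat_lit 78) (nat_lit 76) (nat_lit 0) (XT.lf (nat_lit 0) (nat_lit 177801817608) (nat_lit 152) (nat_lit 1244406471238) (nat_lit 76) (nat_lit 9916611459963) (nat_lit 24) (nat_lit 5) (nat_lit 26) (nat_lit 5) (nat_lit 25) (nat_lit 4) (nat_lit 525) (nat_lit 466) (nat_lit 209)) (XT.lf (nat_lit 0) (nat_lit 3416336318114) (nat_lit 152) (nat_lit 6640384186820) (nat_lit 0) (nat_lit 1921674973510) (nat_lit 23) (nat_lit 5) (nat_lit 25) (nat_lit 4) (nat_lit 23) (nat_lit 4) (nat_lit 526) (nat_lit 466) (nat_lit 208))) (XT.nd (nat_lit 78) (nat_lit 76) (nat_lit 0) (XT.lf (nat_lit 0) (nat_lit 6985802078130) (nat_lit 152) (nat_lit 186446575103) (nat_lit 0) (nat_lit 5491140733262) (nat_lit 23) (nat_lit 5) (nat_lit 25) (nat_lit 4) (nat_lit 23) (nat_lit 4) (nat_lit 527) (nat_lit 466) (nat_lit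 207)) (XT.lf (nat_lit 0) (nat_lit 7141029247478) (nat_lit 76) (nat_lit 3871537775451) (nat_lit 76) (nat_lit 2376876430340) (nat_lit 22) (nat_lit 4) (nat_lit 23) (nat_lit 5) (nat_lit 23) (nat_lit 4) (nat_lit 528) (nat_lit 466) (nat_lit 206))))) (XT.nd (nat_lit 312) (nat_lit 228) (nat_lit 0) (XT.nd (nat_lit 156) (nat_lit 76) (nat_lit 0) (XT.nd (nat_lit 78) (nat_lit 0) (nat_lit 0) (XT.lf (nat_lit 0) (nat_lit 908898028222) (nat_lit 76) (nat_lit 246659362912) (nat_lit 152) (nat_lit 13013571812437) (nat_lit 20) (nat_lit 5) (nat_lit 21) (nat_lit 5) (nat_lit 22) (nat_lit 4) (nat_lit 529) (nat_lit 466) (nat_lit 205)) (XT.lf (nat_lit 0) (nat_lit 5105673566019) (nat_lit 152) (nat_lit 6157769351210) (nat_lit 0) (nat_lit 3721727875698) (nat_lit 20) (nat_lit 5) (nat_lit 22) (nat_lit 4) (nat_lit 20) (nat_lit 4) (nat_lit 530) (nat_lit 466) (nat_lit 204))) (XT.nd (nat_lit 78) (nat_lit 0) (nat_lit 0) (XT.lf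 (nat_lit 0) (nat_lit 1585811388171) (nat_lit 76) (nat_lit 7830533184375) (nat_lit 76) (nat_lit 6446587493874) (nat_lit 19) (nat_lit 4) (nat_lit 20) (nat_lit 5) (nat_lit 20) (nat_lit 4) (nat_lit 531) (nat_lit 466) (nat_lit 203)) (XT.lf (nat_lit 0) (nat_lit 10299076383815) (nat_lit 76) (nat_lit 3941157201301) (nat_lit 76) (nat_lit 2557211510634) (nat_lit 19) (nat_lit 4) (nat_lit 20) (nat_lit 5) (nat_lit 20) (nat_lit 4) (nat_lit 532) (nat_lit 466) (nat_lit 202)))) (XT.nd (nat_lit 156) (nat_lit 76) (nat_lit 0) (XT.nd (nat_lit 78) (nat_lit 0) (nat_lit 0) (XT.lf (nat_lit 0) (nat_lit 1616767476563) (nat_lit 152) (nat_lit 15847001015178) (nat_lit 0) (nat_lit 335336281359) (nat_lit 17) (nat_lit 5) (nat_lit 19) (nat_lit 4) (nat_lit 17) (nat_lit 4) (nat_lit 533) (nat_lit 466) (nat_lit 201)) (XT.lf (nat_lit 0) (nat_lit 6271168560138) (nat_lit 152) (nat_lit 7591904843836) (nat_lit 0) (nat_lit 4989737364802)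 (nat_lit 17) (nat_lit 5) (nat_lit 19) (nat_lit 4) (nat_lit 17) (nat_lit 4) (nat_lit 534) (nat_lit 466) (nat_lit 200))) (XT.nd (nat_lit 78) (nat_lit 0) (nat_lit 0) (XT.lf (nat_lit 0) (nat_lit 1393297398063) (nat_lit 76) (nat_lit 9938133167350) (nat_lit 76) (nat_lit 8656701971892) (nat_lit 16) (nat_lit 4) (nat_lit 17) (nat_lit 5) (nat_lit 17) (nat_lit 4) (nat_lit 535) (nat_lit 466) (nat_lit 199)) (XT.lf (nat_lit 0) (nat_lit 11529074172950) (nat_lit 76) (nat_lit 5475015489708) (nat_lit 76) (nat_lit 4193584294137) (nat_lit 16) (nat_lit 4) (nat_lit 17) (nat_lit 5) (nat_lit 17) (nat_lit 4) (nat_lit 536) (nat_lit 466) (nat_lit 198))))))))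
noncomputable def xc220 : XT := (XT.nd (nat_lit 59124) (nat_lit 0) (nat_lit 988) (XT.nd (nat_lit 58032) (nat_lit 0) (nat_lit 3116) (XT.nd (nat_lit 57486) (nat_lit 0) (nat_lit 4636) (XT.nd (nat_lit 57174) (nat_lit 0) (nat_lit 5396) (XT.nd (nat_lit 57018) (nat_lit 0) (nat_lit 5928) (XT.lf (nat_lit 0) (nat_lit 595238587766) (nat_lit 152) (nat_lit 43334933121) (nat_lit 76) (nat_lit 21864199622515) (nat_lit 15) (nat_lit 5) (nat_lit 17) (nat_lit 5) (nat_lit 16) (nat_lit 4) (nat_lit 537) (nat_lit 466) (nat_lit 197)) (XT.nd (nat_lit 78) (nat_lit 0) (nat_lit 0) (XT.lf (nat_lit 0) (nat_lit 347618628146) (nat_lit 532) (nat_lit 2319130255) (nat_lit 532) (nat_lit 2319130255) (nat_lit 93) (nat_lit 3) (nat_lit 100) (nat_lit 3) (nat_lit 100) (nat_lit 5) (nat_lit 467) (nat_lit 467) (nat_lit 266)) (XT.lf (nat_lit 76) (nat_lit 364441086158) (nat_lit 0) (nat_lit 367370601772) (nat_lit 532) (nat_lit 181445151)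 (nat_lit 94) (nat_lit 5) (nat_lit 93) (nat_lit 3) (nat_lit 100) (nat_lit 5) (nat_lit 468) (nat_lit 467) (nat_lit 265)))) (XT.nd (nat_lit 156) (nat_lit 0) (nat_lit 76) (XT.nd (nat_lit 78) (nat_lit 0) (nat_lit 76) (XT.lf (nat_lit 76) (nat_lit 1489192412) (nat_lit 0) (nat_lit 7835665066) (nat_lit 608) (nat_lit 752314156921) (nat_lit 87) (nat_lit 5) (nat_lit 86) (nat_lit 5) (nat_lit 94) (nat_lit 5) (nat_lit 469) (nat_lit 467) (nat_lit 264)) (XT.lf (nat_lit 0) (nat_lit 39042522279) (nat_lit 532) (nat_lit 381311732767) (nat_lit 608) (nat_lit 371745081292) (nat_lit 87) (nat_lit 5) (nat_lit 94) (nat_lit 5) (nat_lit 95) (nat_lit 5) (nat_lit 470) (nat_lit 467) (nat_lit 263))) (XT.nd (nat_lit 78) (nat_lit 0) (nat_lit 76) (XT.lf (nat_lit 76) (nat_lit 29084811893) (nat_lit 0) (nat_lit 42955791390) (nat_lit 608) (nat_lit 752883640508) (nat_lit 88) (nat_lit 5) (nat_lit 87) (nat_lit 5) (nat_lit 95) (nat_lit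 5) (nat_lit 471) (nat_lit 467) (nat_lit 262)) (XT.lf (nat_lit 0) (nat_lit 127144526901) (nat_lit 532) (nat_lit 374582745324) (nat_lit 608) (nat_lit 357090591926) (nat_lit 88) (nat_lit 5) (nat_lit 95) (nat_lit 5) (nat_lit 96) (nat_lit 5) (nat_lit 472) (nat_lit 467) (nat_lit 261))))) (XT.nd (nat_lit 234) (nat_lit 456) (nat_lit 0) (XT.nd (nat_lit 78) (nat_lit 456) (nat_lit 0) (XT.lf (nat_lit 76) (nat_lit 83432357694) (nat_lit 0) (nat_lit 106346682072) (nat_lit 608) (nat_lit 705394152348) (nat_lit 89) (nat_lit 5) (nat_lit 88) (nat_lit 5) (nat_lit 96) (nat_lit 5) (nat_lit 473) (nat_lit 467) (nat_lit 260)) (XT.nd (nat_lit 78) (nat_lit 532) (nat_lit 0) (XT.lf (nat_lit 0) (nat_lit 275644065698) (nat_lit 532) (nat_lit 342204097968) (nat_lit 76) (nat_lit 315131202486) (nat_lit 89) (nat_lit 5) (nat_lit 96) (nat_lit 5) (nat_lit 90) (nat_lit 5) (nat_lit 474) (nat_lit 467) (nat_lit 259)) (XT.lf (nat_lit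 0) (nat_lit 170670971120) (nat_lit 532) (nat_lit 204574206570) (nat_lit 608) (nat_lit 598015505703) (nat_lit 82) (nat_lit 5) (nat_lit 89) (nat_lit 5) (nat_lit 90) (nat_lit 5) (nat_lit 475) (nat_lit 467) (nat_lit 258)))) (XT.nd (nat_lit 156) (nat_lit 228) (nat_lit 0) (XT.nd (nat_lit 78) (nat_lit 228) (nat_lit 0) (XT.lf (nat_lit 0) (nat_lit 498228236117) (nat_lit 608) (nat_lit 278035900144) (nat_lit 76) (nat_lit 239267261156) (nat_lit 82) (nat_lit 5) (nat_lit 90) (nat_lit 5) (nat_lit 83) (nat_lit 5) (nat_lit 476) (nat_lit 467) (nat_lit 257)) (XT.lf (nat_lit 0) (nat_lit 298079749695) (nat_lit 228) (nat_lit 345452623009) (nat_lit 304) (nat_lit 416652801182) (nat_lit 79) (nat_lit 5) (nat_lit 82) (nat_lit 5) (nat_lit 83) (nat_lit 5) (nat_lit 477) (nat_lit 467) (nat_lit 256))) (XT.nd (nat_lit 78) (nat_lit 228) (nat_lit 0) (XT.lf (nat_lit 0) (nat_lit 811142047323) (nat_lit 304) (nat_lit 174785521518)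 (nat_lit 76) (nat_lit 121629187063) (nat_lit 79) (nat_lit 5) (nat_lit 83) (nat_lit 5) (nat_lit 80) (nat_lit 5) (nat_lit 478) (nat_lit 467) (nat_lit 255)) (XT.lf (nat_lit 0) (nat_lit 474272185958) (nat_lit 228) (nat_lit 538267356293) (nat_lit 304) (nat_lit 144548198526) (nat_lit 76) (nat_lit 5) (nat_lit 79) (nat_lit 5) (nat_lit 80) (nat_lit 5) (nat_lit 479) (nat_lit 467) (nat_lit 254)))))) (XT.nd (nat_lit 546) (nat_lit 608) (nat_lit 0) (XT.nd (nat_lit 234) (nat_lit 380) (nat_lit 0) (XT.nd (nat_lit 78) (nat_lit 456) (nat_lit 0) (XT.lf (nat_lit 0) (nat_lit 23396850490) (nat_lit 304) (nat_lit 25596504455) (nat_lit 76) (nat_lit 1161158148295) (nat_lit 75) (nat_lit 5) (nat_lit 79) (nat_lit 5) (nat_lit 76) (nat_lit 5) (nat_lit 480) (nat_lit 467) (nat_lit 253)) (XT.nd (nat_lit 78) (nat_lit 228) (nat_lit 0) (XT.lf (nat_lit 0) (nat_lit 226269694715) (nat_lit 304) (nat_lit 561580352444) (nat_lit 76)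 (nat_lit 476965835770) (nat_lit 72) (nat_lit 5) (nat_lit 76) (nat_lit 5) (nat_lit 73) (nat_lit 5) (nat_lit 481) (nat_lit 467) (nat_lit 252)) (XT.lf (nat_lit 0) (nat_lit 175521979636) (nat_lit 228) (nat_lit 276062275475) (nat_lit 304) (nat_lit 871772206790) (nat_lit 69) (nat_lit 5) (nat_lit 72) (nat_lit 5) (nat_lit 73) (nat_lit 5) (nat_lit 482) (nat_lit 467) (nat_lit 251)))) (XT.nd (nat_lit 156) (nat_lit 228) (nat_lit 0) (XT.nd (nat_lit 78) (nat_lit 152) (nat_lit 0) (XT.lf (nat_lit 0) (nat_lit 717331282247) (nat_lit 304) (nat_lit 388874561427) (nat_lit 76) (nat_lit 278581859365) (nat_lit 69) (nat_lit 5) (nat_lit 73) (nat_lit 5) (nat_lit 70) (nat_lit 5) (nat_lit 483) (nat_lit 467) (nat_lit 250)) (XT.lf (nat_lit 0) (nat_lit 445939391782) (nat_lit 152) (nat_lit 576293976510) (nat_lit 228) (nat_lit 427468451439) (nat_lit 67) (nat_lit 5) (nat_lit 69) (nat_lit 5) (nat_lit 70) (nat_lit 5) (nat_lit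 484) (nat_lit 467) (nat_lit 249))) (XT.nd (nat_lit 78) (nat_lit 228) (nat_lit 0) (XT.lf (nat_lit 0) (nat_lit 1362340365915) (nat_lit 228) (nat_lit 149484599190) (nat_lit 76) (nat_lit 7119081076) (nat_lit 67) (nat_lit 5) (nat_lit 70) (nat_lit 5) (nat_lit 68) (nat_lit 5) (nat_lit 485) (nat_lit 467) (nat_lit 248)) (XT.lf (nat_lit 0) (nat_lit 164180600131) (nat_lit 228) (nat_lit 797058607125) (nat_lit 76) (nat_lit 629420904564) (nat_lit 64) (nat_lit 5) (nat_lit 67) (nat_lit 5) (nat_lit 65) (nat_lit 5) (nat_lit 486) (nat_lit 467) (nat_lit 247))))) (XT.nd (nat_lit 234) (nat_lit 304) (nat_lit 0) (XT.nd (nat_lit 78) (nat_lit 152) (nat_lit 0) (XT.lf (nat_lit 0) (nat_lit 156504524734) (nat_lit 152) (nat_lit 353619699182) (nat_lit 228) (nat_lit 1157027247164) (nat_lit 62) (nat_lit 5) (nat_lit 64) (nat_lit 5) (nat_lit 65) (nat_lit 5) (nat_lit 487) (nat_lit 467) (nat_lit 246)) (XT.nd (nat_lit 78) (nat_lit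 152) (nat_lit 0) (XT.lf (nat_lit 0) (nat_lit 913380142503) (nat_lit 228) (nat_lit 524180384382) (nat_lit 76) (nat_lit 309830667804) (nat_lit 62) (nat_lit 5) (nat_lit 65) (nat_lit 5) (nat_lit 63) (nat_lit 5) (nat_lit 488) (nat_lit 467) (nat_lit 245)) (XT.lf (nat_lit 0) (nat_lit 560033723975) (nat_lit 152) (nat_lit 811516558348) (nat_lit 228) (nat_lit 460687514045) (nat_lit 60) (nat_lit 5) (nat_lit 62) (nat_lit 5) (nat_lit 63) (nat_lit 5) (nat_lit 489) (nat_lit 467) (nat_lit 244)))) (XT.nd (nat_lit 156) (nat_lit 152) (nat_lit 0) (XT.nd (nat_lit 78) (nat_lit 152) (nat_lit 0) (XT.lf (nat_lit 0) (nat_lit 1760795557748) (nat_lit 152) (nat_lit 119910492331) (nat_lit 228) (nat_lit 42019514760) (nat_lit 60) (nat_lit 5) (nat_lit 62) (nat_lit 5) (nat_lit 63) (nat_lit 5) (nat_lit 490) (nat_lit 467) (nat_lit 243)) (XT.lf (nat_lit 0) (nat_lit 431644280313) (nat_lit 152) (nat_lit 952196342196) (nat_lit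 76) (nat_lit 632461073150) (nat_lit 58) (nat_lit 5) (nat_lit 60) (nat_lit 5) (nat_lit 59) (nat_lit 5) (nat_lit 491) (nat_lit 467) (nat_lit 242))) (XT.nd (nat_lit 78) (nat_lit 0) (nat_lit 0) (XT.lf (nat_lit 0) (nat_lit 290640985370) (nat_lit 152) (nat_lit 664936977878) (nat_lit 228) (nat_lit 1160526886061) (nat_lit 56) (nat_lit 5) (nat_lit 58) (nat_lit 5) (nat_lit 59) (nat_lit 5) (nat_lit 492) (nat_lit 467) (nat_lit 241)) (XT.lf (nat_lit 0) (nat_lit 1550818371235) (nat_lit 228) (nat_lit 538109232164) (nat_lit 76) (nat_lit 132613289420) (nat_lit 56) (nat_lit 5) (nat_lit 59) (nat_lit 5) (nat_lit 57) (nat_lit 4) (nat_lit 493) (nat_lit 467) (nat_lit 240))))))) (XT.nd (nat_lit 1092) (nat_lit 988) (nat_lit 0) (XT.nd (nat_lit 546) (nat_lit 456) (nat_lit 0) (XT.nd (nat_lit 234) (nat_lit 380) (nat_lit 0) (XT.nd (nat_lit 78) (nat_lit 228) (nat_lit 0) (XT.lf (nat_lit 0) (nat_lit 878930328945) (nat_lit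 76) (nat_lit 1353157065521) (nat_lit 152) (nat_lit 100251674733) (nat_lit 55) (nat_lit 5) (nat_lit 56) (nat_lit 5) (nat_lit 57) (nat_lit 4) (nat_lit 494) (nat_lit 467) (nat_lit 239)) (XT.nd (nat_lit 78) (nat_lit 152) (nat_lit 0) (XT.lf (nat_lit 0) (nat_lit 505146600481) (nat_lit 152) (nat_lit 23676794366) (nat_lit 76) (nat_lit 1920977594575) (nat_lit 54) (nat_lit 5) (nat_lit 56) (nat_lit 5) (nat_lit 55) (nat_lit 5) (nat_lit 495) (nat_lit 467) (nat_lit 238)) (XT.lf (nat_lit 0) (nat_lit 1201745373552) (nat_lit 228) (nat_lit 985380238203) (nat_lit 76) (nat_lit 385471149920) (nat_lit 52) (nat_lit 5) (nat_lit 55) (nat_lit 5) (nat_lit 53) (nat_lit 4) (nat_lit 496) (nat_lit 467) (nat_lit 237)))) (XT.nd (nat_lit 156) (nat_lit 228) (nat_lit 0) (XT.nd (nat_lit 78) (nat_lit 76) (nat_lit 0) (XT.lf (nat_lit 0) (nat_lit 641501427487) (nat_lit 76) (nat_lit 1342398595580) (nat_lit 152) (nat_lit 718929934674)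 (nat_lit 51) (nat_lit 5) (nat_lit 52) (nat_lit 5) (nat_lit 53) (nat_lit 4) (nat_lit 497) (nat_lit 467) (nat_lit 236)) (XT.lf (nat_lit 0) (nat_lit 13530162870) (nat_lit 152) (nat_lit 387095913575) (nat_lit 76) (nat_lit 2440672967060) (nat_lit 50) (nat_lit 5) (nat_lit 52) (nat_lit 5) (nat_lit 51) (nat_lit 5) (nat_lit 498) (nat_lit 467) (nat_lit 235))) (XT.nd (nat_lit 78) (nat_lit 76) (nat_lit 0) (XT.lf (nat_lit 0) (nat_lit 817483779516) (nat_lit 228) (nat_lit 1526495433002) (nat_lit 76) (nat_lit 641233555125) (nat_lit 48) (nat_lit 5) (nat_lit 51) (nat_lit 5) (nat_lit 49) (nat_lit 4) (nat_lit 499) (nat_lit 467) (nat_lit 234)) (XT.lf (nat_lit 0) (nat_lit 340783857140) (nat_lit 76) (nat_lit 1374430352203) (nat_lit 152) (nat_lit 1423068538463) (nat_lit 47) (nat_lit 5) (nat_lit 48) (nat_lit 5) (nat_lit 49) (nat_lit 4) (nat_lit 500) (nat_lit 467) (nat_lit 233))))) (XT.nd (nat_lit 234) (nat_lit 304)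 (nat_lit 0) (XT.nd (nat_lit 78) (nat_lit 152) (nat_lit 0) (XT.lf (nat_lit 0) (nat_lit 2444258633545) (nat_lit 76) (nat_lit 282241527727) (nat_lit 152) (nat_lit 573759198090) (nat_lit 47) (nat_lit 5) (nat_lit 48) (nat_lit 5) (nat_lit 49) (nat_lit 4) (nat_lit 501) (nat_lit 467) (nat_lit 232)) (XT.nd (nat_lit 78) (nat_lit 0) (nat_lit 0) (XT.lf (nat_lit 0) (nat_lit 380121527275) (nat_lit 152) (nat_lit 2197182135528) (nat_lit 76) (nat_lit 892924780749) (nat_lit 45) (nat_lit 5) (nat_lit 47) (nat_lit 5) (nat_lit 46) (nat_lit 4) (nat_lit 502) (nat_lit 467) (nat_lit 231)) (XT.lf (nat_lit 0) (nat_lit 1410658245356) (nat_lit 152) (nat_lit 53665764785) (nat_lit 76) (nat_lit 2185771342694) (nat_lit 45) (nat_lit 5) (nat_lit 47) (nat_lit 5) (nat_lit 46) (nat_lit 4) (nat_lit 503) (nat_lit 467) (nat_lit 230)))) (XT.nd (nat_lit 156) (nat_lit 152) (nat_lit 0) (XT.nd (nat_lit 78) (nat_lit 76) (nat_lit 0) (XT.lf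 (nat_lit 0) (nat_lit 2380409642374) (nat_lit 76) (nat_lit 200477165391) (nat_lit 152) (nat_lit 1258884894544) (nat_lit 44) (nat_lit 5) (nat_lit 45) (nat_lit 5) (nat_lit 46) (nat_lit 4) (nat_lit 504) (nat_lit 467) (nat_lit 229)) (XT.lf (nat_lit 0) (nat_lit 989198201073) (nat_lit 76) (nat_lit 2908836831744) (nat_lit 76) (nat_lit 142323016712) (nat_lit 43) (nat_lit 4) (nat_lit 44) (nat_lit 5) (nat_lit 44) (nat_lit 4) (nat_lit 505) (nat_lit 467) (nat_lit 228))) (XT.nd (nat_lit 78) (nat_lit 76) (nat_lit 0) (XT.lf (nat_lit 0) (nat_lit 1056505187602) (nat_lit 152) (nat_lit 568983026924) (nat_lit 76) (nat_lit 2625765179538) (nat_lit 42) (nat_lit 5) (nat_lit 44) (nat_lit 5) (nat_lit 43) (nat_lit 4) (nat_lit 506) (nat_lit 467) (nat_lit 227)) (XT.lf (nat_lit 0) (nat_lit 2219078530008) (nat_lit 76) (nat_lit 177840868595) (nat_lit 152) (nat_lit 2077535720224) (nat_lit 41) (nat_lit 5) (nat_lit 42) (nat_lit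 5) (nat_lit 43) (nat_lit 4) (nat_lit 507) (nat_lit 467) (nat_lit 226)))))) (XT.nd (nat_lit 546) (nat_lit 532) (nat_lit 0) (XT.nd (nat_lit 234) (nat_lit 228) (nat_lit 0) (XT.nd (nat_lit 78) (nat_lit 152) (nat_lit 0) (XT.lf (nat_lit 0) (nat_lit 541642053732) (nat_lit 76) (nat_lit 3365236430026) (nat_lit 76) (nat_lit 803649558830) (nat_lit 40) (nat_lit 4) (nat_lit 41) (nat_lit 5) (nat_lit 41) (nat_lit 4) (nat_lit 508) (nat_lit 467) (nat_lit 225)) (XT.nd (nat_lit 78) (nat_lit 76) (nat_lit 0) (XT.lf (nat_lit 0) (nat_lit 611413308738) (nat_lit 152) (nat_lit 1289847190568) (nat_lit 76) (nat_lit 3057694532208) (nat_lit 39) (nat_lit 5) (nat_lit 41) (nat_lit 5) (nat_lit 40) (nat_lit 4) (nat_lit 509) (nat_lit 467) (nat_lit 224)) (XT.lf (nat_lit 0) (nat_lit 1893353924809) (nat_lit 76) (nat_lit 248444536241) (nat_lit 152) (nat_lit 3080144980898) (nat_lit 38) (nat_lit 5) (nat_lit 39) (nat_lit 5) (nat_lit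 40) (nat_lit 4) (nat_lit 510) (nat_lit 467) (nat_lit 223)))) (XT.nd (nat_lit 156) (nat_lit 76) (nat_lit 0) (XT.nd (nat_lit 78) (nat_lit 152) (nat_lit 0) (XT.lf (nat_lit 0) (nat_lit 3867752337730) (nat_lit 152) (nat_lit 136454916324) (nat_lit 0) (nat_lit 1495912638190) (nat_lit 38) (nat_lit 5) (nat_lit 40) (nat_lit 4) (nat_lit 38) (nat_lit 4) (nat_lit 511) (nat_lit 467) (nat_lit 222)) (XT.lf (nat_lit 0) (nat_lit 27126529963) (nat_lit 152) (nat_lit 2315416518352) (nat_lit 76) (nat_lit 3450743366812) (nat_lit 36) (nat_lit 5) (nat_lit 38) (nat_lit 5) (nat_lit 37) (nat_lit 4) (nat_lit 512) (nat_lit 467) (nat_lit 221))) (XT.nd (nat_lit 78) (nat_lit 0) (nat_lit 0) (XT.lf (nat_lit 0) (nat_lit 1302135230845) (nat_lit 76) (nat_lit 464198871354) (nat_lit 152) (nat_lit 4337368688414) (nat_lit 35) (nat_lit 5) (nat_lit 36) (nat_lit 5) (nat_lit 37) (nat_lit 4) (nat_lit 513) (nat_lit 467) (nat_lit 220))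 (XT.lf (nat_lit 0) (nat_lit 3747254388792) (nat_lit 152) (nat_lit 1132385482741) (nat_lit 0) (nat_lit 1551106515917) (nat_lit 35) (nat_lit 5) (nat_lit 37) (nat_lit 4) (nat_lit 35) (nat_lit 4) (nat_lit 514) (nat_lit 467) (nat_lit 219))))) (XT.nd (nat_lit 312) (nat_lit 228) (nat_lit 0) (XT.nd (nat_lit 156) (nat_lit 76) (nat_lit 0) (XT.nd (nat_lit 78) (nat_lit 152) (nat_lit 0) (XT.lf (nat_lit 0) (nat_lit 2966679360437) (nat_lit 76) (nat_lit 3003374759779) (nat_lit 76) (nat_lit 807226886067) (nat_lit 34) (nat_lit 4) (nat_lit 35) (nat_lit 5) (nat_lit 35) (nat_lit 4) (nat_lit 515) (nat_lit 467) (nat_lit 218)) (XT.lf (nat_lit 0) (nat_lit 293568639793) (nat_lit 76) (nat_lit 903410453609) (nat_lit 152) (nat_lit 5949107598602) (nat_lit 32) (nat_lit 5) (nat_lit 33) (nat_lit 5) (nat_lit 34) (nat_lit 4) (nat_lit 516) (nat_lit 467) (nat_lit 217))) (XT.nd (nat_lit 78) (nat_lit 76) (nat_lit 0) (XT.lf (nat_lit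 0) (nat_lit 3457622614569) (nat_lit 152) (nat_lit 2649767521125) (nat_lit 0) (nat_lit 1424152359752) (nat_lit 32) (nat_lit 5) (nat_lit 34) (nat_lit 4) (nat_lit 32) (nat_lit 4) (nat_lit 517) (nat_lit 467) (nat_lit 216)) (XT.lf (nat_lit 0) (nat_lit 1963984291324) (nat_lit 76) (nat_lit 4005832400653) (nat_lit 76) (nat_lit 1972362145221) (nat_lit 31) (nat_lit 4) (nat_lit 32) (nat_lit 5) (nat_lit 32) (nat_lit 4) (nat_lit 518) (nat_lit 467) (nat_lit 215)))) (XT.nd (nat_lit 156) (nat_lit 76) (nat_lit 0) (XT.nd (nat_lit 78) (nat_lit 76) (nat_lit 0) (XT.lf (nat_lit 0) (nat_lit 356778187641) (nat_lit 152) (nat_lit 1291371625706) (nat_lit 76) (nat_lit 6730997737140) (nat_lit 30) (nat_lit 5) (nat_lit 32) (nat_lit 5) (nat_lit 31) (nat_lit 4) (nat_lit 519) (nat_lit 467) (nat_lit 214)) (XT.lf (nat_lit 0) (nat_lit 2885223818683) (nat_lit 152) (nat_lit 4949807910135) (nat_lit 0) (nat_lit 1002380988565) (nat_lit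 29) (nat_lit 5) (nat_lit 31) (nat_lit 4) (nat_lit 29) (nat_lit 4) (nat_lit 520) (nat_lit 467) (nat_lit 213))) (XT.nd (nat_lit 78) (nat_lit 0) (nat_lit 0) (XT.lf (nat_lit 0) (nat_lit 190636602005) (nat_lit 76) (nat_lit 5508927887526) (nat_lit 76) (nat_lit 3626085056957) (nat_lit 28) (nat_lit 4) (nat_lit 29) (nat_lit 5) (nat_lit 29) (nat_lit 4) (nat_lit 521) (nat_lit 467) (nat_lit 212)) (XT.lf (nat_lit 0) (nat_lit 6023816634184) (nat_lit 76) (nat_lit 2850572298612) (nat_lit 76) (nat_lit 967729467624) (nat_lit 28) (nat_lit 4) (nat_lit 29) (nat_lit 5) (nat_lit 29) (nat_lit 4) (nat_lit 522) (nat_lit 467) (nat_lit 211))))))))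
noncomputable def xc221 : XT := (XT.nd (nat_lit 59202) (nat_lit 0) (nat_lit 1824) (XT.nd (nat_lit 1092) (nat_lit 0) (nat_lit 0) (XT.nd (nat_lit 546) (nat_lit 456) (nat_lit 0) (XT.nd (nat_lit 234) (nat_lit 228) (nat_lit 0) (XT.nd (nat_lit 78) (nat_lit 76) (nat_lit 0) (XT.lf (nat_lit 0) (nat_lit 1858543366078) (nat_lit 152) (nat_lit 8418492336117) (nat_lit 0) (nat_lit 115170374064) (nat_lit 26) (nat_lit 5) (nat_lit 28) (nat_lit 4) (nat_lit 26) (nat_lit 4) (nat_lit 523) (nat_lit 467) (nat_lit 210)) (XT.nd (nat_lit 78) (nat_lit 76) (nat_lit 0) (XT.lf (nat_lit 0) (nat_lit 5039787139856) (nat_lit 152) (nat_lit 2633596481134) (nat_lit 0) (nat_lit 3296414147510) (nat_lit 26) (nat_lit 5) (nat_lit 28) (nat_lit 4) (nat_lit 26) (nat_lit 4) (nat_lit 524) (nat_lit 467) (nat_lit 209)) (XT.lf (nat_lit 0) (nat_lit 3804402669319) (nat_lit 76) (nat_lit 4762623720747) (nat_lit 76) (nat_lit 3019250728094) (nat_lit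 25) (nat_lit 4) (nat_lit 26) (nat_lit 5) (nat_lit 26) (nat_lit 4) (nat_lit 525) (nat_lit 467) (nat_lit 208)))) (XT.nd (nat_lit 156) (nat_lit 76) (nat_lit 0) (XT.nd (nat_lit 78) (nat_lit 76) (nat_lit 0) (XT.lf (nat_lit 0) (nat_lit 192025985691) (nat_lit 152) (nat_lit 1343958942699) (nat_lit 76) (nat_lit 10709940398510) (nat_lit 24) (nat_lit 5) (nat_lit 26) (nat_lit 5) (nat_lit 25) (nat_lit 4) (nat_lit 526) (nat_lit 467) (nat_lit 207)) (XT.lf (nat_lit 0) (nat_lit 3689643246195) (nat_lit 152) (nat_lit 7171614875485) (nat_lit 0) (nat_lit 2075408993230) (nat_lit 23) (nat_lit 5) (nat_lit 25) (nat_lit 4) (nat_lit 23) (nat_lit 4) (nat_lit 527) (nat_lit 467) (nat_lit 206))) (XT.nd (nat_lit 78) (nat_lit 76) (nat_lit 0) (XT.lf (nat_lit 0) (nat_lit 7544666265335) (nat_lit 152) (nat_lit 201362258258) (nat_lit 0) (nat_lit 5930432012144) (nat_lit 23) (nat_lit 5) (nat_lit 25) (nat_lit 4) (nat_lit 23) (nat_lit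 4) (nat_lit 528) (nat_lit 467) (nat_lit 205)) (XT.lf (nat_lit 0) (nat_lit 7712311629044) (nat_lit 76) (nat_lit 4181260776127) (nat_lit 76) (nat_lit 2567026522727) (nat_lit 22) (nat_lit 4) (nat_lit 23) (nat_lit 5) (nat_lit 23) (nat_lit 4) (nat_lit 529) (nat_lit 467) (nat_lit 204))))) (XT.nd (nat_lit 234) (nat_lit 228) (nat_lit 0) (XT.nd (nat_lit 78) (nat_lit 76) (nat_lit 0) (XT.lf (nat_lit 0) (nat_lit 981609912265) (nat_lit 76) (nat_lit 266392090551) (nat_lit 152) (nat_lit 14054657535409) (nat_lit 20) (nat_lit 5) (nat_lit 21) (nat_lit 5) (nat_lit 22) (nat_lit 4) (nat_lit 530) (nat_lit 467) (nat_lit 203)) (XT.nd (nat_lit 78) (nat_lit 76) (nat_lit 0) (XT.lf (nat_lit 0) (nat_lit 5514127470658) (nat_lit 152) (nat_lit 6650390859583) (nat_lit 0) (nat_lit 4019466124572) (nat_lit 20) (nat_lit 5) (nat_lit 22) (nat_lit 4) (nat_lit 20) (nat_lit 4) (nat_lit 531) (nat_lit 467) (nat_lit 202)) (XT.lf (nat_lit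 0) (nat_lit 1712676337943) (nat_lit 76) (nat_lit 8456975819261) (nat_lit 76) (nat_lit 6962314473021) (nat_lit 19) (nat_lit 4) (nat_lit 20) (nat_lit 5) (nat_lit 20) (nat_lit 4) (nat_lit 532) (nat_lit 467) (nat_lit 201)))) (XT.nd (nat_lit 156) (nat_lit 76) (nat_lit 0) (XT.nd (nat_lit 78) (nat_lit 152) (nat_lit 0) (XT.lf (nat_lit 0) (nat_lit 11123002530371) (nat_lit 76) (nat_lit 4256449759012) (nat_lit 76) (nat_lit 2761788412630) (nat_lit 19) (nat_lit 4) (nat_lit 20) (nat_lit 5) (nat_lit 20) (nat_lit 4) (nat_lit 533) (nat_lit 467) (nat_lit 200)) (XT.lf (nat_lit 0) (nat_lit 1746108892578) (nat_lit 152) (nat_lit 17114761059577) (nat_lit 0) (nat_lit 362163201361) (nat_lit 17) (nat_lit 5) (nat_lit 19) (nat_lit 4) (nat_lit 17) (nat_lit 4) (nat_lit 534) (nat_lit 467) (nat_lit 199))) (XT.nd (nat_lit 78) (nat_lit 76) (nat_lit 0) (XT.lf (nat_lit 0) (nat_lit 6772862061514) (nat_lit 152) (nat_lit 8199257197255)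 (nat_lit 0) (nat_lit 5388916370184) (nat_lit 17) (nat_lit 5) (nat_lit 19) (nat_lit 4) (nat_lit 17) (nat_lit 4) (nat_lit 535) (nat_lit 467) (nat_lit 198)) (XT.lf (nat_lit 0) (nat_lit 1504761223133) (nat_lit 76) (nat_lit 10733183803650) (nat_lit 76) (nat_lit 9349238112216) (nat_lit 16) (nat_lit 4) (nat_lit 17) (nat_lit 5) (nat_lit 17) (nat_lit 4) (nat_lit 536) (nat_lit 467) (nat_lit 197)))))) (XT.nd (nat_lit 57564) (nat_lit 0) (nat_lit 4560) (XT.nd (nat_lit 57252) (nat_lit 0) (nat_lit 5320) (XT.nd (nat_lit 57096) (nat_lit 0) (nat_lit 5852) (XT.lf (nat_lit 0) (nat_lit 12451400137550) (nat_lit 76) (nat_lit 5913016713062) (nat_lit 76) (nat_lit 4529071021531) (nat_lit 16) (nat_lit 4) (nat_lit 17) (nat_lit 5) (nat_lit 17) (nat_lit 4) (nat_lit 537) (nat_lit 467) (nat_lit 196)) (XT.nd (nat_lit 78) (nat_lit 0) (nat_lit 0) (XT.lf (nat_lit 0) (nat_lit 375428239902) (nat_lit 532) (nat_lit 2504595056)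 (nat_lit 532) (nat_lit 2504595056) (nat_lit 93) (nat_lit 3) (nat_lit 100) (nat_lit 3) (nat_lit 100) (nat_lit 5) (nat_lit 468) (nat_lit 468) (nat_lit 264)) (XT.lf (nat_lit 76) (nat_lit 393596500968) (nat_lit 0) (nat_lit 396760350079) (nat_lit 532) (nat_lit 195714403) (nat_lit 94) (nat_lit 5) (nat_lit 93) (nat_lit 3) (nat_lit 100) (nat_lit 5) (nat_lit 469) (nat_lit 468) (nat_lit 263)))) (XT.nd (nat_lit 156) (nat_lit 0) (nat_lit 76) (XT.nd (nat_lit 78) (nat_lit 0) (nat_lit 76) (XT.lf (nat_lit 76) (nat_lit 1608464523) (nat_lit 0) (nat_lit 8462601541) (nat_lit 608) (nat_lit 812499051862) (nat_lit 87) (nat_lit 5) (nat_lit 86) (nat_lit 5) (nat_lit 94) (nat_lit 5) (nat_lit 470) (nat_lit 468) (nat_lit 262)) (XT.lf (nat_lit 0) (nat_lit 42166125899) (nat_lit 532) (nat_lit 411816526624) (nat_lit 608) (nat_lit 401484614551) (nat_lit 87) (nat_lit 5) (nat_lit 94) (nat_lit 5) (nat_lit 95) (nat_lit 5) (nat_lit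 471) (nat_lit 468) (nat_lit 261))) (XT.nd (nat_lit 78) (nat_lit 0) (nat_lit 76) (XT.lf (nat_lit 76) (nat_lit 31411737944) (nat_lit 0) (nat_lit 46392303882) (nat_lit 608) (nat_lit 813114126224) (nat_lit 88) (nat_lit 5) (nat_lit 87) (nat_lit 5) (nat_lit 95) (nat_lit 5) (nat_lit 472) (nat_lit 468) (nat_lit 260)) (XT.lf (nat_lit 0) (nat_lit 137316264144) (nat_lit 532) (nat_lit 404549219092) (nat_lit 608) (nat_lit 385657796020) (nat_lit 88) (nat_lit 5) (nat_lit 95) (nat_lit 5) (nat_lit 96) (nat_lit 5) (nat_lit 473) (nat_lit 468) (nat_lit 259))))) (XT.nd (nat_lit 234) (nat_lit 456) (nat_lit 0) (XT.nd (nat_lit 78) (nat_lit 456) (nat_lit 0) (XT.lf (nat_lit 76) (nat_lit 90107088475) (nat_lit 0) (nat_lit 114854440012) (nat_lit 608) (nat_lit 761825505733) (nat_lit 89) (nat_lit 5) (nat_lit 88) (nat_lit 5) (nat_lit 96) (nat_lit 5) (nat_lit 474) (nat_lit 468) (nat_lit 258)) (XT.nd (nat_lit 78) (nat_lit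 532) (nat_lit 0) (XT.lf (nat_lit 0) (nat_lit 297695743711) (nat_lit 532) (nat_lit 369580281370) (nat_lit 76) (nat_lit 340341678124) (nat_lit 89) (nat_lit 5) (nat_lit 96) (nat_lit 5) (nat_lit 90) (nat_lit 5) (nat_lit 475) (nat_lit 468) (nat_lit 257)) (XT.lf (nat_lit 0) (nat_lit 184324789588) (nat_lit 532) (nat_lit 220940147145) (nat_lit 608) (nat_lit 645856589729) (nat_lit 82) (nat_lit 5) (nat_lit 89) (nat_lit 5) (nat_lit 90) (nat_lit 5) (nat_lit 476) (nat_lit 468) (nat_lit 256)))) (XT.nd (nat_lit 156) (nat_lit 228) (nat_lit 0) (XT.nd (nat_lit 78) (nat_lit 228) (nat_lit 0) (XT.lf (nat_lit 0) (nat_lit 538086629016) (nat_lit 608) (nat_lit 300278630972) (nat_lit 76) (nat_lit 258408638487) (nat_lit 82) (nat_lit 5) (nat_lit 90) (nat_lit 5) (nat_lit 83) (nat_lit 5) (nat_lit 477) (nat_lit 468) (nat_lit 255)) (XT.lf (nat_lit 0) (nat_lit 321926267280) (nat_lit 228) (nat_lit 373088822632) (nat_lit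 304) (nat_lit 449984887679) (nat_lit 79) (nat_lit 5) (nat_lit 82) (nat_lit 5) (nat_lit 83) (nat_lit 5) (nat_lit 478) (nat_lit 468) (nat_lit 254))) (XT.nd (nat_lit 78) (nat_lit 228) (nat_lit 0) (XT.lf (nat_lit 0) (nat_lit 876033529293) (nat_lit 304) (nat_lit 188768226601) (nat_lit 76) (nat_lit 131359531015) (nat_lit 79) (nat_lit 5) (nat_lit 83) (nat_lit 5) (nat_lit 80) (nat_lit 5) (nat_lit 479) (nat_lit 468) (nat_lit 253)) (XT.lf (nat_lit 0) (nat_lit 512214094013) (nat_lit 228) (nat_lit 581328724250) (nat_lit 304) (nat_lit 156111932754) (nat_lit 76) (nat_lit 5) (nat_lit 79) (nat_lit 5) (nat_lit 80) (nat_lit 5) (nat_lit 480) (nat_lit 468) (nat_lit 252))))))) (XT.nd (nat_lit 1092) (nat_lit 1216) (nat_lit 0) (XT.nd (nat_lit 546) (nat_lit 608) (nat_lit 0) (XT.nd (nat_lit 234) (nat_lit 380) (nat_lit 0) (XT.nd (nat_lit 78) (nat_lit 456) (nat_lit 0) (XT.lf (nat_lit 0) (nat_lit 25268705538) (nat_lit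 304) (nat_lit 27644095852) (nat_lit 76) (nat_lit 1254050813539) (nat_lit 75) (nat_lit 5) (nat_lit 79) (nat_lit 5) (nat_lit 76) (nat_lit 5) (nat_lit 481) (nat_lit 468) (nat_lit 251)) (XT.nd (nat_lit 78) (nat_lit 228) (nat_lit 0) (XT.lf (nat_lit 0) (nat_lit 244371372964) (nat_lit 304) (nat_lit 606506647335) (nat_lit 76) (nat_lit 515123125041) (nat_lit 72) (nat_lit 5) (nat_lit 76) (nat_lit 5) (nat_lit 73) (nat_lit 5) (nat_lit 482) (nat_lit 468) (nat_lit 250)) (XT.lf (nat_lit 0) (nat_lit 189563867937) (nat_lit 228) (nat_lit 298147225775) (nat_lit 304) (nat_lit 941513877277) (nat_lit 69) (nat_lit 5) (nat_lit 72) (nat_lit 5) (nat_lit 73) (nat_lit 5) (nat_lit 483) (nat_lit 468) (nat_lit 249)))) (XT.nd (nat_lit 156) (nat_lit 228) (nat_lit 0) (XT.nd (nat_lit 78) (nat_lit 152) (nat_lit 0) (XT.lf (nat_lit 0) (nat_lit 774717876452) (nat_lit 304) (nat_lit 419984399461) (nat_lit 76) (nat_lit 300868436032)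 (nat_lit 69) (nat_lit 5) (nat_lit 73) (nat_lit 5) (nat_lit 70) (nat_lit 5) (nat_lit 484) (nat_lit 468) (nat_lit 248)) (XT.lf (nat_lit 0) (nat_lit 481614666793) (nat_lit 152) (nat_lit 622397458774) (nat_lit 228) (nat_lit 461665832709) (nat_lit 67) (nat_lit 5) (nat_lit 69) (nat_lit 5) (nat_lit 70) (nat_lit 5) (nat_lit 485) (nat_lit 468) (nat_lit 247))) (XT.nd (nat_lit 78) (nat_lit 228) (nat_lit 0) (XT.lf (nat_lit 0) (nat_lit 1471327677294) (nat_lit 228) (nat_lit 161443246905) (nat_lit 76) (nat_lit 7688639102) (nat_lit 67) (nat_lit 5) (nat_lit 70) (nat_lit 5) (nat_lit 68) (nat_lit 5) (nat_lit 486) (nat_lit 468) (nat_lit 246)) (XT.lf (nat_lit 0) (nat_lit 177315129038) (nat_lit 228) (nat_lit 860823174252) (nat_lit 76) (nat_lit 679774610998) (nat_lit 64) (nat_lit 5) (nat_lit 67) (nat_lit 5) (nat_lit 65) (nat_lit 5) (nat_lit 487) (nat_lit 468) (nat_lit 245))))) (XT.nd (nat_lit 234) (nat_lit 304)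 (nat_lit 0) (XT.nd (nat_lit 78) (nat_lit 152) (nat_lit 0) (XT.lf (nat_lit 0) (nat_lit 169025005081) (nat_lit 152) (nat_lit 381909234498) (nat_lit 228) (nat_lit 1249589342961) (nat_lit 62) (nat_lit 5) (nat_lit 64) (nat_lit 5) (nat_lit 65) (nat_lit 5) (nat_lit 488) (nat_lit 468) (nat_lit 244)) (XT.nd (nat_lit 78) (nat_lit 152) (nat_lit 0) (XT.lf (nat_lit 0) (nat_lit 986450626799) (nat_lit 228) (nat_lit 566114700672) (nat_lit 76) (nat_lit 334617156956) (nat_lit 62) (nat_lit 5) (nat_lit 65) (nat_lit 5) (nat_lit 63) (nat_lit 5) (nat_lit 489) (nat_lit 468) (nat_lit 243)) (XT.lf (nat_lit 0) (nat_lit 604836533455) (nat_lit 152) (nat_lit 876437841632) (nat_lit 228) (nat_lit 497542439370) (nat_lit 60) (nat_lit 5) (nat_lit 62) (nat_lit 5) (nat_lit 63) (nat_lit 5) (nat_lit 490) (nat_lit 468) (nat_lit 242)))) (XT.nd (nat_lit 156) (nat_lit 152) (nat_lit 0) (XT.nd (nat_lit 78) (nat_lit 152) (nat_lit 0)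 (XT.lf (nat_lit 0) (nat_lit 1901659305667) (nat_lit 152) (nat_lit 129503293400) (nat_lit 228) (nat_lit 45381005757) (nat_lit 60) (nat_lit 5) (nat_lit 62) (nat_lit 5) (nat_lit 63) (nat_lit 5) (nat_lit 491) (nat_lit 468) (nat_lit 241)) (XT.lf (nat_lit 0) (nat_lit 466175887935) (nat_lit 152) (nat_lit 1028371941279) (nat_lit 76) (nat_lit 683057996879) (nat_lit 58) (nat_lit 5) (nat_lit 60) (nat_lit 5) (nat_lit 59) (nat_lit 5) (nat_lit 492) (nat_lit 468) (nat_lit 240))) (XT.nd (nat_lit 78) (nat_lit 0) (nat_lit 0) (XT.lf (nat_lit 0) (nat_lit 313892369751) (nat_lit 152) (nat_lit 718131893462) (nat_lit 228) (nat_lit 1253368969005) (nat_lit 56) (nat_lit 5) (nat_lit 58) (nat_lit 5) (nat_lit 59) (nat_lit 5) (nat_lit 493) (nat_lit 468) (nat_lit 239)) (XT.lf (nat_lit 0) (nat_lit 1674883900129) (nat_lit 228) (nat_lit 581157869291) (nat_lit 76) (nat_lit 143222390085) (nat_lit 56) (nat_lit 5) (nat_lit 59)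 (nat_lit 5) (nat_lit 57) (nat_lit 4) (nat_lit 494) (nat_lit 468) (nat_lit 238)))))) (XT.nd (nat_lit 546) (nat_lit 532) (nat_lit 0) (XT.nd (nat_lit 234) (nat_lit 380) (nat_lit 0) (XT.nd (nat_lit 78) (nat_lit 228) (nat_lit 0) (XT.lf (nat_lit 0) (nat_lit 949244854139) (nat_lit 76) (nat_lit 1461409589074) (nat_lit 152) (nat_lit 108271746945) (nat_lit 55) (nat_lit 5) (nat_lit 56) (nat_lit 5) (nat_lit 57) (nat_lit 4) (nat_lit 495) (nat_lit 468) (nat_lit 237)) (XT.nd (nat_lit 78) (nat_lit 152) (nat_lit 0) (XT.lf (nat_lit 0) (nat_lit 545558382850) (nat_lit 152) (nat_lit 25570843498) (nat_lit 76) (nat_lit 2074655837879) (nat_lit 54) (nat_lit 5) (nat_lit 56) (nat_lit 5) (nat_lit 55) (nat_lit 5) (nat_lit 496) (nat_lit 468) (nat_lit 236)) (XT.lf (nat_lit 0) (nat_lit 1297885056906) (nat_lit 228) (nat_lit 1064210561979) (nat_lit 76) (nat_lit 416308879445) (nat_lit 52) (nat_lit 5) (nat_lit 55) (nat_lit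 5) (nat_lit 53) (nat_lit 4) (nat_lit 497) (nat_lit 468) (nat_lit 235)))) (XT.nd (nat_lit 156) (nat_lit 228) (nat_lit 0) (XT.nd (nat_lit 78) (nat_lit 76) (nat_lit 0) (XT.lf (nat_lit 0) (nat_lit 692821634555) (nat_lit 76) (nat_lit 1449790442101) (nat_lit 152) (nat_lit 776444273564) (nat_lit 51) (nat_lit 5) (nat_lit 52) (nat_lit 5) (nat_lit 53) (nat_lit 4) (nat_lit 498) (nat_lit 468) (nat_lit 234)) (XT.lf (nat_lit 0) (nat_lit 14612625055) (nat_lit 152) (nat_lit 418063498081) (nat_lit 76) (nat_lit 2635926839915) (nat_lit 50) (nat_lit 5) (nat_lit 52) (nat_lit 5) (nat_lit 51) (nat_lit 5) (nat_lit 499) (nat_lit 468) (nat_lit 233))) (XT.nd (nat_lit 78) (nat_lit 76) (nat_lit 0) (XT.lf (nat_lit 0) (nat_lit 882882530401) (nat_lit 228) (nat_lit 1648614978428) (nat_lit 76) (nat_lit 692532276343) (nat_lit 48) (nat_lit 5) (nat_lit 51) (nat_lit 5) (nat_lit 49) (nat_lit 4) (nat_lit 500) (nat_lit 468) (nat_lit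 232)) (XT.lf (nat_lit 0) (nat_lit 368046652667) (nat_lit 76) (nat_lit 1484384740443) (nat_lit 152) (nat_lit 1536913970756) (nat_lit 47) (nat_lit 5) (nat_lit 48) (nat_lit 5) (nat_lit 49) (nat_lit 4) (nat_lit 501) (nat_lit 468) (nat_lit 231))))) (XT.nd (nat_lit 312) (nat_lit 304) (nat_lit 0) (XT.nd (nat_lit 156) (nat_lit 76) (nat_lit 0) (XT.nd (nat_lit 78) (nat_lit 152) (nat_lit 0) (XT.lf (nat_lit 0) (nat_lit 2639799404744) (nat_lit 76) (nat_lit 304820812967) (nat_lit 152) (nat_lit 619659886916) (nat_lit 47) (nat_lit 5) (nat_lit 48) (nat_lit 5) (nat_lit 49) (nat_lit 4) (nat_lit 502) (nat_lit 468) (nat_lit 230)) (XT.lf (nat_lit 0) (nat_lit 410531293661) (nat_lit 152) (nat_lit 2372956623036) (nat_lit 76) (nat_lit 964358798802) (nat_lit 45) (nat_lit 5) (nat_lit 47) (nat_lit 5) (nat_lit 46) (nat_lit 4) (nat_lit 503) (nat_lit 468) (nat_lit 229))) (XT.nd (nat_lit 78) (nat_lit 76) (nat_lit 0) (XT.lf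 (nat_lit 0) (nat_lit 1523510945914) (nat_lit 152) (nat_lit 57958948806) (nat_lit 76) (nat_lit 2360633083066) (nat_lit 45) (nat_lit 5) (nat_lit 47) (nat_lit 5) (nat_lit 46) (nat_lit 4) (nat_lit 504) (nat_lit 468) (nat_lit 228)) (XT.lf (nat_lit 0) (nat_lit 2570842488972) (nat_lit 76) (nat_lit 216515303121) (nat_lit 152) (nat_lit 1359595643223) (nat_lit 44) (nat_lit 5) (nat_lit 45) (nat_lit 5) (nat_lit 46) (nat_lit 4) (nat_lit 505) (nat_lit 468) (nat_lit 227)))) (XT.nd (nat_lit 156) (nat_lit 152) (nat_lit 0) (XT.nd (nat_lit 78) (nat_lit 76) (nat_lit 0) (XT.lf (nat_lit 0) (nat_lit 1068334132728) (nat_lit 76) (nat_lit 3141543742088) (nat_lit 76) (nat_lit 153708815525) (nat_lit 43) (nat_lit 4) (nat_lit 44) (nat_lit 5) (nat_lit 44) (nat_lit 4) (nat_lit 506) (nat_lit 468) (nat_lit 226)) (XT.lf (nat_lit 0) (nat_lit 1141025640015) (nat_lit 152) (nat_lit 614501597136) (nat_lit 76) (nat_lit 2835826425445)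 (nat_lit 42) (nat_lit 5) (nat_lit 44) (nat_lit 5) (nat_lit 43) (nat_lit 4) (nat_lit 507) (nat_lit 468) (nat_lit 225))) (XT.nd (nat_lit 78) (nat_lit 76) (nat_lit 0) (XT.lf (nat_lit 0) (nat_lit 2396604882529) (nat_lit 76) (nat_lit 192068104282) (nat_lit 152) (nat_lit 2243738538615) (nat_lit 41) (nat_lit 5) (nat_lit 42) (nat_lit 5) (nat_lit 43) (nat_lit 4) (nat_lit 508) (nat_lit 468) (nat_lit 224)) (XT.lf (nat_lit 0) (nat_lit 584973488416) (nat_lit 76) (nat_lit 3634455310118) (nat_lit 76) (nat_lit 867941484575) (nat_lit 40) (nat_lit 4) (nat_lit 41) (nat_lit 5) (nat_lit 41) (nat_lit 4) (nat_lit 509) (nat_lit 468) (nat_lit 223))))))))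
noncomputable def xc222 : XT := (XT.nd (nat_lit 59358) (nat_lit 0) (nat_lit 2660) (XT.nd (nat_lit 1092) (nat_lit 836) (nat_lit 0) (XT.nd (nat_lit 546) (nat_lit 456) (nat_lit 0) (XT.nd (nat_lit 234) (nat_lit 304) (nat_lit 0) (XT.nd (nat_lit 78) (nat_lit 76) (nat_lit 0) (XT.lf (nat_lit 0) (nat_lit 660326407708) (nat_lit 152) (nat_lit 1393034898836) (nat_lit 76) (nat_lit 3302310124748) (nat_lit 39) (nat_lit 5) (nat_lit 41) (nat_lit 5) (nat_lit 40) (nat_lit 4) (nat_lit 510) (nat_lit 468) (nat_lit 222)) (XT.nd (nat_lit 78) (nat_lit 0) (nat_lit 0) (XT.lf (nat_lit 0) (nat_lit 2044822304075) (nat_lit 76) (nat_lit 268320067161) (nat_lit 152) (nat_lit 3326556543403) (nat_lit 38) (nat_lit 5) (nat_lit 39) (nat_lit 5) (nat_lit 40) (nat_lit 4) (nat_lit 511) (nat_lit 468) (nat_lit 221)) (XT.lf (nat_lit 0) (nat_lit 4177172556296) (nat_lit 152) (nat_lit 147371247428) (nat_lit 0) (nat_lit 1615585677374) (nat_lit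 38) (nat_lit 5) (nat_lit 40) (nat_lit 4) (nat_lit 38) (nat_lit 4) (nat_lit 512) (nat_lit 468) (nat_lit 220)))) (XT.nd (nat_lit 156) (nat_lit 76) (nat_lit 0) (XT.nd (nat_lit 78) (nat_lit 76) (nat_lit 0) (XT.lf (nat_lit 0) (nat_lit 29296683827) (nat_lit 152) (nat_lit 2500649777536) (nat_lit 76) (nat_lit 3726802864457) (nat_lit 36) (nat_lit 5) (nat_lit 38) (nat_lit 5) (nat_lit 37) (nat_lit 4) (nat_lit 513) (nat_lit 468) (nat_lit 219)) (XT.lf (nat_lit 0) (nat_lit 1406306110020) (nat_lit 76) (nat_lit 501334750951) (nat_lit 152) (nat_lit 4684358150443) (nat_lit 35) (nat_lit 5) (nat_lit 36) (nat_lit 5) (nat_lit 37) (nat_lit 4) (nat_lit 514) (nat_lit 468) (nat_lit 218))) (XT.nd (nat_lit 78) (nat_lit 76) (nat_lit 0) (XT.lf (nat_lit 0) (nat_lit 4047034768896) (nat_lit 152) (nat_lit 1222976263554) (nat_lit 0) (nat_lit 1675195063677) (nat_lit 35) (nat_lit 5) (nat_lit 37) (nat_lit 4) (nat_lit 35) (nat_lit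 4) (nat_lit 515) (nat_lit 468) (nat_lit 217)) (XT.lf (nat_lit 0) (nat_lit 3204013765616) (nat_lit 76) (nat_lit 3243644712425) (nat_lit 76) (nat_lit 871805006489) (nat_lit 34) (nat_lit 4) (nat_lit 35) (nat_lit 5) (nat_lit 35) (nat_lit 4) (nat_lit 516) (nat_lit 468) (nat_lit 216))))) (XT.nd (nat_lit 234) (nat_lit 228) (nat_lit 0) (XT.nd (nat_lit 78) (nat_lit 76) (nat_lit 0) (XT.lf (nat_lit 0) (nat_lit 317054187379) (nat_lit 76) (nat_lit 975683261648) (nat_lit 152) (nat_lit 6425036176085) (nat_lit 32) (nat_lit 5) (nat_lit 33) (nat_lit 5) (nat_lit 34) (nat_lit 4) (nat_lit 517) (nat_lit 468) (nat_lit 215)) (XT.nd (nat_lit 78) (nat_lit 76) (nat_lit 0) (XT.lf (nat_lit 0) (nat_lit 3734232450431) (nat_lit 152) (nat_lit 2861748869134) (nat_lit 0) (nat_lit 1538084573381) (nat_lit 32) (nat_lit 5) (nat_lit 34) (nat_lit 4) (nat_lit 32) (nat_lit 4) (nat_lit 518) (nat_lit 468) (nat_lit 214)) (XT.lf (nat_lit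 0) (nat_lit 2121103086952) (nat_lit 76) (nat_lit 4326298966360) (nat_lit 76) (nat_lit 2130151088784) (nat_lit 31) (nat_lit 4) (nat_lit 32) (nat_lit 5) (nat_lit 32) (nat_lit 4) (nat_lit 519) (nat_lit 468) (nat_lit 213)))) (XT.nd (nat_lit 156) (nat_lit 76) (nat_lit 0) (XT.nd (nat_lit 78) (nat_lit 76) (nat_lit 0) (XT.lf (nat_lit 0) (nat_lit 385320467330) (nat_lit 152) (nat_lit 1394681306017) (nat_lit 76) (nat_lit 7269477579205) (nat_lit 30) (nat_lit 5) (nat_lit 32) (nat_lit 5) (nat_lit 31) (nat_lit 4) (nat_lit 520) (nat_lit 468) (nat_lit 212)) (XT.lf (nat_lit 0) (nat_lit 3116041748783) (nat_lit 152) (nat_lit 5345792493127) (nat_lit 0) (nat_lit 1082571490897) (nat_lit 29) (nat_lit 5) (nat_lit 31) (nat_lit 4) (nat_lit 29) (nat_lit 4) (nat_lit 521) (nat_lit 468) (nat_lit 211))) (XT.nd (nat_lit 78) (nat_lit 0) (nat_lit 0) (XT.lf (nat_lit 0) (nat_lit 205887578724) (nat_lit 76) (nat_lit 5949642093920)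 (nat_lit 76) (nat_lit 3916171835647) (nat_lit 28) (nat_lit 4) (nat_lit 29) (nat_lit 5) (nat_lit 29) (nat_lit 4) (nat_lit 522) (nat_lit 468) (nat_lit 210)) (XT.lf (nat_lit 0) (nat_lit 6505722009881) (nat_lit 76) (nat_lit 3078618059715) (nat_lit 76) (nat_lit 1045147801084) (nat_lit 28) (nat_lit 4) (nat_lit 29) (nat_lit 5) (nat_lit 29) (nat_lit 4) (nat_lit 523) (nat_lit 468) (nat_lit 209)))))) (XT.nd (nat_lit 546) (nat_lit 380) (nat_lit 0) (XT.nd (nat_lit 234) (nat_lit 228) (nat_lit 0) (XT.nd (nat_lit 78) (nat_lit 76) (nat_lit 0) (XT.lf (nat_lit 0) (nat_lit 2007226858062) (nat_lit 152) (nat_lit 9091971676792) (nat_lit 0) (nat_lit 124384025689) (nat_lit 26) (nat_lit 5) (nat_lit 28) (nat_lit 4) (nat_lit 26) (nat_lit 4) (nat_lit 524) (nat_lit 468) (nat_lit 208)) (XT.nd (nat_lit 78) (nat_lit 76) (nat_lit 0) (XT.lf (nat_lit 0) (nat_lit 5442970132062) (nat_lit 152) (nat_lit 2844284156834) (nat_lit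 0) (nat_lit 3560127299404) (nat_lit 26) (nat_lit 5) (nat_lit 28) (nat_lit 4) (nat_lit 26) (nat_lit 4) (nat_lit 525) (nat_lit 468) (nat_lit 207)) (XT.lf (nat_lit 0) (nat_lit 4108754924572) (nat_lit 76) (nat_lit 5143633597162) (nat_lit 76) (nat_lit 3260790764241) (nat_lit 25) (nat_lit 4) (nat_lit 26) (nat_lit 5) (nat_lit 26) (nat_lit 4) (nat_lit 526) (nat_lit 468) (nat_lit 206)))) (XT.nd (nat_lit 156) (nat_lit 76) (nat_lit 0) (XT.nd (nat_lit 78) (nat_lit 76) (nat_lit 0) (XT.lf (nat_lit 0) (nat_lit 207388083986) (nat_lit 152) (nat_lit 1451475618473) (nat_lit 76) (nat_lit 11566735649038) (nat_lit 24) (nat_lit 5) (nat_lit 26) (nat_lit 5) (nat_lit 25) (nat_lit 4) (nat_lit 527) (nat_lit 468) (nat_lit 205)) (XT.lf (nat_lit 0) (nat_lit 3984814725293) (nat_lit 152) (nat_lit 7745344025846) (nat_lit 0) (nat_lit 2241441731412) (nat_lit 23) (nat_lit 5) (nat_lit 25) (nat_lit 4) (nat_lit 23) (nat_lit 4)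 (nat_lit 528) (nat_lit 468) (nat_lit 204))) (XT.nd (nat_lit 78) (nat_lit 76) (nat_lit 0) (XT.lf (nat_lit 0) (nat_lit 8148239584527) (nat_lit 152) (nat_lit 217471202180) (nat_lit 0) (nat_lit 6404866590452) (nat_lit 23) (nat_lit 5) (nat_lit 25) (nat_lit 4) (nat_lit 23) (nat_lit 4) (nat_lit 529) (nat_lit 468) (nat_lit 203)) (XT.lf (nat_lit 0) (nat_lit 8329296595177) (nat_lit 76) (nat_lit 4515761619903) (nat_lit 76) (nat_lit 2772388625649) (nat_lit 22) (nat_lit 4) (nat_lit 23) (nat_lit 5) (nat_lit 23) (nat_lit 4) (nat_lit 530) (nat_lit 468) (nat_lit 202))))) (XT.nd (nat_lit 234) (nat_lit 152) (nat_lit 0) (XT.nd (nat_lit 78) (nat_lit 76) (nat_lit 0) (XT.lf (nat_lit 0) (nat_lit 1060138741070) (nat_lit 76) (nat_lit 287703439453) (nat_lit 152) (nat_lit 15179030119361) (nat_lit 20) (nat_lit 5) (nat_lit 21) (nat_lit 5) (nat_lit 22) (nat_lit 4) (nat_lit 531) (nat_lit 468) (nat_lit 201)) (XT.nd (nat_lit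 78) (nat_lit 76) (nat_lit 0) (XT.lf (nat_lit 0) (nat_lit 5955257684906) (nat_lit 152) (nat_lit 7182422094293) (nat_lit 0) (nat_lit 4341023430671) (nat_lit 20) (nat_lit 5) (nat_lit 22) (nat_lit 4) (nat_lit 20) (nat_lit 4) (nat_lit 532) (nat_lit 468) (nat_lit 200)) (XT.lf (nat_lit 0) (nat_lit 1849690478173) (nat_lit 76) (nat_lit 9133533867772) (nat_lit 76) (nat_lit 7519299613405) (nat_lit 19) (nat_lit 4) (nat_lit 20) (nat_lit 5) (nat_lit 20) (nat_lit 4) (nat_lit 533) (nat_lit 468) (nat_lit 199)))) (XT.nd (nat_lit 156) (nat_lit 0) (nat_lit 0) (XT.nd (nat_lit 78) (nat_lit 152) (nat_lit 0) (XT.lf (nat_lit 0) (nat_lit 12012842763536) (nat_lit 76) (nat_lit 4596965723965) (nat_lit 76) (nat_lit 2982731469476) (nat_lit 19) (nat_lit 4) (nat_lit 20) (nat_lit 5) (nat_lit 20) (nat_lit 4) (nat_lit 534) (nat_lit 468) (nat_lit 198)) (XT.lf (nat_lit 0) (nat_lit 1885797619322) (nat_lit 152) (nat_lit 18483941912780)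 (nat_lit 0) (nat_lit 391136272468) (nat_lit 17) (nat_lit 5) (nat_lit 19) (nat_lit 4) (nat_lit 17) (nat_lit 4) (nat_lit 535) (nat_lit 468) (nat_lit 197))) (XT.nd (nat_lit 57252) (nat_lit 0) (nat_lit 5776) (XT.lf (nat_lit 0) (nat_lit 7314691040637) (nat_lit 152) (nat_lit 8855197743811) (nat_lit 0) (nat_lit 5820029693686) (nat_lit 17) (nat_lit 5) (nat_lit 19) (nat_lit 4) (nat_lit 17) (nat_lit 4) (nat_lit 536) (nat_lit 468) (nat_lit 196)) (XT.lf (nat_lit 0) (nat_lit 405462603264) (nat_lit 532) (nat_lit 2704906401) (nat_lit 532) (nat_lit 2704906401) (nat_lit 93) (nat_lit 3) (nat_lit 100) (nat_lit 3) (nat_lit 100) (nat_lit 5) (nat_lit 469) (nat_lit 469) (nat_lit 262))))))) (XT.nd (nat_lit 1092) (nat_lit 1520) (nat_lit 0) (XT.nd (nat_lit 546) (nat_lit 1064) (nat_lit 0) (XT.nd (nat_lit 234) (nat_lit 0) (nat_lit 76) (XT.nd (nat_lit 78) (nat_lit 532) (nat_lit 0) (XT.lf (nat_lit 76) (nat_lit 425084330714)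 (nat_lit 0) (nat_lit 428501263961) (nat_lit 532) (nat_lit 211160342) (nat_lit 94) (nat_lit 5) (nat_lit 93) (nat_lit 3) (nat_lit 100) (nat_lit 5) (nat_lit 470) (nat_lit 469) (nat_lit 261)) (XT.nd (nat_lit 78) (nat_lit 0) (nat_lit 76) (XT.lf (nat_lit 76) (nat_lit 1737258899) (nat_lit 0) (nat_lit 9139681055) (nat_lit 608) (nat_lit 877498772296) (nat_lit 87) (nat_lit 5) (nat_lit 86) (nat_lit 5) (nat_lit 94) (nat_lit 5) (nat_lit 471) (nat_lit 469) (nat_lit 260)) (XT.lf (nat_lit 0) (nat_lit 45539589015) (nat_lit 532) (nat_lit 444761724641) (nat_lit 608) (nat_lit 433603320919) (nat_lit 87) (nat_lit 5) (nat_lit 94) (nat_lit 5) (nat_lit 95) (nat_lit 5) (nat_lit 472) (nat_lit 469) (nat_lit 259)))) (XT.nd (nat_lit 156) (nat_lit 0) (nat_lit 76) (XT.nd (nat_lit 78) (nat_lit 0) (nat_lit 76) (XT.lf (nat_lit 76) (nat_lit 33924797950) (nat_lit 0) (nat_lit 50103730358) (nat_lit 608) (nat_lit 878163080117)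 (nat_lit 88) (nat_lit 5) (nat_lit 87) (nat_lit 5) (nat_lit 95) (nat_lit 5) (nat_lit 473) (nat_lit 469) (nat_lit 258)) (XT.lf (nat_lit 0) (nat_lit 148301715388) (nat_lit 532) (nat_lit 436913031569) (nat_lit 608) (nat_lit 416510382613) (nat_lit 88) (nat_lit 5) (nat_lit 95) (nat_lit 5) (nat_lit 96) (nat_lit 5) (nat_lit 474) (nat_lit 469) (nat_lit 257))) (XT.nd (nat_lit 78) (nat_lit 0) (nat_lit 76) (XT.lf (nat_lit 76) (nat_lit 97315777437) (nat_lit 0) (nat_lit 124042815253) (nat_lit 608) (nat_lit 822771392898) (nat_lit 89) (nat_lit 5) (nat_lit 88) (nat_lit 5) (nat_lit 96) (nat_lit 5) (nat_lit 475) (nat_lit 469) (nat_lit 256)) (XT.lf (nat_lit 0) (nat_lit 321511534173) (nat_lit 532) (nat_lit 399146580050) (nat_lit 76) (nat_lit 367568994747) (nat_lit 89) (nat_lit 5) (nat_lit 96) (nat_lit 5) (nat_lit 90) (nat_lit 5) (nat_lit 476) (nat_lit 469) (nat_lit 255))))) (XT.nd (nat_lit 234) (nat_lit 532)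 (nat_lit 0) (XT.nd (nat_lit 78) (nat_lit 228) (nat_lit 0) (XT.lf (nat_lit 0) (nat_lit 199070893450) (nat_lit 532) (nat_lit 238615362388) (nat_lit 608) (nat_lit 697524982794) (nat_lit 82) (nat_lit 5) (nat_lit 89) (nat_lit 5) (nat_lit 90) (nat_lit 5) (nat_lit 477) (nat_lit 469) (nat_lit 254)) (XT.nd (nat_lit 78) (nat_lit 228) (nat_lit 0) (XT.lf (nat_lit 0) (nat_lit 581133674229) (nat_lit 608) (nat_lit 324300800407) (nat_lit 76) (nat_lit 279081326513) (nat_lit 82) (nat_lit 5) (nat_lit 90) (nat_lit 5) (nat_lit 83) (nat_lit 5) (nat_lit 478) (nat_lit 469) (nat_lit 253)) (XT.lf (nat_lit 0) (nat_lit 347680486640) (nat_lit 228) (nat_lit 402935919684) (nat_lit 304) (nat_lit 485983560725) (nat_lit 79) (nat_lit 5) (nat_lit 82) (nat_lit 5) (nat_lit 83) (nat_lit 5) (nat_lit 479) (nat_lit 469) (nat_lit 252)))) (XT.nd (nat_lit 156) (nat_lit 304) (nat_lit 0) (XT.nd (nat_lit 78) (nat_lit 228) (nat_lit 0)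 (XT.lf (nat_lit 0) (nat_lit 946116312959) (nat_lit 304) (nat_lit 203869567584) (nat_lit 76) (nat_lit 141868301201) (nat_lit 79) (nat_lit 5) (nat_lit 83) (nat_lit 5) (nat_lit 80) (nat_lit 5) (nat_lit 480) (nat_lit 469) (nat_lit 251)) (XT.lf (nat_lit 0) (nat_lit 553191335713) (nat_lit 228) (nat_lit 627835004574) (nat_lit 304) (nat_lit 168600783075) (nat_lit 76) (nat_lit 5) (nat_lit 79) (nat_lit 5) (nat_lit 80) (nat_lit 5) (nat_lit 481) (nat_lit 469) (nat_lit 250))) (XT.nd (nat_lit 78) (nat_lit 228) (nat_lit 0) (XT.lf (nat_lit 0) (nat_lit 27290293723) (nat_lit 304) (nat_lit 29855512959) (nat_lit 76) (nat_lit 1354374890093) (nat_lit 75) (nat_lit 5) (nat_lit 79) (nat_lit 5) (nat_lit 76) (nat_lit 5) (nat_lit 482) (nat_lit 469) (nat_lit 249)) (XT.lf (nat_lit 0) (nat_lit 263921170826) (nat_lit 304) (nat_lit 655027064835) (nat_lit 76) (nat_lit 556332994256) (nat_lit 72) (nat_lit 5) (nat_lit 76) (nat_lit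 5) (nat_lit 73) (nat_lit 5) (nat_lit 483) (nat_lit 469) (nat_lit 248)))))) (XT.nd (nat_lit 546) (nat_lit 760) (nat_lit 0) (XT.nd (nat_lit 234) (nat_lit 380) (nat_lit 0) (XT.nd (nat_lit 78) (nat_lit 152) (nat_lit 0) (XT.lf (nat_lit 0) (nat_lit 204729088766) (nat_lit 228) (nat_lit 321998976627) (nat_lit 304) (nat_lit 1016834896534) (nat_lit 69) (nat_lit 5) (nat_lit 72) (nat_lit 5) (nat_lit 73) (nat_lit 5) (nat_lit 484) (nat_lit 469) (nat_lit 247)) (XT.nd (nat_lit 78) (nat_lit 152) (nat_lit 0) (XT.lf (nat_lit 0) (nat_lit 836695385122) (nat_lit 304) (nat_lit 453583042639) (nat_lit 76) (nat_lit 324937934849) (nat_lit 69) (nat_lit 5) (nat_lit 73) (nat_lit 5) (nat_lit 70) (nat_lit 5) (nat_lit 485) (nat_lit 469) (nat_lit 246)) (XT.lf (nat_lit 0) (nat_lit 520143946162) (nat_lit 152) (nat_lit 672189224736) (nat_lit 228) (nat_lit 498599018012) (nat_lit 67) (nat_lit 5) (nat_lit 69) (nat_lit 5) (nat_lit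 70) (nat_lit 5) (nat_lit 486) (nat_lit 469) (nat_lit 245)))) (XT.nd (nat_lit 156) (nat_lit 152) (nat_lit 0) (XT.nd (nat_lit 78) (nat_lit 228) (nat_lit 0) (XT.lf (nat_lit 0) (nat_lit 1589033961870) (nat_lit 228) (nat_lit 174358603588) (nat_lit 76) (nat_lit 8303757269) (nat_lit 67) (nat_lit 5) (nat_lit 70) (nat_lit 5) (nat_lit 68) (nat_lit 5) (nat_lit 487) (nat_lit 469) (nat_lit 244)) (XT.lf (nat_lit 0) (nat_lit 191500408716) (nat_lit 228) (nat_lit 929688924075) (nat_lit 76) (nat_lit 734156609087) (nat_lit 64) (nat_lit 5) (nat_lit 67) (nat_lit 5) (nat_lit 65) (nat_lit 5) (nat_lit 488) (nat_lit 469) (nat_lit 243))) (XT.nd (nat_lit 78) (nat_lit 0) (nat_lit 0) (XT.lf (nat_lit 0) (nat_lit 182547106969) (nat_lit 152) (nat_lit 412461938435) (nat_lit 228) (nat_lit 1349556418402) (nat_lit 62) (nat_lit 5) (nat_lit 64) (nat_lit 5) (nat_lit 65) (nat_lit 5) (nat_lit 489) (nat_lit 469) (nat_lit 242)) (XT.lf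 (nat_lit 0) (nat_lit 1065366739439) (nat_lit 228) (nat_lit 611403778595) (nat_lit 76) (nat_lit 361386560144) (nat_lit 62) (nat_lit 5) (nat_lit 65) (nat_lit 5) (nat_lit 63) (nat_lit 5) (nat_lit 490) (nat_lit 469) (nat_lit 241))))) (XT.nd (nat_lit 312) (nat_lit 304) (nat_lit 0) (XT.nd (nat_lit 156) (nat_lit 304) (nat_lit 0) (XT.nd (nat_lit 78) (nat_lit 0) (nat_lit 0) (XT.lf (nat_lit 0) (nat_lit 653223551778) (nat_lit 152) (nat_lit 946552833483) (nat_lit 228) (nat_lit 537345769535) (nat_lit 60) (nat_lit 5) (nat_lit 62) (nat_lit 5) (nat_lit 63) (nat_lit 5) (nat_lit 491) (nat_lit 469) (nat_lit 240)) (XT.lf (nat_lit 0) (nat_lit 2053792138682) (nat_lit 152) (nat_lit 139863524021) (nat_lit 228) (nat_lit 49011426047) (nat_lit 60) (nat_lit 5) (nat_lit 62) (nat_lit 5) (nat_lit 63) (nat_lit 5) (nat_lit 492) (nat_lit 469) (nat_lit 239))) (XT.nd (nat_lit 78) (nat_lit 152) (nat_lit 0) (XT.lf (nat_lit 0)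 (nat_lit 503470014865) (nat_lit 152) (nat_lit 1110641603737) (nat_lit 76) (nat_lit 737702669102) (nat_lit 58) (nat_lit 5) (nat_lit 60) (nat_lit 5) (nat_lit 59) (nat_lit 5) (nat_lit 493) (nat_lit 469) (nat_lit 238)) (XT.lf (nat_lit 0) (nat_lit 339003849825) (nat_lit 152) (nat_lit 775582408378) (nat_lit 228) (nat_lit 1353638428276) (nat_lit 56) (nat_lit 5) (nat_lit 58) (nat_lit 5) (nat_lit 59) (nat_lit 5) (nat_lit 494) (nat_lit 469) (nat_lit 237)))) (XT.nd (nat_lit 156) (nat_lit 228) (nat_lit 0) (XT.nd (nat_lit 78) (nat_lit 76) (nat_lit 0) (XT.lf (nat_lit 0) (nat_lit 1808874662890) (nat_lit 228) (nat_lit 627650411861) (nat_lit 76) (nat_lit 154680213452) (nat_lit 56) (nat_lit 5) (nat_lit 59) (nat_lit 5) (nat_lit 57) (nat_lit 4) (nat_lit 495) (nat_lit 469) (nat_lit 236)) (XT.lf (nat_lit 0) (nat_lit 1025184527242) (nat_lit 76) (nat_lit 1578322320458) (nat_lit 152) (nat_lit 116933433746) (nat_lit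 55) (nat_lit 5) (nat_lit 56) (nat_lit 5) (nat_lit 57) (nat_lit 4) (nat_lit 496) (nat_lit 469) (nat_lit 235))) (XT.nd (nat_lit 78) (nat_lit 152) (nat_lit 0) (XT.lf (nat_lit 0) (nat_lit 589203100058) (nat_lit 152) (nat_lit 27616430030) (nat_lit 76) (nat_lit 2240628335548) (nat_lit 54) (nat_lit 5) (nat_lit 56) (nat_lit 5) (nat_lit 55) (nat_lit 5) (nat_lit 497) (nat_lit 469) (nat_lit 234)) (XT.lf (nat_lit 0) (nat_lit 1401715907300) (nat_lit 228) (nat_lit 1149347325249) (nat_lit 76) (nat_lit 449613621977) (nat_lit 52) (nat_lit 5) (nat_lit 55) (nat_lit 5) (nat_lit 53) (nat_lit 4) (nat_lit 498) (nat_lit 469) (nat_lit 233))))))))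
noncomputable def xc223 : XT := (XT.nd (nat_lit 2184) (nat_lit 684) (nat_lit 0) (XT.nd (nat_lit 1092) (nat_lit 912) (nat_lit 0) (XT.nd (nat_lit 546) (nat_lit 532) (nat_lit 0) (XT.nd (nat_lit 234) (nat_lit 228) (nat_lit 0) (XT.nd (nat_lit 78) (nat_lit 228) (nat_lit 0) (XT.lf (nat_lit 0) (nat_lit 748247444939) (nat_lit 76) (nat_lit 1565773642210) (nat_lit 152) (nat_lit 838559767538) (nat_lit 51) (nat_lit 5) (nat_lit 52) (nat_lit 5) (nat_lit 53) (nat_lit 4) (nat_lit 499) (nat_lit 469) (nat_lit 232)) (XT.nd (nat_lit 78) (nat_lit 152) (nat_lit 0) (XT.lf (nat_lit 0) (nat_lit 15781677203) (nat_lit 152) (nat_lit 451508501985) (nat_lit 76) (nat_lit 2846801017534) (nat_lit 50) (nat_lit 5) (nat_lit 52) (nat_lit 5) (nat_lit 51) (nat_lit 5) (nat_lit 500) (nat_lit 469) (nat_lit 231)) (XT.lf (nat_lit 0) (nat_lit 953513174433) (nat_lit 228) (nat_lit 1780504100215) (nat_lit 76) (nat_lit 747934890007) (nat_lit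 48) (nat_lit 5) (nat_lit 51) (nat_lit 5) (nat_lit 49) (nat_lit 4) (nat_lit 501) (nat_lit 469) (nat_lit 230)))) (XT.nd (nat_lit 156) (nat_lit 152) (nat_lit 0) (XT.nd (nat_lit 78) (nat_lit 0) (nat_lit 0) (XT.lf (nat_lit 0) (nat_lit 397490459430) (nat_lit 76) (nat_lit 1603135485440) (nat_lit 152) (nat_lit 1659867044878) (nat_lit 47) (nat_lit 5) (nat_lit 48) (nat_lit 5) (nat_lit 49) (nat_lit 4) (nat_lit 502) (nat_lit 469) (nat_lit 229)) (XT.lf (nat_lit 0) (nat_lit 2850983426152) (nat_lit 76) (nat_lit 329206446303) (nat_lit 152) (nat_lit 669232637556) (nat_lit 47) (nat_lit 5) (nat_lit 48) (nat_lit 5) (nat_lit 49) (nat_lit 4) (nat_lit 503) (nat_lit 469) (nat_lit 228))) (XT.nd (nat_lit 78) (nat_lit 0) (nat_lit 0) (XT.lf (nat_lit 0) (nat_lit 443373835052) (nat_lit 152) (nat_lit 2562793081433) (nat_lit 76) (nat_lit 1041507533221) (nat_lit 45) (nat_lit 5) (nat_lit 47) (nat_lit 5) (nat_lit 46) (nat_lit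 4) (nat_lit 504) (nat_lit 469) (nat_lit 227)) (XT.lf (nat_lit 0) (nat_lit 1645391856678) (nat_lit 152) (nat_lit 62595598556) (nat_lit 76) (nat_lit 2549483757966) (nat_lit 45) (nat_lit 5) (nat_lit 47) (nat_lit 5) (nat_lit 46) (nat_lit 4) (nat_lit 505) (nat_lit 469) (nat_lit 226))))) (XT.nd (nat_lit 234) (nat_lit 304) (nat_lit 0) (XT.nd (nat_lit 78) (nat_lit 152) (nat_lit 0) (XT.lf (nat_lit 0) (nat_lit 2776509952569) (nat_lit 76) (nat_lit 233836496934) (nat_lit 152) (nat_lit 1468363257915) (nat_lit 44) (nat_lit 5) (nat_lit 45) (nat_lit 5) (nat_lit 46) (nat_lit 4) (nat_lit 506) (nat_lit 469) (nat_lit 225)) (XT.nd (nat_lit 78) (nat_lit 76) (nat_lit 0) (XT.lf (nat_lit 0) (nat_lit 1153800928135) (nat_lit 76) (nat_lit 3392867210423) (nat_lit 76) (nat_lit 166005484309) (nat_lit 43) (nat_lit 4) (nat_lit 44) (nat_lit 5) (nat_lit 44) (nat_lit 4) (nat_lit 507) (nat_lit 469) (nat_lit 224)) (XT.lf (nat_lit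 0) (nat_lit 1232307723284) (nat_lit 152) (nat_lit 663661663228) (nat_lit 76) (nat_lit 3062692566525) (nat_lit 42) (nat_lit 5) (nat_lit 44) (nat_lit 5) (nat_lit 43) (nat_lit 4) (nat_lit 508) (nat_lit 469) (nat_lit 223)))) (XT.nd (nat_lit 156) (nat_lit 152) (nat_lit 0) (XT.nd (nat_lit 78) (nat_lit 76) (nat_lit 0) (XT.lf (nat_lit 0) (nat_lit 2588333333248) (nat_lit 76) (nat_lit 207433523646) (nat_lit 152) (nat_lit 2423237588074) (nat_lit 41) (nat_lit 5) (nat_lit 42) (nat_lit 5) (nat_lit 43) (nat_lit 4) (nat_lit 509) (nat_lit 469) (nat_lit 222)) (XT.lf (nat_lit 0) (nat_lit 631771427834) (nat_lit 76) (nat_lit 3925211705511) (nat_lit 76) (nat_lit 937376769937) (nat_lit 40) (nat_lit 4) (nat_lit 41) (nat_lit 5) (nat_lit 41) (nat_lit 4) (nat_lit 510) (nat_lit 469) (nat_lit 221))) (XT.nd (nat_lit 78) (nat_lit 76) (nat_lit 0) (XT.lf (nat_lit 0) (nat_lit 713152549707) (nat_lit 152) (nat_lit 1504477633320)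 (nat_lit 76) (nat_lit 3566494960417) (nat_lit 39) (nat_lit 5) (nat_lit 41) (nat_lit 5) (nat_lit 40) (nat_lit 4) (nat_lit 511) (nat_lit 469) (nat_lit 220)) (XT.lf (nat_lit 0) (nat_lit 2208408144370) (nat_lit 76) (nat_lit 289785645117) (nat_lit 152) (nat_lit 3592681036038) (nat_lit 38) (nat_lit 5) (nat_lit 39) (nat_lit 5) (nat_lit 40) (nat_lit 4) (nat_lit 512) (nat_lit 469) (nat_lit 219)))))) (XT.nd (nat_lit 546) (nat_lit 456) (nat_lit 0) (XT.nd (nat_lit 234) (nat_lit 228) (nat_lit 0) (XT.nd (nat_lit 78) (nat_lit 228) (nat_lit 0) (XT.lf (nat_lit 0) (nat_lit 4511346387847) (nat_lit 152) (nat_lit 159160893895) (nat_lit 0) (nat_lit 1744832555680) (nat_lit 38) (nat_lit 5) (nat_lit 40) (nat_lit 4) (nat_lit 38) (nat_lit 4) (nat_lit 513) (nat_lit 469) (nat_lit 218)) (XT.nd (nat_lit 78) (nat_lit 76) (nat_lit 0) (XT.lf (nat_lit 0) (nat_lit 31640445510) (nat_lit 152) (nat_lit 2700701706340) (nat_lit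 76) (nat_lit 4024947117876) (nat_lit 36) (nat_lit 5) (nat_lit 38) (nat_lit 5) (nat_lit 37) (nat_lit 4) (nat_lit 514) (nat_lit 469) (nat_lit 217)) (XT.lf (nat_lit 0) (nat_lit 1518810650868) (nat_lit 76) (nat_lit 541441505211) (nat_lit 152) (nat_lit 5059106774149) (nat_lit 35) (nat_lit 5) (nat_lit 36) (nat_lit 5) (nat_lit 37) (nat_lit 4) (nat_lit 515) (nat_lit 469) (nat_lit 216)))) (XT.nd (nat_lit 156) (nat_lit 152) (nat_lit 0) (XT.nd (nat_lit 78) (nat_lit 76) (nat_lit 0) (XT.lf (nat_lit 0) (nat_lit 4370797575270) (nat_lit 152) (nat_lit 1320814315078) (nat_lit 0) (nat_lit 1809210691479) (nat_lit 35) (nat_lit 5) (nat_lit 37) (nat_lit 4) (nat_lit 35) (nat_lit 4) (nat_lit 516) (nat_lit 469) (nat_lit 215)) (XT.lf (nat_lit 0) (nat_lit 3460334915170) (nat_lit 76) (nat_lit 3503136265296) (nat_lit 76) (nat_lit 941549380891) (nat_lit 34) (nat_lit 4) (nat_lit 35) (nat_lit 5) (nat_lit 35) (nat_lit 4)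 (nat_lit 517) (nat_lit 469) (nat_lit 214))) (XT.nd (nat_lit 78) (nat_lit 0) (nat_lit 0) (XT.lf (nat_lit 0) (nat_lit 342418570726) (nat_lit 76) (nat_lit 1053737898360) (nat_lit 152) (nat_lit 6939039044105) (nat_lit 32) (nat_lit 5) (nat_lit 33) (nat_lit 5) (nat_lit 34) (nat_lit 4) (nat_lit 518) (nat_lit 469) (nat_lit 213)) (XT.lf (nat_lit 0) (nat_lit 4032971069353) (nat_lit 152) (nat_lit 3090688732642) (nat_lit 0) (nat_lit 1661131360556) (nat_lit 32) (nat_lit 5) (nat_lit 34) (nat_lit 4) (nat_lit 32) (nat_lit 4) (nat_lit 519) (nat_lit 469) (nat_lit 212))))) (XT.nd (nat_lit 234) (nat_lit 228) (nat_lit 0) (XT.nd (nat_lit 78) (nat_lit 152) (nat_lit 0) (XT.lf (nat_lit 0) (nat_lit 2290791378766) (nat_lit 76) (nat_lit 4672402861082) (nat_lit 76) (nat_lit 2300563151833) (nat_lit 31) (nat_lit 4) (nat_lit 32) (nat_lit 5) (nat_lit 32) (nat_lit 4) (nat_lit 520) (nat_lit 469) (nat_lit 211)) (XT.nd (nat_lit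 78) (nat_lit 76) (nat_lit 0) (XT.lf (nat_lit 0) (nat_lit 416146125873) (nat_lit 152) (nat_lit 1506255767849) (nat_lit 76) (nat_lit 7851035805340) (nat_lit 30) (nat_lit 5) (nat_lit 32) (nat_lit 5) (nat_lit 31) (nat_lit 4) (nat_lit 521) (nat_lit 469) (nat_lit 210)) (XT.lf (nat_lit 0) (nat_lit 3365325109780) (nat_lit 152) (nat_lit 5773455849864) (nat_lit 0) (nat_lit 1169177230100) (nat_lit 29) (nat_lit 5) (nat_lit 31) (nat_lit 4) (nat_lit 29) (nat_lit 4) (nat_lit 522) (nat_lit 469) (nat_lit 209)))) (XT.nd (nat_lit 156) (nat_lit 152) (nat_lit 0) (XT.nd (nat_lit 78) (nat_lit 0) (nat_lit 0) (XT.lf (nat_lit 0) (nat_lit 222358626653) (nat_lit 76) (nat_lit 6425613440336) (nat_lit 76) (nat_lit 4229465560323) (nat_lit 28) (nat_lit 4) (nat_lit 29) (nat_lit 5) (nat_lit 29) (nat_lit 4) (nat_lit 523) (nat_lit 469) (nat_lit 208)) (XT.lf (nat_lit 0) (nat_lit 7026179809218) (nat_lit 76) (nat_lit 3324907484957)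 (nat_lit 76) (nat_lit 1128759604638) (nat_lit 28) (nat_lit 4) (nat_lit 29) (nat_lit 5) (nat_lit 29) (nat_lit 4) (nat_lit 524) (nat_lit 469) (nat_lit 207))) (XT.nd (nat_lit 78) (nat_lit 0) (nat_lit 0) (XT.lf (nat_lit 0) (nat_lit 2167805026167) (nat_lit 152) (nat_lit 9819329371315) (nat_lit 0) (nat_lit 134334766348) (nat_lit 26) (nat_lit 5) (nat_lit 28) (nat_lit 4) (nat_lit 26) (nat_lit 4) (nat_lit 525) (nat_lit 469) (nat_lit 206)) (XT.lf (nat_lit 0) (nat_lit 5878407760645) (nat_lit 152) (nat_lit 3071826852695) (nat_lit 0) (nat_lit 3844937500582) (nat_lit 26) (nat_lit 5) (nat_lit 28) (nat_lit 4) (nat_lit 26) (nat_lit 4) (nat_lit 526) (nat_lit 469) (nat_lit 205))))))) (XT.nd (nat_lit 58344) (nat_lit 0) (nat_lit 3800) (XT.nd (nat_lit 546) (nat_lit 228) (nat_lit 0) (XT.nd (nat_lit 234) (nat_lit 228) (nat_lit 0) (XT.nd (nat_lit 78) (nat_lit 152) (nat_lit 0) (XT.lf (nat_lit 0) (nat_lit 4437455354296)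 (nat_lit 76) (nat_lit 5555124266722) (nat_lit 76) (nat_lit 3521654006433) (nat_lit 25) (nat_lit 4) (nat_lit 26) (nat_lit 5) (nat_lit 26) (nat_lit 4) (nat_lit 527) (nat_lit 469) (nat_lit 204)) (XT.nd (nat_lit 78) (nat_lit 76) (nat_lit 0) (XT.lf (nat_lit 0) (nat_lit 223979147371) (nat_lit 152) (nat_lit 1567593633965) (nat_lit 76) (nat_lit 12492074516948) (nat_lit 24) (nat_lit 5) (nat_lit 26) (nat_lit 5) (nat_lit 25) (nat_lit 4) (nat_lit 528) (nat_lit 469) (nat_lit 203)) (XT.lf (nat_lit 0) (nat_lit 4303599919951) (nat_lit 152) (nat_lit 8364971513895) (nat_lit 0) (nat_lit 2420757085978) (nat_lit 23) (nat_lit 5) (nat_lit 25) (nat_lit 4) (nat_lit 23) (nat_lit 4) (nat_lit 529) (nat_lit 469) (nat_lit 202)))) (XT.nd (nat_lit 156) (nat_lit 152) (nat_lit 0) (XT.nd (nat_lit 78) (nat_lit 76) (nat_lit 0) (XT.lf (nat_lit 0) (nat_lit 8800098766692) (nat_lit 152) (nat_lit 234868866856) (nat_lit 0) (nat_lit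 6917255932552) (nat_lit 23) (nat_lit 5) (nat_lit 25) (nat_lit 4) (nat_lit 23) (nat_lit 4) (nat_lit 530) (nat_lit 469) (nat_lit 201)) (XT.lf (nat_lit 0) (nat_lit 8995640353492) (nat_lit 76) (nat_lit 4877022533795) (nat_lit 76) (nat_lit 2994179699501) (nat_lit 22) (nat_lit 4) (nat_lit 23) (nat_lit 5) (nat_lit 23) (nat_lit 4) (nat_lit 531) (nat_lit 469) (nat_lit 200))) (XT.nd (nat_lit 78) (nat_lit 0) (nat_lit 0) (XT.lf (nat_lit 0) (nat_lit 1144949871069) (nat_lit 76) (nat_lit 310719698884) (nat_lit 152) (nat_lit 16393352512722) (nat_lit 20) (nat_lit 5) (nat_lit 21) (nat_lit 5) (nat_lit 22) (nat_lit 4) (nat_lit 532) (nat_lit 469) (nat_lit 199)) (XT.lf (nat_lit 0) (nat_lit 6431678313927) (nat_lit 152) (nat_lit 7757015832638) (nat_lit 0) (nat_lit 4688305318957) (nat_lit 20) (nat_lit 5) (nat_lit 22) (nat_lit 4) (nat_lit 20) (nat_lit 4) (nat_lit 533) (nat_lit 469) (nat_lit 198))))) (XT.nd (nat_lit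 57486) (nat_lit 0) (nat_lit 5244) (XT.nd (nat_lit 78) (nat_lit 152) (nat_lit 0) (XT.lf (nat_lit 0) (nat_lit 1997665744886) (nat_lit 76) (nat_lit 9864216562593) (nat_lit 76) (nat_lit 8120843567510) (nat_lit 19) (nat_lit 4) (nat_lit 20) (nat_lit 5) (nat_lit 20) (nat_lit 4) (nat_lit 534) (nat_lit 469) (nat_lit 197)) (XT.nd (nat_lit 78) (nat_lit 152) (nat_lit 0) (XT.lf (nat_lit 0) (nat_lit 12973870210970) (nat_lit 76) (nat_lit 4964722968363) (nat_lit 76) (nat_lit 3221349973175) (nat_lit 19) (nat_lit 4) (nat_lit 20) (nat_lit 5) (nat_lit 20) (nat_lit 4) (nat_lit 535) (nat_lit 469) (nat_lit 196)) (XT.lf (nat_lit 0) (nat_lit 2036661442018) (nat_lit 152) (nat_lit 19962657238742) (nat_lit 0) (nat_lit 422427187124) (nat_lit 17) (nat_lit 5) (nat_lit 19) (nat_lit 4) (nat_lit 17) (nat_lit 4) (nat_lit 536) (nat_lit 469) (nat_lit 195)))) (XT.nd (nat_lit 156) (nat_lit 532) (nat_lit 0) (XT.nd (nat_lit 78)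 (nat_lit 0) (nat_lit 0) (XT.lf (nat_lit 0) (nat_lit 437899700834) (nat_lit 532) (nat_lit 2921250681) (nat_lit 532) (nat_lit 2921250681) (nat_lit 93) (nat_lit 3) (nat_lit 100) (nat_lit 3) (nat_lit 100) (nat_lit 5) (nat_lit 470) (nat_lit 470) (nat_lit 260)) (XT.lf (nat_lit 76) (nat_lit 459091171195) (nat_lit 0) (nat_lit 462781438703) (nat_lit 532) (nat_lit 227872087) (nat_lit 94) (nat_lit 5) (nat_lit 93) (nat_lit 3) (nat_lit 100) (nat_lit 5) (nat_lit 471) (nat_lit 470) (nat_lit 259))) (XT.nd (nat_lit 78) (nat_lit 0) (nat_lit 76) (XT.lf (nat_lit 76) (nat_lit 1876340103) (nat_lit 0) (nat_lit 9870916745) (nat_lit 608) (nat_lit 947698499427) (nat_lit 87) (nat_lit 5) (nat_lit 86) (nat_lit 5) (nat_lit 94) (nat_lit 5) (nat_lit 472) (nat_lit 470) (nat_lit 258)) (XT.lf (nat_lit 0) (nat_lit 49182904494) (nat_lit 532) (nat_lit 480342556206) (nat_lit 608) (nat_lit 468291532756) (nat_lit 87) (nat_lit 5)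 (nat_lit 94) (nat_lit 5) (nat_lit 95) (nat_lit 5) (nat_lit 473) (nat_lit 470) (nat_lit 257)))))) (XT.nd (nat_lit 546) (nat_lit 912) (nat_lit 0) (XT.nd (nat_lit 234) (nat_lit 608) (nat_lit 0) (XT.nd (nat_lit 78) (nat_lit 0) (nat_lit 76) (XT.lf (nat_lit 76) (nat_lit 36638885499) (nat_lit 0) (nat_lit 54112064936) (nat_lit 608) (nat_lit 948415975459) (nat_lit 88) (nat_lit 5) (nat_lit 87) (nat_lit 5) (nat_lit 95) (nat_lit 5) (nat_lit 474) (nat_lit 470) (nat_lit 256)) (XT.nd (nat_lit 78) (nat_lit 0) (nat_lit 0) (XT.lf (nat_lit 0) (nat_lit 160165981316) (nat_lit 532) (nat_lit 471865966885) (nat_lit 608) (nat_lit 449831181425) (nat_lit 88) (nat_lit 5) (nat_lit 95) (nat_lit 5) (nat_lit 96) (nat_lit 5) (nat_lit 475) (nat_lit 470) (nat_lit 255)) (XT.lf (nat_lit 76) (nat_lit 105101144128) (nat_lit 0) (nat_lit 133966257654) (nat_lit 608) (nat_lit 888592972905) (nat_lit 89) (nat_lit 5) (nat_lit 88) (nat_lit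 5) (nat_lit 96) (nat_lit 5) (nat_lit 476) (nat_lit 470) (nat_lit 254)))) (XT.nd (nat_lit 156) (nat_lit 228) (nat_lit 0) (XT.nd (nat_lit 78) (nat_lit 532) (nat_lit 0) (XT.lf (nat_lit 0) (nat_lit 347232569188) (nat_lit 532) (nat_lit 431078200289) (nat_lit 76) (nat_lit 396974499214) (nat_lit 89) (nat_lit 5) (nat_lit 96) (nat_lit 5) (nat_lit 90) (nat_lit 5) (nat_lit 477) (nat_lit 470) (nat_lit 253)) (XT.lf (nat_lit 0) (nat_lit 214996668402) (nat_lit 532) (nat_lit 257704594355) (nat_lit 608) (nat_lit 753326866437) (nat_lit 82) (nat_lit 5) (nat_lit 89) (nat_lit 5) (nat_lit 90) (nat_lit 5) (nat_lit 478) (nat_lit 470) (nat_lit 252))) (XT.nd (nat_lit 78) (nat_lit 228) (nat_lit 0) (XT.lf (nat_lit 0) (nat_lit 627624466669) (nat_lit 608) (nat_lit 350244760665) (nat_lit 76) (nat_lit 301407830016) (nat_lit 82) (nat_lit 5) (nat_lit 90) (nat_lit 5) (nat_lit 83) (nat_lit 5) (nat_lit 479) (nat_lit 470) (nat_lit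 251)) (XT.lf (nat_lit 0) (nat_lit 375495026719) (nat_lit 228) (nat_lit 435170785749) (nat_lit 304) (nat_lit 524862144445) (nat_lit 79) (nat_lit 5) (nat_lit 82) (nat_lit 5) (nat_lit 83) (nat_lit 5) (nat_lit 480) (nat_lit 470) (nat_lit 250))))) (XT.nd (nat_lit 312) (nat_lit 380) (nat_lit 0) (XT.nd (nat_lit 156) (nat_lit 304) (nat_lit 0) (XT.nd (nat_lit 78) (nat_lit 228) (nat_lit 0) (XT.lf (nat_lit 0) (nat_lit 1021805704865) (nat_lit 304) (nat_lit 220179032558) (nat_lit 76) (nat_lit 153217771903) (nat_lit 79) (nat_lit 5) (nat_lit 83) (nat_lit 5) (nat_lit 80) (nat_lit 5) (nat_lit 481) (nat_lit 470) (nat_lit 249)) (XT.lf (nat_lit 0) (nat_lit 597446740461) (nat_lit 228) (nat_lit 678061789838) (nat_lit 304) (nat_lit 182088756301) (nat_lit 76) (nat_lit 5) (nat_lit 79) (nat_lit 5) (nat_lit 80) (nat_lit 5) (nat_lit 482) (nat_lit 470) (nat_lit 248))) (XT.nd (nat_lit 78) (nat_lit 228) (nat_lit 0) (XT.lf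 (nat_lit 0) (nat_lit 29473595876) (nat_lit 304) (nat_lit 32243859208) (nat_lit 76) (nat_lit 1462724891134) (nat_lit 75) (nat_lit 5) (nat_lit 79) (nat_lit 5) (nat_lit 76) (nat_lit 5) (nat_lit 483) (nat_lit 470) (nat_lit 247)) (XT.lf (nat_lit 0) (nat_lit 285034939959) (nat_lit 304) (nat_lit 707429132039) (nat_lit 76) (nat_lit 600839650268) (nat_lit 72) (nat_lit 5) (nat_lit 76) (nat_lit 5) (nat_lit 73) (nat_lit 5) (nat_lit 484) (nat_lit 470) (nat_lit 246)))) (XT.nd (nat_lit 156) (nat_lit 152) (nat_lit 0) (XT.nd (nat_lit 78) (nat_lit 0) (nat_lit 0) (XT.lf (nat_lit 0) (nat_lit 221107511369) (nat_lit 228) (nat_lit 347758871428) (nat_lit 304) (nat_lit 1098181610303) (nat_lit 69) (nat_lit 5) (nat_lit 72) (nat_lit 5) (nat_lit 73) (nat_lit 5) (nat_lit 485) (nat_lit 470) (nat_lit 245)) (XT.lf (nat_lit 0) (nat_lit 903631083279) (nat_lit 304) (nat_lit 489869592789) (nat_lit 76) (nat_lit 350932990157)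 (nat_lit 69) (nat_lit 5) (nat_lit 73) (nat_lit 5) (nat_lit 70) (nat_lit 5) (nat_lit 486) (nat_lit 470) (nat_lit 244))) (XT.nd (nat_lit 78) (nat_lit 0) (nat_lit 0) (XT.lf (nat_lit 0) (nat_lit 561755552755) (nat_lit 152) (nat_lit 725964336360) (nat_lit 228) (nat_lit 538486869740) (nat_lit 67) (nat_lit 5) (nat_lit 69) (nat_lit 5) (nat_lit 70) (nat_lit 5) (nat_lit 487) (nat_lit 470) (nat_lit 243)) (XT.lf (nat_lit 0) (nat_lit 1716156739170) (nat_lit 228) (nat_lit 188307203510) (nat_lit 76) (nat_lit 8968081033) (nat_lit 67) (nat_lit 5) (nat_lit 70) (nat_lit 5) (nat_lit 68) (nat_lit 5) (nat_lit 488) (nat_lit 470) (nat_lit 242))))))))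
noncomputable def xc224 : XT := (XT.nd (nat_lit 2184) (nat_lit 1216) (nat_lit 0) (XT.nd (nat_lit 1092) (nat_lit 988) (nat_lit 0) (XT.nd (nat_lit 546) (nat_lit 608) (nat_lit 0) (XT.nd (nat_lit 234) (nat_lit 456) (nat_lit 0) (XT.nd (nat_lit 78) (nat_lit 152) (nat_lit 0) (XT.lf (nat_lit 0) (nat_lit 206820500874) (nat_lit 228) (nat_lit 1004063948737) (nat_lit 76) (nat_lit 792889162856) (nat_lit 64) (nat_lit 5) (nat_lit 67) (nat_lit 5) (nat_lit 65) (nat_lit 5) (nat_lit 489) (nat_lit 470) (nat_lit 241)) (XT.nd (nat_lit 78) (nat_lit 0) (nat_lit 0) (XT.lf (nat_lit 0) (nat_lit 197150962531) (nat_lit 152) (nat_lit 445458863655) (nat_lit 228) (nat_lit 1457520870149) (nat_lit 62) (nat_lit 5) (nat_lit 64) (nat_lit 5) (nat_lit 65) (nat_lit 5) (nat_lit 490) (nat_lit 470) (nat_lit 240)) (XT.lf (nat_lit 0) (nat_lit 1150596132175) (nat_lit 228) (nat_lit 660315996751) (nat_lit 76) (nat_lit 390297511216) (nat_lit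 62) (nat_lit 5) (nat_lit 65) (nat_lit 5) (nat_lit 63) (nat_lit 5) (nat_lit 491) (nat_lit 470) (nat_lit 239)))) (XT.nd (nat_lit 156) (nat_lit 304) (nat_lit 0) (XT.nd (nat_lit 78) (nat_lit 0) (nat_lit 0) (XT.lf (nat_lit 0) (nat_lit 705481517922) (nat_lit 152) (nat_lit 1022277029744) (nat_lit 228) (nat_lit 580333375384) (nat_lit 60) (nat_lit 5) (nat_lit 62) (nat_lit 5) (nat_lit 63) (nat_lit 5) (nat_lit 492) (nat_lit 470) (nat_lit 238)) (XT.lf (nat_lit 0) (nat_lit 2218095585704) (nat_lit 152) (nat_lit 151052577777) (nat_lit 228) (nat_lit 52932288544) (nat_lit 60) (nat_lit 5) (nat_lit 62) (nat_lit 5) (nat_lit 63) (nat_lit 5) (nat_lit 493) (nat_lit 470) (nat_lit 237))) (XT.nd (nat_lit 78) (nat_lit 152) (nat_lit 0) (XT.lf (nat_lit 0) (nat_lit 543747663976) (nat_lit 152) (nat_lit 1199492852438) (nat_lit 76) (nat_lit 796718910471) (nat_lit 58) (nat_lit 5) (nat_lit 60) (nat_lit 5) (nat_lit 59) (nat_lit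 5) (nat_lit 494) (nat_lit 470) (nat_lit 236)) (XT.lf (nat_lit 0) (nat_lit 366124235394) (nat_lit 152) (nat_lit 837628969702) (nat_lit 228) (nat_lit 1461929452599) (nat_lit 56) (nat_lit 5) (nat_lit 58) (nat_lit 5) (nat_lit 59) (nat_lit 5) (nat_lit 495) (nat_lit 470) (nat_lit 235))))) (XT.nd (nat_lit 234) (nat_lit 456) (nat_lit 0) (XT.nd (nat_lit 78) (nat_lit 152) (nat_lit 0) (XT.lf (nat_lit 0) (nat_lit 1953584679432) (nat_lit 228) (nat_lit 677862370244) (nat_lit 76) (nat_lit 167054658100) (nat_lit 56) (nat_lit 5) (nat_lit 59) (nat_lit 5) (nat_lit 57) (nat_lit 4) (nat_lit 496) (nat_lit 470) (nat_lit 234)) (XT.nd (nat_lit 78) (nat_lit 76) (nat_lit 0) (XT.lf (nat_lit 0) (nat_lit 1107199362100) (nat_lit 76) (nat_lit 1704588075452) (nat_lit 152) (nat_lit 126288063045) (nat_lit 55) (nat_lit 5) (nat_lit 56) (nat_lit 5) (nat_lit 57) (nat_lit 4) (nat_lit 497) (nat_lit 470) (nat_lit 233)) (XT.lf (nat_lit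 0) (nat_lit 636339387997) (nat_lit 152) (nat_lit 29825675033) (nat_lit 76) (nat_lit 2419878628660) (nat_lit 54) (nat_lit 5) (nat_lit 56) (nat_lit 5) (nat_lit 55) (nat_lit 5) (nat_lit 498) (nat_lit 470) (nat_lit 232)))) (XT.nd (nat_lit 156) (nat_lit 228) (nat_lit 0) (XT.nd (nat_lit 78) (nat_lit 76) (nat_lit 0) (XT.lf (nat_lit 0) (nat_lit 1513853219186) (nat_lit 228) (nat_lit 1241295041235) (nat_lit 76) (nat_lit 485582739322) (nat_lit 52) (nat_lit 5) (nat_lit 55) (nat_lit 5) (nat_lit 53) (nat_lit 4) (nat_lit 499) (nat_lit 470) (nat_lit 231)) (XT.lf (nat_lit 0) (nat_lit 808107308795) (nat_lit 76) (nat_lit 1691035503358) (nat_lit 152) (nat_lit 905644507865) (nat_lit 51) (nat_lit 5) (nat_lit 52) (nat_lit 5) (nat_lit 53) (nat_lit 4) (nat_lit 500) (nat_lit 470) (nat_lit 230))) (XT.nd (nat_lit 78) (nat_lit 152) (nat_lit 0) (XT.lf (nat_lit 0) (nat_lit 17044247510) (nat_lit 152) (nat_lit 487629117035)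 (nat_lit 76) (nat_lit 3074545125023) (nat_lit 50) (nat_lit 5) (nat_lit 52) (nat_lit 5) (nat_lit 51) (nat_lit 5) (nat_lit 501) (nat_lit 470) (nat_lit 229)) (XT.lf (nat_lit 0) (nat_lit 1029794264054) (nat_lit 228) (nat_lit 1922944362657) (nat_lit 76) (nat_lit 807769708262) (nat_lit 48) (nat_lit 5) (nat_lit 51) (nat_lit 5) (nat_lit 49) (nat_lit 4) (nat_lit 502) (nat_lit 470) (nat_lit 228)))))) (XT.nd (nat_lit 546) (nat_lit 532) (nat_lit 0) (XT.nd (nat_lit 234) (nat_lit 228) (nat_lit 0) (XT.nd (nat_lit 78) (nat_lit 152) (nat_lit 0) (XT.lf (nat_lit 0) (nat_lit 429289760100) (nat_lit 76) (nat_lit 1731386294922) (nat_lit 152) (nat_lit 1792656371142) (nat_lit 47) (nat_lit 5) (nat_lit 48) (nat_lit 5) (nat_lit 49) (nat_lit 4) (nat_lit 503) (nat_lit 470) (nat_lit 227)) (XT.nd (nat_lit 78) (nat_lit 152) (nat_lit 0) (XT.lf (nat_lit 0) (nat_lit 3079062159424) (nat_lit 76) (nat_lit 355542934827) (nat_lit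 152) (nat_lit 722771213998) (nat_lit 47) (nat_lit 5) (nat_lit 48) (nat_lit 5) (nat_lit 49) (nat_lit 4) (nat_lit 504) (nat_lit 470) (nat_lit 226)) (XT.lf (nat_lit 0) (nat_lit 478843774348) (nat_lit 152) (nat_lit 2767816466694) (nat_lit 76) (nat_lit 1124828162041) (nat_lit 45) (nat_lit 5) (nat_lit 47) (nat_lit 5) (nat_lit 46) (nat_lit 4) (nat_lit 505) (nat_lit 470) (nat_lit 225)))) (XT.nd (nat_lit 156) (nat_lit 152) (nat_lit 0) (XT.nd (nat_lit 78) (nat_lit 76) (nat_lit 0) (XT.lf (nat_lit 0) (nat_lit 1777023235297) (nat_lit 152) (nat_lit 67603189725) (nat_lit 76) (nat_lit 2753442482827) (nat_lit 45) (nat_lit 5) (nat_lit 47) (nat_lit 5) (nat_lit 46) (nat_lit 4) (nat_lit 506) (nat_lit 470) (nat_lit 224)) (XT.lf (nat_lit 0) (nat_lit 2998630804055) (nat_lit 76) (nat_lit 252543390593) (nat_lit 152) (nat_lit 1585832287027) (nat_lit 44) (nat_lit 5) (nat_lit 45) (nat_lit 5) (nat_lit 46) (nat_lit 4)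 (nat_lit 507) (nat_lit 470) (nat_lit 223))) (XT.nd (nat_lit 78) (nat_lit 76) (nat_lit 0) (XT.lf (nat_lit 0) (nat_lit 1246105057931) (nat_lit 76) (nat_lit 3664296560652) (nat_lit 76) (nat_lit 179285891797) (nat_lit 43) (nat_lit 4) (nat_lit 44) (nat_lit 5) (nat_lit 44) (nat_lit 4) (nat_lit 508) (nat_lit 470) (nat_lit 222)) (XT.lf (nat_lit 0) (nat_lit 1330892368641) (nat_lit 152) (nat_lit 716754543407) (nat_lit 76) (nat_lit 3307707995033) (nat_lit 42) (nat_lit 5) (nat_lit 44) (nat_lit 5) (nat_lit 43) (nat_lit 4) (nat_lit 509) (nat_lit 470) (nat_lit 221))))) (XT.nd (nat_lit 234) (nat_lit 304) (nat_lit 0) (XT.nd (nat_lit 78) (nat_lit 152) (nat_lit 0) (XT.lf (nat_lit 0) (nat_lit 2795400051449) (nat_lit 76) (nat_lit 224028180694) (nat_lit 152) (nat_lit 2617096566287) (nat_lit 41) (nat_lit 5) (nat_lit 42) (nat_lit 5) (nat_lit 43) (nat_lit 4) (nat_lit 510) (nat_lit 470) (nat_lit 220)) (XT.nd (nat_lit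 78) (nat_lit 76) (nat_lit 0) (XT.lf (nat_lit 0) (nat_lit 682313193797) (nat_lit 76) (nat_lit 4239228616733) (nat_lit 76) (nat_lit 1012366882893) (nat_lit 40) (nat_lit 4) (nat_lit 41) (nat_lit 5) (nat_lit 41) (nat_lit 4) (nat_lit 511) (nat_lit 470) (nat_lit 219)) (XT.lf (nat_lit 0) (nat_lit 770204778874) (nat_lit 152) (nat_lit 1624835794755) (nat_lit 76) (nat_lit 3851814579275) (nat_lit 39) (nat_lit 5) (nat_lit 41) (nat_lit 5) (nat_lit 40) (nat_lit 4) (nat_lit 512) (nat_lit 470) (nat_lit 218)))) (XT.nd (nat_lit 156) (nat_lit 228) (nat_lit 0) (XT.nd (nat_lit 78) (nat_lit 0) (nat_lit 0) (XT.lf (nat_lit 0) (nat_lit 2385080843904) (nat_lit 76) (nat_lit 312968473221) (nat_lit 152) (nat_lit 3880095492484) (nat_lit 38) (nat_lit 5) (nat_lit 39) (nat_lit 5) (nat_lit 40) (nat_lit 4) (nat_lit 513) (nat_lit 470) (nat_lit 217)) (XT.lf (nat_lit 0) (nat_lit 4872254122064) (nat_lit 152) (nat_lit 171893719686)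 (nat_lit 0) (nat_lit 1884419180811) (nat_lit 38) (nat_lit 5) (nat_lit 40) (nat_lit 4) (nat_lit 38) (nat_lit 4) (nat_lit 514) (nat_lit 470) (nat_lit 216))) (XT.nd (nat_lit 78) (nat_lit 76) (nat_lit 0) (XT.lf (nat_lit 0) (nat_lit 34171704280) (nat_lit 152) (nat_lit 2916757797067) (nat_lit 76) (nat_lit 4346942908108) (nat_lit 36) (nat_lit 5) (nat_lit 38) (nat_lit 5) (nat_lit 37) (nat_lit 4) (nat_lit 515) (nat_lit 470) (nat_lit 215)) (XT.lf (nat_lit 0) (nat_lit 1640315547560) (nat_lit 76) (nat_lit 584756803494) (nat_lit 152) (nat_lit 5463835291793) (nat_lit 35) (nat_lit 5) (nat_lit 36) (nat_lit 5) (nat_lit 37) (nat_lit 4) (nat_lit 516) (nat_lit 470) (nat_lit 214))))))) (XT.nd (nat_lit 1092) (nat_lit 304) (nat_lit 0) (XT.nd (nat_lit 546) (nat_lit 456) (nat_lit 0) (XT.nd (nat_lit 234) (nat_lit 228) (nat_lit 0) (XT.nd (nat_lit 78) (nat_lit 228) (nat_lit 0) (XT.lf (nat_lit 0) (nat_lit 4720461402607)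 (nat_lit 152) (nat_lit 1426479417795) (nat_lit 0) (nat_lit 1953947566266) (nat_lit 35) (nat_lit 5) (nat_lit 37) (nat_lit 4) (nat_lit 35) (nat_lit 4) (nat_lit 517) (nat_lit 470) (nat_lit 213)) (XT.nd (nat_lit 78) (nat_lit 152) (nat_lit 0) (XT.lf (nat_lit 0) (nat_lit 3737161749798) (nat_lit 76) (nat_lit 3783387145838) (nat_lit 76) (nat_lit 1016873308970) (nat_lit 34) (nat_lit 4) (nat_lit 35) (nat_lit 5) (nat_lit 35) (nat_lit 4) (nat_lit 518) (nat_lit 470) (nat_lit 212)) (XT.lf (nat_lit 0) (nat_lit 369812097842) (nat_lit 76) (nat_lit 1138036909464) (nat_lit 152) (nat_lit 7494162145285) (nat_lit 32) (nat_lit 5) (nat_lit 33) (nat_lit 5) (nat_lit 34) (nat_lit 4) (nat_lit 519) (nat_lit 470) (nat_lit 211)))) (XT.nd (nat_lit 156) (nat_lit 152) (nat_lit 0) (XT.nd (nat_lit 78) (nat_lit 76) (nat_lit 0) (XT.lf (nat_lit 0) (nat_lit 4355608774524) (nat_lit 152) (nat_lit 3337943791796) (nat_lit 0) (nat_lit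 1794021887665) (nat_lit 32) (nat_lit 5) (nat_lit 34) (nat_lit 4) (nat_lit 32) (nat_lit 4) (nat_lit 520) (nat_lit 470) (nat_lit 210)) (XT.lf (nat_lit 0) (nat_lit 2474054727526) (nat_lit 76) (nat_lit 5046195070605) (nat_lit 76) (nat_lit 2484608183358) (nat_lit 31) (nat_lit 4) (nat_lit 32) (nat_lit 5) (nat_lit 32) (nat_lit 4) (nat_lit 521) (nat_lit 470) (nat_lit 209))) (XT.nd (nat_lit 78) (nat_lit 76) (nat_lit 0) (XT.lf (nat_lit 0) (nat_lit 449437834082) (nat_lit 152) (nat_lit 1626756192712) (nat_lit 76) (nat_lit 8479118686742) (nat_lit 30) (nat_lit 5) (nat_lit 32) (nat_lit 5) (nat_lit 31) (nat_lit 4) (nat_lit 522) (nat_lit 470) (nat_lit 208)) (XT.lf (nat_lit 0) (nat_lit 3634551136647) (nat_lit 152) (nat_lit 6235332281235) (nat_lit 0) (nat_lit 1262711425595) (nat_lit 29) (nat_lit 5) (nat_lit 31) (nat_lit 4) (nat_lit 29) (nat_lit 4) (nat_lit 523) (nat_lit 470) (nat_lit 207))))) (XT.nd (nat_lit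 234) (nat_lit 228) (nat_lit 0) (XT.nd (nat_lit 78) (nat_lit 152) (nat_lit 0) (XT.lf (nat_lit 0) (nat_lit 240147352477) (nat_lit 76) (nat_lit 6939662497474) (nat_lit 76) (nat_lit 4567822786137) (nat_lit 28) (nat_lit 4) (nat_lit 29) (nat_lit 5) (nat_lit 29) (nat_lit 4) (nat_lit 524) (nat_lit 470) (nat_lit 206)) (XT.nd (nat_lit 78) (nat_lit 152) (nat_lit 0) (XT.lf (nat_lit 0) (nat_lit 7588274227004) (nat_lit 76) (nat_lit 3590900067005) (nat_lit 76) (nat_lit 1219060355405) (nat_lit 28) (nat_lit 4) (nat_lit 29) (nat_lit 5) (nat_lit 29) (nat_lit 4) (nat_lit 525) (nat_lit 470) (nat_lit 205)) (XT.lf (nat_lit 0) (nat_lit 2341229444944) (nat_lit 152) (nat_lit 10604875687051) (nat_lit 0) (nat_lit 145081563606) (nat_lit 26) (nat_lit 5) (nat_lit 28) (nat_lit 4) (nat_lit 26) (nat_lit 4) (nat_lit 526) (nat_lit 470) (nat_lit 204)))) (XT.nd (nat_lit 156) (nat_lit 152) (nat_lit 0) (XT.nd (nat_lit 78) (nat_lit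 76) (nat_lit 0) (XT.lf (nat_lit 0) (nat_lit 6348680396945) (nat_lit 152) (nat_lit 3317572969458) (nat_lit 0) (nat_lit 4152532515398) (nat_lit 26) (nat_lit 5) (nat_lit 28) (nat_lit 4) (nat_lit 26) (nat_lit 4) (nat_lit 527) (nat_lit 470) (nat_lit 203)) (XT.lf (nat_lit 0) (nat_lit 4792451813295) (nat_lit 76) (nat_lit 5999534192444) (nat_lit 76) (nat_lit 3803386310704) (nat_lit 25) (nat_lit 4) (nat_lit 26) (nat_lit 5) (nat_lit 26) (nat_lit 4) (nat_lit 528) (nat_lit 470) (nat_lit 202))) (XT.nd (nat_lit 78) (nat_lit 76) (nat_lit 0) (XT.lf (nat_lit 0) (nat_lit 241897493449) (nat_lit 152) (nat_lit 1693001095544) (nat_lit 76) (nat_lit 13491440492010) (nat_lit 24) (nat_lit 5) (nat_lit 26) (nat_lit 5) (nat_lit 25) (nat_lit 4) (nat_lit 529) (nat_lit 470) (nat_lit 201)) (XT.lf (nat_lit 0) (nat_lit 4647887927809) (nat_lit 152) (nat_lit 9034169205842) (nat_lit 0) (nat_lit 2614417666618) (nat_lit 23) (nat_lit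 5) (nat_lit 25) (nat_lit 4) (nat_lit 23) (nat_lit 4) (nat_lit 530) (nat_lit 470) (nat_lit 200)))))) (XT.nd (nat_lit 57954) (nat_lit 0) (nat_lit 4788) (XT.nd (nat_lit 234) (nat_lit 76) (nat_lit 0) (XT.nd (nat_lit 78) (nat_lit 228) (nat_lit 0) (XT.lf (nat_lit 0) (nat_lit 9504106681232) (nat_lit 152) (nat_lit 253658349200) (nat_lit 0) (nat_lit 7470636419899) (nat_lit 23) (nat_lit 5) (nat_lit 25) (nat_lit 4) (nat_lit 23) (nat_lit 4) (nat_lit 531) (nat_lit 470) (nat_lit 199)) (XT.nd (nat_lit 78) (nat_lit 152) (nat_lit 0) (XT.lf (nat_lit 0) (nat_lit 9715291608092) (nat_lit 76) (nat_lit 5267184323038) (nat_lit 76) (nat_lit 3233714061573) (nat_lit 22) (nat_lit 4) (nat_lit 23) (nat_lit 5) (nat_lit 23) (nat_lit 4) (nat_lit 532) (nat_lit 470) (nat_lit 198)) (XT.lf (nat_lit 0) (nat_lit 1236545887087) (nat_lit 76) (nat_lit 335577261313) (nat_lit 152) (nat_lit 17704820699862) (nat_lit 20) (nat_lit 5)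 (nat_lit 21) (nat_lit 5) (nat_lit 22) (nat_lit 4) (nat_lit 533) (nat_lit 470) (nat_lit 197)))) (XT.nd (nat_lit 57564) (nat_lit 0) (nat_lit 5624) (XT.nd (nat_lit 78) (nat_lit 76) (nat_lit 0) (XT.lf (nat_lit 0) (nat_lit 6946212591239) (nat_lit 152) (nat_lit 8377577074216) (nat_lit 0) (nat_lit 5063369756332) (nat_lit 20) (nat_lit 5) (nat_lit 22) (nat_lit 4) (nat_lit 20) (nat_lit 4) (nat_lit 534) (nat_lit 470) (nat_lit 196)) (XT.lf (nat_lit 0) (nat_lit 2157479028877) (nat_lit 76) (nat_lit 10653353875083) (nat_lit 76) (nat_lit 8770511040078) (nat_lit 19) (nat_lit 4) (nat_lit 20) (nat_lit 5) (nat_lit 20) (nat_lit 4) (nat_lit 535) (nat_lit 470) (nat_lit 195))) (XT.nd (nat_lit 78) (nat_lit 0) (nat_lit 0) (XT.lf (nat_lit 0) (nat_lit 472931753469) (nat_lit 532) (nat_lit 3154909383) (nat_lit 532) (nat_lit 3154909383) (nat_lit 93) (nat_lit 3) (nat_lit 100) (nat_lit 3) (nat_lit 100) (nat_lit 5) (nat_lit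 471) (nat_lit 471) (nat_lit 258)) (XT.lf (nat_lit 76) (nat_lit 495818545500) (nat_lit 0) (nat_lit 499804016921) (nat_lit 532) (nat_lit 245946605) (nat_lit 94) (nat_lit 5) (nat_lit 93) (nat_lit 3) (nat_lit 100) (nat_lit 5) (nat_lit 472) (nat_lit 471) (nat_lit 257))))) (XT.nd (nat_lit 234) (nat_lit 304) (nat_lit 0) (XT.nd (nat_lit 78) (nat_lit 0) (nat_lit 76) (XT.lf (nat_lit 76) (nat_lit 2026533467) (nat_lit 0) (nat_lit 10660642559) (nat_lit 608) (nat_lit 1023514229645) (nat_lit 87) (nat_lit 5) (nat_lit 86) (nat_lit 5) (nat_lit 94) (nat_lit 5) (nat_lit 473) (nat_lit 471) (nat_lit 256)) (XT.nd (nat_lit 78) (nat_lit 0) (nat_lit 0) (XT.lf (nat_lit 0) (nat_lit 53117664046) (nat_lit 532) (nat_lit 518769869477) (nat_lit 608) (nat_lit 505754809219) (nat_lit 87) (nat_lit 5) (nat_lit 94) (nat_lit 5) (nat_lit 95) (nat_lit 5) (nat_lit 474) (nat_lit 471) (nat_lit 255)) (XT.lf (nat_lit 76) (nat_lit 39570085255)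 (nat_lit 0) (nat_lit 58441061123) (nat_lit 608) (nat_lit 1024289123980) (nat_lit 88) (nat_lit 5) (nat_lit 87) (nat_lit 5) (nat_lit 95) (nat_lit 5) (nat_lit 475) (nat_lit 471) (nat_lit 254)))) (XT.nd (nat_lit 156) (nat_lit 456) (nat_lit 0) (XT.nd (nat_lit 78) (nat_lit 0) (nat_lit 0) (XT.lf (nat_lit 0) (nat_lit 172979370158) (nat_lit 532) (nat_lit 509615152320) (nat_lit 608) (nat_lit 485817648678) (nat_lit 88) (nat_lit 5) (nat_lit 95) (nat_lit 5) (nat_lit 96) (nat_lit 5) (nat_lit 476) (nat_lit 471) (nat_lit 253)) (XT.lf (nat_lit 76) (nat_lit 113509325247) (nat_lit 0) (nat_lit 144683572997) (nat_lit 608) (nat_lit 959680298061) (nat_lit 89) (nat_lit 5) (nat_lit 88) (nat_lit 5) (nat_lit 96) (nat_lit 5) (nat_lit 477) (nat_lit 471) (nat_lit 252))) (XT.nd (nat_lit 78) (nat_lit 532) (nat_lit 0) (XT.lf (nat_lit 0) (nat_lit 375011270986) (nat_lit 532) (nat_lit 465564365294) (nat_lit 76) (nat_lit 428732446195)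 (nat_lit 89) (nat_lit 5) (nat_lit 96) (nat_lit 5) (nat_lit 90) (nat_lit 5) (nat_lit 478) (nat_lit 471) (nat_lit 251)) (XT.lf (nat_lit 0) (nat_lit 232196490589) (nat_lit 532) (nat_lit 278320964456) (nat_lit 608) (nat_lit 813592917174) (nat_lit 82) (nat_lit 5) (nat_lit 89) (nat_lit 5) (nat_lit 90) (nat_lit 5) (nat_lit 479) (nat_lit 471) (nat_lit 250))))))))
noncomputable def xc225 : XT := (XT.nd (nat_lit 2184) (nat_lit 1900) (nat_lit 0) (XT.nd (nat_lit 1092) (nat_lit 1140) (nat_lit 0) (XT.nd (nat_lit 546) (nat_lit 684) (nat_lit 0) (XT.nd (nat_lit 234) (nat_lit 760) (nat_lit 0) (XT.nd (nat_lit 78) (nat_lit 228) (nat_lit 0) (XT.lf (nat_lit 0) (nat_lit 677834508451) (nat_lit 608) (nat_lit 378264252549) (nat_lit 76) (nat_lit 325520454172) (nat_lit 82) (nat_lit 5) (nat_lit 90) (nat_lit 5) (nat_lit 83) (nat_lit 5) (nat_lit 480) (nat_lit 471) (nat_lit 249)) (XT.nd (nat_lit 78) (nat_lit 0) (nat_lit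 0) (XT.lf (nat_lit 0) (nat_lit 405534715574) (nat_lit 228) (nat_lit 469984442170) (nat_lit 304) (nat_lit 566851029290) (nat_lit 79) (nat_lit 5) (nat_lit 82) (nat_lit 5) (nat_lit 83) (nat_lit 5) (nat_lit 481) (nat_lit 471) (nat_lit 248)) (XT.lf (nat_lit 0) (nat_lit 1103550235730) (nat_lit 304) (nat_lit 237793269057) (nat_lit 76) (nat_lit 165475199318) (nat_lit 79) (nat_lit 5) (nat_lit 83) (nat_lit 5) (nat_lit 80) (nat_lit 5) (nat_lit 482) (nat_lit 471) (nat_lit 247)))) (XT.nd (nat_lit 156) (nat_lit 456) (nat_lit 0) (XT.nd (nat_lit 78) (nat_lit 76) (nat_lit 0) (XT.lf (nat_lit 0) (nat_lit 645242563623) (nat_lit 228) (nat_lit 732306720077) (nat_lit 304) (nat_lit 196655780142) (nat_lit 76) (nat_lit 5) (nat_lit 79) (nat_lit 5) (nat_lit 80) (nat_lit 5) (nat_lit 483) (nat_lit 471) (nat_lit 246)) (XT.lf (nat_lit 0) (nat_lit 31831550979) (nat_lit 304) (nat_lit 34823286678) (nat_lit 76) (nat_lit 1579742890857)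 (nat_lit 75) (nat_lit 5) (nat_lit 79) (nat_lit 5) (nat_lit 76) (nat_lit 5) (nat_lit 484) (nat_lit 471) (nat_lit 245))) (XT.nd (nat_lit 78) (nat_lit 228) (nat_lit 0) (XT.lf (nat_lit 0) (nat_lit 307837799857) (nat_lit 304) (nat_lit 764023378597) (nat_lit 76) (nat_lit 648906836412) (nat_lit 72) (nat_lit 5) (nat_lit 76) (nat_lit 5) (nat_lit 73) (nat_lit 5) (nat_lit 485) (nat_lit 471) (nat_lit 244)) (XT.lf (nat_lit 0) (nat_lit 238796194157) (nat_lit 228) (nat_lit 375579561142) (nat_lit 304) (nat_lit 1186036072294) (nat_lit 69) (nat_lit 5) (nat_lit 72) (nat_lit 5) (nat_lit 73) (nat_lit 5) (nat_lit 486) (nat_lit 471) (nat_lit 243))))) (XT.nd (nat_lit 234) (nat_lit 532) (nat_lit 0) (XT.nd (nat_lit 78) (nat_lit 152) (nat_lit 0) (XT.lf (nat_lit 0) (nat_lit 975921627680) (nat_lit 304) (nat_lit 529059080256) (nat_lit 76) (nat_lit 379007646962) (nat_lit 69) (nat_lit 5) (nat_lit 73) (nat_lit 5) (nat_lit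 70) (nat_lit 5) (nat_lit 487) (nat_lit 471) (nat_lit 242)) (XT.nd (nat_lit 78) (nat_lit 0) (nat_lit 0) (XT.lf (nat_lit 0) (nat_lit 606696074907) (nat_lit 152) (nat_lit 784041460673) (nat_lit 228) (nat_lit 581565759551) (nat_lit 67) (nat_lit 5) (nat_lit 69) (nat_lit 5) (nat_lit 70) (nat_lit 5) (nat_lit 488) (nat_lit 471) (nat_lit 241)) (XT.lf (nat_lit 0) (nat_lit 1853449330045) (nat_lit 228) (nat_lit 203371704031) (nat_lit 76) (nat_lit 9685547391) (nat_lit 67) (nat_lit 5) (nat_lit 70) (nat_lit 5) (nat_lit 68) (nat_lit 5) (nat_lit 489) (nat_lit 471) (nat_lit 240)))) (XT.nd (nat_lit 156) (nat_lit 152) (nat_lit 0) (XT.nd (nat_lit 78) (nat_lit 152) (nat_lit 0) (XT.lf (nat_lit 0) (nat_lit 223366191923) (nat_lit 228) (nat_lit 1084388988107) (nat_lit 76) (nat_lit 856320317353) (nat_lit 64) (nat_lit 5) (nat_lit 67) (nat_lit 5) (nat_lit 65) (nat_lit 5) (nat_lit 490) (nat_lit 471) (nat_lit 239)) (XT.lf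 (nat_lit 0) (nat_lit 212923114126) (nat_lit 152) (nat_lit 481095547151) (nat_lit 228) (nat_lit 1574122486842) (nat_lit 62) (nat_lit 5) (nat_lit 64) (nat_lit 5) (nat_lit 65) (nat_lit 5) (nat_lit 491) (nat_lit 471) (nat_lit 238))) (XT.nd (nat_lit 78) (nat_lit 152) (nat_lit 0) (XT.lf (nat_lit 0) (nat_lit 1242643868686) (nat_lit 228) (nat_lit 713141204362) (nat_lit 76) (nat_lit 421521334628) (nat_lit 62) (nat_lit 5) (nat_lit 65) (nat_lit 5) (nat_lit 63) (nat_lit 5) (nat_lit 492) (nat_lit 471) (nat_lit 237)) (XT.lf (nat_lit 0) (nat_lit 761920109660) (nat_lit 152) (nat_lit 1104059166045) (nat_lit 228) (nat_lit 626759997649) (nat_lit 60) (nat_lit 5) (nat_lit 62) (nat_lit 5) (nat_lit 63) (nat_lit 5) (nat_lit 493) (nat_lit 471) (nat_lit 236)))))) (XT.nd (nat_lit 546) (nat_lit 532) (nat_lit 0) (XT.nd (nat_lit 234) (nat_lit 304) (nat_lit 0) (XT.nd (nat_lit 78) (nat_lit 304) (nat_lit 0) (XT.lf (nat_lit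 0) (nat_lit 2395543297656) (nat_lit 152) (nat_lit 163136759853) (nat_lit 228) (nat_lit 57166827400) (nat_lit 60) (nat_lit 5) (nat_lit 62) (nat_lit 5) (nat_lit 63) (nat_lit 5) (nat_lit 494) (nat_lit 471) (nat_lit 235)) (XT.nd (nat_lit 78) (nat_lit 152) (nat_lit 0) (XT.lf (nat_lit 0) (nat_lit 587247518179) (nat_lit 152) (nat_lit 1295452212390) (nat_lit 76) (nat_lit 860456447178) (nat_lit 58) (nat_lit 5) (nat_lit 60) (nat_lit 5) (nat_lit 59) (nat_lit 5) (nat_lit 495) (nat_lit 471) (nat_lit 234)) (XT.lf (nat_lit 0) (nat_lit 395414240741) (nat_lit 152) (nat_lit 904639260404) (nat_lit 228) (nat_lit 1578883765992) (nat_lit 56) (nat_lit 5) (nat_lit 58) (nat_lit 5) (nat_lit 59) (nat_lit 5) (nat_lit 496) (nat_lit 471) (nat_lit 233)))) (XT.nd (nat_lit 156) (nat_lit 228) (nat_lit 0) (XT.nd (nat_lit 78) (nat_lit 76) (nat_lit 0) (XT.lf (nat_lit 0) (nat_lit 2109871491090) (nat_lit 228) (nat_lit 732091295935)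 (nat_lit 76) (nat_lit 180419054387) (nat_lit 56) (nat_lit 5) (nat_lit 59) (nat_lit 5) (nat_lit 57) (nat_lit 4) (nat_lit 497) (nat_lit 471) (nat_lit 232)) (XT.lf (nat_lit 0) (nat_lit 1195775373378) (nat_lit 76) (nat_lit 1840955095217) (nat_lit 152) (nat_lit 136391069165) (nat_lit 55) (nat_lit 5) (nat_lit 56) (nat_lit 5) (nat_lit 57) (nat_lit 4) (nat_lit 498) (nat_lit 471) (nat_lit 231))) (XT.nd (nat_lit 78) (nat_lit 152) (nat_lit 0) (XT.lf (nat_lit 0) (nat_lit 687246573274) (nat_lit 152) (nat_lit 32211669537) (nat_lit 76) (nat_lit 2613468941474) (nat_lit 54) (nat_lit 5) (nat_lit 56) (nat_lit 5) (nat_lit 55) (nat_lit 5) (nat_lit 499) (nat_lit 471) (nat_lit 230)) (XT.lf (nat_lit 0) (nat_lit 1634961510416) (nat_lit 228) (nat_lit 1340598584491) (nat_lit 76) (nat_lit 524429382118) (nat_lit 52) (nat_lit 5) (nat_lit 55) (nat_lit 5) (nat_lit 53) (nat_lit 4) (nat_lit 500) (nat_lit 471) (nat_lit 229)))))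 (XT.nd (nat_lit 234) (nat_lit 228) (nat_lit 0) (XT.nd (nat_lit 78) (nat_lit 228) (nat_lit 0) (XT.lf (nat_lit 0) (nat_lit 872755952021) (nat_lit 76) (nat_lit 1826318317710) (nat_lit 152) (nat_lit 978096033277) (nat_lit 51) (nat_lit 5) (nat_lit 52) (nat_lit 5) (nat_lit 53) (nat_lit 4) (nat_lit 501) (nat_lit 471) (nat_lit 228)) (XT.nd (nat_lit 78) (nat_lit 152) (nat_lit 0) (XT.lf (nat_lit 0) (nat_lit 18407818288) (nat_lit 152) (nat_lit 526639390577) (nat_lit 76) (nat_lit 3320508757389) (nat_lit 50) (nat_lit 5) (nat_lit 52) (nat_lit 5) (nat_lit 51) (nat_lit 5) (nat_lit 502) (nat_lit 471) (nat_lit 227)) (XT.lf (nat_lit 0) (nat_lit 1112177835756) (nat_lit 228) (nat_lit 2076779855449) (nat_lit 76) (nat_lit 872391308118) (nat_lit 48) (nat_lit 5) (nat_lit 51) (nat_lit 5) (nat_lit 49) (nat_lit 4) (nat_lit 503) (nat_lit 471) (nat_lit 226)))) (XT.nd (nat_lit 156) (nat_lit 152) (nat_lit 0) (XT.nd (nat_lit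 78) (nat_lit 0) (nat_lit 0) (XT.lf (nat_lit 0) (nat_lit 463632995705) (nat_lit 76) (nat_lit 1869897173349) (nat_lit 152) (nat_lit 1936068848831) (nat_lit 47) (nat_lit 5) (nat_lit 48) (nat_lit 5) (nat_lit 49) (nat_lit 4) (nat_lit 504) (nat_lit 471) (nat_lit 225)) (XT.lf (nat_lit 0) (nat_lit 3325387182916) (nat_lit 76) (nat_lit 383986346311) (nat_lit 152) (nat_lit 780592881486) (nat_lit 47) (nat_lit 5) (nat_lit 48) (nat_lit 5) (nat_lit 49) (nat_lit 4) (nat_lit 505) (nat_lit 471) (nat_lit 224))) (XT.nd (nat_lit 78) (nat_lit 0) (nat_lit 0) (XT.lf (nat_lit 0) (nat_lit 517151304152) (nat_lit 152) (nat_lit 2989241731514) (nat_lit 76) (nat_lit 1214814437433) (nat_lit 45) (nat_lit 5) (nat_lit 47) (nat_lit 5) (nat_lit 46) (nat_lit 4) (nat_lit 506) (nat_lit 471) (nat_lit 223)) (XT.lf (nat_lit 0) (nat_lit 1919185119913) (nat_lit 152) (nat_lit 73011396278) (nat_lit 76) (nat_lit 2973717902222) (nat_lit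 45) (nat_lit 5) (nat_lit 47) (nat_lit 5) (nat_lit 46) (nat_lit 4) (nat_lit 507) (nat_lit 471) (nat_lit 222))))))) (XT.nd (nat_lit 1092) (nat_lit 912) (nat_lit 0) (XT.nd (nat_lit 546) (nat_lit 456) (nat_lit 0) (XT.nd (nat_lit 234) (nat_lit 304) (nat_lit 0) (XT.nd (nat_lit 78) (nat_lit 152) (nat_lit 0) (XT.lf (nat_lit 0) (nat_lit 3238521315773) (nat_lit 76) (nat_lit 272746839469) (nat_lit 152) (nat_lit 1712698842965) (nat_lit 44) (nat_lit 5) (nat_lit 45) (nat_lit 5) (nat_lit 46) (nat_lit 4) (nat_lit 508) (nat_lit 471) (nat_lit 221)) (XT.nd (nat_lit 78) (nat_lit 76) (nat_lit 0) (XT.lf (nat_lit 0) (nat_lit 1345793510187) (nat_lit 76) (nat_lit 3957440262694) (nat_lit 76) (nat_lit 193628736344) (nat_lit 43) (nat_lit 4) (nat_lit 44) (nat_lit 5) (nat_lit 44) (nat_lit 4) (nat_lit 509) (nat_lit 471) (nat_lit 220)) (XT.lf (nat_lit 0) (nat_lit 1437363781703) (nat_lit 152) (nat_lit 774094861544) (nat_lit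 76) (nat_lit 3572324654513) (nat_lit 42) (nat_lit 5) (nat_lit 44) (nat_lit 5) (nat_lit 43) (nat_lit 4) (nat_lit 510) (nat_lit 471) (nat_lit 219)))) (XT.nd (nat_lit 156) (nat_lit 152) (nat_lit 0) (XT.nd (nat_lit 78) (nat_lit 76) (nat_lit 0) (XT.lf (nat_lit 0) (nat_lit 3019032099753) (nat_lit 76) (nat_lit 241950413849) (nat_lit 152) (nat_lit 2826464266870) (nat_lit 41) (nat_lit 5) (nat_lit 42) (nat_lit 5) (nat_lit 43) (nat_lit 4) (nat_lit 511) (nat_lit 471) (nat_lit 218)) (XT.lf (nat_lit 0) (nat_lit 736898293656) (nat_lit 76) (nat_lit 4578366884450) (nat_lit 76) (nat_lit 1093356208972) (nat_lit 40) (nat_lit 4) (nat_lit 41) (nat_lit 5) (nat_lit 41) (nat_lit 4) (nat_lit 512) (nat_lit 471) (nat_lit 217))) (XT.nd (nat_lit 78) (nat_lit 76) (nat_lit 0) (XT.lf (nat_lit 0) (nat_lit 831821182781) (nat_lit 152) (nat_lit 1754822616128) (nat_lit 76) (nat_lit 4159959764499) (nat_lit 39) (nat_lit 5) (nat_lit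 41) (nat_lit 5) (nat_lit 40) (nat_lit 4) (nat_lit 513) (nat_lit 471) (nat_lit 216)) (XT.lf (nat_lit 0) (nat_lit 2575887352555) (nat_lit 76) (nat_lit 338005930926) (nat_lit 152) (nat_lit 4190503109217) (nat_lit 38) (nat_lit 5) (nat_lit 39) (nat_lit 5) (nat_lit 40) (nat_lit 4) (nat_lit 514) (nat_lit 471) (nat_lit 215))))) (XT.nd (nat_lit 234) (nat_lit 228) (nat_lit 0) (XT.nd (nat_lit 78) (nat_lit 228) (nat_lit 0) (XT.lf (nat_lit 0) (nat_lit 5262034471710) (nat_lit 152) (nat_lit 185645178064) (nat_lit 0) (nat_lit 2035172733002) (nat_lit 38) (nat_lit 5) (nat_lit 40) (nat_lit 4) (nat_lit 38) (nat_lit 4) (nat_lit 515) (nat_lit 471) (nat_lit 214)) (XT.nd (nat_lit 78) (nat_lit 76) (nat_lit 0) (XT.lf (nat_lit 0) (nat_lit 36905460451) (nat_lit 152) (nat_lit 3150098381583) (nat_lit 76) (nat_lit 4694698358590) (nat_lit 36) (nat_lit 5) (nat_lit 38) (nat_lit 5) (nat_lit 37) (nat_lit 4) (nat_lit 516) (nat_lit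 471) (nat_lit 213)) (XT.lf (nat_lit 0) (nat_lit 1771540829620) (nat_lit 76) (nat_lit 631537328798) (nat_lit 152) (nat_lit 5900942094314) (nat_lit 35) (nat_lit 5) (nat_lit 36) (nat_lit 5) (nat_lit 37) (nat_lit 4) (nat_lit 517) (nat_lit 471) (nat_lit 212)))) (XT.nd (nat_lit 156) (nat_lit 152) (nat_lit 0) (XT.nd (nat_lit 78) (nat_lit 76) (nat_lit 0) (XT.lf (nat_lit 0) (nat_lit 5098098333091) (nat_lit 152) (nat_lit 1540597734790) (nat_lit 0) (nat_lit 2110263388259) (nat_lit 35) (nat_lit 5) (nat_lit 37) (nat_lit 4) (nat_lit 35) (nat_lit 4) (nat_lit 518) (nat_lit 471) (nat_lit 211)) (XT.lf (nat_lit 0) (nat_lit 4036134725288) (nat_lit 76) (nat_lit 4086058099775) (nat_lit 76) (nat_lit 1098223154491) (nat_lit 34) (nat_lit 4) (nat_lit 35) (nat_lit 5) (nat_lit 35) (nat_lit 4) (nat_lit 519) (nat_lit 471) (nat_lit 210))) (XT.nd (nat_lit 78) (nat_lit 0) (nat_lit 0) (XT.lf (nat_lit 0) (nat_lit 399397101212)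 (nat_lit 76) (nat_lit 1229079844419) (nat_lit 152) (nat_lit 8093695097747) (nat_lit 32) (nat_lit 5) (nat_lit 33) (nat_lit 5) (nat_lit 34) (nat_lit 4) (nat_lit 520) (nat_lit 471) (nat_lit 209)) (XT.lf (nat_lit 0) (nat_lit 4704057493309) (nat_lit 152) (nat_lit 3604979261311) (nat_lit 0) (nat_lit 1937543654337) (nat_lit 32) (nat_lit 5) (nat_lit 34) (nat_lit 4) (nat_lit 32) (nat_lit 4) (nat_lit 521) (nat_lit 471) (nat_lit 208)))))) (XT.nd (nat_lit 546) (nat_lit 456) (nat_lit 0) (XT.nd (nat_lit 234) (nat_lit 228) (nat_lit 0) (XT.nd (nat_lit 78) (nat_lit 152) (nat_lit 0) (XT.lf (nat_lit 0) (nat_lit 2671979138700) (nat_lit 76) (nat_lit 5449890659651) (nat_lit 76) (nat_lit 2683376820347) (nat_lit 31) (nat_lit 4) (nat_lit 32) (nat_lit 5) (nat_lit 32) (nat_lit 4) (nat_lit 522) (nat_lit 471) (nat_lit 207)) (XT.nd (nat_lit 78) (nat_lit 76) (nat_lit 0) (XT.lf (nat_lit 0) (nat_lit 485392876360) (nat_lit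 152) (nat_lit 1756896656780) (nat_lit 76) (nat_lit 9157448196235) (nat_lit 30) (nat_lit 5) (nat_lit 32) (nat_lit 5) (nat_lit 31) (nat_lit 4) (nat_lit 523) (nat_lit 471) (nat_lit 206)) (XT.lf (nat_lit 0) (nat_lit 3925315243084) (nat_lit 152) (nat_lit 6734158832338) (nat_lit 0) (nat_lit 1363728354292) (nat_lit 29) (nat_lit 5) (nat_lit 31) (nat_lit 4) (nat_lit 29) (nat_lit 4) (nat_lit 524) (nat_lit 471) (nat_lit 205)))) (XT.nd (nat_lit 156) (nat_lit 152) (nat_lit 0) (XT.nd (nat_lit 78) (nat_lit 0) (nat_lit 0) (XT.lf (nat_lit 0) (nat_lit 259359171275) (nat_lit 76) (nat_lit 7494835481764) (nat_lit 76) (nat_lit 4933248592728) (nat_lit 28) (nat_lit 4) (nat_lit 29) (nat_lit 5) (nat_lit 29) (nat_lit 4) (nat_lit 525) (nat_lit 471) (nat_lit 204)) (XT.lf (nat_lit 0) (nat_lit 8195336193498) (nat_lit 76) (nat_lit 3878172058007) (nat_lit 76) (nat_lit 1316585168744) (nat_lit 28) (nat_lit 4) (nat_lit 29)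 (nat_lit 5) (nat_lit 29) (nat_lit 4) (nat_lit 526) (nat_lit 471) (nat_lit 203))) (XT.nd (nat_lit 78) (nat_lit 0) (nat_lit 0) (XT.lf (nat_lit 0) (nat_lit 2528527814843) (nat_lit 152) (nat_lit 11453265712893) (nat_lit 0) (nat_lit 156688102370) (nat_lit 26) (nat_lit 5) (nat_lit 28) (nat_lit 4) (nat_lit 26) (nat_lit 4) (nat_lit 527) (nat_lit 471) (nat_lit 202)) (XT.lf (nat_lit 0) (nat_lit 6856574841944) (nat_lit 152) (nat_lit 3582978780049) (nat_lit 0) (nat_lit 4484735129291) (nat_lit 26) (nat_lit 5) (nat_lit 28) (nat_lit 4) (nat_lit 26) (nat_lit 4) (nat_lit 528) (nat_lit 471) (nat_lit 201))))) (XT.nd (nat_lit 312) (nat_lit 228) (nat_lit 0) (XT.nd (nat_lit 156) (nat_lit 76) (nat_lit 0) (XT.nd (nat_lit 78) (nat_lit 76) (nat_lit 0) (XT.lf (nat_lit 0) (nat_lit 5175847984642) (nat_lit 76) (nat_lit 6479496914452) (nat_lit 76) (nat_lit 4107657201633) (nat_lit 25) (nat_lit 4) (nat_lit 26) (nat_lit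 5) (nat_lit 26) (nat_lit 4) (nat_lit 529) (nat_lit 471) (nat_lit 200)) (XT.lf (nat_lit 0) (nat_lit 261249305175) (nat_lit 152) (nat_lit 1828441158207) (nat_lit 76) (nat_lit 14570755743121) (nat_lit 24) (nat_lit 5) (nat_lit 26) (nat_lit 5) (nat_lit 25) (nat_lit 4) (nat_lit 530) (nat_lit 471) (nat_lit 199))) (XT.nd (nat_lit 78) (nat_lit 0) (nat_lit 0) (XT.lf (nat_lit 0) (nat_lit 5019718974261) (nat_lit 152) (nat_lit 9756902717305) (nat_lit 0) (nat_lit 2823571091747) (nat_lit 23) (nat_lit 5) (nat_lit 25) (nat_lit 4) (nat_lit 23) (nat_lit 4) (nat_lit 531) (nat_lit 471) (nat_lit 198)) (XT.lf (nat_lit 0) (nat_lit 10264435227052) (nat_lit 152) (nat_lit 273950993984) (nat_lit 0) (nat_lit 8068287344416) (nat_lit 23) (nat_lit 5) (nat_lit 25) (nat_lit 4) (nat_lit 23) (nat_lit 4) (nat_lit 532) (nat_lit 471) (nat_lit 197)))) (XT.nd (nat_lit 156) (nat_lit 0) (nat_lit 0) (XT.nd (nat_lit 78) (nat_lit 152)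 (nat_lit 0) (XT.lf (nat_lit 0) (nat_lit 10492514959306) (nat_lit 76) (nat_lit 5688559057340) (nat_lit 76) (nat_lit 3492411174591) (nat_lit 22) (nat_lit 4) (nat_lit 23) (nat_lit 5) (nat_lit 23) (nat_lit 4) (nat_lit 533) (nat_lit 471) (nat_lit 196)) (XT.lf (nat_lit 0) (nat_lit 1335469580629) (nat_lit 76) (nat_lit 362423430660) (nat_lit 152) (nat_lit 19121206343953) (nat_lit 20) (nat_lit 5) (nat_lit 21) (nat_lit 5) (nat_lit 22) (nat_lit 4) (nat_lit 534) (nat_lit 471) (nat_lit 195))) (XT.nd (nat_lit 57564) (nat_lit 0) (nat_lit 5548) (XT.lf (nat_lit 0) (nat_lit 7501909608997) (nat_lit 152) (nat_lit 9047783218691) (nat_lit 0) (nat_lit 5468439347005) (nat_lit 20) (nat_lit 5) (nat_lit 22) (nat_lit 4) (nat_lit 20) (nat_lit 4) (nat_lit 535) (nat_lit 471) (nat_lit 194)) (XT.lf (nat_lit 0) (nat_lit 510766359391) (nat_lit 532) (nat_lit 3407266682) (nat_lit 532) (nat_lit 3407266682) (nat_lit 93) (nat_lit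 3) (nat_lit 100) (nat_lit 3) (nat_lit 100) (nat_lit 5) (nat_lit 472) (nat_lit 472) (nat_lit 256))))))))
noncomputable def xc226 : XT := (XT.nd (nat_lit 2184) (nat_lit 2128) (nat_lit 0) (XT.nd (nat_lit 1092) (nat_lit 1368) (nat_lit 0) (XT.nd (nat_lit 546) (nat_lit 1064) (nat_lit 0) (XT.nd (nat_lit 234) (nat_lit 0) (nat_lit 76) (XT.nd (nat_lit 78) (nat_lit 532) (nat_lit 0) (XT.lf (nat_lit 76) (nat_lit 535484098251) (nat_lit 0) (nat_lit 539788392391) (nat_lit 532) (nat_lit 265489233) (nat_lit 94) (nat_lit 5) (nat_lit 93) (nat_lit 3) (nat_lit 100) (nat_lit 5) (nat_lit 473) (nat_lit 472) (nat_lit 255)) (XT.nd (nat_lit 78) (nat_lit 0) (nat_lit 76) (XT.lf (nat_lit 76) (nat_lit 2188730009) (nat_lit 0) (nat_lit 11513538951) (nat_lit 608) (nat_lit 1105395239641) (nat_lit 87) (nat_lit 5) (nat_lit 86) (nat_lit 5) (nat_lit 94) (nat_lit 5) (nat_lit 474) (nat_lit 472) (nat_lit 254)) (XT.lf (nat_lit 0)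 (nat_lit 57367186217) (nat_lit 532) (nat_lit 560271380823) (nat_lit 608) (nat_lit 546215154385) (nat_lit 87) (nat_lit 5) (nat_lit 94) (nat_lit 5) (nat_lit 95) (nat_lit 5) (nat_lit 475) (nat_lit 472) (nat_lit 253)))) (XT.nd (nat_lit 156) (nat_lit 0) (nat_lit 76) (XT.nd (nat_lit 78) (nat_lit 0) (nat_lit 76) (XT.lf (nat_lit 76) (nat_lit 42735768308) (nat_lit 0) (nat_lit 63116372584) (nat_lit 608) (nat_lit 1106232142859) (nat_lit 88) (nat_lit 5) (nat_lit 87) (nat_lit 5) (nat_lit 95) (nat_lit 5) (nat_lit 476) (nat_lit 472) (nat_lit 252)) (XT.lf (nat_lit 0) (nat_lit 186817814367) (nat_lit 532) (nat_lit 550384285703) (nat_lit 608) (nat_lit 524683037200) (nat_lit 88) (nat_lit 5) (nat_lit 95) (nat_lit 5) (nat_lit 96) (nat_lit 5) (nat_lit 477) (nat_lit 472) (nat_lit 251))) (XT.nd (nat_lit 78) (nat_lit 0) (nat_lit 76) (XT.lf (nat_lit 76) (nat_lit 122590148075) (nat_lit 0) (nat_lit 156258271465) (nat_lit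 608) (nat_lit 1036454625305) (nat_lit 89) (nat_lit 5) (nat_lit 88) (nat_lit 5) (nat_lit 96) (nat_lit 5) (nat_lit 478) (nat_lit 472) (nat_lit 250)) (XT.lf (nat_lit 0) (nat_lit 405012255196) (nat_lit 532) (nat_lit 502809436484) (nat_lit 76) (nat_lit 463031030782) (nat_lit 89) (nat_lit 5) (nat_lit 96) (nat_lit 5) (nat_lit 90) (nat_lit 5) (nat_lit 479) (nat_lit 472) (nat_lit 249))))) (XT.nd (nat_lit 234) (nat_lit 532) (nat_lit 0) (XT.nd (nat_lit 78) (nat_lit 228) (nat_lit 0) (XT.lf (nat_lit 0) (nat_lit 250772285894) (nat_lit 532) (nat_lit 300586643800) (nat_lit 608) (nat_lit 878680266034) (nat_lit 82) (nat_lit 5) (nat_lit 89) (nat_lit 5) (nat_lit 90) (nat_lit 5) (nat_lit 480) (nat_lit 472) (nat_lit 248)) (XT.nd (nat_lit 78) (nat_lit 228) (nat_lit 0) (XT.lf (nat_lit 0) (nat_lit 732061341529) (nat_lit 608) (nat_lit 408525316476) (nat_lit 76) (nat_lit 351562088582) (nat_lit 82) (nat_lit 5) (nat_lit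 90) (nat_lit 5) (nat_lit 83) (nat_lit 5) (nat_lit 481) (nat_lit 472) (nat_lit 247)) (XT.lf (nat_lit 0) (nat_lit 437977567166) (nat_lit 228) (nat_lit 507583192024) (nat_lit 304) (nat_lit 612199037294) (nat_lit 79) (nat_lit 5) (nat_lit 82) (nat_lit 5) (nat_lit 83) (nat_lit 5) (nat_lit 482) (nat_lit 472) (nat_lit 246)))) (XT.nd (nat_lit 156) (nat_lit 304) (nat_lit 0) (XT.nd (nat_lit 78) (nat_lit 228) (nat_lit 0) (XT.lf (nat_lit 0) (nat_lit 1191834318439) (nat_lit 304) (nat_lit 256816656761) (nat_lit 76) (nat_lit 178713220119) (nat_lit 79) (nat_lit 5) (nat_lit 83) (nat_lit 5) (nat_lit 80) (nat_lit 5) (nat_lit 483) (nat_lit 472) (nat_lit 245)) (XT.lf (nat_lit 0) (nat_lit 696862040665) (nat_lit 228) (nat_lit 790891246583) (nat_lit 304) (nat_lit 212388176827) (nat_lit 76) (nat_lit 5) (nat_lit 79) (nat_lit 5) (nat_lit 80) (nat_lit 5) (nat_lit 484) (nat_lit 472) (nat_lit 244))) (XT.nd (nat_lit 78)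 (nat_lit 228) (nat_lit 0) (XT.lf (nat_lit 0) (nat_lit 34378132871) (nat_lit 304) (nat_lit 37609079940) (nat_lit 76) (nat_lit 1706122329354) (nat_lit 75) (nat_lit 5) (nat_lit 79) (nat_lit 5) (nat_lit 76) (nat_lit 5) (nat_lit 485) (nat_lit 472) (nat_lit 243)) (XT.lf (nat_lit 0) (nat_lit 332464879316) (nat_lit 304) (nat_lit 825145176865) (nat_lit 76) (nat_lit 700819395432) (nat_lit 72) (nat_lit 5) (nat_lit 76) (nat_lit 5) (nat_lit 73) (nat_lit 5) (nat_lit 486) (nat_lit 472) (nat_lit 242)))))) (XT.nd (nat_lit 546) (nat_lit 608) (nat_lit 0) (XT.nd (nat_lit 234) (nat_lit 380) (nat_lit 0) (XT.nd (nat_lit 78) (nat_lit 152) (nat_lit 0) (XT.lf (nat_lit 0) (nat_lit 257899959886) (nat_lit 228) (nat_lit 405625908887) (nat_lit 304) (nat_lit 1280918900779) (nat_lit 69) (nat_lit 5) (nat_lit 72) (nat_lit 5) (nat_lit 73) (nat_lit 5) (nat_lit 487) (nat_lit 472) (nat_lit 241)) (XT.nd (nat_lit 78) (nat_lit 152)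 (nat_lit 0) (XT.lf (nat_lit 0) (nat_lit 1053995407397) (nat_lit 304) (nat_lit 571383738127) (nat_lit 76) (nat_lit 409328273802) (nat_lit 69) (nat_lit 5) (nat_lit 73) (nat_lit 5) (nat_lit 70) (nat_lit 5) (nat_lit 488) (nat_lit 472) (nat_lit 240)) (XT.lf (nat_lit 0) (nat_lit 655231827713) (nat_lit 152) (nat_lit 846764758155) (nat_lit 228) (nat_lit 628090969073) (nat_lit 67) (nat_lit 5) (nat_lit 69) (nat_lit 5) (nat_lit 70) (nat_lit 5) (nat_lit 489) (nat_lit 472) (nat_lit 239)))) (XT.nd (nat_lit 156) (nat_lit 152) (nat_lit 0) (XT.nd (nat_lit 78) (nat_lit 228) (nat_lit 0) (XT.lf (nat_lit 0) (nat_lit 2001725320808) (nat_lit 228) (nat_lit 219641375402) (nat_lit 76) (nat_lit 10460408222) (nat_lit 67) (nat_lit 5) (nat_lit 70) (nat_lit 5) (nat_lit 68) (nat_lit 5) (nat_lit 490) (nat_lit 472) (nat_lit 238)) (XT.lf (nat_lit 0) (nat_lit 241235530982) (nat_lit 228) (nat_lit 1171140041543) (nat_lit 76)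 (nat_lit 924825961148) (nat_lit 64) (nat_lit 5) (nat_lit 67) (nat_lit 5) (nat_lit 65) (nat_lit 5) (nat_lit 491) (nat_lit 472) (nat_lit 237))) (XT.nd (nat_lit 78) (nat_lit 0) (nat_lit 0) (XT.lf (nat_lit 0) (nat_lit 229957027207) (nat_lit 152) (nat_lit 519583168979) (nat_lit 228) (nat_lit 1700052240420) (nat_lit 62) (nat_lit 5) (nat_lit 64) (nat_lit 5) (nat_lit 65) (nat_lit 5) (nat_lit 492) (nat_lit 472) (nat_lit 236)) (XT.lf (nat_lit 0) (nat_lit 1342055417564) (nat_lit 228) (nat_lit 770192438871) (nat_lit 76) (nat_lit 455243060701) (nat_lit 62) (nat_lit 5) (nat_lit 65) (nat_lit 5) (nat_lit 63) (nat_lit 5) (nat_lit 493) (nat_lit 472) (nat_lit 235))))) (XT.nd (nat_lit 234) (nat_lit 304) (nat_lit 0) (XT.nd (nat_lit 78) (nat_lit 152) (nat_lit 0) (XT.lf (nat_lit 0) (nat_lit 822873778706) (nat_lit 152) (nat_lit 1192383876971) (nat_lit 228) (nat_lit 676900756509) (nat_lit 60) (nat_lit 5) (nat_lit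 62) (nat_lit 5) (nat_lit 63) (nat_lit 5) (nat_lit 494) (nat_lit 472) (nat_lit 234)) (XT.nd (nat_lit 78) (nat_lit 152) (nat_lit 0) (XT.lf (nat_lit 0) (nat_lit 2587186817278) (nat_lit 152) (nat_lit 176187679939) (nat_lit 228) (nat_lit 61740135674) (nat_lit 60) (nat_lit 5) (nat_lit 62) (nat_lit 5) (nat_lit 63) (nat_lit 5) (nat_lit 495) (nat_lit 472) (nat_lit 233)) (XT.lf (nat_lit 0) (nat_lit 634227354857) (nat_lit 152) (nat_lit 1399088330874) (nat_lit 76) (nat_lit 929292983416) (nat_lit 58) (nat_lit 5) (nat_lit 60) (nat_lit 5) (nat_lit 59) (nat_lit 5) (nat_lit 496) (nat_lit 472) (nat_lit 232)))) (XT.nd (nat_lit 156) (nat_lit 152) (nat_lit 0) (XT.nd (nat_lit 78) (nat_lit 0) (nat_lit 0) (XT.lf (nat_lit 0) (nat_lit 427047437027) (nat_lit 152) (nat_lit 977010378196) (nat_lit 228) (nat_lit 1705194430565) (nat_lit 56) (nat_lit 5) (nat_lit 58) (nat_lit 5) (nat_lit 59) (nat_lit 5) (nat_lit 497) (nat_lit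 472) (nat_lit 231)) (XT.lf (nat_lit 0) (nat_lit 2278661242359) (nat_lit 228) (nat_lit 790658544801) (nat_lit 76) (nat_lit 194852599004) (nat_lit 56) (nat_lit 5) (nat_lit 59) (nat_lit 5) (nat_lit 57) (nat_lit 4) (nat_lit 498) (nat_lit 472) (nat_lit 230))) (XT.nd (nat_lit 78) (nat_lit 76) (nat_lit 0) (XT.lf (nat_lit 0) (nat_lit 1291437456668) (nat_lit 76) (nat_lit 1988231480311) (nat_lit 152) (nat_lit 147302321327) (nat_lit 55) (nat_lit 5) (nat_lit 56) (nat_lit 5) (nat_lit 57) (nat_lit 4) (nat_lit 499) (nat_lit 472) (nat_lit 229)) (XT.lf (nat_lit 0) (nat_lit 742226328490) (nat_lit 152) (nat_lit 34788552089) (nat_lit 76) (nat_lit 2822546476099) (nat_lit 54) (nat_lit 5) (nat_lit 56) (nat_lit 5) (nat_lit 55) (nat_lit 5) (nat_lit 500) (nat_lit 472) (nat_lit 228))))))) (XT.nd (nat_lit 1092) (nat_lit 988) (nat_lit 0) (XT.nd (nat_lit 546) (nat_lit 456) (nat_lit 0) (XT.nd (nat_lit 234) (nat_lit 380)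 (nat_lit 0) (XT.nd (nat_lit 78) (nat_lit 152) (nat_lit 0) (XT.lf (nat_lit 0) (nat_lit 1765758460137) (nat_lit 228) (nat_lit 1447846419773) (nat_lit 76) (nat_lit 566383752965) (nat_lit 52) (nat_lit 5) (nat_lit 55) (nat_lit 5) (nat_lit 53) (nat_lit 4) (nat_lit 501) (nat_lit 472) (nat_lit 227)) (XT.nd (nat_lit 78) (nat_lit 76) (nat_lit 0) (XT.lf (nat_lit 0) (nat_lit 942576478357) (nat_lit 76) (nat_lit 1972423760908) (nat_lit 152) (nat_lit 1056343685747) (nat_lit 51) (nat_lit 5) (nat_lit 52) (nat_lit 5) (nat_lit 53) (nat_lit 4) (nat_lit 502) (nat_lit 472) (nat_lit 226)) (XT.lf (nat_lit 0) (nat_lit 19880470308) (nat_lit 152) (nat_lit 568770493967) (nat_lit 76) (nat_lit 3586149477154) (nat_lit 50) (nat_lit 5) (nat_lit 52) (nat_lit 5) (nat_lit 51) (nat_lit 5) (nat_lit 503) (nat_lit 472) (nat_lit 225)))) (XT.nd (nat_lit 156) (nat_lit 152) (nat_lit 0) (XT.nd (nat_lit 78) (nat_lit 76) (nat_lit 0)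 (XT.lf (nat_lit 0) (nat_lit 1201152088832) (nat_lit 228) (nat_lit 2242922195686) (nat_lit 76) (nat_lit 942182632654) (nat_lit 48) (nat_lit 5) (nat_lit 51) (nat_lit 5) (nat_lit 49) (nat_lit 4) (nat_lit 504) (nat_lit 472) (nat_lit 224)) (XT.lf (nat_lit 0) (nat_lit 500723682341) (nat_lit 76) (nat_lit 2019488925641) (nat_lit 152) (nat_lit 2090954329301) (nat_lit 47) (nat_lit 5) (nat_lit 48) (nat_lit 5) (nat_lit 49) (nat_lit 4) (nat_lit 505) (nat_lit 472) (nat_lit 223))) (XT.nd (nat_lit 78) (nat_lit 152) (nat_lit 0) (XT.lf (nat_lit 0) (nat_lit 3591418201049) (nat_lit 76) (nat_lit 414705234038) (nat_lit 152) (nat_lit 843040286601) (nat_lit 47) (nat_lit 5) (nat_lit 48) (nat_lit 5) (nat_lit 49) (nat_lit 4) (nat_lit 506) (nat_lit 472) (nat_lit 222)) (XT.lf (nat_lit 0) (nat_lit 558523432366) (nat_lit 152) (nat_lit 3228381025012) (nat_lit 76) (nat_lit 1311999611658) (nat_lit 45) (nat_lit 5) (nat_lit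 47) (nat_lit 5) (nat_lit 46) (nat_lit 4) (nat_lit 507) (nat_lit 472) (nat_lit 221))))) (XT.nd (nat_lit 234) (nat_lit 304) (nat_lit 0) (XT.nd (nat_lit 78) (nat_lit 152) (nat_lit 0) (XT.lf (nat_lit 0) (nat_lit 2072719951619) (nat_lit 152) (nat_lit 78852266292) (nat_lit 76) (nat_lit 3211615352205) (nat_lit 45) (nat_lit 5) (nat_lit 47) (nat_lit 5) (nat_lit 46) (nat_lit 4) (nat_lit 508) (nat_lit 472) (nat_lit 220)) (XT.nd (nat_lit 78) (nat_lit 76) (nat_lit 0) (XT.lf (nat_lit 0) (nat_lit 3497603061667) (nat_lit 76) (nat_lit 294566567446) (nat_lit 152) (nat_lit 1849714727233) (nat_lit 44) (nat_lit 5) (nat_lit 45) (nat_lit 5) (nat_lit 46) (nat_lit 4) (nat_lit 509) (nat_lit 472) (nat_lit 219)) (XT.lf (nat_lit 0) (nat_lit 1453457031830) (nat_lit 76) (nat_lit 4274035464154) (nat_lit 76) (nat_lit 209119012277) (nat_lit 43) (nat_lit 4) (nat_lit 44) (nat_lit 5) (nat_lit 44) (nat_lit 4) (nat_lit 510) (nat_lit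 472) (nat_lit 218)))) (XT.nd (nat_lit 156) (nat_lit 152) (nat_lit 0) (XT.nd (nat_lit 78) (nat_lit 76) (nat_lit 0) (XT.lf (nat_lit 0) (nat_lit 1552352904448) (nat_lit 152) (nat_lit 836022411599) (nat_lit 76) (nat_lit 3858110643917) (nat_lit 42) (nat_lit 5) (nat_lit 44) (nat_lit 5) (nat_lit 43) (nat_lit 4) (nat_lit 511) (nat_lit 472) (nat_lit 217)) (XT.lf (nat_lit 0) (nat_lit 3260554705618) (nat_lit 76) (nat_lit 261306428696) (nat_lit 152) (nat_lit 3052581387027) (nat_lit 41) (nat_lit 5) (nat_lit 42) (nat_lit 5) (nat_lit 43) (nat_lit 4) (nat_lit 512) (nat_lit 472) (nat_lit 216))) (XT.nd (nat_lit 78) (nat_lit 76) (nat_lit 0) (XT.lf (nat_lit 0) (nat_lit 795850195176) (nat_lit 76) (nat_lit 4944636216669) (nat_lit 76) (nat_lit 1180824684640) (nat_lit 40) (nat_lit 4) (nat_lit 41) (nat_lit 5) (nat_lit 41) (nat_lit 4) (nat_lit 513) (nat_lit 472) (nat_lit 215)) (XT.lf (nat_lit 0) (nat_lit 898366895919)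 (nat_lit 152) (nat_lit 1895208389233) (nat_lit 76) (nat_lit 4492756561847) (nat_lit 39) (nat_lit 5) (nat_lit 41) (nat_lit 5) (nat_lit 40) (nat_lit 4) (nat_lit 514) (nat_lit 472) (nat_lit 214)))))) (XT.nd (nat_lit 546) (nat_lit 456) (nat_lit 0) (XT.nd (nat_lit 234) (nat_lit 304) (nat_lit 0) (XT.nd (nat_lit 78) (nat_lit 152) (nat_lit 0) (XT.lf (nat_lit 0) (nat_lit 2781958376030) (nat_lit 76) (nat_lit 365046388123) (nat_lit 152) (nat_lit 4525743338522) (nat_lit 38) (nat_lit 5) (nat_lit 39) (nat_lit 5) (nat_lit 40) (nat_lit 4) (nat_lit 515) (nat_lit 472) (nat_lit 213)) (XT.nd (nat_lit 78) (nat_lit 152) (nat_lit 0) (XT.lf (nat_lit 0) (nat_lit 5682997246491) (nat_lit 152) (nat_lit 200496758703) (nat_lit 0) (nat_lit 2197986566839) (nat_lit 38) (nat_lit 5) (nat_lit 40) (nat_lit 4) (nat_lit 38) (nat_lit 4) (nat_lit 516) (nat_lit 472) (nat_lit 212)) (XT.lf (nat_lit 0) (nat_lit 39857914288) (nat_lit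 152) (nat_lit 3402106218459) (nat_lit 76) (nat_lit 5070274242567) (nat_lit 36) (nat_lit 5) (nat_lit 38) (nat_lit 5) (nat_lit 37) (nat_lit 4) (nat_lit 517) (nat_lit 472) (nat_lit 211)))) (XT.nd (nat_lit 156) (nat_lit 228) (nat_lit 0) (XT.nd (nat_lit 78) (nat_lit 0) (nat_lit 0) (XT.lf (nat_lit 0) (nat_lit 1913264128788) (nat_lit 76) (nat_lit 682060298834) (nat_lit 152) (nat_lit 6373017444006) (nat_lit 35) (nat_lit 5) (nat_lit 36) (nat_lit 5) (nat_lit 37) (nat_lit 4) (nat_lit 518) (nat_lit 472) (nat_lit 210)) (XT.lf (nat_lit 0) (nat_lit 5505946215406) (nat_lit 152) (nat_lit 1663845522342) (nat_lit 0) (nat_lit 2279084473629) (nat_lit 35) (nat_lit 5) (nat_lit 37) (nat_lit 4) (nat_lit 35) (nat_lit 4) (nat_lit 519) (nat_lit 472) (nat_lit 209))) (XT.nd (nat_lit 78) (nat_lit 152) (nat_lit 0) (XT.lf (nat_lit 0) (nat_lit 4359025533751) (nat_lit 76) (nat_lit 4412942732555) (nat_lit 76) (nat_lit 1186080990391)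 (nat_lit 34) (nat_lit 4) (nat_lit 35) (nat_lit 5) (nat_lit 35) (nat_lit 4) (nat_lit 520) (nat_lit 472) (nat_lit 208)) (XT.lf (nat_lit 0) (nat_lit 431348899782) (nat_lit 76) (nat_lit 1327406216710) (nat_lit 152) (nat_lit 8741190689140) (nat_lit 32) (nat_lit 5) (nat_lit 33) (nat_lit 5) (nat_lit 34) (nat_lit 4) (nat_lit 521) (nat_lit 472) (nat_lit 207))))) (XT.nd (nat_lit 312) (nat_lit 228) (nat_lit 0) (XT.nd (nat_lit 156) (nat_lit 152) (nat_lit 0) (XT.nd (nat_lit 78) (nat_lit 76) (nat_lit 0) (XT.lf (nat_lit 0) (nat_lit 5080382107197) (nat_lit 152) (nat_lit 3893377573214) (nat_lit 0) (nat_lit 2092547160109) (nat_lit 32) (nat_lit 5) (nat_lit 34) (nat_lit 4) (nat_lit 32) (nat_lit 4) (nat_lit 522) (nat_lit 472) (nat_lit 206)) (XT.lf (nat_lit 0) (nat_lit 2885737498064) (nat_lit 76) (nat_lit 5885881898190) (nat_lit 76) (nat_lit 2898046950818) (nat_lit 31) (nat_lit 4) (nat_lit 32) (nat_lit 5) (nat_lit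 32) (nat_lit 4) (nat_lit 523) (nat_lit 472) (nat_lit 205))) (XT.nd (nat_lit 78) (nat_lit 76) (nat_lit 0) (XT.lf (nat_lit 0) (nat_lit 524224319802) (nat_lit 152) (nat_lit 1897448362446) (nat_lit 76) (nat_lit 9890044064411) (nat_lit 30) (nat_lit 5) (nat_lit 32) (nat_lit 5) (nat_lit 31) (nat_lit 4) (nat_lit 524) (nat_lit 472) (nat_lit 204)) (XT.lf (nat_lit 0) (nat_lit 4239340475824) (nat_lit 152) (nat_lit 7272891512009) (nat_lit 0) (nat_lit 1472826635194) (nat_lit 29) (nat_lit 5) (nat_lit 31) (nat_lit 4) (nat_lit 29) (nat_lit 4) (nat_lit 525) (nat_lit 472) (nat_lit 203)))) (XT.nd (nat_lit 156) (nat_lit 152) (nat_lit 0) (XT.nd (nat_lit 78) (nat_lit 0) (nat_lit 0) (XT.lf (nat_lit 0) (nat_lit 280107931212) (nat_lit 76) (nat_lit 8094422307010) (nat_lit 76) (nat_lit 5327908466172) (nat_lit 28) (nat_lit 4) (nat_lit 29) (nat_lit 5) (nat_lit 29) (nat_lit 4) (nat_lit 526) (nat_lit 472) (nat_lit 202))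 (XT.lf (nat_lit 0) (nat_lit 8850963113269) (nat_lit 76) (nat_lit 4188425810337) (nat_lit 76) (nat_lit 1421911969305) (nat_lit 28) (nat_lit 4) (nat_lit 29) (nat_lit 5) (nat_lit 29) (nat_lit 4) (nat_lit 527) (nat_lit 472) (nat_lit 201))) (XT.nd (nat_lit 78) (nat_lit 0) (nat_lit 0) (XT.lf (nat_lit 0) (nat_lit 2730810052294) (nat_lit 152) (nat_lit 12369526944956) (nat_lit 0) (nat_lit 169223162283) (nat_lit 26) (nat_lit 5) (nat_lit 28) (nat_lit 4) (nat_lit 26) (nat_lit 4) (nat_lit 528) (nat_lit 472) (nat_lit 200)) (XT.lf (nat_lit 0) (nat_lit 7405100840654) (nat_lit 152) (nat_lit 3869617059335) (nat_lit 0) (nat_lit 4843513950490) (nat_lit 26) (nat_lit 5) (nat_lit 28) (nat_lit 4) (nat_lit 26) (nat_lit 4) (nat_lit 529) (nat_lit 472) (nat_lit 199))))))))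
noncomputable def xc227 : XT := (XT.nd (nat_lit 59748) (nat_lit 0) (nat_lit 912) (XT.nd (nat_lit 58656) (nat_lit 0) (nat_lit 3192) (XT.nd (nat_lit 58110) (nat_lit 0) (nat_lit 5016) (XT.nd (nat_lit 234) (nat_lit 228) (nat_lit 0) (XT.nd (nat_lit 78) (nat_lit 152) (nat_lit 0) (XT.lf (nat_lit 0) (nat_lit 5589915845946) (nat_lit 76) (nat_lit 6997856656131) (nat_lit 76) (nat_lit 4436269765824) (nat_lit 25) (nat_lit 4) (nat_lit 26) (nat_lit 5) (nat_lit 26) (nat_lit 4) (nat_lit 530) (nat_lit 472) (nat_lit 198)) (XT.nd (nat_lit 78) (nat_lit 76) (nat_lit 0) (XT.lf (nat_lit 0) (nat_lit 282149260092) (nat_lit 152) (nat_lit 1974716429446) (nat_lit 76) (nat_lit 15736416212646) (nat_lit 24) (nat_lit 5) (nat_lit 26) (nat_lit 5) (nat_lit 25) (nat_lit 4) (nat_lit 531) (nat_lit 472) (nat_lit 197)) (XT.lf (nat_lit 0) (nat_lit 5421296502684) (nat_lit 152) (nat_lit 10537454913253) (nat_lit 0) (nat_lit 3049456789202)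 (nat_lit 23) (nat_lit 5) (nat_lit 25) (nat_lit 4) (nat_lit 23) (nat_lit 4) (nat_lit 532) (nat_lit 472) (nat_lit 196)))) (XT.nd (nat_lit 156) (nat_lit 152) (nat_lit 0) (XT.nd (nat_lit 78) (nat_lit 76) (nat_lit 0) (XT.lf (nat_lit 0) (nat_lit 11085590054923) (nat_lit 152) (nat_lit 295867053654) (nat_lit 0) (nat_lit 8713750341336) (nat_lit 23) (nat_lit 5) (nat_lit 25) (nat_lit 4) (nat_lit 23) (nat_lit 4) (nat_lit 533) (nat_lit 472) (nat_lit 195)) (XT.lf (nat_lit 0) (nat_lit 11331916175397) (nat_lit 76) (nat_lit 6143643772033) (nat_lit 76) (nat_lit 3771804058350) (nat_lit 22) (nat_lit 4) (nat_lit 23) (nat_lit 5) (nat_lit 23) (nat_lit 4) (nat_lit 534) (nat_lit 472) (nat_lit 194))) (XT.nd (nat_lit 57642) (nat_lit 0) (nat_lit 5548) (XT.lf (nat_lit 0) (nat_lit 1442307166434) (nat_lit 76) (nat_lit 391417295203) (nat_lit 152) (nat_lit 20650902841268) (nat_lit 20) (nat_lit 5) (nat_lit 21) (nat_lit 5)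 (nat_lit 22) (nat_lit 4) (nat_lit 535) (nat_lit 472) (nat_lit 193)) (XT.lf (nat_lit 0) (nat_lit 551627724422) (nat_lit 532) (nat_lit 3679817621) (nat_lit 532) (nat_lit 3679817621) (nat_lit 93) (nat_lit 3) (nat_lit 100) (nat_lit 3) (nat_lit 100) (nat_lit 5) (nat_lit 473) (nat_lit 473) (nat_lit 254))))) (XT.nd (nat_lit 234) (nat_lit 0) (nat_lit 76) (XT.nd (nat_lit 78) (nat_lit 532) (nat_lit 0) (XT.lf (nat_lit 76) (nat_lit 578322885361) (nat_lit 0) (nat_lit 582971510178) (nat_lit 532) (nat_lit 286614259) (nat_lit 94) (nat_lit 5) (nat_lit 93) (nat_lit 3) (nat_lit 100) (nat_lit 5) (nat_lit 474) (nat_lit 473) (nat_lit 253)) (XT.nd (nat_lit 78) (nat_lit 0) (nat_lit 76) (XT.lf (nat_lit 76) (nat_lit 2363891737) (nat_lit 0) (nat_lit 12434660638) (nat_lit 608) (nat_lit 1193826748752) (nat_lit 87) (nat_lit 5) (nat_lit 86) (nat_lit 5) (nat_lit 94) (nat_lit 5) (nat_lit 475) (nat_lit 473) (nat_lit 252))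 (XT.lf (nat_lit 0) (nat_lit 61956654604) (nat_lit 532) (nat_lit 605093024235) (nat_lit 608) (nat_lit 589912332809) (nat_lit 87) (nat_lit 5) (nat_lit 94) (nat_lit 5) (nat_lit 95) (nat_lit 5) (nat_lit 476) (nat_lit 473) (nat_lit 251)))) (XT.nd (nat_lit 156) (nat_lit 0) (nat_lit 76) (XT.nd (nat_lit 78) (nat_lit 0) (nat_lit 76) (XT.lf (nat_lit 76) (nat_lit 46154695129) (nat_lit 0) (nat_lit 68165705172) (nat_lit 608) (nat_lit 1194730619090) (nat_lit 88) (nat_lit 5) (nat_lit 87) (nat_lit 5) (nat_lit 95) (nat_lit 5) (nat_lit 477) (nat_lit 473) (nat_lit 250)) (XT.lf (nat_lit 0) (nat_lit 201763320617) (nat_lit 532) (nat_lit 594414960999) (nat_lit 608) (nat_lit 566657660138) (nat_lit 88) (nat_lit 5) (nat_lit 95) (nat_lit 5) (nat_lit 96) (nat_lit 5) (nat_lit 478) (nat_lit 473) (nat_lit 249))) (XT.nd (nat_lit 78) (nat_lit 0) (nat_lit 76) (XT.lf (nat_lit 76) (nat_lit 132397425771) (nat_lit 0) (nat_lit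 168758944009) (nat_lit 608) (nat_lit 1119370912509) (nat_lit 89) (nat_lit 5) (nat_lit 88) (nat_lit 5) (nat_lit 96) (nat_lit 5) (nat_lit 479) (nat_lit 473) (nat_lit 248)) (XT.lf (nat_lit 0) (nat_lit 437413306367) (nat_lit 532) (nat_lit 543034124501) (nat_lit 76) (nat_lit 500073503721) (nat_lit 89) (nat_lit 5) (nat_lit 96) (nat_lit 5) (nat_lit 90) (nat_lit 5) (nat_lit 480) (nat_lit 473) (nat_lit 247)))))) (XT.nd (nat_lit 546) (nat_lit 760) (nat_lit 0) (XT.nd (nat_lit 234) (nat_lit 532) (nat_lit 0) (XT.nd (nat_lit 78) (nat_lit 228) (nat_lit 0) (XT.lf (nat_lit 0) (nat_lit 270834133974) (nat_lit 532) (nat_lit 324633577179) (nat_lit 608) (nat_lit 948974614859) (nat_lit 82) (nat_lit 5) (nat_lit 89) (nat_lit 5) (nat_lit 90) (nat_lit 5) (nat_lit 481) (nat_lit 473) (nat_lit 246)) (XT.nd (nat_lit 78) (nat_lit 228) (nat_lit 0) (XT.lf (nat_lit 0) (nat_lit 790626310923) (nat_lit 608) (nat_lit 441207276399)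 (nat_lit 76) (nat_lit 379687054019) (nat_lit 82) (nat_lit 5) (nat_lit 90) (nat_lit 5) (nat_lit 83) (nat_lit 5) (nat_lit 482) (nat_lit 473) (nat_lit 245)) (XT.lf (nat_lit 0) (nat_lit 473015836279) (nat_lit 228) (nat_lit 548189842654) (nat_lit 304) (nat_lit 661174896543) (nat_lit 79) (nat_lit 5) (nat_lit 82) (nat_lit 5) (nat_lit 83) (nat_lit 5) (nat_lit 483) (nat_lit 473) (nat_lit 244)))) (XT.nd (nat_lit 156) (nat_lit 304) (nat_lit 0) (XT.nd (nat_lit 78) (nat_lit 228) (nat_lit 0) (XT.lf (nat_lit 0) (nat_lit 1287181118656) (nat_lit 304) (nat_lit 277361926012) (nat_lit 76) (nat_lit 193010281891) (nat_lit 79) (nat_lit 5) (nat_lit 83) (nat_lit 5) (nat_lit 80) (nat_lit 5) (nat_lit 484) (nat_lit 473) (nat_lit 243)) (XT.lf (nat_lit 0) (nat_lit 752611065606) (nat_lit 228) (nat_lit 854162536792) (nat_lit 304) (nat_lit 229379174624) (nat_lit 76) (nat_lit 5) (nat_lit 79) (nat_lit 5) (nat_lit 80) (nat_lit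 5) (nat_lit 485) (nat_lit 473) (nat_lit 242))) (XT.nd (nat_lit 78) (nat_lit 228) (nat_lit 0) (XT.lf (nat_lit 0) (nat_lit 37128433066) (nat_lit 304) (nat_lit 40617746602) (nat_lit 76) (nat_lit 1842612121899) (nat_lit 75) (nat_lit 5) (nat_lit 79) (nat_lit 5) (nat_lit 76) (nat_lit 5) (nat_lit 486) (nat_lit 473) (nat_lit 241)) (XT.lf (nat_lit 0) (nat_lit 359062117218) (nat_lit 304) (nat_lit 891156729268) (nat_lit 76) (nat_lit 756884957446) (nat_lit 72) (nat_lit 5) (nat_lit 76) (nat_lit 5) (nat_lit 73) (nat_lit 5) (nat_lit 487) (nat_lit 473) (nat_lit 240))))) (XT.nd (nat_lit 234) (nat_lit 380) (nat_lit 0) (XT.nd (nat_lit 78) (nat_lit 152) (nat_lit 0) (XT.lf (nat_lit 0) (nat_lit 278532016860) (nat_lit 228) (nat_lit 438075966897) (nat_lit 304) (nat_lit 1383392363717) (nat_lit 69) (nat_lit 5) (nat_lit 72) (nat_lit 5) (nat_lit 73) (nat_lit 5) (nat_lit 488) (nat_lit 473) (nat_lit 239)) (XT.nd (nat_lit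 78) (nat_lit 152) (nat_lit 0) (XT.lf (nat_lit 0) (nat_lit 1138315082429) (nat_lit 304) (nat_lit 617094378408) (nat_lit 76) (nat_lit 442074548637) (nat_lit 69) (nat_lit 5) (nat_lit 73) (nat_lit 5) (nat_lit 70) (nat_lit 5) (nat_lit 489) (nat_lit 473) (nat_lit 238)) (XT.lf (nat_lit 0) (nat_lit 707650431213) (nat_lit 152) (nat_lit 914505922199) (nat_lit 228) (nat_lit 678338202668) (nat_lit 67) (nat_lit 5) (nat_lit 69) (nat_lit 5) (nat_lit 70) (nat_lit 5) (nat_lit 490) (nat_lit 473) (nat_lit 237)))) (XT.nd (nat_lit 156) (nat_lit 152) (nat_lit 0) (XT.nd (nat_lit 78) (nat_lit 228) (nat_lit 0) (XT.lf (nat_lit 0) (nat_lit 2161863384503) (nat_lit 228) (nat_lit 237212629749) (nat_lit 76) (nat_lit 11297255488) (nat_lit 67) (nat_lit 5) (nat_lit 70) (nat_lit 5) (nat_lit 68) (nat_lit 5) (nat_lit 491) (nat_lit 473) (nat_lit 236)) (XT.lf (nat_lit 0) (nat_lit 260534410931) (nat_lit 228) (nat_lit 1264831188615)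 (nat_lit 76) (nat_lit 998812053821) (nat_lit 64) (nat_lit 5) (nat_lit 67) (nat_lit 5) (nat_lit 65) (nat_lit 5) (nat_lit 492) (nat_lit 473) (nat_lit 235))) (XT.nd (nat_lit 78) (nat_lit 0) (nat_lit 0) (XT.lf (nat_lit 0) (nat_lit 248353644211) (nat_lit 152) (nat_lit 561149803683) (nat_lit 228) (nat_lit 1836056380757) (nat_lit 62) (nat_lit 5) (nat_lit 64) (nat_lit 5) (nat_lit 65) (nat_lit 5) (nat_lit 493) (nat_lit 473) (nat_lit 234)) (XT.lf (nat_lit 0) (nat_lit 1449419884734) (nat_lit 228) (nat_lit 831807780964) (nat_lit 76) (nat_lit 491662522105) (nat_lit 62) (nat_lit 5) (nat_lit 65) (nat_lit 5) (nat_lit 63) (nat_lit 5) (nat_lit 494) (nat_lit 473) (nat_lit 233))))))) (XT.nd (nat_lit 1092) (nat_lit 988) (nat_lit 0) (XT.nd (nat_lit 546) (nat_lit 684) (nat_lit 0) (XT.nd (nat_lit 234) (nat_lit 304) (nat_lit 0) (XT.nd (nat_lit 78) (nat_lit 152) (nat_lit 0) (XT.lf (nat_lit 0) (nat_lit 888703732677)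 (nat_lit 152) (nat_lit 1287774567960) (nat_lit 228) (nat_lit 731052781921) (nat_lit 60) (nat_lit 5) (nat_lit 62) (nat_lit 5) (nat_lit 63) (nat_lit 5) (nat_lit 495) (nat_lit 473) (nat_lit 232)) (XT.nd (nat_lit 78) (nat_lit 152) (nat_lit 0) (XT.lf (nat_lit 0) (nat_lit 2794161810507) (nat_lit 152) (nat_lit 190282676586) (nat_lit 228) (nat_lit 66679314019) (nat_lit 60) (nat_lit 5) (nat_lit 62) (nat_lit 5) (nat_lit 63) (nat_lit 5) (nat_lit 496) (nat_lit 473) (nat_lit 231)) (XT.lf (nat_lit 0) (nat_lit 684965573444) (nat_lit 152) (nat_lit 1511015347183) (nat_lit 76) (nat_lit 1003636439634) (nat_lit 58) (nat_lit 5) (nat_lit 60) (nat_lit 5) (nat_lit 59) (nat_lit 5) (nat_lit 497) (nat_lit 473) (nat_lit 230)))) (XT.nd (nat_lit 156) (nat_lit 152) (nat_lit 0) (XT.nd (nat_lit 78) (nat_lit 0) (nat_lit 0) (XT.lf (nat_lit 0) (nat_lit 461211280880) (nat_lit 152) (nat_lit 1055171188699) (nat_lit 228) (nat_lit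 1841609953540) (nat_lit 56) (nat_lit 5) (nat_lit 58) (nat_lit 5) (nat_lit 59) (nat_lit 5) (nat_lit 498) (nat_lit 473) (nat_lit 229)) (XT.lf (nat_lit 0) (nat_lit 2460954169167) (nat_lit 228) (nat_lit 853911181396) (nat_lit 76) (nat_lit 210440824299) (nat_lit 56) (nat_lit 5) (nat_lit 59) (nat_lit 5) (nat_lit 57) (nat_lit 4) (nat_lit 499) (nat_lit 473) (nat_lit 228))) (XT.nd (nat_lit 78) (nat_lit 76) (nat_lit 0) (XT.lf (nat_lit 0) (nat_lit 1394752499002) (nat_lit 76) (nat_lit 2147289979426) (nat_lit 152) (nat_lit 159086478423) (nat_lit 55) (nat_lit 5) (nat_lit 56) (nat_lit 5) (nat_lit 57) (nat_lit 4) (nat_lit 500) (nat_lit 473) (nat_lit 227)) (XT.lf (nat_lit 0) (nat_lit 801604459934) (nat_lit 152) (nat_lit 37571592523) (nat_lit 76) (nat_lit 3048350210741) (nat_lit 54) (nat_lit 5) (nat_lit 56) (nat_lit 5) (nat_lit 55) (nat_lit 5) (nat_lit 501) (nat_lit 473) (nat_lit 226))))) (XT.nd (nat_lit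 234) (nat_lit 380) (nat_lit 0) (XT.nd (nat_lit 78) (nat_lit 152) (nat_lit 0) (XT.lf (nat_lit 0) (nat_lit 1907019161715) (nat_lit 228) (nat_lit 1563674089222) (nat_lit 76) (nat_lit 611694470586) (nat_lit 52) (nat_lit 5) (nat_lit 55) (nat_lit 5) (nat_lit 53) (nat_lit 4) (nat_lit 502) (nat_lit 473) (nat_lit 225)) (XT.nd (nat_lit 78) (nat_lit 76) (nat_lit 0) (XT.lf (nat_lit 0) (nat_lit 1017982639642) (nat_lit 76) (nat_lit 2130217642731) (nat_lit 152) (nat_lit 1140851154722) (nat_lit 51) (nat_lit 5) (nat_lit 52) (nat_lit 5) (nat_lit 53) (nat_lit 4) (nat_lit 503) (nat_lit 473) (nat_lit 224)) (XT.lf (nat_lit 0) (nat_lit 21470930702) (nat_lit 152) (nat_lit 614272092455) (nat_lit 76) (nat_lit 3873041451765) (nat_lit 50) (nat_lit 5) (nat_lit 52) (nat_lit 5) (nat_lit 51) (nat_lit 5) (nat_lit 504) (nat_lit 473) (nat_lit 223)))) (XT.nd (nat_lit 156) (nat_lit 152) (nat_lit 0) (XT.nd (nat_lit 78) (nat_lit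 76) (nat_lit 0) (XT.lf (nat_lit 0) (nat_lit 1297244278414) (nat_lit 228) (nat_lit 2422355930017) (nat_lit 76) (nat_lit 1017557260315) (nat_lit 48) (nat_lit 5) (nat_lit 51) (nat_lit 5) (nat_lit 49) (nat_lit 4) (nat_lit 505) (nat_lit 473) (nat_lit 222)) (XT.lf (nat_lit 0) (nat_lit 540781617205) (nat_lit 76) (nat_lit 2181048021195) (nat_lit 152) (nat_lit 2258230652122) (nat_lit 47) (nat_lit 5) (nat_lit 48) (nat_lit 5) (nat_lit 49) (nat_lit 4) (nat_lit 506) (nat_lit 473) (nat_lit 221))) (XT.nd (nat_lit 78) (nat_lit 152) (nat_lit 0) (XT.lf (nat_lit 0) (nat_lit 3878731694427) (nat_lit 76) (nat_lit 447881635634) (nat_lit 152) (nat_lit 910483487749) (nat_lit 47) (nat_lit 5) (nat_lit 48) (nat_lit 5) (nat_lit 49) (nat_lit 4) (nat_lit 507) (nat_lit 473) (nat_lit 220)) (XT.lf (nat_lit 0) (nat_lit 603205327430) (nat_lit 152) (nat_lit 3486651468413) (nat_lit 76) (nat_lit 1416959597077) (nat_lit 45) (nat_lit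 5) (nat_lit 47) (nat_lit 5) (nat_lit 46) (nat_lit 4) (nat_lit 508) (nat_lit 473) (nat_lit 219)))))) (XT.nd (nat_lit 546) (nat_lit 532) (nat_lit 0) (XT.nd (nat_lit 234) (nat_lit 304) (nat_lit 0) (XT.nd (nat_lit 78) (nat_lit 152) (nat_lit 0) (XT.lf (nat_lit 0) (nat_lit 2238537566707) (nat_lit 152) (nat_lit 85160411855) (nat_lit 76) (nat_lit 3468544595646) (nat_lit 45) (nat_lit 5) (nat_lit 47) (nat_lit 5) (nat_lit 46) (nat_lit 4) (nat_lit 509) (nat_lit 473) (nat_lit 218)) (XT.nd (nat_lit 78) (nat_lit 76) (nat_lit 0) (XT.lf (nat_lit 0) (nat_lit 3777411341437) (nat_lit 76) (nat_lit 318131876398) (nat_lit 152) (nat_lit 1997691885548) (nat_lit 44) (nat_lit 5) (nat_lit 45) (nat_lit 5) (nat_lit 46) (nat_lit 4) (nat_lit 510) (nat_lit 473) (nat_lit 217)) (XT.lf (nat_lit 0) (nat_lit 1569733629380) (nat_lit 76) (nat_lit 4615958284521) (nat_lit 76) (nat_lit 225848513562) (nat_lit 43) (nat_lit 4) (nat_lit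 44) (nat_lit 5) (nat_lit 44) (nat_lit 4) (nat_lit 511) (nat_lit 473) (nat_lit 216)))) (XT.nd (nat_lit 156) (nat_lit 152) (nat_lit 0) (XT.nd (nat_lit 78) (nat_lit 76) (nat_lit 0) (XT.lf (nat_lit 0) (nat_lit 1676541154130) (nat_lit 152) (nat_lit 902904171204) (nat_lit 76) (nat_lit 4166759510041) (nat_lit 42) (nat_lit 5) (nat_lit 44) (nat_lit 5) (nat_lit 43) (nat_lit 4) (nat_lit 512) (nat_lit 473) (nat_lit 215)) (XT.lf (nat_lit 0) (nat_lit 3521399114546) (nat_lit 76) (nat_lit 282210927335) (nat_lit 152) (nat_lit 3296787879820) (nat_lit 41) (nat_lit 5) (nat_lit 42) (nat_lit 5) (nat_lit 43) (nat_lit 4) (nat_lit 513) (nat_lit 473) (nat_lit 214))) (XT.nd (nat_lit 78) (nat_lit 76) (nat_lit 0) (XT.lf (nat_lit 0) (nat_lit 859518243392) (nat_lit 76) (nat_lit 5340207098110) (nat_lit 76) (nat_lit 1275290641364) (nat_lit 40) (nat_lit 4) (nat_lit 41) (nat_lit 5) (nat_lit 41) (nat_lit 4) (nat_lit 514) (nat_lit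 473) (nat_lit 213)) (XT.lf (nat_lit 0) (nat_lit 970236263467) (nat_lit 152) (nat_lit 2046825029348) (nat_lit 76) (nat_lit 4852177100674) (nat_lit 39) (nat_lit 5) (nat_lit 41) (nat_lit 5) (nat_lit 40) (nat_lit 4) (nat_lit 515) (nat_lit 473) (nat_lit 212))))) (XT.nd (nat_lit 312) (nat_lit 228) (nat_lit 0) (XT.nd (nat_lit 156) (nat_lit 228) (nat_lit 0) (XT.nd (nat_lit 78) (nat_lit 0) (nat_lit 0) (XT.lf (nat_lit 0) (nat_lit 3004515076350) (nat_lit 76) (nat_lit 394250084361) (nat_lit 152) (nat_lit 4887802788944) (nat_lit 38) (nat_lit 5) (nat_lit 39) (nat_lit 5) (nat_lit 40) (nat_lit 4) (nat_lit 516) (nat_lit 473) (nat_lit 211)) (XT.lf (nat_lit 0) (nat_lit 6137637040823) (nat_lit 152) (nat_lit 216536470588) (nat_lit 0) (nat_lit 2373825505215) (nat_lit 38) (nat_lit 5) (nat_lit 40) (nat_lit 4) (nat_lit 38) (nat_lit 4) (nat_lit 517) (nat_lit 473) (nat_lit 210))) (XT.nd (nat_lit 78) (nat_lit 76) (nat_lit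 0) (XT.lf (nat_lit 0) (nat_lit 43046562006) (nat_lit 152) (nat_lit 3674274687086) (nat_lit 76) (nat_lit 5475896195081) (nat_lit 36) (nat_lit 5) (nat_lit 38) (nat_lit 5) (nat_lit 37) (nat_lit 4) (nat_lit 518) (nat_lit 473) (nat_lit 209)) (XT.lf (nat_lit 0) (nat_lit 2066325287211) (nat_lit 76) (nat_lit 736625108793) (nat_lit 152) (nat_lit 6882858824221) (nat_lit 35) (nat_lit 5) (nat_lit 36) (nat_lit 5) (nat_lit 37) (nat_lit 4) (nat_lit 519) (nat_lit 473) (nat_lit 208)))) (XT.nd (nat_lit 156) (nat_lit 152) (nat_lit 0) (XT.nd (nat_lit 78) (nat_lit 76) (nat_lit 0) (XT.lf (nat_lit 0) (nat_lit 5946421926071) (nat_lit 152) (nat_lit 1796953137354) (nat_lit 0) (nat_lit 2461411243788) (nat_lit 35) (nat_lit 5) (nat_lit 37) (nat_lit 4) (nat_lit 35) (nat_lit 4) (nat_lit 520) (nat_lit 473) (nat_lit 207)) (XT.lf (nat_lit 0) (nat_lit 4707747602549) (nat_lit 76) (nat_lit 4765978138127) (nat_lit 76) (nat_lit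 1280967455512) (nat_lit 34) (nat_lit 4) (nat_lit 35) (nat_lit 5) (nat_lit 35) (nat_lit 4) (nat_lit 521) (nat_lit 473) (nat_lit 206))) (XT.nd (nat_lit 78) (nat_lit 0) (nat_lit 0) (XT.lf (nat_lit 0) (nat_lit 465856837890) (nat_lit 76) (nat_lit 1433598700961) (nat_lit 152) (nat_lit 9440485930188) (nat_lit 32) (nat_lit 5) (nat_lit 33) (nat_lit 5) (nat_lit 34) (nat_lit 4) (nat_lit 522) (nat_lit 473) (nat_lit 205)) (XT.lf (nat_lit 0) (nat_lit 5486812688138) (nat_lit 152) (nat_lit 4204847754207) (nat_lit 0) (nat_lit 2259950944428) (nat_lit 32) (nat_lit 5) (nat_lit 34) (nat_lit 4) (nat_lit 32) (nat_lit 4) (nat_lit 523) (nat_lit 473) (nat_lit 204))))))))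
noncomputable def xc228 : XT := (XT.nd (nat_lit 59904) (nat_lit 0) (nat_lit 988) (XT.nd (nat_lit 58812) (nat_lit 0) (nat_lit 3496) (XT.nd (nat_lit 546) (nat_lit 228) (nat_lit 0) (XT.nd (nat_lit 234) (nat_lit 228) (nat_lit 0) (XT.nd (nat_lit 78) (nat_lit 152) (nat_lit 0) (XT.lf (nat_lit 0) (nat_lit 3116596522145) (nat_lit 76) (nat_lit 6356752437842) (nat_lit 76) (nat_lit 3129890693888) (nat_lit 31) (nat_lit 4) (nat_lit 32) (nat_lit 5) (nat_lit 32) (nat_lit 4) (nat_lit 524) (nat_lit 473) (nat_lit 203)) (XT.nd (nat_lit 78) (nat_lit 76) (nat_lit 0) (XT.lf (nat_lit 0) (nat_lit 566162276817) (nat_lit 152) (nat_lit 2049244208400) (nat_lit 76) (nat_lit 10681247600261) (nat_lit 30) (nat_lit 5) (nat_lit 32) (nat_lit 5) (nat_lit 31) (nat_lit 4) (nat_lit 525) (nat_lit 473) (nat_lit 202)) (XT.lf (nat_lit 0) (nat_lit 4578487725286) (nat_lit 152) (nat_lit 7854722809894) (nat_lit 0) (nat_lit 1590652776778)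 (nat_lit 29) (nat_lit 5) (nat_lit 31) (nat_lit 4) (nat_lit 29) (nat_lit 4) (nat_lit 526) (nat_lit 473) (nat_lit 201)))) (XT.nd (nat_lit 156) (nat_lit 152) (nat_lit 0) (XT.nd (nat_lit 78) (nat_lit 0) (nat_lit 0) (XT.lf (nat_lit 0) (nat_lit 302516588201) (nat_lit 76) (nat_lit 8741976080173) (nat_lit 76) (nat_lit 5754141131485) (nat_lit 28) (nat_lit 4) (nat_lit 29) (nat_lit 5) (nat_lit 29) (nat_lit 4) (nat_lit 527) (nat_lit 473) (nat_lit 200)) (XT.lf (nat_lit 0) (nat_lit 9559040183156) (nat_lit 76) (nat_lit 4523499864610) (nat_lit 76) (nat_lit 1535664915756) (nat_lit 28) (nat_lit 4) (nat_lit 29) (nat_lit 5) (nat_lit 29) (nat_lit 4) (nat_lit 528) (nat_lit 473) (nat_lit 199))) (XT.nd (nat_lit 78) (nat_lit 0) (nat_lit 0) (XT.lf (nat_lit 0) (nat_lit 2949274866991) (nat_lit 152) (nat_lit 13359089079147) (nat_lit 0) (nat_lit 182761025317) (nat_lit 26) (nat_lit 5) (nat_lit 28) (nat_lit 4) (nat_lit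 26) (nat_lit 4) (nat_lit 529) (nat_lit 473) (nat_lit 198)) (XT.lf (nat_lit 0) (nat_lit 7997508917641) (nat_lit 152) (nat_lit 4179186404261) (nat_lit 0) (nat_lit 5230995075836) (nat_lit 26) (nat_lit 5) (nat_lit 28) (nat_lit 4) (nat_lit 26) (nat_lit 4) (nat_lit 530) (nat_lit 473) (nat_lit 197))))) (XT.nd (nat_lit 234) (nat_lit 0) (nat_lit 0) (XT.nd (nat_lit 78) (nat_lit 152) (nat_lit 0) (XT.lf (nat_lit 0) (nat_lit 6037109132940) (nat_lit 76) (nat_lit 7557685178781) (nat_lit 76) (nat_lit 4791171336853) (nat_lit 25) (nat_lit 4) (nat_lit 26) (nat_lit 5) (nat_lit 26) (nat_lit 4) (nat_lit 531) (nat_lit 473) (nat_lit 196)) (XT.nd (nat_lit 78) (nat_lit 76) (nat_lit 0) (XT.lf (nat_lit 0) (nat_lit 304721209904) (nat_lit 152) (nat_lit 2132693725440) (nat_lit 76) (nat_lit 16995329518295) (nat_lit 24) (nat_lit 5) (nat_lit 26) (nat_lit 5) (nat_lit 25) (nat_lit 4) (nat_lit 532) (nat_lit 473) (nat_lit 195))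 (XT.lf (nat_lit 0) (nat_lit 5855000231886) (nat_lit 152) (nat_lit 11380451287934) (nat_lit 0) (nat_lit 3293413341011) (nat_lit 23) (nat_lit 5) (nat_lit 25) (nat_lit 4) (nat_lit 23) (nat_lit 4) (nat_lit 533) (nat_lit 473) (nat_lit 194)))) (XT.nd (nat_lit 57876) (nat_lit 0) (nat_lit 4788) (XT.nd (nat_lit 57798) (nat_lit 0) (nat_lit 5320) (XT.lf (nat_lit 0) (nat_lit 11972437267638) (nat_lit 152) (nat_lit 319536400929) (nat_lit 0) (nat_lit 9410850376673) (nat_lit 23) (nat_lit 5) (nat_lit 25) (nat_lit 4) (nat_lit 23) (nat_lit 4) (nat_lit 534) (nat_lit 473) (nat_lit 193)) (XT.lf (nat_lit 0) (nat_lit 595757990627) (nat_lit 532) (nat_lit 3974176973) (nat_lit 532) (nat_lit 3974176973) (nat_lit 93) (nat_lit 3) (nat_lit 100) (nat_lit 3) (nat_lit 100) (nat_lit 5) (nat_lit 474) (nat_lit 474) (nat_lit 252))) (XT.nd (nat_lit 78) (nat_lit 532) (nat_lit 0) (XT.lf (nat_lit 76) (nat_lit 624588766988) (nat_lit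 0) (nat_lit 629609270770) (nat_lit 532) (nat_lit 309445567) (nat_lit 94) (nat_lit 5) (nat_lit 93) (nat_lit 3) (nat_lit 100) (nat_lit 5) (nat_lit 475) (nat_lit 474) (nat_lit 251)) (XT.lf (nat_lit 76) (nat_lit 2553057369) (nat_lit 0) (nat_lit 13429466556) (nat_lit 608) (nat_lit 1289332794293) (nat_lit 87) (nat_lit 5) (nat_lit 86) (nat_lit 5) (nat_lit 94) (nat_lit 5) (nat_lit 476) (nat_lit 474) (nat_lit 250)))))) (XT.nd (nat_lit 546) (nat_lit 988) (nat_lit 0) (XT.nd (nat_lit 234) (nat_lit 380) (nat_lit 0) (XT.nd (nat_lit 78) (nat_lit 0) (nat_lit 0) (XT.lf (nat_lit 0) (nat_lit 66913267125) (nat_lit 532) (nat_lit 653500408686) (nat_lit 608) (nat_lit 637105290348) (nat_lit 87) (nat_lit 5) (nat_lit 94) (nat_lit 5) (nat_lit 95) (nat_lit 5) (nat_lit 477) (nat_lit 474) (nat_lit 249)) (XT.nd (nat_lit 78) (nat_lit 0) (nat_lit 76) (XT.lf (nat_lit 76) (nat_lit 49847126772) (nat_lit 0) (nat_lit 73618981116)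 (nat_lit 608) (nat_lit 1290308987000) (nat_lit 88) (nat_lit 5) (nat_lit 87) (nat_lit 5) (nat_lit 95) (nat_lit 5) (nat_lit 478) (nat_lit 474) (nat_lit 248)) (XT.lf (nat_lit 0) (nat_lit 217904455798) (nat_lit 532) (nat_lit 641968099956) (nat_lit 608) (nat_lit 611990255770) (nat_lit 88) (nat_lit 5) (nat_lit 95) (nat_lit 5) (nat_lit 96) (nat_lit 5) (nat_lit 479) (nat_lit 474) (nat_lit 247)))) (XT.nd (nat_lit 156) (nat_lit 456) (nat_lit 0) (XT.nd (nat_lit 78) (nat_lit 0) (nat_lit 76) (XT.lf (nat_lit 76) (nat_lit 142989276289) (nat_lit 0) (nat_lit 182259668812) (nat_lit 608) (nat_lit 1208920514505) (nat_lit 89) (nat_lit 5) (nat_lit 88) (nat_lit 5) (nat_lit 96) (nat_lit 5) (nat_lit 480) (nat_lit 474) (nat_lit 246)) (XT.lf (nat_lit 0) (nat_lit 472406431539) (nat_lit 532) (nat_lit 586476797104) (nat_lit 76) (nat_lit 540079375854) (nat_lit 89) (nat_lit 5) (nat_lit 96) (nat_lit 5) (nat_lit 90) (nat_lit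 5) (nat_lit 481) (nat_lit 474) (nat_lit 245))) (XT.nd (nat_lit 78) (nat_lit 0) (nat_lit 0) (XT.lf (nat_lit 0) (nat_lit 292500920597) (nat_lit 532) (nat_lit 350604264962) (nat_lit 608) (nat_lit 1024892521927) (nat_lit 82) (nat_lit 5) (nat_lit 89) (nat_lit 5) (nat_lit 90) (nat_lit 5) (nat_lit 482) (nat_lit 474) (nat_lit 244)) (XT.lf (nat_lit 0) (nat_lit 853876469014) (nat_lit 608) (nat_lit 476503802445) (nat_lit 76) (nat_lit 410062016926) (nat_lit 82) (nat_lit 5) (nat_lit 90) (nat_lit 5) (nat_lit 83) (nat_lit 5) (nat_lit 483) (nat_lit 474) (nat_lit 243))))) (XT.nd (nat_lit 234) (nat_lit 532) (nat_lit 0) (XT.nd (nat_lit 78) (nat_lit 228) (nat_lit 0) (XT.lf (nat_lit 0) (nat_lit 510857157828) (nat_lit 228) (nat_lit 592045026009) (nat_lit 304) (nat_lit 714068833624) (nat_lit 79) (nat_lit 5) (nat_lit 82) (nat_lit 5) (nat_lit 83) (nat_lit 5) (nat_lit 484) (nat_lit 474) (nat_lit 242)) (XT.nd (nat_lit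 78) (nat_lit 228) (nat_lit 0) (XT.lf (nat_lit 0) (nat_lit 1390155655081) (nat_lit 304) (nat_lit 299550825832) (nat_lit 76) (nat_lit 208451108011) (nat_lit 79) (nat_lit 5) (nat_lit 83) (nat_lit 5) (nat_lit 80) (nat_lit 5) (nat_lit 485) (nat_lit 474) (nat_lit 241)) (XT.lf (nat_lit 0) (nat_lit 812820003742) (nat_lit 228) (nat_lit 922495531576) (nat_lit 304) (nat_lit 247729460283) (nat_lit 76) (nat_lit 5) (nat_lit 79) (nat_lit 5) (nat_lit 80) (nat_lit 5) (nat_lit 486) (nat_lit 474) (nat_lit 240)))) (XT.nd (nat_lit 156) (nat_lit 228) (nat_lit 0) (XT.nd (nat_lit 78) (nat_lit 228) (nat_lit 0) (XT.lf (nat_lit 0) (nat_lit 40098750206) (nat_lit 304) (nat_lit 43867115119) (nat_lit 76) (nat_lit 1990021096965) (nat_lit 75) (nat_lit 5) (nat_lit 79) (nat_lit 5) (nat_lit 76) (nat_lit 5) (nat_lit 487) (nat_lit 474) (nat_lit 239)) (XT.lf (nat_lit 0) (nat_lit 387787127368) (nat_lit 304) (nat_lit 962449214673)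 (nat_lit 76) (nat_lit 817435762941) (nat_lit 72) (nat_lit 5) (nat_lit 76) (nat_lit 5) (nat_lit 73) (nat_lit 5) (nat_lit 488) (nat_lit 474) (nat_lit 238))) (XT.nd (nat_lit 78) (nat_lit 0) (nat_lit 0) (XT.lf (nat_lit 0) (nat_lit 300814629806) (nat_lit 228) (nat_lit 473122031645) (nat_lit 304) (nat_lit 1494063710698) (nat_lit 69) (nat_lit 5) (nat_lit 72) (nat_lit 5) (nat_lit 73) (nat_lit 5) (nat_lit 489) (nat_lit 474) (nat_lit 237)) (XT.lf (nat_lit 0) (nat_lit 1229380325408) (nat_lit 304) (nat_lit 666461878294) (nat_lit 76) (nat_lit 477440523614) (nat_lit 69) (nat_lit 5) (nat_lit 73) (nat_lit 5) (nat_lit 70) (nat_lit 5) (nat_lit 490) (nat_lit 474) (nat_lit 236))))))) (XT.nd (nat_lit 1092) (nat_lit 1140) (nat_lit 0) (XT.nd (nat_lit 546) (nat_lit 684) (nat_lit 0) (XT.nd (nat_lit 234) (nat_lit 304) (nat_lit 0) (XT.nd (nat_lit 78) (nat_lit 228) (nat_lit 0) (XT.lf (nat_lit 0) (nat_lit 764262514820)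 (nat_lit 152) (nat_lit 987666381736) (nat_lit 228) (nat_lit 732605221217) (nat_lit 67) (nat_lit 5) (nat_lit 69) (nat_lit 5) (nat_lit 70) (nat_lit 5) (nat_lit 491) (nat_lit 474) (nat_lit 235)) (XT.nd (nat_lit 78) (nat_lit 228) (nat_lit 0) (XT.lf (nat_lit 0) (nat_lit 2334812487869) (nat_lit 228) (nat_lit 256189592388) (nat_lit 76) (nat_lit 12201048452) (nat_lit 67) (nat_lit 5) (nat_lit 70) (nat_lit 5) (nat_lit 68) (nat_lit 5) (nat_lit 492) (nat_lit 474) (nat_lit 234)) (XT.lf (nat_lit 0) (nat_lit 281377195931) (nat_lit 228) (nat_lit 1366017635478) (nat_lit 76) (nat_lit 1078717031655) (nat_lit 64) (nat_lit 5) (nat_lit 67) (nat_lit 5) (nat_lit 65) (nat_lit 5) (nat_lit 493) (nat_lit 474) (nat_lit 233)))) (XT.nd (nat_lit 156) (nat_lit 152) (nat_lit 0) (XT.nd (nat_lit 78) (nat_lit 0) (nat_lit 0) (XT.lf (nat_lit 0) (nat_lit 268221982753) (nat_lit 152) (nat_lit 606041771848) (nat_lit 228) (nat_lit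 1982940857869) (nat_lit 62) (nat_lit 5) (nat_lit 64) (nat_lit 5) (nat_lit 65) (nat_lit 5) (nat_lit 494) (nat_lit 474) (nat_lit 232)) (XT.lf (nat_lit 0) (nat_lit 1565373504460) (nat_lit 228) (nat_lit 898352357987) (nat_lit 76) (nat_lit 530995538062) (nat_lit 62) (nat_lit 5) (nat_lit 65) (nat_lit 5) (nat_lit 63) (nat_lit 5) (nat_lit 495) (nat_lit 474) (nat_lit 231))) (XT.nd (nat_lit 78) (nat_lit 0) (nat_lit 0) (XT.lf (nat_lit 0) (nat_lit 959800075595) (nat_lit 152) (nat_lit 1390796516963) (nat_lit 228) (nat_lit 789536974374) (nat_lit 60) (nat_lit 5) (nat_lit 62) (nat_lit 5) (nat_lit 63) (nat_lit 5) (nat_lit 496) (nat_lit 474) (nat_lit 230)) (XT.lf (nat_lit 0) (nat_lit 3017694796369) (nat_lit 152) (nat_lit 205505275496) (nat_lit 228) (nat_lit 72013631270) (nat_lit 60) (nat_lit 5) (nat_lit 62) (nat_lit 5) (nat_lit 63) (nat_lit 5) (nat_lit 497) (nat_lit 474) (nat_lit 229))))) (XT.nd (nat_lit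 234) (nat_lit 380) (nat_lit 0) (XT.nd (nat_lit 78) (nat_lit 152) (nat_lit 0) (XT.lf (nat_lit 0) (nat_lit 739762845211) (nat_lit 152) (nat_lit 1631896531953) (nat_lit 76) (nat_lit 1083927369846) (nat_lit 58) (nat_lit 5) (nat_lit 60) (nat_lit 5) (nat_lit 59) (nat_lit 5) (nat_lit 498) (nat_lit 474) (nat_lit 228)) (XT.nd (nat_lit 78) (nat_lit 0) (nat_lit 0) (XT.lf (nat_lit 0) (nat_lit 498108225266) (nat_lit 152) (nat_lit 1139584866860) (nat_lit 228) (nat_lit 1988938722842) (nat_lit 56) (nat_lit 5) (nat_lit 58) (nat_lit 5) (nat_lit 59) (nat_lit 5) (nat_lit 499) (nat_lit 474) (nat_lit 227)) (XT.lf (nat_lit 0) (nat_lit 2657830526208) (nat_lit 228) (nat_lit 922224035622) (nat_lit 76) (nat_lit 227276105140) (nat_lit 56) (nat_lit 5) (nat_lit 59) (nat_lit 5) (nat_lit 57) (nat_lit 4) (nat_lit 500) (nat_lit 474) (nat_lit 226)))) (XT.nd (nat_lit 156) (nat_lit 228) (nat_lit 0) (XT.nd (nat_lit 78) (nat_lit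 76) (nat_lit 0) (XT.lf (nat_lit 0) (nat_lit 1506332738188) (nat_lit 76) (nat_lit 2319073161225) (nat_lit 152) (nat_lit 171813372168) (nat_lit 55) (nat_lit 5) (nat_lit 56) (nat_lit 5) (nat_lit 57) (nat_lit 4) (nat_lit 501) (nat_lit 474) (nat_lit 225)) (XT.lf (nat_lit 0) (nat_lit 865732838305) (nat_lit 152) (nat_lit 40577282431) (nat_lit 76) (nat_lit 3292218241792) (nat_lit 54) (nat_lit 5) (nat_lit 56) (nat_lit 5) (nat_lit 55) (nat_lit 5) (nat_lit 502) (nat_lit 474) (nat_lit 224))) (XT.nd (nat_lit 78) (nat_lit 76) (nat_lit 0) (XT.lf (nat_lit 0) (nat_lit 2059580715886) (nat_lit 228) (nat_lit 1688767978522) (nat_lit 76) (nat_lit 660630043137) (nat_lit 52) (nat_lit 5) (nat_lit 55) (nat_lit 5) (nat_lit 53) (nat_lit 4) (nat_lit 503) (nat_lit 474) (nat_lit 223)) (XT.lf (nat_lit 0) (nat_lit 1099421287693) (nat_lit 76) (nat_lit 2300635037818) (nat_lit 152) (nat_lit 1232119224907) (nat_lit 51) (nat_lit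 5) (nat_lit 52) (nat_lit 5) (nat_lit 53) (nat_lit 4) (nat_lit 504) (nat_lit 474) (nat_lit 222)))))) (XT.nd (nat_lit 546) (nat_lit 608) (nat_lit 0) (XT.nd (nat_lit 234) (nat_lit 228) (nat_lit 0) (XT.nd (nat_lit 78) (nat_lit 228) (nat_lit 0) (XT.lf (nat_lit 0) (nat_lit 23188624678) (nat_lit 152) (nat_lit 663413824675) (nat_lit 76) (nat_lit 4182884781999) (nat_lit 50) (nat_lit 5) (nat_lit 52) (nat_lit 5) (nat_lit 51) (nat_lit 5) (nat_lit 505) (nat_lit 474) (nat_lit 221)) (XT.nd (nat_lit 78) (nat_lit 76) (nat_lit 0) (XT.lf (nat_lit 0) (nat_lit 1401023839957) (nat_lit 228) (nat_lit 2616144368990) (nat_lit 76) (nat_lit 1098961855758) (nat_lit 48) (nat_lit 5) (nat_lit 51) (nat_lit 5) (nat_lit 49) (nat_lit 4) (nat_lit 506) (nat_lit 474) (nat_lit 220)) (XT.lf (nat_lit 0) (nat_lit 584044181113) (nat_lit 76) (nat_lit 2355531847031) (nat_lit 152) (nat_lit 2438889084126) (nat_lit 47) (nat_lit 5) (nat_lit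 48) (nat_lit 5) (nat_lit 49) (nat_lit 4) (nat_lit 507) (nat_lit 474) (nat_lit 219)))) (XT.nd (nat_lit 156) (nat_lit 76) (nat_lit 0) (XT.nd (nat_lit 78) (nat_lit 152) (nat_lit 0) (XT.lf (nat_lit 0) (nat_lit 4189030261954) (nat_lit 76) (nat_lit 483712151800) (nat_lit 152) (nat_lit 983322148096) (nat_lit 47) (nat_lit 5) (nat_lit 48) (nat_lit 5) (nat_lit 49) (nat_lit 4) (nat_lit 508) (nat_lit 474) (nat_lit 218)) (XT.lf (nat_lit 0) (nat_lit 651461771179) (nat_lit 152) (nat_lit 3765583552793) (nat_lit 76) (nat_lit 1530316378978) (nat_lit 45) (nat_lit 5) (nat_lit 47) (nat_lit 5) (nat_lit 46) (nat_lit 4) (nat_lit 509) (nat_lit 474) (nat_lit 217))) (XT.nd (nat_lit 78) (nat_lit 76) (nat_lit 0) (XT.lf (nat_lit 0) (nat_lit 2417620588298) (nat_lit 152) (nat_lit 91973214161) (nat_lit 76) (nat_lit 3746028176386) (nat_lit 45) (nat_lit 5) (nat_lit 47) (nat_lit 5) (nat_lit 46) (nat_lit 4) (nat_lit 510) (nat_lit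 474) (nat_lit 216)) (XT.lf (nat_lit 0) (nat_lit 4079604278618) (nat_lit 76) (nat_lit 343582412411) (nat_lit 152) (nat_lit 2157507219362) (nat_lit 44) (nat_lit 5) (nat_lit 45) (nat_lit 5) (nat_lit 46) (nat_lit 4) (nat_lit 511) (nat_lit 474) (nat_lit 215))))) (XT.nd (nat_lit 312) (nat_lit 304) (nat_lit 0) (XT.nd (nat_lit 156) (nat_lit 152) (nat_lit 0) (XT.nd (nat_lit 78) (nat_lit 76) (nat_lit 0) (XT.lf (nat_lit 0) (nat_lit 1695312349740) (nat_lit 76) (nat_lit 4985234932909) (nat_lit 76) (nat_lit 243916377760) (nat_lit 43) (nat_lit 4) (nat_lit 44) (nat_lit 5) (nat_lit 44) (nat_lit 4) (nat_lit 512) (nat_lit 474) (nat_lit 214)) (XT.lf (nat_lit 0) (nat_lit 1810664461314) (nat_lit 152) (nat_lit 975136476331) (nat_lit 76) (nat_lit 4500100283371) (nat_lit 42) (nat_lit 5) (nat_lit 44) (nat_lit 5) (nat_lit 43) (nat_lit 4) (nat_lit 513) (nat_lit 474) (nat_lit 213))) (XT.nd (nat_lit 78) (nat_lit 76)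 (nat_lit 0) (XT.lf (nat_lit 0) (nat_lit 3803111071556) (nat_lit 76) (nat_lit 304787788100) (nat_lit 152) (nat_lit 3560530894628) (nat_lit 41) (nat_lit 5) (nat_lit 42) (nat_lit 5) (nat_lit 43) (nat_lit 4) (nat_lit 514) (nat_lit 474) (nat_lit 212)) (XT.lf (nat_lit 0) (nat_lit 928279730815) (nat_lit 76) (nat_lit 5767423652334) (nat_lit 76) (nat_lit 1377313877201) (nat_lit 40) (nat_lit 4) (nat_lit 41) (nat_lit 5) (nat_lit 41) (nat_lit 4) (nat_lit 515) (nat_lit 474) (nat_lit 211)))) (XT.nd (nat_lit 156) (nat_lit 152) (nat_lit 0) (XT.nd (nat_lit 78) (nat_lit 76) (nat_lit 0) (XT.lf (nat_lit 0) (nat_lit 1047855178154) (nat_lit 152) (nat_lit 2210571005098) (nat_lit 76) (nat_lit 5240351280627) (nat_lit 39) (nat_lit 5) (nat_lit 41) (nat_lit 5) (nat_lit 40) (nat_lit 4) (nat_lit 516) (nat_lit 474) (nat_lit 210)) (XT.lf (nat_lit 0) (nat_lit 3244876308383) (nat_lit 76) (nat_lit 425790078410) (nat_lit 152)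 (nat_lit 5278826997776) (nat_lit 38) (nat_lit 5) (nat_lit 39) (nat_lit 5) (nat_lit 40) (nat_lit 4) (nat_lit 517) (nat_lit 474) (nat_lit 209))) (XT.nd (nat_lit 78) (nat_lit 152) (nat_lit 0) (XT.lf (nat_lit 0) (nat_lit 6628648016618) (nat_lit 152) (nat_lit 233859363534) (nat_lit 0) (nat_lit 2563731556803) (nat_lit 38) (nat_lit 5) (nat_lit 40) (nat_lit 4) (nat_lit 38) (nat_lit 4) (nat_lit 518) (nat_lit 474) (nat_lit 208)) (XT.lf (nat_lit 0) (nat_lit 46490299462) (nat_lit 152) (nat_lit 3968216637319) (nat_lit 76) (nat_lit 5913967901926) (nat_lit 36) (nat_lit 5) (nat_lit 38) (nat_lit 5) (nat_lit 37) (nat_lit 4) (nat_lit 519) (nat_lit 474) (nat_lit 207))))))))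
noncomputable def xc229 : XT := (XT.nd (nat_lit 59982) (nat_lit 0) (nat_lit 1292) (XT.nd (nat_lit 1092) (nat_lit 76) (nat_lit 0) (XT.nd (nat_lit 546) (nat_lit 456) (nat_lit 0) (XT.nd (nat_lit 234) (nat_lit 304) (nat_lit 0) (XT.nd (nat_lit 78) (nat_lit 76) (nat_lit 0) (XT.lf (nat_lit 0) (nat_lit 2231631334295) (nat_lit 76) (nat_lit 795555105538) (nat_lit 152) (nat_lit 7433487517037) (nat_lit 35) (nat_lit 5) (nat_lit 36) (nat_lit 5) (nat_lit 37) (nat_lit 4) (nat_lit 520) (nat_lit 474) (nat_lit 206)) (XT.nd (nat_lit 78) (nat_lit 76) (nat_lit 0) (XT.lf (nat_lit 0) (nat_lit 6422135691673) (nat_lit 152) (nat_lit 1940709365386) (nat_lit 0) (nat_lit 2658324153809) (nat_lit 35) (nat_lit 5) (nat_lit 37) (nat_lit 4) (nat_lit 35) (nat_lit 4) (nat_lit 521) (nat_lit 474) (nat_lit 205)) (XT.lf (nat_lit 0) (nat_lit 5084367433128) (nat_lit 76) (nat_lit 5147256378004) (nat_lit 76) (nat_lit 1383444839856)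 (nat_lit 34) (nat_lit 4) (nat_lit 35) (nat_lit 5) (nat_lit 35) (nat_lit 4) (nat_lit 522) (nat_lit 474) (nat_lit 204)))) (XT.nd (nat_lit 156) (nat_lit 152) (nat_lit 0) (XT.nd (nat_lit 78) (nat_lit 0) (nat_lit 0) (XT.lf (nat_lit 0) (nat_lit 503125407319) (nat_lit 76) (nat_lit 1548286585820) (nat_lit 152) (nat_lit 10195724792529) (nat_lit 32) (nat_lit 5) (nat_lit 33) (nat_lit 5) (nat_lit 34) (nat_lit 4) (nat_lit 523) (nat_lit 474) (nat_lit 203)) (XT.lf (nat_lit 0) (nat_lit 5925757713790) (nat_lit 152) (nat_lit 4541235553226) (nat_lit 0) (nat_lit 2440747029850) (nat_lit 32) (nat_lit 5) (nat_lit 34) (nat_lit 4) (nat_lit 32) (nat_lit 4) (nat_lit 524) (nat_lit 474) (nat_lit 202))) (XT.nd (nat_lit 78) (nat_lit 76) (nat_lit 0) (XT.lf (nat_lit 0) (nat_lit 3365924264694) (nat_lit 76) (nat_lit 6865292622407) (nat_lit 76) (nat_lit 3380281938258) (nat_lit 31) (nat_lit 4) (nat_lit 32) (nat_lit 5) (nat_lit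 32) (nat_lit 4) (nat_lit 525) (nat_lit 474) (nat_lit 201)) (XT.lf (nat_lit 0) (nat_lit 611455268762) (nat_lit 152) (nat_lit 2213183725317) (nat_lit 76) (nat_lit 11535747417452) (nat_lit 30) (nat_lit 5) (nat_lit 32) (nat_lit 5) (nat_lit 31) (nat_lit 4) (nat_lit 526) (nat_lit 474) (nat_lit 200))))) (XT.nd (nat_lit 234) (nat_lit 304) (nat_lit 0) (XT.nd (nat_lit 78) (nat_lit 76) (nat_lit 0) (XT.lf (nat_lit 0) (nat_lit 4944766753080) (nat_lit 152) (nat_lit 8483100614902) (nat_lit 0) (nat_lit 1717905008152) (nat_lit 29) (nat_lit 5) (nat_lit 31) (nat_lit 4) (nat_lit 29) (nat_lit 4) (nat_lit 527) (nat_lit 474) (nat_lit 199)) (XT.nd (nat_lit 78) (nat_lit 0) (nat_lit 0) (XT.lf (nat_lit 0) (nat_lit 326717934540) (nat_lit 76) (nat_lit 9441334156814) (nat_lit 76) (nat_lit 6214472411732) (nat_lit 28) (nat_lit 4) (nat_lit 29) (nat_lit 5) (nat_lit 29) (nat_lit 4) (nat_lit 528) (nat_lit 474) (nat_lit 198))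 (XT.lf (nat_lit 0) (nat_lit 10323763415664) (nat_lit 76) (nat_lit 4885379844730) (nat_lit 76) (nat_lit 1658518099505) (nat_lit 28) (nat_lit 4) (nat_lit 29) (nat_lit 5) (nat_lit 29) (nat_lit 4) (nat_lit 529) (nat_lit 474) (nat_lit 197)))) (XT.nd (nat_lit 156) (nat_lit 152) (nat_lit 0) (XT.nd (nat_lit 78) (nat_lit 0) (nat_lit 0) (XT.lf (nat_lit 0) (nat_lit 3185216865364) (nat_lit 152) (nat_lit 14427816187127) (nat_lit 0) (nat_lit 197381915960) (nat_lit 26) (nat_lit 5) (nat_lit 28) (nat_lit 4) (nat_lit 26) (nat_lit 4) (nat_lit 530) (nat_lit 474) (nat_lit 196)) (XT.lf (nat_lit 0) (nat_lit 8637309639399) (nat_lit 152) (nat_lit 4513521299609) (nat_lit 0) (nat_lit 5649474689882) (nat_lit 26) (nat_lit 5) (nat_lit 28) (nat_lit 4) (nat_lit 26) (nat_lit 4) (nat_lit 531) (nat_lit 474) (nat_lit 195))) (XT.nd (nat_lit 78) (nat_lit 76) (nat_lit 0) (XT.lf (nat_lit 0) (nat_lit 6520077880139) (nat_lit 76)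 (nat_lit 8162299984647) (nat_lit 76) (nat_lit 5174465035025) (nat_lit 25) (nat_lit 4) (nat_lit 26) (nat_lit 5) (nat_lit 26) (nat_lit 4) (nat_lit 532) (nat_lit 474) (nat_lit 194)) (XT.lf (nat_lit 0) (nat_lit 329098914416) (nat_lit 152) (nat_lit 2303309207733) (nat_lit 76) (nat_lit 18354955887163) (nat_lit 24) (nat_lit 5) (nat_lit 26) (nat_lit 5) (nat_lit 25) (nat_lit 4) (nat_lit 533) (nat_lit 474) (nat_lit 193)))))) (XT.nd (nat_lit 58344) (nat_lit 0) (nat_lit 4028) (XT.nd (nat_lit 58032) (nat_lit 0) (nat_lit 4788) (XT.nd (nat_lit 57876) (nat_lit 0) (nat_lit 5320) (XT.lf (nat_lit 0) (nat_lit 6323400258142) (nat_lit 152) (nat_lit 12290887375212) (nat_lit 0) (nat_lit 3556886415727) (nat_lit 23) (nat_lit 5) (nat_lit 25) (nat_lit 4) (nat_lit 23) (nat_lit 4) (nat_lit 534) (nat_lit 474) (nat_lit 192)) (XT.nd (nat_lit 78) (nat_lit 0) (nat_lit 0) (XT.lf (nat_lit 0) (nat_lit 643418671244) (nat_lit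 532) (nat_lit 4292088789) (nat_lit 532) (nat_lit 4292088789) (nat_lit 93) (nat_lit 3) (nat_lit 100) (nat_lit 3) (nat_lit 100) (nat_lit 5) (nat_lit 475) (nat_lit 475) (nat_lit 250)) (XT.lf (nat_lit 76) (nat_lit 674555911898) (nat_lit 0) (nat_lit 679978046534) (nat_lit 532) (nat_lit 334117337) (nat_lit 94) (nat_lit 5) (nat_lit 93) (nat_lit 3) (nat_lit 100) (nat_lit 5) (nat_lit 476) (nat_lit 475) (nat_lit 249)))) (XT.nd (nat_lit 156) (nat_lit 0) (nat_lit 76) (XT.nd (nat_lit 78) (nat_lit 0) (nat_lit 76) (XT.lf (nat_lit 76) (nat_lit 2757348505) (nat_lit 0) (nat_lit 14503852231) (nat_lit 608) (nat_lit 1392479336938) (nat_lit 87) (nat_lit 5) (nat_lit 86) (nat_lit 5) (nat_lit 94) (nat_lit 5) (nat_lit 477) (nat_lit 475) (nat_lit 248)) (XT.lf (nat_lit 0) (nat_lit 72266397214) (nat_lit 532) (nat_lit 705780392094) (nat_lit 608) (nat_lit 688073688639) (nat_lit 87) (nat_lit 5) (nat_lit 94) (nat_lit 5)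 (nat_lit 95) (nat_lit 5) (nat_lit 478) (nat_lit 475) (nat_lit 247))) (XT.nd (nat_lit 78) (nat_lit 0) (nat_lit 76) (XT.lf (nat_lit 76) (nat_lit 53834944952) (nat_lit 0) (nat_lit 79508516350) (nat_lit 608) (nat_lit 1393533635986) (nat_lit 88) (nat_lit 5) (nat_lit 87) (nat_lit 5) (nat_lit 95) (nat_lit 5) (nat_lit 479) (nat_lit 475) (nat_lit 246)) (XT.lf (nat_lit 0) (nat_lit 235336871873) (nat_lit 532) (nat_lit 693325498294) (nat_lit 608) (nat_lit 660949461503) (nat_lit 88) (nat_lit 5) (nat_lit 95) (nat_lit 5) (nat_lit 96) (nat_lit 5) (nat_lit 480) (nat_lit 475) (nat_lit 245))))) (XT.nd (nat_lit 234) (nat_lit 456) (nat_lit 0) (XT.nd (nat_lit 78) (nat_lit 456) (nat_lit 0) (XT.lf (nat_lit 76) (nat_lit 154428466794) (nat_lit 0) (nat_lit 196840450276) (nat_lit 608) (nat_lit 1305634094791) (nat_lit 89) (nat_lit 5) (nat_lit 88) (nat_lit 5) (nat_lit 96) (nat_lit 5) (nat_lit 481) (nat_lit 475) (nat_lit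 244)) (XT.nd (nat_lit 78) (nat_lit 532) (nat_lit 0) (XT.lf (nat_lit 0) (nat_lit 510198998070) (nat_lit 532) (nat_lit 633394891698) (nat_lit 76) (nat_lit 583285718923) (nat_lit 89) (nat_lit 5) (nat_lit 96) (nat_lit 5) (nat_lit 90) (nat_lit 5) (nat_lit 482) (nat_lit 475) (nat_lit 243)) (XT.lf (nat_lit 0) (nat_lit 315901042174) (nat_lit 532) (nat_lit 378652607537) (nat_lit 608) (nat_lit 1106883870423) (nat_lit 82) (nat_lit 5) (nat_lit 89) (nat_lit 5) (nat_lit 90) (nat_lit 5) (nat_lit 483) (nat_lit 475) (nat_lit 242)))) (XT.nd (nat_lit 156) (nat_lit 228) (nat_lit 0) (XT.nd (nat_lit 78) (nat_lit 228) (nat_lit 0) (XT.lf (nat_lit 0) (nat_lit 922186632160) (nat_lit 608) (nat_lit 514624058573) (nat_lit 76) (nat_lit 442866977067) (nat_lit 82) (nat_lit 5) (nat_lit 90) (nat_lit 5) (nat_lit 83) (nat_lit 5) (nat_lit 484) (nat_lit 475) (nat_lit 241)) (XT.lf (nat_lit 0) (nat_lit 551725777305) (nat_lit 228)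 (nat_lit 639408624611) (nat_lit 304) (nat_lit 771194293468) (nat_lit 79) (nat_lit 5) (nat_lit 82) (nat_lit 5) (nat_lit 83) (nat_lit 5) (nat_lit 485) (nat_lit 475) (nat_lit 240))) (XT.nd (nat_lit 78) (nat_lit 228) (nat_lit 0) (XT.lf (nat_lit 0) (nat_lit 1501368147724) (nat_lit 304) (nat_lit 323514845379) (nat_lit 76) (nat_lit 225127199712) (nat_lit 79) (nat_lit 5) (nat_lit 83) (nat_lit 5) (nat_lit 80) (nat_lit 5) (nat_lit 486) (nat_lit 475) (nat_lit 239)) (XT.lf (nat_lit 0) (nat_lit 877845649384) (nat_lit 228) (nat_lit 996295167107) (nat_lit 304) (nat_lit 267547775687) (nat_lit 76) (nat_lit 5) (nat_lit 79) (nat_lit 5) (nat_lit 80) (nat_lit 5) (nat_lit 487) (nat_lit 475) (nat_lit 238))))))) (XT.nd (nat_lit 1092) (nat_lit 1216) (nat_lit 0) (XT.nd (nat_lit 546) (nat_lit 608) (nat_lit 0) (XT.nd (nat_lit 234) (nat_lit 380) (nat_lit 0) (XT.nd (nat_lit 78) (nat_lit 456) (nat_lit 0) (XT.lf (nat_lit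 0) (nat_lit 43306686655) (nat_lit 304) (nat_lit 47376440424) (nat_lit 76) (nat_lit 2149222789277) (nat_lit 75) (nat_lit 5) (nat_lit 79) (nat_lit 5) (nat_lit 76) (nat_lit 5) (nat_lit 488) (nat_lit 475) (nat_lit 237)) (XT.nd (nat_lit 78) (nat_lit 228) (nat_lit 0) (XT.lf (nat_lit 0) (nat_lit 418810132513) (nat_lit 304) (nat_lit 1039445106461) (nat_lit 76) (nat_lit 882830631606) (nat_lit 72) (nat_lit 5) (nat_lit 76) (nat_lit 5) (nat_lit 73) (nat_lit 5) (nat_lit 489) (nat_lit 475) (nat_lit 236)) (XT.lf (nat_lit 0) (nat_lit 324879844426) (nat_lit 228) (nat_lit 510971783371) (nat_lit 304) (nat_lit 1613588771446) (nat_lit 69) (nat_lit 5) (nat_lit 72) (nat_lit 5) (nat_lit 73) (nat_lit 5) (nat_lit 490) (nat_lit 475) (nat_lit 235)))) (XT.nd (nat_lit 156) (nat_lit 228) (nat_lit 0) (XT.nd (nat_lit 78) (nat_lit 152) (nat_lit 0) (XT.lf (nat_lit 0) (nat_lit 1327730782636) (nat_lit 304) (nat_lit 719778785360)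 (nat_lit 76) (nat_lit 515635775008) (nat_lit 69) (nat_lit 5) (nat_lit 73) (nat_lit 5) (nat_lit 70) (nat_lit 5) (nat_lit 491) (nat_lit 475) (nat_lit 234)) (XT.lf (nat_lit 0) (nat_lit 825403558110) (nat_lit 152) (nat_lit 1066679680068) (nat_lit 228) (nat_lit 791213606624) (nat_lit 67) (nat_lit 5) (nat_lit 69) (nat_lit 5) (nat_lit 70) (nat_lit 5) (nat_lit 492) (nat_lit 475) (nat_lit 233))) (XT.nd (nat_lit 78) (nat_lit 228) (nat_lit 0) (XT.lf (nat_lit 0) (nat_lit 2521597514852) (nat_lit 228) (nat_lit 276684718848) (nat_lit 76) (nat_lit 13177143066) (nat_lit 67) (nat_lit 5) (nat_lit 70) (nat_lit 5) (nat_lit 68) (nat_lit 5) (nat_lit 493) (nat_lit 475) (nat_lit 232)) (XT.lf (nat_lit 0) (nat_lit 303887399147) (nat_lit 228) (nat_lit 1475299004970) (nat_lit 76) (nat_lit 1165014405787) (nat_lit 64) (nat_lit 5) (nat_lit 67) (nat_lit 5) (nat_lit 65) (nat_lit 5) (nat_lit 494) (nat_lit 475) (nat_lit 231)))))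 (XT.nd (nat_lit 234) (nat_lit 304) (nat_lit 0) (XT.nd (nat_lit 78) (nat_lit 152) (nat_lit 0) (XT.lf (nat_lit 0) (nat_lit 289679781673) (nat_lit 152) (nat_lit 654525099767) (nat_lit 228) (nat_lit 2141576097908) (nat_lit 62) (nat_lit 5) (nat_lit 64) (nat_lit 5) (nat_lit 65) (nat_lit 5) (nat_lit 495) (nat_lit 475) (nat_lit 230)) (XT.nd (nat_lit 78) (nat_lit 152) (nat_lit 0) (XT.lf (nat_lit 0) (nat_lit 1690603409635) (nat_lit 228) (nat_lit 970220507657) (nat_lit 76) (nat_lit 573475193271) (nat_lit 62) (nat_lit 5) (nat_lit 65) (nat_lit 5) (nat_lit 63) (nat_lit 5) (nat_lit 496) (nat_lit 475) (nat_lit 229)) (XT.lf (nat_lit 0) (nat_lit 1036584119625) (nat_lit 152) (nat_lit 1502060224231) (nat_lit 228) (nat_lit 852699906518) (nat_lit 60) (nat_lit 5) (nat_lit 62) (nat_lit 5) (nat_lit 63) (nat_lit 5) (nat_lit 497) (nat_lit 475) (nat_lit 228)))) (XT.nd (nat_lit 156) (nat_lit 152) (nat_lit 0) (XT.nd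 (nat_lit 78) (nat_lit 152) (nat_lit 0) (XT.lf (nat_lit 0) (nat_lit 3259110415248) (nat_lit 152) (nat_lit 221945684490) (nat_lit 228) (nat_lit 77774697877) (nat_lit 60) (nat_lit 5) (nat_lit 62) (nat_lit 5) (nat_lit 63) (nat_lit 5) (nat_lit 498) (nat_lit 475) (nat_lit 227)) (XT.lf (nat_lit 0) (nat_lit 798943895024) (nat_lit 152) (nat_lit 1762448217639) (nat_lit 76) (nat_lit 1170641572329) (nat_lit 58) (nat_lit 5) (nat_lit 60) (nat_lit 5) (nat_lit 59) (nat_lit 5) (nat_lit 499) (nat_lit 475) (nat_lit 226))) (XT.nd (nat_lit 78) (nat_lit 0) (nat_lit 0) (XT.lf (nat_lit 0) (nat_lit 537956919224) (nat_lit 152) (nat_lit 1230751641689) (nat_lit 228) (nat_lit 2148053797538) (nat_lit 56) (nat_lit 5) (nat_lit 58) (nat_lit 5) (nat_lit 59) (nat_lit 5) (nat_lit 500) (nat_lit 475) (nat_lit 225)) (XT.lf (nat_lit 0) (nat_lit 2870456988459) (nat_lit 228) (nat_lit 996001923934) (nat_lit 76) (nat_lit 245458206322)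 (nat_lit 56) (nat_lit 5) (nat_lit 59) (nat_lit 5) (nat_lit 57) (nat_lit 4) (nat_lit 501) (nat_lit 475) (nat_lit 224)))))) (XT.nd (nat_lit 546) (nat_lit 532) (nat_lit 0) (XT.nd (nat_lit 234) (nat_lit 380) (nat_lit 0) (XT.nd (nat_lit 78) (nat_lit 228) (nat_lit 0) (XT.lf (nat_lit 0) (nat_lit 1626839390907) (nat_lit 76) (nat_lit 2504598999930) (nat_lit 152) (nat_lit 185558420913) (nat_lit 55) (nat_lit 5) (nat_lit 56) (nat_lit 5) (nat_lit 57) (nat_lit 4) (nat_lit 502) (nat_lit 475) (nat_lit 223)) (XT.nd (nat_lit 78) (nat_lit 152) (nat_lit 0) (XT.lf (nat_lit 0) (nat_lit 934991483867) (nat_lit 152) (nat_lit 43823432880) (nat_lit 76) (nat_lit 3555595713302) (nat_lit 54) (nat_lit 5) (nat_lit 56) (nat_lit 5) (nat_lit 55) (nat_lit 5) (nat_lit 503) (nat_lit 475) (nat_lit 222)) (XT.lf (nat_lit 0) (nat_lit 2224347191361) (nat_lit 228) (nat_lit 1823869384365) (nat_lit 76) (nat_lit 713480459366) (nat_lit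 52) (nat_lit 5) (nat_lit 55) (nat_lit 5) (nat_lit 53) (nat_lit 4) (nat_lit 504) (nat_lit 475) (nat_lit 221)))) (XT.nd (nat_lit 156) (nat_lit 228) (nat_lit 0) (XT.nd (nat_lit 78) (nat_lit 76) (nat_lit 0) (XT.lf (nat_lit 0) (nat_lit 1187375022326) (nat_lit 76) (nat_lit 2484685826842) (nat_lit 152) (nat_lit 1330688743874) (nat_lit 51) (nat_lit 5) (nat_lit 52) (nat_lit 5) (nat_lit 53) (nat_lit 4) (nat_lit 505) (nat_lit 475) (nat_lit 220)) (XT.lf (nat_lit 0) (nat_lit 25043731389) (nat_lit 152) (nat_lit 716486900491) (nat_lit 76) (nat_lit 4517515576642) (nat_lit 50) (nat_lit 5) (nat_lit 52) (nat_lit 5) (nat_lit 51) (nat_lit 5) (nat_lit 506) (nat_lit 475) (nat_lit 219))) (XT.nd (nat_lit 78) (nat_lit 76) (nat_lit 0) (XT.lf (nat_lit 0) (nat_lit 1513105763674) (nat_lit 228) (nat_lit 2825435888136) (nat_lit 76) (nat_lit 1186878816750) (nat_lit 48) (nat_lit 5) (nat_lit 51) (nat_lit 5) (nat_lit 49) (nat_lit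 4) (nat_lit 507) (nat_lit 475) (nat_lit 218)) (XT.lf (nat_lit 0) (nat_lit 630767745207) (nat_lit 76) (nat_lit 2543974381197) (nat_lit 152) (nat_lit 2634000193566) (nat_lit 47) (nat_lit 5) (nat_lit 48) (nat_lit 5) (nat_lit 49) (nat_lit 4) (nat_lit 508) (nat_lit 475) (nat_lit 217))))) (XT.nd (nat_lit 312) (nat_lit 304) (nat_lit 0) (XT.nd (nat_lit 156) (nat_lit 76) (nat_lit 0) (XT.nd (nat_lit 78) (nat_lit 152) (nat_lit 0) (XT.lf (nat_lit 0) (nat_lit 4524152710323) (nat_lit 76) (nat_lit 522409111355) (nat_lit 152) (nat_lit 1061987903935) (nat_lit 47) (nat_lit 5) (nat_lit 48) (nat_lit 5) (nat_lit 49) (nat_lit 4) (nat_lit 509) (nat_lit 475) (nat_lit 216)) (XT.lf (nat_lit 0) (nat_lit 703578727923) (nat_lit 152) (nat_lit 4066830208644) (nat_lit 76) (nat_lit 1652741701414) (nat_lit 45) (nat_lit 5) (nat_lit 47) (nat_lit 5) (nat_lit 46) (nat_lit 4) (nat_lit 510) (nat_lit 475) (nat_lit 215))) (XT.nd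 (nat_lit 78) (nat_lit 76) (nat_lit 0) (XT.lf (nat_lit 0) (nat_lit 2611030249297) (nat_lit 152) (nat_lit 99331045024) (nat_lit 76) (nat_lit 4045710441717) (nat_lit 45) (nat_lit 5) (nat_lit 47) (nat_lit 5) (nat_lit 46) (nat_lit 4) (nat_lit 511) (nat_lit 475) (nat_lit 214)) (XT.lf (nat_lit 0) (nat_lit 4405972646513) (nat_lit 76) (nat_lit 371068993317) (nat_lit 152) (nat_lit 2330107782311) (nat_lit 44) (nat_lit 5) (nat_lit 45) (nat_lit 5) (nat_lit 46) (nat_lit 4) (nat_lit 512) (nat_lit 475) (nat_lit 213)))) (XT.nd (nat_lit 156) (nat_lit 152) (nat_lit 0) (XT.nd (nat_lit 78) (nat_lit 76) (nat_lit 0) (XT.lf (nat_lit 0) (nat_lit 1830937363447) (nat_lit 76) (nat_lit 5384053715218) (nat_lit 76) (nat_lit 263429673503) (nat_lit 43) (nat_lit 4) (nat_lit 44) (nat_lit 5) (nat_lit 44) (nat_lit 4) (nat_lit 513) (nat_lit 475) (nat_lit 212)) (XT.lf (nat_lit 0) (nat_lit 1955517630954) (nat_lit 152) (nat_lit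 1053147369944) (nat_lit 76) (nat_lit 4860108316780) (nat_lit 42) (nat_lit 5) (nat_lit 44) (nat_lit 5) (nat_lit 43) (nat_lit 4) (nat_lit 514) (nat_lit 475) (nat_lit 211))) (XT.nd (nat_lit 78) (nat_lit 76) (nat_lit 0) (XT.lf (nat_lit 0) (nat_lit 4107359981154) (nat_lit 76) (nat_lit 329170799640) (nat_lit 152) (nat_lit 3845373352843) (nat_lit 41) (nat_lit 5) (nat_lit 42) (nat_lit 5) (nat_lit 43) (nat_lit 4) (nat_lit 515) (nat_lit 475) (nat_lit 210)) (XT.lf (nat_lit 0) (nat_lit 1002542133244) (nat_lit 76) (nat_lit 6228817532839) (nat_lit 76) (nat_lit 1487498974112) (nat_lit 40) (nat_lit 4) (nat_lit 41) (nat_lit 5) (nat_lit 41) (nat_lit 4) (nat_lit 516) (nat_lit 475) (nat_lit 209))))))))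
noncomputable def xc230 : XT := (XT.nd (nat_lit 60060) (nat_lit 0) (nat_lit 1444) (XT.nd (nat_lit 1092) (nat_lit 304) (nat_lit 0) (XT.nd (nat_lit 546) (nat_lit 456) (nat_lit 0) (XT.nd (nat_lit 234) (nat_lit 304) (nat_lit 0) (XT.nd (nat_lit 78) (nat_lit 76) (nat_lit 0) (XT.lf (nat_lit 0) (nat_lit 1131683604075) (nat_lit 152) (nat_lit 2387416662702) (nat_lit 76) (nat_lit 5659579393279) (nat_lit 39) (nat_lit 5) (nat_lit 41) (nat_lit 5) (nat_lit 40) (nat_lit 4) (nat_lit 517) (nat_lit 475) (nat_lit 208)) (XT.nd (nat_lit 78) (nat_lit 0) (nat_lit 0) (XT.lf (nat_lit 0) (nat_lit 3504466435279) (nat_lit 76) (nat_lit 459853273795) (nat_lit 152) (nat_lit 5701133145353) (nat_lit 38) (nat_lit 5) (nat_lit 39) (nat_lit 5) (nat_lit 40) (nat_lit 4) (nat_lit 518) (nat_lit 475) (nat_lit 207)) (XT.lf (nat_lit 0) (nat_lit 7158939868688) (nat_lit 152) (nat_lit 252568091440) (nat_lit 0) (nat_lit 2768830090924)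 (nat_lit 38) (nat_lit 5) (nat_lit 40) (nat_lit 4) (nat_lit 38) (nat_lit 4) (nat_lit 519) (nat_lit 475) (nat_lit 206)))) (XT.nd (nat_lit 156) (nat_lit 76) (nat_lit 0) (XT.nd (nat_lit 78) (nat_lit 76) (nat_lit 0) (XT.lf (nat_lit 0) (nat_lit 50209534132) (nat_lit 152) (nat_lit 4285673947099) (nat_lit 76) (nat_lit 6387085343715) (nat_lit 36) (nat_lit 5) (nat_lit 38) (nat_lit 5) (nat_lit 37) (nat_lit 4) (nat_lit 520) (nat_lit 475) (nat_lit 205)) (XT.lf (nat_lit 0) (nat_lit 2410161861708) (nat_lit 76) (nat_lit 859199503729) (nat_lit 152) (nat_lit 8028166507150) (nat_lit 35) (nat_lit 5) (nat_lit 36) (nat_lit 5) (nat_lit 37) (nat_lit 4) (nat_lit 521) (nat_lit 475) (nat_lit 204))) (XT.nd (nat_lit 78) (nat_lit 76) (nat_lit 0) (XT.lf (nat_lit 0) (nat_lit 6935906556880) (nat_lit 152) (nat_lit 2095966094936) (nat_lit 0) (nat_lit 2870990095132) (nat_lit 35) (nat_lit 5) (nat_lit 37) (nat_lit 4) (nat_lit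 35) (nat_lit 4) (nat_lit 522) (nat_lit 475) (nat_lit 203)) (XT.lf (nat_lit 0) (nat_lit 5491116846961) (nat_lit 76) (nat_lit 5559036878665) (nat_lit 76) (nat_lit 1494120416673) (nat_lit 34) (nat_lit 4) (nat_lit 35) (nat_lit 5) (nat_lit 35) (nat_lit 4) (nat_lit 523) (nat_lit 475) (nat_lit 202))))) (XT.nd (nat_lit 234) (nat_lit 228) (nat_lit 0) (XT.nd (nat_lit 78) (nat_lit 76) (nat_lit 0) (XT.lf (nat_lit 0) (nat_lit 543375459108) (nat_lit 76) (nat_lit 1672149503067) (nat_lit 152) (nat_lit 11011382765580) (nat_lit 32) (nat_lit 5) (nat_lit 33) (nat_lit 5) (nat_lit 34) (nat_lit 4) (nat_lit 524) (nat_lit 475) (nat_lit 201)) (XT.nd (nat_lit 78) (nat_lit 76) (nat_lit 0) (XT.lf (nat_lit 0) (nat_lit 6399818339983) (nat_lit 152) (nat_lit 4904534379207) (nat_lit 0) (nat_lit 2636006800698) (nat_lit 32) (nat_lit 5) (nat_lit 34) (nat_lit 4) (nat_lit 32) (nat_lit 4) (nat_lit 525) (nat_lit 475) (nat_lit 200))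 (XT.lf (nat_lit 0) (nat_lit 3635198223684) (nat_lit 76) (nat_lit 7414516023231) (nat_lit 76) (nat_lit 3650704483767) (nat_lit 31) (nat_lit 4) (nat_lit 32) (nat_lit 5) (nat_lit 32) (nat_lit 4) (nat_lit 526) (nat_lit 475) (nat_lit 199)))) (XT.nd (nat_lit 156) (nat_lit 76) (nat_lit 0) (XT.nd (nat_lit 78) (nat_lit 76) (nat_lit 0) (XT.lf (nat_lit 0) (nat_lit 660371698665) (nat_lit 152) (nat_lit 2390238406406) (nat_lit 76) (nat_lit 12458607218711) (nat_lit 30) (nat_lit 5) (nat_lit 32) (nat_lit 5) (nat_lit 31) (nat_lit 4) (nat_lit 527) (nat_lit 475) (nat_lit 198)) (XT.lf (nat_lit 0) (nat_lit 5340348101703) (nat_lit 152) (nat_lit 9161748647132) (nat_lit 0) (nat_lit 1855337416718) (nat_lit 29) (nat_lit 5) (nat_lit 31) (nat_lit 4) (nat_lit 29) (nat_lit 4) (nat_lit 528) (nat_lit 475) (nat_lit 197))) (XT.nd (nat_lit 78) (nat_lit 0) (nat_lit 0) (XT.lf (nat_lit 0) (nat_lit 352855385836) (nat_lit 76) (nat_lit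 10196640880981) (nat_lit 76) (nat_lit 6711630195864) (nat_lit 28) (nat_lit 4) (nat_lit 29) (nat_lit 5) (nat_lit 29) (nat_lit 4) (nat_lit 529) (nat_lit 475) (nat_lit 196)) (XT.lf (nat_lit 0) (nat_lit 11149664504225) (nat_lit 76) (nat_lit 5276210224551) (nat_lit 76) (nat_lit 1791199539312) (nat_lit 28) (nat_lit 4) (nat_lit 29) (nat_lit 5) (nat_lit 29) (nat_lit 4) (nat_lit 530) (nat_lit 475) (nat_lit 195)))))) (XT.nd (nat_lit 58422) (nat_lit 0) (nat_lit 4408) (XT.nd (nat_lit 234) (nat_lit 76) (nat_lit 0) (XT.nd (nat_lit 78) (nat_lit 76) (nat_lit 0) (XT.lf (nat_lit 0) (nat_lit 3440034222321) (nat_lit 152) (nat_lit 15582041466363) (nat_lit 0) (nat_lit 213172476624) (nat_lit 26) (nat_lit 5) (nat_lit 28) (nat_lit 4) (nat_lit 26) (nat_lit 4) (nat_lit 531) (nat_lit 475) (nat_lit 194)) (XT.nd (nat_lit 78) (nat_lit 76) (nat_lit 0) (XT.lf (nat_lit 0) (nat_lit 9328294417706) (nat_lit 152) (nat_lit 4874602989009)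 (nat_lit 0) (nat_lit 6101432671913) (nat_lit 26) (nat_lit 5) (nat_lit 28) (nat_lit 4) (nat_lit 26) (nat_lit 4) (nat_lit 532) (nat_lit 475) (nat_lit 193)) (XT.lf (nat_lit 0) (nat_lit 7041684124749) (nat_lit 76) (nat_lit 8815283976186) (nat_lit 76) (nat_lit 5588422230303) (nat_lit 25) (nat_lit 4) (nat_lit 26) (nat_lit 5) (nat_lit 26) (nat_lit 4) (nat_lit 533) (nat_lit 475) (nat_lit 192)))) (XT.nd (nat_lit 58032) (nat_lit 0) (nat_lit 4712) (XT.nd (nat_lit 57954) (nat_lit 0) (nat_lit 5244) (XT.lf (nat_lit 0) (nat_lit 355426834187) (nat_lit 152) (nat_lit 2487573930855) (nat_lit 76) (nat_lit 19823352364485) (nat_lit 24) (nat_lit 5) (nat_lit 26) (nat_lit 5) (nat_lit 25) (nat_lit 4) (nat_lit 534) (nat_lit 475) (nat_lit 191)) (XT.lf (nat_lit 0) (nat_lit 694892200409) (nat_lit 532) (nat_lit 4635436739) (nat_lit 532) (nat_lit 4635436739) (nat_lit 93) (nat_lit 3) (nat_lit 100) (nat_lit 3) (nat_lit 100)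 (nat_lit 5) (nat_lit 476) (nat_lit 476) (nat_lit 248))) (XT.nd (nat_lit 78) (nat_lit 532) (nat_lit 0) (XT.lf (nat_lit 76) (nat_lit 728520422188) (nat_lit 0) (nat_lit 734376319494) (nat_lit 532) (nat_lit 360774814) (nat_lit 94) (nat_lit 5) (nat_lit 93) (nat_lit 3) (nat_lit 100) (nat_lit 5) (nat_lit 477) (nat_lit 476) (nat_lit 247)) (XT.lf (nat_lit 76) (nat_lit 2977976293) (nat_lit 0) (nat_lit 15664184715) (nat_lit 608) (nat_lit 1503877614536) (nat_lit 87) (nat_lit 5) (nat_lit 86) (nat_lit 5) (nat_lit 94) (nat_lit 5) (nat_lit 478) (nat_lit 476) (nat_lit 246))))) (XT.nd (nat_lit 234) (nat_lit 380) (nat_lit 0) (XT.nd (nat_lit 78) (nat_lit 0) (nat_lit 0) (XT.lf (nat_lit 0) (nat_lit 78047767905) (nat_lit 532) (nat_lit 762242781206) (nat_lit 608) (nat_lit 743119562350) (nat_lit 87) (nat_lit 5) (nat_lit 94) (nat_lit 5) (nat_lit 95) (nat_lit 5) (nat_lit 479) (nat_lit 476) (nat_lit 245)) (XT.nd (nat_lit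 78) (nat_lit 0) (nat_lit 76) (XT.lf (nat_lit 76) (nat_lit 58141781734) (nat_lit 0) (nat_lit 85869212013) (nat_lit 608) (nat_lit 1505016266875) (nat_lit 88) (nat_lit 5) (nat_lit 87) (nat_lit 5) (nat_lit 95) (nat_lit 5) (nat_lit 480) (nat_lit 476) (nat_lit 244)) (XT.lf (nat_lit 0) (nat_lit 254163872730) (nat_lit 532) (nat_lit 748791495583) (nat_lit 608) (nat_lit 713825405796) (nat_lit 88) (nat_lit 5) (nat_lit 95) (nat_lit 5) (nat_lit 96) (nat_lit 5) (nat_lit 481) (nat_lit 476) (nat_lit 243)))) (XT.nd (nat_lit 156) (nat_lit 456) (nat_lit 0) (XT.nd (nat_lit 78) (nat_lit 0) (nat_lit 76) (XT.lf (nat_lit 76) (nat_lit 166782785634) (nat_lit 0) (nat_lit 212587693120) (nat_lit 608) (nat_lit 1410084770183) (nat_lit 89) (nat_lit 5) (nat_lit 88) (nat_lit 5) (nat_lit 96) (nat_lit 5) (nat_lit 482) (nat_lit 476) (nat_lit 242)) (XT.lf (nat_lit 0) (nat_lit 551014962504) (nat_lit 532) (nat_lit 684066440874)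 (nat_lit 76) (nat_lit 629948570435) (nat_lit 89) (nat_lit 5) (nat_lit 96) (nat_lit 5) (nat_lit 90) (nat_lit 5) (nat_lit 483) (nat_lit 476) (nat_lit 241))) (XT.nd (nat_lit 78) (nat_lit 0) (nat_lit 0) (XT.lf (nat_lit 0) (nat_lit 341173166640) (nat_lit 532) (nat_lit 408944817322) (nat_lit 608) (nat_lit 1195434534396) (nat_lit 82) (nat_lit 5) (nat_lit 89) (nat_lit 5) (nat_lit 90) (nat_lit 5) (nat_lit 484) (nat_lit 476) (nat_lit 240)) (XT.lf (nat_lit 0) (nat_lit 995961601849) (nat_lit 608) (nat_lit 555793942048) (nat_lit 76) (nat_lit 478296334193) (nat_lit 82) (nat_lit 5) (nat_lit 90) (nat_lit 5) (nat_lit 83) (nat_lit 5) (nat_lit 485) (nat_lit 476) (nat_lit 239))))))) (XT.nd (nat_lit 1092) (nat_lit 1292) (nat_lit 0) (XT.nd (nat_lit 546) (nat_lit 684) (nat_lit 0) (XT.nd (nat_lit 234) (nat_lit 532) (nat_lit 0) (XT.nd (nat_lit 78) (nat_lit 228) (nat_lit 0) (XT.lf (nat_lit 0) (nat_lit 595863879656)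 (nat_lit 228) (nat_lit 690561311598) (nat_lit 304) (nat_lit 832889796782) (nat_lit 79) (nat_lit 5) (nat_lit 82) (nat_lit 5) (nat_lit 83) (nat_lit 5) (nat_lit 486) (nat_lit 476) (nat_lit 238)) (XT.nd (nat_lit 78) (nat_lit 228) (nat_lit 0) (XT.lf (nat_lit 0) (nat_lit 1621477634039) (nat_lit 304) (nat_lit 349395993126) (nat_lit 76) (nat_lit 243137378312) (nat_lit 79) (nat_lit 5) (nat_lit 83) (nat_lit 5) (nat_lit 80) (nat_lit 5) (nat_lit 487) (nat_lit 476) (nat_lit 237)) (XT.lf (nat_lit 0) (nat_lit 948073340208) (nat_lit 228) (nat_lit 1075998774478) (nat_lit 304) (nat_lit 288951562232) (nat_lit 76) (nat_lit 5) (nat_lit 79) (nat_lit 5) (nat_lit 80) (nat_lit 5) (nat_lit 488) (nat_lit 476) (nat_lit 236)))) (XT.nd (nat_lit 156) (nat_lit 228) (nat_lit 0) (XT.nd (nat_lit 78) (nat_lit 228) (nat_lit 0) (XT.lf (nat_lit 0) (nat_lit 46771252822) (nat_lit 304) (nat_lit 51166518016) (nat_lit 76) (nat_lit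 2321160616324) (nat_lit 75) (nat_lit 5) (nat_lit 79) (nat_lit 5) (nat_lit 76) (nat_lit 5) (nat_lit 489) (nat_lit 476) (nat_lit 235)) (XT.lf (nat_lit 0) (nat_lit 452314973083) (nat_lit 304) (nat_lit 1122600676068) (nat_lit 76) (nat_lit 953457088675) (nat_lit 72) (nat_lit 5) (nat_lit 76) (nat_lit 5) (nat_lit 73) (nat_lit 5) (nat_lit 490) (nat_lit 476) (nat_lit 234))) (XT.nd (nat_lit 78) (nat_lit 0) (nat_lit 0) (XT.lf (nat_lit 0) (nat_lit 350870269905) (nat_lit 228) (nat_lit 551849516776) (nat_lit 304) (nat_lit 1742675842205) (nat_lit 69) (nat_lit 5) (nat_lit 72) (nat_lit 5) (nat_lit 73) (nat_lit 5) (nat_lit 491) (nat_lit 476) (nat_lit 233)) (XT.lf (nat_lit 0) (nat_lit 1433949271991) (nat_lit 304) (nat_lit 777361051154) (nat_lit 76) (nat_lit 556886645157) (nat_lit 69) (nat_lit 5) (nat_lit 73) (nat_lit 5) (nat_lit 70) (nat_lit 5) (nat_lit 492) (nat_lit 476) (nat_lit 232))))) (XT.nd (nat_lit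 234) (nat_lit 304) (nat_lit 0) (XT.nd (nat_lit 78) (nat_lit 228) (nat_lit 0) (XT.lf (nat_lit 0) (nat_lit 891435878856) (nat_lit 152) (nat_lit 1152014044007) (nat_lit 228) (nat_lit 854510667469) (nat_lit 67) (nat_lit 5) (nat_lit 69) (nat_lit 5) (nat_lit 70) (nat_lit 5) (nat_lit 493) (nat_lit 476) (nat_lit 231)) (XT.nd (nat_lit 78) (nat_lit 228) (nat_lit 0) (XT.lf (nat_lit 0) (nat_lit 2723325340007) (nat_lit 228) (nat_lit 298819461265) (nat_lit 76) (nat_lit 14231323717) (nat_lit 67) (nat_lit 5) (nat_lit 70) (nat_lit 5) (nat_lit 68) (nat_lit 5) (nat_lit 494) (nat_lit 476) (nat_lit 230)) (XT.lf (nat_lit 0) (nat_lit 328198414692) (nat_lit 228) (nat_lit 1593322889920) (nat_lit 76) (nat_lit 1258215568195) (nat_lit 64) (nat_lit 5) (nat_lit 67) (nat_lit 5) (nat_lit 65) (nat_lit 5) (nat_lit 495) (nat_lit 476) (nat_lit 229)))) (XT.nd (nat_lit 156) (nat_lit 152) (nat_lit 0) (XT.nd (nat_lit 78) (nat_lit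 0) (nat_lit 0) (XT.lf (nat_lit 0) (nat_lit 312854198758) (nat_lit 152) (nat_lit 706887095893) (nat_lit 228) (nat_lit 2312902161229) (nat_lit 62) (nat_lit 5) (nat_lit 64) (nat_lit 5) (nat_lit 65) (nat_lit 5) (nat_lit 496) (nat_lit 476) (nat_lit 228)) (XT.lf (nat_lit 0) (nat_lit 1825851703684) (nat_lit 228) (nat_lit 1047838114860) (nat_lit 76) (nat_lit 619353219161) (nat_lit 62) (nat_lit 5) (nat_lit 65) (nat_lit 5) (nat_lit 63) (nat_lit 5) (nat_lit 497) (nat_lit 476) (nat_lit 227))) (XT.nd (nat_lit 78) (nat_lit 0) (nat_lit 0) (XT.lf (nat_lit 0) (nat_lit 1119510881759) (nat_lit 152) (nat_lit 1622225030090) (nat_lit 228) (nat_lit 920915876914) (nat_lit 60) (nat_lit 5) (nat_lit 62) (nat_lit 5) (nat_lit 63) (nat_lit 5) (nat_lit 498) (nat_lit 476) (nat_lit 226)) (XT.lf (nat_lit 0) (nat_lit 3519839278619) (nat_lit 152) (nat_lit 239701328065) (nat_lit 228) (nat_lit 83996653221) (nat_lit 60) (nat_lit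 5) (nat_lit 62) (nat_lit 5) (nat_lit 63) (nat_lit 5) (nat_lit 499) (nat_lit 476) (nat_lit 225)))))) (XT.nd (nat_lit 546) (nat_lit 608) (nat_lit 0) (XT.nd (nat_lit 234) (nat_lit 380) (nat_lit 0) (XT.nd (nat_lit 78) (nat_lit 152) (nat_lit 0) (XT.lf (nat_lit 0) (nat_lit 862859425657) (nat_lit 152) (nat_lit 1903444043441) (nat_lit 76) (nat_lit 1264292909172) (nat_lit 58) (nat_lit 5) (nat_lit 60) (nat_lit 5) (nat_lit 59) (nat_lit 5) (nat_lit 500) (nat_lit 476) (nat_lit 224)) (XT.nd (nat_lit 78) (nat_lit 0) (nat_lit 0) (XT.lf (nat_lit 0) (nat_lit 580993503571) (nat_lit 152) (nat_lit 1329211760576) (nat_lit 228) (nat_lit 2319898081510) (nat_lit 56) (nat_lit 5) (nat_lit 58) (nat_lit 5) (nat_lit 59) (nat_lit 5) (nat_lit 501) (nat_lit 476) (nat_lit 223)) (XT.lf (nat_lit 0) (nat_lit 3100093564814) (nat_lit 228) (nat_lit 1075682048237) (nat_lit 76) (nat_lit 265094873777) (nat_lit 56) (nat_lit 5) (nat_lit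 59) (nat_lit 5) (nat_lit 57) (nat_lit 4) (nat_lit 502) (nat_lit 476) (nat_lit 222)))) (XT.nd (nat_lit 156) (nat_lit 228) (nat_lit 0) (XT.nd (nat_lit 78) (nat_lit 76) (nat_lit 0) (XT.lf (nat_lit 0) (nat_lit 1756986571041) (nat_lit 76) (nat_lit 2704966907756) (nat_lit 152) (nat_lit 200403076556) (nat_lit 55) (nat_lit 5) (nat_lit 56) (nat_lit 5) (nat_lit 57) (nat_lit 4) (nat_lit 503) (nat_lit 476) (nat_lit 221)) (XT.lf (nat_lit 0) (nat_lit 1009790818434) (nat_lit 152) (nat_lit 47329279951) (nat_lit 76) (nat_lit 3840043380798) (nat_lit 54) (nat_lit 5) (nat_lit 56) (nat_lit 5) (nat_lit 55) (nat_lit 5) (nat_lit 504) (nat_lit 476) (nat_lit 220))) (XT.nd (nat_lit 78) (nat_lit 76) (nat_lit 0) (XT.lf (nat_lit 0) (nat_lit 2402294982277) (nat_lit 228) (nat_lit 1969778907303) (nat_lit 76) (nat_lit 770558907070) (nat_lit 52) (nat_lit 5) (nat_lit 55) (nat_lit 5) (nat_lit 53) (nat_lit 4) (nat_lit 505) (nat_lit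 476) (nat_lit 219)) (XT.lf (nat_lit 0) (nat_lit 1282365051220) (nat_lit 76) (nat_lit 2683460680985) (nat_lit 152) (nat_lit 1437143827072) (nat_lit 51) (nat_lit 5) (nat_lit 52) (nat_lit 5) (nat_lit 53) (nat_lit 4) (nat_lit 506) (nat_lit 476) (nat_lit 218))))) (XT.nd (nat_lit 312) (nat_lit 304) (nat_lit 0) (XT.nd (nat_lit 156) (nat_lit 76) (nat_lit 0) (XT.nd (nat_lit 78) (nat_lit 152) (nat_lit 0) (XT.lf (nat_lit 0) (nat_lit 27047244248) (nat_lit 152) (nat_lit 773805826675) (nat_lit 76) (nat_lit 4878916833132) (nat_lit 50) (nat_lit 5) (nat_lit 52) (nat_lit 5) (nat_lit 51) (nat_lit 5) (nat_lit 507) (nat_lit 476) (nat_lit 217)) (XT.lf (nat_lit 0) (nat_lit 1634154238931) (nat_lit 228) (nat_lit 3051470733146) (nat_lit 76) (nat_lit 1281829132834) (nat_lit 48) (nat_lit 5) (nat_lit 51) (nat_lit 5) (nat_lit 49) (nat_lit 4) (nat_lit 508) (nat_lit 476) (nat_lit 216))) (XT.nd (nat_lit 78) (nat_lit 0)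 (nat_lit 0) (XT.lf (nat_lit 0) (nat_lit 681229190206) (nat_lit 76) (nat_lit 2747492320036) (nat_lit 152) (nat_lit 2844720194228) (nat_lit 47) (nat_lit 5) (nat_lit 48) (nat_lit 5) (nat_lit 49) (nat_lit 4) (nat_lit 509) (nat_lit 476) (nat_lit 215)) (XT.lf (nat_lit 0) (nat_lit 4886084950650) (nat_lit 76) (nat_lit 564201829470) (nat_lit 152) (nat_lit 1146946922525) (nat_lit 47) (nat_lit 5) (nat_lit 48) (nat_lit 5) (nat_lit 49) (nat_lit 4) (nat_lit 510) (nat_lit 476) (nat_lit 214)))) (XT.nd (nat_lit 156) (nat_lit 152) (nat_lit 0) (XT.nd (nat_lit 78) (nat_lit 0) (nat_lit 0) (XT.lf (nat_lit 0) (nat_lit 759865039060) (nat_lit 152) (nat_lit 4392176601011) (nat_lit 76) (nat_lit 1784961047916) (nat_lit 45) (nat_lit 5) (nat_lit 47) (nat_lit 5) (nat_lit 46) (nat_lit 4) (nat_lit 511) (nat_lit 476) (nat_lit 213)) (XT.lf (nat_lit 0) (nat_lit 2819912681187) (nat_lit 152) (nat_lit 107277506103) (nat_lit 76)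 (nat_lit 4369367286674) (nat_lit 45) (nat_lit 5) (nat_lit 47) (nat_lit 5) (nat_lit 46) (nat_lit 4) (nat_lit 512) (nat_lit 476) (nat_lit 212))) (XT.nd (nat_lit 78) (nat_lit 76) (nat_lit 0) (XT.lf (nat_lit 0) (nat_lit 4758450480187) (nat_lit 76) (nat_lit 400754502420) (nat_lit 152) (nat_lit 2516516392378) (nat_lit 44) (nat_lit 5) (nat_lit 45) (nat_lit 5) (nat_lit 46) (nat_lit 4) (nat_lit 513) (nat_lit 476) (nat_lit 211)) (XT.lf (nat_lit 0) (nat_lit 1977412374581) (nat_lit 76) (nat_lit 5814778001871) (nat_lit 76) (nat_lit 284504034971) (nat_lit 43) (nat_lit 4) (nat_lit 44) (nat_lit 5) (nat_lit 44) (nat_lit 4) (nat_lit 514) (nat_lit 476) (nat_lit 210))))))))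
noncomputable def xc231 : XT := (XT.nd (nat_lit 60216) (nat_lit 0) (nat_lit 1368) (XT.nd (nat_lit 1092) (nat_lit 304) (nat_lit 0) (XT.nd (nat_lit 546) (nat_lit 456) (nat_lit 0) (XT.nd (nat_lit 234) (nat_lit 304) (nat_lit 0) (XT.nd (nat_lit 78) (nat_lit 152) (nat_lit 0) (XT.lf (nat_lit 0) (nat_lit 2111959052348) (nat_lit 152) (nat_lit 1137399138541) (nat_lit 76) (nat_lit 5248916991330) (nat_lit 42) (nat_lit 5) (nat_lit 44) (nat_lit 5) (nat_lit 43) (nat_lit 4) (nat_lit 515) (nat_lit 476) (nat_lit 209)) (XT.nd (nat_lit 78) (nat_lit 76) (nat_lit 0) (XT.lf (nat_lit 0) (nat_lit 4435948800114) (nat_lit 76) (nat_lit 355504453745) (nat_lit 152) (nat_lit 4153003209620) (nat_lit 41) (nat_lit 5) (nat_lit 42) (nat_lit 5) (nat_lit 43) (nat_lit 4) (nat_lit 516) (nat_lit 476) (nat_lit 208)) (XT.lf (nat_lit 0) (nat_lit 1082745524448) (nat_lit 76) (nat_lit 6727122925452) (nat_lit 76) (nat_lit 1606498880668)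 (nat_lit 40) (nat_lit 4) (nat_lit 41) (nat_lit 5) (nat_lit 41) (nat_lit 4) (nat_lit 517) (nat_lit 476) (nat_lit 207)))) (XT.nd (nat_lit 156) (nat_lit 152) (nat_lit 0) (XT.nd (nat_lit 78) (nat_lit 76) (nat_lit 0) (XT.lf (nat_lit 0) (nat_lit 1222218302404) (nat_lit 152) (nat_lit 2578409976169) (nat_lit 76) (nat_lit 6112345753487) (nat_lit 39) (nat_lit 5) (nat_lit 41) (nat_lit 5) (nat_lit 40) (nat_lit 4) (nat_lit 518) (nat_lit 476) (nat_lit 206)) (XT.lf (nat_lit 0) (nat_lit 3784823769157) (nat_lit 76) (nat_lit 496641526365) (nat_lit 152) (nat_lit 6157223786483) (nat_lit 38) (nat_lit 5) (nat_lit 39) (nat_lit 5) (nat_lit 40) (nat_lit 4) (nat_lit 519) (nat_lit 476) (nat_lit 205))) (XT.nd (nat_lit 78) (nat_lit 152) (nat_lit 0) (XT.lf (nat_lit 0) (nat_lit 7731655067392) (nat_lit 152) (nat_lit 272773520599) (nat_lit 0) (nat_lit 2990336506409) (nat_lit 38) (nat_lit 5) (nat_lit 40) (nat_lit 4) (nat_lit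 38) (nat_lit 4) (nat_lit 520) (nat_lit 476) (nat_lit 204)) (XT.lf (nat_lit 0) (nat_lit 54226306047) (nat_lit 152) (nat_lit 4628527844687) (nat_lit 76) (nat_lit 6898052179473) (nat_lit 36) (nat_lit 5) (nat_lit 38) (nat_lit 5) (nat_lit 37) (nat_lit 4) (nat_lit 521) (nat_lit 476) (nat_lit 203))))) (XT.nd (nat_lit 234) (nat_lit 304) (nat_lit 0) (XT.nd (nat_lit 78) (nat_lit 76) (nat_lit 0) (XT.lf (nat_lit 0) (nat_lit 2602974828364) (nat_lit 76) (nat_lit 927935455239) (nat_lit 152) (nat_lit 8670419818077) (nat_lit 35) (nat_lit 5) (nat_lit 36) (nat_lit 5) (nat_lit 37) (nat_lit 4) (nat_lit 522) (nat_lit 476) (nat_lit 202)) (XT.nd (nat_lit 78) (nat_lit 76) (nat_lit 0) (XT.lf (nat_lit 0) (nat_lit 7490779089895) (nat_lit 152) (nat_lit 2263643365658) (nat_lit 0) (nat_lit 3100669310474) (nat_lit 35) (nat_lit 5) (nat_lit 37) (nat_lit 4) (nat_lit 35) (nat_lit 4) (nat_lit 523) (nat_lit 476) (nat_lit 201))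 (XT.lf (nat_lit 0) (nat_lit 5930406211164) (nat_lit 76) (nat_lit 6003759820745) (nat_lit 76) (nat_lit 1613650041114) (nat_lit 34) (nat_lit 4) (nat_lit 35) (nat_lit 5) (nat_lit 35) (nat_lit 4) (nat_lit 524) (nat_lit 476) (nat_lit 200)))) (XT.nd (nat_lit 156) (nat_lit 152) (nat_lit 0) (XT.nd (nat_lit 78) (nat_lit 0) (nat_lit 0) (XT.lf (nat_lit 0) (nat_lit 586845512300) (nat_lit 76) (nat_lit 1805921455067) (nat_lit 152) (nat_lit 11892293377951) (nat_lit 32) (nat_lit 5) (nat_lit 33) (nat_lit 5) (nat_lit 34) (nat_lit 4) (nat_lit 525) (nat_lit 476) (nat_lit 199)) (XT.lf (nat_lit 0) (nat_lit 6911803814974) (nat_lit 152) (nat_lit 5296897113875) (nat_lit 0) (nat_lit 2846887352007) (nat_lit 32) (nat_lit 5) (nat_lit 34) (nat_lit 4) (nat_lit 32) (nat_lit 4) (nat_lit 526) (nat_lit 476) (nat_lit 198))) (XT.nd (nat_lit 78) (nat_lit 76) (nat_lit 0) (XT.lf (nat_lit 0) (nat_lit 3926014096851) (nat_lit 76)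 (nat_lit 8007677297399) (nat_lit 76) (nat_lit 3942760834279) (nat_lit 31) (nat_lit 4) (nat_lit 32) (nat_lit 5) (nat_lit 32) (nat_lit 4) (nat_lit 527) (nat_lit 476) (nat_lit 197)) (XT.lf (nat_lit 0) (nat_lit 713201441761) (nat_lit 152) (nat_lit 2581457464398) (nat_lit 76) (nat_lit 13455295802949) (nat_lit 30) (nat_lit 5) (nat_lit 32) (nat_lit 5) (nat_lit 31) (nat_lit 4) (nat_lit 528) (nat_lit 476) (nat_lit 196)))))) (XT.nd (nat_lit 58578) (nat_lit 0) (nat_lit 4256) (XT.nd (nat_lit 234) (nat_lit 152) (nat_lit 0) (XT.nd (nat_lit 78) (nat_lit 76) (nat_lit 0) (XT.lf (nat_lit 0) (nat_lit 5767575957021) (nat_lit 152) (nat_lit 9894688524361) (nat_lit 0) (nat_lit 2003764416841) (nat_lit 29) (nat_lit 5) (nat_lit 31) (nat_lit 4) (nat_lit 29) (nat_lit 4) (nat_lit 529) (nat_lit 476) (nat_lit 195)) (XT.nd (nat_lit 78) (nat_lit 0) (nat_lit 0) (XT.lf (nat_lit 0) (nat_lit 381083830876) (nat_lit 76) (nat_lit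 11012372144276) (nat_lit 76) (nat_lit 7248560603983) (nat_lit 28) (nat_lit 4) (nat_lit 29) (nat_lit 5) (nat_lit 29) (nat_lit 4) (nat_lit 530) (nat_lit 476) (nat_lit 194)) (XT.lf (nat_lit 0) (nat_lit 12041637677686) (nat_lit 76) (nat_lit 5698307035864) (nat_lit 76) (nat_lit 1934495495466) (nat_lit 28) (nat_lit 4) (nat_lit 29) (nat_lit 5) (nat_lit 29) (nat_lit 4) (nat_lit 531) (nat_lit 476) (nat_lit 193)))) (XT.nd (nat_lit 58188) (nat_lit 0) (nat_lit 5092) (XT.nd (nat_lit 78) (nat_lit 0) (nat_lit 0) (XT.lf (nat_lit 0) (nat_lit 3715236966732) (nat_lit 152) (nat_lit 16828604770182) (nat_lit 0) (nat_lit 230226281088) (nat_lit 26) (nat_lit 5) (nat_lit 28) (nat_lit 4) (nat_lit 26) (nat_lit 4) (nat_lit 532) (nat_lit 476) (nat_lit 192)) (XT.lf (nat_lit 0) (nat_lit 10074557977257) (nat_lit 152) (nat_lit 5264571215640) (nat_lit 0) (nat_lit 6589547291531) (nat_lit 26) (nat_lit 5) (nat_lit 28) (nat_lit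 4) (nat_lit 26) (nat_lit 4) (nat_lit 533) (nat_lit 476) (nat_lit 191))) (XT.nd (nat_lit 78) (nat_lit 0) (nat_lit 0) (XT.lf (nat_lit 0) (nat_lit 750483606848) (nat_lit 532) (nat_lit 5006255256) (nat_lit 532) (nat_lit 5006255256) (nat_lit 93) (nat_lit 3) (nat_lit 100) (nat_lit 3) (nat_lit 100) (nat_lit 5) (nat_lit 477) (nat_lit 477) (nat_lit 246)) (XT.lf (nat_lit 76) (nat_lit 786802087974) (nat_lit 0) (nat_lit 793126450120) (nat_lit 532) (nat_lit 389575147) (nat_lit 94) (nat_lit 5) (nat_lit 93) (nat_lit 3) (nat_lit 100) (nat_lit 5) (nat_lit 478) (nat_lit 477) (nat_lit 245))))) (XT.nd (nat_lit 234) (nat_lit 304) (nat_lit 0) (XT.nd (nat_lit 78) (nat_lit 0) (nat_lit 76) (XT.lf (nat_lit 76) (nat_lit 3216248610) (nat_lit 0) (nat_lit 16917340331) (nat_lit 608) (nat_lit 1624187764237) (nat_lit 87) (nat_lit 5) (nat_lit 86) (nat_lit 5) (nat_lit 94) (nat_lit 5) (nat_lit 479) (nat_lit 477) (nat_lit 244))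 (XT.nd (nat_lit 78) (nat_lit 0) (nat_lit 0) (XT.lf (nat_lit 0) (nat_lit 84291639848) (nat_lit 532) (nat_lit 823222167476) (nat_lit 608) (nat_lit 802569109009) (nat_lit 87) (nat_lit 5) (nat_lit 94) (nat_lit 5) (nat_lit 95) (nat_lit 5) (nat_lit 480) (nat_lit 477) (nat_lit 243)) (XT.lf (nat_lit 76) (nat_lit 62793159583) (nat_lit 0) (nat_lit 92738761282) (nat_lit 608) (nat_lit 1625417516792) (nat_lit 88) (nat_lit 5) (nat_lit 87) (nat_lit 5) (nat_lit 95) (nat_lit 5) (nat_lit 481) (nat_lit 477) (nat_lit 242)))) (XT.nd (nat_lit 156) (nat_lit 456) (nat_lit 0) (XT.nd (nat_lit 78) (nat_lit 0) (nat_lit 0) (XT.lf (nat_lit 0) (nat_lit 274497026365) (nat_lit 532) (nat_lit 808694778728) (nat_lit 608) (nat_lit 770931427434) (nat_lit 88) (nat_lit 5) (nat_lit 95) (nat_lit 5) (nat_lit 96) (nat_lit 5) (nat_lit 482) (nat_lit 477) (nat_lit 241)) (XT.lf (nat_lit 76) (nat_lit 180125444062) (nat_lit 0) (nat_lit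 229594714420) (nat_lit 608) (nat_lit 1522891507053) (nat_lit 89) (nat_lit 5) (nat_lit 88) (nat_lit 5) (nat_lit 96) (nat_lit 5) (nat_lit 483) (nat_lit 477) (nat_lit 240))) (XT.nd (nat_lit 78) (nat_lit 532) (nat_lit 0) (XT.lf (nat_lit 0) (nat_lit 595096197732) (nat_lit 532) (nat_lit 738791719999) (nat_lit 76) (nat_lit 680344450925) (nat_lit 89) (nat_lit 5) (nat_lit 96) (nat_lit 5) (nat_lit 90) (nat_lit 5) (nat_lit 484) (nat_lit 477) (nat_lit 239)) (XT.lf (nat_lit 0) (nat_lit 368467055201) (nat_lit 532) (nat_lit 441660403721) (nat_lit 608) (nat_lit 1291069258001) (nat_lit 82) (nat_lit 5) (nat_lit 89) (nat_lit 5) (nat_lit 90) (nat_lit 5) (nat_lit 485) (nat_lit 477) (nat_lit 238))))))) (XT.nd (nat_lit 1092) (nat_lit 1216) (nat_lit 0) (XT.nd (nat_lit 546) (nat_lit 684) (nat_lit 0) (XT.nd (nat_lit 234) (nat_lit 760) (nat_lit 0) (XT.nd (nat_lit 78) (nat_lit 228) (nat_lit 0) (XT.lf (nat_lit 0) (nat_lit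 1075638563533) (nat_lit 608) (nat_lit 600257422081) (nat_lit 76) (nat_lit 516560040037) (nat_lit 82) (nat_lit 5) (nat_lit 90) (nat_lit 5) (nat_lit 83) (nat_lit 5) (nat_lit 486) (nat_lit 477) (nat_lit 237)) (XT.nd (nat_lit 78) (nat_lit 0) (nat_lit 0) (XT.lf (nat_lit 0) (nat_lit 643533024465) (nat_lit 228) (nat_lit 745806213969) (nat_lit 304) (nat_lit 899520946091) (nat_lit 79) (nat_lit 5) (nat_lit 82) (nat_lit 5) (nat_lit 83) (nat_lit 5) (nat_lit 487) (nat_lit 477) (nat_lit 236)) (XT.lf (nat_lit 0) (nat_lit 1751195874337) (nat_lit 304) (nat_lit 377347638382) (nat_lit 76) (nat_lit 262588370826) (nat_lit 79) (nat_lit 5) (nat_lit 83) (nat_lit 5) (nat_lit 80) (nat_lit 5) (nat_lit 488) (nat_lit 477) (nat_lit 235)))) (XT.nd (nat_lit 156) (nat_lit 456) (nat_lit 0) (XT.nd (nat_lit 78) (nat_lit 76) (nat_lit 0) (XT.lf (nat_lit 0) (nat_lit 1023919240752) (nat_lit 228) (nat_lit 1162078671295) (nat_lit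 304) (nat_lit 312067656767) (nat_lit 76) (nat_lit 5) (nat_lit 79) (nat_lit 5) (nat_lit 80) (nat_lit 5) (nat_lit 489) (nat_lit 477) (nat_lit 234)) (XT.lf (nat_lit 0) (nat_lit 50512979826) (nat_lit 304) (nat_lit 55259807185) (nat_lit 76) (nat_lit 2506853468979) (nat_lit 75) (nat_lit 5) (nat_lit 79) (nat_lit 5) (nat_lit 76) (nat_lit 5) (nat_lit 490) (nat_lit 477) (nat_lit 233))) (XT.nd (nat_lit 78) (nat_lit 228) (nat_lit 0) (XT.lf (nat_lit 0) (nat_lit 488500196624) (nat_lit 304) (nat_lit 1212408696794) (nat_lit 76) (nat_lit 1029733661377) (nat_lit 72) (nat_lit 5) (nat_lit 76) (nat_lit 5) (nat_lit 73) (nat_lit 5) (nat_lit 491) (nat_lit 477) (nat_lit 232)) (XT.lf (nat_lit 0) (nat_lit 378939924013) (nat_lit 228) (nat_lit 595997470176) (nat_lit 304) (nat_lit 1882089883041) (nat_lit 69) (nat_lit 5) (nat_lit 72) (nat_lit 5) (nat_lit 73) (nat_lit 5) (nat_lit 492) (nat_lit 477) (nat_lit 231))))) (XT.nd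 (nat_lit 234) (nat_lit 532) (nat_lit 0) (XT.nd (nat_lit 78) (nat_lit 152) (nat_lit 0) (XT.lf (nat_lit 0) (nat_lit 1548665236680) (nat_lit 304) (nat_lit 839549903495) (nat_lit 76) (nat_lit 601437583756) (nat_lit 69) (nat_lit 5) (nat_lit 73) (nat_lit 5) (nat_lit 70) (nat_lit 5) (nat_lit 493) (nat_lit 477) (nat_lit 230)) (XT.nd (nat_lit 78) (nat_lit 0) (nat_lit 0) (XT.lf (nat_lit 0) (nat_lit 962750780112) (nat_lit 152) (nat_lit 1244175158555) (nat_lit 228) (nat_lit 922871497132) (nat_lit 67) (nat_lit 5) (nat_lit 69) (nat_lit 5) (nat_lit 70) (nat_lit 5) (nat_lit 494) (nat_lit 477) (nat_lit 229)) (XT.lf (nat_lit 0) (nat_lit 2941191387754) (nat_lit 228) (nat_lit 322724988081) (nat_lit 76) (nat_lit 15369837507) (nat_lit 67) (nat_lit 5) (nat_lit 70) (nat_lit 5) (nat_lit 68) (nat_lit 5) (nat_lit 495) (nat_lit 477) (nat_lit 228)))) (XT.nd (nat_lit 156) (nat_lit 152) (nat_lit 0) (XT.nd (nat_lit 78)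 (nat_lit 152) (nat_lit 0) (XT.lf (nat_lit 0) (nat_lit 354454308111) (nat_lit 228) (nat_lit 1720788690722) (nat_lit 76) (nat_lit 1358872822176) (nat_lit 64) (nat_lit 5) (nat_lit 67) (nat_lit 5) (nat_lit 65) (nat_lit 5) (nat_lit 496) (nat_lit 477) (nat_lit 227)) (XT.lf (nat_lit 0) (nat_lit 337882564280) (nat_lit 152) (nat_lit 763438053400) (nat_lit 228) (nat_lit 2497934313112) (nat_lit 62) (nat_lit 5) (nat_lit 64) (nat_lit 5) (nat_lit 65) (nat_lit 5) (nat_lit 497) (nat_lit 477) (nat_lit 226))) (XT.nd (nat_lit 78) (nat_lit 152) (nat_lit 0) (XT.lf (nat_lit 0) (nat_lit 1971919858221) (nat_lit 228) (nat_lit 1131665135405) (nat_lit 76) (nat_lit 668901485635) (nat_lit 62) (nat_lit 5) (nat_lit 65) (nat_lit 5) (nat_lit 63) (nat_lit 5) (nat_lit 498) (nat_lit 477) (nat_lit 225)) (XT.lf (nat_lit 0) (nat_lit 1209071780218) (nat_lit 152) (nat_lit 1752003022141) (nat_lit 228) (nat_lit 994589128099) (nat_lit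 60) (nat_lit 5) (nat_lit 62) (nat_lit 5) (nat_lit 63) (nat_lit 5) (nat_lit 499) (nat_lit 477) (nat_lit 224)))))) (XT.nd (nat_lit 546) (nat_lit 608) (nat_lit 0) (XT.nd (nat_lit 234) (nat_lit 304) (nat_lit 0) (XT.nd (nat_lit 78) (nat_lit 304) (nat_lit 0) (XT.lf (nat_lit 0) (nat_lit 3801426446759) (nat_lit 152) (nat_lit 258877424721) (nat_lit 228) (nat_lit 90716367916) (nat_lit 60) (nat_lit 5) (nat_lit 62) (nat_lit 5) (nat_lit 63) (nat_lit 5) (nat_lit 500) (nat_lit 477) (nat_lit 223)) (XT.nd (nat_lit 78) (nat_lit 152) (nat_lit 0) (XT.lf (nat_lit 0) (nat_lit 931888196025) (nat_lit 152) (nat_lit 2055719539816) (nat_lit 76) (nat_lit 1365436351384) (nat_lit 58) (nat_lit 5) (nat_lit 60) (nat_lit 5) (nat_lit 59) (nat_lit 5) (nat_lit 501) (nat_lit 477) (nat_lit 222)) (XT.lf (nat_lit 0) (nat_lit 627473010271) (nat_lit 152) (nat_lit 1435548690751) (nat_lit 228) (nat_lit 2505489911028) (nat_lit 56) (nat_lit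 5) (nat_lit 58) (nat_lit 5) (nat_lit 59) (nat_lit 5) (nat_lit 502) (nat_lit 477) (nat_lit 221)))) (XT.nd (nat_lit 156) (nat_lit 228) (nat_lit 0) (XT.nd (nat_lit 78) (nat_lit 76) (nat_lit 0) (XT.lf (nat_lit 0) (nat_lit 3348101064813) (nat_lit 228) (nat_lit 1161736586710) (nat_lit 76) (nat_lit 286302473067) (nat_lit 56) (nat_lit 5) (nat_lit 59) (nat_lit 5) (nat_lit 57) (nat_lit 4) (nat_lit 503) (nat_lit 477) (nat_lit 220)) (XT.lf (nat_lit 0) (nat_lit 1897545521468) (nat_lit 76) (nat_lit 2921364249943) (nat_lit 152) (nat_lit 216435307224) (nat_lit 55) (nat_lit 5) (nat_lit 56) (nat_lit 5) (nat_lit 57) (nat_lit 4) (nat_lit 504) (nat_lit 477) (nat_lit 219))) (XT.nd (nat_lit 78) (nat_lit 152) (nat_lit 0) (XT.lf (nat_lit 0) (nat_lit 1090574097505) (nat_lit 152) (nat_lit 51115598719) (nat_lit 76) (nat_lit 4147246860205) (nat_lit 54) (nat_lit 5) (nat_lit 56) (nat_lit 5) (nat_lit 55) (nat_lit 5) (nat_lit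 505) (nat_lit 477) (nat_lit 218)) (XT.lf (nat_lit 0) (nat_lit 2594478594240) (nat_lit 228) (nat_lit 2127361196043) (nat_lit 76) (nat_lit 832203629028) (nat_lit 52) (nat_lit 5) (nat_lit 55) (nat_lit 5) (nat_lit 53) (nat_lit 4) (nat_lit 506) (nat_lit 477) (nat_lit 217))))) (XT.nd (nat_lit 312) (nat_lit 228) (nat_lit 0) (XT.nd (nat_lit 156) (nat_lit 228) (nat_lit 0) (XT.nd (nat_lit 78) (nat_lit 76) (nat_lit 0) (XT.lf (nat_lit 0) (nat_lit 1384954278557) (nat_lit 76) (nat_lit 2898137525172) (nat_lit 152) (nat_lit 1552115319252) (nat_lit 51) (nat_lit 5) (nat_lit 52) (nat_lit 5) (nat_lit 53) (nat_lit 4) (nat_lit 507) (nat_lit 477) (nat_lit 216)) (XT.lf (nat_lit 0) (nat_lit 29211036089) (nat_lit 152) (nat_lit 835710270642) (nat_lit 76) (nat_lit 5269230188664) (nat_lit 50) (nat_lit 5) (nat_lit 52) (nat_lit 5) (nat_lit 51) (nat_lit 5) (nat_lit 508) (nat_lit 477) (nat_lit 215))) (XT.nd (nat_lit 78)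 (nat_lit 76) (nat_lit 0) (XT.lf (nat_lit 0) (nat_lit 1764886590188) (nat_lit 228) (nat_lit 3295588369472) (nat_lit 76) (nat_lit 1384375472671) (nat_lit 48) (nat_lit 5) (nat_lit 51) (nat_lit 5) (nat_lit 49) (nat_lit 4) (nat_lit 509) (nat_lit 477) (nat_lit 214)) (XT.lf (nat_lit 0) (nat_lit 735727547183) (nat_lit 76) (nat_lit 2967291695645) (nat_lit 152) (nat_lit 3072297797058) (nat_lit 47) (nat_lit 5) (nat_lit 48) (nat_lit 5) (nat_lit 49) (nat_lit 4) (nat_lit 510) (nat_lit 477) (nat_lit 213)))) (XT.nd (nat_lit 156) (nat_lit 76) (nat_lit 0) (XT.nd (nat_lit 78) (nat_lit 152) (nat_lit 0) (XT.lf (nat_lit 0) (nat_lit 5276971766851) (nat_lit 76) (nat_lit 609337966574) (nat_lit 152) (nat_lit 1238702664560) (nat_lit 47) (nat_lit 5) (nat_lit 48) (nat_lit 5) (nat_lit 49) (nat_lit 4) (nat_lit 511) (nat_lit 477) (nat_lit 212)) (XT.lf (nat_lit 0) (nat_lit 820654253247) (nat_lit 152) (nat_lit 4743550708238)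 (nat_lit 76) (nat_lit 1927757940657) (nat_lit 45) (nat_lit 5) (nat_lit 47) (nat_lit 5) (nat_lit 46) (nat_lit 4) (nat_lit 512) (nat_lit 477) (nat_lit 211))) (XT.nd (nat_lit 78) (nat_lit 76) (nat_lit 0) (XT.lf (nat_lit 0) (nat_lit 3045505705925) (nat_lit 152) (nat_lit 115859687281) (nat_lit 76) (nat_lit 4718916677855) (nat_lit 45) (nat_lit 5) (nat_lit 47) (nat_lit 5) (nat_lit 46) (nat_lit 4) (nat_lit 513) (nat_lit 477) (nat_lit 210)) (XT.lf (nat_lit 0) (nat_lit 5139126537422) (nat_lit 76) (nat_lit 432814853730) (nat_lit 152) (nat_lit 2717837693036) (nat_lit 44) (nat_lit 5) (nat_lit 45) (nat_lit 5) (nat_lit 46) (nat_lit 4) (nat_lit 514) (nat_lit 477) (nat_lit 209))))))))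
noncomputable def xc232 : XT := (XT.nd (nat_lit 60294) (nat_lit 0) (nat_lit 1444) (XT.nd (nat_lit 1092) (nat_lit 380) (nat_lit 0) (XT.nd (nat_lit 546) (nat_lit 532) (nat_lit 0) (XT.nd (nat_lit 234) (nat_lit 228) (nat_lit 0) (XT.nd (nat_lit 78) (nat_lit 152) (nat_lit 0) (XT.lf (nat_lit 0) (nat_lit 2135605383459) (nat_lit 76) (nat_lit 6279960232962) (nat_lit 76) (nat_lit 307264347127) (nat_lit 43) (nat_lit 4) (nat_lit 44) (nat_lit 5) (nat_lit 44) (nat_lit 4) (nat_lit 515) (nat_lit 477) (nat_lit 208)) (XT.nd (nat_lit 78) (nat_lit 76) (nat_lit 0) (XT.lf (nat_lit 0) (nat_lit 2280915785897) (nat_lit 152) (nat_lit 1228391051621) (nat_lit 76) (nat_lit 5668830358531) (nat_lit 42) (nat_lit 5) (nat_lit 44) (nat_lit 5) (nat_lit 43) (nat_lit 4) (nat_lit 516) (nat_lit 477) (nat_lit 207)) (XT.lf (nat_lit 0) (nat_lit 4790824721671) (nat_lit 76) (nat_lit 383944801586) (nat_lit 152) (nat_lit 4485243456573)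 (nat_lit 41) (nat_lit 5) (nat_lit 42) (nat_lit 5) (nat_lit 43) (nat_lit 4) (nat_lit 517) (nat_lit 477) (nat_lit 206)))) (XT.nd (nat_lit 156) (nat_lit 76) (nat_lit 0) (XT.nd (nat_lit 78) (nat_lit 76) (nat_lit 0) (XT.lf (nat_lit 0) (nat_lit 1169365184018) (nat_lit 76) (nat_lit 7265292750902) (nat_lit 76) (nat_lit 1735018781371) (nat_lit 40) (nat_lit 4) (nat_lit 41) (nat_lit 5) (nat_lit 41) (nat_lit 4) (nat_lit 518) (nat_lit 477) (nat_lit 205)) (XT.lf (nat_lit 0) (nat_lit 1319995775173) (nat_lit 152) (nat_lit 2784682757501) (nat_lit 76) (nat_lit 6601333421265) (nat_lit 39) (nat_lit 5) (nat_lit 41) (nat_lit 5) (nat_lit 40) (nat_lit 4) (nat_lit 519) (nat_lit 477) (nat_lit 204))) (XT.nd (nat_lit 78) (nat_lit 0) (nat_lit 0) (XT.lf (nat_lit 0) (nat_lit 4087609687026) (nat_lit 76) (nat_lit 536372840471) (nat_lit 152) (nat_lit 6649801680400) (nat_lit 38) (nat_lit 5) (nat_lit 39) (nat_lit 5) (nat_lit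 40) (nat_lit 4) (nat_lit 520) (nat_lit 477) (nat_lit 203)) (XT.lf (nat_lit 0) (nat_lit 8350187480678) (nat_lit 152) (nat_lit 294595386681) (nat_lit 0) (nat_lit 3229563433961) (nat_lit 38) (nat_lit 5) (nat_lit 40) (nat_lit 4) (nat_lit 38) (nat_lit 4) (nat_lit 521) (nat_lit 477) (nat_lit 202))))) (XT.nd (nat_lit 234) (nat_lit 304) (nat_lit 0) (XT.nd (nat_lit 78) (nat_lit 76) (nat_lit 0) (XT.lf (nat_lit 0) (nat_lit 58564418406) (nat_lit 152) (nat_lit 4998810056676) (nat_lit 76) (nat_lit 7449896360913) (nat_lit 36) (nat_lit 5) (nat_lit 38) (nat_lit 5) (nat_lit 37) (nat_lit 4) (nat_lit 522) (nat_lit 477) (nat_lit 201)) (XT.nd (nat_lit 78) (nat_lit 0) (nat_lit 0) (XT.lf (nat_lit 0) (nat_lit 2811212829825) (nat_lit 76) (nat_lit 1002170284122) (nat_lit 152) (nat_lit 9364053395254) (nat_lit 35) (nat_lit 5) (nat_lit 36) (nat_lit 5) (nat_lit 37) (nat_lit 4) (nat_lit 523) (nat_lit 477) (nat_lit 200))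 (XT.lf (nat_lit 0) (nat_lit 8090041424344) (nat_lit 152) (nat_lit 2444734820445) (nat_lit 0) (nat_lit 3348722861940) (nat_lit 35) (nat_lit 5) (nat_lit 37) (nat_lit 4) (nat_lit 35) (nat_lit 4) (nat_lit 524) (nat_lit 477) (nat_lit 199)))) (XT.nd (nat_lit 156) (nat_lit 76) (nat_lit 0) (XT.nd (nat_lit 78) (nat_lit 152) (nat_lit 0) (XT.lf (nat_lit 0) (nat_lit 6404838722157) (nat_lit 76) (nat_lit 6484060599363) (nat_lit 76) (nat_lit 1742742036780) (nat_lit 34) (nat_lit 4) (nat_lit 35) (nat_lit 5) (nat_lit 35) (nat_lit 4) (nat_lit 525) (nat_lit 477) (nat_lit 198)) (XT.lf (nat_lit 0) (nat_lit 633793167398) (nat_lit 76) (nat_lit 1950395164403) (nat_lit 152) (nat_lit 12843676840578) (nat_lit 32) (nat_lit 5) (nat_lit 33) (nat_lit 5) (nat_lit 34) (nat_lit 4) (nat_lit 526) (nat_lit 477) (nat_lit 197))) (XT.nd (nat_lit 78) (nat_lit 76) (nat_lit 0) (XT.lf (nat_lit 0) (nat_lit 7464748126853) (nat_lit 152)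 (nat_lit 5720648869551) (nat_lit 0) (nat_lit 3074638346387) (nat_lit 32) (nat_lit 5) (nat_lit 34) (nat_lit 4) (nat_lit 32) (nat_lit 4) (nat_lit 527) (nat_lit 477) (nat_lit 196)) (XT.lf (nat_lit 0) (nat_lit 4240095237692) (nat_lit 76) (nat_lit 8648291474598) (nat_lit 76) (nat_lit 4258181694001) (nat_lit 31) (nat_lit 4) (nat_lit 32) (nat_lit 5) (nat_lit 32) (nat_lit 4) (nat_lit 528) (nat_lit 477) (nat_lit 195)))))) (XT.nd (nat_lit 58656) (nat_lit 0) (nat_lit 4256) (XT.nd (nat_lit 234) (nat_lit 152) (nat_lit 0) (XT.nd (nat_lit 78) (nat_lit 152) (nat_lit 0) (XT.lf (nat_lit 0) (nat_lit 770257563278) (nat_lit 152) (nat_lit 2787974049101) (nat_lit 76) (nat_lit 14531719472964) (nat_lit 30) (nat_lit 5) (nat_lit 32) (nat_lit 5) (nat_lit 31) (nat_lit 4) (nat_lit 529) (nat_lit 477) (nat_lit 194)) (XT.nd (nat_lit 78) (nat_lit 76) (nat_lit 0) (XT.lf (nat_lit 0) (nat_lit 6228982039740) (nat_lit 152) (nat_lit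 10686263593842) (nat_lit 0) (nat_lit 2164065576006) (nat_lit 29) (nat_lit 5) (nat_lit 31) (nat_lit 4) (nat_lit 29) (nat_lit 4) (nat_lit 530) (nat_lit 477) (nat_lit 193)) (XT.lf (nat_lit 0) (nat_lit 411570549498) (nat_lit 76) (nat_lit 11893361909660) (nat_lit 76) (nat_lit 7828445445829) (nat_lit 28) (nat_lit 4) (nat_lit 29) (nat_lit 5) (nat_lit 29) (nat_lit 4) (nat_lit 531) (nat_lit 477) (nat_lit 192)))) (XT.nd (nat_lit 58266) (nat_lit 0) (nat_lit 5092) (XT.nd (nat_lit 78) (nat_lit 152) (nat_lit 0) (XT.lf (nat_lit 0) (nat_lit 13004968703153) (nat_lit 76) (nat_lit 6154171593030) (nat_lit 76) (nat_lit 2089255129110) (nat_lit 28) (nat_lit 4) (nat_lit 29) (nat_lit 5) (nat_lit 29) (nat_lit 4) (nat_lit 532) (nat_lit 477) (nat_lit 191)) (XT.lf (nat_lit 0) (nat_lit 4012455929750) (nat_lit 152) (nat_lit 18174893140232) (nat_lit 0) (nat_lit 248644389006) (nat_lit 26) (nat_lit 5) (nat_lit 28) (nat_lit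 4) (nat_lit 26) (nat_lit 4) (nat_lit 533) (nat_lit 477) (nat_lit 190))) (XT.nd (nat_lit 78) (nat_lit 0) (nat_lit 0) (XT.lf (nat_lit 0) (nat_lit 810522321465) (nat_lit 532) (nat_lit 5406741598) (nat_lit 532) (nat_lit 5406741598) (nat_lit 93) (nat_lit 3) (nat_lit 100) (nat_lit 3) (nat_lit 100) (nat_lit 5) (nat_lit 478) (nat_lit 478) (nat_lit 244)) (XT.lf (nat_lit 76) (nat_lit 849746282457) (nat_lit 0) (nat_lit 856576587620) (nat_lit 532) (nat_lit 420688303) (nat_lit 94) (nat_lit 5) (nat_lit 93) (nat_lit 3) (nat_lit 100) (nat_lit 5) (nat_lit 479) (nat_lit 478) (nat_lit 243))))) (XT.nd (nat_lit 234) (nat_lit 304) (nat_lit 0) (XT.nd (nat_lit 78) (nat_lit 0) (nat_lit 76) (XT.lf (nat_lit 76) (nat_lit 3473577831) (nat_lit 0) (nat_lit 18270745423) (nat_lit 608) (nat_lit 1754122734396) (nat_lit 87) (nat_lit 5) (nat_lit 86) (nat_lit 5) (nat_lit 94) (nat_lit 5) (nat_lit 480) (nat_lit 478) (nat_lit 242))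 (XT.nd (nat_lit 78) (nat_lit 0) (nat_lit 0) (XT.lf (nat_lit 0) (nat_lit 91035014340) (nat_lit 532) (nat_lit 889079909815) (nat_lit 608) (nat_lit 866774622015) (nat_lit 87) (nat_lit 5) (nat_lit 94) (nat_lit 5) (nat_lit 95) (nat_lit 5) (nat_lit 481) (nat_lit 478) (nat_lit 241)) (XT.lf (nat_lit 76) (nat_lit 67816642622) (nat_lit 0) (nat_lit 100157872736) (nat_lit 608) (nat_lit 1755450874040) (nat_lit 88) (nat_lit 5) (nat_lit 87) (nat_lit 5) (nat_lit 95) (nat_lit 5) (nat_lit 482) (nat_lit 478) (nat_lit 240)))) (XT.nd (nat_lit 156) (nat_lit 456) (nat_lit 0) (XT.nd (nat_lit 78) (nat_lit 0) (nat_lit 0) (XT.lf (nat_lit 0) (nat_lit 296456826040) (nat_lit 532) (nat_lit 873390329733) (nat_lit 608) (nat_lit 832605932347) (nat_lit 88) (nat_lit 5) (nat_lit 95) (nat_lit 5) (nat_lit 96) (nat_lit 5) (nat_lit 483) (nat_lit 478) (nat_lit 239)) (XT.lf (nat_lit 76) (nat_lit 194535510088) (nat_lit 0) (nat_lit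 247962296588) (nat_lit 608) (nat_lit 1644722789255) (nat_lit 89) (nat_lit 5) (nat_lit 88) (nat_lit 5) (nat_lit 96) (nat_lit 5) (nat_lit 484) (nat_lit 478) (nat_lit 238))) (XT.nd (nat_lit 78) (nat_lit 532) (nat_lit 0) (XT.lf (nat_lit 0) (nat_lit 642703926324) (nat_lit 532) (nat_lit 797895026611) (nat_lit 76) (nat_lit 734772002587) (nat_lit 89) (nat_lit 5) (nat_lit 96) (nat_lit 5) (nat_lit 90) (nat_lit 5) (nat_lit 485) (nat_lit 478) (nat_lit 237)) (XT.lf (nat_lit 0) (nat_lit 397944449821) (nat_lit 532) (nat_lit 476993236888) (nat_lit 608) (nat_lit 1394354765080) (nat_lit 82) (nat_lit 5) (nat_lit 89) (nat_lit 5) (nat_lit 90) (nat_lit 5) (nat_lit 486) (nat_lit 478) (nat_lit 236))))))) (XT.nd (nat_lit 1092) (nat_lit 1140) (nat_lit 0) (XT.nd (nat_lit 546) (nat_lit 684) (nat_lit 0) (XT.nd (nat_lit 234) (nat_lit 760) (nat_lit 0) (XT.nd (nat_lit 78) (nat_lit 228) (nat_lit 0) (XT.lf (nat_lit 0) (nat_lit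 1161689677368) (nat_lit 608) (nat_lit 648277985557) (nat_lit 76) (nat_lit 557884842476) (nat_lit 82) (nat_lit 5) (nat_lit 90) (nat_lit 5) (nat_lit 83) (nat_lit 5) (nat_lit 487) (nat_lit 478) (nat_lit 235)) (XT.nd (nat_lit 78) (nat_lit 0) (nat_lit 0) (XT.lf (nat_lit 0) (nat_lit 695015695946) (nat_lit 228) (nat_lit 805470708894) (nat_lit 304) (nat_lit 971482592256) (nat_lit 79) (nat_lit 5) (nat_lit 82) (nat_lit 5) (nat_lit 83) (nat_lit 5) (nat_lit 488) (nat_lit 478) (nat_lit 234)) (XT.lf (nat_lit 0) (nat_lit 1891291569640) (nat_lit 304) (nat_lit 407535420137) (nat_lit 76) (nat_lit 283595442420) (nat_lit 79) (nat_lit 5) (nat_lit 83) (nat_lit 5) (nat_lit 80) (nat_lit 5) (nat_lit 489) (nat_lit 478) (nat_lit 233)))) (XT.nd (nat_lit 156) (nat_lit 456) (nat_lit 0) (XT.nd (nat_lit 78) (nat_lit 76) (nat_lit 0) (XT.lf (nat_lit 0) (nat_lit 1105832808586) (nat_lit 228) (nat_lit 1255044960590) (nat_lit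 304) (nat_lit 337033043207) (nat_lit 76) (nat_lit 5) (nat_lit 79) (nat_lit 5) (nat_lit 80) (nat_lit 5) (nat_lit 490) (nat_lit 478) (nat_lit 232)) (XT.lf (nat_lit 0) (nat_lit 54554041171) (nat_lit 304) (nat_lit 59680564092) (nat_lit 76) (nat_lit 2707401749368) (nat_lit 75) (nat_lit 5) (nat_lit 79) (nat_lit 5) (nat_lit 76) (nat_lit 5) (nat_lit 491) (nat_lit 478) (nat_lit 231))) (XT.nd (nat_lit 78) (nat_lit 228) (nat_lit 0) (XT.lf (nat_lit 0) (nat_lit 527580234382) (nat_lit 304) (nat_lit 1309401363937) (nat_lit 76) (nat_lit 1112112359095) (nat_lit 72) (nat_lit 5) (nat_lit 76) (nat_lit 5) (nat_lit 73) (nat_lit 5) (nat_lit 492) (nat_lit 478) (nat_lit 230)) (XT.lf (nat_lit 0) (nat_lit 409255145810) (nat_lit 228) (nat_lit 643677260981) (nat_lit 304) (nat_lit 2032657050931) (nat_lit 69) (nat_lit 5) (nat_lit 72) (nat_lit 5) (nat_lit 73) (nat_lit 5) (nat_lit 493) (nat_lit 478) (nat_lit 229))))) (XT.nd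 (nat_lit 234) (nat_lit 532) (nat_lit 0) (XT.nd (nat_lit 78) (nat_lit 152) (nat_lit 0) (XT.lf (nat_lit 0) (nat_lit 1672558475272) (nat_lit 304) (nat_lit 906713868553) (nat_lit 76) (nat_lit 649552596446) (nat_lit 69) (nat_lit 5) (nat_lit 73) (nat_lit 5) (nat_lit 70) (nat_lit 5) (nat_lit 494) (nat_lit 478) (nat_lit 228)) (XT.nd (nat_lit 78) (nat_lit 0) (nat_lit 0) (XT.lf (nat_lit 0) (nat_lit 1039770869054) (nat_lit 152) (nat_lit 1343709163547) (nat_lit 228) (nat_lit 996701196554) (nat_lit 67) (nat_lit 5) (nat_lit 69) (nat_lit 5) (nat_lit 70) (nat_lit 5) (nat_lit 495) (nat_lit 478) (nat_lit 227)) (XT.lf (nat_lit 0) (nat_lit 3176486716390) (nat_lit 228) (nat_lit 348542961335) (nat_lit 76) (nat_lit 16599431275) (nat_lit 67) (nat_lit 5) (nat_lit 70) (nat_lit 5) (nat_lit 68) (nat_lit 5) (nat_lit 496) (nat_lit 478) (nat_lit 226)))) (XT.nd (nat_lit 156) (nat_lit 152) (nat_lit 0) (XT.nd (nat_lit 78)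 (nat_lit 152) (nat_lit 0) (XT.lf (nat_lit 0) (nat_lit 382810670116) (nat_lit 228) (nat_lit 1858451759925) (nat_lit 76) (nat_lit 1467582655259) (nat_lit 64) (nat_lit 5) (nat_lit 67) (nat_lit 5) (nat_lit 65) (nat_lit 5) (nat_lit 497) (nat_lit 478) (nat_lit 225)) (XT.lf (nat_lit 0) (nat_lit 364913194818) (nat_lit 152) (nat_lit 824513088957) (nat_lit 228) (nat_lit 2697769040144) (nat_lit 62) (nat_lit 5) (nat_lit 64) (nat_lit 5) (nat_lit 65) (nat_lit 5) (nat_lit 498) (nat_lit 478) (nat_lit 224))) (XT.nd (nat_lit 78) (nat_lit 152) (nat_lit 0) (XT.lf (nat_lit 0) (nat_lit 2129673462518) (nat_lit 228) (nat_lit 1222198321680) (nat_lit 76) (nat_lit 722413612151) (nat_lit 62) (nat_lit 5) (nat_lit 65) (nat_lit 5) (nat_lit 63) (nat_lit 5) (nat_lit 499) (nat_lit 478) (nat_lit 223)) (XT.lf (nat_lit 0) (nat_lit 1305797546571) (nat_lit 152) (nat_lit 1892163255034) (nat_lit 228) (nat_lit 1074156242085) (nat_lit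 60) (nat_lit 5) (nat_lit 62) (nat_lit 5) (nat_lit 63) (nat_lit 5) (nat_lit 500) (nat_lit 478) (nat_lit 222)))))) (XT.nd (nat_lit 546) (nat_lit 532) (nat_lit 0) (XT.nd (nat_lit 234) (nat_lit 304) (nat_lit 0) (XT.nd (nat_lit 78) (nat_lit 304) (nat_lit 0) (XT.lf (nat_lit 0) (nat_lit 4105540584662) (nat_lit 152) (nat_lit 279587610478) (nat_lit 228) (nat_lit 97973662291) (nat_lit 60) (nat_lit 5) (nat_lit 62) (nat_lit 5) (nat_lit 63) (nat_lit 5) (nat_lit 501) (nat_lit 478) (nat_lit 221)) (XT.nd (nat_lit 78) (nat_lit 152) (nat_lit 0) (XT.lf (nat_lit 0) (nat_lit 1006439265694) (nat_lit 152) (nat_lit 2220177079767) (nat_lit 76) (nat_lit 1474671267621) (nat_lit 58) (nat_lit 5) (nat_lit 60) (nat_lit 5) (nat_lit 59) (nat_lit 5) (nat_lit 502) (nat_lit 478) (nat_lit 220)) (XT.lf (nat_lit 0) (nat_lit 677670873739) (nat_lit 152) (nat_lit 1550392576861) (nat_lit 228) (nat_lit 2705929089334) (nat_lit 56)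 (nat_lit 5) (nat_lit 58) (nat_lit 5) (nat_lit 59) (nat_lit 5) (nat_lit 503) (nat_lit 478) (nat_lit 219)))) (XT.nd (nat_lit 156) (nat_lit 228) (nat_lit 0) (XT.nd (nat_lit 78) (nat_lit 76) (nat_lit 0) (XT.lf (nat_lit 0) (nat_lit 3615949162698) (nat_lit 228) (nat_lit 1254675491881) (nat_lit 76) (nat_lit 309206678960) (nat_lit 56) (nat_lit 5) (nat_lit 59) (nat_lit 5) (nat_lit 57) (nat_lit 4) (nat_lit 504) (nat_lit 478) (nat_lit 218)) (XT.lf (nat_lit 0) (nat_lit 2049349184400) (nat_lit 76) (nat_lit 3155073380995) (nat_lit 152) (nat_lit 233750118550) (nat_lit 55) (nat_lit 5) (nat_lit 56) (nat_lit 5) (nat_lit 57) (nat_lit 4) (nat_lit 505) (nat_lit 478) (nat_lit 217))) (XT.nd (nat_lit 78) (nat_lit 152) (nat_lit 0) (XT.lf (nat_lit 0) (nat_lit 1177820036963) (nat_lit 152) (nat_lit 55204826360) (nat_lit 76) (nat_lit 4479026616689) (nat_lit 54) (nat_lit 5) (nat_lit 56) (nat_lit 5) (nat_lit 55) (nat_lit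 5) (nat_lit 506) (nat_lit 478) (nat_lit 216)) (XT.lf (nat_lit 0) (nat_lit 2802036893251) (nat_lit 228) (nat_lit 2297550071284) (nat_lit 76) (nat_lit 898779927403) (nat_lit 52) (nat_lit 5) (nat_lit 55) (nat_lit 5) (nat_lit 53) (nat_lit 4) (nat_lit 507) (nat_lit 478) (nat_lit 215))))) (XT.nd (nat_lit 234) (nat_lit 228) (nat_lit 0) (XT.nd (nat_lit 78) (nat_lit 228) (nat_lit 0) (XT.lf (nat_lit 0) (nat_lit 1495750640767) (nat_lit 76) (nat_lit 3129988518362) (nat_lit 152) (nat_lit 1676284532803) (nat_lit 51) (nat_lit 5) (nat_lit 52) (nat_lit 5) (nat_lit 53) (nat_lit 4) (nat_lit 508) (nat_lit 478) (nat_lit 214)) (XT.nd (nat_lit 78) (nat_lit 152) (nat_lit 0) (XT.lf (nat_lit 0) (nat_lit 31547929522) (nat_lit 152) (nat_lit 902567073289) (nat_lit 76) (nat_lit 5690768611371) (nat_lit 50) (nat_lit 5) (nat_lit 52) (nat_lit 5) (nat_lit 51) (nat_lit 5) (nat_lit 509) (nat_lit 478) (nat_lit 213)) (XT.lf (nat_lit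 0) (nat_lit 1906077527814) (nat_lit 228) (nat_lit 3559235419889) (nat_lit 76) (nat_lit 1495125518382) (nat_lit 48) (nat_lit 5) (nat_lit 51) (nat_lit 5) (nat_lit 49) (nat_lit 4) (nat_lit 510) (nat_lit 478) (nat_lit 212)))) (XT.nd (nat_lit 156) (nat_lit 152) (nat_lit 0) (XT.nd (nat_lit 78) (nat_lit 0) (nat_lit 0) (XT.lf (nat_lit 0) (nat_lit 794585769613) (nat_lit 76) (nat_lit 3204675022729) (nat_lit 152) (nat_lit 3318081609927) (nat_lit 47) (nat_lit 5) (nat_lit 48) (nat_lit 5) (nat_lit 49) (nat_lit 4) (nat_lit 511) (nat_lit 478) (nat_lit 211)) (XT.lf (nat_lit 0) (nat_lit 5699129525473) (nat_lit 76) (nat_lit 658084995967) (nat_lit 152) (nat_lit 1337798867636) (nat_lit 47) (nat_lit 5) (nat_lit 48) (nat_lit 5) (nat_lit 49) (nat_lit 4) (nat_lit 512) (nat_lit 478) (nat_lit 210))) (XT.nd (nat_lit 78) (nat_lit 0) (nat_lit 0) (XT.lf (nat_lit 0) (nat_lit 886306602990) (nat_lit 152) (nat_lit 5123034747018)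 (nat_lit 76) (nat_lit 2081978583546) (nat_lit 45) (nat_lit 5) (nat_lit 47) (nat_lit 5) (nat_lit 46) (nat_lit 4) (nat_lit 513) (nat_lit 478) (nat_lit 209)) (XT.lf (nat_lit 0) (nat_lit 3289146171180) (nat_lit 152) (nat_lit 125128445709) (nat_lit 76) (nat_lit 5096430019155) (nat_lit 45) (nat_lit 5) (nat_lit 47) (nat_lit 5) (nat_lit 46) (nat_lit 4) (nat_lit 514) (nat_lit 478) (nat_lit 208))))))))
noncomputable def xc233 : XT := (XT.nd (nat_lit 60450) (nat_lit 0) (nat_lit 1140) (XT.nd (nat_lit 1092) (nat_lit 304) (nat_lit 0) (XT.nd (nat_lit 546) (nat_lit 456) (nat_lit 0) (XT.nd (nat_lit 234) (nat_lit 304) (nat_lit 0) (XT.nd (nat_lit 78) (nat_lit 152) (nat_lit 0) (XT.lf (nat_lit 0) (nat_lit 5550256676552) (nat_lit 76) (nat_lit 467440034411) (nat_lit 152) (nat_lit 2935264699279) (nat_lit 44) (nat_lit 5) (nat_lit 45) (nat_lit 5) (nat_lit 46) (nat_lit 4) (nat_lit 515) (nat_lit 478) (nat_lit 207))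 (XT.nd (nat_lit 78) (nat_lit 76) (nat_lit 0) (XT.lf (nat_lit 0) (nat_lit 2306453830349) (nat_lit 76) (nat_lit 6782357043834) (nat_lit 76) (nat_lit 331845485773) (nat_lit 43) (nat_lit 4) (nat_lit 44) (nat_lit 5) (nat_lit 44) (nat_lit 4) (nat_lit 516) (nat_lit 478) (nat_lit 206)) (XT.lf (nat_lit 0) (nat_lit 2463389056794) (nat_lit 152) (nat_lit 1326662320315) (nat_lit 76) (nat_lit 6122336793981) (nat_lit 42) (nat_lit 5) (nat_lit 44) (nat_lit 5) (nat_lit 43) (nat_lit 4) (nat_lit 517) (nat_lit 478) (nat_lit 205)))) (XT.nd (nat_lit 156) (nat_lit 152) (nat_lit 0) (XT.nd (nat_lit 78) (nat_lit 76) (nat_lit 0) (XT.lf (nat_lit 0) (nat_lit 5174090714449) (nat_lit 76) (nat_lit 414660378462) (nat_lit 152) (nat_lit 4844062924683) (nat_lit 41) (nat_lit 5) (nat_lit 42) (nat_lit 5) (nat_lit 43) (nat_lit 4) (nat_lit 518) (nat_lit 478) (nat_lit 204)) (XT.lf (nat_lit 0) (nat_lit 1262914413841) (nat_lit 76)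 (nat_lit 7846516163612) (nat_lit 76) (nat_lit 1873820275521) (nat_lit 40) (nat_lit 4) (nat_lit 41) (nat_lit 5) (nat_lit 41) (nat_lit 4) (nat_lit 519) (nat_lit 478) (nat_lit 203))) (XT.nd (nat_lit 78) (nat_lit 76) (nat_lit 0) (XT.lf (nat_lit 0) (nat_lit 1425595444540) (nat_lit 152) (nat_lit 3007457363731) (nat_lit 76) (nat_lit 7129440101395) (nat_lit 39) (nat_lit 5) (nat_lit 41) (nat_lit 5) (nat_lit 40) (nat_lit 4) (nat_lit 520) (nat_lit 478) (nat_lit 202)) (XT.lf (nat_lit 0) (nat_lit 4414618475994) (nat_lit 76) (nat_lit 579282660848) (nat_lit 152) (nat_lit 7181785807116) (nat_lit 38) (nat_lit 5) (nat_lit 39) (nat_lit 5) (nat_lit 40) (nat_lit 4) (nat_lit 521) (nat_lit 478) (nat_lit 201))))) (XT.nd (nat_lit 234) (nat_lit 228) (nat_lit 0) (XT.nd (nat_lit 78) (nat_lit 228) (nat_lit 0) (XT.lf (nat_lit 0) (nat_lit 9018202485901) (nat_lit 152) (nat_lit 318163004270) (nat_lit 0) (nat_lit 3487928514713)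 (nat_lit 38) (nat_lit 5) (nat_lit 40) (nat_lit 4) (nat_lit 38) (nat_lit 4) (nat_lit 522) (nat_lit 478) (nat_lit 200)) (XT.nd (nat_lit 78) (nat_lit 76) (nat_lit 0) (XT.lf (nat_lit 0) (nat_lit 63249578629) (nat_lit 152) (nat_lit 5398714847847) (nat_lit 76) (nat_lit 8045888075858) (nat_lit 36) (nat_lit 5) (nat_lit 38) (nat_lit 5) (nat_lit 37) (nat_lit 4) (nat_lit 523) (nat_lit 478) (nat_lit 199)) (XT.lf (nat_lit 0) (nat_lit 3036109869236) (nat_lit 76) (nat_lit 1082343900392) (nat_lit 152) (nat_lit 10113177659785) (nat_lit 35) (nat_lit 5) (nat_lit 36) (nat_lit 5) (nat_lit 37) (nat_lit 4) (nat_lit 524) (nat_lit 478) (nat_lit 198)))) (XT.nd (nat_lit 156) (nat_lit 152) (nat_lit 0) (XT.nd (nat_lit 78) (nat_lit 76) (nat_lit 0) (XT.lf (nat_lit 0) (nat_lit 8737244744513) (nat_lit 152) (nat_lit 2640313593678) (nat_lit 0) (nat_lit 3616620696578) (nat_lit 35) (nat_lit 5) (nat_lit 37) (nat_lit 4) (nat_lit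 35) (nat_lit 4) (nat_lit 525) (nat_lit 478) (nat_lit 197)) (XT.lf (nat_lit 0) (nat_lit 6917225832018) (nat_lit 76) (nat_lit 7002785441276) (nat_lit 76) (nat_lit 1882161393187) (nat_lit 34) (nat_lit 4) (nat_lit 35) (nat_lit 5) (nat_lit 35) (nat_lit 4) (nat_lit 526) (nat_lit 478) (nat_lit 196))) (XT.nd (nat_lit 78) (nat_lit 0) (nat_lit 0) (XT.lf (nat_lit 0) (nat_lit 684496632891) (nat_lit 76) (nat_lit 2106426771494) (nat_lit 152) (nat_lit 13871170981301) (nat_lit 32) (nat_lit 5) (nat_lit 33) (nat_lit 5) (nat_lit 34) (nat_lit 4) (nat_lit 527) (nat_lit 478) (nat_lit 195)) (XT.lf (nat_lit 0) (nat_lit 8061927982728) (nat_lit 152) (nat_lit 6178300767598) (nat_lit 0) (nat_lit 3320609419429) (nat_lit 32) (nat_lit 5) (nat_lit 34) (nat_lit 4) (nat_lit 32) (nat_lit 4) (nat_lit 528) (nat_lit 478) (nat_lit 194)))))) (XT.nd (nat_lit 58812) (nat_lit 0) (nat_lit 4104) (XT.nd (nat_lit 234) (nat_lit 76) (nat_lit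 0) (XT.nd (nat_lit 78) (nat_lit 152) (nat_lit 0) (XT.lf (nat_lit 0) (nat_lit 4579302867933) (nat_lit 76) (nat_lit 9340154786914) (nat_lit 76) (nat_lit 4598836223501) (nat_lit 31) (nat_lit 4) (nat_lit 32) (nat_lit 5) (nat_lit 32) (nat_lit 4) (nat_lit 529) (nat_lit 478) (nat_lit 193)) (XT.nd (nat_lit 78) (nat_lit 76) (nat_lit 0) (XT.lf (nat_lit 0) (nat_lit 831878173634) (nat_lit 152) (nat_lit 3011011962356) (nat_lit 76) (nat_lit 15694257035756) (nat_lit 30) (nat_lit 5) (nat_lit 32) (nat_lit 5) (nat_lit 31) (nat_lit 4) (nat_lit 530) (nat_lit 478) (nat_lit 192)) (XT.lf (nat_lit 0) (nat_lit 6727300608198) (nat_lit 152) (nat_lit 11541164670661) (nat_lit 0) (nat_lit 2337190827074) (nat_lit 29) (nat_lit 5) (nat_lit 31) (nat_lit 4) (nat_lit 29) (nat_lit 4) (nat_lit 531) (nat_lit 478) (nat_lit 191)))) (XT.nd (nat_lit 58422) (nat_lit 0) (nat_lit 4408) (XT.nd (nat_lit 58344) (nat_lit 0) (nat_lit 4940)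 (XT.lf (nat_lit 0) (nat_lit 444496203876) (nat_lit 76) (nat_lit 12844830857153) (nat_lit 76) (nat_lit 8454721075946) (nat_lit 28) (nat_lit 4) (nat_lit 29) (nat_lit 5) (nat_lit 29) (nat_lit 4) (nat_lit 532) (nat_lit 478) (nat_lit 190)) (XT.lf (nat_lit 0) (nat_lit 875364129531) (nat_lit 532) (nat_lit 5839268856) (nat_lit 532) (nat_lit 5839268856) (nat_lit 93) (nat_lit 3) (nat_lit 100) (nat_lit 3) (nat_lit 100) (nat_lit 5) (nat_lit 479) (nat_lit 479) (nat_lit 242))) (XT.nd (nat_lit 78) (nat_lit 532) (nat_lit 0) (XT.lf (nat_lit 76) (nat_lit 917726008583) (nat_lit 0) (nat_lit 925102733054) (nat_lit 532) (nat_lit 454298052) (nat_lit 94) (nat_lit 5) (nat_lit 93) (nat_lit 3) (nat_lit 100) (nat_lit 5) (nat_lit 480) (nat_lit 479) (nat_lit 241)) (XT.lf (nat_lit 76) (nat_lit 3751489206) (nat_lit 0) (nat_lit 19732420373) (nat_lit 608) (nat_lit 1894452509442) (nat_lit 87) (nat_lit 5) (nat_lit 86) (nat_lit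 5) (nat_lit 94) (nat_lit 5) (nat_lit 481) (nat_lit 479) (nat_lit 240))))) (XT.nd (nat_lit 234) (nat_lit 380) (nat_lit 0) (XT.nd (nat_lit 78) (nat_lit 0) (nat_lit 0) (XT.lf (nat_lit 0) (nat_lit 98317852613) (nat_lit 532) (nat_lit 960206275972) (nat_lit 608) (nat_lit 936116578304) (nat_lit 87) (nat_lit 5) (nat_lit 94) (nat_lit 5) (nat_lit 95) (nat_lit 5) (nat_lit 482) (nat_lit 479) (nat_lit 239)) (XT.nd (nat_lit 78) (nat_lit 0) (nat_lit 76) (XT.lf (nat_lit 76) (nat_lit 73241999986) (nat_lit 0) (nat_lit 108170511602) (nat_lit 608) (nat_lit 1895886906159) (nat_lit 88) (nat_lit 5) (nat_lit 87) (nat_lit 5) (nat_lit 95) (nat_lit 5) (nat_lit 483) (nat_lit 479) (nat_lit 238)) (XT.lf (nat_lit 0) (nat_lit 320173404330) (nat_lit 532) (nat_lit 943261529283) (nat_lit 608) (nat_lit 899214398978) (nat_lit 88) (nat_lit 5) (nat_lit 95) (nat_lit 5) (nat_lit 96) (nat_lit 5) (nat_lit 484) (nat_lit 479) (nat_lit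 237)))) (XT.nd (nat_lit 156) (nat_lit 456) (nat_lit 0) (XT.nd (nat_lit 78) (nat_lit 0) (nat_lit 76) (XT.lf (nat_lit 76) (nat_lit 210098377045) (nat_lit 0) (nat_lit 267799284615) (nat_lit 608) (nat_lit 1776300579507) (nat_lit 89) (nat_lit 5) (nat_lit 88) (nat_lit 5) (nat_lit 96) (nat_lit 5) (nat_lit 485) (nat_lit 479) (nat_lit 236)) (XT.lf (nat_lit 0) (nat_lit 694120268529) (nat_lit 532) (nat_lit 861726602173) (nat_lit 76) (nat_lit 793553759013) (nat_lit 89) (nat_lit 5) (nat_lit 96) (nat_lit 5) (nat_lit 90) (nat_lit 5) (nat_lit 486) (nat_lit 479) (nat_lit 235))) (XT.nd (nat_lit 78) (nat_lit 0) (nat_lit 0) (XT.lf (nat_lit 0) (nat_lit 429780031702) (nat_lit 532) (nat_lit 515152696584) (nat_lit 608) (nat_lit 1505903117512) (nat_lit 82) (nat_lit 5) (nat_lit 89) (nat_lit 5) (nat_lit 90) (nat_lit 5) (nat_lit 487) (nat_lit 479) (nat_lit 234)) (XT.lf (nat_lit 0) (nat_lit 1254624876207) (nat_lit 608)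 (nat_lit 700140198432) (nat_lit 76) (nat_lit 602515629219) (nat_lit 82) (nat_lit 5) (nat_lit 90) (nat_lit 5) (nat_lit 83) (nat_lit 5) (nat_lit 488) (nat_lit 479) (nat_lit 233))))))) (XT.nd (nat_lit 1092) (nat_lit 1292) (nat_lit 0) (XT.nd (nat_lit 546) (nat_lit 684) (nat_lit 0) (XT.nd (nat_lit 234) (nat_lit 532) (nat_lit 0) (XT.nd (nat_lit 78) (nat_lit 228) (nat_lit 0) (XT.lf (nat_lit 0) (nat_lit 750616976934) (nat_lit 228) (nat_lit 869908363726) (nat_lit 304) (nat_lit 1049201174327) (nat_lit 79) (nat_lit 5) (nat_lit 82) (nat_lit 5) (nat_lit 83) (nat_lit 5) (nat_lit 489) (nat_lit 479) (nat_lit 232)) (XT.nd (nat_lit 78) (nat_lit 228) (nat_lit 0) (XT.lf (nat_lit 0) (nat_lit 2042594916950) (nat_lit 304) (nat_lit 440138228615) (nat_lit 76) (nat_lit 306283079467) (nat_lit 79) (nat_lit 5) (nat_lit 83) (nat_lit 5) (nat_lit 80) (nat_lit 5) (nat_lit 490) (nat_lit 479) (nat_lit 231)) (XT.lf (nat_lit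 0) (nat_lit 1194299457770) (nat_lit 228) (nat_lit 1355448553658) (nat_lit 304) (nat_lit 363995664287) (nat_lit 76) (nat_lit 5) (nat_lit 79) (nat_lit 5) (nat_lit 80) (nat_lit 5) (nat_lit 491) (nat_lit 479) (nat_lit 230)))) (XT.nd (nat_lit 156) (nat_lit 228) (nat_lit 0) (XT.nd (nat_lit 78) (nat_lit 228) (nat_lit 0) (XT.lf (nat_lit 0) (nat_lit 58918384148) (nat_lit 304) (nat_lit 64454985499) (nat_lit 76) (nat_lit 2923993891778) (nat_lit 75) (nat_lit 5) (nat_lit 79) (nat_lit 5) (nat_lit 76) (nat_lit 5) (nat_lit 492) (nat_lit 479) (nat_lit 229)) (XT.lf (nat_lit 0) (nat_lit 569786672018) (nat_lit 304) (nat_lit 1414153448532) (nat_lit 76) (nat_lit 1201081351945) (nat_lit 72) (nat_lit 5) (nat_lit 76) (nat_lit 5) (nat_lit 73) (nat_lit 5) (nat_lit 493) (nat_lit 479) (nat_lit 228))) (XT.nd (nat_lit 78) (nat_lit 0) (nat_lit 0) (XT.lf (nat_lit 0) (nat_lit 441995581374) (nat_lit 228) (nat_lit 695171436021)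 (nat_lit 304) (nat_lit 2195269595497) (nat_lit 69) (nat_lit 5) (nat_lit 72) (nat_lit 5) (nat_lit 73) (nat_lit 5) (nat_lit 494) (nat_lit 479) (nat_lit 227)) (XT.lf (nat_lit 0) (nat_lit 1806363170147) (nat_lit 304) (nat_lit 979250954698) (nat_lit 76) (nat_lit 701516809297) (nat_lit 69) (nat_lit 5) (nat_lit 73) (nat_lit 5) (nat_lit 70) (nat_lit 5) (nat_lit 495) (nat_lit 479) (nat_lit 226))))) (XT.nd (nat_lit 234) (nat_lit 304) (nat_lit 0) (XT.nd (nat_lit 78) (nat_lit 228) (nat_lit 0) (XT.lf (nat_lit 0) (nat_lit 1122952561326) (nat_lit 152) (nat_lit 1451205890035) (nat_lit 228) (nat_lit 1076437274833) (nat_lit 67) (nat_lit 5) (nat_lit 69) (nat_lit 5) (nat_lit 70) (nat_lit 5) (nat_lit 496) (nat_lit 479) (nat_lit 225)) (XT.nd (nat_lit 78) (nat_lit 228) (nat_lit 0) (XT.lf (nat_lit 0) (nat_lit 3430605668804) (nat_lit 228) (nat_lit 376426376128) (nat_lit 76) (nat_lit 17927391578) (nat_lit 67) (nat_lit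 5) (nat_lit 70) (nat_lit 5) (nat_lit 68) (nat_lit 5) (nat_lit 497) (nat_lit 479) (nat_lit 224)) (XT.lf (nat_lit 0) (nat_lit 413435538606) (nat_lit 228) (nat_lit 2007127878381) (nat_lit 76) (nat_lit 1584989273947) (nat_lit 64) (nat_lit 5) (nat_lit 67) (nat_lit 5) (nat_lit 65) (nat_lit 5) (nat_lit 498) (nat_lit 479) (nat_lit 223)))) (XT.nd (nat_lit 156) (nat_lit 152) (nat_lit 0) (XT.nd (nat_lit 78) (nat_lit 0) (nat_lit 0) (XT.lf (nat_lit 0) (nat_lit 394106272176) (nat_lit 152) (nat_lit 890474128603) (nat_lit 228) (nat_lit 2913590547909) (nat_lit 62) (nat_lit 5) (nat_lit 64) (nat_lit 5) (nat_lit 65) (nat_lit 5) (nat_lit 499) (nat_lit 479) (nat_lit 222)) (XT.lf (nat_lit 0) (nat_lit 2300047352928) (nat_lit 228) (nat_lit 1319974166361) (nat_lit 76) (nat_lit 780206707695) (nat_lit 62) (nat_lit 5) (nat_lit 65) (nat_lit 5) (nat_lit 63) (nat_lit 5) (nat_lit 500) (nat_lit 479) (nat_lit 221))) (XT.nd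 (nat_lit 78) (nat_lit 0) (nat_lit 0) (XT.lf (nat_lit 0) (nat_lit 1410261370818) (nat_lit 152) (nat_lit 2043536307824) (nat_lit 228) (nat_lit 1160088727509) (nat_lit 60) (nat_lit 5) (nat_lit 62) (nat_lit 5) (nat_lit 63) (nat_lit 5) (nat_lit 501) (nat_lit 479) (nat_lit 220)) (XT.lf (nat_lit 0) (nat_lit 4433983850436) (nat_lit 152) (nat_lit 301954612268) (nat_lit 228) (nat_lit 105811542365) (nat_lit 60) (nat_lit 5) (nat_lit 62) (nat_lit 5) (nat_lit 63) (nat_lit 5) (nat_lit 502) (nat_lit 479) (nat_lit 219)))))) (XT.nd (nat_lit 546) (nat_lit 608) (nat_lit 0) (XT.nd (nat_lit 234) (nat_lit 380) (nat_lit 0) (XT.nd (nat_lit 78) (nat_lit 152) (nat_lit 0) (XT.lf (nat_lit 0) (nat_lit 1086954418942) (nat_lit 152) (nat_lit 2397791226229) (nat_lit 76) (nat_lit 1592644975998) (nat_lit 58) (nat_lit 5) (nat_lit 60) (nat_lit 5) (nat_lit 59) (nat_lit 5) (nat_lit 503) (nat_lit 479) (nat_lit 218)) (XT.nd (nat_lit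 78) (nat_lit 0) (nat_lit 0) (XT.lf (nat_lit 0) (nat_lit 731884563053) (nat_lit 152) (nat_lit 1674423975166) (nat_lit 228) (nat_lit 2922403403983) (nat_lit 56) (nat_lit 5) (nat_lit 58) (nat_lit 5) (nat_lit 59) (nat_lit 5) (nat_lit 504) (nat_lit 479) (nat_lit 217)) (XT.lf (nat_lit 0) (nat_lit 3905225106603) (nat_lit 228) (nat_lit 1355049512572) (nat_lit 76) (nat_lit 333943220177) (nat_lit 56) (nat_lit 5) (nat_lit 59) (nat_lit 5) (nat_lit 57) (nat_lit 4) (nat_lit 505) (nat_lit 479) (nat_lit 216)))) (XT.nd (nat_lit 156) (nat_lit 228) (nat_lit 0) (XT.nd (nat_lit 78) (nat_lit 76) (nat_lit 0) (XT.lf (nat_lit 0) (nat_lit 2213297137339) (nat_lit 76) (nat_lit 3407479243806) (nat_lit 152) (nat_lit 252450116672) (nat_lit 55) (nat_lit 5) (nat_lit 56) (nat_lit 5) (nat_lit 57) (nat_lit 4) (nat_lit 506) (nat_lit 479) (nat_lit 215)) (XT.lf (nat_lit 0) (nat_lit 1272045649913) (nat_lit 152) (nat_lit 59621195101)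 (nat_lit 76) (nat_lit 4837348752598) (nat_lit 54) (nat_lit 5) (nat_lit 56) (nat_lit 5) (nat_lit 55) (nat_lit 5) (nat_lit 507) (nat_lit 479) (nat_lit 214))) (XT.nd (nat_lit 78) (nat_lit 76) (nat_lit 0) (XT.lf (nat_lit 0) (nat_lit 3026199854547) (nat_lit 228) (nat_lit 2481354059461) (nat_lit 76) (nat_lit 970682328498) (nat_lit 52) (nat_lit 5) (nat_lit 55) (nat_lit 5) (nat_lit 53) (nat_lit 4) (nat_lit 508) (nat_lit 479) (nat_lit 213)) (XT.lf (nat_lit 0) (nat_lit 1615410709110) (nat_lit 76) (nat_lit 3380387592267) (nat_lit 152) (nat_lit 1810387285148) (nat_lit 51) (nat_lit 5) (nat_lit 52) (nat_lit 5) (nat_lit 53) (nat_lit 4) (nat_lit 509) (nat_lit 479) (nat_lit 212))))) (XT.nd (nat_lit 312) (nat_lit 304) (nat_lit 0) (XT.nd (nat_lit 156) (nat_lit 76) (nat_lit 0) (XT.nd (nat_lit 78) (nat_lit 152) (nat_lit 0) (XT.lf (nat_lit 0) (nat_lit 34071772926) (nat_lit 152) (nat_lit 974772422858) (nat_lit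 76) (nat_lit 6146030106809) (nat_lit 50) (nat_lit 5) (nat_lit 52) (nat_lit 5) (nat_lit 51) (nat_lit 5) (nat_lit 510) (nat_lit 479) (nat_lit 211)) (XT.lf (nat_lit 0) (nat_lit 2058563738964) (nat_lit 228) (nat_lit 3843974237070) (nat_lit 76) (nat_lit 1614735566623) (nat_lit 48) (nat_lit 5) (nat_lit 51) (nat_lit 5) (nat_lit 49) (nat_lit 4) (nat_lit 511) (nat_lit 479) (nat_lit 210))) (XT.nd (nat_lit 78) (nat_lit 0) (nat_lit 0) (XT.lf (nat_lit 0) (nat_lit 858152647177) (nat_lit 76) (nat_lit 3461049017201) (nat_lit 152) (nat_lit 3583528129380) (nat_lit 47) (nat_lit 5) (nat_lit 48) (nat_lit 5) (nat_lit 49) (nat_lit 4) (nat_lit 512) (nat_lit 479) (nat_lit 209)) (XT.lf (nat_lit 0) (nat_lit 6155059902321) (nat_lit 76) (nat_lit 710731788842) (nat_lit 152) (nat_lit 1444822768398) (nat_lit 47) (nat_lit 5) (nat_lit 48) (nat_lit 5) (nat_lit 49) (nat_lit 4) (nat_lit 513) (nat_lit 479) (nat_lit 208)))) (XT.nd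 (nat_lit 156) (nat_lit 152) (nat_lit 0) (XT.nd (nat_lit 78) (nat_lit 0) (nat_lit 0) (XT.lf (nat_lit 0) (nat_lit 957211139360) (nat_lit 152) (nat_lit 5532877511450) (nat_lit 76) (nat_lit 2248536876777) (nat_lit 45) (nat_lit 5) (nat_lit 47) (nat_lit 5) (nat_lit 46) (nat_lit 4) (nat_lit 514) (nat_lit 479) (nat_lit 207)) (XT.lf (nat_lit 0) (nat_lit 3552277872403) (nat_lit 152) (nat_lit 135138707172) (nat_lit 76) (nat_lit 5504144426749) (nat_lit 45) (nat_lit 5) (nat_lit 47) (nat_lit 5) (nat_lit 46) (nat_lit 4) (nat_lit 515) (nat_lit 479) (nat_lit 206))) (XT.nd (nat_lit 78) (nat_lit 76) (nat_lit 0) (XT.lf (nat_lit 0) (nat_lit 5994277224510) (nat_lit 76) (nat_lit 504835230634) (nat_lit 152) (nat_lit 3170085867333) (nat_lit 44) (nat_lit 5) (nat_lit 45) (nat_lit 5) (nat_lit 46) (nat_lit 4) (nat_lit 516) (nat_lit 479) (nat_lit 205)) (XT.lf (nat_lit 0) (nat_lit 2490970150677) (nat_lit 76) (nat_lit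 7324945600683) (nat_lit 76) (nat_lit 358393116814) (nat_lit 43) (nat_lit 4) (nat_lit 44) (nat_lit 5) (nat_lit 44) (nat_lit 4) (nat_lit 517) (nat_lit 479) (nat_lit 204))))))))
noncomputable def xc234 : XT := (XT.nd (nat_lit 60528) (nat_lit 0) (nat_lit 836) (XT.nd (nat_lit 1092) (nat_lit 76) (nat_lit 0) (XT.nd (nat_lit 546) (nat_lit 456) (nat_lit 0) (XT.nd (nat_lit 234) (nat_lit 304) (nat_lit 0) (XT.nd (nat_lit 78) (nat_lit 152) (nat_lit 0) (XT.lf (nat_lit 0) (nat_lit 2660460188217) (nat_lit 152) (nat_lit 1432795292708) (nat_lit 76) (nat_lit 6612123743301) (nat_lit 42) (nat_lit 5) (nat_lit 44) (nat_lit 5) (nat_lit 43) (nat_lit 4) (nat_lit 518) (nat_lit 479) (nat_lit 203)) (XT.nd (nat_lit 78) (nat_lit 76) (nat_lit 0) (XT.lf (nat_lit 0) (nat_lit 5588017984503) (nat_lit 76) (nat_lit 447833202521) (nat_lit 152) (nat_lit 5231587951443) (nat_lit 41) (nat_lit 5) (nat_lit 42) (nat_lit 5) (nat_lit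 43) (nat_lit 4) (nat_lit 519) (nat_lit 479) (nat_lit 202)) (XT.lf (nat_lit 0) (nat_lit 1363947579895) (nat_lit 76) (nat_lit 8474237450390) (nat_lit 76) (nat_lit 2023725890397) (nat_lit 40) (nat_lit 4) (nat_lit 41) (nat_lit 5) (nat_lit 41) (nat_lit 4) (nat_lit 520) (nat_lit 479) (nat_lit 201)))) (XT.nd (nat_lit 156) (nat_lit 152) (nat_lit 0) (XT.nd (nat_lit 78) (nat_lit 76) (nat_lit 0) (XT.lf (nat_lit 0) (nat_lit 1539643086407) (nat_lit 152) (nat_lit 3248053940510) (nat_lit 76) (nat_lit 7699795315018) (nat_lit 39) (nat_lit 5) (nat_lit 41) (nat_lit 5) (nat_lit 40) (nat_lit 4) (nat_lit 521) (nat_lit 479) (nat_lit 200)) (XT.lf (nat_lit 0) (nat_lit 4767787966082) (nat_lit 76) (nat_lit 625625267834) (nat_lit 152) (nat_lit 7756328665069) (nat_lit 38) (nat_lit 5) (nat_lit 39) (nat_lit 5) (nat_lit 40) (nat_lit 4) (nat_lit 522) (nat_lit 479) (nat_lit 199))) (XT.nd (nat_lit 78) (nat_lit 152) (nat_lit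 0) (XT.lf (nat_lit 0) (nat_lit 9739658690576) (nat_lit 152) (nat_lit 343616033170) (nat_lit 0) (nat_lit 3766962801064) (nat_lit 38) (nat_lit 5) (nat_lit 40) (nat_lit 4) (nat_lit 38) (nat_lit 4) (nat_lit 523) (nat_lit 479) (nat_lit 198)) (XT.lf (nat_lit 0) (nat_lit 68309550708) (nat_lit 152) (nat_lit 5830612024218) (nat_lit 76) (nat_lit 8689559127132) (nat_lit 36) (nat_lit 5) (nat_lit 38) (nat_lit 5) (nat_lit 37) (nat_lit 4) (nat_lit 524) (nat_lit 479) (nat_lit 197))))) (XT.nd (nat_lit 234) (nat_lit 304) (nat_lit 0) (XT.nd (nat_lit 78) (nat_lit 76) (nat_lit 0) (XT.lf (nat_lit 0) (nat_lit 3278998669942) (nat_lit 76) (nat_lit 1168931406884) (nat_lit 152) (nat_lit 10922231866489) (nat_lit 35) (nat_lit 5) (nat_lit 36) (nat_lit 5) (nat_lit 37) (nat_lit 4) (nat_lit 525) (nat_lit 479) (nat_lit 196)) (XT.nd (nat_lit 78) (nat_lit 76) (nat_lit 0) (XT.lf (nat_lit 0) (nat_lit 9436224329408) (nat_lit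 152) (nat_lit 2851538670539) (nat_lit 0) (nat_lit 3905950357176) (nat_lit 35) (nat_lit 5) (nat_lit 37) (nat_lit 4) (nat_lit 35) (nat_lit 4) (nat_lit 526) (nat_lit 479) (nat_lit 195)) (XT.lf (nat_lit 0) (nat_lit 7470603908944) (nat_lit 76) (nat_lit 7563008271403) (nat_lit 76) (nat_lit 2032734299038) (nat_lit 34) (nat_lit 4) (nat_lit 35) (nat_lit 5) (nat_lit 35) (nat_lit 4) (nat_lit 527) (nat_lit 479) (nat_lit 194)))) (XT.nd (nat_lit 156) (nat_lit 152) (nat_lit 0) (XT.nd (nat_lit 78) (nat_lit 0) (nat_lit 0) (XT.lf (nat_lit 0) (nat_lit 739256373897) (nat_lit 76) (nat_lit 2274940908017) (nat_lit 152) (nat_lit 14980864654213) (nat_lit 32) (nat_lit 5) (nat_lit 33) (nat_lit 5) (nat_lit 34) (nat_lit 4) (nat_lit 528) (nat_lit 479) (nat_lit 193)) (XT.lf (nat_lit 0) (nat_lit 8706882226257) (nat_lit 152) (nat_lit 6672564819132) (nat_lit 0) (nat_lit 3586258177554) (nat_lit 32) (nat_lit 5) (nat_lit 34)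 (nat_lit 4) (nat_lit 32) (nat_lit 4) (nat_lit 529) (nat_lit 479) (nat_lit 192))) (XT.nd (nat_lit 78) (nat_lit 76) (nat_lit 0) (XT.lf (nat_lit 0) (nat_lit 4945647106992) (nat_lit 76) (nat_lit 10087367165021) (nat_lit 76) (nat_lit 4966743116221) (nat_lit 31) (nat_lit 4) (nat_lit 32) (nat_lit 5) (nat_lit 32) (nat_lit 4) (nat_lit 530) (nat_lit 479) (nat_lit 191)) (XT.lf (nat_lit 0) (nat_lit 898428432064) (nat_lit 152) (nat_lit 3251892910195) (nat_lit 76) (nat_lit 16949797602864) (nat_lit 30) (nat_lit 5) (nat_lit 32) (nat_lit 5) (nat_lit 31) (nat_lit 4) (nat_lit 531) (nat_lit 479) (nat_lit 190)))))) (XT.nd (nat_lit 58890) (nat_lit 0) (nat_lit 3572) (XT.nd (nat_lit 58578) (nat_lit 0) (nat_lit 4332) (XT.nd (nat_lit 58422) (nat_lit 0) (nat_lit 4864) (XT.lf (nat_lit 0) (nat_lit 7265484661380) (nat_lit 152) (nat_lit 12464457835150) (nat_lit 0) (nat_lit 2524166097516) (nat_lit 29) (nat_lit 5) (nat_lit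 31) (nat_lit 4) (nat_lit 29) (nat_lit 4) (nat_lit 532) (nat_lit 479) (nat_lit 189)) (XT.nd (nat_lit 78) (nat_lit 0) (nat_lit 0) (XT.lf (nat_lit 0) (nat_lit 945393279055) (nat_lit 532) (nat_lit 6306400016) (nat_lit 532) (nat_lit 6306400016) (nat_lit 93) (nat_lit 3) (nat_lit 100) (nat_lit 3) (nat_lit 100) (nat_lit 5) (nat_lit 480) (nat_lit 480) (nat_lit 240)) (XT.lf (nat_lit 76) (nat_lit 991144109442) (nat_lit 0) (nat_lit 999110967494) (nat_lit 532) (nat_lit 490603045) (nat_lit 94) (nat_lit 5) (nat_lit 93) (nat_lit 3) (nat_lit 100) (nat_lit 5) (nat_lit 481) (nat_lit 480) (nat_lit 239)))) (XT.nd (nat_lit 156) (nat_lit 0) (nat_lit 76) (XT.nd (nat_lit 78) (nat_lit 0) (nat_lit 76) (XT.lf (nat_lit 76) (nat_lit 4051629903) (nat_lit 0) (nat_lit 21311027135) (nat_lit 608) (nat_lit 2046008672725) (nat_lit 87) (nat_lit 5) (nat_lit 86) (nat_lit 5) (nat_lit 94) (nat_lit 5) (nat_lit 482) (nat_lit 480)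 (nat_lit 238)) (XT.lf (nat_lit 0) (nat_lit 106183312652) (nat_lit 532) (nat_lit 1037022755220) (nat_lit 608) (nat_lit 1011005893017) (nat_lit 87) (nat_lit 5) (nat_lit 94) (nat_lit 5) (nat_lit 95) (nat_lit 5) (nat_lit 483) (nat_lit 480) (nat_lit 237))) (XT.nd (nat_lit 78) (nat_lit 0) (nat_lit 76) (XT.lf (nat_lit 76) (nat_lit 79101382236) (nat_lit 0) (nat_lit 116824160286) (nat_lit 608) (nat_lit 2047557826241) (nat_lit 88) (nat_lit 5) (nat_lit 87) (nat_lit 5) (nat_lit 95) (nat_lit 5) (nat_lit 484) (nat_lit 480) (nat_lit 236)) (XT.lf (nat_lit 0) (nat_lit 345787304288) (nat_lit 532) (nat_lit 1018722428623) (nat_lit 608) (nat_lit 971151544074) (nat_lit 88) (nat_lit 5) (nat_lit 95) (nat_lit 5) (nat_lit 96) (nat_lit 5) (nat_lit 485) (nat_lit 480) (nat_lit 235))))) (XT.nd (nat_lit 234) (nat_lit 456) (nat_lit 0) (XT.nd (nat_lit 78) (nat_lit 456) (nat_lit 0) (XT.lf (nat_lit 76) (nat_lit 226906269628)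 (nat_lit 0) (nat_lit 289223231070) (nat_lit 608) (nat_lit 1918404597670) (nat_lit 89) (nat_lit 5) (nat_lit 88) (nat_lit 5) (nat_lit 96) (nat_lit 5) (nat_lit 486) (nat_lit 480) (nat_lit 234)) (XT.nd (nat_lit 78) (nat_lit 532) (nat_lit 0) (XT.lf (nat_lit 0) (nat_lit 749649914101) (nat_lit 532) (nat_lit 930664707569) (nat_lit 76) (nat_lit 857038056491) (nat_lit 89) (nat_lit 5) (nat_lit 96) (nat_lit 5) (nat_lit 90) (nat_lit 5) (nat_lit 487) (nat_lit 480) (nat_lit 233)) (XT.lf (nat_lit 0) (nat_lit 464162456439) (nat_lit 532) (nat_lit 556364912949) (nat_lit 608) (nat_lit 1626375342244) (nat_lit 82) (nat_lit 5) (nat_lit 89) (nat_lit 5) (nat_lit 90) (nat_lit 5) (nat_lit 488) (nat_lit 480) (nat_lit 232)))) (XT.nd (nat_lit 156) (nat_lit 228) (nat_lit 0) (XT.nd (nat_lit 78) (nat_lit 228) (nat_lit 0) (XT.lf (nat_lit 0) (nat_lit 1354994887437) (nat_lit 608) (nat_lit 756151392042) (nat_lit 76) (nat_lit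 650716878995) (nat_lit 82) (nat_lit 5) (nat_lit 90) (nat_lit 5) (nat_lit 83) (nat_lit 5) (nat_lit 489) (nat_lit 480) (nat_lit 231)) (XT.lf (nat_lit 0) (nat_lit 810666356789) (nat_lit 228) (nat_lit 939501031213) (nat_lit 304) (nat_lit 1133137246574) (nat_lit 79) (nat_lit 5) (nat_lit 82) (nat_lit 5) (nat_lit 83) (nat_lit 5) (nat_lit 490) (nat_lit 480) (nat_lit 230))) (XT.nd (nat_lit 78) (nat_lit 228) (nat_lit 0) (XT.lf (nat_lit 0) (nat_lit 2206002528944) (nat_lit 304) (nat_lit 475349265357) (nat_lit 76) (nat_lit 330785727242) (nat_lit 79) (nat_lit 5) (nat_lit 83) (nat_lit 5) (nat_lit 80) (nat_lit 5) (nat_lit 491) (nat_lit 480) (nat_lit 229)) (XT.lf (nat_lit 0) (nat_lit 1289843435394) (nat_lit 228) (nat_lit 1463884434711) (nat_lit 304) (nat_lit 393115298245) (nat_lit 76) (nat_lit 5) (nat_lit 79) (nat_lit 5) (nat_lit 80) (nat_lit 5) (nat_lit 492) (nat_lit 480) (nat_lit 228))))))) (XT.nd (nat_lit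 1092) (nat_lit 1216) (nat_lit 0) (XT.nd (nat_lit 546) (nat_lit 608) (nat_lit 0) (XT.nd (nat_lit 234) (nat_lit 380) (nat_lit 0) (XT.nd (nat_lit 78) (nat_lit 456) (nat_lit 0) (XT.lf (nat_lit 0) (nat_lit 63631871755) (nat_lit 304) (nat_lit 69611364002) (nat_lit 76) (nat_lit 3157913405230) (nat_lit 75) (nat_lit 5) (nat_lit 79) (nat_lit 5) (nat_lit 76) (nat_lit 5) (nat_lit 493) (nat_lit 480) (nat_lit 227)) (XT.nd (nat_lit 78) (nat_lit 228) (nat_lit 0) (XT.lf (nat_lit 0) (nat_lit 615369621971) (nat_lit 304) (nat_lit 1527285703393) (nat_lit 76) (nat_lit 1297167863634) (nat_lit 72) (nat_lit 5) (nat_lit 76) (nat_lit 5) (nat_lit 73) (nat_lit 5) (nat_lit 494) (nat_lit 480) (nat_lit 226)) (XT.lf (nat_lit 0) (nat_lit 477355248374) (nat_lit 228) (nat_lit 750785145898) (nat_lit 304) (nat_lit 2370891146412) (nat_lit 69) (nat_lit 5) (nat_lit 72) (nat_lit 5) (nat_lit 73) (nat_lit 5) (nat_lit 495) (nat_lit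 480) (nat_lit 225)))) (XT.nd (nat_lit 156) (nat_lit 228) (nat_lit 0) (XT.nd (nat_lit 78) (nat_lit 152) (nat_lit 0) (XT.lf (nat_lit 0) (nat_lit 1950872238208) (nat_lit 304) (nat_lit 1057591011065) (nat_lit 76) (nat_lit 757638158443) (nat_lit 69) (nat_lit 5) (nat_lit 73) (nat_lit 5) (nat_lit 70) (nat_lit 5) (nat_lit 496) (nat_lit 480) (nat_lit 224)) (XT.lf (nat_lit 0) (nat_lit 1212788785734) (nat_lit 152) (nat_lit 1567302355583) (nat_lit 228) (nat_lit 1162552241862) (nat_lit 67) (nat_lit 5) (nat_lit 69) (nat_lit 5) (nat_lit 70) (nat_lit 5) (nat_lit 497) (nat_lit 480) (nat_lit 223))) (XT.nd (nat_lit 78) (nat_lit 228) (nat_lit 0) (XT.lf (nat_lit 0) (nat_lit 3705054135256) (nat_lit 228) (nat_lit 406540467260) (nat_lit 76) (nat_lit 19361587878) (nat_lit 67) (nat_lit 5) (nat_lit 70) (nat_lit 5) (nat_lit 68) (nat_lit 5) (nat_lit 498) (nat_lit 480) (nat_lit 222)) (XT.lf (nat_lit 0) (nat_lit 446510394451)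 (nat_lit 228) (nat_lit 2167698089500) (nat_lit 76) (nat_lit 1711788421235) (nat_lit 64) (nat_lit 5) (nat_lit 67) (nat_lit 5) (nat_lit 65) (nat_lit 5) (nat_lit 499) (nat_lit 480) (nat_lit 221))))) (XT.nd (nat_lit 234) (nat_lit 304) (nat_lit 0) (XT.nd (nat_lit 78) (nat_lit 152) (nat_lit 0) (XT.lf (nat_lit 0) (nat_lit 425634792617) (nat_lit 152) (nat_lit 961712052486) (nat_lit 228) (nat_lit 3146677778499) (nat_lit 62) (nat_lit 5) (nat_lit 64) (nat_lit 5) (nat_lit 65) (nat_lit 5) (nat_lit 500) (nat_lit 480) (nat_lit 220)) (XT.nd (nat_lit 78) (nat_lit 152) (nat_lit 0) (XT.lf (nat_lit 0) (nat_lit 2484051152658) (nat_lit 228) (nat_lit 1425572081620) (nat_lit 76) (nat_lit 842623249945) (nat_lit 62) (nat_lit 5) (nat_lit 65) (nat_lit 5) (nat_lit 63) (nat_lit 5) (nat_lit 501) (nat_lit 480) (nat_lit 219)) (XT.lf (nat_lit 0) (nat_lit 1523082298076) (nat_lit 152) (nat_lit 2207019205924) (nat_lit 228)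 (nat_lit 1252895813757) (nat_lit 60) (nat_lit 5) (nat_lit 62) (nat_lit 5) (nat_lit 63) (nat_lit 5) (nat_lit 502) (nat_lit 480) (nat_lit 218)))) (XT.nd (nat_lit 156) (nat_lit 152) (nat_lit 0) (XT.nd (nat_lit 78) (nat_lit 152) (nat_lit 0) (XT.lf (nat_lit 0) (nat_lit 4788702574761) (nat_lit 152) (nat_lit 326110975207) (nat_lit 228) (nat_lit 114276454686) (nat_lit 60) (nat_lit 5) (nat_lit 62) (nat_lit 5) (nat_lit 63) (nat_lit 5) (nat_lit 503) (nat_lit 480) (nat_lit 217)) (XT.lf (nat_lit 0) (nat_lit 1173910782739) (nat_lit 152) (nat_lit 2589614507250) (nat_lit 76) (nat_lit 1720056580051) (nat_lit 58) (nat_lit 5) (nat_lit 60) (nat_lit 5) (nat_lit 59) (nat_lit 5) (nat_lit 504) (nat_lit 480) (nat_lit 216))) (XT.nd (nat_lit 78) (nat_lit 0) (nat_lit 0) (XT.lf (nat_lit 0) (nat_lit 790435344742) (nat_lit 152) (nat_lit 1808377886454) (nat_lit 228) (nat_lit 3156195665587) (nat_lit 56) (nat_lit 5) (nat_lit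 58) (nat_lit 5) (nat_lit 59) (nat_lit 5) (nat_lit 505) (nat_lit 480) (nat_lit 215)) (XT.lf (nat_lit 0) (nat_lit 4217643124466) (nat_lit 228) (nat_lit 1463453457579) (nat_lit 76) (nat_lit 360658683706) (nat_lit 56) (nat_lit 5) (nat_lit 59) (nat_lit 5) (nat_lit 57) (nat_lit 4) (nat_lit 506) (nat_lit 480) (nat_lit 214)))))) (XT.nd (nat_lit 546) (nat_lit 532) (nat_lit 0) (XT.nd (nat_lit 234) (nat_lit 380) (nat_lit 0) (XT.nd (nat_lit 78) (nat_lit 228) (nat_lit 0) (XT.lf (nat_lit 0) (nat_lit 2390360923920) (nat_lit 76) (nat_lit 3680077576736) (nat_lit 152) (nat_lit 272646116266) (nat_lit 55) (nat_lit 5) (nat_lit 56) (nat_lit 5) (nat_lit 57) (nat_lit 4) (nat_lit 507) (nat_lit 480) (nat_lit 213)) (XT.nd (nat_lit 78) (nat_lit 152) (nat_lit 0) (XT.lf (nat_lit 0) (nat_lit 1373809310474) (nat_lit 152) (nat_lit 64390875820) (nat_lit 76) (nat_lit 5224336658441) (nat_lit 54) (nat_lit 5) (nat_lit 56) (nat_lit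 5) (nat_lit 55) (nat_lit 5) (nat_lit 508) (nat_lit 480) (nat_lit 212)) (XT.lf (nat_lit 0) (nat_lit 3268295851342) (nat_lit 228) (nat_lit 2679862369192) (nat_lit 76) (nat_lit 1048336920697) (nat_lit 52) (nat_lit 5) (nat_lit 55) (nat_lit 5) (nat_lit 53) (nat_lit 4) (nat_lit 509) (nat_lit 480) (nat_lit 211)))) (XT.nd (nat_lit 156) (nat_lit 228) (nat_lit 0) (XT.nd (nat_lit 78) (nat_lit 76) (nat_lit 0) (XT.lf (nat_lit 0) (nat_lit 1744643580485) (nat_lit 76) (nat_lit 3650818593162) (nat_lit 152) (nat_lit 1955218259147) (nat_lit 51) (nat_lit 5) (nat_lit 52) (nat_lit 5) (nat_lit 53) (nat_lit 4) (nat_lit 510) (nat_lit 480) (nat_lit 210)) (XT.lf (nat_lit 0) (nat_lit 36797522512) (nat_lit 152) (nat_lit 1052754202718) (nat_lit 76) (nat_lit 6637712520950) (nat_lit 50) (nat_lit 5) (nat_lit 52) (nat_lit 5) (nat_lit 51) (nat_lit 5) (nat_lit 511) (nat_lit 480) (nat_lit 209))) (XT.nd (nat_lit 78) (nat_lit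 76) (nat_lit 0) (XT.lf (nat_lit 0) (nat_lit 2223248845734) (nat_lit 228) (nat_lit 4151492161966) (nat_lit 76) (nat_lit 1743914417758) (nat_lit 48) (nat_lit 5) (nat_lit 51) (nat_lit 5) (nat_lit 49) (nat_lit 4) (nat_lit 512) (nat_lit 480) (nat_lit 208)) (XT.lf (nat_lit 0) (nat_lit 926804872664) (nat_lit 76) (nat_lit 3737932932279) (nat_lit 152) (nat_lit 3870210371722) (nat_lit 47) (nat_lit 5) (nat_lit 48) (nat_lit 5) (nat_lit 49) (nat_lit 4) (nat_lit 513) (nat_lit 480) (nat_lit 207))))) (XT.nd (nat_lit 312) (nat_lit 304) (nat_lit 0) (XT.nd (nat_lit 156) (nat_lit 76) (nat_lit 0) (XT.nd (nat_lit 78) (nat_lit 152) (nat_lit 0) (XT.lf (nat_lit 0) (nat_lit 6647464707204) (nat_lit 76) (nat_lit 767590326118) (nat_lit 152) (nat_lit 1560408582454) (nat_lit 47) (nat_lit 5) (nat_lit 48) (nat_lit 5) (nat_lit 49) (nat_lit 4) (nat_lit 514) (nat_lit 480) (nat_lit 206)) (XT.lf (nat_lit 0) (nat_lit 1033788037480)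 (nat_lit 152) (nat_lit 5975507699225) (nat_lit 76) (nat_lit 2428419832532) (nat_lit 45) (nat_lit 5) (nat_lit 47) (nat_lit 5) (nat_lit 46) (nat_lit 4) (nat_lit 515) (nat_lit 480) (nat_lit 205))) (XT.nd (nat_lit 78) (nat_lit 76) (nat_lit 0) (XT.lf (nat_lit 0) (nat_lit 3836460108650) (nat_lit 152) (nat_lit 145949791578) (nat_lit 76) (nat_lit 5944475986086) (nat_lit 45) (nat_lit 5) (nat_lit 47) (nat_lit 5) (nat_lit 46) (nat_lit 4) (nat_lit 516) (nat_lit 480) (nat_lit 204)) (XT.lf (nat_lit 0) (nat_lit 6473819414331) (nat_lit 76) (nat_lit 545222043486) (nat_lit 152) (nat_lit 3423692729957) (nat_lit 44) (nat_lit 5) (nat_lit 45) (nat_lit 5) (nat_lit 46) (nat_lit 4) (nat_lit 517) (nat_lit 480) (nat_lit 203)))) (XT.nd (nat_lit 156) (nat_lit 152) (nat_lit 0) (XT.nd (nat_lit 78) (nat_lit 76) (nat_lit 0) (XT.lf (nat_lit 0) (nat_lit 2690247774648) (nat_lit 76) (nat_lit 7910941243029) (nat_lit 76) (nat_lit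 387064559453) (nat_lit 43) (nat_lit 4) (nat_lit 44) (nat_lit 5) (nat_lit 44) (nat_lit 4) (nat_lit 518) (nat_lit 480) (nat_lit 202)) (XT.lf (nat_lit 0) (nat_lit 2873297009174) (nat_lit 152) (nat_lit 1547418904779) (nat_lit 76) (nat_lit 7141093647740) (nat_lit 42) (nat_lit 5) (nat_lit 44) (nat_lit 5) (nat_lit 43) (nat_lit 4) (nat_lit 519) (nat_lit 480) (nat_lit 201))) (XT.nd (nat_lit 78) (nat_lit 76) (nat_lit 0) (XT.lf (nat_lit 0) (nat_lit 6035059434321) (nat_lit 76) (nat_lit 483659853393) (nat_lit 152) (nat_lit 5650114981372) (nat_lit 41) (nat_lit 5) (nat_lit 42) (nat_lit 5) (nat_lit 43) (nat_lit 4) (nat_lit 520) (nat_lit 480) (nat_lit 200)) (XT.lf (nat_lit 0) (nat_lit 1473063397387) (nat_lit 76) (nat_lit 9152176441011) (nat_lit 76) (nat_lit 2185623955484) (nat_lit 40) (nat_lit 4) (nat_lit 41) (nat_lit 5) (nat_lit 41) (nat_lit 4) (nat_lit 521) (nat_lit 480) (nat_lit 199))))))))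
noncomputable def xc235 : XT := (XT.nd (nat_lit 60606) (nat_lit 0) (nat_lit 456) (XT.nd (nat_lit 59514) (nat_lit 0) (nat_lit 2964) (XT.nd (nat_lit 546) (nat_lit 304) (nat_lit 0) (XT.nd (nat_lit 234) (nat_lit 304) (nat_lit 0) (XT.nd (nat_lit 78) (nat_lit 76) (nat_lit 0) (XT.lf (nat_lit 0) (nat_lit 1662814538724) (nat_lit 152) (nat_lit 3507898245188) (nat_lit 76) (nat_lit 8315778944945) (nat_lit 39) (nat_lit 5) (nat_lit 41) (nat_lit 5) (nat_lit 40) (nat_lit 4) (nat_lit 522) (nat_lit 480) (nat_lit 198)) (XT.nd (nat_lit 78) (nat_lit 0) (nat_lit 0) (XT.lf (nat_lit 0) (nat_lit 5149211013663) (nat_lit 76) (nat_lit 675675284217) (nat_lit 152) (nat_lit 8376834952602) (nat_lit 38) (nat_lit 5) (nat_lit 39) (nat_lit 5) (nat_lit 40) (nat_lit 4) (nat_lit 523) (nat_lit 480) (nat_lit 197)) (XT.lf (nat_lit 0) (nat_lit 10518831390797) (nat_lit 152) (nat_lit 371105306015) (nat_lit 0) (nat_lit 4068319829585)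 (nat_lit 38) (nat_lit 5) (nat_lit 40) (nat_lit 4) (nat_lit 38) (nat_lit 4) (nat_lit 524) (nat_lit 480) (nat_lit 196)))) (XT.nd (nat_lit 156) (nat_lit 76) (nat_lit 0) (XT.nd (nat_lit 78) (nat_lit 76) (nat_lit 0) (XT.lf (nat_lit 0) (nat_lit 73774319727) (nat_lit 152) (nat_lit 6297060976333) (nat_lit 76) (nat_lit 9384723861765) (nat_lit 36) (nat_lit 5) (nat_lit 38) (nat_lit 5) (nat_lit 37) (nat_lit 4) (nat_lit 525) (nat_lit 480) (nat_lit 195)) (XT.lf (nat_lit 0) (nat_lit 3541318573111) (nat_lit 76) (nat_lit 1262445914686) (nat_lit 152) (nat_lit 11796010410597) (nat_lit 35) (nat_lit 5) (nat_lit 36) (nat_lit 5) (nat_lit 37) (nat_lit 4) (nat_lit 526) (nat_lit 480) (nat_lit 194))) (XT.nd (nat_lit 78) (nat_lit 76) (nat_lit 0) (XT.lf (nat_lit 0) (nat_lit 10191122280334) (nat_lit 152) (nat_lit 3079661755066) (nat_lit 0) (nat_lit 4218426389927) (nat_lit 35) (nat_lit 5) (nat_lit 37) (nat_lit 4) (nat_lit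 35) (nat_lit 4) (nat_lit 527) (nat_lit 480) (nat_lit 193)) (XT.lf (nat_lit 0) (nat_lit 8068252230544) (nat_lit 76) (nat_lit 8168048928678) (nat_lit 76) (nat_lit 2195353038157) (nat_lit 34) (nat_lit 4) (nat_lit 35) (nat_lit 5) (nat_lit 35) (nat_lit 4) (nat_lit 528) (nat_lit 480) (nat_lit 192))))) (XT.nd (nat_lit 234) (nat_lit 76) (nat_lit 0) (XT.nd (nat_lit 78) (nat_lit 76) (nat_lit 0) (XT.lf (nat_lit 0) (nat_lit 798396892704) (nat_lit 76) (nat_lit 2456936176204) (nat_lit 152) (nat_lit 16179333821755) (nat_lit 32) (nat_lit 5) (nat_lit 33) (nat_lit 5) (nat_lit 34) (nat_lit 4) (nat_lit 529) (nat_lit 480) (nat_lit 191)) (XT.nd (nat_lit 78) (nat_lit 76) (nat_lit 0) (XT.lf (nat_lit 0) (nat_lit 9403432808568) (nat_lit 152) (nat_lit 7206369996197) (nat_lit 0) (nat_lit 3873158835677) (nat_lit 32) (nat_lit 5) (nat_lit 34) (nat_lit 4) (nat_lit 32) (nat_lit 4) (nat_lit 530) (nat_lit 480) (nat_lit 190))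 (XT.lf (nat_lit 0) (nat_lit 5341298883803) (nat_lit 76) (nat_lit 10894356534068) (nat_lit 76) (nat_lit 5364082561094) (nat_lit 31) (nat_lit 4) (nat_lit 32) (nat_lit 5) (nat_lit 32) (nat_lit 4) (nat_lit 531) (nat_lit 480) (nat_lit 189)))) (XT.nd (nat_lit 58578) (nat_lit 0) (nat_lit 4256) (XT.nd (nat_lit 58500) (nat_lit 0) (nat_lit 4788) (XT.lf (nat_lit 0) (nat_lit 970302710521) (nat_lit 152) (nat_lit 3512044335165) (nat_lit 76) (nat_lit 18305781414736) (nat_lit 30) (nat_lit 5) (nat_lit 32) (nat_lit 5) (nat_lit 31) (nat_lit 4) (nat_lit 532) (nat_lit 480) (nat_lit 188)) (XT.lf (nat_lit 0) (nat_lit 1021024757807) (nat_lit 532) (nat_lit 6810903146) (nat_lit 532) (nat_lit 6810903146) (nat_lit 93) (nat_lit 3) (nat_lit 100) (nat_lit 3) (nat_lit 100) (nat_lit 5) (nat_lit 481) (nat_lit 481) (nat_lit 238))) (XT.nd (nat_lit 78) (nat_lit 532) (nat_lit 0) (XT.lf (nat_lit 76) (nat_lit 1070435655492) (nat_lit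 0) (nat_lit 1079039858436) (nat_lit 532) (nat_lit 529817980) (nat_lit 94) (nat_lit 5) (nat_lit 93) (nat_lit 3) (nat_lit 100) (nat_lit 5) (nat_lit 482) (nat_lit 481) (nat_lit 237)) (XT.lf (nat_lit 76) (nat_lit 4375778779) (nat_lit 0) (nat_lit 23015920564) (nat_lit 608) (nat_lit 2209689334418) (nat_lit 87) (nat_lit 5) (nat_lit 86) (nat_lit 5) (nat_lit 94) (nat_lit 5) (nat_lit 483) (nat_lit 481) (nat_lit 236)))))) (XT.nd (nat_lit 546) (nat_lit 988) (nat_lit 0) (XT.nd (nat_lit 234) (nat_lit 380) (nat_lit 0) (XT.nd (nat_lit 78) (nat_lit 0) (nat_lit 0) (XT.lf (nat_lit 0) (nat_lit 114678004953) (nat_lit 532) (nat_lit 1119984556066) (nat_lit 608) (nat_lit 1091886354556) (nat_lit 87) (nat_lit 5) (nat_lit 94) (nat_lit 5) (nat_lit 95) (nat_lit 5) (nat_lit 484) (nat_lit 481) (nat_lit 235)) (XT.nd (nat_lit 78) (nat_lit 0) (nat_lit 76) (XT.lf (nat_lit 76) (nat_lit 85429511892) (nat_lit 0) (nat_lit 126170099758)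 (nat_lit 608) (nat_lit 2211362424552) (nat_lit 88) (nat_lit 5) (nat_lit 87) (nat_lit 5) (nat_lit 95) (nat_lit 5) (nat_lit 485) (nat_lit 481) (nat_lit 234)) (XT.lf (nat_lit 0) (nat_lit 373450312303) (nat_lit 532) (nat_lit 1100220203193) (nat_lit 608) (nat_lit 1048843661751) (nat_lit 88) (nat_lit 5) (nat_lit 95) (nat_lit 5) (nat_lit 96) (nat_lit 5) (nat_lit 486) (nat_lit 481) (nat_lit 233)))) (XT.nd (nat_lit 156) (nat_lit 456) (nat_lit 0) (XT.nd (nat_lit 78) (nat_lit 0) (nat_lit 76) (XT.lf (nat_lit 76) (nat_lit 245058790420) (nat_lit 0) (nat_lit 312361092716) (nat_lit 608) (nat_lit 2071876941309) (nat_lit 89) (nat_lit 5) (nat_lit 88) (nat_lit 5) (nat_lit 96) (nat_lit 5) (nat_lit 487) (nat_lit 481) (nat_lit 232)) (XT.lf (nat_lit 0) (nat_lit 809621927882) (nat_lit 532) (nat_lit 1005117864647) (nat_lit 76) (nat_lit 925601098231) (nat_lit 89) (nat_lit 5) (nat_lit 96) (nat_lit 5) (nat_lit 90) (nat_lit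 5) (nat_lit 488) (nat_lit 481) (nat_lit 231))) (XT.nd (nat_lit 78) (nat_lit 0) (nat_lit 0) (XT.lf (nat_lit 0) (nat_lit 501295471987) (nat_lit 532) (nat_lit 600874106533) (nat_lit 608) (nat_lit 1756485348474) (nat_lit 82) (nat_lit 5) (nat_lit 89) (nat_lit 5) (nat_lit 90) (nat_lit 5) (nat_lit 489) (nat_lit 481) (nat_lit 230)) (XT.lf (nat_lit 0) (nat_lit 1463394496550) (nat_lit 608) (nat_lit 816643484317) (nat_lit 76) (nat_lit 702774228833) (nat_lit 82) (nat_lit 5) (nat_lit 90) (nat_lit 5) (nat_lit 83) (nat_lit 5) (nat_lit 490) (nat_lit 481) (nat_lit 229))))) (XT.nd (nat_lit 234) (nat_lit 532) (nat_lit 0) (XT.nd (nat_lit 78) (nat_lit 228) (nat_lit 0) (XT.lf (nat_lit 0) (nat_lit 875519683938) (nat_lit 228) (nat_lit 1014661112329) (nat_lit 304) (nat_lit 1223788207697) (nat_lit 79) (nat_lit 5) (nat_lit 82) (nat_lit 5) (nat_lit 83) (nat_lit 5) (nat_lit 491) (nat_lit 481) (nat_lit 228)) (XT.nd (nat_lit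 78) (nat_lit 228) (nat_lit 0) (XT.lf (nat_lit 0) (nat_lit 2382482747238) (nat_lit 304) (nat_lit 513377188112) (nat_lit 76) (nat_lit 357248586636) (nat_lit 79) (nat_lit 5) (nat_lit 83) (nat_lit 5) (nat_lit 80) (nat_lit 5) (nat_lit 492) (nat_lit 481) (nat_lit 227)) (XT.lf (nat_lit 0) (nat_lit 1393030928231) (nat_lit 228) (nat_lit 1580995186710) (nat_lit 304) (nat_lit 424564505657) (nat_lit 76) (nat_lit 5) (nat_lit 79) (nat_lit 5) (nat_lit 80) (nat_lit 5) (nat_lit 493) (nat_lit 481) (nat_lit 226)))) (XT.nd (nat_lit 156) (nat_lit 228) (nat_lit 0) (XT.nd (nat_lit 78) (nat_lit 228) (nat_lit 0) (XT.lf (nat_lit 0) (nat_lit 68722435963) (nat_lit 304) (nat_lit 75180255687) (nat_lit 76) (nat_lit 3410546479458) (nat_lit 75) (nat_lit 5) (nat_lit 79) (nat_lit 5) (nat_lit 76) (nat_lit 5) (nat_lit 494) (nat_lit 481) (nat_lit 225)) (XT.lf (nat_lit 0) (nat_lit 664599205610) (nat_lit 304) (nat_lit 1649468541641)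 (nat_lit 76) (nat_lit 1400941295755) (nat_lit 72) (nat_lit 5) (nat_lit 76) (nat_lit 5) (nat_lit 73) (nat_lit 5) (nat_lit 495) (nat_lit 481) (nat_lit 224))) (XT.nd (nat_lit 78) (nat_lit 0) (nat_lit 0) (XT.lf (nat_lit 0) (nat_lit 515543685811) (nat_lit 228) (nat_lit 810847953279) (nat_lit 304) (nat_lit 2560562423786) (nat_lit 69) (nat_lit 5) (nat_lit 72) (nat_lit 5) (nat_lit 73) (nat_lit 5) (nat_lit 496) (nat_lit 481) (nat_lit 223)) (XT.lf (nat_lit 0) (nat_lit 2106942029653) (nat_lit 304) (nat_lit 1142198274796) (nat_lit 76) (nat_lit 818249214893) (nat_lit 69) (nat_lit 5) (nat_lit 73) (nat_lit 5) (nat_lit 70) (nat_lit 5) (nat_lit 497) (nat_lit 481) (nat_lit 222))))))) (XT.nd (nat_lit 1092) (nat_lit 1140) (nat_lit 0) (XT.nd (nat_lit 546) (nat_lit 684) (nat_lit 0) (XT.nd (nat_lit 234) (nat_lit 304) (nat_lit 0) (XT.nd (nat_lit 78) (nat_lit 228) (nat_lit 0) (XT.lf (nat_lit 0) (nat_lit 1309811905313)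 (nat_lit 152) (nat_lit 1692686539182) (nat_lit 228) (nat_lit 1255556408388) (nat_lit 67) (nat_lit 5) (nat_lit 69) (nat_lit 5) (nat_lit 70) (nat_lit 5) (nat_lit 498) (nat_lit 481) (nat_lit 221)) (XT.nd (nat_lit 78) (nat_lit 228) (nat_lit 0) (XT.lf (nat_lit 0) (nat_lit 4001458477178) (nat_lit 228) (nat_lit 439063688387) (nat_lit 76) (nat_lit 20910519172) (nat_lit 67) (nat_lit 5) (nat_lit 70) (nat_lit 5) (nat_lit 68) (nat_lit 5) (nat_lit 499) (nat_lit 481) (nat_lit 220)) (XT.lf (nat_lit 0) (nat_lit 482231236945) (nat_lit 228) (nat_lit 2341113920240) (nat_lit 76) (nat_lit 1848731499540) (nat_lit 64) (nat_lit 5) (nat_lit 67) (nat_lit 5) (nat_lit 65) (nat_lit 5) (nat_lit 500) (nat_lit 481) (nat_lit 219)))) (XT.nd (nat_lit 156) (nat_lit 152) (nat_lit 0) (XT.nd (nat_lit 78) (nat_lit 0) (nat_lit 0) (XT.lf (nat_lit 0) (nat_lit 459685592030) (nat_lit 152) (nat_lit 1038649011193) (nat_lit 228) (nat_lit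 3398411989425) (nat_lit 62) (nat_lit 5) (nat_lit 64) (nat_lit 5) (nat_lit 65) (nat_lit 5) (nat_lit 501) (nat_lit 481) (nat_lit 218)) (XT.lf (nat_lit 0) (nat_lit 2682775254726) (nat_lit 228) (nat_lit 1539617832674) (nat_lit 76) (nat_lit 910033114771) (nat_lit 62) (nat_lit 5) (nat_lit 65) (nat_lit 5) (nat_lit 63) (nat_lit 5) (nat_lit 502) (nat_lit 481) (nat_lit 217))) (XT.nd (nat_lit 78) (nat_lit 0) (nat_lit 0) (XT.lf (nat_lit 0) (nat_lit 1644928897006) (nat_lit 152) (nat_lit 2383580736803) (nat_lit 228) (nat_lit 1353127468609) (nat_lit 60) (nat_lit 5) (nat_lit 62) (nat_lit 5) (nat_lit 63) (nat_lit 5) (nat_lit 503) (nat_lit 481) (nat_lit 216)) (XT.lf (nat_lit 0) (nat_lit 5171798794708) (nat_lit 152) (nat_lit 352199848043) (nat_lit 228) (nat_lit 123418561572) (nat_lit 60) (nat_lit 5) (nat_lit 62) (nat_lit 5) (nat_lit 63) (nat_lit 5) (nat_lit 504) (nat_lit 481) (nat_lit 215))))) (XT.nd (nat_lit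 234) (nat_lit 380) (nat_lit 0) (XT.nd (nat_lit 78) (nat_lit 152) (nat_lit 0) (XT.lf (nat_lit 0) (nat_lit 1267823654173) (nat_lit 152) (nat_lit 2796783653188) (nat_lit 76) (nat_lit 1857661111576) (nat_lit 58) (nat_lit 5) (nat_lit 60) (nat_lit 5) (nat_lit 59) (nat_lit 5) (nat_lit 505) (nat_lit 481) (nat_lit 214)) (XT.nd (nat_lit 78) (nat_lit 0) (nat_lit 0) (XT.lf (nat_lit 0) (nat_lit 853670186593) (nat_lit 152) (nat_lit 1953048111604) (nat_lit 228) (nat_lit 3408691309649) (nat_lit 56) (nat_lit 5) (nat_lit 58) (nat_lit 5) (nat_lit 59) (nat_lit 5) (nat_lit 506) (nat_lit 481) (nat_lit 213)) (XT.lf (nat_lit 0) (nat_lit 4555054582427) (nat_lit 228) (nat_lit 1580529720470) (nat_lit 76) (nat_lit 389511383475) (nat_lit 56) (nat_lit 5) (nat_lit 59) (nat_lit 5) (nat_lit 57) (nat_lit 4) (nat_lit 507) (nat_lit 481) (nat_lit 212)))) (XT.nd (nat_lit 156) (nat_lit 228) (nat_lit 0) (XT.nd (nat_lit 78) (nat_lit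 76) (nat_lit 0) (XT.lf (nat_lit 0) (nat_lit 2581589811202) (nat_lit 76) (nat_lit 3974483777239) (nat_lit 152) (nat_lit 294457797216) (nat_lit 55) (nat_lit 5) (nat_lit 56) (nat_lit 5) (nat_lit 57) (nat_lit 4) (nat_lit 508) (nat_lit 481) (nat_lit 211)) (XT.lf (nat_lit 0) (nat_lit 1483714062658) (nat_lit 152) (nat_lit 69542133120) (nat_lit 76) (nat_lit 5642283595948) (nat_lit 54) (nat_lit 5) (nat_lit 56) (nat_lit 5) (nat_lit 55) (nat_lit 5) (nat_lit 509) (nat_lit 481) (nat_lit 210))) (XT.nd (nat_lit 78) (nat_lit 76) (nat_lit 0) (XT.lf (nat_lit 0) (nat_lit 3529759526679) (nat_lit 228) (nat_lit 2894251345845) (nat_lit 76) (nat_lit 1132203879427) (nat_lit 52) (nat_lit 5) (nat_lit 55) (nat_lit 5) (nat_lit 53) (nat_lit 4) (nat_lit 510) (nat_lit 481) (nat_lit 209)) (XT.lf (nat_lit 0) (nat_lit 1884215079479) (nat_lit 76) (nat_lit 3942884075055) (nat_lit 152) (nat_lit 2111635712323) (nat_lit 51) (nat_lit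 5) (nat_lit 52) (nat_lit 5) (nat_lit 53) (nat_lit 4) (nat_lit 511) (nat_lit 481) (nat_lit 208)))))) (XT.nd (nat_lit 546) (nat_lit 608) (nat_lit 0) (XT.nd (nat_lit 234) (nat_lit 228) (nat_lit 0) (XT.nd (nat_lit 78) (nat_lit 228) (nat_lit 0) (XT.lf (nat_lit 0) (nat_lit 39741330959) (nat_lit 152) (nat_lit 1136974526959) (nat_lit 76) (nat_lit 7168729527425) (nat_lit 50) (nat_lit 5) (nat_lit 52) (nat_lit 5) (nat_lit 51) (nat_lit 5) (nat_lit 512) (nat_lit 481) (nat_lit 207)) (XT.nd (nat_lit 78) (nat_lit 76) (nat_lit 0) (XT.lf (nat_lit 0) (nat_lit 2401108759953) (nat_lit 228) (nat_lit 4483611522861) (nat_lit 76) (nat_lit 1883427576155) (nat_lit 48) (nat_lit 5) (nat_lit 51) (nat_lit 5) (nat_lit 49) (nat_lit 4) (nat_lit 513) (nat_lit 481) (nat_lit 206)) (XT.lf (nat_lit 0) (nat_lit 1000949274234) (nat_lit 76) (nat_lit 4036967561462) (nat_lit 152) (nat_lit 4179827194594) (nat_lit 47) (nat_lit 5) (nat_lit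 48) (nat_lit 5) (nat_lit 49) (nat_lit 4) (nat_lit 514) (nat_lit 481) (nat_lit 205)))) (XT.nd (nat_lit 156) (nat_lit 76) (nat_lit 0) (XT.nd (nat_lit 78) (nat_lit 152) (nat_lit 0) (XT.lf (nat_lit 0) (nat_lit 7179261894666) (nat_lit 76) (nat_lit 828997547209) (nat_lit 152) (nat_lit 1685241262693) (nat_lit 47) (nat_lit 5) (nat_lit 48) (nat_lit 5) (nat_lit 49) (nat_lit 4) (nat_lit 515) (nat_lit 481) (nat_lit 204)) (XT.lf (nat_lit 0) (nat_lit 1116491086455) (nat_lit 152) (nat_lit 6453548303896) (nat_lit 76) (nat_lit 2622693423947) (nat_lit 45) (nat_lit 5) (nat_lit 47) (nat_lit 5) (nat_lit 46) (nat_lit 4) (nat_lit 516) (nat_lit 481) (nat_lit 203))) (XT.nd (nat_lit 78) (nat_lit 76) (nat_lit 0) (XT.lf (nat_lit 0) (nat_lit 4143376922876) (nat_lit 152) (nat_lit 157625764472) (nat_lit 76) (nat_lit 6420034069429) (nat_lit 45) (nat_lit 5) (nat_lit 47) (nat_lit 5) (nat_lit 46) (nat_lit 4) (nat_lit 517)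 (nat_lit 481) (nat_lit 202)) (XT.lf (nat_lit 0) (nat_lit 6991724977646) (nat_lit 76) (nat_lit 588839802165) (nat_lit 152) (nat_lit 3697588142555) (nat_lit 44) (nat_lit 5) (nat_lit 45) (nat_lit 5) (nat_lit 46) (nat_lit 4) (nat_lit 518) (nat_lit 481) (nat_lit 201))))) (XT.nd (nat_lit 312) (nat_lit 304) (nat_lit 0) (XT.nd (nat_lit 156) (nat_lit 152) (nat_lit 0) (XT.nd (nat_lit 78) (nat_lit 76) (nat_lit 0) (XT.lf (nat_lit 0) (nat_lit 2905467606838) (nat_lit 76) (nat_lit 8543816537578) (nat_lit 76) (nat_lit 418029718459) (nat_lit 43) (nat_lit 4) (nat_lit 44) (nat_lit 5) (nat_lit 44) (nat_lit 4) (nat_lit 519) (nat_lit 481) (nat_lit 200)) (XT.lf (nat_lit 0) (nat_lit 3103160774965) (nat_lit 152) (nat_lit 1671212407435) (nat_lit 76) (nat_lit 7712381143824) (nat_lit 42) (nat_lit 5) (nat_lit 44) (nat_lit 5) (nat_lit 43) (nat_lit 4) (nat_lit 520) (nat_lit 481) (nat_lit 199))) (XT.nd (nat_lit 78) (nat_lit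 76) (nat_lit 0) (XT.lf (nat_lit 0) (nat_lit 6517864198547) (nat_lit 76) (nat_lit 522352637094) (nat_lit 152) (nat_lit 6102124174578) (nat_lit 41) (nat_lit 5) (nat_lit 42) (nat_lit 5) (nat_lit 43) (nat_lit 4) (nat_lit 521) (nat_lit 481) (nat_lit 198)) (XT.lf (nat_lit 0) (nat_lit 1590908478694) (nat_lit 76) (nat_lit 9884350551653) (nat_lit 76) (nat_lit 2360473866655) (nat_lit 40) (nat_lit 4) (nat_lit 41) (nat_lit 5) (nat_lit 41) (nat_lit 4) (nat_lit 522) (nat_lit 481) (nat_lit 197)))) (XT.nd (nat_lit 156) (nat_lit 152) (nat_lit 0) (XT.nd (nat_lit 78) (nat_lit 76) (nat_lit 0) (XT.lf (nat_lit 0) (nat_lit 1795839706456) (nat_lit 152) (nat_lit 3788530095748) (nat_lit 76) (nat_lit 8981041264591) (nat_lit 39) (nat_lit 5) (nat_lit 41) (nat_lit 5) (nat_lit 40) (nat_lit 4) (nat_lit 523) (nat_lit 481) (nat_lit 196)) (XT.lf (nat_lit 0) (nat_lit 5561147903583) (nat_lit 76) (nat_lit 729729302631) (nat_lit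 152) (nat_lit 9046981743948) (nat_lit 38) (nat_lit 5) (nat_lit 39) (nat_lit 5) (nat_lit 40) (nat_lit 4) (nat_lit 524) (nat_lit 481) (nat_lit 195))) (XT.nd (nat_lit 78) (nat_lit 152) (nat_lit 0) (XT.lf (nat_lit 0) (nat_lit 11360337906326) (nat_lit 152) (nat_lit 400793722086) (nat_lit 0) (nat_lit 4393785419755) (nat_lit 38) (nat_lit 5) (nat_lit 40) (nat_lit 4) (nat_lit 38) (nat_lit 4) (nat_lit 525) (nat_lit 481) (nat_lit 194)) (XT.lf (nat_lit 0) (nat_lit 79676269559) (nat_lit 152) (nat_lit 6800825846019) (nat_lit 76) (nat_lit 10135501774533) (nat_lit 36) (nat_lit 5) (nat_lit 38) (nat_lit 5) (nat_lit 37) (nat_lit 4) (nat_lit 526) (nat_lit 481) (nat_lit 193))))))))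
noncomputable def xc236 : XT := (XT.nd (nat_lit 60762) (nat_lit 0) (nat_lit 0) (XT.nd (nat_lit 59670) (nat_lit 0) (nat_lit 2128) (XT.nd (nat_lit 59124) (nat_lit 0) (nat_lit 3800) (XT.nd (nat_lit 234) (nat_lit 152) (nat_lit 0) (XT.nd (nat_lit 78) (nat_lit 76) (nat_lit 0) (XT.lf (nat_lit 0) (nat_lit 3824624067167) (nat_lit 76) (nat_lit 1363441583790) (nat_lit 152) (nat_lit 12739691238978) (nat_lit 35) (nat_lit 5) (nat_lit 36) (nat_lit 5) (nat_lit 37) (nat_lit 4) (nat_lit 527) (nat_lit 481) (nat_lit 192)) (XT.nd (nat_lit 78) (nat_lit 76) (nat_lit 0) (XT.lf (nat_lit 0) (nat_lit 11006412066682) (nat_lit 152) (nat_lit 3326034687656) (nat_lit 0) (nat_lit 4555900504702) (nat_lit 35) (nat_lit 5) (nat_lit 37) (nat_lit 4) (nat_lit 35) (nat_lit 4) (nat_lit 528) (nat_lit 481) (nat_lit 191)) (XT.lf (nat_lit 0) (nat_lit 8713712416606) (nat_lit 76) (nat_lit 8821492839168) (nat_lit 76) (nat_lit 2370981277091)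 (nat_lit 34) (nat_lit 4) (nat_lit 35) (nat_lit 5) (nat_lit 35) (nat_lit 4) (nat_lit 529) (nat_lit 481) (nat_lit 190)))) (XT.nd (nat_lit 58734) (nat_lit 0) (nat_lit 4636) (XT.nd (nat_lit 78) (nat_lit 0) (nat_lit 0) (XT.lf (nat_lit 0) (nat_lit 862268651746) (nat_lit 76) (nat_lit 2653491066480) (nat_lit 152) (nat_lit 17473680523384) (nat_lit 32) (nat_lit 5) (nat_lit 33) (nat_lit 5) (nat_lit 34) (nat_lit 4) (nat_lit 530) (nat_lit 481) (nat_lit 189)) (XT.lf (nat_lit 0) (nat_lit 10155707436863) (nat_lit 152) (nat_lit 7782879588635) (nat_lit 0) (nat_lit 4183011545891) (nat_lit 32) (nat_lit 5) (nat_lit 34) (nat_lit 4) (nat_lit 32) (nat_lit 4) (nat_lit 531) (nat_lit 481) (nat_lit 188))) (XT.nd (nat_lit 78) (nat_lit 0) (nat_lit 0) (XT.lf (nat_lit 0) (nat_lit 1102706752516) (nat_lit 532) (nat_lit 7355767791) (nat_lit 532) (nat_lit 7355767791) (nat_lit 93) (nat_lit 3) (nat_lit 100) (nat_lit 3) (nat_lit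 100) (nat_lit 5) (nat_lit 482) (nat_lit 482) (nat_lit 236)) (XT.lf (nat_lit 76) (nat_lit 1156070522759) (nat_lit 0) (nat_lit 1165363058722) (nat_lit 532) (nat_lit 572174862) (nat_lit 94) (nat_lit 5) (nat_lit 93) (nat_lit 3) (nat_lit 100) (nat_lit 5) (nat_lit 483) (nat_lit 482) (nat_lit 235))))) (XT.nd (nat_lit 234) (nat_lit 304) (nat_lit 0) (XT.nd (nat_lit 78) (nat_lit 0) (nat_lit 76) (XT.lf (nat_lit 76) (nat_lit 4725856929) (nat_lit 0) (nat_lit 24857203861) (nat_lit 608) (nat_lit 2386464453629) (nat_lit 87) (nat_lit 5) (nat_lit 86) (nat_lit 5) (nat_lit 94) (nat_lit 5) (nat_lit 484) (nat_lit 482) (nat_lit 234)) (XT.nd (nat_lit 78) (nat_lit 0) (nat_lit 0) (XT.lf (nat_lit 0) (nat_lit 123852268745) (nat_lit 532) (nat_lit 1209583303771) (nat_lit 608) (nat_lit 1179237254430) (nat_lit 87) (nat_lit 5) (nat_lit 94) (nat_lit 5) (nat_lit 95) (nat_lit 5) (nat_lit 485) (nat_lit 482) (nat_lit 233)) (XT.lf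 (nat_lit 76) (nat_lit 92263889199) (nat_lit 0) (nat_lit 136263713439) (nat_lit 608) (nat_lit 2388271394694) (nat_lit 88) (nat_lit 5) (nat_lit 87) (nat_lit 5) (nat_lit 95) (nat_lit 5) (nat_lit 486) (nat_lit 482) (nat_lit 232)))) (XT.nd (nat_lit 156) (nat_lit 456) (nat_lit 0) (XT.nd (nat_lit 78) (nat_lit 0) (nat_lit 0) (XT.lf (nat_lit 0) (nat_lit 403326357583) (nat_lit 532) (nat_lit 1188237802542) (nat_lit 608) (nat_lit 1132751149676) (nat_lit 88) (nat_lit 5) (nat_lit 95) (nat_lit 5) (nat_lit 96) (nat_lit 5) (nat_lit 487) (nat_lit 482) (nat_lit 231)) (XT.lf (nat_lit 76) (nat_lit 264663510132) (nat_lit 0) (nat_lit 337349982843) (nat_lit 608) (nat_lit 2237627075889) (nat_lit 89) (nat_lit 5) (nat_lit 88) (nat_lit 5) (nat_lit 96) (nat_lit 5) (nat_lit 488) (nat_lit 482) (nat_lit 230))) (XT.nd (nat_lit 78) (nat_lit 532) (nat_lit 0) (XT.lf (nat_lit 0) (nat_lit 874391699819) (nat_lit 532) (nat_lit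 1085527277076) (nat_lit 76) (nat_lit 999649183706) (nat_lit 89) (nat_lit 5) (nat_lit 96) (nat_lit 5) (nat_lit 90) (nat_lit 5) (nat_lit 489) (nat_lit 482) (nat_lit 229)) (XT.lf (nat_lit 0) (nat_lit 541399126064) (nat_lit 532) (nat_lit 648944035525) (nat_lit 608) (nat_lit 1897004158220) (nat_lit 82) (nat_lit 5) (nat_lit 89) (nat_lit 5) (nat_lit 90) (nat_lit 5) (nat_lit 490) (nat_lit 482) (nat_lit 228)))))) (XT.nd (nat_lit 546) (nat_lit 684) (nat_lit 0) (XT.nd (nat_lit 234) (nat_lit 760) (nat_lit 0) (XT.nd (nat_lit 78) (nat_lit 228) (nat_lit 0) (XT.lf (nat_lit 0) (nat_lit 1580466071808) (nat_lit 608) (nat_lit 881974946697) (nat_lit 76) (nat_lit 758996166727) (nat_lit 82) (nat_lit 5) (nat_lit 90) (nat_lit 5) (nat_lit 83) (nat_lit 5) (nat_lit 491) (nat_lit 482) (nat_lit 227)) (XT.nd (nat_lit 78) (nat_lit 0) (nat_lit 0) (XT.lf (nat_lit 0) (nat_lit 945561274603) (nat_lit 228) (nat_lit 1095834000131)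 (nat_lit 304) (nat_lit 1321691248363) (nat_lit 79) (nat_lit 5) (nat_lit 82) (nat_lit 5) (nat_lit 83) (nat_lit 5) (nat_lit 492) (nat_lit 482) (nat_lit 226)) (XT.lf (nat_lit 0) (nat_lit 2573081380716) (nat_lit 304) (nat_lit 554447347322) (nat_lit 76) (nat_lit 385828474609) (nat_lit 79) (nat_lit 5) (nat_lit 83) (nat_lit 5) (nat_lit 80) (nat_lit 5) (nat_lit 493) (nat_lit 482) (nat_lit 225)))) (XT.nd (nat_lit 156) (nat_lit 456) (nat_lit 0) (XT.nd (nat_lit 78) (nat_lit 76) (nat_lit 0) (XT.lf (nat_lit 0) (nat_lit 1504473417927) (nat_lit 228) (nat_lit 1707474799265) (nat_lit 304) (nat_lit 458529652008) (nat_lit 76) (nat_lit 5) (nat_lit 79) (nat_lit 5) (nat_lit 80) (nat_lit 5) (nat_lit 494) (nat_lit 482) (nat_lit 224)) (XT.lf (nat_lit 0) (nat_lit 74220243244) (nat_lit 304) (nat_lit 81194661194) (nat_lit 76) (nat_lit 3683390199365) (nat_lit 75) (nat_lit 5) (nat_lit 79) (nat_lit 5) (nat_lit 76) (nat_lit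 5) (nat_lit 495) (nat_lit 482) (nat_lit 223))) (XT.nd (nat_lit 78) (nat_lit 228) (nat_lit 0) (XT.lf (nat_lit 0) (nat_lit 717767153960) (nat_lit 304) (nat_lit 1781426009521) (nat_lit 76) (nat_lit 1513016602013) (nat_lit 72) (nat_lit 5) (nat_lit 76) (nat_lit 5) (nat_lit 73) (nat_lit 5) (nat_lit 496) (nat_lit 482) (nat_lit 222)) (XT.lf (nat_lit 0) (nat_lit 556787195736) (nat_lit 228) (nat_lit 875715785862) (nat_lit 304) (nat_lit 2765407405396) (nat_lit 69) (nat_lit 5) (nat_lit 72) (nat_lit 5) (nat_lit 73) (nat_lit 5) (nat_lit 497) (nat_lit 482) (nat_lit 221))))) (XT.nd (nat_lit 234) (nat_lit 532) (nat_lit 0) (XT.nd (nat_lit 78) (nat_lit 152) (nat_lit 0) (XT.lf (nat_lit 0) (nat_lit 2275497402646) (nat_lit 304) (nat_lit 1233574122073) (nat_lit 76) (nat_lit 883709155321) (nat_lit 69) (nat_lit 5) (nat_lit 73) (nat_lit 5) (nat_lit 70) (nat_lit 5) (nat_lit 498) (nat_lit 482) (nat_lit 220)) (XT.nd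 (nat_lit 78) (nat_lit 0) (nat_lit 0) (XT.lf (nat_lit 0) (nat_lit 1414596872073) (nat_lit 152) (nat_lit 1828101458161) (nat_lit 228) (nat_lit 1356000910066) (nat_lit 67) (nat_lit 5) (nat_lit 69) (nat_lit 5) (nat_lit 70) (nat_lit 5) (nat_lit 499) (nat_lit 482) (nat_lit 219)) (XT.lf (nat_lit 0) (nat_lit 4321575164869) (nat_lit 228) (nat_lit 474188769522) (nat_lit 76) (nat_lit 22583364362) (nat_lit 67) (nat_lit 5) (nat_lit 70) (nat_lit 5) (nat_lit 68) (nat_lit 5) (nat_lit 500) (nat_lit 482) (nat_lit 218)))) (XT.nd (nat_lit 156) (nat_lit 152) (nat_lit 0) (XT.nd (nat_lit 78) (nat_lit 152) (nat_lit 0) (XT.lf (nat_lit 0) (nat_lit 520809745277) (nat_lit 228) (nat_lit 2528403019783) (nat_lit 76) (nat_lit 1996630023453) (nat_lit 64) (nat_lit 5) (nat_lit 67) (nat_lit 5) (nat_lit 65) (nat_lit 5) (nat_lit 501) (nat_lit 482) (nat_lit 217)) (XT.lf (nat_lit 0) (nat_lit 496460453113) (nat_lit 152) (nat_lit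 1121740927380) (nat_lit 228) (nat_lit 3670284938846) (nat_lit 62) (nat_lit 5) (nat_lit 64) (nat_lit 5) (nat_lit 65) (nat_lit 5) (nat_lit 502) (nat_lit 482) (nat_lit 216))) (XT.nd (nat_lit 78) (nat_lit 152) (nat_lit 0) (XT.lf (nat_lit 0) (nat_lit 2897397283554) (nat_lit 228) (nat_lit 1662787246021) (nat_lit 76) (nat_lit 982835768094) (nat_lit 62) (nat_lit 5) (nat_lit 65) (nat_lit 5) (nat_lit 63) (nat_lit 5) (nat_lit 503) (nat_lit 482) (nat_lit 215)) (XT.lf (nat_lit 0) (nat_lit 1776523221698) (nat_lit 152) (nat_lit 2574267190950) (nat_lit 228) (nat_lit 1461377657312) (nat_lit 60) (nat_lit 5) (nat_lit 62) (nat_lit 5) (nat_lit 63) (nat_lit 5) (nat_lit 504) (nat_lit 482) (nat_lit 214))))))) (XT.nd (nat_lit 1092) (nat_lit 988) (nat_lit 0) (XT.nd (nat_lit 546) (nat_lit 532) (nat_lit 0) (XT.nd (nat_lit 234) (nat_lit 304) (nat_lit 0) (XT.nd (nat_lit 78) (nat_lit 304) (nat_lit 0) (XT.lf (nat_lit 0)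 (nat_lit 5585542710259) (nat_lit 152) (nat_lit 380375831445) (nat_lit 228) (nat_lit 133292038363) (nat_lit 60) (nat_lit 5) (nat_lit 62) (nat_lit 5) (nat_lit 63) (nat_lit 5) (nat_lit 505) (nat_lit 482) (nat_lit 213)) (XT.nd (nat_lit 78) (nat_lit 152) (nat_lit 0) (XT.lf (nat_lit 0) (nat_lit 1369249554064) (nat_lit 152) (nat_lit 3020526332891) (nat_lit 76) (nat_lit 2006274004893) (nat_lit 58) (nat_lit 5) (nat_lit 60) (nat_lit 5) (nat_lit 59) (nat_lit 5) (nat_lit 506) (nat_lit 482) (nat_lit 212)) (XT.lf (nat_lit 0) (nat_lit 921963813755) (nat_lit 152) (nat_lit 2109291955589) (nat_lit 228) (nat_lit 3681386606545) (nat_lit 56) (nat_lit 5) (nat_lit 58) (nat_lit 5) (nat_lit 59) (nat_lit 5) (nat_lit 507) (nat_lit 482) (nat_lit 211)))) (XT.nd (nat_lit 156) (nat_lit 228) (nat_lit 0) (XT.nd (nat_lit 78) (nat_lit 76) (nat_lit 0) (XT.lf (nat_lit 0) (nat_lit 4919458955883) (nat_lit 228) (nat_lit 1706972086349)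 (nat_lit 76) (nat_lit 420672298501) (nat_lit 56) (nat_lit 5) (nat_lit 59) (nat_lit 5) (nat_lit 57) (nat_lit 4) (nat_lit 508) (nat_lit 482) (nat_lit 210)) (XT.lf (nat_lit 0) (nat_lit 2788117007559) (nat_lit 76) (nat_lit 4292442474585) (nat_lit 152) (nat_lit 318014413834) (nat_lit 55) (nat_lit 5) (nat_lit 56) (nat_lit 5) (nat_lit 57) (nat_lit 4) (nat_lit 509) (nat_lit 482) (nat_lit 209))) (XT.nd (nat_lit 78) (nat_lit 152) (nat_lit 0) (XT.lf (nat_lit 0) (nat_lit 1602411193968) (nat_lit 152) (nat_lit 75105492826) (nat_lit 76) (nat_lit 6093666287767) (nat_lit 54) (nat_lit 5) (nat_lit 56) (nat_lit 5) (nat_lit 55) (nat_lit 5) (nat_lit 510) (nat_lit 482) (nat_lit 208)) (XT.lf (nat_lit 0) (nat_lit 3812140295011) (nat_lit 228) (nat_lit 3125791442469) (nat_lit 76) (nat_lit 1222780194131) (nat_lit 52) (nat_lit 5) (nat_lit 55) (nat_lit 5) (nat_lit 53) (nat_lit 4) (nat_lit 511) (nat_lit 482) (nat_lit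 207))))) (XT.nd (nat_lit 234) (nat_lit 228) (nat_lit 0) (XT.nd (nat_lit 78) (nat_lit 228) (nat_lit 0) (XT.lf (nat_lit 0) (nat_lit 2034952296603) (nat_lit 76) (nat_lit 4258314796292) (nat_lit 152) (nat_lit 2280566562831) (nat_lit 51) (nat_lit 5) (nat_lit 52) (nat_lit 5) (nat_lit 53) (nat_lit 4) (nat_lit 512) (nat_lit 482) (nat_lit 206)) (XT.nd (nat_lit 78) (nat_lit 152) (nat_lit 0) (XT.lf (nat_lit 0) (nat_lit 42920643134) (nat_lit 152) (nat_lit 1227932478849) (nat_lit 76) (nat_lit 7742227893732) (nat_lit 50) (nat_lit 5) (nat_lit 52) (nat_lit 5) (nat_lit 51) (nat_lit 5) (nat_lit 513) (nat_lit 482) (nat_lit 205)) (XT.lf (nat_lit 0) (nat_lit 2593197466373) (nat_lit 228) (nat_lit 4842300434349) (nat_lit 76) (nat_lit 2034101786514) (nat_lit 48) (nat_lit 5) (nat_lit 51) (nat_lit 5) (nat_lit 49) (nat_lit 4) (nat_lit 514) (nat_lit 482) (nat_lit 204)))) (XT.nd (nat_lit 156) (nat_lit 152) (nat_lit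 0) (XT.nd (nat_lit 78) (nat_lit 0) (nat_lit 0) (XT.lf (nat_lit 0) (nat_lit 1081025226252) (nat_lit 76) (nat_lit 4359924961750) (nat_lit 152) (nat_lit 4514213364275) (nat_lit 47) (nat_lit 5) (nat_lit 48) (nat_lit 5) (nat_lit 49) (nat_lit 4) (nat_lit 515) (nat_lit 482) (nat_lit 203)) (XT.lf (nat_lit 0) (nat_lit 7753602855572) (nat_lit 76) (nat_lit 895317346699) (nat_lit 152) (nat_lit 1820060558258) (nat_lit 47) (nat_lit 5) (nat_lit 48) (nat_lit 5) (nat_lit 49) (nat_lit 4) (nat_lit 516) (nat_lit 482) (nat_lit 202))) (XT.nd (nat_lit 78) (nat_lit 0) (nat_lit 0) (XT.lf (nat_lit 0) (nat_lit 1205810378495) (nat_lit 152) (nat_lit 6969832158548) (nat_lit 76) (nat_lit 2832508901988) (nat_lit 45) (nat_lit 5) (nat_lit 47) (nat_lit 5) (nat_lit 46) (nat_lit 4) (nat_lit 517) (nat_lit 482) (nat_lit 201)) (XT.lf (nat_lit 0) (nat_lit 4474847081451) (nat_lit 152) (nat_lit 170235816686) (nat_lit 76) (nat_lit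 6933636798803) (nat_lit 45) (nat_lit 5) (nat_lit 47) (nat_lit 5) (nat_lit 46) (nat_lit 4) (nat_lit 518) (nat_lit 482) (nat_lit 200)))))) (XT.nd (nat_lit 546) (nat_lit 456) (nat_lit 0) (XT.nd (nat_lit 234) (nat_lit 304) (nat_lit 0) (XT.nd (nat_lit 78) (nat_lit 152) (nat_lit 0) (XT.lf (nat_lit 0) (nat_lit 7551062984576) (nat_lit 76) (nat_lit 635946982223) (nat_lit 152) (nat_lit 3993395188989) (nat_lit 44) (nat_lit 5) (nat_lit 45) (nat_lit 5) (nat_lit 46) (nat_lit 4) (nat_lit 519) (nat_lit 482) (nat_lit 199)) (XT.nd (nat_lit 78) (nat_lit 76) (nat_lit 0) (XT.lf (nat_lit 0) (nat_lit 3137905024144) (nat_lit 76) (nat_lit 9227321856389) (nat_lit 76) (nat_lit 451472091007) (nat_lit 43) (nat_lit 4) (nat_lit 44) (nat_lit 5) (nat_lit 44) (nat_lit 4) (nat_lit 520) (nat_lit 482) (nat_lit 198)) (XT.lf (nat_lit 0) (nat_lit 3351413641297) (nat_lit 152) (nat_lit 1804909391690) (nat_lit 76) (nat_lit 8329371638987)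 (nat_lit 42) (nat_lit 5) (nat_lit 44) (nat_lit 5) (nat_lit 43) (nat_lit 4) (nat_lit 521) (nat_lit 482) (nat_lit 197)))) (XT.nd (nat_lit 156) (nat_lit 152) (nat_lit 0) (XT.nd (nat_lit 78) (nat_lit 76) (nat_lit 0) (XT.lf (nat_lit 0) (nat_lit 7039293342559) (nat_lit 76) (nat_lit 564140844144) (nat_lit 152) (nat_lit 6590294103998) (nat_lit 41) (nat_lit 5) (nat_lit 42) (nat_lit 5) (nat_lit 43) (nat_lit 4) (nat_lit 522) (nat_lit 482) (nat_lit 196)) (XT.lf (nat_lit 0) (nat_lit 1718181165148) (nat_lit 76) (nat_lit 10675098591808) (nat_lit 76) (nat_lit 2549311771471) (nat_lit 40) (nat_lit 4) (nat_lit 41) (nat_lit 5) (nat_lit 41) (nat_lit 4) (nat_lit 523) (nat_lit 482) (nat_lit 195))) (XT.nd (nat_lit 78) (nat_lit 76) (nat_lit 0) (XT.lf (nat_lit 0) (nat_lit 1939506886945) (nat_lit 152) (nat_lit 4091612495644) (nat_lit 76) (nat_lit 9699524569232) (nat_lit 39) (nat_lit 5) (nat_lit 41) (nat_lit 5) (nat_lit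 40) (nat_lit 4) (nat_lit 524) (nat_lit 482) (nat_lit 194)) (XT.lf (nat_lit 0) (nat_lit 6006039743437) (nat_lit 76) (nat_lit 788107643135) (nat_lit 152) (nat_lit 9770740279295) (nat_lit 38) (nat_lit 5) (nat_lit 39) (nat_lit 5) (nat_lit 40) (nat_lit 4) (nat_lit 525) (nat_lit 482) (nat_lit 193))))) (XT.nd (nat_lit 312) (nat_lit 228) (nat_lit 0) (XT.nd (nat_lit 156) (nat_lit 76) (nat_lit 0) (XT.nd (nat_lit 78) (nat_lit 152) (nat_lit 0) (XT.lf (nat_lit 0) (nat_lit 12269164942489) (nat_lit 152) (nat_lit 432857212643) (nat_lit 0) (nat_lit 4745288256596) (nat_lit 38) (nat_lit 5) (nat_lit 40) (nat_lit 4) (nat_lit 38) (nat_lit 4) (nat_lit 526) (nat_lit 482) (nat_lit 192)) (XT.lf (nat_lit 0) (nat_lit 86050374771) (nat_lit 152) (nat_lit 7344891906481) (nat_lit 76) (nat_lit 10946341919776) (nat_lit 36) (nat_lit 5) (nat_lit 38) (nat_lit 5) (nat_lit 37) (nat_lit 4) (nat_lit 527) (nat_lit 482) (nat_lit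 191))) (XT.nd (nat_lit 78) (nat_lit 0) (nat_lit 0) (XT.lf (nat_lit 0) (nat_lit 4130593999577) (nat_lit 76) (nat_lit 1472516907003) (nat_lit 152) (nat_lit 13758866534266) (nat_lit 35) (nat_lit 5) (nat_lit 36) (nat_lit 5) (nat_lit 37) (nat_lit 4) (nat_lit 528) (nat_lit 482) (nat_lit 190)) (XT.lf (nat_lit 0) (nat_lit 11886925035378) (nat_lit 152) (nat_lit 3592117455968) (nat_lit 0) (nat_lit 4920372548148) (nat_lit 35) (nat_lit 5) (nat_lit 37) (nat_lit 4) (nat_lit 35) (nat_lit 4) (nat_lit 529) (nat_lit 482) (nat_lit 189)))) (XT.nd (nat_lit 58812) (nat_lit 0) (nat_lit 4636) (XT.nd (nat_lit 78) (nat_lit 152) (nat_lit 0) (XT.lf (nat_lit 0) (nat_lit 9410809416465) (nat_lit 76) (nat_lit 9527212263040) (nat_lit 76) (nat_lit 2560659775727) (nat_lit 34) (nat_lit 4) (nat_lit 35) (nat_lit 5) (nat_lit 35) (nat_lit 4) (nat_lit 530) (nat_lit 482) (nat_lit 188)) (XT.lf (nat_lit 0) (nat_lit 931250150423) (nat_lit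 76) (nat_lit 2865770348525) (nat_lit 152) (nat_lit 18871574961731) (nat_lit 32) (nat_lit 5) (nat_lit 33) (nat_lit 5) (nat_lit 34) (nat_lit 4) (nat_lit 531) (nat_lit 482) (nat_lit 187))) (XT.nd (nat_lit 78) (nat_lit 0) (nat_lit 0) (XT.lf (nat_lit 0) (nat_lit 1190923304792) (nat_lit 532) (nat_lit 7944222693) (nat_lit 532) (nat_lit 7944222693) (nat_lit 93) (nat_lit 3) (nat_lit 100) (nat_lit 3) (nat_lit 100) (nat_lit 5) (nat_lit 483) (nat_lit 483) (nat_lit 234)) (XT.lf (nat_lit 76) (nat_lit 1248556177292) (nat_lit 0) (nat_lit 1258592113374) (nat_lit 532) (nat_lit 617924369) (nat_lit 94) (nat_lit 5) (nat_lit 93) (nat_lit 3) (nat_lit 100) (nat_lit 5) (nat_lit 484) (nat_lit 483) (nat_lit 233))))))))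
noncomputable def xc237 : XT := (XT.nd (nat_lit 2184) (nat_lit 1368) (nat_lit 0) (XT.nd (nat_lit 1092) (nat_lit 1292) (nat_lit 0) (XT.nd (nat_lit 546) (nat_lit 988) (nat_lit 0) (XT.nd (nat_lit 234) (nat_lit 304) (nat_lit 0) (XT.nd (nat_lit 78) (nat_lit 0) (nat_lit 76) (XT.lf (nat_lit 76) (nat_lit 5103939070) (nat_lit 0) (nat_lit 26845788445) (nat_lit 608) (nat_lit 2577381586306) (nat_lit 87) (nat_lit 5) (nat_lit 86) (nat_lit 5) (nat_lit 94) (nat_lit 5) (nat_lit 485) (nat_lit 483) (nat_lit 232)) (XT.nd (nat_lit 78) (nat_lit 0) (nat_lit 0) (XT.lf (nat_lit 0) (nat_lit 133760470303) (nat_lit 532) (nat_lit 1306349953686) (nat_lit 608) (nat_lit 1273576227506) (nat_lit 87) (nat_lit 5) (nat_lit 94) (nat_lit 5) (nat_lit 95) (nat_lit 5) (nat_lit 486) (nat_lit 483) (nat_lit 231)) (XT.lf (nat_lit 76) (nat_lit 99645014357) (nat_lit 0) (nat_lit 147164815402) (nat_lit 608) (nat_lit 2579333085844) (nat_lit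 88) (nat_lit 5) (nat_lit 87) (nat_lit 5) (nat_lit 95) (nat_lit 5) (nat_lit 487) (nat_lit 483) (nat_lit 230)))) (XT.nd (nat_lit 156) (nat_lit 456) (nat_lit 0) (XT.nd (nat_lit 78) (nat_lit 0) (nat_lit 0) (XT.lf (nat_lit 0) (nat_lit 435592483590) (nat_lit 532) (nat_lit 1283296812250) (nat_lit 608) (nat_lit 1223371237352) (nat_lit 88) (nat_lit 5) (nat_lit 95) (nat_lit 5) (nat_lit 96) (nat_lit 5) (nat_lit 488) (nat_lit 483) (nat_lit 229)) (XT.lf (nat_lit 76) (nat_lit 285836605071) (nat_lit 0) (nat_lit 364337983793) (nat_lit 608) (nat_lit 2416637224191) (nat_lit 89) (nat_lit 5) (nat_lit 88) (nat_lit 5) (nat_lit 96) (nat_lit 5) (nat_lit 489) (nat_lit 483) (nat_lit 228))) (XT.nd (nat_lit 78) (nat_lit 532) (nat_lit 0) (XT.lf (nat_lit 0) (nat_lit 944343050986) (nat_lit 532) (nat_lit 1172369444889) (nat_lit 76) (nat_lit 1079621116359) (nat_lit 89) (nat_lit 5) (nat_lit 96) (nat_lit 5) (nat_lit 90) (nat_lit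 5) (nat_lit 490) (nat_lit 483) (nat_lit 227)) (XT.lf (nat_lit 0) (nat_lit 584711070140) (nat_lit 532) (nat_lit 700859558769) (nat_lit 608) (nat_lit 2048764475332) (nat_lit 82) (nat_lit 5) (nat_lit 89) (nat_lit 5) (nat_lit 90) (nat_lit 5) (nat_lit 491) (nat_lit 483) (nat_lit 226))))) (XT.nd (nat_lit 234) (nat_lit 760) (nat_lit 0) (XT.nd (nat_lit 78) (nat_lit 228) (nat_lit 0) (XT.lf (nat_lit 0) (nat_lit 1706903370870) (nat_lit 608) (nat_lit 952532928403) (nat_lit 76) (nat_lit 819715859711) (nat_lit 82) (nat_lit 5) (nat_lit 90) (nat_lit 5) (nat_lit 83) (nat_lit 5) (nat_lit 492) (nat_lit 483) (nat_lit 225)) (XT.nd (nat_lit 78) (nat_lit 0) (nat_lit 0) (XT.lf (nat_lit 0) (nat_lit 1021206190247) (nat_lit 228) (nat_lit 1183500719126) (nat_lit 304) (nat_lit 1427426534558) (nat_lit 79) (nat_lit 5) (nat_lit 82) (nat_lit 5) (nat_lit 83) (nat_lit 5) (nat_lit 493) (nat_lit 483) (nat_lit 224)) (XT.lf (nat_lit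 0) (nat_lit 2778927902918) (nat_lit 304) (nat_lit 598803121529) (nat_lit 76) (nat_lit 416694753471) (nat_lit 79) (nat_lit 5) (nat_lit 83) (nat_lit 5) (nat_lit 80) (nat_lit 5) (nat_lit 494) (nat_lit 483) (nat_lit 223)))) (XT.nd (nat_lit 156) (nat_lit 456) (nat_lit 0) (XT.nd (nat_lit 78) (nat_lit 76) (nat_lit 0) (XT.lf (nat_lit 0) (nat_lit 1624831304596) (nat_lit 228) (nat_lit 1844072781164) (nat_lit 304) (nat_lit 495212012079) (nat_lit 76) (nat_lit 5) (nat_lit 79) (nat_lit 5) (nat_lit 80) (nat_lit 5) (nat_lit 495) (nat_lit 483) (nat_lit 222)) (XT.lf (nat_lit 0) (nat_lit 80157873337) (nat_lit 304) (nat_lit 87690221273) (nat_lit 76) (nat_lit 3978061416644) (nat_lit 75) (nat_lit 5) (nat_lit 79) (nat_lit 5) (nat_lit 76) (nat_lit 5) (nat_lit 496) (nat_lit 483) (nat_lit 221))) (XT.nd (nat_lit 78) (nat_lit 228) (nat_lit 0) (XT.lf (nat_lit 0) (nat_lit 775188536480) (nat_lit 304) (nat_lit 1923940077035)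 (nat_lit 76) (nat_lit 1634057932401) (nat_lit 72) (nat_lit 5) (nat_lit 76) (nat_lit 5) (nat_lit 73) (nat_lit 5) (nat_lit 497) (nat_lit 483) (nat_lit 220)) (XT.lf (nat_lit 0) (nat_lit 601330184307) (nat_lit 228) (nat_lit 945773045577) (nat_lit 304) (nat_lit 2986639987288) (nat_lit 69) (nat_lit 5) (nat_lit 72) (nat_lit 5) (nat_lit 73) (nat_lit 5) (nat_lit 498) (nat_lit 483) (nat_lit 219)))))) (XT.nd (nat_lit 546) (nat_lit 608) (nat_lit 0) (XT.nd (nat_lit 234) (nat_lit 532) (nat_lit 0) (XT.nd (nat_lit 78) (nat_lit 152) (nat_lit 0) (XT.lf (nat_lit 0) (nat_lit 2457537203963) (nat_lit 304) (nat_lit 1332260039230) (nat_lit 76) (nat_lit 954405890521) (nat_lit 69) (nat_lit 5) (nat_lit 73) (nat_lit 5) (nat_lit 70) (nat_lit 5) (nat_lit 499) (nat_lit 483) (nat_lit 218)) (XT.nd (nat_lit 78) (nat_lit 0) (nat_lit 0) (XT.lf (nat_lit 0) (nat_lit 1527764634129) (nat_lit 152) (nat_lit 1974349571250) (nat_lit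 228) (nat_lit 1464480973445) (nat_lit 67) (nat_lit 5) (nat_lit 69) (nat_lit 5) (nat_lit 70) (nat_lit 5) (nat_lit 500) (nat_lit 483) (nat_lit 217)) (XT.lf (nat_lit 0) (nat_lit 4667301186218) (nat_lit 228) (nat_lit 512123859137) (nat_lit 76) (nat_lit 24390036645) (nat_lit 67) (nat_lit 5) (nat_lit 70) (nat_lit 5) (nat_lit 68) (nat_lit 5) (nat_lit 501) (nat_lit 483) (nat_lit 216)))) (XT.nd (nat_lit 156) (nat_lit 152) (nat_lit 0) (XT.nd (nat_lit 78) (nat_lit 152) (nat_lit 0) (XT.lf (nat_lit 0) (nat_lit 562474532939) (nat_lit 228) (nat_lit 2730675249297) (nat_lit 76) (nat_lit 2156360428715) (nat_lit 64) (nat_lit 5) (nat_lit 67) (nat_lit 5) (nat_lit 65) (nat_lit 5) (nat_lit 502) (nat_lit 483) (nat_lit 215)) (XT.lf (nat_lit 0) (nat_lit 536177301125) (nat_lit 152) (nat_lit 1211480197534) (nat_lit 228) (nat_lit 3963907725608) (nat_lit 62) (nat_lit 5) (nat_lit 64) (nat_lit 5) (nat_lit 65) (nat_lit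 5) (nat_lit 503) (nat_lit 483) (nat_lit 214))) (XT.nd (nat_lit 78) (nat_lit 152) (nat_lit 0) (XT.lf (nat_lit 0) (nat_lit 3129189073482) (nat_lit 228) (nat_lit 1795810214328) (nat_lit 76) (nat_lit 1061462633092) (nat_lit 62) (nat_lit 5) (nat_lit 65) (nat_lit 5) (nat_lit 63) (nat_lit 5) (nat_lit 504) (nat_lit 483) (nat_lit 213)) (XT.lf (nat_lit 0) (nat_lit 1918645090521) (nat_lit 152) (nat_lit 2780208562114) (nat_lit 228) (nat_lit 1578287862364) (nat_lit 60) (nat_lit 5) (nat_lit 62) (nat_lit 5) (nat_lit 63) (nat_lit 5) (nat_lit 505) (nat_lit 483) (nat_lit 212))))) (XT.nd (nat_lit 234) (nat_lit 304) (nat_lit 0) (XT.nd (nat_lit 78) (nat_lit 304) (nat_lit 0) (XT.lf (nat_lit 0) (nat_lit 6032386137345) (nat_lit 152) (nat_lit 410805894152) (nat_lit 228) (nat_lit 143955394457) (nat_lit 60) (nat_lit 5) (nat_lit 62) (nat_lit 5) (nat_lit 63) (nat_lit 5) (nat_lit 506) (nat_lit 483) (nat_lit 211)) (XT.nd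 (nat_lit 78) (nat_lit 152) (nat_lit 0) (XT.lf (nat_lit 0) (nat_lit 1478789524868) (nat_lit 152) (nat_lit 3262168428760) (nat_lit 76) (nat_lit 2166775929048) (nat_lit 58) (nat_lit 5) (nat_lit 60) (nat_lit 5) (nat_lit 59) (nat_lit 5) (nat_lit 507) (nat_lit 483) (nat_lit 210)) (XT.lf (nat_lit 0) (nat_lit 995720929345) (nat_lit 152) (nat_lit 2278035307799) (nat_lit 228) (nat_lit 3975897528317) (nat_lit 56) (nat_lit 5) (nat_lit 58) (nat_lit 5) (nat_lit 59) (nat_lit 5) (nat_lit 508) (nat_lit 483) (nat_lit 209)))) (XT.nd (nat_lit 156) (nat_lit 228) (nat_lit 0) (XT.nd (nat_lit 78) (nat_lit 76) (nat_lit 0) (XT.lf (nat_lit 0) (nat_lit 5313015678236) (nat_lit 228) (nat_lit 1843529843175) (nat_lit 76) (nat_lit 454326086109) (nat_lit 56) (nat_lit 5) (nat_lit 59) (nat_lit 5) (nat_lit 57) (nat_lit 4) (nat_lit 509) (nat_lit 483) (nat_lit 208)) (XT.lf (nat_lit 0) (nat_lit 3011166377990) (nat_lit 76) (nat_lit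 4635837868409) (nat_lit 152) (nat_lit 343455560802) (nat_lit 55) (nat_lit 5) (nat_lit 56) (nat_lit 5) (nat_lit 57) (nat_lit 4) (nat_lit 510) (nat_lit 483) (nat_lit 207))) (XT.nd (nat_lit 78) (nat_lit 152) (nat_lit 0) (XT.lf (nat_lit 0) (nat_lit 1730604094885) (nat_lit 152) (nat_lit 81113922869) (nat_lit 76) (nat_lit 6581159594339) (nat_lit 54) (nat_lit 5) (nat_lit 56) (nat_lit 5) (nat_lit 55) (nat_lit 5) (nat_lit 511) (nat_lit 483) (nat_lit 206)) (XT.lf (nat_lit 0) (nat_lit 4117111523926) (nat_lit 228) (nat_lit 3375854748397) (nat_lit 76) (nat_lit 1320602613392) (nat_lit 52) (nat_lit 5) (nat_lit 55) (nat_lit 5) (nat_lit 53) (nat_lit 4) (nat_lit 512) (nat_lit 483) (nat_lit 205))))))) (XT.nd (nat_lit 1092) (nat_lit 304) (nat_lit 0) (XT.nd (nat_lit 546) (nat_lit 532) (nat_lit 0) (XT.nd (nat_lit 234) (nat_lit 228) (nat_lit 0) (XT.nd (nat_lit 78) (nat_lit 228) (nat_lit 0) (XT.lf (nat_lit 0) (nat_lit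 2197748489560) (nat_lit 76) (nat_lit 4598979975909) (nat_lit 152) (nat_lit 2463011882304) (nat_lit 51) (nat_lit 5) (nat_lit 52) (nat_lit 5) (nat_lit 53) (nat_lit 4) (nat_lit 513) (nat_lit 483) (nat_lit 204)) (XT.nd (nat_lit 78) (nat_lit 152) (nat_lit 0) (XT.lf (nat_lit 0) (nat_lit 46354299469) (nat_lit 152) (nat_lit 1326167068354) (nat_lit 76) (nat_lit 8361606128758) (nat_lit 50) (nat_lit 5) (nat_lit 52) (nat_lit 5) (nat_lit 51) (nat_lit 5) (nat_lit 514) (nat_lit 483) (nat_lit 203)) (XT.lf (nat_lit 0) (nat_lit 2800653268505) (nat_lit 228) (nat_lit 5229684460231) (nat_lit 76) (nat_lit 2196829933093) (nat_lit 48) (nat_lit 5) (nat_lit 51) (nat_lit 5) (nat_lit 49) (nat_lit 4) (nat_lit 515) (nat_lit 483) (nat_lit 202)))) (XT.nd (nat_lit 156) (nat_lit 152) (nat_lit 0) (XT.nd (nat_lit 78) (nat_lit 0) (nat_lit 0) (XT.lf (nat_lit 0) (nat_lit 1167507252994) (nat_lit 76) (nat_lit 4708718954722) (nat_lit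 152) (nat_lit 4875350428370) (nat_lit 47) (nat_lit 5) (nat_lit 48) (nat_lit 5) (nat_lit 49) (nat_lit 4) (nat_lit 516) (nat_lit 483) (nat_lit 201)) (XT.lf (nat_lit 0) (nat_lit 8373891092019) (nat_lit 76) (nat_lit 966942730760) (nat_lit 152) (nat_lit 1965665398246) (nat_lit 47) (nat_lit 5) (nat_lit 48) (nat_lit 5) (nat_lit 49) (nat_lit 4) (nat_lit 517) (nat_lit 483) (nat_lit 200))) (XT.nd (nat_lit 78) (nat_lit 0) (nat_lit 0) (XT.lf (nat_lit 0) (nat_lit 1302275213168) (nat_lit 152) (nat_lit 7527418722950) (nat_lit 76) (nat_lit 3059109617684) (nat_lit 45) (nat_lit 5) (nat_lit 47) (nat_lit 5) (nat_lit 46) (nat_lit 4) (nat_lit 518) (nat_lit 483) (nat_lit 199)) (XT.lf (nat_lit 0) (nat_lit 4832834852034) (nat_lit 152) (nat_lit 183854674352) (nat_lit 76) (nat_lit 7488327745983) (nat_lit 45) (nat_lit 5) (nat_lit 47) (nat_lit 5) (nat_lit 46) (nat_lit 4) (nat_lit 519) (nat_lit 483) (nat_lit 198)))))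 (XT.nd (nat_lit 234) (nat_lit 304) (nat_lit 0) (XT.nd (nat_lit 78) (nat_lit 152) (nat_lit 0) (XT.lf (nat_lit 0) (nat_lit 8155148030816) (nat_lit 76) (nat_lit 686822737273) (nat_lit 152) (nat_lit 4312866799846) (nat_lit 44) (nat_lit 5) (nat_lit 45) (nat_lit 5) (nat_lit 46) (nat_lit 4) (nat_lit 520) (nat_lit 483) (nat_lit 197)) (XT.nd (nat_lit 78) (nat_lit 76) (nat_lit 0) (XT.lf (nat_lit 0) (nat_lit 3388937433585) (nat_lit 76) (nat_lit 9965507601303) (nat_lit 76) (nat_lit 487589854062) (nat_lit 43) (nat_lit 4) (nat_lit 44) (nat_lit 5) (nat_lit 44) (nat_lit 4) (nat_lit 521) (nat_lit 483) (nat_lit 196)) (XT.lf (nat_lit 0) (nat_lit 3619526736319) (nat_lit 152) (nat_lit 1949302135876) (nat_lit 76) (nat_lit 8995721373240) (nat_lit 42) (nat_lit 5) (nat_lit 44) (nat_lit 5) (nat_lit 43) (nat_lit 4) (nat_lit 522) (nat_lit 483) (nat_lit 195)))) (XT.nd (nat_lit 156) (nat_lit 152) (nat_lit 0) (XT.nd (nat_lit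 78) (nat_lit 76) (nat_lit 0) (XT.lf (nat_lit 0) (nat_lit 7602436816932) (nat_lit 76) (nat_lit 609272108317) (nat_lit 152) (nat_lit 7117517628419) (nat_lit 41) (nat_lit 5) (nat_lit 42) (nat_lit 5) (nat_lit 43) (nat_lit 4) (nat_lit 523) (nat_lit 483) (nat_lit 194)) (XT.lf (nat_lit 0) (nat_lit 1855635665355) (nat_lit 76) (nat_lit 11529106475743) (nat_lit 76) (nat_lit 2753256709317) (nat_lit 40) (nat_lit 4) (nat_lit 41) (nat_lit 5) (nat_lit 41) (nat_lit 4) (nat_lit 524) (nat_lit 483) (nat_lit 193))) (XT.nd (nat_lit 78) (nat_lit 76) (nat_lit 0) (XT.lf (nat_lit 0) (nat_lit 2094667441306) (nat_lit 152) (nat_lit 4418941488640) (nat_lit 76) (nat_lit 10475486537748) (nat_lit 39) (nat_lit 5) (nat_lit 41) (nat_lit 5) (nat_lit 40) (nat_lit 4) (nat_lit 525) (nat_lit 483) (nat_lit 192)) (XT.lf (nat_lit 0) (nat_lit 6486522929399) (nat_lit 76) (nat_lit 851156251407) (nat_lit 152) (nat_lit 10552399498064)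 (nat_lit 38) (nat_lit 5) (nat_lit 39) (nat_lit 5) (nat_lit 40) (nat_lit 4) (nat_lit 526) (nat_lit 483) (nat_lit 191)))))) (XT.nd (nat_lit 59280) (nat_lit 0) (nat_lit 3648) (XT.nd (nat_lit 234) (nat_lit 76) (nat_lit 0) (XT.nd (nat_lit 78) (nat_lit 228) (nat_lit 0) (XT.lf (nat_lit 0) (nat_lit 13250698141024) (nat_lit 152) (nat_lit 467485783473) (nat_lit 0) (nat_lit 5124911319919) (nat_lit 38) (nat_lit 5) (nat_lit 40) (nat_lit 4) (nat_lit 38) (nat_lit 4) (nat_lit 527) (nat_lit 483) (nat_lit 190)) (XT.nd (nat_lit 78) (nat_lit 76) (nat_lit 0) (XT.lf (nat_lit 0) (nat_lit 92934407880) (nat_lit 152) (nat_lit 7932483252810) (nat_lit 76) (nat_lit 11822049276170) (nat_lit 36) (nat_lit 5) (nat_lit 38) (nat_lit 5) (nat_lit 37) (nat_lit 4) (nat_lit 528) (nat_lit 483) (nat_lit 189)) (XT.lf (nat_lit 0) (nat_lit 4461041525576) (nat_lit 76) (nat_lit 1590318256571) (nat_lit 152) (nat_lit 14859575853723) (nat_lit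 35) (nat_lit 5) (nat_lit 36) (nat_lit 5) (nat_lit 37) (nat_lit 4) (nat_lit 529) (nat_lit 483) (nat_lit 188)))) (XT.nd (nat_lit 58890) (nat_lit 0) (nat_lit 4484) (XT.nd (nat_lit 78) (nat_lit 76) (nat_lit 0) (XT.lf (nat_lit 0) (nat_lit 12837879041090) (nat_lit 152) (nat_lit 3879486846701) (nat_lit 0) (nat_lit 5314002354632) (nat_lit 35) (nat_lit 5) (nat_lit 37) (nat_lit 4) (nat_lit 35) (nat_lit 4) (nat_lit 530) (nat_lit 483) (nat_lit 187)) (XT.lf (nat_lit 0) (nat_lit 10163674175381) (nat_lit 76) (nat_lit 10289389241287) (nat_lit 76) (nat_lit 2765512554758) (nat_lit 34) (nat_lit 4) (nat_lit 35) (nat_lit 5) (nat_lit 35) (nat_lit 4) (nat_lit 531) (nat_lit 483) (nat_lit 186))) (XT.nd (nat_lit 78) (nat_lit 0) (nat_lit 0) (XT.lf (nat_lit 0) (nat_lit 1286197179527) (nat_lit 532) (nat_lit 8579754918) (nat_lit 532) (nat_lit 8579754918) (nat_lit 93) (nat_lit 3) (nat_lit 100) (nat_lit 3) (nat_lit 100)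 (nat_lit 5) (nat_lit 484) (nat_lit 484) (nat_lit 232)) (XT.lf (nat_lit 76) (nat_lit 1348440682374) (nat_lit 0) (nat_lit 1359279490978) (nat_lit 532) (nat_lit 667337328) (nat_lit 94) (nat_lit 5) (nat_lit 93) (nat_lit 3) (nat_lit 100) (nat_lit 5) (nat_lit 485) (nat_lit 484) (nat_lit 231))))) (XT.nd (nat_lit 312) (nat_lit 304) (nat_lit 0) (XT.nd (nat_lit 156) (nat_lit 0) (nat_lit 76) (XT.nd (nat_lit 78) (nat_lit 0) (nat_lit 76) (XT.lf (nat_lit 76) (nat_lit 5512265844) (nat_lit 0) (nat_lit 28993458615) (nat_lit 608) (nat_lit 2783572092966) (nat_lit 87) (nat_lit 5) (nat_lit 86) (nat_lit 5) (nat_lit 94) (nat_lit 5) (nat_lit 486) (nat_lit 484) (nat_lit 230)) (XT.lf (nat_lit 0) (nat_lit 144461325124) (nat_lit 532) (nat_lit 1410857937647) (nat_lit 608) (nat_lit 1375462319466) (nat_lit 87) (nat_lit 5) (nat_lit 94) (nat_lit 5) (nat_lit 95) (nat_lit 5) (nat_lit 487) (nat_lit 484) (nat_lit 229))) (XT.nd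 (nat_lit 78) (nat_lit 0) (nat_lit 76) (XT.lf (nat_lit 76) (nat_lit 107616627527) (nat_lit 0) (nat_lit 158938004824) (nat_lit 608) (nat_lit 2785679715201) (nat_lit 88) (nat_lit 5) (nat_lit 87) (nat_lit 5) (nat_lit 95) (nat_lit 5) (nat_lit 488) (nat_lit 484) (nat_lit 228)) (XT.lf (nat_lit 0) (nat_lit 470439897195) (nat_lit 532) (nat_lit 1385960544803) (nat_lit 608) (nat_lit 1321240932654) (nat_lit 88) (nat_lit 5) (nat_lit 95) (nat_lit 5) (nat_lit 96) (nat_lit 5) (nat_lit 489) (nat_lit 484) (nat_lit 227)))) (XT.nd (nat_lit 156) (nat_lit 456) (nat_lit 0) (XT.nd (nat_lit 78) (nat_lit 0) (nat_lit 76) (XT.lf (nat_lit 76) (nat_lit 308703545589) (nat_lit 0) (nat_lit 393485024488) (nat_lit 608) (nat_lit 2609968186892) (nat_lit 89) (nat_lit 5) (nat_lit 88) (nat_lit 5) (nat_lit 96) (nat_lit 5) (nat_lit 490) (nat_lit 484) (nat_lit 226)) (XT.lf (nat_lit 0) (nat_lit 1019890508079) (nat_lit 532) (nat_lit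 1266158988174) (nat_lit 76) (nat_lit 1165990803916) (nat_lit 89) (nat_lit 5) (nat_lit 96) (nat_lit 5) (nat_lit 90) (nat_lit 5) (nat_lit 491) (nat_lit 484) (nat_lit 225))) (XT.nd (nat_lit 78) (nat_lit 0) (nat_lit 0) (XT.lf (nat_lit 0) (nat_lit 631487967745) (nat_lit 532) (nat_lit 756928323816) (nat_lit 608) (nat_lit 2212665620031) (nat_lit 82) (nat_lit 5) (nat_lit 89) (nat_lit 5) (nat_lit 90) (nat_lit 5) (nat_lit 492) (nat_lit 484) (nat_lit 224)) (XT.lf (nat_lit 0) (nat_lit 1843455651957) (nat_lit 608) (nat_lit 1028735550646) (nat_lit 76) (nat_lit 885293128185) (nat_lit 82) (nat_lit 5) (nat_lit 90) (nat_lit 5) (nat_lit 83) (nat_lit 5) (nat_lit 493) (nat_lit 484) (nat_lit 223))))))))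
noncomputable def xc238 : XT := (XT.nd (nat_lit 2184) (nat_lit 684) (nat_lit 0) (XT.nd (nat_lit 1092) (nat_lit 1216) (nat_lit 0) (XT.nd (nat_lit 546) (nat_lit 684) (nat_lit 0) (XT.nd (nat_lit 234) (nat_lit 532) (nat_lit 0) (XT.nd (nat_lit 78) (nat_lit 228) (nat_lit 0) (XT.lf (nat_lit 0) (nat_lit 1102902697191) (nat_lit 228) (nat_lit 1278180775786) (nat_lit 304) (nat_lit 1541620645599) (nat_lit 79) (nat_lit 5) (nat_lit 82) (nat_lit 5) (nat_lit 83) (nat_lit 5) (nat_lit 494) (nat_lit 484) (nat_lit 222)) (XT.nd (nat_lit 78) (nat_lit 228) (nat_lit 0) (XT.lf (nat_lit 0) (nat_lit 3001242145221) (nat_lit 304) (nat_lit 646707359610) (nat_lit 76) (nat_lit 450030334514) (nat_lit 79) (nat_lit 5) (nat_lit 83) (nat_lit 5) (nat_lit 80) (nat_lit 5) (nat_lit 495) (nat_lit 484) (nat_lit 221)) (XT.lf (nat_lit 0) (nat_lit 1754817820311) (nat_lit 228) (nat_lit 1991598601907) (nat_lit 304) (nat_lit 534828962680)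 (nat_lit 76) (nat_lit 5) (nat_lit 79) (nat_lit 5) (nat_lit 80) (nat_lit 5) (nat_lit 496) (nat_lit 484) (nat_lit 220)))) (XT.nd (nat_lit 156) (nat_lit 228) (nat_lit 0) (XT.nd (nat_lit 78) (nat_lit 228) (nat_lit 0) (XT.lf (nat_lit 0) (nat_lit 86570512322) (nat_lit 304) (nat_lit 94705427988) (nat_lit 76) (nat_lit 4296306331116) (nat_lit 75) (nat_lit 5) (nat_lit 79) (nat_lit 5) (nat_lit 76) (nat_lit 5) (nat_lit 497) (nat_lit 484) (nat_lit 219)) (XT.lf (nat_lit 0) (nat_lit 837203628146) (nat_lit 304) (nat_lit 2077855271841) (nat_lit 76) (nat_lit 1764782568902) (nat_lit 72) (nat_lit 5) (nat_lit 76) (nat_lit 5) (nat_lit 73) (nat_lit 5) (nat_lit 498) (nat_lit 484) (nat_lit 218))) (XT.nd (nat_lit 78) (nat_lit 0) (nat_lit 0) (XT.lf (nat_lit 0) (nat_lit 649436610122) (nat_lit 228) (nat_lit 1021434886519) (nat_lit 304) (nat_lit 3225571177235) (nat_lit 69) (nat_lit 5) (nat_lit 72) (nat_lit 5) (nat_lit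 73) (nat_lit 5) (nat_lit 499) (nat_lit 484) (nat_lit 217)) (XT.lf (nat_lit 0) (nat_lit 2654140188086) (nat_lit 304) (nat_lit 1438840831558) (nat_lit 76) (nat_lit 1030758364141) (nat_lit 69) (nat_lit 5) (nat_lit 73) (nat_lit 5) (nat_lit 70) (nat_lit 5) (nat_lit 500) (nat_lit 484) (nat_lit 216))))) (XT.nd (nat_lit 234) (nat_lit 304) (nat_lit 0) (XT.nd (nat_lit 78) (nat_lit 228) (nat_lit 0) (XT.lf (nat_lit 0) (nat_lit 1649985815396) (nat_lit 152) (nat_lit 2132297533896) (nat_lit 228) (nat_lit 1581639443240) (nat_lit 67) (nat_lit 5) (nat_lit 69) (nat_lit 5) (nat_lit 70) (nat_lit 5) (nat_lit 501) (nat_lit 484) (nat_lit 215)) (XT.nd (nat_lit 78) (nat_lit 228) (nat_lit 0) (XT.lf (nat_lit 0) (nat_lit 5040685288111) (nat_lit 228) (nat_lit 553093757625) (nat_lit 76) (nat_lit 26341242264) (nat_lit 67) (nat_lit 5) (nat_lit 70) (nat_lit 5) (nat_lit 68) (nat_lit 5) (nat_lit 502) (nat_lit 484) (nat_lit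 214)) (XT.lf (nat_lit 0) (nat_lit 607472502466) (nat_lit 228) (nat_lit 2949129258894) (nat_lit 76) (nat_lit 2328869265915) (nat_lit 64) (nat_lit 5) (nat_lit 67) (nat_lit 5) (nat_lit 65) (nat_lit 5) (nat_lit 503) (nat_lit 484) (nat_lit 213)))) (XT.nd (nat_lit 156) (nat_lit 152) (nat_lit 0) (XT.nd (nat_lit 78) (nat_lit 0) (nat_lit 0) (XT.lf (nat_lit 0) (nat_lit 579071495300) (nat_lit 152) (nat_lit 1308398609876) (nat_lit 228) (nat_lit 4281020336502) (nat_lit 62) (nat_lit 5) (nat_lit 64) (nat_lit 5) (nat_lit 65) (nat_lit 5) (nat_lit 504) (nat_lit 484) (nat_lit 212)) (XT.lf (nat_lit 0) (nat_lit 3379524205572) (nat_lit 228) (nat_lit 1939475021722) (nat_lit 76) (nat_lit 1146379646783) (nat_lit 62) (nat_lit 5) (nat_lit 65) (nat_lit 5) (nat_lit 63) (nat_lit 5) (nat_lit 505) (nat_lit 484) (nat_lit 211))) (XT.nd (nat_lit 78) (nat_lit 0) (nat_lit 0) (XT.lf (nat_lit 0) (nat_lit 2072136707268) (nat_lit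 152) (nat_lit 3002625243557) (nat_lit 228) (nat_lit 1704550884896) (nat_lit 60) (nat_lit 5) (nat_lit 62) (nat_lit 5) (nat_lit 63) (nat_lit 5) (nat_lit 506) (nat_lit 484) (nat_lit 210)) (XT.lf (nat_lit 0) (nat_lit 6514977037134) (nat_lit 152) (nat_lit 443670362420) (nat_lit 228) (nat_lit 155471820034) (nat_lit 60) (nat_lit 5) (nat_lit 62) (nat_lit 5) (nat_lit 63) (nat_lit 5) (nat_lit 507) (nat_lit 484) (nat_lit 209)))))) (XT.nd (nat_lit 546) (nat_lit 532) (nat_lit 0) (XT.nd (nat_lit 234) (nat_lit 380) (nat_lit 0) (XT.nd (nat_lit 78) (nat_lit 152) (nat_lit 0) (XT.lf (nat_lit 0) (nat_lit 1597092692413) (nat_lit 152) (nat_lit 3523141893834) (nat_lit 76) (nat_lit 2340118006600) (nat_lit 58) (nat_lit 5) (nat_lit 60) (nat_lit 5) (nat_lit 59) (nat_lit 5) (nat_lit 508) (nat_lit 484) (nat_lit 208)) (XT.nd (nat_lit 78) (nat_lit 0) (nat_lit 0) (XT.lf (nat_lit 0) (nat_lit 1075378612686) (nat_lit 152)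 (nat_lit 2460278128789) (nat_lit 228) (nat_lit 4293969324794) (nat_lit 56) (nat_lit 5) (nat_lit 58) (nat_lit 5) (nat_lit 59) (nat_lit 5) (nat_lit 509) (nat_lit 484) (nat_lit 207)) (XT.lf (nat_lit 0) (nat_lit 5738056937538) (nat_lit 228) (nat_lit 1991012221986) (nat_lit 76) (nat_lit 490672176193) (nat_lit 56) (nat_lit 5) (nat_lit 59) (nat_lit 5) (nat_lit 57) (nat_lit 4) (nat_lit 510) (nat_lit 484) (nat_lit 206)))) (XT.nd (nat_lit 156) (nat_lit 228) (nat_lit 0) (XT.nd (nat_lit 78) (nat_lit 76) (nat_lit 0) (XT.lf (nat_lit 0) (nat_lit 3252059696654) (nat_lit 76) (nat_lit 5006704894330) (nat_lit 152) (nat_lit 370932000404) (nat_lit 55) (nat_lit 5) (nat_lit 56) (nat_lit 5) (nat_lit 57) (nat_lit 4) (nat_lit 511) (nat_lit 484) (nat_lit 205)) (XT.lf (nat_lit 0) (nat_lit 1869052427105) (nat_lit 152) (nat_lit 87603028654) (nat_lit 76) (nat_lit 7107652364932) (nat_lit 54) (nat_lit 5) (nat_lit 56) (nat_lit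 5) (nat_lit 55) (nat_lit 5) (nat_lit 512) (nat_lit 484) (nat_lit 204))) (XT.nd (nat_lit 78) (nat_lit 76) (nat_lit 0) (XT.lf (nat_lit 0) (nat_lit 4446480450396) (nat_lit 228) (nat_lit 3645923120151) (nat_lit 76) (nat_lit 1426250825661) (nat_lit 52) (nat_lit 5) (nat_lit 55) (nat_lit 5) (nat_lit 53) (nat_lit 4) (nat_lit 513) (nat_lit 484) (nat_lit 203)) (XT.lf (nat_lit 0) (nat_lit 2373568376637) (nat_lit 76) (nat_lit 4966898370478) (nat_lit 152) (nat_lit 2660052828127) (nat_lit 51) (nat_lit 5) (nat_lit 52) (nat_lit 5) (nat_lit 53) (nat_lit 4) (nat_lit 514) (nat_lit 484) (nat_lit 202))))) (XT.nd (nat_lit 234) (nat_lit 228) (nat_lit 0) (XT.nd (nat_lit 78) (nat_lit 228) (nat_lit 0) (XT.lf (nat_lit 0) (nat_lit 50062647615) (nat_lit 152) (nat_lit 1432260426275) (nat_lit 76) (nat_lit 9030534622082) (nat_lit 50) (nat_lit 5) (nat_lit 52) (nat_lit 5) (nat_lit 51) (nat_lit 5) (nat_lit 515) (nat_lit 484)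 (nat_lit 201)) (XT.nd (nat_lit 78) (nat_lit 76) (nat_lit 0) (XT.lf (nat_lit 0) (nat_lit 3024705534120) (nat_lit 228) (nat_lit 5648059209449) (nat_lit 76) (nat_lit 2372576330876) (nat_lit 48) (nat_lit 5) (nat_lit 51) (nat_lit 5) (nat_lit 49) (nat_lit 4) (nat_lit 516) (nat_lit 484) (nat_lit 200)) (XT.lf (nat_lit 0) (nat_lit 1260907840642) (nat_lit 76) (nat_lit 5085416467697) (nat_lit 152) (nat_lit 5265378458313) (nat_lit 47) (nat_lit 5) (nat_lit 48) (nat_lit 5) (nat_lit 49) (nat_lit 4) (nat_lit 517) (nat_lit 484) (nat_lit 199)))) (XT.nd (nat_lit 156) (nat_lit 76) (nat_lit 0) (XT.nd (nat_lit 78) (nat_lit 152) (nat_lit 0) (XT.lf (nat_lit 0) (nat_lit 9043802386240) (nat_lit 76) (nat_lit 1044298146071) (nat_lit 152) (nat_lit 2122918626100) (nat_lit 47) (nat_lit 5) (nat_lit 48) (nat_lit 5) (nat_lit 49) (nat_lit 4) (nat_lit 518) (nat_lit 484) (nat_lit 198)) (XT.lf (nat_lit 0) (nat_lit 1406457233988)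 (nat_lit 152) (nat_lit 8129612213686) (nat_lit 76) (nat_lit 3303838390132) (nat_lit 45) (nat_lit 5) (nat_lit 47) (nat_lit 5) (nat_lit 46) (nat_lit 4) (nat_lit 519) (nat_lit 484) (nat_lit 197))) (XT.nd (nat_lit 78) (nat_lit 76) (nat_lit 0) (XT.lf (nat_lit 0) (nat_lit 5219461643684) (nat_lit 152) (nat_lit 198563041726) (nat_lit 76) (nat_lit 8087393968469) (nat_lit 45) (nat_lit 5) (nat_lit 47) (nat_lit 5) (nat_lit 46) (nat_lit 4) (nat_lit 520) (nat_lit 484) (nat_lit 196)) (XT.lf (nat_lit 0) (nat_lit 8807559879689) (nat_lit 76) (nat_lit 741768553230) (nat_lit 152) (nat_lit 4657896140180) (nat_lit 44) (nat_lit 5) (nat_lit 45) (nat_lit 5) (nat_lit 46) (nat_lit 4) (nat_lit 521) (nat_lit 484) (nat_lit 195))))))) (XT.nd (nat_lit 59904) (nat_lit 0) (nat_lit 2432) (XT.nd (nat_lit 546) (nat_lit 228) (nat_lit 0) (XT.nd (nat_lit 234) (nat_lit 228) (nat_lit 0) (XT.nd (nat_lit 78) (nat_lit 152) (nat_lit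 0) (XT.lf (nat_lit 0) (nat_lit 3660052434711) (nat_lit 76) (nat_lit 10762748206323) (nat_lit 76) (nat_lit 526597038764) (nat_lit 43) (nat_lit 4) (nat_lit 44) (nat_lit 5) (nat_lit 44) (nat_lit 4) (nat_lit 522) (nat_lit 484) (nat_lit 194)) (XT.nd (nat_lit 78) (nat_lit 76) (nat_lit 0) (XT.lf (nat_lit 0) (nat_lit 3909088878411) (nat_lit 152) (nat_lit 2105246300617) (nat_lit 76) (nat_lit 9715379085787) (nat_lit 42) (nat_lit 5) (nat_lit 44) (nat_lit 5) (nat_lit 43) (nat_lit 4) (nat_lit 523) (nat_lit 484) (nat_lit 193)) (XT.lf (nat_lit 0) (nat_lit 8210631768261) (nat_lit 76) (nat_lit 658013874102) (nat_lit 152) (nat_lit 7686919035351) (nat_lit 41) (nat_lit 5) (nat_lit 42) (nat_lit 5) (nat_lit 43) (nat_lit 4) (nat_lit 524) (nat_lit 484) (nat_lit 192)))) (XT.nd (nat_lit 156) (nat_lit 76) (nat_lit 0) (XT.nd (nat_lit 78) (nat_lit 76) (nat_lit 0) (XT.lf (nat_lit 0) (nat_lit 2004086524580) (nat_lit 76)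 (nat_lit 12451434990879) (nat_lit 76) (nat_lit 2973517242743) (nat_lit 40) (nat_lit 4) (nat_lit 41) (nat_lit 5) (nat_lit 41) (nat_lit 4) (nat_lit 525) (nat_lit 484) (nat_lit 191)) (XT.lf (nat_lit 0) (nat_lit 2262240839531) (nat_lit 152) (nat_lit 4772456802024) (nat_lit 76) (nat_lit 11313525463321) (nat_lit 39) (nat_lit 5) (nat_lit 41) (nat_lit 5) (nat_lit 40) (nat_lit 4) (nat_lit 526) (nat_lit 484) (nat_lit 190))) (XT.nd (nat_lit 78) (nat_lit 0) (nat_lit 0) (XT.lf (nat_lit 0) (nat_lit 7005444769313) (nat_lit 76) (nat_lit 919248748795) (nat_lit 152) (nat_lit 11396591454844) (nat_lit 38) (nat_lit 5) (nat_lit 39) (nat_lit 5) (nat_lit 40) (nat_lit 4) (nat_lit 527) (nat_lit 484) (nat_lit 189)) (XT.lf (nat_lit 0) (nat_lit 14310753994993) (nat_lit 152) (nat_lit 504884640852) (nat_lit 0) (nat_lit 5534904227909) (nat_lit 38) (nat_lit 5) (nat_lit 40) (nat_lit 4) (nat_lit 38) (nat_lit 4) (nat_lit 528)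 (nat_lit 484) (nat_lit 188))))) (XT.nd (nat_lit 59046) (nat_lit 0) (nat_lit 3876) (XT.nd (nat_lit 78) (nat_lit 76) (nat_lit 0) (XT.lf (nat_lit 0) (nat_lit 100369163191) (nat_lit 152) (nat_lit 8567081907728) (nat_lit 76) (nat_lit 12767813220675) (nat_lit 36) (nat_lit 5) (nat_lit 38) (nat_lit 5) (nat_lit 37) (nat_lit 4) (nat_lit 529) (nat_lit 484) (nat_lit 187)) (XT.nd (nat_lit 78) (nat_lit 0) (nat_lit 0) (XT.lf (nat_lit 0) (nat_lit 4817924852795) (nat_lit 76) (nat_lit 1717543714531) (nat_lit 152) (nat_lit 16048341919206) (nat_lit 35) (nat_lit 5) (nat_lit 36) (nat_lit 5) (nat_lit 37) (nat_lit 4) (nat_lit 530) (nat_lit 484) (nat_lit 186)) (XT.lf (nat_lit 0) (nat_lit 13864909366848) (nat_lit 152) (nat_lit 4189845789512) (nat_lit 0) (nat_lit 5739122545260) (nat_lit 35) (nat_lit 5) (nat_lit 37) (nat_lit 4) (nat_lit 35) (nat_lit 4) (nat_lit 531) (nat_lit 484) (nat_lit 185)))) (XT.nd (nat_lit 156)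 (nat_lit 532) (nat_lit 0) (XT.nd (nat_lit 78) (nat_lit 0) (nat_lit 0) (XT.lf (nat_lit 0) (nat_lit 1389092962765) (nat_lit 532) (nat_lit 9266130518) (nat_lit 532) (nat_lit 9266130518) (nat_lit 93) (nat_lit 3) (nat_lit 100) (nat_lit 3) (nat_lit 100) (nat_lit 5) (nat_lit 485) (nat_lit 485) (nat_lit 230)) (XT.lf (nat_lit 76) (nat_lit 1456315946307) (nat_lit 0) (nat_lit 1468021857573) (nat_lit 532) (nat_lit 720706319) (nat_lit 94) (nat_lit 5) (nat_lit 93) (nat_lit 3) (nat_lit 100) (nat_lit 5) (nat_lit 486) (nat_lit 485) (nat_lit 229))) (XT.nd (nat_lit 78) (nat_lit 0) (nat_lit 76) (XT.lf (nat_lit 76) (nat_lit 5953257099) (nat_lit 0) (nat_lit 31312941387) (nat_lit 608) (nat_lit 3006257843046) (nat_lit 87) (nat_lit 5) (nat_lit 86) (nat_lit 5) (nat_lit 94) (nat_lit 5) (nat_lit 487) (nat_lit 485) (nat_lit 228)) (XT.lf (nat_lit 0) (nat_lit 156018245877) (nat_lit 532) (nat_lit 1523726562085) (nat_lit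 608) (nat_lit 1485499299673) (nat_lit 87) (nat_lit 5) (nat_lit 94) (nat_lit 5) (nat_lit 95) (nat_lit 5) (nat_lit 488) (nat_lit 485) (nat_lit 227)))))) (XT.nd (nat_lit 546) (nat_lit 912) (nat_lit 0) (XT.nd (nat_lit 234) (nat_lit 608) (nat_lit 0) (XT.nd (nat_lit 78) (nat_lit 0) (nat_lit 76) (XT.lf (nat_lit 76) (nat_lit 116225968036) (nat_lit 0) (nat_lit 171653048803) (nat_lit 608) (nat_lit 3008534077405) (nat_lit 88) (nat_lit 5) (nat_lit 87) (nat_lit 5) (nat_lit 95) (nat_lit 5) (nat_lit 489) (nat_lit 485) (nat_lit 226)) (XT.nd (nat_lit 78) (nat_lit 0) (nat_lit 0) (XT.lf (nat_lit 0) (nat_lit 508075101760) (nat_lit 532) (nat_lit 1496837377733) (nat_lit 608) (nat_lit 1426940204106) (nat_lit 88) (nat_lit 5) (nat_lit 95) (nat_lit 5) (nat_lit 96) (nat_lit 5) (nat_lit 490) (nat_lit 485) (nat_lit 225)) (XT.lf (nat_lit 76) (nat_lit 333399839621) (nat_lit 0) (nat_lit 424963828155) (nat_lit 608) (nat_lit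 2818765628783) (nat_lit 89) (nat_lit 5) (nat_lit 88) (nat_lit 5) (nat_lit 96) (nat_lit 5) (nat_lit 491) (nat_lit 485) (nat_lit 224)))) (XT.nd (nat_lit 156) (nat_lit 228) (nat_lit 0) (XT.nd (nat_lit 78) (nat_lit 532) (nat_lit 0) (XT.lf (nat_lit 0) (nat_lit 1101481759884) (nat_lit 532) (nat_lit 1367451696678) (nat_lit 76) (nat_lit 1259270066728) (nat_lit 89) (nat_lit 5) (nat_lit 96) (nat_lit 5) (nat_lit 90) (nat_lit 5) (nat_lit 492) (nat_lit 485) (nat_lit 223)) (XT.lf (nat_lit 0) (nat_lit 682007015448) (nat_lit 532) (nat_lit 817482590017) (nat_lit 608) (nat_lit 2389678858207) (nat_lit 82) (nat_lit 5) (nat_lit 89) (nat_lit 5) (nat_lit 90) (nat_lit 5) (nat_lit 493) (nat_lit 485) (nat_lit 222))) (XT.nd (nat_lit 78) (nat_lit 228) (nat_lit 0) (XT.lf (nat_lit 0) (nat_lit 1990932113902) (nat_lit 608) (nat_lit 1111034384385) (nat_lit 76) (nat_lit 956116578180) (nat_lit 82) (nat_lit 5) (nat_lit 90)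 (nat_lit 5) (nat_lit 83) (nat_lit 5) (nat_lit 494) (nat_lit 485) (nat_lit 221)) (XT.lf (nat_lit 0) (nat_lit 1191134923018) (nat_lit 228) (nat_lit 1380435237103) (nat_lit 304) (nat_lit 1664950287197) (nat_lit 79) (nat_lit 5) (nat_lit 82) (nat_lit 5) (nat_lit 83) (nat_lit 5) (nat_lit 495) (nat_lit 485) (nat_lit 220))))) (XT.nd (nat_lit 312) (nat_lit 380) (nat_lit 0) (XT.nd (nat_lit 156) (nat_lit 304) (nat_lit 0) (XT.nd (nat_lit 78) (nat_lit 228) (nat_lit 0) (XT.lf (nat_lit 0) (nat_lit 3241341525472) (nat_lit 304) (nat_lit 698443938398) (nat_lit 76) (nat_lit 486032761931) (nat_lit 79) (nat_lit 5) (nat_lit 83) (nat_lit 5) (nat_lit 80) (nat_lit 5) (nat_lit 496) (nat_lit 485) (nat_lit 219)) (XT.lf (nat_lit 0) (nat_lit 1895203255664) (nat_lit 228) (nat_lit 2150926488559) (nat_lit 304) (nat_lit 577615270808) (nat_lit 76) (nat_lit 5) (nat_lit 79) (nat_lit 5) (nat_lit 80) (nat_lit 5) (nat_lit 497)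 (nat_lit 485) (nat_lit 218))) (XT.nd (nat_lit 78) (nat_lit 228) (nat_lit 0) (XT.lf (nat_lit 0) (nat_lit 93496161124) (nat_lit 304) (nat_lit 102281852807) (nat_lit 76) (nat_lit 4640010838582) (nat_lit 75) (nat_lit 5) (nat_lit 79) (nat_lit 5) (nat_lit 76) (nat_lit 5) (nat_lit 498) (nat_lit 485) (nat_lit 217)) (XT.lf (nat_lit 0) (nat_lit 904179925897) (nat_lit 304) (nat_lit 2244083683851) (nat_lit 76) (nat_lit 1905965176051) (nat_lit 72) (nat_lit 5) (nat_lit 76) (nat_lit 5) (nat_lit 73) (nat_lit 5) (nat_lit 499) (nat_lit 485) (nat_lit 216)))) (XT.nd (nat_lit 156) (nat_lit 152) (nat_lit 0) (XT.nd (nat_lit 78) (nat_lit 0) (nat_lit 0) (XT.lf (nat_lit 0) (nat_lit 701391548422) (nat_lit 228) (nat_lit 1103149675122) (nat_lit 304) (nat_lit 3483616863667) (nat_lit 69) (nat_lit 5) (nat_lit 72) (nat_lit 5) (nat_lit 73) (nat_lit 5) (nat_lit 500) (nat_lit 485) (nat_lit 215)) (XT.lf (nat_lit 0) (nat_lit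 2866471409826) (nat_lit 304) (nat_lit 1553948088815) (nat_lit 76) (nat_lit 1113219035312) (nat_lit 69) (nat_lit 5) (nat_lit 73) (nat_lit 5) (nat_lit 70) (nat_lit 5) (nat_lit 501) (nat_lit 485) (nat_lit 214))) (XT.nd (nat_lit 78) (nat_lit 0) (nat_lit 0) (XT.lf (nat_lit 0) (nat_lit 1781984689661) (nat_lit 152) (nat_lit 2302881333988) (nat_lit 228) (nat_lit 1708170591772) (nat_lit 67) (nat_lit 5) (nat_lit 69) (nat_lit 5) (nat_lit 70) (nat_lit 5) (nat_lit 502) (nat_lit 485) (nat_lit 213)) (XT.lf (nat_lit 0) (nat_lit 5443940117158) (nat_lit 228) (nat_lit 597341249454) (nat_lit 76) (nat_lit 28448543949) (nat_lit 67) (nat_lit 5) (nat_lit 70) (nat_lit 5) (nat_lit 68) (nat_lit 5) (nat_lit 503) (nat_lit 485) (nat_lit 212))))))))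
noncomputable def xc239 : XT := (XT.nd (nat_lit 61152) (nat_lit 0) (nat_lit 1216) (XT.nd (nat_lit 1092) (nat_lit 912) (nat_lit 0) (XT.nd (nat_lit 546) (nat_lit 608) (nat_lit 0) (XT.nd (nat_lit 234) (nat_lit 456) (nat_lit 0) (XT.nd (nat_lit 78) (nat_lit 152) (nat_lit 0) (XT.lf (nat_lit 0) (nat_lit 656070308573) (nat_lit 228) (nat_lit 3185059590734) (nat_lit 76) (nat_lit 2515178809676) (nat_lit 64) (nat_lit 5) (nat_lit 67) (nat_lit 5) (nat_lit 65) (nat_lit 5) (nat_lit 504) (nat_lit 485) (nat_lit 211)) (XT.nd (nat_lit 78) (nat_lit 0) (nat_lit 0) (XT.lf (nat_lit 0) (nat_lit 625397223570) (nat_lit 152) (nat_lit 1413070495700) (nat_lit 228) (nat_lit 4623501957288) (nat_lit 62) (nat_lit 5) (nat_lit 64) (nat_lit 5) (nat_lit 65) (nat_lit 5) (nat_lit 505) (nat_lit 485) (nat_lit 210)) (XT.lf (nat_lit 0) (nat_lit 3649886147342) (nat_lit 228) (nat_lit 2094633015099) (nat_lit 76) (nat_lit 1238090021135)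 (nat_lit 62) (nat_lit 5) (nat_lit 65) (nat_lit 5) (nat_lit 63) (nat_lit 5) (nat_lit 506) (nat_lit 485) (nat_lit 209)))) (XT.nd (nat_lit 156) (nat_lit 304) (nat_lit 0) (XT.nd (nat_lit 78) (nat_lit 0) (nat_lit 0) (XT.lf (nat_lit 0) (nat_lit 2237907651998) (nat_lit 152) (nat_lit 3242835260019) (nat_lit 228) (nat_lit 1840914950151) (nat_lit 60) (nat_lit 5) (nat_lit 62) (nat_lit 5) (nat_lit 63) (nat_lit 5) (nat_lit 507) (nat_lit 485) (nat_lit 208)) (XT.lf (nat_lit 0) (nat_lit 7036175207650) (nat_lit 152) (nat_lit 479163988614) (nat_lit 228) (nat_lit 167909560510) (nat_lit 60) (nat_lit 5) (nat_lit 62) (nat_lit 5) (nat_lit 63) (nat_lit 5) (nat_lit 508) (nat_lit 485) (nat_lit 207))) (XT.nd (nat_lit 78) (nat_lit 152) (nat_lit 0) (XT.lf (nat_lit 0) (nat_lit 1724860112568) (nat_lit 152) (nat_lit 3804993237431) (nat_lit 76) (nat_lit 2527327449894) (nat_lit 58) (nat_lit 5) (nat_lit 60) (nat_lit 5) (nat_lit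 59) (nat_lit 5) (nat_lit 509) (nat_lit 485) (nat_lit 206)) (XT.lf (nat_lit 0) (nat_lit 1161408909410) (nat_lit 152) (nat_lit 2657100375977) (nat_lit 228) (nat_lit 4637486865814) (nat_lit 56) (nat_lit 5) (nat_lit 58) (nat_lit 5) (nat_lit 59) (nat_lit 5) (nat_lit 510) (nat_lit 485) (nat_lit 205))))) (XT.nd (nat_lit 234) (nat_lit 456) (nat_lit 0) (XT.nd (nat_lit 78) (nat_lit 152) (nat_lit 0) (XT.lf (nat_lit 0) (nat_lit 6197101496865) (nat_lit 228) (nat_lit 2150293192335) (nat_lit 76) (nat_lit 529925953029) (nat_lit 56) (nat_lit 5) (nat_lit 59) (nat_lit 5) (nat_lit 57) (nat_lit 4) (nat_lit 511) (nat_lit 485) (nat_lit 204)) (XT.nd (nat_lit 78) (nat_lit 76) (nat_lit 0) (XT.lf (nat_lit 0) (nat_lit 3512224479609) (nat_lit 76) (nat_lit 5407241282831) (nat_lit 152) (nat_lit 400606555924) (nat_lit 55) (nat_lit 5) (nat_lit 56) (nat_lit 5) (nat_lit 57) (nat_lit 4) (nat_lit 512) (nat_lit 485) (nat_lit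 203)) (XT.lf (nat_lit 0) (nat_lit 2018576625242) (nat_lit 152) (nat_lit 94611264050) (nat_lit 76) (nat_lit 7676264556736) (nat_lit 54) (nat_lit 5) (nat_lit 56) (nat_lit 5) (nat_lit 55) (nat_lit 5) (nat_lit 513) (nat_lit 485) (nat_lit 202)))) (XT.nd (nat_lit 156) (nat_lit 228) (nat_lit 0) (XT.nd (nat_lit 78) (nat_lit 76) (nat_lit 0) (XT.lf (nat_lit 0) (nat_lit 4802198890333) (nat_lit 228) (nat_lit 3937596962804) (nat_lit 76) (nat_lit 1540350894455) (nat_lit 52) (nat_lit 5) (nat_lit 55) (nat_lit 5) (nat_lit 53) (nat_lit 4) (nat_lit 514) (nat_lit 485) (nat_lit 201)) (XT.lf (nat_lit 0) (nat_lit 2563453853552) (nat_lit 76) (nat_lit 5364250237112) (nat_lit 152) (nat_lit 2872857050295) (nat_lit 51) (nat_lit 5) (nat_lit 52) (nat_lit 5) (nat_lit 53) (nat_lit 4) (nat_lit 515) (nat_lit 485) (nat_lit 200))) (XT.nd (nat_lit 78) (nat_lit 152) (nat_lit 0) (XT.lf (nat_lit 0) (nat_lit 54067663015) (nat_lit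 152) (nat_lit 1546841253907) (nat_lit 76) (nat_lit 9752977394441) (nat_lit 50) (nat_lit 5) (nat_lit 52) (nat_lit 5) (nat_lit 51) (nat_lit 5) (nat_lit 516) (nat_lit 485) (nat_lit 199)) (XT.lf (nat_lit 0) (nat_lit 3266681980394) (nat_lit 228) (nat_lit 6099903939688) (nat_lit 76) (nat_lit 2562382440035) (nat_lit 48) (nat_lit 5) (nat_lit 51) (nat_lit 5) (nat_lit 49) (nat_lit 4) (nat_lit 517) (nat_lit 485) (nat_lit 198)))))) (XT.nd (nat_lit 546) (nat_lit 456) (nat_lit 0) (XT.nd (nat_lit 234) (nat_lit 228) (nat_lit 0) (XT.nd (nat_lit 78) (nat_lit 152) (nat_lit 0) (XT.lf (nat_lit 0) (nat_lit 1361780474245) (nat_lit 76) (nat_lit 5492249782196) (nat_lit 152) (nat_lit 5686608731269) (nat_lit 47) (nat_lit 5) (nat_lit 48) (nat_lit 5) (nat_lit 49) (nat_lit 4) (nat_lit 518) (nat_lit 485) (nat_lit 197)) (XT.nd (nat_lit 78) (nat_lit 152) (nat_lit 0) (XT.lf (nat_lit 0) (nat_lit 9767306583021) (nat_lit 76)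 (nat_lit 1127841995055) (nat_lit 152) (nat_lit 2292752112753) (nat_lit 47) (nat_lit 5) (nat_lit 48) (nat_lit 5) (nat_lit 49) (nat_lit 4) (nat_lit 519) (nat_lit 485) (nat_lit 196)) (XT.lf (nat_lit 0) (nat_lit 1518973815936) (nat_lit 152) (nat_lit 8779981184694) (nat_lit 76) (nat_lit 3568145463942) (nat_lit 45) (nat_lit 5) (nat_lit 47) (nat_lit 5) (nat_lit 46) (nat_lit 4) (nat_lit 520) (nat_lit 485) (nat_lit 195)))) (XT.nd (nat_lit 156) (nat_lit 152) (nat_lit 0) (XT.nd (nat_lit 78) (nat_lit 76) (nat_lit 0) (XT.lf (nat_lit 0) (nat_lit 5637018578169) (nat_lit 152) (nat_lit 214448079428) (nat_lit 76) (nat_lit 8734385488354) (nat_lit 45) (nat_lit 5) (nat_lit 47) (nat_lit 5) (nat_lit 46) (nat_lit 4) (nat_lit 521) (nat_lit 485) (nat_lit 194)) (XT.lf (nat_lit 0) (nat_lit 9512164675557) (nat_lit 76) (nat_lit 801110034896) (nat_lit 152) (nat_lit 5030527828262) (nat_lit 44) (nat_lit 5) (nat_lit 45)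 (nat_lit 5) (nat_lit 46) (nat_lit 4) (nat_lit 522) (nat_lit 485) (nat_lit 193))) (XT.nd (nat_lit 78) (nat_lit 76) (nat_lit 0) (XT.lf (nat_lit 0) (nat_lit 3952856635008) (nat_lit 76) (nat_lit 11623768060185) (nat_lit 76) (nat_lit 568724798759) (nat_lit 43) (nat_lit 4) (nat_lit 44) (nat_lit 5) (nat_lit 44) (nat_lit 4) (nat_lit 523) (nat_lit 485) (nat_lit 192)) (XT.lf (nat_lit 0) (nat_lit 4221815991416) (nat_lit 152) (nat_lit 2273665999411) (nat_lit 76) (nat_lit 10492609414954) (nat_lit 42) (nat_lit 5) (nat_lit 44) (nat_lit 5) (nat_lit 43) (nat_lit 4) (nat_lit 524) (nat_lit 485) (nat_lit 191))))) (XT.nd (nat_lit 234) (nat_lit 228) (nat_lit 0) (XT.nd (nat_lit 78) (nat_lit 152) (nat_lit 0) (XT.lf (nat_lit 0) (nat_lit 8867482314844) (nat_lit 76) (nat_lit 710654981561) (nat_lit 152) (nat_lit 8301872555314) (nat_lit 41) (nat_lit 5) (nat_lit 42) (nat_lit 5) (nat_lit 43) (nat_lit 4) (nat_lit 525)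 (nat_lit 485) (nat_lit 190)) (XT.nd (nat_lit 78) (nat_lit 76) (nat_lit 0) (XT.lf (nat_lit 0) (nat_lit 2164413451688) (nat_lit 76) (nat_lit 13447549787643) (nat_lit 76) (nat_lit 3211398619316) (nat_lit 40) (nat_lit 4) (nat_lit 41) (nat_lit 5) (nat_lit 41) (nat_lit 4) (nat_lit 526) (nat_lit 485) (nat_lit 189)) (XT.lf (nat_lit 0) (nat_lit 2443220109196) (nat_lit 152) (nat_lit 5154253341294) (nat_lit 76) (nat_lit 12218607502576) (nat_lit 39) (nat_lit 5) (nat_lit 41) (nat_lit 5) (nat_lit 40) (nat_lit 4) (nat_lit 527) (nat_lit 485) (nat_lit 188)))) (XT.nd (nat_lit 156) (nat_lit 152) (nat_lit 0) (XT.nd (nat_lit 78) (nat_lit 0) (nat_lit 0) (XT.lf (nat_lit 0) (nat_lit 7565880355626) (nat_lit 76) (nat_lit 992788646363) (nat_lit 152) (nat_lit 12308318768605) (nat_lit 38) (nat_lit 5) (nat_lit 39) (nat_lit 5) (nat_lit 40) (nat_lit 4) (nat_lit 528) (nat_lit 485) (nat_lit 187)) (XT.lf (nat_lit 0) (nat_lit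 15455614316897) (nat_lit 152) (nat_lit 545275407577) (nat_lit 0) (nat_lit 5977696568196) (nat_lit 38) (nat_lit 5) (nat_lit 40) (nat_lit 4) (nat_lit 38) (nat_lit 4) (nat_lit 529) (nat_lit 485) (nat_lit 186))) (XT.nd (nat_lit 59046) (nat_lit 0) (nat_lit 4332) (XT.lf (nat_lit 0) (nat_lit 108398698545) (nat_lit 152) (nat_lit 9252448455797) (nat_lit 76) (nat_lit 13789238280396) (nat_lit 36) (nat_lit 5) (nat_lit 38) (nat_lit 5) (nat_lit 37) (nat_lit 4) (nat_lit 530) (nat_lit 485) (nat_lit 185)) (XT.lf (nat_lit 0) (nat_lit 1500220407395) (nat_lit 532) (nat_lit 10007416850) (nat_lit 532) (nat_lit 10007416850) (nat_lit 93) (nat_lit 3) (nat_lit 100) (nat_lit 3) (nat_lit 100) (nat_lit 5) (nat_lit 486) (nat_lit 486) (nat_lit 228))))))) (XT.nd (nat_lit 1092) (nat_lit 1520) (nat_lit 0) (XT.nd (nat_lit 546) (nat_lit 1064) (nat_lit 0) (XT.nd (nat_lit 234) (nat_lit 0) (nat_lit 76) (XT.nd (nat_lit 78) (nat_lit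 532) (nat_lit 0) (XT.lf (nat_lit 76) (nat_lit 1572821230023) (nat_lit 0) (nat_lit 1585463612451) (nat_lit 532) (nat_lit 778347397) (nat_lit 94) (nat_lit 5) (nat_lit 93) (nat_lit 3) (nat_lit 100) (nat_lit 5) (nat_lit 487) (nat_lit 486) (nat_lit 227)) (XT.nd (nat_lit 78) (nat_lit 0) (nat_lit 76) (XT.lf (nat_lit 76) (nat_lit 6429526229) (nat_lit 0) (nat_lit 33817981913) (nat_lit 608) (nat_lit 3246758455610) (nat_lit 87) (nat_lit 5) (nat_lit 86) (nat_lit 5) (nat_lit 94) (nat_lit 5) (nat_lit 488) (nat_lit 486) (nat_lit 226)) (XT.lf (nat_lit 0) (nat_lit 168499718188) (nat_lit 532) (nat_lit 1645624677986) (nat_lit 608) (nat_lit 1604339239060) (nat_lit 87) (nat_lit 5) (nat_lit 94) (nat_lit 5) (nat_lit 95) (nat_lit 5) (nat_lit 489) (nat_lit 486) (nat_lit 225)))) (XT.nd (nat_lit 156) (nat_lit 0) (nat_lit 76) (XT.nd (nat_lit 78) (nat_lit 0) (nat_lit 76) (XT.lf (nat_lit 76) (nat_lit 125524054315) (nat_lit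 0) (nat_lit 185385295787) (nat_lit 608) (nat_lit 3249216790726) (nat_lit 88) (nat_lit 5) (nat_lit 87) (nat_lit 5) (nat_lit 95) (nat_lit 5) (nat_lit 490) (nat_lit 486) (nat_lit 224)) (XT.lf (nat_lit 0) (nat_lit 548721120866) (nat_lit 532) (nat_lit 1616584358817) (nat_lit 608) (nat_lit 1541095417726) (nat_lit 88) (nat_lit 5) (nat_lit 95) (nat_lit 5) (nat_lit 96) (nat_lit 5) (nat_lit 491) (nat_lit 486) (nat_lit 223))) (XT.nd (nat_lit 78) (nat_lit 0) (nat_lit 76) (XT.lf (nat_lit 76) (nat_lit 360071835694) (nat_lit 0) (nat_lit 458960935871) (nat_lit 608) (nat_lit 3044266867888) (nat_lit 89) (nat_lit 5) (nat_lit 88) (nat_lit 5) (nat_lit 96) (nat_lit 5) (nat_lit 492) (nat_lit 486) (nat_lit 222)) (XT.lf (nat_lit 0) (nat_lit 1189600310241) (nat_lit 532) (nat_lit 1476847823367) (nat_lit 76) (nat_lit 1360011670779) (nat_lit 89) (nat_lit 5) (nat_lit 96) (nat_lit 5) (nat_lit 90) (nat_lit 5) (nat_lit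 493) (nat_lit 486) (nat_lit 221))))) (XT.nd (nat_lit 234) (nat_lit 532) (nat_lit 0) (XT.nd (nat_lit 78) (nat_lit 228) (nat_lit 0) (XT.lf (nat_lit 0) (nat_lit 736567585500) (nat_lit 532) (nat_lit 882881197472) (nat_lit 608) (nat_lit 2580853157067) (nat_lit 82) (nat_lit 5) (nat_lit 89) (nat_lit 5) (nat_lit 90) (nat_lit 5) (nat_lit 494) (nat_lit 486) (nat_lit 220)) (XT.nd (nat_lit 78) (nat_lit 228) (nat_lit 0) (XT.lf (nat_lit 0) (nat_lit 2150206691407) (nat_lit 608) (nat_lit 1199917126294) (nat_lit 76) (nat_lit 1032605904211) (nat_lit 82) (nat_lit 5) (nat_lit 90) (nat_lit 5) (nat_lit 83) (nat_lit 5) (nat_lit 495) (nat_lit 486) (nat_lit 219)) (XT.lf (nat_lit 0) (nat_lit 1286425725477) (nat_lit 228) (nat_lit 1490870055431) (nat_lit 304) (nat_lit 1798146301555) (nat_lit 79) (nat_lit 5) (nat_lit 82) (nat_lit 5) (nat_lit 83) (nat_lit 5) (nat_lit 496) (nat_lit 486) (nat_lit 218)))) (XT.nd (nat_lit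 156) (nat_lit 304) (nat_lit 0) (XT.nd (nat_lit 78) (nat_lit 228) (nat_lit 0) (XT.lf (nat_lit 0) (nat_lit 3500648854911) (nat_lit 304) (nat_lit 754319444913) (nat_lit 76) (nat_lit 524915383449) (nat_lit 79) (nat_lit 5) (nat_lit 83) (nat_lit 5) (nat_lit 80) (nat_lit 5) (nat_lit 497) (nat_lit 486) (nat_lit 217)) (XT.lf (nat_lit 0) (nat_lit 2046819524457) (nat_lit 228) (nat_lit 2323000606357) (nat_lit 304) (nat_lit 623824484854) (nat_lit 76) (nat_lit 5) (nat_lit 79) (nat_lit 5) (nat_lit 80) (nat_lit 5) (nat_lit 498) (nat_lit 486) (nat_lit 216))) (XT.nd (nat_lit 78) (nat_lit 228) (nat_lit 0) (XT.lf (nat_lit 0) (nat_lit 100975860715) (nat_lit 304) (nat_lit 110464392956) (nat_lit 76) (nat_lit 5011211706507) (nat_lit 75) (nat_lit 5) (nat_lit 79) (nat_lit 5) (nat_lit 76) (nat_lit 5) (nat_lit 499) (nat_lit 486) (nat_lit 215)) (XT.lf (nat_lit 0) (nat_lit 976514326399) (nat_lit 304) (nat_lit 2423610370211)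 (nat_lit 76) (nat_lit 2058442391539) (nat_lit 72) (nat_lit 5) (nat_lit 76) (nat_lit 5) (nat_lit 73) (nat_lit 5) (nat_lit 500) (nat_lit 486) (nat_lit 214)))))) (XT.nd (nat_lit 546) (nat_lit 760) (nat_lit 0) (XT.nd (nat_lit 234) (nat_lit 380) (nat_lit 0) (XT.nd (nat_lit 78) (nat_lit 152) (nat_lit 0) (XT.lf (nat_lit 0) (nat_lit 757502880433) (nat_lit 228) (nat_lit 1191401647145) (nat_lit 304) (nat_lit 3762306206119) (nat_lit 69) (nat_lit 5) (nat_lit 72) (nat_lit 5) (nat_lit 73) (nat_lit 5) (nat_lit 501) (nat_lit 486) (nat_lit 213)) (XT.nd (nat_lit 78) (nat_lit 152) (nat_lit 0) (XT.lf (nat_lit 0) (nat_lit 3095789128350) (nat_lit 304) (nat_lit 1678263927974) (nat_lit 76) (nat_lit 1202276559885) (nat_lit 69) (nat_lit 5) (nat_lit 73) (nat_lit 5) (nat_lit 70) (nat_lit 5) (nat_lit 502) (nat_lit 486) (nat_lit 212)) (XT.lf (nat_lit 0) (nat_lit 1924543472579) (nat_lit 152) (nat_lit 2487111838462) (nat_lit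 228) (nat_lit 1844824233174) (nat_lit 67) (nat_lit 5) (nat_lit 69) (nat_lit 5) (nat_lit 70) (nat_lit 5) (nat_lit 503) (nat_lit 486) (nat_lit 211)))) (XT.nd (nat_lit 156) (nat_lit 152) (nat_lit 0) (XT.nd (nat_lit 78) (nat_lit 228) (nat_lit 0) (XT.lf (nat_lit 0) (nat_lit 5879455331672) (nat_lit 228) (nat_lit 645128541881) (nat_lit 76) (nat_lit 30724429440) (nat_lit 67) (nat_lit 5) (nat_lit 70) (nat_lit 5) (nat_lit 68) (nat_lit 5) (nat_lit 504) (nat_lit 486) (nat_lit 210)) (XT.lf (nat_lit 0) (nat_lit 708555938325) (nat_lit 228) (nat_lit 3439864350388) (nat_lit 76) (nat_lit 2716393116584) (nat_lit 64) (nat_lit 5) (nat_lit 67) (nat_lit 5) (nat_lit 65) (nat_lit 5) (nat_lit 505) (nat_lit 486) (nat_lit 209))) (XT.nd (nat_lit 78) (nat_lit 0) (nat_lit 0) (XT.lf (nat_lit 0) (nat_lit 675429008869) (nat_lit 152) (nat_lit 1526116132812) (nat_lit 228) (nat_lit 4993382108612) (nat_lit 62) (nat_lit 5) (nat_lit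 64) (nat_lit 5) (nat_lit 65) (nat_lit 5) (nat_lit 506) (nat_lit 486) (nat_lit 208)) (XT.lf (nat_lit 0) (nat_lit 3941877043695) (nat_lit 228) (nat_lit 2262203649139) (nat_lit 76) (nat_lit 1337137225064) (nat_lit 62) (nat_lit 5) (nat_lit 65) (nat_lit 5) (nat_lit 63) (nat_lit 5) (nat_lit 507) (nat_lit 486) (nat_lit 207))))) (XT.nd (nat_lit 312) (nat_lit 304) (nat_lit 0) (XT.nd (nat_lit 156) (nat_lit 304) (nat_lit 0) (XT.nd (nat_lit 78) (nat_lit 0) (nat_lit 0) (XT.lf (nat_lit 0) (nat_lit 2416940271145) (nat_lit 152) (nat_lit 3502262078229) (nat_lit 228) (nat_lit 1988188141416) (nat_lit 60) (nat_lit 5) (nat_lit 62) (nat_lit 5) (nat_lit 63) (nat_lit 5) (nat_lit 508) (nat_lit 486) (nat_lit 206)) (XT.lf (nat_lit 0) (nat_lit 7599069230731) (nat_lit 152) (nat_lit 517497105304) (nat_lit 228) (nat_lit 181342320956) (nat_lit 60) (nat_lit 5) (nat_lit 62) (nat_lit 5) (nat_lit 63) (nat_lit 5) (nat_lit 509)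 (nat_lit 486) (nat_lit 205))) (XT.nd (nat_lit 78) (nat_lit 152) (nat_lit 0) (XT.lf (nat_lit 0) (nat_lit 1862848925656) (nat_lit 152) (nat_lit 4109392689644) (nat_lit 76) (nat_lit 2729513648258) (nat_lit 58) (nat_lit 5) (nat_lit 60) (nat_lit 5) (nat_lit 59) (nat_lit 5) (nat_lit 510) (nat_lit 486) (nat_lit 204)) (XT.lf (nat_lit 0) (nat_lit 1254321628773) (nat_lit 152) (nat_lit 2869668403385) (nat_lit 228) (nat_lit 5008485810825) (nat_lit 56) (nat_lit 5) (nat_lit 58) (nat_lit 5) (nat_lit 59) (nat_lit 5) (nat_lit 511) (nat_lit 486) (nat_lit 203)))) (XT.nd (nat_lit 156) (nat_lit 228) (nat_lit 0) (XT.nd (nat_lit 78) (nat_lit 76) (nat_lit 0) (XT.lf (nat_lit 0) (nat_lit 6692869620322) (nat_lit 228) (nat_lit 2322316641369) (nat_lit 76) (nat_lit 572320031620) (nat_lit 56) (nat_lit 5) (nat_lit 59) (nat_lit 5) (nat_lit 57) (nat_lit 4) (nat_lit 512) (nat_lit 486) (nat_lit 202)) (XT.lf (nat_lit 0) (nat_lit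 3793202444170) (nat_lit 76) (nat_lit 5839820582847) (nat_lit 152) (nat_lit 432655076530) (nat_lit 55) (nat_lit 5) (nat_lit 56) (nat_lit 5) (nat_lit 57) (nat_lit 4) (nat_lit 513) (nat_lit 486) (nat_lit 201))) (XT.nd (nat_lit 78) (nat_lit 152) (nat_lit 0) (XT.lf (nat_lit 0) (nat_lit 2180062758664) (nat_lit 152) (nat_lit 102180159261) (nat_lit 76) (nat_lit 8290365723513) (nat_lit 54) (nat_lit 5) (nat_lit 56) (nat_lit 5) (nat_lit 55) (nat_lit 5) (nat_lit 514) (nat_lit 486) (nat_lit 200)) (XT.lf (nat_lit 0) (nat_lit 5186374804908) (nat_lit 228) (nat_lit 4252604713861) (nat_lit 76) (nat_lit 1663578968362) (nat_lit 52) (nat_lit 5) (nat_lit 55) (nat_lit 5) (nat_lit 53) (nat_lit 4) (nat_lit 515) (nat_lit 486) (nat_lit 199))))))))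
noncomputable def xc240 : XT := (XT.nd (nat_lit 61230) (nat_lit 0) (nat_lit 228) (XT.nd (nat_lit 1092) (nat_lit 0) (nat_lit 0) (XT.nd (nat_lit 546) (nat_lit 532) (nat_lit 0) (XT.nd (nat_lit 234) (nat_lit 228) (nat_lit 0) (XT.nd (nat_lit 78) (nat_lit 228) (nat_lit 0) (XT.lf (nat_lit 0) (nat_lit 2768530167652) (nat_lit 76) (nat_lit 5793390253505) (nat_lit 152) (nat_lit 3102685610819) (nat_lit 51) (nat_lit 5) (nat_lit 52) (nat_lit 5) (nat_lit 53) (nat_lit 4) (nat_lit 516) (nat_lit 486) (nat_lit 198)) (XT.nd (nat_lit 78) (nat_lit 152) (nat_lit 0) (XT.lf (nat_lit 0) (nat_lit 58393079134) (nat_lit 152) (nat_lit 1670588548672) (nat_lit 76) (nat_lit 10533215588219) (nat_lit 50) (nat_lit 5) (nat_lit 52) (nat_lit 5) (nat_lit 51) (nat_lit 5) (nat_lit 517) (nat_lit 486) (nat_lit 197)) (XT.lf (nat_lit 0) (nat_lit 3528016541864) (nat_lit 228) (nat_lit 6587896249276) (nat_lit 76) (nat_lit 2767373037543)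 (nat_lit 48) (nat_lit 5) (nat_lit 51) (nat_lit 5) (nat_lit 49) (nat_lit 4) (nat_lit 518) (nat_lit 486) (nat_lit 196)))) (XT.nd (nat_lit 156) (nat_lit 152) (nat_lit 0) (XT.nd (nat_lit 78) (nat_lit 0) (nat_lit 0) (XT.lf (nat_lit 0) (nat_lit 1470722917630) (nat_lit 76) (nat_lit 5931629762270) (nat_lit 152) (nat_lit 6141537426590) (nat_lit 47) (nat_lit 5) (nat_lit 48) (nat_lit 5) (nat_lit 49) (nat_lit 4) (nat_lit 519) (nat_lit 486) (nat_lit 195)) (XT.lf (nat_lit 0) (nat_lit 10548691114705) (nat_lit 76) (nat_lit 1218069352344) (nat_lit 152) (nat_lit 2476172278829) (nat_lit 47) (nat_lit 5) (nat_lit 48) (nat_lit 5) (nat_lit 49) (nat_lit 4) (nat_lit 520) (nat_lit 486) (nat_lit 194))) (XT.nd (nat_lit 78) (nat_lit 0) (nat_lit 0) (XT.lf (nat_lit 0) (nat_lit 1640491723979) (nat_lit 152) (nat_lit 9482379674250) (nat_lit 76) (nat_lit 3853597103286) (nat_lit 45) (nat_lit 5) (nat_lit 47) (nat_lit 5) (nat_lit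 46) (nat_lit 4) (nat_lit 521) (nat_lit 486) (nat_lit 193)) (XT.lf (nat_lit 0) (nat_lit 6087980066985) (nat_lit 152) (nat_lit 231603920950) (nat_lit 76) (nat_lit 9433136329486) (nat_lit 45) (nat_lit 5) (nat_lit 47) (nat_lit 5) (nat_lit 46) (nat_lit 4) (nat_lit 522) (nat_lit 486) (nat_lit 192))))) (XT.nd (nat_lit 234) (nat_lit 304) (nat_lit 0) (XT.nd (nat_lit 78) (nat_lit 152) (nat_lit 0) (XT.lf (nat_lit 0) (nat_lit 10273137854312) (nat_lit 76) (nat_lit 865198835464) (nat_lit 152) (nat_lit 5432970051838) (nat_lit 44) (nat_lit 5) (nat_lit 45) (nat_lit 5) (nat_lit 46) (nat_lit 4) (nat_lit 523) (nat_lit 486) (nat_lit 191)) (XT.nd (nat_lit 78) (nat_lit 76) (nat_lit 0) (XT.lf (nat_lit 0) (nat_lit 4269085170541) (nat_lit 76) (nat_lit 12553669502733) (nat_lit 76) (nat_lit 614222779996) (nat_lit 43) (nat_lit 4) (nat_lit 44) (nat_lit 5) (nat_lit 44) (nat_lit 4) (nat_lit 524) (nat_lit 486) (nat_lit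 190)) (XT.lf (nat_lit 0) (nat_lit 4559561273072) (nat_lit 152) (nat_lit 2455559274859) (nat_lit 76) (nat_lit 11332018170126) (nat_lit 42) (nat_lit 5) (nat_lit 44) (nat_lit 5) (nat_lit 43) (nat_lit 4) (nat_lit 525) (nat_lit 486) (nat_lit 189)))) (XT.nd (nat_lit 156) (nat_lit 152) (nat_lit 0) (XT.nd (nat_lit 78) (nat_lit 76) (nat_lit 0) (XT.lf (nat_lit 0) (nat_lit 9576880904423) (nat_lit 76) (nat_lit 767507377969) (nat_lit 152) (nat_lit 8966022357282) (nat_lit 41) (nat_lit 5) (nat_lit 42) (nat_lit 5) (nat_lit 43) (nat_lit 4) (nat_lit 526) (nat_lit 486) (nat_lit 188)) (XT.lf (nat_lit 0) (nat_lit 2337566532231) (nat_lit 76) (nat_lit 14523353768506) (nat_lit 76) (nat_lit 3468310506421) (nat_lit 40) (nat_lit 4) (nat_lit 41) (nat_lit 5) (nat_lit 41) (nat_lit 4) (nat_lit 527) (nat_lit 486) (nat_lit 187))) (XT.nd (nat_lit 78) (nat_lit 76) (nat_lit 0) (XT.lf (nat_lit 0) (nat_lit 2638677720078) (nat_lit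 152) (nat_lit 5566593604403) (nat_lit 76) (nat_lit 13196096104658) (nat_lit 39) (nat_lit 5) (nat_lit 41) (nat_lit 5) (nat_lit 40) (nat_lit 4) (nat_lit 528) (nat_lit 486) (nat_lit 186)) (XT.lf (nat_lit 0) (nat_lit 8171150788165) (nat_lit 76) (nat_lit 1072211736070) (nat_lit 152) (nat_lit 13292984267841) (nat_lit 38) (nat_lit 5) (nat_lit 39) (nat_lit 5) (nat_lit 40) (nat_lit 4) (nat_lit 529) (nat_lit 486) (nat_lit 185)))))) (XT.nd (nat_lit 59592) (nat_lit 0) (nat_lit 2888) (XT.nd (nat_lit 59280) (nat_lit 0) (nat_lit 3648) (XT.nd (nat_lit 59124) (nat_lit 0) (nat_lit 4180) (XT.lf (nat_lit 0) (nat_lit 16692063464225) (nat_lit 152) (nat_lit 588897436287) (nat_lit 0) (nat_lit 6455912295414) (nat_lit 38) (nat_lit 5) (nat_lit 40) (nat_lit 4) (nat_lit 38) (nat_lit 4) (nat_lit 530) (nat_lit 486) (nat_lit 184)) (XT.nd (nat_lit 78) (nat_lit 0) (nat_lit 0) (XT.lf (nat_lit 0) (nat_lit 1620238046510) (nat_lit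 532) (nat_lit 10808006675) (nat_lit 532) (nat_lit 10808006675) (nat_lit 93) (nat_lit 3) (nat_lit 100) (nat_lit 3) (nat_lit 100) (nat_lit 5) (nat_lit 487) (nat_lit 487) (nat_lit 226)) (XT.lf (nat_lit 76) (nat_lit 1698646935293) (nat_lit 0) (nat_lit 1712300706826) (nat_lit 532) (nat_lit 840601961) (nat_lit 94) (nat_lit 5) (nat_lit 93) (nat_lit 3) (nat_lit 100) (nat_lit 5) (nat_lit 488) (nat_lit 487) (nat_lit 225)))) (XT.nd (nat_lit 156) (nat_lit 0) (nat_lit 76) (XT.nd (nat_lit 78) (nat_lit 0) (nat_lit 76) (XT.lf (nat_lit 76) (nat_lit 6943895667) (nat_lit 0) (nat_lit 36523424937) (nat_lit 608) (nat_lit 3506499119301) (nat_lit 87) (nat_lit 5) (nat_lit 86) (nat_lit 5) (nat_lit 94) (nat_lit 5) (nat_lit 489) (nat_lit 487) (nat_lit 224)) (XT.lf (nat_lit 0) (nat_lit 181979706480) (nat_lit 532) (nat_lit 1777274644452) (nat_lit 608) (nat_lit 1732686374252) (nat_lit 87) (nat_lit 5) (nat_lit 94) (nat_lit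 5) (nat_lit 95) (nat_lit 5) (nat_lit 490) (nat_lit 487) (nat_lit 223))) (XT.nd (nat_lit 78) (nat_lit 0) (nat_lit 76) (XT.lf (nat_lit 76) (nat_lit 135565986236) (nat_lit 0) (nat_lit 200216122091) (nat_lit 608) (nat_lit 3509154122950) (nat_lit 88) (nat_lit 5) (nat_lit 87) (nat_lit 5) (nat_lit 95) (nat_lit 5) (nat_lit 491) (nat_lit 487) (nat_lit 222)) (XT.lf (nat_lit 0) (nat_lit 592618819936) (nat_lit 532) (nat_lit 1745911099691) (nat_lit 608) (nat_lit 1664383048821) (nat_lit 88) (nat_lit 5) (nat_lit 95) (nat_lit 5) (nat_lit 96) (nat_lit 5) (nat_lit 492) (nat_lit 487) (nat_lit 221))))) (XT.nd (nat_lit 234) (nat_lit 456) (nat_lit 0) (XT.nd (nat_lit 78) (nat_lit 456) (nat_lit 0) (XT.lf (nat_lit 76) (nat_lit 388877590182) (nat_lit 0) (nat_lit 495677811995) (nat_lit 608) (nat_lit 3287808207719) (nat_lit 89) (nat_lit 5) (nat_lit 88) (nat_lit 5) (nat_lit 96) (nat_lit 5) (nat_lit 493) (nat_lit 487)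 (nat_lit 220)) (XT.nd (nat_lit 78) (nat_lit 532) (nat_lit 0) (XT.lf (nat_lit 0) (nat_lit 1284768343262) (nat_lit 532) (nat_lit 1594995641482) (nat_lit 76) (nat_lit 1468812603337) (nat_lit 89) (nat_lit 5) (nat_lit 96) (nat_lit 5) (nat_lit 90) (nat_lit 5) (nat_lit 494) (nat_lit 487) (nat_lit 219)) (XT.lf (nat_lit 0) (nat_lit 795492999899) (nat_lit 532) (nat_lit 953511693487) (nat_lit 608) (nat_lit 2787321401233) (nat_lit 82) (nat_lit 5) (nat_lit 89) (nat_lit 5) (nat_lit 90) (nat_lit 5) (nat_lit 495) (nat_lit 487) (nat_lit 218)))) (XT.nd (nat_lit 156) (nat_lit 228) (nat_lit 0) (XT.nd (nat_lit 78) (nat_lit 228) (nat_lit 0) (XT.lf (nat_lit 0) (nat_lit 2322223233914) (nat_lit 608) (nat_lit 1295910488818) (nat_lit 76) (nat_lit 1115214376357) (nat_lit 82) (nat_lit 5) (nat_lit 90) (nat_lit 5) (nat_lit 83) (nat_lit 5) (nat_lit 496) (nat_lit 487) (nat_lit 217)) (XT.lf (nat_lit 0) (nat_lit 1389339790904)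 (nat_lit 228) (nat_lit 1610139659317) (nat_lit 304) (nat_lit 1941997998292) (nat_lit 79) (nat_lit 5) (nat_lit 82) (nat_lit 5) (nat_lit 83) (nat_lit 5) (nat_lit 497) (nat_lit 487) (nat_lit 216))) (XT.nd (nat_lit 78) (nat_lit 228) (nat_lit 0) (XT.lf (nat_lit 0) (nat_lit 3780700769649) (nat_lit 304) (nat_lit 814664993170) (nat_lit 76) (nat_lit 566908614607) (nat_lit 79) (nat_lit 5) (nat_lit 83) (nat_lit 5) (nat_lit 80) (nat_lit 5) (nat_lit 498) (nat_lit 487) (nat_lit 215)) (XT.lf (nat_lit 0) (nat_lit 2210565093564) (nat_lit 228) (nat_lit 2508840653762) (nat_lit 304) (nat_lit 673730437111) (nat_lit 76) (nat_lit 5) (nat_lit 79) (nat_lit 5) (nat_lit 80) (nat_lit 5) (nat_lit 499) (nat_lit 487) (nat_lit 214))))))) (XT.nd (nat_lit 1092) (nat_lit 1140) (nat_lit 0) (XT.nd (nat_lit 546) (nat_lit 608) (nat_lit 0) (XT.nd (nat_lit 234) (nat_lit 380) (nat_lit 0) (XT.nd (nat_lit 78) (nat_lit 456) (nat_lit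 0) (XT.lf (nat_lit 0) (nat_lit 109053935318) (nat_lit 304) (nat_lit 119301537469) (nat_lit 76) (nat_lit 5412108643746) (nat_lit 75) (nat_lit 5) (nat_lit 79) (nat_lit 5) (nat_lit 76) (nat_lit 5) (nat_lit 500) (nat_lit 487) (nat_lit 213)) (XT.nd (nat_lit 78) (nat_lit 228) (nat_lit 0) (XT.lf (nat_lit 0) (nat_lit 1054635478023) (nat_lit 304) (nat_lit 2617499192670) (nat_lit 76) (nat_lit 2223117784065) (nat_lit 72) (nat_lit 5) (nat_lit 76) (nat_lit 5) (nat_lit 73) (nat_lit 5) (nat_lit 501) (nat_lit 487) (nat_lit 212)) (XT.lf (nat_lit 0) (nat_lit 818103117844) (nat_lit 228) (nat_lit 1286713777212) (nat_lit 304) (nat_lit 4063290696914) (nat_lit 69) (nat_lit 5) (nat_lit 72) (nat_lit 5) (nat_lit 73) (nat_lit 5) (nat_lit 502) (nat_lit 487) (nat_lit 211)))) (XT.nd (nat_lit 156) (nat_lit 228) (nat_lit 0) (XT.nd (nat_lit 78) (nat_lit 152) (nat_lit 0) (XT.lf (nat_lit 0) (nat_lit 3343452263538) (nat_lit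 304) (nat_lit 1812525035400) (nat_lit 76) (nat_lit 1298458686175) (nat_lit 69) (nat_lit 5) (nat_lit 73) (nat_lit 5) (nat_lit 70) (nat_lit 5) (nat_lit 503) (nat_lit 487) (nat_lit 210)) (XT.lf (nat_lit 0) (nat_lit 2078506957025) (nat_lit 152) (nat_lit 2686080783614) (nat_lit 228) (nat_lit 1992410166736) (nat_lit 67) (nat_lit 5) (nat_lit 69) (nat_lit 5) (nat_lit 70) (nat_lit 5) (nat_lit 504) (nat_lit 487) (nat_lit 209))) (XT.nd (nat_lit 78) (nat_lit 228) (nat_lit 0) (XT.lf (nat_lit 0) (nat_lit 6349811762614) (nat_lit 228) (nat_lit 696738818777) (nat_lit 76) (nat_lit 33182385489) (nat_lit 67) (nat_lit 5) (nat_lit 70) (nat_lit 5) (nat_lit 68) (nat_lit 5) (nat_lit 505) (nat_lit 487) (nat_lit 208)) (XT.lf (nat_lit 0) (nat_lit 765240417734) (nat_lit 228) (nat_lit 3715053491899) (nat_lit 76) (nat_lit 2933704567740) (nat_lit 64) (nat_lit 5) (nat_lit 67) (nat_lit 5) (nat_lit 65) (nat_lit 5) (nat_lit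 506) (nat_lit 487) (nat_lit 207))))) (XT.nd (nat_lit 234) (nat_lit 304) (nat_lit 0) (XT.nd (nat_lit 78) (nat_lit 152) (nat_lit 0) (XT.lf (nat_lit 0) (nat_lit 729463335933) (nat_lit 152) (nat_lit 1648205421256) (nat_lit 228) (nat_lit 5392852672792) (nat_lit 62) (nat_lit 5) (nat_lit 64) (nat_lit 5) (nat_lit 65) (nat_lit 5) (nat_lit 507) (nat_lit 487) (nat_lit 206)) (XT.nd (nat_lit 78) (nat_lit 152) (nat_lit 0) (XT.lf (nat_lit 0) (nat_lit 4257227211104) (nat_lit 228) (nat_lit 2443179934924) (nat_lit 76) (nat_lit 1444108204987) (nat_lit 62) (nat_lit 5) (nat_lit 65) (nat_lit 5) (nat_lit 63) (nat_lit 5) (nat_lit 508) (nat_lit 487) (nat_lit 205)) (XT.lf (nat_lit 0) (nat_lit 2610295498826) (nat_lit 152) (nat_lit 3782443042265) (nat_lit 228) (nat_lit 2147243188659) (nat_lit 60) (nat_lit 5) (nat_lit 62) (nat_lit 5) (nat_lit 63) (nat_lit 5) (nat_lit 509) (nat_lit 487) (nat_lit 204)))) (XT.nd (nat_lit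 156) (nat_lit 152) (nat_lit 0) (XT.nd (nat_lit 78) (nat_lit 152) (nat_lit 0) (XT.lf (nat_lit 0) (nat_lit 8206994774736) (nat_lit 152) (nat_lit 558896871671) (nat_lit 228) (nat_lit 195849702865) (nat_lit 60) (nat_lit 5) (nat_lit 62) (nat_lit 5) (nat_lit 63) (nat_lit 5) (nat_lit 510) (nat_lit 487) (nat_lit 203)) (XT.lf (nat_lit 0) (nat_lit 2011876843209) (nat_lit 152) (nat_lit 4438144099001) (nat_lit 76) (nat_lit 2947874742152) (nat_lit 58) (nat_lit 5) (nat_lit 60) (nat_lit 5) (nat_lit 59) (nat_lit 5) (nat_lit 511) (nat_lit 487) (nat_lit 202))) (XT.nd (nat_lit 78) (nat_lit 0) (nat_lit 0) (XT.lf (nat_lit 0) (nat_lit 1354667364743) (nat_lit 152) (nat_lit 3099241873366) (nat_lit 228) (nat_lit 5409164672043) (nat_lit 56) (nat_lit 5) (nat_lit 58) (nat_lit 5) (nat_lit 59) (nat_lit 5) (nat_lit 512) (nat_lit 487) (nat_lit 201)) (XT.lf (nat_lit 0) (nat_lit 7228299193126) (nat_lit 228) (nat_lit 2508101967232)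 (nat_lit 76) (nat_lit 618105636164) (nat_lit 56) (nat_lit 5) (nat_lit 59) (nat_lit 5) (nat_lit 57) (nat_lit 4) (nat_lit 513) (nat_lit 487) (nat_lit 200)))))) (XT.nd (nat_lit 546) (nat_lit 456) (nat_lit 0) (XT.nd (nat_lit 234) (nat_lit 380) (nat_lit 0) (XT.nd (nat_lit 78) (nat_lit 228) (nat_lit 0) (XT.lf (nat_lit 0) (nat_lit 4096658645012) (nat_lit 76) (nat_lit 6307006227237) (nat_lit 152) (nat_lit 467267479336) (nat_lit 55) (nat_lit 5) (nat_lit 56) (nat_lit 5) (nat_lit 57) (nat_lit 4) (nat_lit 514) (nat_lit 487) (nat_lit 199)) (XT.nd (nat_lit 78) (nat_lit 152) (nat_lit 0) (XT.lf (nat_lit 0) (nat_lit 2354467782274) (nat_lit 152) (nat_lit 110354566932) (nat_lit 76) (nat_lit 8953594983313) (nat_lit 54) (nat_lit 5) (nat_lit 56) (nat_lit 5) (nat_lit 55) (nat_lit 5) (nat_lit 515) (nat_lit 487) (nat_lit 198)) (XT.lf (nat_lit 0) (nat_lit 5601284792172) (nat_lit 228) (nat_lit 4592813085855) (nat_lit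 76) (nat_lit 1796665287846) (nat_lit 52) (nat_lit 5) (nat_lit 55) (nat_lit 5) (nat_lit 53) (nat_lit 4) (nat_lit 516) (nat_lit 487) (nat_lit 197)))) (XT.nd (nat_lit 156) (nat_lit 228) (nat_lit 0) (XT.nd (nat_lit 78) (nat_lit 76) (nat_lit 0) (XT.lf (nat_lit 0) (nat_lit 2990012586050) (nat_lit 76) (nat_lit 6256861471578) (nat_lit 152) (nat_lit 3350900456684) (nat_lit 51) (nat_lit 5) (nat_lit 52) (nat_lit 5) (nat_lit 53) (nat_lit 4) (nat_lit 517) (nat_lit 487) (nat_lit 196)) (XT.lf (nat_lit 0) (nat_lit 63064528104) (nat_lit 152) (nat_lit 1804235627810) (nat_lit 76) (nat_lit 11375872837182) (nat_lit 50) (nat_lit 5) (nat_lit 52) (nat_lit 5) (nat_lit 51) (nat_lit 5) (nat_lit 518) (nat_lit 487) (nat_lit 195))) (XT.nd (nat_lit 78) (nat_lit 76) (nat_lit 0) (XT.lf (nat_lit 0) (nat_lit 3810257867819) (nat_lit 228) (nat_lit 7114927944428) (nat_lit 76) (nat_lit 2988762882523) (nat_lit 48) (nat_lit 5)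 (nat_lit 51) (nat_lit 5) (nat_lit 49) (nat_lit 4) (nat_lit 519) (nat_lit 487) (nat_lit 194)) (XT.lf (nat_lit 0) (nat_lit 1588380755710) (nat_lit 76) (nat_lit 6406160141108) (nat_lit 152) (nat_lit 6632860417991) (nat_lit 47) (nat_lit 5) (nat_lit 48) (nat_lit 5) (nat_lit 49) (nat_lit 4) (nat_lit 520) (nat_lit 487) (nat_lit 193))))) (XT.nd (nat_lit 234) (nat_lit 304) (nat_lit 0) (XT.nd (nat_lit 78) (nat_lit 152) (nat_lit 0) (XT.lf (nat_lit 0) (nat_lit 11392586408204) (nat_lit 76) (nat_lit 1315514898546) (nat_lit 152) (nat_lit 2674266058610) (nat_lit 47) (nat_lit 5) (nat_lit 48) (nat_lit 5) (nat_lit 49) (nat_lit 4) (nat_lit 521) (nat_lit 487) (nat_lit 192)) (XT.nd (nat_lit 78) (nat_lit 0) (nat_lit 0) (XT.lf (nat_lit 0) (nat_lit 1771731064270) (nat_lit 152) (nat_lit 10240970043716) (nat_lit 76) (nat_lit 4161884873460) (nat_lit 45) (nat_lit 5) (nat_lit 47) (nat_lit 5) (nat_lit 46) (nat_lit 4)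 (nat_lit 522) (nat_lit 487) (nat_lit 191)) (XT.lf (nat_lit 0) (nat_lit 6575018474542) (nat_lit 152) (nat_lit 250132230483) (nat_lit 76) (nat_lit 10187787237615) (nat_lit 45) (nat_lit 5) (nat_lit 47) (nat_lit 5) (nat_lit 46) (nat_lit 4) (nat_lit 523) (nat_lit 487) (nat_lit 190)))) (XT.nd (nat_lit 156) (nat_lit 152) (nat_lit 0) (XT.nd (nat_lit 78) (nat_lit 76) (nat_lit 0) (XT.lf (nat_lit 0) (nat_lit 11094988886695) (nat_lit 76) (nat_lit 934414740395) (nat_lit 152) (nat_lit 5867607653682) (nat_lit 44) (nat_lit 5) (nat_lit 45) (nat_lit 5) (nat_lit 46) (nat_lit 4) (nat_lit 524) (nat_lit 487) (nat_lit 189)) (XT.lf (nat_lit 0) (nat_lit 4610611988242) (nat_lit 76) (nat_lit 13557963061008) (nat_lit 76) (nat_lit 663360600113) (nat_lit 43) (nat_lit 4) (nat_lit 44) (nat_lit 5) (nat_lit 44) (nat_lit 4) (nat_lit 525) (nat_lit 487) (nat_lit 188))) (XT.nd (nat_lit 78) (nat_lit 76) (nat_lit 0) (XT.lf (nat_lit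 0) (nat_lit 4924326176926) (nat_lit 152) (nat_lit 2652004012985) (nat_lit 76) (nat_lit 12238579625430) (nat_lit 42) (nat_lit 5) (nat_lit 44) (nat_lit 5) (nat_lit 43) (nat_lit 4) (nat_lit 526) (nat_lit 487) (nat_lit 187)) (XT.lf (nat_lit 0) (nat_lit 10343031380541) (nat_lit 76) (nat_lit 828907966392) (nat_lit 152) (nat_lit 9683304143759) (nat_lit 41) (nat_lit 5) (nat_lit 42) (nat_lit 5) (nat_lit 43) (nat_lit 4) (nat_lit 527) (nat_lit 487) (nat_lit 186))))))))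
noncomputable def xc241 : XT := (XT.nd (nat_lit 61308) (nat_lit 0) (nat_lit 76) (XT.nd (nat_lit 60216) (nat_lit 0) (nat_lit 1520) (XT.nd (nat_lit 59670) (nat_lit 0) (nat_lit 3116) (XT.nd (nat_lit 59358) (nat_lit 0) (nat_lit 3648) (XT.nd (nat_lit 78) (nat_lit 152) (nat_lit 0) (XT.lf (nat_lit 0) (nat_lit 2524571858589) (nat_lit 76) (nat_lit 15685222068145) (nat_lit 76) (nat_lit 3745775344843) (nat_lit 40) (nat_lit 4) (nat_lit 41) (nat_lit 5) (nat_lit 41) (nat_lit 4) (nat_lit 528) (nat_lit 487) (nat_lit 185)) (XT.nd (nat_lit 78) (nat_lit 76) (nat_lit 0) (XT.lf (nat_lit 0) (nat_lit 2849771939525) (nat_lit 152) (nat_lit 6011921089160) (nat_lit 76) (nat_lit 14251783794640) (nat_lit 39) (nat_lit 5) (nat_lit 41) (nat_lit 5) (nat_lit 40) (nat_lit 4) (nat_lit 529) (nat_lit 487) (nat_lit 184)) (XT.lf (nat_lit 0) (nat_lit 8824842854723) (nat_lit 76) (nat_lit 1157988673238) (nat_lit 152) (nat_lit 14356423007337)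 (nat_lit 38) (nat_lit 5) (nat_lit 39) (nat_lit 5) (nat_lit 40) (nat_lit 4) (nat_lit 530) (nat_lit 487) (nat_lit 183)))) (XT.nd (nat_lit 156) (nat_lit 532) (nat_lit 0) (XT.nd (nat_lit 78) (nat_lit 0) (nat_lit 0) (XT.lf (nat_lit 0) (nat_lit 1749857095824) (nat_lit 532) (nat_lit 11672644188) (nat_lit 532) (nat_lit 11672644188) (nat_lit 93) (nat_lit 3) (nat_lit 100) (nat_lit 3) (nat_lit 100) (nat_lit 5) (nat_lit 488) (nat_lit 488) (nat_lit 224)) (XT.lf (nat_lit 76) (nat_lit 1834538696004) (nat_lit 0) (nat_lit 1849284767982) (nat_lit 532) (nat_lit 907838778) (nat_lit 94) (nat_lit 5) (nat_lit 93) (nat_lit 3) (nat_lit 100) (nat_lit 5) (nat_lit 489) (nat_lit 488) (nat_lit 223))) (XT.nd (nat_lit 78) (nat_lit 0) (nat_lit 76) (XT.lf (nat_lit 76) (nat_lit 7499413614) (nat_lit 0) (nat_lit 39445302765) (nat_lit 608) (nat_lit 3787019037908) (nat_lit 87) (nat_lit 5) (nat_lit 86) (nat_lit 5) (nat_lit 94)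 (nat_lit 5) (nat_lit 490) (nat_lit 488) (nat_lit 222)) (XT.lf (nat_lit 0) (nat_lit 196538092289) (nat_lit 532) (nat_lit 1919456609344) (nat_lit 608) (nat_lit 1871301280821) (nat_lit 87) (nat_lit 5) (nat_lit 94) (nat_lit 5) (nat_lit 95) (nat_lit 5) (nat_lit 491) (nat_lit 488) (nat_lit 221))))) (XT.nd (nat_lit 234) (nat_lit 608) (nat_lit 0) (XT.nd (nat_lit 78) (nat_lit 0) (nat_lit 76) (XT.lf (nat_lit 76) (nat_lit 146411271630) (nat_lit 0) (nat_lit 216233414122) (nat_lit 608) (nat_lit 3789886443325) (nat_lit 88) (nat_lit 5) (nat_lit 87) (nat_lit 5) (nat_lit 95) (nat_lit 5) (nat_lit 492) (nat_lit 488) (nat_lit 220)) (XT.nd (nat_lit 78) (nat_lit 0) (nat_lit 0) (XT.lf (nat_lit 0) (nat_lit 640028333590) (nat_lit 532) (nat_lit 1885583980953) (nat_lit 608) (nat_lit 1797533690736) (nat_lit 88) (nat_lit 5) (nat_lit 95) (nat_lit 5) (nat_lit 96) (nat_lit 5) (nat_lit 493) (nat_lit 488) (nat_lit 219))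 (XT.lf (nat_lit 76) (nat_lit 419987803941) (nat_lit 0) (nat_lit 535332038031) (nat_lit 608) (nat_lit 3550832856106) (nat_lit 89) (nat_lit 5) (nat_lit 88) (nat_lit 5) (nat_lit 96) (nat_lit 5) (nat_lit 494) (nat_lit 488) (nat_lit 218)))) (XT.nd (nat_lit 156) (nat_lit 228) (nat_lit 0) (XT.nd (nat_lit 78) (nat_lit 532) (nat_lit 0) (XT.lf (nat_lit 0) (nat_lit 1387549817755) (nat_lit 532) (nat_lit 1722595286152) (nat_lit 76) (nat_lit 1586317610658) (nat_lit 89) (nat_lit 5) (nat_lit 96) (nat_lit 5) (nat_lit 90) (nat_lit 5) (nat_lit 495) (nat_lit 488) (nat_lit 217)) (XT.lf (nat_lit 0) (nat_lit 859132446371) (nat_lit 532) (nat_lit 1029792629152) (nat_lit 608) (nat_lit 3010307106132) (nat_lit 82) (nat_lit 5) (nat_lit 89) (nat_lit 5) (nat_lit 90) (nat_lit 5) (nat_lit 496) (nat_lit 488) (nat_lit 216))) (XT.nd (nat_lit 78) (nat_lit 228) (nat_lit 0) (XT.lf (nat_lit 0) (nat_lit 2508001098796) (nat_lit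 608) (nat_lit 1399583321424) (nat_lit 76) (nat_lit 1204431526301) (nat_lit 82) (nat_lit 5) (nat_lit 90) (nat_lit 5) (nat_lit 83) (nat_lit 5) (nat_lit 497) (nat_lit 488) (nat_lit 215)) (XT.lf (nat_lit 0) (nat_lit 1500486980511) (nat_lit 228) (nat_lit 1738950831592) (nat_lit 304) (nat_lit 2097357831822) (nat_lit 79) (nat_lit 5) (nat_lit 82) (nat_lit 5) (nat_lit 83) (nat_lit 5) (nat_lit 498) (nat_lit 488) (nat_lit 214)))))) (XT.nd (nat_lit 546) (nat_lit 684) (nat_lit 0) (XT.nd (nat_lit 234) (nat_lit 608) (nat_lit 0) (XT.nd (nat_lit 78) (nat_lit 304) (nat_lit 0) (XT.lf (nat_lit 0) (nat_lit 4083156836661) (nat_lit 304) (nat_lit 879838186334) (nat_lit 76) (nat_lit 612261304190) (nat_lit 79) (nat_lit 5) (nat_lit 83) (nat_lit 5) (nat_lit 80) (nat_lit 5) (nat_lit 499) (nat_lit 488) (nat_lit 213)) (XT.nd (nat_lit 78) (nat_lit 76) (nat_lit 0) (XT.lf (nat_lit 0) (nat_lit 2387410307180) (nat_lit 228)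 (nat_lit 2709547905117) (nat_lit 304) (nat_lit 727628866480) (nat_lit 76) (nat_lit 5) (nat_lit 79) (nat_lit 5) (nat_lit 80) (nat_lit 5) (nat_lit 500) (nat_lit 488) (nat_lit 212)) (XT.lf (nat_lit 0) (nat_lit 117778255069) (nat_lit 304) (nat_lit 128845654530) (nat_lit 76) (nat_lit 5845077335861) (nat_lit 75) (nat_lit 5) (nat_lit 79) (nat_lit 5) (nat_lit 76) (nat_lit 5) (nat_lit 501) (nat_lit 488) (nat_lit 211)))) (XT.nd (nat_lit 156) (nat_lit 152) (nat_lit 0) (XT.nd (nat_lit 78) (nat_lit 228) (nat_lit 0) (XT.lf (nat_lit 0) (nat_lit 1139006320991) (nat_lit 304) (nat_lit 2826899121948) (nat_lit 76) (nat_lit 2400967207822) (nat_lit 72) (nat_lit 5) (nat_lit 76) (nat_lit 5) (nat_lit 73) (nat_lit 5) (nat_lit 502) (nat_lit 488) (nat_lit 210)) (XT.lf (nat_lit 0) (nat_lit 883551373252) (nat_lit 228) (nat_lit 1389650877928) (nat_lit 304) (nat_lit 4388353947786) (nat_lit 69) (nat_lit 5) (nat_lit 72)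 (nat_lit 5) (nat_lit 73) (nat_lit 5) (nat_lit 503) (nat_lit 488) (nat_lit 209))) (XT.nd (nat_lit 78) (nat_lit 152) (nat_lit 0) (XT.lf (nat_lit 0) (nat_lit 3610928448838) (nat_lit 304) (nat_lit 1957527032391) (nat_lit 76) (nat_lit 1402335382354) (nat_lit 69) (nat_lit 5) (nat_lit 73) (nat_lit 5) (nat_lit 70) (nat_lit 5) (nat_lit 504) (nat_lit 488) (nat_lit 208)) (XT.lf (nat_lit 0) (nat_lit 2244787519279) (nat_lit 152) (nat_lit 2900967244652) (nat_lit 228) (nat_lit 2151802975709) (nat_lit 67) (nat_lit 5) (nat_lit 69) (nat_lit 5) (nat_lit 70) (nat_lit 5) (nat_lit 505) (nat_lit 488) (nat_lit 207))))) (XT.nd (nat_lit 234) (nat_lit 304) (nat_lit 0) (XT.nd (nat_lit 78) (nat_lit 380) (nat_lit 0) (XT.lf (nat_lit 0) (nat_lit 6857796707403) (nat_lit 228) (nat_lit 752477918746) (nat_lit 76) (nat_lit 35836977780) (nat_lit 67) (nat_lit 5) (nat_lit 70) (nat_lit 5) (nat_lit 68) (nat_lit 5) (nat_lit 506)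 (nat_lit 488) (nat_lit 206)) (XT.nd (nat_lit 78) (nat_lit 152) (nat_lit 0) (XT.lf (nat_lit 0) (nat_lit 826459654877) (nat_lit 228) (nat_lit 4012257765660) (nat_lit 76) (nat_lit 3168400934728) (nat_lit 64) (nat_lit 5) (nat_lit 67) (nat_lit 5) (nat_lit 65) (nat_lit 5) (nat_lit 507) (nat_lit 488) (nat_lit 205)) (XT.lf (nat_lit 0) (nat_lit 787820408257) (nat_lit 152) (nat_lit 1780061853087) (nat_lit 228) (nat_lit 5824280882750) (nat_lit 62) (nat_lit 5) (nat_lit 64) (nat_lit 5) (nat_lit 65) (nat_lit 5) (nat_lit 508) (nat_lit 488) (nat_lit 204)))) (XT.nd (nat_lit 156) (nat_lit 152) (nat_lit 0) (XT.nd (nat_lit 78) (nat_lit 152) (nat_lit 0) (XT.lf (nat_lit 0) (nat_lit 4597805391348) (nat_lit 228) (nat_lit 2638634324450) (nat_lit 76) (nat_lit 1559636863031) (nat_lit 62) (nat_lit 5) (nat_lit 65) (nat_lit 5) (nat_lit 63) (nat_lit 5) (nat_lit 509) (nat_lit 488) (nat_lit 203)) (XT.lf (nat_lit 0) (nat_lit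 2819119143868) (nat_lit 152) (nat_lit 4085038483742) (nat_lit 228) (nat_lit 2319022640263) (nat_lit 60) (nat_lit 5) (nat_lit 62) (nat_lit 5) (nat_lit 63) (nat_lit 5) (nat_lit 510) (nat_lit 488) (nat_lit 202))) (XT.nd (nat_lit 78) (nat_lit 152) (nat_lit 0) (XT.lf (nat_lit 0) (nat_lit 8863554361469) (nat_lit 152) (nat_lit 603608619641) (nat_lit 228) (nat_lit 211517675863) (nat_lit 60) (nat_lit 5) (nat_lit 62) (nat_lit 5) (nat_lit 63) (nat_lit 5) (nat_lit 511) (nat_lit 488) (nat_lit 201)) (XT.lf (nat_lit 0) (nat_lit 2172826993667) (nat_lit 152) (nat_lit 4793195621936) (nat_lit 76) (nat_lit 3183704723268) (nat_lit 58) (nat_lit 5) (nat_lit 60) (nat_lit 5) (nat_lit 59) (nat_lit 5) (nat_lit 512) (nat_lit 488) (nat_lit 200))))))) (XT.nd (nat_lit 1092) (nat_lit 304) (nat_lit 0) (XT.nd (nat_lit 546) (nat_lit 532) (nat_lit 0) (XT.nd (nat_lit 234) (nat_lit 380) (nat_lit 0) (XT.nd (nat_lit 78) (nat_lit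 76) (nat_lit 0) (XT.lf (nat_lit 0) (nat_lit 1463040758781) (nat_lit 152) (nat_lit 3347181221272) (nat_lit 228) (nat_lit 5841897842679) (nat_lit 56) (nat_lit 5) (nat_lit 58) (nat_lit 5) (nat_lit 59) (nat_lit 5) (nat_lit 513) (nat_lit 488) (nat_lit 199)) (XT.nd (nat_lit 78) (nat_lit 76) (nat_lit 0) (XT.lf (nat_lit 0) (nat_lit 7806563131301) (nat_lit 228) (nat_lit 2708750119941) (nat_lit 76) (nat_lit 667554088784) (nat_lit 56) (nat_lit 5) (nat_lit 59) (nat_lit 5) (nat_lit 57) (nat_lit 4) (nat_lit 514) (nat_lit 488) (nat_lit 198)) (XT.lf (nat_lit 0) (nat_lit 4424391341164) (nat_lit 76) (nat_lit 6811566723497) (nat_lit 152) (nat_lit 504648874840) (nat_lit 55) (nat_lit 5) (nat_lit 56) (nat_lit 5) (nat_lit 57) (nat_lit 4) (nat_lit 515) (nat_lit 488) (nat_lit 197)))) (XT.nd (nat_lit 156) (nat_lit 152) (nat_lit 0) (XT.nd (nat_lit 78) (nat_lit 152) (nat_lit 0) (XT.lf (nat_lit 0) (nat_lit 2542825207356)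 (nat_lit 152) (nat_lit 119182927941) (nat_lit 76) (nat_lit 9669882583623) (nat_lit 54) (nat_lit 5) (nat_lit 56) (nat_lit 5) (nat_lit 55) (nat_lit 5) (nat_lit 516) (nat_lit 488) (nat_lit 196)) (XT.lf (nat_lit 0) (nat_lit 6049387578007) (nat_lit 228) (nat_lit 4960238128337) (nat_lit 76) (nat_lit 1940398512601) (nat_lit 52) (nat_lit 5) (nat_lit 55) (nat_lit 5) (nat_lit 53) (nat_lit 4) (nat_lit 517) (nat_lit 488) (nat_lit 195))) (XT.nd (nat_lit 78) (nat_lit 76) (nat_lit 0) (XT.lf (nat_lit 0) (nat_lit 3229213597209) (nat_lit 76) (nat_lit 6757410387411) (nat_lit 152) (nat_lit 3618972490647) (nat_lit 51) (nat_lit 5) (nat_lit 52) (nat_lit 5) (nat_lit 53) (nat_lit 4) (nat_lit 518) (nat_lit 488) (nat_lit 194)) (XT.lf (nat_lit 0) (nat_lit 68109692615) (nat_lit 152) (nat_lit 1948574473958) (nat_lit 76) (nat_lit 12285942665790) (nat_lit 50) (nat_lit 5) (nat_lit 52) (nat_lit 5) (nat_lit 51) (nat_lit 5)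 (nat_lit 519) (nat_lit 488) (nat_lit 193))))) (XT.nd (nat_lit 234) (nat_lit 304) (nat_lit 0) (XT.nd (nat_lit 78) (nat_lit 76) (nat_lit 0) (XT.lf (nat_lit 0) (nat_lit 4115078499478) (nat_lit 228) (nat_lit 7684122175876) (nat_lit 76) (nat_lit 3227863914819) (nat_lit 48) (nat_lit 5) (nat_lit 51) (nat_lit 5) (nat_lit 49) (nat_lit 4) (nat_lit 520) (nat_lit 488) (nat_lit 192)) (XT.nd (nat_lit 78) (nat_lit 0) (nat_lit 0) (XT.lf (nat_lit 0) (nat_lit 1715451220169) (nat_lit 76) (nat_lit 6918652950558) (nat_lit 152) (nat_lit 7163489249093) (nat_lit 47) (nat_lit 5) (nat_lit 48) (nat_lit 5) (nat_lit 49) (nat_lit 4) (nat_lit 521) (nat_lit 488) (nat_lit 191)) (XT.lf (nat_lit 0) (nat_lit 12303993324567) (nat_lit 76) (nat_lit 1420756088728) (nat_lit 152) (nat_lit 2888207341135) (nat_lit 47) (nat_lit 5) (nat_lit 48) (nat_lit 5) (nat_lit 49) (nat_lit 4) (nat_lit 522) (nat_lit 488) (nat_lit 190)))) (XT.nd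 (nat_lit 156) (nat_lit 152) (nat_lit 0) (XT.nd (nat_lit 78) (nat_lit 0) (nat_lit 0) (XT.lf (nat_lit 0) (nat_lit 1913469551447) (nat_lit 152) (nat_lit 11060247643378) (nat_lit 76) (nat_lit 4494835664976) (nat_lit 45) (nat_lit 5) (nat_lit 47) (nat_lit 5) (nat_lit 46) (nat_lit 4) (nat_lit 523) (nat_lit 488) (nat_lit 189)) (XT.lf (nat_lit 0) (nat_lit 7101019954389) (nat_lit 152) (nat_lit 270142805370) (nat_lit 76) (nat_lit 11002810218141) (nat_lit 45) (nat_lit 5) (nat_lit 47) (nat_lit 5) (nat_lit 46) (nat_lit 4) (nat_lit 524) (nat_lit 488) (nat_lit 188))) (XT.nd (nat_lit 78) (nat_lit 76) (nat_lit 0) (XT.lf (nat_lit 0) (nat_lit 11982588001092) (nat_lit 76) (nat_lit 1009167917993) (nat_lit 152) (nat_lit 6337016264003) (nat_lit 44) (nat_lit 5) (nat_lit 45) (nat_lit 5) (nat_lit 46) (nat_lit 4) (nat_lit 525) (nat_lit 488) (nat_lit 187)) (XT.lf (nat_lit 0) (nat_lit 4979460950779) (nat_lit 76) (nat_lit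 14642600104223) (nat_lit 76) (nat_lit 716429446164) (nat_lit 43) (nat_lit 4) (nat_lit 44) (nat_lit 5) (nat_lit 44) (nat_lit 4) (nat_lit 526) (nat_lit 488) (nat_lit 186)))))) (XT.nd (nat_lit 59748) (nat_lit 0) (nat_lit 3040) (XT.nd (nat_lit 234) (nat_lit 76) (nat_lit 0) (XT.nd (nat_lit 78) (nat_lit 152) (nat_lit 0) (XT.lf (nat_lit 0) (nat_lit 5318272272802) (nat_lit 152) (nat_lit 2864164330712) (nat_lit 76) (nat_lit 13217665996916) (nat_lit 42) (nat_lit 5) (nat_lit 44) (nat_lit 5) (nat_lit 43) (nat_lit 4) (nat_lit 527) (nat_lit 488) (nat_lit 185)) (XT.nd (nat_lit 78) (nat_lit 76) (nat_lit 0) (XT.lf (nat_lit 0) (nat_lit 11170473894212) (nat_lit 76) (nat_lit 895220602148) (nat_lit 152) (nat_lit 10457968473454) (nat_lit 41) (nat_lit 5) (nat_lit 42) (nat_lit 5) (nat_lit 43) (nat_lit 4) (nat_lit 528) (nat_lit 488) (nat_lit 184)) (XT.lf (nat_lit 0) (nat_lit 2726537610515) (nat_lit 76) (nat_lit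 16940039832017) (nat_lit 76) (nat_lit 4045437370638) (nat_lit 40) (nat_lit 4) (nat_lit 41) (nat_lit 5) (nat_lit 41) (nat_lit 4) (nat_lit 529) (nat_lit 488) (nat_lit 183)))) (XT.nd (nat_lit 59358) (nat_lit 0) (nat_lit 3572) (XT.nd (nat_lit 59280) (nat_lit 0) (nat_lit 4104) (XT.lf (nat_lit 0) (nat_lit 3077753696264) (nat_lit 152) (nat_lit 6492874773210) (nat_lit 76) (nat_lit 15391926499590) (nat_lit 39) (nat_lit 5) (nat_lit 41) (nat_lit 5) (nat_lit 40) (nat_lit 4) (nat_lit 530) (nat_lit 488) (nat_lit 182)) (XT.lf (nat_lit 0) (nat_lit 1889845668285) (nat_lit 532) (nat_lit 12606453134) (nat_lit 532) (nat_lit 12606453134) (nat_lit 93) (nat_lit 3) (nat_lit 100) (nat_lit 3) (nat_lit 100) (nat_lit 5) (nat_lit 489) (nat_lit 489) (nat_lit 222))) (XT.nd (nat_lit 78) (nat_lit 532) (nat_lit 0) (XT.lf (nat_lit 76) (nat_lit 1981301796733) (nat_lit 0) (nat_lit 1997227553374) (nat_lit 532) (nat_lit 980456158)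 (nat_lit 94) (nat_lit 5) (nat_lit 93) (nat_lit 3) (nat_lit 100) (nat_lit 5) (nat_lit 490) (nat_lit 489) (nat_lit 221)) (XT.lf (nat_lit 76) (nat_lit 8099372099) (nat_lit 0) (nat_lit 42600930272) (nat_lit 608) (nat_lit 4089980551563) (nat_lit 87) (nat_lit 5) (nat_lit 86) (nat_lit 5) (nat_lit 94) (nat_lit 5) (nat_lit 491) (nat_lit 489) (nat_lit 220))))) (XT.nd (nat_lit 312) (nat_lit 608) (nat_lit 0) (XT.nd (nat_lit 156) (nat_lit 0) (nat_lit 76) (XT.nd (nat_lit 78) (nat_lit 0) (nat_lit 0) (XT.lf (nat_lit 0) (nat_lit 212261147637) (nat_lit 532) (nat_lit 2073013132379) (nat_lit 608) (nat_lit 2021005380396) (nat_lit 87) (nat_lit 5) (nat_lit 94) (nat_lit 5) (nat_lit 95) (nat_lit 5) (nat_lit 492) (nat_lit 489) (nat_lit 219)) (XT.lf (nat_lit 76) (nat_lit 158124178929) (nat_lit 0) (nat_lit 233532089193) (nat_lit 608) (nat_lit 4093077350680) (nat_lit 88) (nat_lit 5) (nat_lit 87) (nat_lit 5) (nat_lit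 95) (nat_lit 5) (nat_lit 493) (nat_lit 489) (nat_lit 218))) (XT.nd (nat_lit 78) (nat_lit 0) (nat_lit 0) (XT.lf (nat_lit 0) (nat_lit 691230607187) (nat_lit 532) (nat_lit 2036430693673) (nat_lit 608) (nat_lit 1941336384287) (nat_lit 88) (nat_lit 5) (nat_lit 95) (nat_lit 5) (nat_lit 96) (nat_lit 5) (nat_lit 494) (nat_lit 489) (nat_lit 217)) (XT.lf (nat_lit 76) (nat_lit 453586833867) (nat_lit 0) (nat_lit 578158601996) (nat_lit 608) (nat_lit 3834899477539) (nat_lit 89) (nat_lit 5) (nat_lit 88) (nat_lit 5) (nat_lit 96) (nat_lit 5) (nat_lit 495) (nat_lit 489) (nat_lit 216)))) (XT.nd (nat_lit 156) (nat_lit 228) (nat_lit 0) (XT.nd (nat_lit 78) (nat_lit 532) (nat_lit 0) (XT.lf (nat_lit 0) (nat_lit 1498553809203) (nat_lit 532) (nat_lit 1860402903344) (nat_lit 76) (nat_lit 1713223018699) (nat_lit 89) (nat_lit 5) (nat_lit 96) (nat_lit 5) (nat_lit 90) (nat_lit 5) (nat_lit 496) (nat_lit 489) (nat_lit 215))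 (XT.lf (nat_lit 0) (nat_lit 927863047636) (nat_lit 532) (nat_lit 1112176039644) (nat_lit 608) (nat_lit 3251131668449) (nat_lit 82) (nat_lit 5) (nat_lit 89) (nat_lit 5) (nat_lit 90) (nat_lit 5) (nat_lit 497) (nat_lit 489) (nat_lit 214))) (XT.nd (nat_lit 78) (nat_lit 228) (nat_lit 0) (XT.lf (nat_lit 0) (nat_lit 2708641191989) (nat_lit 608) (nat_lit 1511549981567) (nat_lit 76) (nat_lit 1300786048265) (nat_lit 82) (nat_lit 5) (nat_lit 90) (nat_lit 5) (nat_lit 83) (nat_lit 5) (nat_lit 498) (nat_lit 489) (nat_lit 213)) (XT.lf (nat_lit 0) (nat_lit 1620525944382) (nat_lit 228) (nat_lit 1878066897716) (nat_lit 304) (nat_lit 2265146452937) (nat_lit 79) (nat_lit 5) (nat_lit 82) (nat_lit 5) (nat_lit 83) (nat_lit 5) (nat_lit 499) (nat_lit 489) (nat_lit 212))))))))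
noncomputable def xc242 : XT := (XT.nd (nat_lit 2184) (nat_lit 228) (nat_lit 0) (XT.nd (nat_lit 1092) (nat_lit 1140) (nat_lit 0) (XT.nd (nat_lit 546) (nat_lit 684) (nat_lit 0) (XT.nd (nat_lit 234) (nat_lit 608) (nat_lit 0) (XT.nd (nat_lit 78) (nat_lit 304) (nat_lit 0) (XT.lf (nat_lit 0) (nat_lit 4409809388258) (nat_lit 304) (nat_lit 950225235849) (nat_lit 76) (nat_lit 661242208879) (nat_lit 79) (nat_lit 5) (nat_lit 83) (nat_lit 5) (nat_lit 80) (nat_lit 5) (nat_lit 500) (nat_lit 489) (nat_lit 211)) (XT.nd (nat_lit 78) (nat_lit 76) (nat_lit 0) (XT.lf (nat_lit 0) (nat_lit 2578403137010) (nat_lit 228) (nat_lit 2926311736716) (nat_lit 304) (nat_lit 785839170998) (nat_lit 76) (nat_lit 5) (nat_lit 79) (nat_lit 5) (nat_lit 80) (nat_lit 5) (nat_lit 501) (nat_lit 489) (nat_lit 210)) (XT.lf (nat_lit 0) (nat_lit 127200519697) (nat_lit 304) (nat_lit 139153301803) (nat_lit 76) (nat_lit 6312683523258)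 (nat_lit 75) (nat_lit 5) (nat_lit 79) (nat_lit 5) (nat_lit 76) (nat_lit 5) (nat_lit 502) (nat_lit 489) (nat_lit 209)))) (XT.nd (nat_lit 156) (nat_lit 152) (nat_lit 0) (XT.nd (nat_lit 78) (nat_lit 228) (nat_lit 0) (XT.lf (nat_lit 0) (nat_lit 1230126830722) (nat_lit 304) (nat_lit 3053051046443) (nat_lit 76) (nat_lit 2593044585332) (nat_lit 72) (nat_lit 5) (nat_lit 76) (nat_lit 5) (nat_lit 73) (nat_lit 5) (nat_lit 503) (nat_lit 489) (nat_lit 208)) (XT.lf (nat_lit 0) (nat_lit 954235488240) (nat_lit 228) (nat_lit 1500822946910) (nat_lit 304) (nat_lit 4739422259423) (nat_lit 69) (nat_lit 5) (nat_lit 72) (nat_lit 5) (nat_lit 73) (nat_lit 5) (nat_lit 504) (nat_lit 489) (nat_lit 207))) (XT.nd (nat_lit 78) (nat_lit 152) (nat_lit 0) (XT.lf (nat_lit 0) (nat_lit 3899802728361) (nat_lit 304) (nat_lit 2114129189976) (nat_lit 76) (nat_lit 1514522214044) (nat_lit 69) (nat_lit 5) (nat_lit 73) (nat_lit 5)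 (nat_lit 70) (nat_lit 5) (nat_lit 505) (nat_lit 489) (nat_lit 206)) (XT.lf (nat_lit 0) (nat_lit 2424370525702) (nat_lit 152) (nat_lit 3133044622810) (nat_lit 228) (nat_lit 2323947210022) (nat_lit 67) (nat_lit 5) (nat_lit 69) (nat_lit 5) (nat_lit 70) (nat_lit 5) (nat_lit 506) (nat_lit 489) (nat_lit 205))))) (XT.nd (nat_lit 234) (nat_lit 304) (nat_lit 0) (XT.nd (nat_lit 78) (nat_lit 380) (nat_lit 0) (XT.lf (nat_lit 0) (nat_lit 7406420447235) (nat_lit 228) (nat_lit 812676147501) (nat_lit 76) (nat_lit 38703937247) (nat_lit 67) (nat_lit 5) (nat_lit 70) (nat_lit 5) (nat_lit 68) (nat_lit 5) (nat_lit 507) (nat_lit 489) (nat_lit 204)) (XT.nd (nat_lit 78) (nat_lit 152) (nat_lit 0) (XT.lf (nat_lit 0) (nat_lit 892576430459) (nat_lit 228) (nat_lit 4333238382121) (nat_lit 76) (nat_lit 3421873010850) (nat_lit 64) (nat_lit 5) (nat_lit 67) (nat_lit 5) (nat_lit 65) (nat_lit 5) (nat_lit 508) (nat_lit 489)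 (nat_lit 203)) (XT.lf (nat_lit 0) (nat_lit 850846045588) (nat_lit 152) (nat_lit 1922466799731) (nat_lit 228) (nat_lit 6290223350056) (nat_lit 62) (nat_lit 5) (nat_lit 64) (nat_lit 5) (nat_lit 65) (nat_lit 5) (nat_lit 509) (nat_lit 489) (nat_lit 202)))) (XT.nd (nat_lit 156) (nat_lit 152) (nat_lit 0) (XT.nd (nat_lit 78) (nat_lit 152) (nat_lit 0) (XT.lf (nat_lit 0) (nat_lit 4965629825532) (nat_lit 228) (nat_lit 2849725065889) (nat_lit 76) (nat_lit 1684407813483) (nat_lit 62) (nat_lit 5) (nat_lit 65) (nat_lit 5) (nat_lit 63) (nat_lit 5) (nat_lit 510) (nat_lit 489) (nat_lit 201)) (XT.lf (nat_lit 0) (nat_lit 3044648679780) (nat_lit 152) (nat_lit 4411841560808) (nat_lit 228) (nat_lit 2504544448493) (nat_lit 60) (nat_lit 5) (nat_lit 62) (nat_lit 5) (nat_lit 63) (nat_lit 5) (nat_lit 511) (nat_lit 489) (nat_lit 200))) (XT.nd (nat_lit 78) (nat_lit 152) (nat_lit 0) (XT.lf (nat_lit 0) (nat_lit 9572638714464)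 (nat_lit 152) (nat_lit 651897307700) (nat_lit 228) (nat_lit 228439087162) (nat_lit 60) (nat_lit 5) (nat_lit 62) (nat_lit 5) (nat_lit 63) (nat_lit 5) (nat_lit 512) (nat_lit 489) (nat_lit 199)) (XT.lf (nat_lit 0) (nat_lit 2346653155734) (nat_lit 152) (nat_lit 5176651267417) (nat_lit 76) (nat_lit 3438401102624) (nat_lit 58) (nat_lit 5) (nat_lit 60) (nat_lit 5) (nat_lit 59) (nat_lit 5) (nat_lit 513) (nat_lit 489) (nat_lit 198)))))) (XT.nd (nat_lit 546) (nat_lit 532) (nat_lit 0) (XT.nd (nat_lit 234) (nat_lit 380) (nat_lit 0) (XT.nd (nat_lit 78) (nat_lit 76) (nat_lit 0) (XT.lf (nat_lit 0) (nat_lit 1580084023649) (nat_lit 152) (nat_lit 3614955717291) (nat_lit 228) (nat_lit 6309249667412) (nat_lit 56) (nat_lit 5) (nat_lit 58) (nat_lit 5) (nat_lit 59) (nat_lit 5) (nat_lit 514) (nat_lit 489) (nat_lit 197)) (XT.nd (nat_lit 78) (nat_lit 76) (nat_lit 0) (XT.lf (nat_lit 0) (nat_lit 8431088184141) (nat_lit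 228) (nat_lit 2925450125532) (nat_lit 76) (nat_lit 720958417367) (nat_lit 56) (nat_lit 5) (nat_lit 59) (nat_lit 5) (nat_lit 57) (nat_lit 4) (nat_lit 515) (nat_lit 489) (nat_lit 196)) (XT.lf (nat_lit 0) (nat_lit 4778342652360) (nat_lit 76) (nat_lit 7356492059731) (nat_lit 152) (nat_lit 545020782390) (nat_lit 55) (nat_lit 5) (nat_lit 56) (nat_lit 5) (nat_lit 57) (nat_lit 4) (nat_lit 516) (nat_lit 489) (nat_lit 195)))) (XT.nd (nat_lit 156) (nat_lit 152) (nat_lit 0) (XT.nd (nat_lit 78) (nat_lit 152) (nat_lit 0) (XT.lf (nat_lit 0) (nat_lit 2746251226089) (nat_lit 152) (nat_lit 128717558450) (nat_lit 76) (nat_lit 10443473191724) (nat_lit 54) (nat_lit 5) (nat_lit 56) (nat_lit 5) (nat_lit 55) (nat_lit 5) (nat_lit 517) (nat_lit 489) (nat_lit 194)) (XT.lf (nat_lit 0) (nat_lit 6533338586357) (nat_lit 228) (nat_lit 5357057174844) (nat_lit 76) (nat_lit 2095630395091) (nat_lit 52) (nat_lit 5) (nat_lit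 55) (nat_lit 5) (nat_lit 53) (nat_lit 4) (nat_lit 518) (nat_lit 489) (nat_lit 193))) (XT.nd (nat_lit 78) (nat_lit 76) (nat_lit 0) (XT.lf (nat_lit 0) (nat_lit 3487550688651) (nat_lit 76) (nat_lit 7298003216781) (nat_lit 152) (nat_lit 3908490287693) (nat_lit 51) (nat_lit 5) (nat_lit 52) (nat_lit 5) (nat_lit 53) (nat_lit 4) (nat_lit 519) (nat_lit 489) (nat_lit 192)) (XT.lf (nat_lit 0) (nat_lit 73558469965) (nat_lit 152) (nat_lit 2104460428379) (nat_lit 76) (nat_lit 13268818080454) (nat_lit 50) (nat_lit 5) (nat_lit 52) (nat_lit 5) (nat_lit 51) (nat_lit 5) (nat_lit 520) (nat_lit 489) (nat_lit 191))))) (XT.nd (nat_lit 234) (nat_lit 304) (nat_lit 0) (XT.nd (nat_lit 78) (nat_lit 76) (nat_lit 0) (XT.lf (nat_lit 0) (nat_lit 4444284781351) (nat_lit 228) (nat_lit 8298851946426) (nat_lit 76) (nat_lit 3486093029457) (nat_lit 48) (nat_lit 5) (nat_lit 51) (nat_lit 5) (nat_lit 49) (nat_lit 4) (nat_lit 521)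 (nat_lit 489) (nat_lit 190)) (XT.nd (nat_lit 78) (nat_lit 0) (nat_lit 0) (XT.lf (nat_lit 0) (nat_lit 1852687321214) (nat_lit 76) (nat_lit 7472145185027) (nat_lit 152) (nat_lit 7736568387016) (nat_lit 47) (nat_lit 5) (nat_lit 48) (nat_lit 5) (nat_lit 49) (nat_lit 4) (nat_lit 522) (nat_lit 489) (nat_lit 189)) (XT.lf (nat_lit 0) (nat_lit 13288312793709) (nat_lit 76) (nat_lit 1534416574367) (nat_lit 152) (nat_lit 3119263926570) (nat_lit 47) (nat_lit 5) (nat_lit 48) (nat_lit 5) (nat_lit 49) (nat_lit 4) (nat_lit 523) (nat_lit 489) (nat_lit 188)))) (XT.nd (nat_lit 156) (nat_lit 152) (nat_lit 0) (XT.nd (nat_lit 78) (nat_lit 0) (nat_lit 0) (XT.lf (nat_lit 0) (nat_lit 2066547117307) (nat_lit 152) (nat_lit 11945067451559) (nat_lit 76) (nat_lit 4854422519578) (nat_lit 45) (nat_lit 5) (nat_lit 47) (nat_lit 5) (nat_lit 46) (nat_lit 4) (nat_lit 524) (nat_lit 489) (nat_lit 187)) (XT.lf (nat_lit 0) (nat_lit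 7669101552356) (nat_lit 152) (nat_lit 291754226755) (nat_lit 76) (nat_lit 11883035036893) (nat_lit 45) (nat_lit 5) (nat_lit 47) (nat_lit 5) (nat_lit 46) (nat_lit 4) (nat_lit 525) (nat_lit 489) (nat_lit 186))) (XT.nd (nat_lit 78) (nat_lit 76) (nat_lit 0) (XT.lf (nat_lit 0) (nat_lit 12941195044148) (nat_lit 76) (nat_lit 1089901350031) (nat_lit 152) (nat_lit 6843977563431) (nat_lit 44) (nat_lit 5) (nat_lit 45) (nat_lit 5) (nat_lit 46) (nat_lit 4) (nat_lit 526) (nat_lit 489) (nat_lit 185)) (XT.lf (nat_lit 0) (nat_lit 5377817829824) (nat_lit 76) (nat_lit 15814008111132) (nat_lit 76) (nat_lit 773743800179) (nat_lit 43) (nat_lit 4) (nat_lit 44) (nat_lit 5) (nat_lit 44) (nat_lit 4) (nat_lit 527) (nat_lit 489) (nat_lit 184))))))) (XT.nd (nat_lit 60372) (nat_lit 0) (nat_lit 1216) (XT.nd (nat_lit 59826) (nat_lit 0) (nat_lit 2964) (XT.nd (nat_lit 59514) (nat_lit 0) (nat_lit 3496) (XT.nd (nat_lit 78)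 (nat_lit 152) (nat_lit 0) (XT.lf (nat_lit 0) (nat_lit 5743734056102) (nat_lit 152) (nat_lit 3093297474330) (nat_lit 76) (nat_lit 14275079277915) (nat_lit 42) (nat_lit 5) (nat_lit 44) (nat_lit 5) (nat_lit 43) (nat_lit 4) (nat_lit 528) (nat_lit 489) (nat_lit 183)) (XT.nd (nat_lit 78) (nat_lit 76) (nat_lit 0) (XT.lf (nat_lit 0) (nat_lit 12064111808516) (nat_lit 76) (nat_lit 966838248986) (nat_lit 152) (nat_lit 11294605949782) (nat_lit 41) (nat_lit 5) (nat_lit 42) (nat_lit 5) (nat_lit 43) (nat_lit 4) (nat_lit 529) (nat_lit 489) (nat_lit 182)) (XT.lf (nat_lit 0) (nat_lit 2944660622134) (nat_lit 76) (nat_lit 18295243017224) (nat_lit 76) (nat_lit 4369072358751) (nat_lit 40) (nat_lit 4) (nat_lit 41) (nat_lit 5) (nat_lit 41) (nat_lit 4) (nat_lit 530) (nat_lit 489) (nat_lit 181)))) (XT.nd (nat_lit 156) (nat_lit 532) (nat_lit 0) (XT.nd (nat_lit 78) (nat_lit 0) (nat_lit 0) (XT.lf (nat_lit 0) (nat_lit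 2041033325859) (nat_lit 532) (nat_lit 13614967164) (nat_lit 532) (nat_lit 13614967164) (nat_lit 93) (nat_lit 3) (nat_lit 100) (nat_lit 3) (nat_lit 100) (nat_lit 5) (nat_lit 490) (nat_lit 490) (nat_lit 220)) (XT.lf (nat_lit 76) (nat_lit 2139805944799) (nat_lit 0) (nat_lit 2157005761033) (nat_lit 532) (nat_lit 1058884315) (nat_lit 94) (nat_lit 5) (nat_lit 93) (nat_lit 3) (nat_lit 100) (nat_lit 5) (nat_lit 491) (nat_lit 490) (nat_lit 219))) (XT.nd (nat_lit 78) (nat_lit 0) (nat_lit 76) (XT.lf (nat_lit 76) (nat_lit 8747326492) (nat_lit 0) (nat_lit 46009007511) (nat_lit 608) (nat_lit 4417178987649) (nat_lit 87) (nat_lit 5) (nat_lit 86) (nat_lit 5) (nat_lit 94) (nat_lit 5) (nat_lit 492) (nat_lit 490) (nat_lit 218)) (XT.lf (nat_lit 0) (nat_lit 229242046277) (nat_lit 532) (nat_lit 2238854178071) (nat_lit 608) (nat_lit 2182685808350) (nat_lit 87) (nat_lit 5) (nat_lit 94) (nat_lit 5) (nat_lit 95) (nat_lit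 5) (nat_lit 493) (nat_lit 490) (nat_lit 217))))) (XT.nd (nat_lit 234) (nat_lit 608) (nat_lit 0) (XT.nd (nat_lit 78) (nat_lit 0) (nat_lit 76) (XT.lf (nat_lit 76) (nat_lit 170774118018) (nat_lit 0) (nat_lit 252214657992) (nat_lit 608) (nat_lit 4420523531781) (nat_lit 88) (nat_lit 5) (nat_lit 87) (nat_lit 5) (nat_lit 95) (nat_lit 5) (nat_lit 494) (nat_lit 490) (nat_lit 216)) (XT.nd (nat_lit 78) (nat_lit 0) (nat_lit 0) (XT.lf (nat_lit 0) (nat_lit 746529061686) (nat_lit 532) (nat_lit 2199345144232) (nat_lit 608) (nat_lit 2096643293567) (nat_lit 88) (nat_lit 5) (nat_lit 95) (nat_lit 5) (nat_lit 96) (nat_lit 5) (nat_lit 495) (nat_lit 490) (nat_lit 215)) (XT.lf (nat_lit 76) (nat_lit 489873785386) (nat_lit 0) (nat_lit 624411290947) (nat_lit 608) (nat_lit 4141691429692) (nat_lit 89) (nat_lit 5) (nat_lit 88) (nat_lit 5) (nat_lit 96) (nat_lit 5) (nat_lit 496) (nat_lit 490) (nat_lit 214)))) (XT.nd (nat_lit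 156) (nat_lit 228) (nat_lit 0) (XT.nd (nat_lit 78) (nat_lit 532) (nat_lit 0) (XT.lf (nat_lit 0) (nat_lit 1618438119108) (nat_lit 532) (nat_lit 2009235130725) (nat_lit 76) (nat_lit 1850280859499) (nat_lit 89) (nat_lit 5) (nat_lit 96) (nat_lit 5) (nat_lit 90) (nat_lit 5) (nat_lit 497) (nat_lit 490) (nat_lit 213)) (XT.lf (nat_lit 0) (nat_lit 1002092096210) (nat_lit 532) (nat_lit 1201150122953) (nat_lit 608) (nat_lit 3511222196632) (nat_lit 82) (nat_lit 5) (nat_lit 89) (nat_lit 5) (nat_lit 90) (nat_lit 5) (nat_lit 498) (nat_lit 490) (nat_lit 212))) (XT.nd (nat_lit 78) (nat_lit 228) (nat_lit 0) (XT.lf (nat_lit 0) (nat_lit 2925332491882) (nat_lit 608) (nat_lit 1632473975315) (nat_lit 76) (nat_lit 1404848932005) (nat_lit 82) (nat_lit 5) (nat_lit 90) (nat_lit 5) (nat_lit 83) (nat_lit 5) (nat_lit 499) (nat_lit 490) (nat_lit 211)) (XT.lf (nat_lit 0) (nat_lit 1750168024589) (nat_lit 228) (nat_lit 2028312249188)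 (nat_lit 304) (nat_lit 2446358164517) (nat_lit 79) (nat_lit 5) (nat_lit 82) (nat_lit 5) (nat_lit 83) (nat_lit 5) (nat_lit 500) (nat_lit 490) (nat_lit 210)))))) (XT.nd (nat_lit 546) (nat_lit 836) (nat_lit 0) (XT.nd (nat_lit 234) (nat_lit 608) (nat_lit 0) (XT.nd (nat_lit 78) (nat_lit 304) (nat_lit 0) (XT.lf (nat_lit 0) (nat_lit 4762594143317) (nat_lit 304) (nat_lit 1026243250094) (nat_lit 76) (nat_lit 714141585894) (nat_lit 79) (nat_lit 5) (nat_lit 83) (nat_lit 5) (nat_lit 80) (nat_lit 5) (nat_lit 501) (nat_lit 490) (nat_lit 209)) (XT.nd (nat_lit 78) (nat_lit 76) (nat_lit 0) (XT.lf (nat_lit 0) (nat_lit 2784675392477) (nat_lit 228) (nat_lit 3160416674958) (nat_lit 304) (nat_lit 848706300561) (nat_lit 76) (nat_lit 5) (nat_lit 79) (nat_lit 5) (nat_lit 80) (nat_lit 5) (nat_lit 502) (nat_lit 490) (nat_lit 208)) (XT.lf (nat_lit 0) (nat_lit 137376564894) (nat_lit 304) (nat_lit 150285561584) (nat_lit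 76) (nat_lit 6817698205572) (nat_lit 75) (nat_lit 5) (nat_lit 79) (nat_lit 5) (nat_lit 76) (nat_lit 5) (nat_lit 503) (nat_lit 490) (nat_lit 207)))) (XT.nd (nat_lit 156) (nat_lit 152) (nat_lit 0) (XT.nd (nat_lit 78) (nat_lit 228) (nat_lit 0) (XT.lf (nat_lit 0) (nat_lit 1328536980654) (nat_lit 304) (nat_lit 3297295125648) (nat_lit 76) (nat_lit 2800488152917) (nat_lit 72) (nat_lit 5) (nat_lit 76) (nat_lit 5) (nat_lit 73) (nat_lit 5) (nat_lit 504) (nat_lit 490) (nat_lit 206)) (XT.lf (nat_lit 0) (nat_lit 1030574331695) (nat_lit 228) (nat_lit 1620888781589) (nat_lit 304) (nat_lit 5118576036589) (nat_lit 69) (nat_lit 5) (nat_lit 72) (nat_lit 5) (nat_lit 73) (nat_lit 5) (nat_lit 505) (nat_lit 490) (nat_lit 205))) (XT.nd (nat_lit 78) (nat_lit 152) (nat_lit 0) (XT.lf (nat_lit 0) (nat_lit 4211786949730) (nat_lit 304) (nat_lit 2283259520881) (nat_lit 76) (nat_lit 1635683992112) (nat_lit 69) (nat_lit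 5) (nat_lit 73) (nat_lit 5) (nat_lit 70) (nat_lit 5) (nat_lit 506) (nat_lit 490) (nat_lit 204)) (XT.lf (nat_lit 0) (nat_lit 2618320171942) (nat_lit 152) (nat_lit 3383688191421) (nat_lit 228) (nat_lit 2509862983615) (nat_lit 67) (nat_lit 5) (nat_lit 69) (nat_lit 5) (nat_lit 70) (nat_lit 5) (nat_lit 507) (nat_lit 490) (nat_lit 203))))) (XT.nd (nat_lit 312) (nat_lit 456) (nat_lit 0) (XT.nd (nat_lit 156) (nat_lit 152) (nat_lit 0) (XT.nd (nat_lit 78) (nat_lit 228) (nat_lit 0) (XT.lf (nat_lit 0) (nat_lit 7998934085792) (nat_lit 228) (nat_lit 877690235234) (nat_lit 76) (nat_lit 41800253294) (nat_lit 67) (nat_lit 5) (nat_lit 70) (nat_lit 5) (nat_lit 68) (nat_lit 5) (nat_lit 508) (nat_lit 490) (nat_lit 202)) (XT.lf (nat_lit 0) (nat_lit 963982547633) (nat_lit 228) (nat_lit 4679897448581) (nat_lit 76) (nat_lit 3695622852871) (nat_lit 64) (nat_lit 5) (nat_lit 67) (nat_lit 5) (nat_lit 65) (nat_lit 5)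 (nat_lit 509) (nat_lit 490) (nat_lit 201))) (XT.nd (nat_lit 78) (nat_lit 0) (nat_lit 0) (XT.lf (nat_lit 0) (nat_lit 918913733240) (nat_lit 152) (nat_lit 2076264142335) (nat_lit 228) (nat_lit 6793441215220) (nat_lit 62) (nat_lit 5) (nat_lit 64) (nat_lit 5) (nat_lit 65) (nat_lit 5) (nat_lit 510) (nat_lit 490) (nat_lit 200)) (XT.lf (nat_lit 0) (nat_lit 5362880214041) (nat_lit 228) (nat_lit 3077703067287) (nat_lit 76) (nat_lit 1819160439771) (nat_lit 62) (nat_lit 5) (nat_lit 65) (nat_lit 5) (nat_lit 63) (nat_lit 5) (nat_lit 511) (nat_lit 490) (nat_lit 199)))) (XT.nd (nat_lit 156) (nat_lit 304) (nat_lit 0) (XT.nd (nat_lit 78) (nat_lit 0) (nat_lit 0) (XT.lf (nat_lit 0) (nat_lit 3288220577937) (nat_lit 152) (nat_lit 4764788884272) (nat_lit 228) (nat_lit 2704908001808) (nat_lit 60) (nat_lit 5) (nat_lit 62) (nat_lit 5) (nat_lit 63) (nat_lit 5) (nat_lit 512) (nat_lit 490) (nat_lit 198)) (XT.lf (nat_lit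 0) (nat_lit 10338449815116) (nat_lit 152) (nat_lit 704049091020) (nat_lit 228) (nat_lit 246714211761) (nat_lit 60) (nat_lit 5) (nat_lit 62) (nat_lit 5) (nat_lit 63) (nat_lit 5) (nat_lit 513) (nat_lit 490) (nat_lit 197))) (XT.nd (nat_lit 78) (nat_lit 152) (nat_lit 0) (XT.lf (nat_lit 0) (nat_lit 2534385410398) (nat_lit 152) (nat_lit 5590783365147) (nat_lit 76) (nat_lit 3713473192116) (nat_lit 58) (nat_lit 5) (nat_lit 60) (nat_lit 5) (nat_lit 59) (nat_lit 5) (nat_lit 514) (nat_lit 490) (nat_lit 196)) (XT.lf (nat_lit 0) (nat_lit 1706490749112) (nat_lit 152) (nat_lit 3904152173232) (nat_lit 228) (nat_lit 6813989638506) (nat_lit 56) (nat_lit 5) (nat_lit 58) (nat_lit 5) (nat_lit 59) (nat_lit 5) (nat_lit 515) (nat_lit 490) (nat_lit 195))))))))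
noncomputable def xc243 : XT := (XT.nd (nat_lit 61620) (nat_lit 0) (nat_lit 76) (XT.nd (nat_lit 60528) (nat_lit 0) (nat_lit 2508) (XT.nd (nat_lit 546) (nat_lit 456) (nat_lit 0) (XT.nd (nat_lit 234) (nat_lit 456) (nat_lit 0) (XT.nd (nat_lit 78) (nat_lit 152) (nat_lit 0) (XT.lf (nat_lit 0) (nat_lit 9105575240875) (nat_lit 228) (nat_lit 3159486132143) (nat_lit 76) (nat_lit 778635092026) (nat_lit 56) (nat_lit 5) (nat_lit 59) (nat_lit 5) (nat_lit 57) (nat_lit 4) (nat_lit 516) (nat_lit 490) (nat_lit 194)) (XT.nd (nat_lit 78) (nat_lit 76) (nat_lit 0) (XT.lf (nat_lit 0) (nat_lit 5160610067894) (nat_lit 76) (nat_lit 7945011423099) (nat_lit 152) (nat_lit 588622442891) (nat_lit 55) (nat_lit 5) (nat_lit 56) (nat_lit 5) (nat_lit 57) (nat_lit 4) (nat_lit 517) (nat_lit 490) (nat_lit 193)) (XT.lf (nat_lit 0) (nat_lit 2965951326015) (nat_lit 152) (nat_lit 139014959932) (nat_lit 76) (nat_lit 11278951048271)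 (nat_lit 54) (nat_lit 5) (nat_lit 56) (nat_lit 5) (nat_lit 55) (nat_lit 5) (nat_lit 518) (nat_lit 490) (nat_lit 192)))) (XT.nd (nat_lit 156) (nat_lit 228) (nat_lit 0) (XT.nd (nat_lit 78) (nat_lit 76) (nat_lit 0) (XT.lf (nat_lit 0) (nat_lit 7056005675075) (nat_lit 228) (nat_lit 5785621745608) (nat_lit 76) (nat_lit 2263280827968) (nat_lit 52) (nat_lit 5) (nat_lit 55) (nat_lit 5) (nat_lit 53) (nat_lit 4) (nat_lit 519) (nat_lit 490) (nat_lit 191)) (XT.lf (nat_lit 0) (nat_lit 3766554746885) (nat_lit 76) (nat_lit 7881843472732) (nat_lit 152) (nat_lit 4221169508818) (nat_lit 51) (nat_lit 5) (nat_lit 52) (nat_lit 5) (nat_lit 53) (nat_lit 4) (nat_lit 520) (nat_lit 490) (nat_lit 190))) (XT.nd (nat_lit 78) (nat_lit 152) (nat_lit 0) (XT.lf (nat_lit 0) (nat_lit 79443149225) (nat_lit 152) (nat_lit 2272817259652) (nat_lit 76) (nat_lit 14330323528091) (nat_lit 50) (nat_lit 5) (nat_lit 52) (nat_lit 5) (nat_lit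 51) (nat_lit 5) (nat_lit 521) (nat_lit 490) (nat_lit 189)) (XT.lf (nat_lit 0) (nat_lit 4799827565501) (nat_lit 228) (nat_lit 8962760099121) (nat_lit 76) (nat_lit 3764980473059) (nat_lit 48) (nat_lit 5) (nat_lit 51) (nat_lit 5) (nat_lit 49) (nat_lit 4) (nat_lit 522) (nat_lit 490) (nat_lit 188))))) (XT.nd (nat_lit 234) (nat_lit 228) (nat_lit 0) (XT.nd (nat_lit 78) (nat_lit 152) (nat_lit 0) (XT.lf (nat_lit 0) (nat_lit 2000902309853) (nat_lit 76) (nat_lit 8069916798478) (nat_lit 152) (nat_lit 8355493856259) (nat_lit 47) (nat_lit 5) (nat_lit 48) (nat_lit 5) (nat_lit 49) (nat_lit 4) (nat_lit 523) (nat_lit 490) (nat_lit 187)) (XT.nd (nat_lit 78) (nat_lit 152) (nat_lit 0) (XT.lf (nat_lit 0) (nat_lit 14351377819930) (nat_lit 76) (nat_lit 1657169899065) (nat_lit 152) (nat_lit 3368805039105) (nat_lit 47) (nat_lit 5) (nat_lit 48) (nat_lit 5) (nat_lit 49) (nat_lit 4) (nat_lit 524) (nat_lit 490) (nat_lit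 186)) (XT.lf (nat_lit 0) (nat_lit 2231870888187) (nat_lit 152) (nat_lit 12900672844864) (nat_lit 76) (nat_lit 5242776322349) (nat_lit 45) (nat_lit 5) (nat_lit 47) (nat_lit 5) (nat_lit 46) (nat_lit 4) (nat_lit 525) (nat_lit 490) (nat_lit 185)))) (XT.nd (nat_lit 156) (nat_lit 152) (nat_lit 0) (XT.nd (nat_lit 78) (nat_lit 76) (nat_lit 0) (XT.lf (nat_lit 0) (nat_lit 8282629677929) (nat_lit 152) (nat_lit 315094562284) (nat_lit 76) (nat_lit 12833677840960) (nat_lit 45) (nat_lit 5) (nat_lit 47) (nat_lit 5) (nat_lit 46) (nat_lit 4) (nat_lit 526) (nat_lit 490) (nat_lit 184)) (XT.lf (nat_lit 0) (nat_lit 13976490650224) (nat_lit 76) (nat_lit 1177093456832) (nat_lit 152) (nat_lit 7391495767054) (nat_lit 44) (nat_lit 5) (nat_lit 45) (nat_lit 5) (nat_lit 46) (nat_lit 4) (nat_lit 527) (nat_lit 490) (nat_lit 183))) (XT.nd (nat_lit 78) (nat_lit 76) (nat_lit 0) (XT.lf (nat_lit 0) (nat_lit 5808043258767) (nat_lit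 76) (nat_lit 17079128758798) (nat_lit 76) (nat_lit 835643302755) (nat_lit 43) (nat_lit 4) (nat_lit 44) (nat_lit 5) (nat_lit 44) (nat_lit 4) (nat_lit 528) (nat_lit 490) (nat_lit 182)) (XT.lf (nat_lit 0) (nat_lit 6203232781856) (nat_lit 152) (nat_lit 3340761269843) (nat_lit 76) (nat_lit 15417085621215) (nat_lit 42) (nat_lit 5) (nat_lit 44) (nat_lit 5) (nat_lit 43) (nat_lit 4) (nat_lit 529) (nat_lit 490) (nat_lit 181)))))) (XT.nd (nat_lit 546) (nat_lit 836) (nat_lit 0) (XT.nd (nat_lit 234) (nat_lit 0) (nat_lit 76) (XT.nd (nat_lit 78) (nat_lit 532) (nat_lit 0) (XT.lf (nat_lit 0) (nat_lit 2204315995452) (nat_lit 532) (nat_lit 14704162634) (nat_lit 532) (nat_lit 14704162634) (nat_lit 93) (nat_lit 3) (nat_lit 100) (nat_lit 3) (nat_lit 100) (nat_lit 5) (nat_lit 491) (nat_lit 491) (nat_lit 218)) (XT.nd (nat_lit 78) (nat_lit 532) (nat_lit 0) (XT.lf (nat_lit 76) (nat_lit 2310990424094) (nat_lit 0)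 (nat_lit 2329566224821) (nat_lit 532) (nat_lit 1143587914) (nat_lit 94) (nat_lit 5) (nat_lit 93) (nat_lit 3) (nat_lit 100) (nat_lit 5) (nat_lit 492) (nat_lit 491) (nat_lit 217)) (XT.lf (nat_lit 76) (nat_lit 9447116578) (nat_lit 0) (nat_lit 49689730527) (nat_lit 608) (nat_lit 4770553299768) (nat_lit 87) (nat_lit 5) (nat_lit 86) (nat_lit 5) (nat_lit 94) (nat_lit 5) (nat_lit 493) (nat_lit 491) (nat_lit 216)))) (XT.nd (nat_lit 156) (nat_lit 0) (nat_lit 76) (XT.nd (nat_lit 78) (nat_lit 0) (nat_lit 0) (XT.lf (nat_lit 0) (nat_lit 247581415834) (nat_lit 532) (nat_lit 2417962508118) (nat_lit 608) (nat_lit 2357300670893) (nat_lit 87) (nat_lit 5) (nat_lit 94) (nat_lit 5) (nat_lit 95) (nat_lit 5) (nat_lit 494) (nat_lit 491) (nat_lit 215)) (XT.lf (nat_lit 76) (nat_lit 184436051552) (nat_lit 0) (nat_lit 272391832058) (nat_lit 608) (nat_lit 4774165408362) (nat_lit 88) (nat_lit 5) (nat_lit 87) (nat_lit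 5) (nat_lit 95) (nat_lit 5) (nat_lit 495) (nat_lit 491) (nat_lit 214))) (XT.nd (nat_lit 78) (nat_lit 0) (nat_lit 0) (XT.lf (nat_lit 0) (nat_lit 806251391700) (nat_lit 532) (nat_lit 2375292751539) (nat_lit 608) (nat_lit 2264374755797) (nat_lit 88) (nat_lit 5) (nat_lit 95) (nat_lit 5) (nat_lit 96) (nat_lit 5) (nat_lit 496) (nat_lit 491) (nat_lit 213)) (XT.lf (nat_lit 76) (nat_lit 529063692341) (nat_lit 0) (nat_lit 674364194901) (nat_lit 608) (nat_lit 4473026738881) (nat_lit 89) (nat_lit 5) (nat_lit 88) (nat_lit 5) (nat_lit 96) (nat_lit 5) (nat_lit 497) (nat_lit 491) (nat_lit 212))))) (XT.nd (nat_lit 234) (nat_lit 532) (nat_lit 0) (XT.nd (nat_lit 78) (nat_lit 532) (nat_lit 0) (XT.lf (nat_lit 0) (nat_lit 1747913173068) (nat_lit 532) (nat_lit 2169973936993) (nat_lit 76) (nat_lit 1998303327663) (nat_lit 89) (nat_lit 5) (nat_lit 96) (nat_lit 5) (nat_lit 90) (nat_lit 5) (nat_lit 498) (nat_lit 491)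 (nat_lit 211)) (XT.nd (nat_lit 78) (nat_lit 0) (nat_lit 0) (XT.lf (nat_lit 0) (nat_lit 1082259467991) (nat_lit 532) (nat_lit 1297242132906) (nat_lit 608) (nat_lit 3792119967825) (nat_lit 82) (nat_lit 5) (nat_lit 89) (nat_lit 5) (nat_lit 90) (nat_lit 5) (nat_lit 499) (nat_lit 491) (nat_lit 210)) (XT.lf (nat_lit 0) (nat_lit 3159359095120) (nat_lit 608) (nat_lit 1763071889245) (nat_lit 76) (nat_lit 1517236846463) (nat_lit 82) (nat_lit 5) (nat_lit 90) (nat_lit 5) (nat_lit 83) (nat_lit 5) (nat_lit 500) (nat_lit 491) (nat_lit 209)))) (XT.nd (nat_lit 156) (nat_lit 304) (nat_lit 0) (XT.nd (nat_lit 78) (nat_lit 0) (nat_lit 0) (XT.lf (nat_lit 0) (nat_lit 1890181470548) (nat_lit 228) (nat_lit 2190577228827) (nat_lit 304) (nat_lit 2642066813687) (nat_lit 79) (nat_lit 5) (nat_lit 82) (nat_lit 5) (nat_lit 83) (nat_lit 5) (nat_lit 501) (nat_lit 491) (nat_lit 208)) (XT.lf (nat_lit 0) (nat_lit 5143601678211)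 (nat_lit 304) (nat_lit 1108342706138) (nat_lit 76) (nat_lit 771272913026) (nat_lit 79) (nat_lit 5) (nat_lit 83) (nat_lit 5) (nat_lit 80) (nat_lit 5) (nat_lit 502) (nat_lit 491) (nat_lit 207))) (XT.nd (nat_lit 78) (nat_lit 76) (nat_lit 0) (XT.lf (nat_lit 0) (nat_lit 3007449427738) (nat_lit 228) (nat_lit 3413250008358) (nat_lit 304) (nat_lit 916602801078) (nat_lit 76) (nat_lit 5) (nat_lit 79) (nat_lit 5) (nat_lit 80) (nat_lit 5) (nat_lit 503) (nat_lit 491) (nat_lit 206)) (XT.lf (nat_lit 0) (nat_lit 148366693189) (nat_lit 304) (nat_lit 162308402770) (nat_lit 76) (nat_lit 7363114062405) (nat_lit 75) (nat_lit 5) (nat_lit 79) (nat_lit 5) (nat_lit 76) (nat_lit 5) (nat_lit 504) (nat_lit 491) (nat_lit 205))))))) (XT.nd (nat_lit 1092) (nat_lit 912) (nat_lit 0) (XT.nd (nat_lit 546) (nat_lit 532) (nat_lit 0) (XT.nd (nat_lit 234) (nat_lit 532) (nat_lit 0) (XT.nd (nat_lit 78) (nat_lit 228) (nat_lit 0)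 (XT.lf (nat_lit 0) (nat_lit 1434819942085) (nat_lit 304) (nat_lit 3561078731833) (nat_lit 76) (nat_lit 3024527205800) (nat_lit 72) (nat_lit 5) (nat_lit 76) (nat_lit 5) (nat_lit 73) (nat_lit 5) (nat_lit 505) (nat_lit 491) (nat_lit 204)) (XT.nd (nat_lit 78) (nat_lit 0) (nat_lit 0) (XT.lf (nat_lit 0) (nat_lit 1113020282000) (nat_lit 228) (nat_lit 1750559883196) (nat_lit 304) (nat_lit 5528062116439) (nat_lit 69) (nat_lit 5) (nat_lit 72) (nat_lit 5) (nat_lit 73) (nat_lit 5) (nat_lit 506) (nat_lit 491) (nat_lit 203)) (XT.lf (nat_lit 0) (nat_lit 4548729908366) (nat_lit 304) (nat_lit 2465920278871) (nat_lit 76) (nat_lit 1766538712291) (nat_lit 69) (nat_lit 5) (nat_lit 73) (nat_lit 5) (nat_lit 70) (nat_lit 5) (nat_lit 507) (nat_lit 491) (nat_lit 202)))) (XT.nd (nat_lit 156) (nat_lit 380) (nat_lit 0) (XT.nd (nat_lit 78) (nat_lit 0) (nat_lit 0) (XT.lf (nat_lit 0) (nat_lit 2827785789285) (nat_lit 152)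 (nat_lit 3654383245695) (nat_lit 228) (nat_lit 2710652019553) (nat_lit 67) (nat_lit 5) (nat_lit 69) (nat_lit 5) (nat_lit 70) (nat_lit 5) (nat_lit 508) (nat_lit 491) (nat_lit 201)) (XT.lf (nat_lit 0) (nat_lit 8638848815037) (nat_lit 228) (nat_lit 947905450565) (nat_lit 76) (nat_lit 45144274472) (nat_lit 67) (nat_lit 5) (nat_lit 70) (nat_lit 5) (nat_lit 68) (nat_lit 5) (nat_lit 509) (nat_lit 491) (nat_lit 200))) (XT.nd (nat_lit 78) (nat_lit 152) (nat_lit 0) (XT.lf (nat_lit 0) (nat_lit 1041101153790) (nat_lit 228) (nat_lit 5054289240945) (nat_lit 76) (nat_lit 3991272682089) (nat_lit 64) (nat_lit 5) (nat_lit 67) (nat_lit 5) (nat_lit 65) (nat_lit 5) (nat_lit 510) (nat_lit 491) (nat_lit 199)) (XT.lf (nat_lit 0) (nat_lit 992426835333) (nat_lit 152) (nat_lit 2242365272544) (nat_lit 228) (nat_lit 7336916510001) (nat_lit 62) (nat_lit 5) (nat_lit 64) (nat_lit 5) (nat_lit 65) (nat_lit 5) (nat_lit 511)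 (nat_lit 491) (nat_lit 198))))) (XT.nd (nat_lit 234) (nat_lit 380) (nat_lit 0) (XT.nd (nat_lit 78) (nat_lit 152) (nat_lit 0) (XT.lf (nat_lit 0) (nat_lit 5791910633279) (nat_lit 228) (nat_lit 3323919309350) (nat_lit 76) (nat_lit 1964693275989) (nat_lit 62) (nat_lit 5) (nat_lit 65) (nat_lit 5) (nat_lit 63) (nat_lit 5) (nat_lit 512) (nat_lit 491) (nat_lit 197)) (XT.nd (nat_lit 78) (nat_lit 0) (nat_lit 0) (XT.lf (nat_lit 0) (nat_lit 3551278227408) (nat_lit 152) (nat_lit 5145971993814) (nat_lit 228) (nat_lit 2921300639754) (nat_lit 60) (nat_lit 5) (nat_lit 62) (nat_lit 5) (nat_lit 63) (nat_lit 5) (nat_lit 513) (nat_lit 491) (nat_lit 196)) (XT.lf (nat_lit 0) (nat_lit 11165525803322) (nat_lit 152) (nat_lit 760373017190) (nat_lit 228) (nat_lit 266451346666) (nat_lit 60) (nat_lit 5) (nat_lit 62) (nat_lit 5) (nat_lit 63) (nat_lit 5) (nat_lit 514) (nat_lit 491) (nat_lit 195)))) (XT.nd (nat_lit 156)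 (nat_lit 76) (nat_lit 0) (XT.nd (nat_lit 78) (nat_lit 152) (nat_lit 0) (XT.lf (nat_lit 0) (nat_lit 2737136245121) (nat_lit 152) (nat_lit 6038046031217) (nat_lit 76) (nat_lit 4010551048584) (nat_lit 58) (nat_lit 5) (nat_lit 60) (nat_lit 5) (nat_lit 59) (nat_lit 5) (nat_lit 515) (nat_lit 491) (nat_lit 194)) (XT.lf (nat_lit 0) (nat_lit 1843010012103) (nat_lit 152) (nat_lit 4216484345853) (nat_lit 228) (nat_lit 7359108807616) (nat_lit 56) (nat_lit 5) (nat_lit 58) (nat_lit 5) (nat_lit 59) (nat_lit 5) (nat_lit 516) (nat_lit 491) (nat_lit 193))) (XT.nd (nat_lit 78) (nat_lit 76) (nat_lit 0) (XT.lf (nat_lit 0) (nat_lit 9834021261862) (nat_lit 228) (nat_lit 3412245019771) (nat_lit 76) (nat_lit 840925900476) (nat_lit 56) (nat_lit 5) (nat_lit 59) (nat_lit 5) (nat_lit 57) (nat_lit 4) (nat_lit 517) (nat_lit 491) (nat_lit 192)) (XT.lf (nat_lit 0) (nat_lit 5573458876194) (nat_lit 76) (nat_lit 8580612335738)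 (nat_lit 152) (nat_lit 635712236531) (nat_lit 55) (nat_lit 5) (nat_lit 56) (nat_lit 5) (nat_lit 57) (nat_lit 4) (nat_lit 518) (nat_lit 491) (nat_lit 191)))))) (XT.nd (nat_lit 546) (nat_lit 304) (nat_lit 0) (XT.nd (nat_lit 234) (nat_lit 304) (nat_lit 0) (XT.nd (nat_lit 78) (nat_lit 228) (nat_lit 0) (XT.lf (nat_lit 0) (nat_lit 3203227433672) (nat_lit 152) (nat_lit 150136153987) (nat_lit 76) (nat_lit 12181267133169) (nat_lit 54) (nat_lit 5) (nat_lit 56) (nat_lit 5) (nat_lit 55) (nat_lit 5) (nat_lit 519) (nat_lit 491) (nat_lit 190)) (XT.nd (nat_lit 78) (nat_lit 76) (nat_lit 0) (XT.lf (nat_lit 0) (nat_lit 7620486130632) (nat_lit 228) (nat_lit 6248471482493) (nat_lit 76) (nat_lit 2444343295294) (nat_lit 52) (nat_lit 5) (nat_lit 55) (nat_lit 5) (nat_lit 53) (nat_lit 4) (nat_lit 520) (nat_lit 491) (nat_lit 189)) (XT.lf (nat_lit 0) (nat_lit 4067879129330) (nat_lit 76) (nat_lit 8512390949357) (nat_lit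 152) (nat_lit 4558863067902) (nat_lit 51) (nat_lit 5) (nat_lit 52) (nat_lit 5) (nat_lit 53) (nat_lit 4) (nat_lit 521) (nat_lit 491) (nat_lit 188)))) (XT.nd (nat_lit 156) (nat_lit 76) (nat_lit 0) (XT.nd (nat_lit 78) (nat_lit 152) (nat_lit 0) (XT.lf (nat_lit 0) (nat_lit 85798602589) (nat_lit 152) (nat_lit 2454642637855) (nat_lit 76) (nat_lit 15476749411368) (nat_lit 50) (nat_lit 5) (nat_lit 52) (nat_lit 5) (nat_lit 51) (nat_lit 5) (nat_lit 522) (nat_lit 491) (nat_lit 187)) (XT.lf (nat_lit 0) (nat_lit 5183813772149) (nat_lit 228) (nat_lit 9679780904463) (nat_lit 76) (nat_lit 4066178911971) (nat_lit 48) (nat_lit 5) (nat_lit 51) (nat_lit 5) (nat_lit 49) (nat_lit 4) (nat_lit 523) (nat_lit 491) (nat_lit 186))) (XT.nd (nat_lit 78) (nat_lit 0) (nat_lit 0) (XT.lf (nat_lit 0) (nat_lit 2160974497164) (nat_lit 76) (nat_lit 8715510141198) (nat_lit 152) (nat_lit 9023933363287) (nat_lit 47) (nat_lit 5)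 (nat_lit 48) (nat_lit 5) (nat_lit 49) (nat_lit 4) (nat_lit 524) (nat_lit 491) (nat_lit 185)) (XT.lf (nat_lit 0) (nat_lit 15499488047861) (nat_lit 76) (nat_lit 1789743489918) (nat_lit 152) (nat_lit 3638309440869) (nat_lit 47) (nat_lit 5) (nat_lit 48) (nat_lit 5) (nat_lit 49) (nat_lit 4) (nat_lit 525) (nat_lit 491) (nat_lit 184))))) (XT.nd (nat_lit 59826) (nat_lit 0) (nat_lit 3268) (XT.nd (nat_lit 156) (nat_lit 152) (nat_lit 0) (XT.nd (nat_lit 78) (nat_lit 0) (nat_lit 0) (XT.lf (nat_lit 0) (nat_lit 2410420560525) (nat_lit 152) (nat_lit 13932726670036) (nat_lit 76) (nat_lit 5662198429169) (nat_lit 45) (nat_lit 5) (nat_lit 47) (nat_lit 5) (nat_lit 46) (nat_lit 4) (nat_lit 526) (nat_lit 491) (nat_lit 183)) (XT.lf (nat_lit 0) (nat_lit 8945240053351) (nat_lit 152) (nat_lit 340302125029) (nat_lit 76) (nat_lit 13860372069193) (nat_lit 45) (nat_lit 5) (nat_lit 47) (nat_lit 5) (nat_lit 46) (nat_lit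 4) (nat_lit 527) (nat_lit 491) (nat_lit 182))) (XT.nd (nat_lit 78) (nat_lit 76) (nat_lit 0) (XT.lf (nat_lit 0) (nat_lit 15094609904424) (nat_lit 76) (nat_lit 1271260932349) (nat_lit 152) (nat_lit 7982815427175) (nat_lit 44) (nat_lit 5) (nat_lit 45) (nat_lit 5) (nat_lit 46) (nat_lit 4) (nat_lit 528) (nat_lit 491) (nat_lit 181)) (XT.lf (nat_lit 0) (nat_lit 6272686721660) (nat_lit 76) (nat_lit 18445459058452) (nat_lit 76) (nat_lit 902494765742) (nat_lit 43) (nat_lit 4) (nat_lit 44) (nat_lit 5) (nat_lit 44) (nat_lit 4) (nat_lit 529) (nat_lit 491) (nat_lit 180)))) (XT.nd (nat_lit 156) (nat_lit 532) (nat_lit 0) (XT.nd (nat_lit 78) (nat_lit 0) (nat_lit 0) (XT.lf (nat_lit 0) (nat_lit 2380661278110) (nat_lit 532) (nat_lit 15880494013) (nat_lit 532) (nat_lit 15880494013) (nat_lit 93) (nat_lit 3) (nat_lit 100) (nat_lit 3) (nat_lit 100) (nat_lit 5) (nat_lit 492) (nat_lit 492) (nat_lit 216)) (XT.lf (nat_lit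 76) (nat_lit 2495869661203) (nat_lit 0) (nat_lit 2515931525298) (nat_lit 532) (nat_lit 1235068821) (nat_lit 94) (nat_lit 5) (nat_lit 93) (nat_lit 3) (nat_lit 100) (nat_lit 5) (nat_lit 493) (nat_lit 492) (nat_lit 215))) (XT.nd (nat_lit 78) (nat_lit 0) (nat_lit 76) (XT.lf (nat_lit 76) (nat_lit 10202889304) (nat_lit 0) (nat_lit 53664911041) (nat_lit 608) (nat_lit 5152197557840) (nat_lit 87) (nat_lit 5) (nat_lit 86) (nat_lit 5) (nat_lit 94) (nat_lit 5) (nat_lit 494) (nat_lit 492) (nat_lit 214)) (XT.lf (nat_lit 0) (nat_lit 267387934121) (nat_lit 532) (nat_lit 2611399505167) (nat_lit 608) (nat_lit 2545884722743) (nat_lit 87) (nat_lit 5) (nat_lit 94) (nat_lit 5) (nat_lit 95) (nat_lit 5) (nat_lit 495) (nat_lit 492) (nat_lit 213))))))))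
noncomputable def xc244 : XT := (XT.nd (nat_lit 2184) (nat_lit 456) (nat_lit 0) (XT.nd (nat_lit 1092) (nat_lit 1292) (nat_lit 0) (XT.nd (nat_lit 546) (nat_lit 912) (nat_lit 0) (XT.nd (nat_lit 234) (nat_lit 608) (nat_lit 0) (XT.nd (nat_lit 78) (nat_lit 0) (nat_lit 76) (XT.lf (nat_lit 76) (nat_lit 199190939185) (nat_lit 0) (nat_lit 294183179846) (nat_lit 608) (nat_lit 5156098635919) (nat_lit 88) (nat_lit 5) (nat_lit 87) (nat_lit 5) (nat_lit 95) (nat_lit 5) (nat_lit 496) (nat_lit 492) (nat_lit 212)) (XT.nd (nat_lit 78) (nat_lit 0) (nat_lit 0) (XT.lf (nat_lit 0) (nat_lit 870751507391) (nat_lit 532) (nat_lit 2565316168035) (nat_lit 608) (nat_lit 2445524735185) (nat_lit 88) (nat_lit 5) (nat_lit 95) (nat_lit 5) (nat_lit 96) (nat_lit 5) (nat_lit 497) (nat_lit 492) (nat_lit 211)) (XT.lf (nat_lit 76) (nat_lit 571388791264) (nat_lit 0) (nat_lit 728313331074) (nat_lit 608) (nat_lit 4830868873545) (nat_lit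 89) (nat_lit 5) (nat_lit 88) (nat_lit 5) (nat_lit 96) (nat_lit 5) (nat_lit 498) (nat_lit 492) (nat_lit 210)))) (XT.nd (nat_lit 156) (nat_lit 228) (nat_lit 0) (XT.nd (nat_lit 78) (nat_lit 532) (nat_lit 0) (XT.lf (nat_lit 0) (nat_lit 1887746230712) (nat_lit 532) (nat_lit 2343571848360) (nat_lit 76) (nat_lit 2158167593365) (nat_lit 89) (nat_lit 5) (nat_lit 96) (nat_lit 5) (nat_lit 90) (nat_lit 5) (nat_lit 499) (nat_lit 492) (nat_lit 209)) (XT.lf (nat_lit 0) (nat_lit 1168840228931) (nat_lit 532) (nat_lit 1401021503640) (nat_lit 608) (nat_lit 4095489561361) (nat_lit 82) (nat_lit 5) (nat_lit 89) (nat_lit 5) (nat_lit 90) (nat_lit 5) (nat_lit 500) (nat_lit 492) (nat_lit 208))) (XT.nd (nat_lit 78) (nat_lit 228) (nat_lit 0) (XT.lf (nat_lit 0) (nat_lit 3412107826062) (nat_lit 608) (nat_lit 1904117636874) (nat_lit 76) (nat_lit 1638615794091) (nat_lit 82) (nat_lit 5) (nat_lit 90) (nat_lit 5) (nat_lit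 83) (nat_lit 5) (nat_lit 501) (nat_lit 492) (nat_lit 207)) (XT.lf (nat_lit 0) (nat_lit 2041395991614) (nat_lit 228) (nat_lit 2365823406879) (nat_lit 304) (nat_lit 2853432155360) (nat_lit 79) (nat_lit 5) (nat_lit 82) (nat_lit 5) (nat_lit 83) (nat_lit 5) (nat_lit 502) (nat_lit 492) (nat_lit 206))))) (XT.nd (nat_lit 234) (nat_lit 608) (nat_lit 0) (XT.nd (nat_lit 78) (nat_lit 304) (nat_lit 0) (XT.lf (nat_lit 0) (nat_lit 5555089815407) (nat_lit 304) (nat_lit 1197010119231) (nat_lit 76) (nat_lit 832974746292) (nat_lit 79) (nat_lit 5) (nat_lit 83) (nat_lit 5) (nat_lit 80) (nat_lit 5) (nat_lit 503) (nat_lit 492) (nat_lit 205)) (XT.nd (nat_lit 78) (nat_lit 76) (nat_lit 0) (XT.lf (nat_lit 0) (nat_lit 3248045385269) (nat_lit 228) (nat_lit 3686310008516) (nat_lit 304) (nat_lit 989931022138) (nat_lit 76) (nat_lit 5) (nat_lit 79) (nat_lit 5) (nat_lit 80) (nat_lit 5) (nat_lit 504) (nat_lit 492) (nat_lit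 204)) (XT.lf (nat_lit 0) (nat_lit 160236031306) (nat_lit 304) (nat_lit 175293071785) (nat_lit 76) (nat_lit 7952163187731) (nat_lit 75) (nat_lit 5) (nat_lit 79) (nat_lit 5) (nat_lit 76) (nat_lit 5) (nat_lit 505) (nat_lit 492) (nat_lit 203)))) (XT.nd (nat_lit 156) (nat_lit 152) (nat_lit 0) (XT.nd (nat_lit 78) (nat_lit 228) (nat_lit 0) (XT.lf (nat_lit 0) (nat_lit 1549605540005) (nat_lit 304) (nat_lit 3845965027065) (nat_lit 76) (nat_lit 3266489382821) (nat_lit 72) (nat_lit 5) (nat_lit 76) (nat_lit 5) (nat_lit 73) (nat_lit 5) (nat_lit 506) (nat_lit 492) (nat_lit 202)) (XT.lf (nat_lit 0) (nat_lit 1202061907791) (nat_lit 228) (nat_lit 1890604673062) (nat_lit 304) (nat_lit 5970307083117) (nat_lit 69) (nat_lit 5) (nat_lit 72) (nat_lit 5) (nat_lit 73) (nat_lit 5) (nat_lit 507) (nat_lit 492) (nat_lit 201))) (XT.nd (nat_lit 78) (nat_lit 152) (nat_lit 0) (XT.lf (nat_lit 0) (nat_lit 4912628303314) (nat_lit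 304) (nat_lit 2663193898025) (nat_lit 76) (nat_lit 1907861809968) (nat_lit 69) (nat_lit 5) (nat_lit 73) (nat_lit 5) (nat_lit 70) (nat_lit 5) (nat_lit 508) (nat_lit 492) (nat_lit 200)) (XT.lf (nat_lit 0) (nat_lit 3054008655503) (nat_lit 152) (nat_lit 3946733904459) (nat_lit 228) (nat_lit 2927504178759) (nat_lit 67) (nat_lit 5) (nat_lit 69) (nat_lit 5) (nat_lit 70) (nat_lit 5) (nat_lit 509) (nat_lit 492) (nat_lit 199)))))) (XT.nd (nat_lit 546) (nat_lit 608) (nat_lit 0) (XT.nd (nat_lit 234) (nat_lit 304) (nat_lit 0) (XT.nd (nat_lit 78) (nat_lit 380) (nat_lit 0) (XT.lf (nat_lit 0) (nat_lit 9329956722282) (nat_lit 228) (nat_lit 1023737883621) (nat_lit 76) (nat_lit 48755817214) (nat_lit 67) (nat_lit 5) (nat_lit 70) (nat_lit 5) (nat_lit 68) (nat_lit 5) (nat_lit 510) (nat_lit 492) (nat_lit 198)) (XT.nd (nat_lit 78) (nat_lit 152) (nat_lit 0) (XT.lf (nat_lit 0) (nat_lit 1124389248105) (nat_lit 228)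 (nat_lit 5458632377201) (nat_lit 76) (nat_lit 4310574497503) (nat_lit 64) (nat_lit 5) (nat_lit 67) (nat_lit 5) (nat_lit 65) (nat_lit 5) (nat_lit 511) (nat_lit 492) (nat_lit 197)) (XT.lf (nat_lit 0) (nat_lit 1071820985104) (nat_lit 152) (nat_lit 2421754493337) (nat_lit 228) (nat_lit 7923869828713) (nat_lit 62) (nat_lit 5) (nat_lit 64) (nat_lit 5) (nat_lit 65) (nat_lit 5) (nat_lit 512) (nat_lit 492) (nat_lit 196)))) (XT.nd (nat_lit 156) (nat_lit 152) (nat_lit 0) (XT.nd (nat_lit 78) (nat_lit 152) (nat_lit 0) (XT.lf (nat_lit 0) (nat_lit 6255263485755) (nat_lit 228) (nat_lit 3589832851251) (nat_lit 76) (nat_lit 2121868738956) (nat_lit 62) (nat_lit 5) (nat_lit 65) (nat_lit 5) (nat_lit 63) (nat_lit 5) (nat_lit 513) (nat_lit 492) (nat_lit 195)) (XT.lf (nat_lit 0) (nat_lit 3835380488375) (nat_lit 152) (nat_lit 5557649752290) (nat_lit 228) (nat_lit 3155004689049) (nat_lit 60) (nat_lit 5) (nat_lit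 62) (nat_lit 5) (nat_lit 63) (nat_lit 5) (nat_lit 514) (nat_lit 492) (nat_lit 194))) (XT.nd (nat_lit 78) (nat_lit 152) (nat_lit 0) (XT.lf (nat_lit 0) (nat_lit 12058767870156) (nat_lit 152) (nat_lit 821202857612) (nat_lit 228) (nat_lit 287767452654) (nat_lit 60) (nat_lit 5) (nat_lit 62) (nat_lit 5) (nat_lit 63) (nat_lit 5) (nat_lit 515) (nat_lit 492) (nat_lit 193)) (XT.lf (nat_lit 0) (nat_lit 2956107146352) (nat_lit 152) (nat_lit 6521089711022) (nat_lit 76) (nat_lit 4331395133412) (nat_lit 58) (nat_lit 5) (nat_lit 60) (nat_lit 5) (nat_lit 59) (nat_lit 5) (nat_lit 516) (nat_lit 492) (nat_lit 192))))) (XT.nd (nat_lit 234) (nat_lit 380) (nat_lit 0) (XT.nd (nat_lit 78) (nat_lit 76) (nat_lit 0) (XT.lf (nat_lit 0) (nat_lit 1990450815696) (nat_lit 152) (nat_lit 4553803092461) (nat_lit 228) (nat_lit 7947837510536) (nat_lit 56) (nat_lit 5) (nat_lit 58) (nat_lit 5) (nat_lit 59) (nat_lit 5) (nat_lit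 517) (nat_lit 492) (nat_lit 191)) (XT.nd (nat_lit 78) (nat_lit 76) (nat_lit 0) (XT.lf (nat_lit 0) (nat_lit 10620742964283) (nat_lit 228) (nat_lit 3685224618830) (nat_lit 76) (nat_lit 908199973447) (nat_lit 56) (nat_lit 5) (nat_lit 59) (nat_lit 5) (nat_lit 57) (nat_lit 4) (nat_lit 518) (nat_lit 492) (nat_lit 190)) (XT.lf (nat_lit 0) (nat_lit 6019335588748) (nat_lit 76) (nat_lit 9267061321560) (nat_lit 152) (nat_lit 686569213917) (nat_lit 55) (nat_lit 5) (nat_lit 56) (nat_lit 5) (nat_lit 57) (nat_lit 4) (nat_lit 519) (nat_lit 492) (nat_lit 189)))) (XT.nd (nat_lit 156) (nat_lit 152) (nat_lit 0) (XT.nd (nat_lit 78) (nat_lit 152) (nat_lit 0) (XT.lf (nat_lit 0) (nat_lit 3459485629717) (nat_lit 152) (nat_lit 162147043959) (nat_lit 76) (nat_lit 13155768504711) (nat_lit 54) (nat_lit 5) (nat_lit 56) (nat_lit 5) (nat_lit 55) (nat_lit 5) (nat_lit 520) (nat_lit 492) (nat_lit 188)) (XT.lf (nat_lit 0)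 (nat_lit 8230125022413) (nat_lit 228) (nat_lit 6748349198723) (nat_lit 76) (nat_lit 2639890759851) (nat_lit 52) (nat_lit 5) (nat_lit 55) (nat_lit 5) (nat_lit 53) (nat_lit 4) (nat_lit 521) (nat_lit 492) (nat_lit 187))) (XT.nd (nat_lit 78) (nat_lit 76) (nat_lit 0) (XT.lf (nat_lit 0) (nat_lit 4393309461985) (nat_lit 76) (nat_lit 9193382224283) (nat_lit 152) (nat_lit 4923572111945) (nat_lit 51) (nat_lit 5) (nat_lit 52) (nat_lit 5) (nat_lit 53) (nat_lit 4) (nat_lit 522) (nat_lit 492) (nat_lit 186)) (XT.lf (nat_lit 0) (nat_lit 92662492018) (nat_lit 152) (nat_lit 2651014046680) (nat_lit 76) (nat_lit 16714889365160) (nat_lit 50) (nat_lit 5) (nat_lit 52) (nat_lit 5) (nat_lit 51) (nat_lit 5) (nat_lit 523) (nat_lit 492) (nat_lit 185))))))) (XT.nd (nat_lit 60684) (nat_lit 0) (nat_lit 1216) (XT.nd (nat_lit 60138) (nat_lit 0) (nat_lit 3192) (XT.nd (nat_lit 234) (nat_lit 228) (nat_lit 0) (XT.nd (nat_lit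 78) (nat_lit 76) (nat_lit 0) (XT.lf (nat_lit 0) (nat_lit 5598518875127) (nat_lit 228) (nat_lit 10454163374602) (nat_lit 76) (nat_lit 4391473225844) (nat_lit 48) (nat_lit 5) (nat_lit 51) (nat_lit 5) (nat_lit 49) (nat_lit 4) (nat_lit 524) (nat_lit 492) (nat_lit 184)) (XT.nd (nat_lit 78) (nat_lit 0) (nat_lit 0) (XT.lf (nat_lit 0) (nat_lit 2333852459100) (nat_lit 76) (nat_lit 9412750951501) (nat_lit 152) (nat_lit 9745848031087) (nat_lit 47) (nat_lit 5) (nat_lit 48) (nat_lit 5) (nat_lit 49) (nat_lit 4) (nat_lit 525) (nat_lit 492) (nat_lit 183)) (XT.lf (nat_lit 0) (nat_lit 16739447093692) (nat_lit 76) (nat_lit 1932922968192) (nat_lit 152) (nat_lit 3929374194969) (nat_lit 47) (nat_lit 5) (nat_lit 48) (nat_lit 5) (nat_lit 49) (nat_lit 4) (nat_lit 526) (nat_lit 492) (nat_lit 182)))) (XT.nd (nat_lit 156) (nat_lit 76) (nat_lit 0) (XT.nd (nat_lit 78) (nat_lit 0) (nat_lit 0) (XT.lf (nat_lit 0) (nat_lit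 2603254206466) (nat_lit 152) (nat_lit 15047344801567) (nat_lit 76) (nat_lit 6115174304388) (nat_lit 45) (nat_lit 5) (nat_lit 47) (nat_lit 5) (nat_lit 46) (nat_lit 4) (nat_lit 527) (nat_lit 492) (nat_lit 181)) (XT.lf (nat_lit 0) (nat_lit 9660859258637) (nat_lit 152) (nat_lit 367526293113) (nat_lit 76) (nat_lit 14969201835547) (nat_lit 45) (nat_lit 5) (nat_lit 47) (nat_lit 5) (nat_lit 46) (nat_lit 4) (nat_lit 528) (nat_lit 492) (nat_lit 180))) (XT.nd (nat_lit 59670) (nat_lit 0) (nat_lit 3724) (XT.lf (nat_lit 0) (nat_lit 16302178698648) (nat_lit 76) (nat_lit 1372961806054) (nat_lit 152) (nat_lit 8621440660282) (nat_lit 44) (nat_lit 5) (nat_lit 45) (nat_lit 5) (nat_lit 46) (nat_lit 4) (nat_lit 529) (nat_lit 492) (nat_lit 179)) (XT.lf (nat_lit 0) (nat_lit 2571114182949) (nat_lit 532) (nat_lit 17150932135) (nat_lit 532) (nat_lit 17150932135) (nat_lit 93) (nat_lit 3) (nat_lit 100) (nat_lit 3) (nat_lit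 100) (nat_lit 5) (nat_lit 493) (nat_lit 493) (nat_lit 214))))) (XT.nd (nat_lit 234) (nat_lit 0) (nat_lit 76) (XT.nd (nat_lit 78) (nat_lit 532) (nat_lit 0) (XT.lf (nat_lit 76) (nat_lit 2695539236826) (nat_lit 0) (nat_lit 2717206049457) (nat_lit 532) (nat_lit 1333869074) (nat_lit 94) (nat_lit 5) (nat_lit 93) (nat_lit 3) (nat_lit 100) (nat_lit 5) (nat_lit 494) (nat_lit 493) (nat_lit 213)) (XT.nd (nat_lit 78) (nat_lit 0) (nat_lit 76) (XT.lf (nat_lit 76) (nat_lit 11019123363) (nat_lit 0) (nat_lit 57958105699) (nat_lit 608) (nat_lit 5564373357401) (nat_lit 87) (nat_lit 5) (nat_lit 86) (nat_lit 5) (nat_lit 94) (nat_lit 5) (nat_lit 495) (nat_lit 493) (nat_lit 212)) (XT.lf (nat_lit 0) (nat_lit 288778973154) (nat_lit 532) (nat_lit 2820311462494) (nat_lit 608) (nat_lit 2749555499001) (nat_lit 87) (nat_lit 5) (nat_lit 94) (nat_lit 5) (nat_lit 95) (nat_lit 5) (nat_lit 496) (nat_lit 493) (nat_lit 211))))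 (XT.nd (nat_lit 156) (nat_lit 0) (nat_lit 76) (XT.nd (nat_lit 78) (nat_lit 0) (nat_lit 76) (XT.lf (nat_lit 76) (nat_lit 215126217328) (nat_lit 0) (nat_lit 317717835282) (nat_lit 608) (nat_lit 5568586522411) (nat_lit 88) (nat_lit 5) (nat_lit 87) (nat_lit 5) (nat_lit 95) (nat_lit 5) (nat_lit 497) (nat_lit 493) (nat_lit 210)) (XT.lf (nat_lit 0) (nat_lit 940411631715) (nat_lit 532) (nat_lit 2770541458368) (nat_lit 608) (nat_lit 2641166713078) (nat_lit 88) (nat_lit 5) (nat_lit 95) (nat_lit 5) (nat_lit 96) (nat_lit 5) (nat_lit 498) (nat_lit 493) (nat_lit 209))) (XT.nd (nat_lit 78) (nat_lit 0) (nat_lit 76) (XT.lf (nat_lit 76) (nat_lit 617099897596) (nat_lit 0) (nat_lit 786578398058) (nat_lit 608) (nat_lit 5217338379616) (nat_lit 89) (nat_lit 5) (nat_lit 88) (nat_lit 5) (nat_lit 96) (nat_lit 5) (nat_lit 499) (nat_lit 493) (nat_lit 208)) (XT.lf (nat_lit 0) (nat_lit 2038765932426) (nat_lit 532) (nat_lit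 2531057593150) (nat_lit 76) (nat_lit 2330821000395) (nat_lit 89) (nat_lit 5) (nat_lit 96) (nat_lit 5) (nat_lit 90) (nat_lit 5) (nat_lit 500) (nat_lit 493) (nat_lit 207)))))) (XT.nd (nat_lit 546) (nat_lit 912) (nat_lit 0) (XT.nd (nat_lit 234) (nat_lit 532) (nat_lit 0) (XT.nd (nat_lit 78) (nat_lit 228) (nat_lit 0) (XT.lf (nat_lit 0) (nat_lit 1262347450247) (nat_lit 532) (nat_lit 1513103224017) (nat_lit 608) (nat_lit 4423128722934) (nat_lit 82) (nat_lit 5) (nat_lit 89) (nat_lit 5) (nat_lit 90) (nat_lit 5) (nat_lit 501) (nat_lit 493) (nat_lit 206)) (XT.nd (nat_lit 78) (nat_lit 228) (nat_lit 0) (XT.lf (nat_lit 0) (nat_lit 3685076455004) (nat_lit 608) (nat_lit 2056447044813) (nat_lit 76) (nat_lit 1769705057543) (nat_lit 82) (nat_lit 5) (nat_lit 90) (nat_lit 5) (nat_lit 83) (nat_lit 5) (nat_lit 502) (nat_lit 493) (nat_lit 205)) (XT.lf (nat_lit 0) (nat_lit 2204707673877) (nat_lit 228) (nat_lit 2555089279211)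 (nat_lit 304) (nat_lit 3081706724855) (nat_lit 79) (nat_lit 5) (nat_lit 82) (nat_lit 5) (nat_lit 83) (nat_lit 5) (nat_lit 503) (nat_lit 493) (nat_lit 204)))) (XT.nd (nat_lit 156) (nat_lit 304) (nat_lit 0) (XT.nd (nat_lit 78) (nat_lit 228) (nat_lit 0) (XT.lf (nat_lit 0) (nat_lit 5999497003159) (nat_lit 304) (nat_lit 1292770925856) (nat_lit 76) (nat_lit 899612726187) (nat_lit 79) (nat_lit 5) (nat_lit 83) (nat_lit 5) (nat_lit 80) (nat_lit 5) (nat_lit 504) (nat_lit 493) (nat_lit 203)) (XT.lf (nat_lit 0) (nat_lit 3507889018930) (nat_lit 228) (nat_lit 3981214808759) (nat_lit 304) (nat_lit 1069125501316) (nat_lit 76) (nat_lit 5) (nat_lit 79) (nat_lit 5) (nat_lit 80) (nat_lit 5) (nat_lit 505) (nat_lit 493) (nat_lit 202))) (XT.nd (nat_lit 78) (nat_lit 228) (nat_lit 0) (XT.lf (nat_lit 0) (nat_lit 173054916092) (nat_lit 304) (nat_lit 189316514778) (nat_lit 76) (nat_lit 8588336243035) (nat_lit 75) (nat_lit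 5) (nat_lit 79) (nat_lit 5) (nat_lit 76) (nat_lit 5) (nat_lit 506) (nat_lit 493) (nat_lit 201)) (XT.lf (nat_lit 0) (nat_lit 1673573985394) (nat_lit 304) (nat_lit 4153642226388) (nat_lit 76) (nat_lit 3527808533925) (nat_lit 72) (nat_lit 5) (nat_lit 76) (nat_lit 5) (nat_lit 73) (nat_lit 5) (nat_lit 507) (nat_lit 493) (nat_lit 200))))) (XT.nd (nat_lit 312) (nat_lit 532) (nat_lit 0) (XT.nd (nat_lit 156) (nat_lit 152) (nat_lit 0) (XT.nd (nat_lit 78) (nat_lit 0) (nat_lit 0) (XT.lf (nat_lit 0) (nat_lit 1298226863184) (nat_lit 228) (nat_lit 2041853046230) (nat_lit 304) (nat_lit 6447931647505) (nat_lit 69) (nat_lit 5) (nat_lit 72) (nat_lit 5) (nat_lit 73) (nat_lit 5) (nat_lit 508) (nat_lit 493) (nat_lit 199)) (XT.lf (nat_lit 0) (nat_lit 5305638569533) (nat_lit 304) (nat_lit 2876249407162) (nat_lit 76) (nat_lit 2060490755361) (nat_lit 69) (nat_lit 5) (nat_lit 73) (nat_lit 5) (nat_lit 70) (nat_lit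 5) (nat_lit 509) (nat_lit 493) (nat_lit 198))) (XT.nd (nat_lit 78) (nat_lit 0) (nat_lit 0) (XT.lf (nat_lit 0) (nat_lit 3298329350580) (nat_lit 152) (nat_lit 4262472616051) (nat_lit 228) (nat_lit 3161704511038) (nat_lit 67) (nat_lit 5) (nat_lit 69) (nat_lit 5) (nat_lit 70) (nat_lit 5) (nat_lit 510) (nat_lit 493) (nat_lit 197)) (XT.lf (nat_lit 0) (nat_lit 10076353261815) (nat_lit 228) (nat_lit 1105636911747) (nat_lit 76) (nat_lit 52656283264) (nat_lit 67) (nat_lit 5) (nat_lit 70) (nat_lit 5) (nat_lit 68) (nat_lit 5) (nat_lit 511) (nat_lit 493) (nat_lit 196)))) (XT.nd (nat_lit 156) (nat_lit 152) (nat_lit 0) (XT.nd (nat_lit 78) (nat_lit 152) (nat_lit 0) (XT.lf (nat_lit 0) (nat_lit 1214340389679) (nat_lit 228) (nat_lit 5895322964788) (nat_lit 76) (nat_lit 4655420458030) (nat_lit 64) (nat_lit 5) (nat_lit 67) (nat_lit 5) (nat_lit 65) (nat_lit 5) (nat_lit 512) (nat_lit 493) (nat_lit 195)) (XT.lf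 (nat_lit 0) (nat_lit 1157566666436) (nat_lit 152) (nat_lit 2615494851938) (nat_lit 228) (nat_lit 8557779413220) (nat_lit 62) (nat_lit 5) (nat_lit 64) (nat_lit 5) (nat_lit 65) (nat_lit 5) (nat_lit 513) (nat_lit 493) (nat_lit 194))) (XT.nd (nat_lit 78) (nat_lit 152) (nat_lit 0) (XT.lf (nat_lit 0) (nat_lit 6755684566169) (nat_lit 228) (nat_lit 3877019476911) (nat_lit 76) (nat_lit 2291618238835) (nat_lit 62) (nat_lit 5) (nat_lit 65) (nat_lit 5) (nat_lit 63) (nat_lit 5) (nat_lit 514) (nat_lit 493) (nat_lit 193)) (XT.lf (nat_lit 0) (nat_lit 4142210929824) (nat_lit 152) (nat_lit 6002261731591) (nat_lit 228) (nat_lit 3407405062557) (nat_lit 60) (nat_lit 5) (nat_lit 62) (nat_lit 5) (nat_lit 63) (nat_lit 5) (nat_lit 515) (nat_lit 493) (nat_lit 192))))))))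
noncomputable def xc245 : XT := (XT.nd (nat_lit 61854) (nat_lit 0) (nat_lit 0) (XT.nd (nat_lit 60762) (nat_lit 0) (nat_lit 2280) (XT.nd (nat_lit 546) (nat_lit 532) (nat_lit 0) (XT.nd (nat_lit 234) (nat_lit 304) (nat_lit 0) (XT.nd (nat_lit 78) (nat_lit 304) (nat_lit 0) (XT.lf (nat_lit 0) (nat_lit 13023469301971) (nat_lit 152) (nat_lit 886899085404) (nat_lit 228) (nat_lit 310788847370) (nat_lit 60) (nat_lit 5) (nat_lit 62) (nat_lit 5) (nat_lit 63) (nat_lit 5) (nat_lit 516) (nat_lit 493) (nat_lit 191)) (XT.nd (nat_lit 78) (nat_lit 152) (nat_lit 0) (XT.lf (nat_lit 0) (nat_lit 3192595719451) (nat_lit 152) (nat_lit 7042776885594) (nat_lit 76) (nat_lit 4677906744893) (nat_lit 58) (nat_lit 5) (nat_lit 60) (nat_lit 5) (nat_lit 59) (nat_lit 5) (nat_lit 517) (nat_lit 493) (nat_lit 190)) (XT.lf (nat_lit 0) (nat_lit 2149686883202) (nat_lit 152) (nat_lit 4918107338949) (nat_lit 228) (nat_lit 8583664509930)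 (nat_lit 56) (nat_lit 5) (nat_lit 58) (nat_lit 5) (nat_lit 59) (nat_lit 5) (nat_lit 518) (nat_lit 493) (nat_lit 189)))) (XT.nd (nat_lit 156) (nat_lit 228) (nat_lit 0) (XT.nd (nat_lit 78) (nat_lit 76) (nat_lit 0) (XT.lf (nat_lit 0) (nat_lit 11470402402688) (nat_lit 228) (nat_lit 3980042586174) (nat_lit 76) (nat_lit 980855972122) (nat_lit 56) (nat_lit 5) (nat_lit 59) (nat_lit 5) (nat_lit 57) (nat_lit 4) (nat_lit 519) (nat_lit 493) (nat_lit 188)) (XT.lf (nat_lit 0) (nat_lit 6500882437956) (nat_lit 76) (nat_lit 10008426226396) (nat_lit 152) (nat_lit 741494749713) (nat_lit 55) (nat_lit 5) (nat_lit 56) (nat_lit 5) (nat_lit 57) (nat_lit 4) (nat_lit 520) (nat_lit 493) (nat_lit 187))) (XT.nd (nat_lit 78) (nat_lit 152) (nat_lit 0) (XT.lf (nat_lit 0) (nat_lit 3736244481252) (nat_lit 152) (nat_lit 175118805462) (nat_lit 76) (nat_lit 14208229985850) (nat_lit 54) (nat_lit 5) (nat_lit 56) (nat_lit 5) (nat_lit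 55) (nat_lit 5) (nat_lit 521) (nat_lit 493) (nat_lit 186)) (XT.lf (nat_lit 0) (nat_lit 8888535025346) (nat_lit 228) (nat_lit 7288217132589) (nat_lit 76) (nat_lit 2851082021439) (nat_lit 52) (nat_lit 5) (nat_lit 55) (nat_lit 5) (nat_lit 53) (nat_lit 4) (nat_lit 522) (nat_lit 493) (nat_lit 185))))) (XT.nd (nat_lit 234) (nat_lit 228) (nat_lit 0) (XT.nd (nat_lit 78) (nat_lit 228) (nat_lit 0) (XT.lf (nat_lit 0) (nat_lit 4744774220924) (nat_lit 76) (nat_lit 9928852801349) (nat_lit 152) (nat_lit 5317457879709) (nat_lit 51) (nat_lit 5) (nat_lit 52) (nat_lit 5) (nat_lit 53) (nat_lit 4) (nat_lit 523) (nat_lit 493) (nat_lit 184)) (XT.nd (nat_lit 78) (nat_lit 152) (nat_lit 0) (XT.lf (nat_lit 0) (nat_lit 100075492428) (nat_lit 152) (nat_lit 2863095168526) (nat_lit 76) (nat_lit 18052080515130) (nat_lit 50) (nat_lit 5) (nat_lit 52) (nat_lit 5) (nat_lit 51) (nat_lit 5) (nat_lit 524) (nat_lit 493) (nat_lit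 183)) (XT.lf (nat_lit 0) (nat_lit 6046400386172) (nat_lit 228) (nat_lit 11290496442667) (nat_lit 76) (nat_lit 4742791084697) (nat_lit 48) (nat_lit 5) (nat_lit 51) (nat_lit 5) (nat_lit 49) (nat_lit 4) (nat_lit 525) (nat_lit 493) (nat_lit 182)))) (XT.nd (nat_lit 156) (nat_lit 152) (nat_lit 0) (XT.nd (nat_lit 78) (nat_lit 0) (nat_lit 0) (XT.lf (nat_lit 0) (nat_lit 2520560657682) (nat_lit 76) (nat_lit 10165771026769) (nat_lit 152) (nat_lit 10525515872491) (nat_lit 47) (nat_lit 5) (nat_lit 48) (nat_lit 5) (nat_lit 49) (nat_lit 4) (nat_lit 526) (nat_lit 493) (nat_lit 181)) (XT.lf (nat_lit 0) (nat_lit 18078602862904) (nat_lit 76) (nat_lit 2087556804859) (nat_lit 152) (nat_lit 4243724129564) (nat_lit 47) (nat_lit 5) (nat_lit 48) (nat_lit 5) (nat_lit 49) (nat_lit 4) (nat_lit 527) (nat_lit 493) (nat_lit 180))) (XT.nd (nat_lit 78) (nat_lit 0) (nat_lit 0) (XT.lf (nat_lit 0) (nat_lit 2811514543926) (nat_lit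 152) (nat_lit 16251132383915) (nat_lit 76) (nat_lit 6604388249498) (nat_lit 45) (nat_lit 5) (nat_lit 47) (nat_lit 5) (nat_lit 46) (nat_lit 4) (nat_lit 528) (nat_lit 493) (nat_lit 179)) (XT.lf (nat_lit 0) (nat_lit 10433728000200) (nat_lit 152) (nat_lit 396928394916) (nat_lit 76) (nat_lit 16166737983094) (nat_lit 45) (nat_lit 5) (nat_lit 47) (nat_lit 5) (nat_lit 46) (nat_lit 4) (nat_lit 529) (nat_lit 493) (nat_lit 178)))))) (XT.nd (nat_lit 546) (nat_lit 836) (nat_lit 0) (XT.nd (nat_lit 234) (nat_lit 0) (nat_lit 76) (XT.nd (nat_lit 78) (nat_lit 532) (nat_lit 0) (XT.lf (nat_lit 0) (nat_lit 2776803319806) (nat_lit 532) (nat_lit 18523005506) (nat_lit 532) (nat_lit 18523005506) (nat_lit 93) (nat_lit 3) (nat_lit 100) (nat_lit 3) (nat_lit 100) (nat_lit 5) (nat_lit 494) (nat_lit 494) (nat_lit 212)) (XT.nd (nat_lit 78) (nat_lit 532) (nat_lit 0) (XT.lf (nat_lit 76) (nat_lit 2911182378111) (nat_lit 0)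 (nat_lit 2934582535245) (nat_lit 532) (nat_lit 1440574096) (nat_lit 94) (nat_lit 5) (nat_lit 93) (nat_lit 3) (nat_lit 100) (nat_lit 5) (nat_lit 495) (nat_lit 494) (nat_lit 211)) (XT.lf (nat_lit 76) (nat_lit 11900655732) (nat_lit 0) (nat_lit 62594755677) (nat_lit 608) (nat_lit 6009523221650) (nat_lit 87) (nat_lit 5) (nat_lit 86) (nat_lit 5) (nat_lit 94) (nat_lit 5) (nat_lit 496) (nat_lit 494) (nat_lit 210)))) (XT.nd (nat_lit 156) (nat_lit 0) (nat_lit 76) (XT.nd (nat_lit 78) (nat_lit 0) (nat_lit 0) (XT.lf (nat_lit 0) (nat_lit 311881294696) (nat_lit 532) (nat_lit 3045936376847) (nat_lit 608) (nat_lit 2969519937582) (nat_lit 87) (nat_lit 5) (nat_lit 94) (nat_lit 5) (nat_lit 95) (nat_lit 5) (nat_lit 497) (nat_lit 494) (nat_lit 209)) (XT.lf (nat_lit 76) (nat_lit 232336317294) (nat_lit 0) (nat_lit 343135263004) (nat_lit 608) (nat_lit 6014073440447) (nat_lit 88) (nat_lit 5) (nat_lit 87) (nat_lit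 5) (nat_lit 95) (nat_lit 5) (nat_lit 498) (nat_lit 494) (nat_lit 208))) (XT.nd (nat_lit 78) (nat_lit 0) (nat_lit 0) (XT.lf (nat_lit 0) (nat_lit 1015644565453) (nat_lit 532) (nat_lit 2992184772371) (nat_lit 608) (nat_lit 2852460049333) (nat_lit 88) (nat_lit 5) (nat_lit 95) (nat_lit 5) (nat_lit 96) (nat_lit 5) (nat_lit 499) (nat_lit 494) (nat_lit 207)) (XT.lf (nat_lit 76) (nat_lit 666467892002) (nat_lit 0) (nat_lit 849504670330) (nat_lit 608) (nat_lit 5634725446717) (nat_lit 89) (nat_lit 5) (nat_lit 88) (nat_lit 5) (nat_lit 96) (nat_lit 5) (nat_lit 500) (nat_lit 494) (nat_lit 206))))) (XT.nd (nat_lit 234) (nat_lit 532) (nat_lit 0) (XT.nd (nat_lit 78) (nat_lit 532) (nat_lit 0) (XT.lf (nat_lit 0) (nat_lit 2201867209813) (nat_lit 532) (nat_lit 2733542197962) (nat_lit 76) (nat_lit 2517286680051) (nat_lit 89) (nat_lit 5) (nat_lit 96) (nat_lit 5) (nat_lit 90) (nat_lit 5) (nat_lit 501) (nat_lit 494)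 (nat_lit 205)) (XT.nd (nat_lit 78) (nat_lit 0) (nat_lit 0) (XT.lf (nat_lit 0) (nat_lit 1363335248841) (nat_lit 532) (nat_lit 1634151482013) (nat_lit 608) (nat_lit 4776979017910) (nat_lit 82) (nat_lit 5) (nat_lit 89) (nat_lit 5) (nat_lit 90) (nat_lit 5) (nat_lit 502) (nat_lit 494) (nat_lit 204)) (XT.lf (nat_lit 0) (nat_lit 3979882573854) (nat_lit 608) (nat_lit 2220962805818) (nat_lit 76) (nat_lit 1911281462081) (nat_lit 82) (nat_lit 5) (nat_lit 90) (nat_lit 5) (nat_lit 83) (nat_lit 5) (nat_lit 503) (nat_lit 494) (nat_lit 203)))) (XT.nd (nat_lit 156) (nat_lit 304) (nat_lit 0) (XT.nd (nat_lit 78) (nat_lit 0) (nat_lit 0) (XT.lf (nat_lit 0) (nat_lit 2381084290302) (nat_lit 228) (nat_lit 2759496421362) (nat_lit 304) (nat_lit 3328243260328) (nat_lit 79) (nat_lit 5) (nat_lit 82) (nat_lit 5) (nat_lit 83) (nat_lit 5) (nat_lit 504) (nat_lit 494) (nat_lit 202)) (XT.lf (nat_lit 0) (nat_lit 6479456765572)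 (nat_lit 304) (nat_lit 1396192597427) (nat_lit 76) (nat_lit 971581744446) (nat_lit 79) (nat_lit 5) (nat_lit 83) (nat_lit 5) (nat_lit 80) (nat_lit 5) (nat_lit 505) (nat_lit 494) (nat_lit 201))) (XT.nd (nat_lit 78) (nat_lit 76) (nat_lit 0) (XT.lf (nat_lit 0) (nat_lit 3788520142879) (nat_lit 228) (nat_lit 4299711993085) (nat_lit 304) (nat_lit 1154655539197) (nat_lit 76) (nat_lit 5) (nat_lit 79) (nat_lit 5) (nat_lit 80) (nat_lit 5) (nat_lit 506) (nat_lit 494) (nat_lit 200)) (XT.lf (nat_lit 0) (nat_lit 186899311335) (nat_lit 304) (nat_lit 204461833603) (nat_lit 76) (nat_lit 9275403142722) (nat_lit 75) (nat_lit 5) (nat_lit 79) (nat_lit 5) (nat_lit 76) (nat_lit 5) (nat_lit 507) (nat_lit 494) (nat_lit 199))))))) (XT.nd (nat_lit 1092) (nat_lit 760) (nat_lit 0) (XT.nd (nat_lit 546) (nat_lit 532) (nat_lit 0) (XT.nd (nat_lit 234) (nat_lit 532) (nat_lit 0) (XT.nd (nat_lit 78) (nat_lit 228) (nat_lit 0)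 (XT.lf (nat_lit 0) (nat_lit 1807459906103) (nat_lit 304) (nat_lit 4485933602062) (nat_lit 76) (nat_lit 3810033217049) (nat_lit 72) (nat_lit 5) (nat_lit 76) (nat_lit 5) (nat_lit 73) (nat_lit 5) (nat_lit 508) (nat_lit 494) (nat_lit 198)) (XT.nd (nat_lit 78) (nat_lit 0) (nat_lit 0) (XT.lf (nat_lit 0) (nat_lit 1402085014614) (nat_lit 228) (nat_lit 2205201289349) (nat_lit 304) (nat_lit 6963766177367) (nat_lit 69) (nat_lit 5) (nat_lit 72) (nat_lit 5) (nat_lit 73) (nat_lit 5) (nat_lit 509) (nat_lit 494) (nat_lit 197)) (XT.lf (nat_lit 0) (nat_lit 5730089656771) (nat_lit 304) (nat_lit 3106349357415) (nat_lit 76) (nat_lit 2225330016300) (nat_lit 69) (nat_lit 5) (nat_lit 73) (nat_lit 5) (nat_lit 70) (nat_lit 5) (nat_lit 510) (nat_lit 494) (nat_lit 196)))) (XT.nd (nat_lit 156) (nat_lit 380) (nat_lit 0) (XT.nd (nat_lit 78) (nat_lit 0) (nat_lit 0) (XT.lf (nat_lit 0) (nat_lit 3562195700888) (nat_lit 152)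 (nat_lit 4603470424680) (nat_lit 228) (nat_lit 3414640870187) (nat_lit 67) (nat_lit 5) (nat_lit 69) (nat_lit 5) (nat_lit 70) (nat_lit 5) (nat_lit 511) (nat_lit 494) (nat_lit 195)) (XT.lf (nat_lit 0) (nat_lit 10882461524261) (nat_lit 228) (nat_lit 1194087862489) (nat_lit 76) (nat_lit 56868786502) (nat_lit 67) (nat_lit 5) (nat_lit 70) (nat_lit 5) (nat_lit 68) (nat_lit 5) (nat_lit 512) (nat_lit 494) (nat_lit 194))) (XT.nd (nat_lit 78) (nat_lit 152) (nat_lit 0) (XT.lf (nat_lit 0) (nat_lit 1311487622332) (nat_lit 228) (nat_lit 6366948799751) (nat_lit 76) (nat_lit 5027854095295) (nat_lit 64) (nat_lit 5) (nat_lit 67) (nat_lit 5) (nat_lit 65) (nat_lit 5) (nat_lit 513) (nat_lit 494) (nat_lit 193)) (XT.lf (nat_lit 0) (nat_lit 1250172001915) (nat_lit 152) (nat_lit 2824734439351) (nat_lit 228) (nat_lit 9242401764742) (nat_lit 62) (nat_lit 5) (nat_lit 64) (nat_lit 5) (nat_lit 65) (nat_lit 5) (nat_lit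 514) (nat_lit 494) (nat_lit 192))))) (XT.nd (nat_lit 234) (nat_lit 380) (nat_lit 0) (XT.nd (nat_lit 78) (nat_lit 152) (nat_lit 0) (XT.lf (nat_lit 0) (nat_lit 7296139332795) (nat_lit 228) (nat_lit 4187181032972) (nat_lit 76) (nat_lit 2474947698595) (nat_lit 62) (nat_lit 5) (nat_lit 65) (nat_lit 5) (nat_lit 63) (nat_lit 5) (nat_lit 515) (nat_lit 494) (nat_lit 191)) (XT.nd (nat_lit 78) (nat_lit 0) (nat_lit 0) (XT.lf (nat_lit 0) (nat_lit 4473587806249) (nat_lit 152) (nat_lit 6482442669362) (nat_lit 228) (nat_lit 3679997466176) (nat_lit 60) (nat_lit 5) (nat_lit 62) (nat_lit 5) (nat_lit 63) (nat_lit 5) (nat_lit 516) (nat_lit 494) (nat_lit 190)) (XT.lf (nat_lit 0) (nat_lit 14065346848017) (nat_lit 152) (nat_lit 957851011536) (nat_lit 228) (nat_lit 335651953877) (nat_lit 60) (nat_lit 5) (nat_lit 62) (nat_lit 5) (nat_lit 63) (nat_lit 5) (nat_lit 517) (nat_lit 494) (nat_lit 189)))) (XT.nd (nat_lit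 156) (nat_lit 76) (nat_lit 0) (XT.nd (nat_lit 78) (nat_lit 152) (nat_lit 0) (XT.lf (nat_lit 0) (nat_lit 3448003378199) (nat_lit 152) (nat_lit 7606199034462) (nat_lit 76) (nat_lit 5052139285177) (nat_lit 58) (nat_lit 5) (nat_lit 60) (nat_lit 5) (nat_lit 59) (nat_lit 5) (nat_lit 518) (nat_lit 494) (nat_lit 188)) (XT.lf (nat_lit 0) (nat_lit 2321661835788) (nat_lit 152) (nat_lit 5311555925285) (nat_lit 228) (nat_lit 9270357669483) (nat_lit 56) (nat_lit 5) (nat_lit 58) (nat_lit 5) (nat_lit 59) (nat_lit 5) (nat_lit 519) (nat_lit 494) (nat_lit 187))) (XT.nd (nat_lit 78) (nat_lit 76) (nat_lit 0) (XT.lf (nat_lit 0) (nat_lit 12388034595986) (nat_lit 228) (nat_lit 4298445991213) (nat_lit 76) (nat_lit 1059324450578) (nat_lit 56) (nat_lit 5) (nat_lit 59) (nat_lit 5) (nat_lit 57) (nat_lit 4) (nat_lit 520) (nat_lit 494) (nat_lit 186)) (XT.lf (nat_lit 0) (nat_lit 7020953034800) (nat_lit 76) (nat_lit 10809100323746)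 (nat_lit 152) (nat_lit 800814328562) (nat_lit 55) (nat_lit 5) (nat_lit 56) (nat_lit 5) (nat_lit 57) (nat_lit 4) (nat_lit 521) (nat_lit 494) (nat_lit 185)))))) (XT.nd (nat_lit 546) (nat_lit 152) (nat_lit 0) (XT.nd (nat_lit 234) (nat_lit 304) (nat_lit 0) (XT.nd (nat_lit 78) (nat_lit 228) (nat_lit 0) (XT.lf (nat_lit 0) (nat_lit 4035144040746) (nat_lit 152) (nat_lit 189128308173) (nat_lit 76) (nat_lit 15344888385372) (nat_lit 54) (nat_lit 5) (nat_lit 56) (nat_lit 5) (nat_lit 55) (nat_lit 5) (nat_lit 522) (nat_lit 494) (nat_lit 184)) (XT.nd (nat_lit 78) (nat_lit 76) (nat_lit 0) (XT.lf (nat_lit 0) (nat_lit 9599617828351) (nat_lit 228) (nat_lit 7871274501454) (nat_lit 76) (nat_lit 3079168583840) (nat_lit 52) (nat_lit 5) (nat_lit 55) (nat_lit 5) (nat_lit 53) (nat_lit 4) (nat_lit 523) (nat_lit 494) (nat_lit 183)) (XT.lf (nat_lit 0) (nat_lit 5124356160296) (nat_lit 76) (nat_lit 10723161024705) (nat_lit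 152) (nat_lit 5742854509064) (nat_lit 51) (nat_lit 5) (nat_lit 52) (nat_lit 5) (nat_lit 53) (nat_lit 4) (nat_lit 524) (nat_lit 494) (nat_lit 182)))) (XT.nd (nat_lit 156) (nat_lit 76) (nat_lit 0) (XT.nd (nat_lit 78) (nat_lit 152) (nat_lit 0) (XT.lf (nat_lit 0) (nat_lit 108081532721) (nat_lit 152) (nat_lit 3092142780389) (nat_lit 76) (nat_lit 19496246956989) (nat_lit 50) (nat_lit 5) (nat_lit 52) (nat_lit 5) (nat_lit 51) (nat_lit 5) (nat_lit 525) (nat_lit 494) (nat_lit 181)) (XT.lf (nat_lit 0) (nat_lit 6530112417953) (nat_lit 228) (nat_lit 12193736156450) (nat_lit 76) (nat_lit 5122214372146) (nat_lit 48) (nat_lit 5) (nat_lit 51) (nat_lit 5) (nat_lit 49) (nat_lit 4) (nat_lit 526) (nat_lit 494) (nat_lit 180))) (XT.nd (nat_lit 78) (nat_lit 0) (nat_lit 0) (XT.lf (nat_lit 0) (nat_lit 2722205511886) (nat_lit 76) (nat_lit 10979032708181) (nat_lit 152) (nat_lit 11367557141362) (nat_lit 47) (nat_lit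 5) (nat_lit 48) (nat_lit 5) (nat_lit 49) (nat_lit 4) (nat_lit 527) (nat_lit 494) (nat_lit 179)) (XT.lf (nat_lit 0) (nat_lit 19524891093408) (nat_lit 76) (nat_lit 2254561348572) (nat_lit 152) (nat_lit 4583222059070) (nat_lit 47) (nat_lit 5) (nat_lit 48) (nat_lit 5) (nat_lit 49) (nat_lit 4) (nat_lit 528) (nat_lit 494) (nat_lit 178))))) (XT.nd (nat_lit 60060) (nat_lit 0) (nat_lit 3192) (XT.nd (nat_lit 59904) (nat_lit 0) (nat_lit 3116) (XT.nd (nat_lit 59826) (nat_lit 0) (nat_lit 3648) (XT.lf (nat_lit 0) (nat_lit 3036435708248) (nat_lit 152) (nat_lit 17551222973105) (nat_lit 76) (nat_lit 7132739310108) (nat_lit 45) (nat_lit 5) (nat_lit 47) (nat_lit 5) (nat_lit 46) (nat_lit 4) (nat_lit 529) (nat_lit 494) (nat_lit 177)) (XT.lf (nat_lit 0) (nat_lit 2998947587295) (nat_lit 532) (nat_lit 20004844919) (nat_lit 532) (nat_lit 20004844919) (nat_lit 93) (nat_lit 3) (nat_lit 100) (nat_lit 3) (nat_lit 100)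 (nat_lit 5) (nat_lit 495) (nat_lit 495) (nat_lit 210))) (XT.nd (nat_lit 78) (nat_lit 532) (nat_lit 0) (XT.lf (nat_lit 76) (nat_lit 3144076970364) (nat_lit 0) (nat_lit 3169349139634) (nat_lit 532) (nat_lit 1555816163) (nat_lit 94) (nat_lit 5) (nat_lit 93) (nat_lit 3) (nat_lit 100) (nat_lit 5) (nat_lit 496) (nat_lit 495) (nat_lit 209)) (XT.lf (nat_lit 76) (nat_lit 12852710333) (nat_lit 0) (nat_lit 67602337437) (nat_lit 608) (nat_lit 6490285075658) (nat_lit 87) (nat_lit 5) (nat_lit 86) (nat_lit 5) (nat_lit 94) (nat_lit 5) (nat_lit 497) (nat_lit 495) (nat_lit 208)))) (XT.nd (nat_lit 156) (nat_lit 0) (nat_lit 76) (XT.nd (nat_lit 78) (nat_lit 0) (nat_lit 0) (XT.lf (nat_lit 0) (nat_lit 336831801435) (nat_lit 532) (nat_lit 3289611284727) (nat_lit 608) (nat_lit 3207081531441) (nat_lit 87) (nat_lit 5) (nat_lit 94) (nat_lit 5) (nat_lit 95) (nat_lit 5) (nat_lit 498) (nat_lit 495) (nat_lit 207)) (XT.lf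 (nat_lit 76) (nat_lit 250923224889) (nat_lit 0) (nat_lit 370586084815) (nat_lit 608) (nat_lit 6495199312462) (nat_lit 88) (nat_lit 5) (nat_lit 87) (nat_lit 5) (nat_lit 95) (nat_lit 5) (nat_lit 499) (nat_lit 495) (nat_lit 206))) (XT.nd (nat_lit 78) (nat_lit 0) (nat_lit 0) (XT.lf (nat_lit 0) (nat_lit 1096896133433) (nat_lit 532) (nat_lit 3231559551875) (nat_lit 608) (nat_lit 3080656852602) (nat_lit 88) (nat_lit 5) (nat_lit 95) (nat_lit 5) (nat_lit 96) (nat_lit 5) (nat_lit 500) (nat_lit 495) (nat_lit 205)) (XT.lf (nat_lit 76) (nat_lit 719785325591) (nat_lit 0) (nat_lit 917465044323) (nat_lit 608) (nat_lit 6085503479652) (nat_lit 89) (nat_lit 5) (nat_lit 88) (nat_lit 5) (nat_lit 96) (nat_lit 5) (nat_lit 501) (nat_lit 495) (nat_lit 204))))))))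
noncomputable def xc246 : XT := (XT.nd (nat_lit 62010) (nat_lit 0) (nat_lit 532) (XT.nd (nat_lit 1092) (nat_lit 1140) (nat_lit 0) (XT.nd (nat_lit 546) (nat_lit 988) (nat_lit 0) (XT.nd (nat_lit 234) (nat_lit 532) (nat_lit 0) (XT.nd (nat_lit 78) (nat_lit 532) (nat_lit 0) (XT.lf (nat_lit 0) (nat_lit 2378016588992) (nat_lit 532) (nat_lit 2952225571535) (nat_lit 76) (nat_lit 2718669614133) (nat_lit 89) (nat_lit 5) (nat_lit 96) (nat_lit 5) (nat_lit 90) (nat_lit 5) (nat_lit 502) (nat_lit 495) (nat_lit 203)) (XT.nd (nat_lit 78) (nat_lit 0) (nat_lit 0) (XT.lf (nat_lit 0) (nat_lit 1472402070954) (nat_lit 532) (nat_lit 1764883600637) (nat_lit 608) (nat_lit 5159137336891) (nat_lit 82) (nat_lit 5) (nat_lit 89) (nat_lit 5) (nat_lit 90) (nat_lit 5) (nat_lit 503) (nat_lit 495) (nat_lit 202)) (XT.lf (nat_lit 0) (nat_lit 4298273181863) (nat_lit 608) (nat_lit 2398639828071) (nat_lit 76) (nat_lit 2064183978991)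 (nat_lit 82) (nat_lit 5) (nat_lit 90) (nat_lit 5) (nat_lit 83) (nat_lit 5) (nat_lit 504) (nat_lit 495) (nat_lit 201)))) (XT.nd (nat_lit 156) (nat_lit 304) (nat_lit 0) (XT.nd (nat_lit 78) (nat_lit 0) (nat_lit 0) (XT.lf (nat_lit 0) (nat_lit 2571571035683) (nat_lit 228) (nat_lit 2980256134911) (nat_lit 304) (nat_lit 3594502718998) (nat_lit 79) (nat_lit 5) (nat_lit 82) (nat_lit 5) (nat_lit 83) (nat_lit 5) (nat_lit 505) (nat_lit 495) (nat_lit 200)) (XT.lf (nat_lit 0) (nat_lit 6997813308670) (nat_lit 304) (nat_lit 1507888003080) (nat_lit 76) (nat_lit 1049308284143) (nat_lit 79) (nat_lit 5) (nat_lit 83) (nat_lit 5) (nat_lit 80) (nat_lit 5) (nat_lit 506) (nat_lit 495) (nat_lit 199))) (XT.nd (nat_lit 78) (nat_lit 76) (nat_lit 0) (XT.lf (nat_lit 0) (nat_lit 4091601756397) (nat_lit 228) (nat_lit 4643688952209) (nat_lit 304) (nat_lit 1247027980426) (nat_lit 76) (nat_lit 5) (nat_lit 79) (nat_lit 5) (nat_lit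 80) (nat_lit 5) (nat_lit 507) (nat_lit 495) (nat_lit 198)) (XT.lf (nat_lit 0) (nat_lit 201851257919) (nat_lit 304) (nat_lit 220818778270) (nat_lit 76) (nat_lit 10017435394349) (nat_lit 75) (nat_lit 5) (nat_lit 79) (nat_lit 5) (nat_lit 76) (nat_lit 5) (nat_lit 508) (nat_lit 495) (nat_lit 197))))) (XT.nd (nat_lit 234) (nat_lit 532) (nat_lit 0) (XT.nd (nat_lit 78) (nat_lit 228) (nat_lit 0) (XT.lf (nat_lit 0) (nat_lit 1952056700200) (nat_lit 304) (nat_lit 4844808288138) (nat_lit 76) (nat_lit 4114835874764) (nat_lit 72) (nat_lit 5) (nat_lit 76) (nat_lit 5) (nat_lit 73) (nat_lit 5) (nat_lit 509) (nat_lit 495) (nat_lit 196)) (XT.nd (nat_lit 78) (nat_lit 0) (nat_lit 0) (XT.lf (nat_lit 0) (nat_lit 1514251817819) (nat_lit 228) (nat_lit 2381617391999) (nat_lit 304) (nat_lit 7520867469895) (nat_lit 69) (nat_lit 5) (nat_lit 72) (nat_lit 5) (nat_lit 73) (nat_lit 5) (nat_lit 510) (nat_lit 495) (nat_lit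 195)) (XT.lf (nat_lit 0) (nat_lit 6188496830748) (nat_lit 304) (nat_lit 3354857304020) (nat_lit 76) (nat_lit 2403356418042) (nat_lit 69) (nat_lit 5) (nat_lit 73) (nat_lit 5) (nat_lit 70) (nat_lit 5) (nat_lit 511) (nat_lit 495) (nat_lit 194)))) (XT.nd (nat_lit 156) (nat_lit 380) (nat_lit 0) (XT.nd (nat_lit 78) (nat_lit 0) (nat_lit 0) (XT.lf (nat_lit 0) (nat_lit 3847171358897) (nat_lit 152) (nat_lit 4971748058092) (nat_lit 228) (nat_lit 3687812138315) (nat_lit 67) (nat_lit 5) (nat_lit 69) (nat_lit 5) (nat_lit 70) (nat_lit 5) (nat_lit 512) (nat_lit 495) (nat_lit 193)) (XT.lf (nat_lit 0) (nat_lit 11753058447489) (nat_lit 228) (nat_lit 1289614889604) (nat_lit 76) (nat_lit 61418289916) (nat_lit 67) (nat_lit 5) (nat_lit 70) (nat_lit 5) (nat_lit 68) (nat_lit 5) (nat_lit 513) (nat_lit 495) (nat_lit 192))) (XT.nd (nat_lit 78) (nat_lit 152) (nat_lit 0) (XT.lf (nat_lit 0) (nat_lit 1416406633386) (nat_lit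 228) (nat_lit 6876304701828) (nat_lit 76) (nat_lit 5430082423453) (nat_lit 64) (nat_lit 5) (nat_lit 67) (nat_lit 5) (nat_lit 65) (nat_lit 5) (nat_lit 514) (nat_lit 495) (nat_lit 191)) (XT.lf (nat_lit 0) (nat_lit 1350185763923) (nat_lit 152) (nat_lit 3050713193863) (nat_lit 228) (nat_lit 9981793904605) (nat_lit 62) (nat_lit 5) (nat_lit 64) (nat_lit 5) (nat_lit 65) (nat_lit 5) (nat_lit 515) (nat_lit 495) (nat_lit 190)))))) (XT.nd (nat_lit 546) (nat_lit 608) (nat_lit 0) (XT.nd (nat_lit 234) (nat_lit 380) (nat_lit 0) (XT.nd (nat_lit 78) (nat_lit 152) (nat_lit 0) (XT.lf (nat_lit 0) (nat_lit 7879830480561) (nat_lit 228) (nat_lit 4522155513816) (nat_lit 76) (nat_lit 2672943515042) (nat_lit 62) (nat_lit 5) (nat_lit 65) (nat_lit 5) (nat_lit 63) (nat_lit 5) (nat_lit 516) (nat_lit 495) (nat_lit 189)) (XT.nd (nat_lit 78) (nat_lit 0) (nat_lit 0) (XT.lf (nat_lit 0) (nat_lit 4831474832497) (nat_lit 152)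 (nat_lit 7001038082262) (nat_lit 228) (nat_lit 3974397262282) (nat_lit 60) (nat_lit 5) (nat_lit 62) (nat_lit 5) (nat_lit 63) (nat_lit 5) (nat_lit 517) (nat_lit 495) (nat_lit 188)) (XT.lf (nat_lit 0) (nat_lit 15190574597477) (nat_lit 152) (nat_lit 1034479091859) (nat_lit 228) (nat_lit 362504109087) (nat_lit 60) (nat_lit 5) (nat_lit 62) (nat_lit 5) (nat_lit 63) (nat_lit 5) (nat_lit 518) (nat_lit 495) (nat_lit 187)))) (XT.nd (nat_lit 156) (nat_lit 76) (nat_lit 0) (XT.nd (nat_lit 78) (nat_lit 152) (nat_lit 0) (XT.lf (nat_lit 0) (nat_lit 3723843649476) (nat_lit 152) (nat_lit 8214694955522) (nat_lit 76) (nat_lit 5456310428585) (nat_lit 58) (nat_lit 5) (nat_lit 60) (nat_lit 5) (nat_lit 59) (nat_lit 5) (nat_lit 519) (nat_lit 495) (nat_lit 186)) (XT.lf (nat_lit 0) (nat_lit 2507394784305) (nat_lit 152) (nat_lit 5736480398639) (nat_lit 228) (nat_lit 10011986281977) (nat_lit 56) (nat_lit 5) (nat_lit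 58) (nat_lit 5) (nat_lit 59) (nat_lit 5) (nat_lit 520) (nat_lit 495) (nat_lit 185))) (XT.nd (nat_lit 78) (nat_lit 76) (nat_lit 0) (XT.lf (nat_lit 0) (nat_lit 13379077364592) (nat_lit 228) (nat_lit 4642321668921) (nat_lit 76) (nat_lit 1144070407212) (nat_lit 56) (nat_lit 5) (nat_lit 59) (nat_lit 5) (nat_lit 57) (nat_lit 4) (nat_lit 521) (nat_lit 495) (nat_lit 184)) (XT.lf (nat_lit 0) (nat_lit 7582629279134) (nat_lit 76) (nat_lit 11673828348993) (nat_lit 152) (nat_lit 864879473879) (nat_lit 55) (nat_lit 5) (nat_lit 56) (nat_lit 5) (nat_lit 57) (nat_lit 4) (nat_lit 522) (nat_lit 495) (nat_lit 183))))) (XT.nd (nat_lit 234) (nat_lit 304) (nat_lit 0) (XT.nd (nat_lit 78) (nat_lit 228) (nat_lit 0) (XT.lf (nat_lit 0) (nat_lit 4357955564857) (nat_lit 152) (nat_lit 204258571348) (nat_lit 76) (nat_lit 16572479456762) (nat_lit 54) (nat_lit 5) (nat_lit 56) (nat_lit 5) (nat_lit 55) (nat_lit 5) (nat_lit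 523) (nat_lit 495) (nat_lit 182)) (XT.nd (nat_lit 78) (nat_lit 76) (nat_lit 0) (XT.lf (nat_lit 0) (nat_lit 10367587255457) (nat_lit 228) (nat_lit 8500976460078) (nat_lit 76) (nat_lit 3325502071136) (nat_lit 52) (nat_lit 5) (nat_lit 55) (nat_lit 5) (nat_lit 53) (nat_lit 4) (nat_lit 524) (nat_lit 495) (nat_lit 181)) (XT.lf (nat_lit 0) (nat_lit 5534304654575) (nat_lit 76) (nat_lit 11581013906037) (nat_lit 152) (nat_lit 6202282868913) (nat_lit 51) (nat_lit 5) (nat_lit 52) (nat_lit 5) (nat_lit 53) (nat_lit 4) (nat_lit 525) (nat_lit 495) (nat_lit 180)))) (XT.nd (nat_lit 156) (nat_lit 76) (nat_lit 0) (XT.nd (nat_lit 78) (nat_lit 152) (nat_lit 0) (XT.lf (nat_lit 0) (nat_lit 116728056109) (nat_lit 152) (nat_lit 3339514201432) (nat_lit 76) (nat_lit 21055946714104) (nat_lit 50) (nat_lit 5) (nat_lit 52) (nat_lit 5) (nat_lit 51) (nat_lit 5) (nat_lit 526) (nat_lit 495) (nat_lit 179)) (XT.lf (nat_lit 0)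 (nat_lit 7052521412149) (nat_lit 228) (nat_lit 13169235047568) (nat_lit 76) (nat_lit 5531991522494) (nat_lit 48) (nat_lit 5) (nat_lit 51) (nat_lit 5) (nat_lit 49) (nat_lit 4) (nat_lit 527) (nat_lit 495) (nat_lit 178))) (XT.nd (nat_lit 78) (nat_lit 0) (nat_lit 0) (XT.lf (nat_lit 0) (nat_lit 2939981954199) (nat_lit 76) (nat_lit 11857355324209) (nat_lit 152) (nat_lit 12276961711875) (nat_lit 47) (nat_lit 5) (nat_lit 48) (nat_lit 5) (nat_lit 49) (nat_lit 4) (nat_lit 528) (nat_lit 495) (nat_lit 177)) (XT.lf (nat_lit 0) (nat_lit 21086882382142) (nat_lit 76) (nat_lit 2434926255878) (nat_lit 152) (nat_lit 4949879823059) (nat_lit 47) (nat_lit 5) (nat_lit 48) (nat_lit 5) (nat_lit 49) (nat_lit 4) (nat_lit 529) (nat_lit 495) (nat_lit 176))))))) (XT.nd (nat_lit 1092) (nat_lit 1596) (nat_lit 0) (XT.nd (nat_lit 546) (nat_lit 836) (nat_lit 0) (XT.nd (nat_lit 234) (nat_lit 0) (nat_lit 76) (XT.nd (nat_lit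 78) (nat_lit 532) (nat_lit 0) (XT.lf (nat_lit 0) (nat_lit 3238863395911) (nat_lit 532) (nat_lit 21605231630) (nat_lit 532) (nat_lit 21605231630) (nat_lit 93) (nat_lit 3) (nat_lit 100) (nat_lit 3) (nat_lit 100) (nat_lit 5) (nat_lit 496) (nat_lit 496) (nat_lit 208)) (XT.nd (nat_lit 78) (nat_lit 532) (nat_lit 0) (XT.lf (nat_lit 76) (nat_lit 3395603129712) (nat_lit 0) (nat_lit 3422897072151) (nat_lit 532) (nat_lit 1680278146) (nat_lit 94) (nat_lit 5) (nat_lit 93) (nat_lit 3) (nat_lit 100) (nat_lit 5) (nat_lit 497) (nat_lit 496) (nat_lit 207)) (XT.lf (nat_lit 76) (nat_lit 13880928996) (nat_lit 0) (nat_lit 73010525550) (nat_lit 608) (nat_lit 7009507878519) (nat_lit 87) (nat_lit 5) (nat_lit 86) (nat_lit 5) (nat_lit 94) (nat_lit 5) (nat_lit 498) (nat_lit 496) (nat_lit 206)))) (XT.nd (nat_lit 156) (nat_lit 0) (nat_lit 76) (XT.nd (nat_lit 78) (nat_lit 0) (nat_lit 0) (XT.lf (nat_lit 0) (nat_lit 363778348261)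 (nat_lit 532) (nat_lit 3552780185560) (nat_lit 608) (nat_lit 3463648052972) (nat_lit 87) (nat_lit 5) (nat_lit 94) (nat_lit 5) (nat_lit 95) (nat_lit 5) (nat_lit 499) (nat_lit 496) (nat_lit 205)) (XT.lf (nat_lit 76) (nat_lit 270997084776) (nat_lit 0) (nat_lit 400232972261) (nat_lit 608) (nat_lit 7014815254697) (nat_lit 88) (nat_lit 5) (nat_lit 87) (nat_lit 5) (nat_lit 95) (nat_lit 5) (nat_lit 500) (nat_lit 496) (nat_lit 204))) (XT.nd (nat_lit 78) (nat_lit 0) (nat_lit 0) (XT.lf (nat_lit 0) (nat_lit 1184647826460) (nat_lit 532) (nat_lit 3490084314066) (nat_lit 608) (nat_lit 3327109400229) (nat_lit 88) (nat_lit 5) (nat_lit 95) (nat_lit 5) (nat_lit 96) (nat_lit 5) (nat_lit 501) (nat_lit 496) (nat_lit 203)) (XT.lf (nat_lit 76) (nat_lit 777368153548) (nat_lit 0) (nat_lit 990862248183) (nat_lit 608) (nat_lit 6572343755622) (nat_lit 89) (nat_lit 5) (nat_lit 88) (nat_lit 5) (nat_lit 96) (nat_lit 5)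 (nat_lit 502) (nat_lit 496) (nat_lit 202))))) (XT.nd (nat_lit 234) (nat_lit 532) (nat_lit 0) (XT.nd (nat_lit 78) (nat_lit 532) (nat_lit 0) (XT.lf (nat_lit 0) (nat_lit 2568257918164) (nat_lit 532) (nat_lit 3188403615317) (nat_lit 76) (nat_lit 2936163182988) (nat_lit 89) (nat_lit 5) (nat_lit 96) (nat_lit 5) (nat_lit 90) (nat_lit 5) (nat_lit 503) (nat_lit 496) (nat_lit 201)) (XT.nd (nat_lit 78) (nat_lit 0) (nat_lit 0) (XT.lf (nat_lit 0) (nat_lit 1590194238522) (nat_lit 532) (nat_lit 1906074288743) (nat_lit 608) (nat_lit 5571868321740) (nat_lit 82) (nat_lit 5) (nat_lit 89) (nat_lit 5) (nat_lit 90) (nat_lit 5) (nat_lit 504) (nat_lit 496) (nat_lit 200)) (XT.lf (nat_lit 0) (nat_lit 4642135038212) (nat_lit 608) (nat_lit 2590531012420) (nat_lit 76) (nat_lit 2229318697263) (nat_lit 82) (nat_lit 5) (nat_lit 90) (nat_lit 5) (nat_lit 83) (nat_lit 5) (nat_lit 505) (nat_lit 496) (nat_lit 199)))) (XT.nd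 (nat_lit 156) (nat_lit 304) (nat_lit 0) (XT.nd (nat_lit 78) (nat_lit 0) (nat_lit 0) (XT.lf (nat_lit 0) (nat_lit 2777296720387) (nat_lit 228) (nat_lit 3218676625566) (nat_lit 304) (nat_lit 3882062934669) (nat_lit 79) (nat_lit 5) (nat_lit 82) (nat_lit 5) (nat_lit 83) (nat_lit 5) (nat_lit 506) (nat_lit 496) (nat_lit 198)) (XT.lf (nat_lit 0) (nat_lit 7557638374952) (nat_lit 304) (nat_lit 1628519041490) (nat_lit 76) (nat_lit 1133252946995) (nat_lit 79) (nat_lit 5) (nat_lit 83) (nat_lit 5) (nat_lit 80) (nat_lit 5) (nat_lit 507) (nat_lit 496) (nat_lit 197))) (XT.nd (nat_lit 78) (nat_lit 76) (nat_lit 0) (XT.lf (nat_lit 0) (nat_lit 4418929898698) (nat_lit 228) (nat_lit 5015184068110) (nat_lit 304) (nat_lit 1346790217226) (nat_lit 76) (nat_lit 5) (nat_lit 79) (nat_lit 5) (nat_lit 80) (nat_lit 5) (nat_lit 508) (nat_lit 496) (nat_lit 196)) (XT.lf (nat_lit 0) (nat_lit 217999359990) (nat_lit 304) (nat_lit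 238484278799) (nat_lit 76) (nat_lit 10818830226077) (nat_lit 75) (nat_lit 5) (nat_lit 79) (nat_lit 5) (nat_lit 76) (nat_lit 5) (nat_lit 509) (nat_lit 496) (nat_lit 195)))))) (XT.nd (nat_lit 546) (nat_lit 608) (nat_lit 0) (XT.nd (nat_lit 234) (nat_lit 532) (nat_lit 0) (XT.nd (nat_lit 78) (nat_lit 228) (nat_lit 0) (XT.lf (nat_lit 0) (nat_lit 2108221237596) (nat_lit 304) (nat_lit 5232392949398) (nat_lit 76) (nat_lit 4444022745046) (nat_lit 72) (nat_lit 5) (nat_lit 76) (nat_lit 5) (nat_lit 73) (nat_lit 5) (nat_lit 510) (nat_lit 496) (nat_lit 194)) (XT.nd (nat_lit 78) (nat_lit 0) (nat_lit 0) (XT.lf (nat_lit 0) (nat_lit 1635391964991) (nat_lit 228) (nat_lit 2572146782933) (nat_lit 304) (nat_lit 8122536866061) (nat_lit 69) (nat_lit 5) (nat_lit 72) (nat_lit 5) (nat_lit 73) (nat_lit 5) (nat_lit 511) (nat_lit 496) (nat_lit 193)) (XT.lf (nat_lit 0) (nat_lit 6683576578439) (nat_lit 304) (nat_lit 3623245886637)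 (nat_lit 76) (nat_lit 2595624931860) (nat_lit 69) (nat_lit 5) (nat_lit 73) (nat_lit 5) (nat_lit 70) (nat_lit 5) (nat_lit 512) (nat_lit 496) (nat_lit 192)))) (XT.nd (nat_lit 156) (nat_lit 380) (nat_lit 0) (XT.nd (nat_lit 78) (nat_lit 0) (nat_lit 0) (XT.lf (nat_lit 0) (nat_lit 4154945069270) (nat_lit 152) (nat_lit 5369487902258) (nat_lit 228) (nat_lit 3982837108106) (nat_lit 67) (nat_lit 5) (nat_lit 69) (nat_lit 5) (nat_lit 70) (nat_lit 5) (nat_lit 513) (nat_lit 496) (nat_lit 191)) (XT.lf (nat_lit 0) (nat_lit 12693303124391) (nat_lit 228) (nat_lit 1392784079157) (nat_lit 76) (nat_lit 66331753533) (nat_lit 67) (nat_lit 5) (nat_lit 70) (nat_lit 5) (nat_lit 68) (nat_lit 5) (nat_lit 514) (nat_lit 496) (nat_lit 190))) (XT.nd (nat_lit 78) (nat_lit 152) (nat_lit 0) (XT.lf (nat_lit 0) (nat_lit 1529719165144) (nat_lit 228) (nat_lit 7426409076342) (nat_lit 76) (nat_lit 5864489017787) (nat_lit 64) (nat_lit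 5) (nat_lit 67) (nat_lit 5) (nat_lit 65) (nat_lit 5) (nat_lit 515) (nat_lit 496) (nat_lit 189)) (XT.lf (nat_lit 0) (nat_lit 1458200626627) (nat_lit 152) (nat_lit 3294770248826) (nat_lit 228) (nat_lit 10780337415846) (nat_lit 62) (nat_lit 5) (nat_lit 64) (nat_lit 5) (nat_lit 65) (nat_lit 5) (nat_lit 516) (nat_lit 496) (nat_lit 188))))) (XT.nd (nat_lit 312) (nat_lit 304) (nat_lit 0) (XT.nd (nat_lit 156) (nat_lit 152) (nat_lit 0) (XT.nd (nat_lit 78) (nat_lit 152) (nat_lit 0) (XT.lf (nat_lit 0) (nat_lit 8510216919986) (nat_lit 228) (nat_lit 4883927953383) (nat_lit 76) (nat_lit 2886778996726) (nat_lit 62) (nat_lit 5) (nat_lit 65) (nat_lit 5) (nat_lit 63) (nat_lit 5) (nat_lit 517) (nat_lit 496) (nat_lit 187)) (XT.lf (nat_lit 0) (nat_lit 5217992820596) (nat_lit 152) (nat_lit 7561121128287) (nat_lit 228) (nat_lit 4292349042247) (nat_lit 60) (nat_lit 5) (nat_lit 62) (nat_lit 5) (nat_lit 63) (nat_lit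 5) (nat_lit 518) (nat_lit 496) (nat_lit 186))) (XT.nd (nat_lit 78) (nat_lit 152) (nat_lit 0) (XT.lf (nat_lit 0) (nat_lit 16405820566664) (nat_lit 152) (nat_lit 1117237418692) (nat_lit 228) (nat_lit 391504436871) (nat_lit 60) (nat_lit 5) (nat_lit 62) (nat_lit 5) (nat_lit 63) (nat_lit 5) (nat_lit 519) (nat_lit 496) (nat_lit 185)) (XT.lf (nat_lit 0) (nat_lit 4021751142310) (nat_lit 152) (nat_lit 8871870550509) (nat_lit 76) (nat_lit 5892815263380) (nat_lit 58) (nat_lit 5) (nat_lit 60) (nat_lit 5) (nat_lit 59) (nat_lit 5) (nat_lit 520) (nat_lit 496) (nat_lit 184)))) (XT.nd (nat_lit 156) (nat_lit 152) (nat_lit 0) (XT.nd (nat_lit 78) (nat_lit 0) (nat_lit 0) (XT.lf (nat_lit 0) (nat_lit 2707986368467) (nat_lit 152) (nat_lit 6195398829957) (nat_lit 228) (nat_lit 10812945183622) (nat_lit 56) (nat_lit 5) (nat_lit 58) (nat_lit 5) (nat_lit 59) (nat_lit 5) (nat_lit 521) (nat_lit 496) (nat_lit 183)) (XT.lf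 (nat_lit 0) (nat_lit 14449403554555) (nat_lit 228) (nat_lit 5013707401071) (nat_lit 76) (nat_lit 1235596040293) (nat_lit 56) (nat_lit 5) (nat_lit 59) (nat_lit 5) (nat_lit 57) (nat_lit 4) (nat_lit 522) (nat_lit 496) (nat_lit 182))) (XT.nd (nat_lit 78) (nat_lit 76) (nat_lit 0) (XT.lf (nat_lit 0) (nat_lit 8189239622793) (nat_lit 76) (nat_lit 12607734616352) (nat_lit 152) (nat_lit 934069830959) (nat_lit 55) (nat_lit 5) (nat_lit 56) (nat_lit 5) (nat_lit 57) (nat_lit 4) (nat_lit 523) (nat_lit 496) (nat_lit 181)) (XT.lf (nat_lit 0) (nat_lit 4706592010776) (nat_lit 152) (nat_lit 220599255787) (nat_lit 76) (nat_lit 17898277813783) (nat_lit 54) (nat_lit 5) (nat_lit 56) (nat_lit 5) (nat_lit 55) (nat_lit 5) (nat_lit 524) (nat_lit 496) (nat_lit 180))))))))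
noncomputable def xc247 : XT := (XT.nd (nat_lit 62088) (nat_lit 0) (nat_lit 76) (XT.nd (nat_lit 60996) (nat_lit 0) (nat_lit 988) (XT.nd (nat_lit 60450) (nat_lit 0) (nat_lit 2660) (XT.nd (nat_lit 234) (nat_lit 228) (nat_lit 0) (XT.nd (nat_lit 78) (nat_lit 152) (nat_lit 0) (XT.lf (nat_lit 0) (nat_lit 11196994236612) (nat_lit 228) (nat_lit 9181054575603) (nat_lit 76) (nat_lit 3591542237331) (nat_lit 52) (nat_lit 5) (nat_lit 55) (nat_lit 5) (nat_lit 53) (nat_lit 4) (nat_lit 525) (nat_lit 496) (nat_lit 179)) (XT.nd (nat_lit 78) (nat_lit 76) (nat_lit 0) (XT.lf (nat_lit 0) (nat_lit 5977049028189) (nat_lit 76) (nat_lit 12507495017968) (nat_lit 152) (nat_lit 6698465497676) (nat_lit 51) (nat_lit 5) (nat_lit 52) (nat_lit 5) (nat_lit 53) (nat_lit 4) (nat_lit 526) (nat_lit 496) (nat_lit 178)) (XT.lf (nat_lit 0) (nat_lit 126066301258) (nat_lit 152) (nat_lit 3606675336356) (nat_lit 76) (nat_lit 22740422451709)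 (nat_lit 50) (nat_lit 5) (nat_lit 52) (nat_lit 5) (nat_lit 51) (nat_lit 5) (nat_lit 527) (nat_lit 496) (nat_lit 177)))) (XT.nd (nat_lit 60060) (nat_lit 0) (nat_lit 3496) (XT.nd (nat_lit 78) (nat_lit 76) (nat_lit 0) (XT.lf (nat_lit 0) (nat_lit 7616723125773) (nat_lit 228) (nat_lit 14222773850175) (nat_lit 76) (nat_lit 5974550844788) (nat_lit 48) (nat_lit 5) (nat_lit 51) (nat_lit 5) (nat_lit 49) (nat_lit 4) (nat_lit 528) (nat_lit 496) (nat_lit 176)) (XT.lf (nat_lit 0) (nat_lit 3175180511704) (nat_lit 76) (nat_lit 12805943749610) (nat_lit 152) (nat_lit 13259118648143) (nat_lit 47) (nat_lit 5) (nat_lit 48) (nat_lit 5) (nat_lit 49) (nat_lit 4) (nat_lit 529) (nat_lit 496) (nat_lit 175))) (XT.nd (nat_lit 78) (nat_lit 0) (nat_lit 0) (XT.lf (nat_lit 0) (nat_lit 3497972468984) (nat_lit 532) (nat_lit 23333649405) (nat_lit 532) (nat_lit 23333649405) (nat_lit 93) (nat_lit 3) (nat_lit 100) (nat_lit 3)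 (nat_lit 100) (nat_lit 5) (nat_lit 497) (nat_lit 497) (nat_lit 206)) (XT.lf (nat_lit 76) (nat_lit 3667251381563) (nat_lit 0) (nat_lit 3696728839077) (nat_lit 532) (nat_lit 1814697560) (nat_lit 94) (nat_lit 5) (nat_lit 93) (nat_lit 3) (nat_lit 100) (nat_lit 5) (nat_lit 498) (nat_lit 497) (nat_lit 205))))) (XT.nd (nat_lit 234) (nat_lit 304) (nat_lit 0) (XT.nd (nat_lit 78) (nat_lit 0) (nat_lit 76) (XT.lf (nat_lit 76) (nat_lit 14991404891) (nat_lit 0) (nat_lit 78851368554) (nat_lit 608) (nat_lit 7570268506063) (nat_lit 87) (nat_lit 5) (nat_lit 86) (nat_lit 5) (nat_lit 94) (nat_lit 5) (nat_lit 499) (nat_lit 497) (nat_lit 204)) (XT.nd (nat_lit 78) (nat_lit 0) (nat_lit 0) (XT.lf (nat_lit 0) (nat_lit 392880618447) (nat_lit 532) (nat_lit 3837002598737) (nat_lit 608) (nat_lit 3740739896366) (nat_lit 87) (nat_lit 5) (nat_lit 94) (nat_lit 5) (nat_lit 95) (nat_lit 5) (nat_lit 500) (nat_lit 497) (nat_lit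 203)) (XT.lf (nat_lit 76) (nat_lit 292676853183) (nat_lit 0) (nat_lit 432251610608) (nat_lit 608) (nat_lit 7576000472706) (nat_lit 88) (nat_lit 5) (nat_lit 87) (nat_lit 5) (nat_lit 95) (nat_lit 5) (nat_lit 501) (nat_lit 497) (nat_lit 202)))) (XT.nd (nat_lit 156) (nat_lit 456) (nat_lit 0) (XT.nd (nat_lit 78) (nat_lit 0) (nat_lit 0) (XT.lf (nat_lit 0) (nat_lit 1279419654594) (nat_lit 532) (nat_lit 3769291057511) (nat_lit 608) (nat_lit 3593278151749) (nat_lit 88) (nat_lit 5) (nat_lit 95) (nat_lit 5) (nat_lit 96) (nat_lit 5) (nat_lit 502) (nat_lit 497) (nat_lit 201)) (XT.lf (nat_lit 76) (nat_lit 839557607470) (nat_lit 0) (nat_lit 1070131228307) (nat_lit 608) (nat_lit 7098131254012) (nat_lit 89) (nat_lit 5) (nat_lit 88) (nat_lit 5) (nat_lit 96) (nat_lit 5) (nat_lit 503) (nat_lit 497) (nat_lit 200))) (XT.nd (nat_lit 78) (nat_lit 532) (nat_lit 0) (XT.lf (nat_lit 0) (nat_lit 2773718553377) (nat_lit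 532) (nat_lit 3443475902879) (nat_lit 76) (nat_lit 3171056237390) (nat_lit 89) (nat_lit 5) (nat_lit 96) (nat_lit 5) (nat_lit 90) (nat_lit 5) (nat_lit 504) (nat_lit 497) (nat_lit 199)) (XT.lf (nat_lit 0) (nat_lit 1717409779225) (nat_lit 532) (nat_lit 2058560231889) (nat_lit 608) (nat_lit 6017617785678) (nat_lit 82) (nat_lit 5) (nat_lit 89) (nat_lit 5) (nat_lit 90) (nat_lit 5) (nat_lit 505) (nat_lit 497) (nat_lit 198)))))) (XT.nd (nat_lit 546) (nat_lit 684) (nat_lit 0) (XT.nd (nat_lit 234) (nat_lit 760) (nat_lit 0) (XT.nd (nat_lit 78) (nat_lit 228) (nat_lit 0) (XT.lf (nat_lit 0) (nat_lit 5013505842813) (nat_lit 608) (nat_lit 2797773491787) (nat_lit 76) (nat_lit 2407664193003) (nat_lit 82) (nat_lit 5) (nat_lit 90) (nat_lit 5) (nat_lit 83) (nat_lit 5) (nat_lit 506) (nat_lit 497) (nat_lit 197)) (XT.nd (nat_lit 78) (nat_lit 0) (nat_lit 0) (XT.lf (nat_lit 0) (nat_lit 2999480459603) (nat_lit 228)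 (nat_lit 3476170755494) (nat_lit 304) (nat_lit 4192627967858) (nat_lit 79) (nat_lit 5) (nat_lit 82) (nat_lit 5) (nat_lit 83) (nat_lit 5) (nat_lit 507) (nat_lit 497) (nat_lit 196)) (XT.lf (nat_lit 0) (nat_lit 8162249446310) (nat_lit 304) (nat_lit 1758800563236) (nat_lit 76) (nat_lit 1223913182858) (nat_lit 79) (nat_lit 5) (nat_lit 83) (nat_lit 5) (nat_lit 80) (nat_lit 5) (nat_lit 508) (nat_lit 497) (nat_lit 195)))) (XT.nd (nat_lit 156) (nat_lit 456) (nat_lit 0) (XT.nd (nat_lit 78) (nat_lit 76) (nat_lit 0) (XT.lf (nat_lit 0) (nat_lit 4772444292128) (nat_lit 228) (nat_lit 5416398793322) (nat_lit 304) (nat_lit 1454533433203) (nat_lit 76) (nat_lit 5) (nat_lit 79) (nat_lit 5) (nat_lit 80) (nat_lit 5) (nat_lit 509) (nat_lit 497) (nat_lit 194)) (XT.lf (nat_lit 0) (nat_lit 235439310022) (nat_lit 304) (nat_lit 257563019618) (nat_lit 76) (nat_lit 11684336644317) (nat_lit 75) (nat_lit 5) (nat_lit 79)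 (nat_lit 5) (nat_lit 76) (nat_lit 5) (nat_lit 510) (nat_lit 497) (nat_lit 193))) (XT.nd (nat_lit 78) (nat_lit 228) (nat_lit 0) (XT.lf (nat_lit 0) (nat_lit 2276878937786) (nat_lit 304) (nat_lit 5650984383814) (nat_lit 76) (nat_lit 4799544564908) (nat_lit 72) (nat_lit 5) (nat_lit 76) (nat_lit 5) (nat_lit 73) (nat_lit 5) (nat_lit 511) (nat_lit 497) (nat_lit 192)) (XT.lf (nat_lit 0) (nat_lit 1766223323687) (nat_lit 228) (nat_lit 2777918525202) (nat_lit 304) (nat_lit 8772339814124) (nat_lit 69) (nat_lit 5) (nat_lit 72) (nat_lit 5) (nat_lit 73) (nat_lit 5) (nat_lit 512) (nat_lit 497) (nat_lit 191))))) (XT.nd (nat_lit 234) (nat_lit 532) (nat_lit 0) (XT.nd (nat_lit 78) (nat_lit 152) (nat_lit 0) (XT.lf (nat_lit 0) (nat_lit 7218262705770) (nat_lit 304) (nat_lit 3913105556107) (nat_lit 76) (nat_lit 2803274926731) (nat_lit 69) (nat_lit 5) (nat_lit 73) (nat_lit 5) (nat_lit 70) (nat_lit 5) (nat_lit 513)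 (nat_lit 497) (nat_lit 190)) (XT.nd (nat_lit 78) (nat_lit 0) (nat_lit 0) (XT.lf (nat_lit 0) (nat_lit 4487340676236) (nat_lit 152) (nat_lit 5799046934025) (nat_lit 228) (nat_lit 4301464075662) (nat_lit 67) (nat_lit 5) (nat_lit 69) (nat_lit 5) (nat_lit 70) (nat_lit 5) (nat_lit 514) (nat_lit 497) (nat_lit 189)) (XT.lf (nat_lit 0) (nat_lit 13708767375288) (nat_lit 228) (nat_lit 1504206804105) (nat_lit 76) (nat_lit 71638294179) (nat_lit 67) (nat_lit 5) (nat_lit 70) (nat_lit 5) (nat_lit 68) (nat_lit 5) (nat_lit 515) (nat_lit 497) (nat_lit 188)))) (XT.nd (nat_lit 156) (nat_lit 152) (nat_lit 0) (XT.nd (nat_lit 78) (nat_lit 152) (nat_lit 0) (XT.lf (nat_lit 0) (nat_lit 1652096699287) (nat_lit 228) (nat_lit 8020521801051) (nat_lit 76) (nat_lit 6333648139602) (nat_lit 64) (nat_lit 5) (nat_lit 67) (nat_lit 5) (nat_lit 65) (nat_lit 5) (nat_lit 516) (nat_lit 497) (nat_lit 187)) (XT.lf (nat_lit 0) (nat_lit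 1574856678121) (nat_lit 152) (nat_lit 3558351868264) (nat_lit 228) (nat_lit 11642764408146) (nat_lit 62) (nat_lit 5) (nat_lit 64) (nat_lit 5) (nat_lit 65) (nat_lit 5) (nat_lit 517) (nat_lit 497) (nat_lit 186))) (XT.nd (nat_lit 78) (nat_lit 152) (nat_lit 0) (XT.lf (nat_lit 0) (nat_lit 9191034274424) (nat_lit 228) (nat_lit 5274642188335) (nat_lit 76) (nat_lit 3117721316875) (nat_lit 62) (nat_lit 5) (nat_lit 65) (nat_lit 5) (nat_lit 63) (nat_lit 5) (nat_lit 518) (nat_lit 497) (nat_lit 185)) (XT.lf (nat_lit 0) (nat_lit 5635432247529) (nat_lit 152) (nat_lit 8166010818073) (nat_lit 228) (nat_lit 4635736964753) (nat_lit 60) (nat_lit 5) (nat_lit 62) (nat_lit 5) (nat_lit 63) (nat_lit 5) (nat_lit 519) (nat_lit 497) (nat_lit 184))))))) (XT.nd (nat_lit 61074) (nat_lit 0) (nat_lit 1444) (XT.nd (nat_lit 546) (nat_lit 304) (nat_lit 0) (XT.nd (nat_lit 234) (nat_lit 304) (nat_lit 0) (XT.nd (nat_lit 78) (nat_lit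 304) (nat_lit 0) (XT.lf (nat_lit 0) (nat_lit 17718286213187) (nat_lit 152) (nat_lit 1206616411746) (nat_lit 228) (nat_lit 422824791012) (nat_lit 60) (nat_lit 5) (nat_lit 62) (nat_lit 5) (nat_lit 63) (nat_lit 5) (nat_lit 520) (nat_lit 497) (nat_lit 183)) (XT.nd (nat_lit 78) (nat_lit 152) (nat_lit 0) (XT.lf (nat_lit 0) (nat_lit 4343491234446) (nat_lit 152) (nat_lit 9581620193302) (nat_lit 76) (nat_lit 6364240484887) (nat_lit 58) (nat_lit 5) (nat_lit 60) (nat_lit 5) (nat_lit 59) (nat_lit 5) (nat_lit 521) (nat_lit 497) (nat_lit 182)) (XT.lf (nat_lit 0) (nat_lit 2924625279161) (nat_lit 152) (nat_lit 6691030735863) (nat_lit 228) (nat_lit 11677980797529) (nat_lit 56) (nat_lit 5) (nat_lit 58) (nat_lit 5) (nat_lit 59) (nat_lit 5) (nat_lit 522) (nat_lit 497) (nat_lit 181)))) (XT.nd (nat_lit 156) (nat_lit 228) (nat_lit 0) (XT.nd (nat_lit 78) (nat_lit 76) (nat_lit 0) (XT.lf (nat_lit 0) (nat_lit 15605355839601)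 (nat_lit 228) (nat_lit 5414803991988) (nat_lit 76) (nat_lit 1334443723949) (nat_lit 56) (nat_lit 5) (nat_lit 59) (nat_lit 5) (nat_lit 57) (nat_lit 4) (nat_lit 523) (nat_lit 497) (nat_lit 180)) (XT.lf (nat_lit 0) (nat_lit 8844378793756) (nat_lit 76) (nat_lit 13616353385180) (nat_lit 152) (nat_lit 1008795416724) (nat_lit 55) (nat_lit 5) (nat_lit 56) (nat_lit 5) (nat_lit 57) (nat_lit 4) (nat_lit 524) (nat_lit 497) (nat_lit 179))) (XT.nd (nat_lit 78) (nat_lit 152) (nat_lit 0) (XT.lf (nat_lit 0) (nat_lit 5083119372264) (nat_lit 152) (nat_lit 238247195162) (nat_lit 76) (nat_lit 19330140039297) (nat_lit 54) (nat_lit 5) (nat_lit 56) (nat_lit 5) (nat_lit 55) (nat_lit 5) (nat_lit 525) (nat_lit 497) (nat_lit 178)) (XT.lf (nat_lit 0) (nat_lit 12092753776157) (nat_lit 228) (nat_lit 9915538940554) (nat_lit 76) (nat_lit 3878865616750) (nat_lit 52) (nat_lit 5) (nat_lit 55) (nat_lit 5) (nat_lit 53) (nat_lit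 4) (nat_lit 526) (nat_lit 497) (nat_lit 177))))) (XT.nd (nat_lit 60216) (nat_lit 0) (nat_lit 2888) (XT.nd (nat_lit 78) (nat_lit 228) (nat_lit 0) (XT.lf (nat_lit 0) (nat_lit 6455212951514) (nat_lit 76) (nat_lit 13508094618931) (nat_lit 152) (nat_lit 7234342736846) (nat_lit 51) (nat_lit 5) (nat_lit 52) (nat_lit 5) (nat_lit 53) (nat_lit 4) (nat_lit 527) (nat_lit 497) (nat_lit 176)) (XT.nd (nat_lit 78) (nat_lit 152) (nat_lit 0) (XT.lf (nat_lit 0) (nat_lit 136151605925) (nat_lit 152) (nat_lit 3895209362245) (nat_lit 76) (nat_lit 24559656248255) (nat_lit 50) (nat_lit 5) (nat_lit 52) (nat_lit 5) (nat_lit 51) (nat_lit 5) (nat_lit 528) (nat_lit 497) (nat_lit 175)) (XT.lf (nat_lit 0) (nat_lit 8226060976394) (nat_lit 228) (nat_lit 15360595757161) (nat_lit 76) (nat_lit 6452514912795) (nat_lit 48) (nat_lit 5) (nat_lit 51) (nat_lit 5) (nat_lit 49) (nat_lit 4) (nat_lit 529) (nat_lit 497) (nat_lit 174))))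 (XT.nd (nat_lit 156) (nat_lit 532) (nat_lit 0) (XT.nd (nat_lit 78) (nat_lit 0) (nat_lit 0) (XT.lf (nat_lit 0) (nat_lit 3777810267702) (nat_lit 532) (nat_lit 25200340709) (nat_lit 532) (nat_lit 25200340709) (nat_lit 93) (nat_lit 3) (nat_lit 100) (nat_lit 3) (nat_lit 100) (nat_lit 5) (nat_lit 498) (nat_lit 498) (nat_lit 204)) (XT.lf (nat_lit 76) (nat_lit 3960631493351) (nat_lit 0) (nat_lit 3992467147192) (nat_lit 532) (nat_lit 1959870932) (nat_lit 94) (nat_lit 5) (nat_lit 93) (nat_lit 3) (nat_lit 100) (nat_lit 5) (nat_lit 499) (nat_lit 498) (nat_lit 203))) (XT.nd (nat_lit 78) (nat_lit 0) (nat_lit 76) (XT.lf (nat_lit 76) (nat_lit 16190718632) (nat_lit 0) (nat_lit 85159478860) (nat_lit 608) (nat_lit 8175889984201) (nat_lit 87) (nat_lit 5) (nat_lit 86) (nat_lit 5) (nat_lit 94) (nat_lit 5) (nat_lit 500) (nat_lit 498) (nat_lit 202)) (XT.lf (nat_lit 0) (nat_lit 424311069916) (nat_lit 532) (nat_lit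 4143962805206) (nat_lit 608) (nat_lit 4039999087352) (nat_lit 87) (nat_lit 5) (nat_lit 94) (nat_lit 5) (nat_lit 95) (nat_lit 5) (nat_lit 501) (nat_lit 498) (nat_lit 201)))))) (XT.nd (nat_lit 546) (nat_lit 912) (nat_lit 0) (XT.nd (nat_lit 234) (nat_lit 608) (nat_lit 0) (XT.nd (nat_lit 78) (nat_lit 0) (nat_lit 76) (XT.lf (nat_lit 76) (nat_lit 316091002831) (nat_lit 0) (nat_lit 466831739943) (nat_lit 608) (nat_lit 8182080508493) (nat_lit 88) (nat_lit 5) (nat_lit 87) (nat_lit 5) (nat_lit 95) (nat_lit 5) (nat_lit 502) (nat_lit 498) (nat_lit 200)) (XT.nd (nat_lit 78) (nat_lit 0) (nat_lit 0) (XT.lf (nat_lit 0) (nat_lit 1381773228691) (nat_lit 532) (nat_lit 4070834340671) (nat_lit 608) (nat_lit 3880740403461) (nat_lit 88) (nat_lit 5) (nat_lit 95) (nat_lit 5) (nat_lit 96) (nat_lit 5) (nat_lit 503) (nat_lit 498) (nat_lit 199)) (XT.lf (nat_lit 76) (nat_lit 906722217471) (nat_lit 0) (nat_lit 1155741726802)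 (nat_lit 608) (nat_lit 7665981752568) (nat_lit 89) (nat_lit 5) (nat_lit 88) (nat_lit 5) (nat_lit 96) (nat_lit 5) (nat_lit 504) (nat_lit 498) (nat_lit 198)))) (XT.nd (nat_lit 156) (nat_lit 228) (nat_lit 0) (XT.nd (nat_lit 78) (nat_lit 532) (nat_lit 0) (XT.lf (nat_lit 0) (nat_lit 2995616039155) (nat_lit 532) (nat_lit 3718953973683) (nat_lit 76) (nat_lit 3424740736178) (nat_lit 89) (nat_lit 5) (nat_lit 96) (nat_lit 5) (nat_lit 90) (nat_lit 5) (nat_lit 505) (nat_lit 498) (nat_lit 197)) (XT.lf (nat_lit 0) (nat_lit 1854802562954) (nat_lit 532) (nat_lit 2223245050480) (nat_lit 608) (nat_lit 6499027206987) (nat_lit 82) (nat_lit 5) (nat_lit 89) (nat_lit 5) (nat_lit 90) (nat_lit 5) (nat_lit 506) (nat_lit 498) (nat_lit 196))) (XT.nd (nat_lit 78) (nat_lit 228) (nat_lit 0) (XT.lf (nat_lit 0) (nat_lit 5414586311562) (nat_lit 608) (nat_lit 3021595369735) (nat_lit 76) (nat_lit 2600277328408) (nat_lit 82)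 (nat_lit 5) (nat_lit 90) (nat_lit 5) (nat_lit 83) (nat_lit 5) (nat_lit 507) (nat_lit 498) (nat_lit 195)) (XT.lf (nat_lit 0) (nat_lit 3239438897730) (nat_lit 228) (nat_lit 3754264415832) (nat_lit 304) (nat_lit 4528038203928) (nat_lit 79) (nat_lit 5) (nat_lit 82) (nat_lit 5) (nat_lit 83) (nat_lit 5) (nat_lit 508) (nat_lit 498) (nat_lit 194))))) (XT.nd (nat_lit 312) (nat_lit 380) (nat_lit 0) (XT.nd (nat_lit 156) (nat_lit 304) (nat_lit 0) (XT.nd (nat_lit 78) (nat_lit 228) (nat_lit 0) (XT.lf (nat_lit 0) (nat_lit 8815229403181) (nat_lit 304) (nat_lit 1899504606945) (nat_lit 76) (nat_lit 1321826237575) (nat_lit 79) (nat_lit 5) (nat_lit 83) (nat_lit 5) (nat_lit 80) (nat_lit 5) (nat_lit 509) (nat_lit 498) (nat_lit 193)) (XT.lf (nat_lit 0) (nat_lit 5154239836813) (nat_lit 228) (nat_lit 5849710696585) (nat_lit 304) (nat_lit 1570896106658) (nat_lit 76) (nat_lit 5) (nat_lit 79) (nat_lit 5) (nat_lit 80)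 (nat_lit 5) (nat_lit 510) (nat_lit 498) (nat_lit 192))) (XT.nd (nat_lit 78) (nat_lit 228) (nat_lit 0) (XT.lf (nat_lit 0) (nat_lit 254274455881) (nat_lit 304) (nat_lit 278168059914) (nat_lit 76) (nat_lit 12619083575995) (nat_lit 75) (nat_lit 5) (nat_lit 79) (nat_lit 5) (nat_lit 76) (nat_lit 5) (nat_lit 511) (nat_lit 498) (nat_lit 191)) (XT.lf (nat_lit 0) (nat_lit 2459029253823) (nat_lit 304) (nat_lit 6103063133203) (nat_lit 76) (nat_lit 5183508130322) (nat_lit 72) (nat_lit 5) (nat_lit 76) (nat_lit 5) (nat_lit 73) (nat_lit 5) (nat_lit 512) (nat_lit 498) (nat_lit 190)))) (XT.nd (nat_lit 156) (nat_lit 152) (nat_lit 0) (XT.nd (nat_lit 78) (nat_lit 0) (nat_lit 0) (XT.lf (nat_lit 0) (nat_lit 1907521190865) (nat_lit 228) (nat_lit 3000152006905) (nat_lit 304) (nat_lit 9474126998207) (nat_lit 69) (nat_lit 5) (nat_lit 72) (nat_lit 5) (nat_lit 73) (nat_lit 5) (nat_lit 513) (nat_lit 498) (nat_lit 189))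 (XT.lf (nat_lit 0) (nat_lit 7795723723136) (nat_lit 304) (nat_lit 4226153999342) (nat_lit 76) (nat_lit 3027536921145) (nat_lit 69) (nat_lit 5) (nat_lit 73) (nat_lit 5) (nat_lit 70) (nat_lit 5) (nat_lit 514) (nat_lit 498) (nat_lit 188))) (XT.nd (nat_lit 78) (nat_lit 0) (nat_lit 0) (XT.lf (nat_lit 0) (nat_lit 4846327931557) (nat_lit 152) (nat_lit 6262970688394) (nat_lit 228) (nat_lit 4645581200779) (nat_lit 67) (nat_lit 5) (nat_lit 69) (nat_lit 5) (nat_lit 70) (nat_lit 5) (nat_lit 515) (nat_lit 498) (nat_lit 187)) (XT.lf (nat_lit 0) (nat_lit 14805468766122) (nat_lit 228) (nat_lit 1624543347246) (nat_lit 76) (nat_lit 77369358025) (nat_lit 67) (nat_lit 5) (nat_lit 70) (nat_lit 5) (nat_lit 68) (nat_lit 5) (nat_lit 516) (nat_lit 498) (nat_lit 186))))))))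
noncomputable def xc248 : XT := (XT.nd (nat_lit 62244) (nat_lit 0) (nat_lit 76) (XT.nd (nat_lit 61152) (nat_lit 0) (nat_lit 1672) (XT.nd (nat_lit 546) (nat_lit 456) (nat_lit 0) (XT.nd (nat_lit 234) (nat_lit 456) (nat_lit 0) (XT.nd (nat_lit 78) (nat_lit 152) (nat_lit 0) (XT.lf (nat_lit 0) (nat_lit 1784264436029) (nat_lit 228) (nat_lit 8662163543935) (nat_lit 76) (nat_lit 6840339991107) (nat_lit 64) (nat_lit 5) (nat_lit 67) (nat_lit 5) (nat_lit 65) (nat_lit 5) (nat_lit 517) (nat_lit 498) (nat_lit 185)) (XT.nd (nat_lit 78) (nat_lit 0) (nat_lit 0) (XT.lf (nat_lit 0) (nat_lit 1700845213539) (nat_lit 152) (nat_lit 3843020017325) (nat_lit 228) (nat_lit 12574185559968) (nat_lit 62) (nat_lit 5) (nat_lit 64) (nat_lit 5) (nat_lit 65) (nat_lit 5) (nat_lit 518) (nat_lit 498) (nat_lit 184)) (XT.lf (nat_lit 0) (nat_lit 9926317017098) (nat_lit 228) (nat_lit 5696613562272) (nat_lit 76) (nat_lit 3367139022578)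 (nat_lit 62) (nat_lit 5) (nat_lit 65) (nat_lit 5) (nat_lit 63) (nat_lit 5) (nat_lit 519) (nat_lit 498) (nat_lit 183)))) (XT.nd (nat_lit 156) (nat_lit 304) (nat_lit 0) (XT.nd (nat_lit 78) (nat_lit 0) (nat_lit 0) (XT.lf (nat_lit 0) (nat_lit 6086266828433) (nat_lit 152) (nat_lit 8819291683111) (nat_lit 228) (nat_lit 5006595921185) (nat_lit 60) (nat_lit 5) (nat_lit 62) (nat_lit 5) (nat_lit 63) (nat_lit 5) (nat_lit 520) (nat_lit 498) (nat_lit 182)) (XT.lf (nat_lit 0) (nat_lit 19135749111262) (nat_lit 152) (nat_lit 1303145724308) (nat_lit 228) (nat_lit 456650773600) (nat_lit 60) (nat_lit 5) (nat_lit 62) (nat_lit 5) (nat_lit 63) (nat_lit 5) (nat_lit 521) (nat_lit 498) (nat_lit 181))) (XT.nd (nat_lit 78) (nat_lit 152) (nat_lit 0) (XT.lf (nat_lit 0) (nat_lit 4690970533846) (nat_lit 152) (nat_lit 10348149807697) (nat_lit 76) (nat_lit 6873379724052) (nat_lit 58) (nat_lit 5) (nat_lit 60) (nat_lit 5)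 (nat_lit 59) (nat_lit 5) (nat_lit 522) (nat_lit 498) (nat_lit 180)) (XT.lf (nat_lit 0) (nat_lit 3158595302536) (nat_lit 152) (nat_lit 7226313194311) (nat_lit 228) (nat_lit 12612219260660) (nat_lit 56) (nat_lit 5) (nat_lit 58) (nat_lit 5) (nat_lit 59) (nat_lit 5) (nat_lit 523) (nat_lit 498) (nat_lit 179))))) (XT.nd (nat_lit 234) (nat_lit 304) (nat_lit 0) (XT.nd (nat_lit 78) (nat_lit 152) (nat_lit 0) (XT.lf (nat_lit 0) (nat_lit 16853784307354) (nat_lit 228) (nat_lit 5847988310346) (nat_lit 76) (nat_lit 1441199222235) (nat_lit 56) (nat_lit 5) (nat_lit 59) (nat_lit 5) (nat_lit 57) (nat_lit 4) (nat_lit 524) (nat_lit 498) (nat_lit 178)) (XT.nd (nat_lit 78) (nat_lit 76) (nat_lit 0) (XT.lf (nat_lit 0) (nat_lit 9551929098233) (nat_lit 76) (nat_lit 14705661655582) (nat_lit 152) (nat_lit 1089499049452) (nat_lit 55) (nat_lit 5) (nat_lit 56) (nat_lit 5) (nat_lit 57) (nat_lit 4) (nat_lit 525) (nat_lit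 498) (nat_lit 177)) (XT.lf (nat_lit 0) (nat_lit 5489768922581) (nat_lit 152) (nat_lit 257306969843) (nat_lit 76) (nat_lit 20876551242794) (nat_lit 54) (nat_lit 5) (nat_lit 56) (nat_lit 5) (nat_lit 55) (nat_lit 5) (nat_lit 526) (nat_lit 498) (nat_lit 176)))) (XT.nd (nat_lit 156) (nat_lit 76) (nat_lit 0) (XT.nd (nat_lit 78) (nat_lit 76) (nat_lit 0) (XT.lf (nat_lit 0) (nat_lit 13060174078777) (nat_lit 228) (nat_lit 10708782054858) (nat_lit 76) (nat_lit 4189174866461) (nat_lit 52) (nat_lit 5) (nat_lit 55) (nat_lit 5) (nat_lit 53) (nat_lit 4) (nat_lit 527) (nat_lit 498) (nat_lit 175)) (XT.lf (nat_lit 0) (nat_lit 6971629988552) (nat_lit 76) (nat_lit 14588742188040) (nat_lit 152) (nat_lit 7813090155242) (nat_lit 51) (nat_lit 5) (nat_lit 52) (nat_lit 5) (nat_lit 53) (nat_lit 4) (nat_lit 528) (nat_lit 498) (nat_lit 174))) (XT.nd (nat_lit 60138) (nat_lit 0) (nat_lit 3268) (XT.lf (nat_lit 0) (nat_lit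 147043734885) (nat_lit 152) (nat_lit 4206826110350) (nat_lit 76) (nat_lit 26524428748466) (nat_lit 50) (nat_lit 5) (nat_lit 52) (nat_lit 5) (nat_lit 51) (nat_lit 5) (nat_lit 529) (nat_lit 498) (nat_lit 173)) (XT.lf (nat_lit 0) (nat_lit 4080035090147) (nat_lit 532) (nat_lit 27216367411) (nat_lit 532) (nat_lit 27216367411) (nat_lit 93) (nat_lit 3) (nat_lit 100) (nat_lit 3) (nat_lit 100) (nat_lit 5) (nat_lit 499) (nat_lit 499) (nat_lit 202)))))) (XT.nd (nat_lit 546) (nat_lit 1064) (nat_lit 0) (XT.nd (nat_lit 234) (nat_lit 0) (nat_lit 76) (XT.nd (nat_lit 78) (nat_lit 532) (nat_lit 0) (XT.lf (nat_lit 76) (nat_lit 4277482013902) (nat_lit 0) (nat_lit 4311864519816) (nat_lit 532) (nat_lit 2116658521) (nat_lit 94) (nat_lit 5) (nat_lit 93) (nat_lit 3) (nat_lit 100) (nat_lit 5) (nat_lit 500) (nat_lit 499) (nat_lit 201)) (XT.nd (nat_lit 78) (nat_lit 0) (nat_lit 76) (XT.lf (nat_lit 76) (nat_lit 17485977281)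 (nat_lit 0) (nat_lit 91972237874) (nat_lit 608) (nat_lit 8829961180926) (nat_lit 87) (nat_lit 5) (nat_lit 86) (nat_lit 5) (nat_lit 94) (nat_lit 5) (nat_lit 501) (nat_lit 499) (nat_lit 200)) (XT.lf (nat_lit 0) (nat_lit 458255957219) (nat_lit 532) (nat_lit 4475479828397) (nat_lit 608) (nat_lit 4363199013720) (nat_lit 87) (nat_lit 5) (nat_lit 94) (nat_lit 5) (nat_lit 95) (nat_lit 5) (nat_lit 502) (nat_lit 499) (nat_lit 199)))) (XT.nd (nat_lit 156) (nat_lit 0) (nat_lit 76) (XT.nd (nat_lit 78) (nat_lit 0) (nat_lit 76) (XT.lf (nat_lit 76) (nat_lit 341378284253) (nat_lit 0) (nat_lit 504178279555) (nat_lit 608) (nat_lit 8836646947432) (nat_lit 88) (nat_lit 5) (nat_lit 87) (nat_lit 5) (nat_lit 95) (nat_lit 5) (nat_lit 503) (nat_lit 499) (nat_lit 198)) (XT.lf (nat_lit 0) (nat_lit 1492315088469) (nat_lit 532) (nat_lit 4396501086690) (nat_lit 608) (nat_lit 4191199635372) (nat_lit 88) (nat_lit 5) (nat_lit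 95) (nat_lit 5) (nat_lit 96) (nat_lit 5) (nat_lit 504) (nat_lit 499) (nat_lit 197))) (XT.nd (nat_lit 78) (nat_lit 0) (nat_lit 76) (XT.lf (nat_lit 76) (nat_lit 979259996073) (nat_lit 0) (nat_lit 1248201065144) (nat_lit 608) (nat_lit 8279260291259) (nat_lit 89) (nat_lit 5) (nat_lit 88) (nat_lit 5) (nat_lit 96) (nat_lit 5) (nat_lit 505) (nat_lit 499) (nat_lit 196)) (XT.lf (nat_lit 0) (nat_lit 3235265323581) (nat_lit 532) (nat_lit 4016470290355) (nat_lit 76) (nat_lit 3698719994898) (nat_lit 89) (nat_lit 5) (nat_lit 96) (nat_lit 5) (nat_lit 90) (nat_lit 5) (nat_lit 506) (nat_lit 499) (nat_lit 195))))) (XT.nd (nat_lit 234) (nat_lit 532) (nat_lit 0) (XT.nd (nat_lit 78) (nat_lit 228) (nat_lit 0) (XT.lf (nat_lit 0) (nat_lit 2003186769182) (nat_lit 532) (nat_lit 2401104654553) (nat_lit 608) (nat_lit 7018949382222) (nat_lit 82) (nat_lit 5) (nat_lit 89) (nat_lit 5) (nat_lit 90) (nat_lit 5) (nat_lit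 507) (nat_lit 499) (nat_lit 194)) (XT.nd (nat_lit 78) (nat_lit 228) (nat_lit 0) (XT.lf (nat_lit 0) (nat_lit 5847753217621) (nat_lit 608) (nat_lit 3263322998119) (nat_lit 76) (nat_lit 2808299514651) (nat_lit 82) (nat_lit 5) (nat_lit 90) (nat_lit 5) (nat_lit 83) (nat_lit 5) (nat_lit 508) (nat_lit 499) (nat_lit 193)) (XT.lf (nat_lit 0) (nat_lit 3498594010714) (nat_lit 228) (nat_lit 4054605569013) (nat_lit 304) (nat_lit 4890281259077) (nat_lit 79) (nat_lit 5) (nat_lit 82) (nat_lit 5) (nat_lit 83) (nat_lit 5) (nat_lit 509) (nat_lit 499) (nat_lit 192)))) (XT.nd (nat_lit 156) (nat_lit 304) (nat_lit 0) (XT.nd (nat_lit 78) (nat_lit 228) (nat_lit 0) (XT.lf (nat_lit 0) (nat_lit 9520447756437) (nat_lit 304) (nat_lit 2051464974344) (nat_lit 76) (nat_lit 1427572336658) (nat_lit 79) (nat_lit 5) (nat_lit 83) (nat_lit 5) (nat_lit 80) (nat_lit 5) (nat_lit 510) (nat_lit 499) (nat_lit 191)) (XT.lf (nat_lit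 0) (nat_lit 5566579024886) (nat_lit 228) (nat_lit 6317687552138) (nat_lit 304) (nat_lit 1696567794160) (nat_lit 76) (nat_lit 5) (nat_lit 79) (nat_lit 5) (nat_lit 80) (nat_lit 5) (nat_lit 511) (nat_lit 499) (nat_lit 190))) (XT.nd (nat_lit 78) (nat_lit 228) (nat_lit 0) (XT.lf (nat_lit 0) (nat_lit 274616413258) (nat_lit 304) (nat_lit 300421503615) (nat_lit 76) (nat_lit 13628610262188) (nat_lit 75) (nat_lit 5) (nat_lit 79) (nat_lit 5) (nat_lit 76) (nat_lit 5) (nat_lit 512) (nat_lit 499) (nat_lit 189)) (XT.lf (nat_lit 0) (nat_lit 2655751594998) (nat_lit 304) (nat_lit 6591308182731) (nat_lit 76) (nat_lit 5598188780937) (nat_lit 72) (nat_lit 5) (nat_lit 76) (nat_lit 5) (nat_lit 73) (nat_lit 5) (nat_lit 513) (nat_lit 499) (nat_lit 188))))))) (XT.nd (nat_lit 1092) (nat_lit 228) (nat_lit 0) (XT.nd (nat_lit 546) (nat_lit 608) (nat_lit 0) (XT.nd (nat_lit 234) (nat_lit 380) (nat_lit 0) (XT.nd (nat_lit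 78) (nat_lit 152) (nat_lit 0) (XT.lf (nat_lit 0) (nat_lit 2060122887234) (nat_lit 228) (nat_lit 3240164167188) (nat_lit 304) (nat_lit 10232057157166) (nat_lit 69) (nat_lit 5) (nat_lit 72) (nat_lit 5) (nat_lit 73) (nat_lit 5) (nat_lit 514) (nat_lit 499) (nat_lit 187)) (XT.nd (nat_lit 78) (nat_lit 152) (nat_lit 0) (XT.lf (nat_lit 0) (nat_lit 8419381621763) (nat_lit 304) (nat_lit 4564246318215) (nat_lit 76) (nat_lit 3269739875073) (nat_lit 69) (nat_lit 5) (nat_lit 73) (nat_lit 5) (nat_lit 70) (nat_lit 5) (nat_lit 515) (nat_lit 499) (nat_lit 186)) (XT.lf (nat_lit 0) (nat_lit 5234034167128) (nat_lit 152) (nat_lit 6764008343161) (nat_lit 228) (nat_lit 5017227696038) (nat_lit 67) (nat_lit 5) (nat_lit 69) (nat_lit 5) (nat_lit 70) (nat_lit 5) (nat_lit 516) (nat_lit 499) (nat_lit 185)))) (XT.nd (nat_lit 156) (nat_lit 152) (nat_lit 0) (XT.nd (nat_lit 78) (nat_lit 228) (nat_lit 0) (XT.lf (nat_lit 0)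 (nat_lit 15989906268107) (nat_lit 228) (nat_lit 1754506814008) (nat_lit 76) (nat_lit 83558906934) (nat_lit 67) (nat_lit 5) (nat_lit 70) (nat_lit 5) (nat_lit 68) (nat_lit 5) (nat_lit 517) (nat_lit 499) (nat_lit 184)) (XT.lf (nat_lit 0) (nat_lit 1927005591597) (nat_lit 228) (nat_lit 9355136626422) (nat_lit 76) (nat_lit 7387567190684) (nat_lit 64) (nat_lit 5) (nat_lit 67) (nat_lit 5) (nat_lit 65) (nat_lit 5) (nat_lit 518) (nat_lit 499) (nat_lit 183))) (XT.nd (nat_lit 78) (nat_lit 0) (nat_lit 0) (XT.lf (nat_lit 0) (nat_lit 1836912831625) (nat_lit 152) (nat_lit 4150461618366) (nat_lit 228) (nat_lit 13580120404055) (nat_lit 62) (nat_lit 5) (nat_lit 64) (nat_lit 5) (nat_lit 65) (nat_lit 5) (nat_lit 519) (nat_lit 499) (nat_lit 182)) (XT.lf (nat_lit 0) (nat_lit 10720422379083) (nat_lit 228) (nat_lit 6152342646285) (nat_lit 76) (nat_lit 3636510144687) (nat_lit 62) (nat_lit 5) (nat_lit 65) (nat_lit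 5) (nat_lit 63) (nat_lit 5) (nat_lit 520) (nat_lit 499) (nat_lit 181))))) (XT.nd (nat_lit 234) (nat_lit 304) (nat_lit 0) (XT.nd (nat_lit 78) (nat_lit 152) (nat_lit 0) (XT.lf (nat_lit 0) (nat_lit 6573168175652) (nat_lit 152) (nat_lit 9524835017409) (nat_lit 228) (nat_lit 5407123594238) (nat_lit 60) (nat_lit 5) (nat_lit 62) (nat_lit 5) (nat_lit 63) (nat_lit 5) (nat_lit 521) (nat_lit 499) (nat_lit 180)) (XT.nd (nat_lit 78) (nat_lit 152) (nat_lit 0) (XT.lf (nat_lit 0) (nat_lit 20666609041038) (nat_lit 152) (nat_lit 1407397381928) (nat_lit 228) (nat_lit 493182834894) (nat_lit 60) (nat_lit 5) (nat_lit 62) (nat_lit 5) (nat_lit 63) (nat_lit 5) (nat_lit 522) (nat_lit 499) (nat_lit 179)) (XT.lf (nat_lit 0) (nat_lit 5066248177106) (nat_lit 152) (nat_lit 11176001791396) (nat_lit 76) (nat_lit 7423250102297) (nat_lit 58) (nat_lit 5) (nat_lit 60) (nat_lit 5) (nat_lit 59) (nat_lit 5) (nat_lit 523) (nat_lit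 499) (nat_lit 178)))) (XT.nd (nat_lit 156) (nat_lit 152) (nat_lit 0) (XT.nd (nat_lit 78) (nat_lit 0) (nat_lit 0) (XT.lf (nat_lit 0) (nat_lit 3411282927632) (nat_lit 152) (nat_lit 7804418249495) (nat_lit 228) (nat_lit 13621196800938) (nat_lit 56) (nat_lit 5) (nat_lit 58) (nat_lit 5) (nat_lit 59) (nat_lit 5) (nat_lit 524) (nat_lit 499) (nat_lit 177)) (XT.lf (nat_lit 0) (nat_lit 18202087052444) (nat_lit 228) (nat_lit 6315827374314) (nat_lit 76) (nat_lit 1556495160332) (nat_lit 56) (nat_lit 5) (nat_lit 59) (nat_lit 5) (nat_lit 57) (nat_lit 4) (nat_lit 525) (nat_lit 499) (nat_lit 176))) (XT.nd (nat_lit 78) (nat_lit 76) (nat_lit 0) (XT.lf (nat_lit 0) (nat_lit 10316083426929) (nat_lit 76) (nat_lit 15882114587676) (nat_lit 152) (nat_lit 1176658972885) (nat_lit 55) (nat_lit 5) (nat_lit 56) (nat_lit 5) (nat_lit 57) (nat_lit 4) (nat_lit 526) (nat_lit 499) (nat_lit 175)) (XT.lf (nat_lit 0) (nat_lit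 5928950436848) (nat_lit 152) (nat_lit 277891526631) (nat_lit 76) (nat_lit 22546675342520) (nat_lit 54) (nat_lit 5) (nat_lit 56) (nat_lit 5) (nat_lit 55) (nat_lit 5) (nat_lit 527) (nat_lit 499) (nat_lit 174)))))) (XT.nd (nat_lit 60684) (nat_lit 0) (nat_lit 2128) (XT.nd (nat_lit 60372) (nat_lit 0) (nat_lit 2660) (XT.nd (nat_lit 78) (nat_lit 76) (nat_lit 0) (XT.lf (nat_lit 0) (nat_lit 14104988005532) (nat_lit 228) (nat_lit 11565484618440) (nat_lit 76) (nat_lit 4524308856095) (nat_lit 52) (nat_lit 5) (nat_lit 55) (nat_lit 5) (nat_lit 53) (nat_lit 4) (nat_lit 528) (nat_lit 499) (nat_lit 173)) (XT.nd (nat_lit 60216) (nat_lit 0) (nat_lit 3192) (XT.lf (nat_lit 0) (nat_lit 7529360388423) (nat_lit 76) (nat_lit 15755841562735) (nat_lit 152) (nat_lit 8438137367188) (nat_lit 51) (nat_lit 5) (nat_lit 52) (nat_lit 5) (nat_lit 53) (nat_lit 4) (nat_lit 529) (nat_lit 499) (nat_lit 172)) (XT.lf (nat_lit 0)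 (nat_lit 4406437898241) (nat_lit 532) (nat_lit 29393676327) (nat_lit 532) (nat_lit 29393676327) (nat_lit 93) (nat_lit 3) (nat_lit 100) (nat_lit 3) (nat_lit 100) (nat_lit 5) (nat_lit 500) (nat_lit 500) (nat_lit 200)))) (XT.nd (nat_lit 156) (nat_lit 0) (nat_lit 76) (XT.nd (nat_lit 78) (nat_lit 532) (nat_lit 0) (XT.lf (nat_lit 76) (nat_lit 4619680575943) (nat_lit 0) (nat_lit 4656813682128) (nat_lit 532) (nat_lit 2285989414) (nat_lit 94) (nat_lit 5) (nat_lit 93) (nat_lit 3) (nat_lit 100) (nat_lit 5) (nat_lit 501) (nat_lit 500) (nat_lit 199)) (XT.lf (nat_lit 76) (nat_lit 18884856456) (nat_lit 0) (nat_lit 99330017509) (nat_lit 608) (nat_lit 9536358073675) (nat_lit 87) (nat_lit 5) (nat_lit 86) (nat_lit 5) (nat_lit 94) (nat_lit 5) (nat_lit 502) (nat_lit 500) (nat_lit 198))) (XT.nd (nat_lit 78) (nat_lit 0) (nat_lit 0) (XT.lf (nat_lit 0) (nat_lit 494916435261) (nat_lit 532) (nat_lit 4833518213618)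 (nat_lit 608) (nat_lit 4712254934286) (nat_lit 87) (nat_lit 5) (nat_lit 94) (nat_lit 5) (nat_lit 95) (nat_lit 5) (nat_lit 503) (nat_lit 500) (nat_lit 197)) (XT.lf (nat_lit 76) (nat_lit 368688548017) (nat_lit 0) (nat_lit 544512542276) (nat_lit 608) (nat_lit 9543578701735) (nat_lit 88) (nat_lit 5) (nat_lit 87) (nat_lit 5) (nat_lit 95) (nat_lit 5) (nat_lit 504) (nat_lit 500) (nat_lit 196))))) (XT.nd (nat_lit 234) (nat_lit 684) (nat_lit 0) (XT.nd (nat_lit 78) (nat_lit 0) (nat_lit 0) (XT.lf (nat_lit 0) (nat_lit 1611700296817) (nat_lit 532) (nat_lit 4748221172566) (nat_lit 608) (nat_lit 4526495605888) (nat_lit 88) (nat_lit 5) (nat_lit 95) (nat_lit 5) (nat_lit 96) (nat_lit 5) (nat_lit 505) (nat_lit 500) (nat_lit 195)) (XT.nd (nat_lit 78) (nat_lit 0) (nat_lit 76) (XT.lf (nat_lit 76) (nat_lit 1057600796791) (nat_lit 0) (nat_lit 1348057150526) (nat_lit 608) (nat_lit 8941601113262) (nat_lit 89) (nat_lit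 5) (nat_lit 88) (nat_lit 5) (nat_lit 96) (nat_lit 5) (nat_lit 506) (nat_lit 500) (nat_lit 194)) (XT.lf (nat_lit 0) (nat_lit 3494086550577) (nat_lit 532) (nat_lit 4337787912534) (nat_lit 76) (nat_lit 3994617594341) (nat_lit 89) (nat_lit 5) (nat_lit 96) (nat_lit 5) (nat_lit 90) (nat_lit 5) (nat_lit 507) (nat_lit 500) (nat_lit 193)))) (XT.nd (nat_lit 156) (nat_lit 228) (nat_lit 0) (XT.nd (nat_lit 78) (nat_lit 0) (nat_lit 0) (XT.lf (nat_lit 0) (nat_lit 2163441711739) (nat_lit 532) (nat_lit 2593193026946) (nat_lit 608) (nat_lit 7580465331664) (nat_lit 82) (nat_lit 5) (nat_lit 89) (nat_lit 5) (nat_lit 90) (nat_lit 5) (nat_lit 508) (nat_lit 500) (nat_lit 192)) (XT.lf (nat_lit 0) (nat_lit 6315573476004) (nat_lit 608) (nat_lit 3524388836944) (nat_lit 76) (nat_lit 3032963475797) (nat_lit 82) (nat_lit 5) (nat_lit 90) (nat_lit 5) (nat_lit 83) (nat_lit 5) (nat_lit 509) (nat_lit 500) (nat_lit 191))) (XT.nd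 (nat_lit 78) (nat_lit 0) (nat_lit 0) (XT.lf (nat_lit 0) (nat_lit 3778481532570) (nat_lit 228) (nat_lit 4378974014459) (nat_lit 304) (nat_lit 5281503758804) (nat_lit 79) (nat_lit 5) (nat_lit 82) (nat_lit 5) (nat_lit 83) (nat_lit 5) (nat_lit 510) (nat_lit 500) (nat_lit 190)) (XT.lf (nat_lit 0) (nat_lit 10282083577810) (nat_lit 304) (nat_lit 2215582171300) (nat_lit 76) (nat_lit 1541778123655) (nat_lit 79) (nat_lit 5) (nat_lit 83) (nat_lit 5) (nat_lit 80) (nat_lit 5) (nat_lit 511) (nat_lit 500) (nat_lit 189))))))))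
noncomputable def xc249 : XT := (XT.nd (nat_lit 62400) (nat_lit 0) (nat_lit 228) (XT.nd (nat_lit 1092) (nat_lit 304) (nat_lit 0) (XT.nd (nat_lit 546) (nat_lit 836) (nat_lit 0) (XT.nd (nat_lit 234) (nat_lit 380) (nat_lit 0) (XT.nd (nat_lit 78) (nat_lit 304) (nat_lit 0) (XT.lf (nat_lit 0) (nat_lit 6011905347844) (nat_lit 228) (nat_lit 6823102556160) (nat_lit 304) (nat_lit 1832293216810) (nat_lit 76) (nat_lit 5) (nat_lit 79) (nat_lit 5) (nat_lit 80) (nat_lit 5) (nat_lit 512) (nat_lit 500) (nat_lit 188)) (XT.nd (nat_lit 78) (nat_lit 228) (nat_lit 0) (XT.lf (nat_lit 0) (nat_lit 296585727095) (nat_lit 304) (nat_lit 324455222968) (nat_lit 76) (nat_lit 14718899083260) (nat_lit 75) (nat_lit 5) (nat_lit 79) (nat_lit 5) (nat_lit 76) (nat_lit 5) (nat_lit 513) (nat_lit 500) (nat_lit 187)) (XT.lf (nat_lit 0) (nat_lit 2868211723343) (nat_lit 304) (nat_lit 7118612836381) (nat_lit 76) (nat_lit 6046043883575)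 (nat_lit 72) (nat_lit 5) (nat_lit 76) (nat_lit 5) (nat_lit 73) (nat_lit 5) (nat_lit 514) (nat_lit 500) (nat_lit 186)))) (XT.nd (nat_lit 156) (nat_lit 152) (nat_lit 0) (XT.nd (nat_lit 78) (nat_lit 0) (nat_lit 0) (XT.lf (nat_lit 0) (nat_lit 2224932719156) (nat_lit 228) (nat_lit 3499377300333) (nat_lit 304) (nat_lit 11050621728969) (nat_lit 69) (nat_lit 5) (nat_lit 72) (nat_lit 5) (nat_lit 73) (nat_lit 5) (nat_lit 515) (nat_lit 500) (nat_lit 185)) (XT.lf (nat_lit 0) (nat_lit 9092932152169) (nat_lit 304) (nat_lit 4929386022752) (nat_lit 76) (nat_lit 3531319065282) (nat_lit 69) (nat_lit 5) (nat_lit 73) (nat_lit 5) (nat_lit 70) (nat_lit 5) (nat_lit 516) (nat_lit 500) (nat_lit 184))) (XT.nd (nat_lit 78) (nat_lit 0) (nat_lit 0) (XT.lf (nat_lit 0) (nat_lit 5652756901396) (nat_lit 152) (nat_lit 7305129010354) (nat_lit 228) (nat_lit 5418605911033) (nat_lit 67) (nat_lit 5) (nat_lit 69) (nat_lit 5) (nat_lit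 70) (nat_lit 5) (nat_lit 517) (nat_lit 500) (nat_lit 183)) (XT.lf (nat_lit 0) (nat_lit 17269098770152) (nat_lit 228) (nat_lit 1894867358256) (nat_lit 76) (nat_lit 90243619718) (nat_lit 67) (nat_lit 5) (nat_lit 70) (nat_lit 5) (nat_lit 68) (nat_lit 5) (nat_lit 518) (nat_lit 500) (nat_lit 182))))) (XT.nd (nat_lit 234) (nat_lit 456) (nat_lit 0) (XT.nd (nat_lit 78) (nat_lit 152) (nat_lit 0) (XT.lf (nat_lit 0) (nat_lit 2081166039512) (nat_lit 228) (nat_lit 10103547555654) (nat_lit 76) (nat_lit 7978572566186) (nat_lit 64) (nat_lit 5) (nat_lit 67) (nat_lit 5) (nat_lit 65) (nat_lit 5) (nat_lit 519) (nat_lit 500) (nat_lit 181)) (XT.nd (nat_lit 78) (nat_lit 0) (nat_lit 0) (XT.lf (nat_lit 0) (nat_lit 1983865859014) (nat_lit 152) (nat_lit 4482498547541) (nat_lit 228) (nat_lit 14666530035770) (nat_lit 62) (nat_lit 5) (nat_lit 64) (nat_lit 5) (nat_lit 65) (nat_lit 5) (nat_lit 520) (nat_lit 500) (nat_lit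 180)) (XT.lf (nat_lit 0) (nat_lit 11578056169939) (nat_lit 228) (nat_lit 6644530057156) (nat_lit 76) (nat_lit 3927430956521) (nat_lit 62) (nat_lit 5) (nat_lit 65) (nat_lit 5) (nat_lit 63) (nat_lit 5) (nat_lit 521) (nat_lit 500) (nat_lit 179)))) (XT.nd (nat_lit 156) (nat_lit 304) (nat_lit 0) (XT.nd (nat_lit 78) (nat_lit 0) (nat_lit 0) (XT.lf (nat_lit 0) (nat_lit 7099021630515) (nat_lit 152) (nat_lit 10286821818502) (nat_lit 228) (nat_lit 5839693481227) (nat_lit 60) (nat_lit 5) (nat_lit 62) (nat_lit 5) (nat_lit 63) (nat_lit 5) (nat_lit 522) (nat_lit 500) (nat_lit 178)) (XT.lf (nat_lit 0) (nat_lit 22319937765071) (nat_lit 152) (nat_lit 1519989172204) (nat_lit 228) (nat_lit 532637461176) (nat_lit 60) (nat_lit 5) (nat_lit 62) (nat_lit 5) (nat_lit 63) (nat_lit 5) (nat_lit 523) (nat_lit 500) (nat_lit 177))) (XT.nd (nat_lit 78) (nat_lit 152) (nat_lit 0) (XT.lf (nat_lit 0) (nat_lit 5471548031747)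 (nat_lit 152) (nat_lit 12070081933922) (nat_lit 76) (nat_lit 8017110110756) (nat_lit 58) (nat_lit 5) (nat_lit 60) (nat_lit 5) (nat_lit 59) (nat_lit 5) (nat_lit 524) (nat_lit 500) (nat_lit 176)) (XT.lf (nat_lit 0) (nat_lit 3684185562610) (nat_lit 152) (nat_lit 8428771709145) (nat_lit 228) (nat_lit 14710892544520) (nat_lit 56) (nat_lit 5) (nat_lit 58) (nat_lit 5) (nat_lit 59) (nat_lit 5) (nat_lit 525) (nat_lit 500) (nat_lit 175)))))) (XT.nd (nat_lit 60762) (nat_lit 0) (nat_lit 2280) (XT.nd (nat_lit 234) (nat_lit 152) (nat_lit 0) (XT.nd (nat_lit 78) (nat_lit 152) (nat_lit 0) (XT.lf (nat_lit 0) (nat_lit 19658254017069) (nat_lit 228) (nat_lit 6821093563523) (nat_lit 76) (nat_lit 1681014773431) (nat_lit 56) (nat_lit 5) (nat_lit 59) (nat_lit 5) (nat_lit 57) (nat_lit 4) (nat_lit 526) (nat_lit 500) (nat_lit 174)) (XT.nd (nat_lit 78) (nat_lit 76) (nat_lit 0) (XT.lf (nat_lit 0) (nat_lit 11141370101801)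 (nat_lit 76) (nat_lit 17152683754388) (nat_lit 152) (nat_lit 1270791690268) (nat_lit 55) (nat_lit 5) (nat_lit 56) (nat_lit 5) (nat_lit 57) (nat_lit 4) (nat_lit 527) (nat_lit 500) (nat_lit 173)) (XT.lf (nat_lit 0) (nat_lit 6403266472190) (nat_lit 152) (nat_lit 300122848076) (nat_lit 76) (nat_lit 24350409370181) (nat_lit 54) (nat_lit 5) (nat_lit 56) (nat_lit 5) (nat_lit 55) (nat_lit 5) (nat_lit 528) (nat_lit 500) (nat_lit 172)))) (XT.nd (nat_lit 60372) (nat_lit 0) (nat_lit 2584) (XT.nd (nat_lit 60294) (nat_lit 0) (nat_lit 3116) (XT.lf (nat_lit 0) (nat_lit 15233387046363) (nat_lit 228) (nat_lit 12490723387223) (nat_lit 76) (nat_lit 4886253564855) (nat_lit 52) (nat_lit 5) (nat_lit 55) (nat_lit 5) (nat_lit 53) (nat_lit 4) (nat_lit 529) (nat_lit 500) (nat_lit 171)) (XT.lf (nat_lit 0) (nat_lit 4758952930857) (nat_lit 532) (nat_lit 31745170025) (nat_lit 532) (nat_lit 31745170025) (nat_lit 93) (nat_lit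 3) (nat_lit 100) (nat_lit 3) (nat_lit 100) (nat_lit 5) (nat_lit 501) (nat_lit 501) (nat_lit 198))) (XT.nd (nat_lit 78) (nat_lit 532) (nat_lit 0) (XT.lf (nat_lit 76) (nat_lit 4989255022815) (nat_lit 0) (nat_lit 5029358777322) (nat_lit 532) (nat_lit 2468867034) (nat_lit 94) (nat_lit 5) (nat_lit 93) (nat_lit 3) (nat_lit 100) (nat_lit 5) (nat_lit 502) (nat_lit 501) (nat_lit 197)) (XT.lf (nat_lit 76) (nat_lit 20395645823) (nat_lit 0) (nat_lit 107276419428) (nat_lit 608) (nat_lit 10299266718090) (nat_lit 87) (nat_lit 5) (nat_lit 86) (nat_lit 5) (nat_lit 94) (nat_lit 5) (nat_lit 503) (nat_lit 501) (nat_lit 196))))) (XT.nd (nat_lit 234) (nat_lit 380) (nat_lit 0) (XT.nd (nat_lit 78) (nat_lit 0) (nat_lit 0) (XT.lf (nat_lit 0) (nat_lit 534509751338) (nat_lit 532) (nat_lit 5220199669807) (nat_lit 608) (nat_lit 5089235328573) (nat_lit 87) (nat_lit 5) (nat_lit 94) (nat_lit 5) (nat_lit 95) (nat_lit 5)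 (nat_lit 504) (nat_lit 501) (nat_lit 195)) (XT.nd (nat_lit 78) (nat_lit 0) (nat_lit 76) (XT.lf (nat_lit 76) (nat_lit 398183632736) (nat_lit 0) (nat_lit 588073545964) (nat_lit 608) (nat_lit 10307064996594) (nat_lit 88) (nat_lit 5) (nat_lit 87) (nat_lit 5) (nat_lit 95) (nat_lit 5) (nat_lit 505) (nat_lit 501) (nat_lit 194)) (XT.lf (nat_lit 0) (nat_lit 1740636321652) (nat_lit 532) (nat_lit 5128078865464) (nat_lit 608) (nat_lit 4888615254090) (nat_lit 88) (nat_lit 5) (nat_lit 95) (nat_lit 5) (nat_lit 96) (nat_lit 5) (nat_lit 506) (nat_lit 501) (nat_lit 193)))) (XT.nd (nat_lit 156) (nat_lit 456) (nat_lit 0) (XT.nd (nat_lit 78) (nat_lit 0) (nat_lit 76) (XT.lf (nat_lit 76) (nat_lit 1142208861419) (nat_lit 0) (nat_lit 1455901722713) (nat_lit 608) (nat_lit 9656929201210) (nat_lit 89) (nat_lit 5) (nat_lit 88) (nat_lit 5) (nat_lit 96) (nat_lit 5) (nat_lit 507) (nat_lit 501) (nat_lit 192)) (XT.lf (nat_lit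 0) (nat_lit 3773613475573) (nat_lit 532) (nat_lit 4684810944639) (nat_lit 76) (nat_lit 4314187001760) (nat_lit 89) (nat_lit 5) (nat_lit 96) (nat_lit 5) (nat_lit 90) (nat_lit 5) (nat_lit 508) (nat_lit 501) (nat_lit 191))) (XT.nd (nat_lit 78) (nat_lit 0) (nat_lit 0) (XT.lf (nat_lit 0) (nat_lit 2336517049554) (nat_lit 532) (nat_lit 2800648469127) (nat_lit 608) (nat_lit 8186902557224) (nat_lit 82) (nat_lit 5) (nat_lit 89) (nat_lit 5) (nat_lit 90) (nat_lit 5) (nat_lit 509) (nat_lit 501) (nat_lit 190)) (XT.lf (nat_lit 0) (nat_lit 6820819354918) (nat_lit 608) (nat_lit 3806339943021) (nat_lit 76) (nat_lit 3275600553839) (nat_lit 82) (nat_lit 5) (nat_lit 90) (nat_lit 5) (nat_lit 83) (nat_lit 5) (nat_lit 510) (nat_lit 501) (nat_lit 189))))))) (XT.nd (nat_lit 1092) (nat_lit 380) (nat_lit 0) (XT.nd (nat_lit 546) (nat_lit 684) (nat_lit 0) (XT.nd (nat_lit 234) (nat_lit 532) (nat_lit 0) (XT.nd (nat_lit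 78) (nat_lit 228) (nat_lit 0) (XT.lf (nat_lit 0) (nat_lit 4080760056032) (nat_lit 228) (nat_lit 4729291935553) (nat_lit 304) (nat_lit 5704024058652) (nat_lit 79) (nat_lit 5) (nat_lit 82) (nat_lit 5) (nat_lit 83) (nat_lit 5) (nat_lit 511) (nat_lit 501) (nat_lit 188)) (XT.nd (nat_lit 78) (nat_lit 228) (nat_lit 0) (XT.lf (nat_lit 0) (nat_lit 11104650264770) (nat_lit 304) (nat_lit 2392828744153) (nat_lit 76) (nat_lit 1665120373604) (nat_lit 79) (nat_lit 5) (nat_lit 83) (nat_lit 5) (nat_lit 80) (nat_lit 5) (nat_lit 512) (nat_lit 501) (nat_lit 187)) (XT.lf (nat_lit 0) (nat_lit 6492857776500) (nat_lit 228) (nat_lit 7368950760525) (nat_lit 304) (nat_lit 1978876673398) (nat_lit 76) (nat_lit 5) (nat_lit 79) (nat_lit 5) (nat_lit 80) (nat_lit 5) (nat_lit 513) (nat_lit 501) (nat_lit 186)))) (XT.nd (nat_lit 156) (nat_lit 228) (nat_lit 0) (XT.nd (nat_lit 78) (nat_lit 228) (nat_lit 0) (XT.lf (nat_lit 0)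 (nat_lit 320312585929) (nat_lit 304) (nat_lit 350411640003) (nat_lit 76) (nat_lit 15896411010004) (nat_lit 75) (nat_lit 5) (nat_lit 79) (nat_lit 5) (nat_lit 76) (nat_lit 5) (nat_lit 514) (nat_lit 501) (nat_lit 185)) (XT.lf (nat_lit 0) (nat_lit 3097668661850) (nat_lit 304) (nat_lit 7688101862462) (nat_lit 76) (nat_lit 6529727394400) (nat_lit 72) (nat_lit 5) (nat_lit 76) (nat_lit 5) (nat_lit 73) (nat_lit 5) (nat_lit 515) (nat_lit 501) (nat_lit 184))) (XT.nd (nat_lit 78) (nat_lit 0) (nat_lit 0) (XT.lf (nat_lit 0) (nat_lit 2402927337497) (nat_lit 228) (nat_lit 3779327484162) (nat_lit 304) (nat_lit 11934671466627) (nat_lit 69) (nat_lit 5) (nat_lit 72) (nat_lit 5) (nat_lit 73) (nat_lit 5) (nat_lit 516) (nat_lit 501) (nat_lit 183)) (XT.lf (nat_lit 0) (nat_lit 9820366724913) (nat_lit 304) (nat_lit 5323736903782) (nat_lit 76) (nat_lit 3813824590678) (nat_lit 69) (nat_lit 5) (nat_lit 73) (nat_lit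 5) (nat_lit 70) (nat_lit 5) (nat_lit 517) (nat_lit 501) (nat_lit 182))))) (XT.nd (nat_lit 234) (nat_lit 304) (nat_lit 0) (XT.nd (nat_lit 78) (nat_lit 228) (nat_lit 0) (XT.lf (nat_lit 0) (nat_lit 6104977454278) (nat_lit 152) (nat_lit 7889539330959) (nat_lit 228) (nat_lit 5852094383325) (nat_lit 67) (nat_lit 5) (nat_lit 69) (nat_lit 5) (nat_lit 70) (nat_lit 5) (nat_lit 518) (nat_lit 501) (nat_lit 181)) (XT.nd (nat_lit 78) (nat_lit 228) (nat_lit 0) (XT.lf (nat_lit 0) (nat_lit 18650626672275) (nat_lit 228) (nat_lit 2046456746168) (nat_lit 76) (nat_lit 97463109491) (nat_lit 67) (nat_lit 5) (nat_lit 70) (nat_lit 5) (nat_lit 68) (nat_lit 5) (nat_lit 519) (nat_lit 501) (nat_lit 180)) (XT.lf (nat_lit 0) (nat_lit 2247659323176) (nat_lit 228) (nat_lit 10911831359351) (nat_lit 76) (nat_lit 8616858371693) (nat_lit 64) (nat_lit 5) (nat_lit 67) (nat_lit 5) (nat_lit 65) (nat_lit 5) (nat_lit 520) (nat_lit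 501) (nat_lit 179)))) (XT.nd (nat_lit 156) (nat_lit 152) (nat_lit 0) (XT.nd (nat_lit 78) (nat_lit 0) (nat_lit 0) (XT.lf (nat_lit 0) (nat_lit 2142575128472) (nat_lit 152) (nat_lit 4841098431092) (nat_lit 228) (nat_lit 15839852438109) (nat_lit 62) (nat_lit 5) (nat_lit 64) (nat_lit 5) (nat_lit 65) (nat_lit 5) (nat_lit 521) (nat_lit 501) (nat_lit 178)) (XT.lf (nat_lit 0) (nat_lit 12504300663988) (nat_lit 228) (nat_lit 7176092461017) (nat_lit 76) (nat_lit 4241625433265) (nat_lit 62) (nat_lit 5) (nat_lit 65) (nat_lit 5) (nat_lit 63) (nat_lit 5) (nat_lit 522) (nat_lit 501) (nat_lit 177))) (XT.nd (nat_lit 78) (nat_lit 0) (nat_lit 0) (XT.lf (nat_lit 0) (nat_lit 7666943361650) (nat_lit 152) (nat_lit 11109767563724) (nat_lit 228) (nat_lit 6306868959253) (nat_lit 60) (nat_lit 5) (nat_lit 62) (nat_lit 5) (nat_lit 63) (nat_lit 5) (nat_lit 523) (nat_lit 501) (nat_lit 176)) (XT.lf (nat_lit 0) (nat_lit 24105532786919)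 (nat_lit 152) (nat_lit 1641588305742) (nat_lit 228) (nat_lit 575248457633) (nat_lit 60) (nat_lit 5) (nat_lit 62) (nat_lit 5) (nat_lit 63) (nat_lit 5) (nat_lit 524) (nat_lit 501) (nat_lit 175)))))) (XT.nd (nat_lit 60918) (nat_lit 0) (nat_lit 1824) (XT.nd (nat_lit 234) (nat_lit 76) (nat_lit 0) (XT.nd (nat_lit 78) (nat_lit 152) (nat_lit 0) (XT.lf (nat_lit 0) (nat_lit 5909271874693) (nat_lit 152) (nat_lit 13035688487961) (nat_lit 76) (nat_lit 8658478919852) (nat_lit 58) (nat_lit 5) (nat_lit 60) (nat_lit 5) (nat_lit 59) (nat_lit 5) (nat_lit 525) (nat_lit 501) (nat_lit 174)) (XT.nd (nat_lit 78) (nat_lit 0) (nat_lit 0) (XT.lf (nat_lit 0) (nat_lit 3978920408275) (nat_lit 152) (nat_lit 9103073445611) (nat_lit 228) (nat_lit 15887763947659) (nat_lit 56) (nat_lit 5) (nat_lit 58) (nat_lit 5) (nat_lit 59) (nat_lit 5) (nat_lit 526) (nat_lit 501) (nat_lit 173)) (XT.lf (nat_lit 0) (nat_lit 21230914338803)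 (nat_lit 228) (nat_lit 7366781047974) (nat_lit 76) (nat_lit 1815495955538) (nat_lit 56) (nat_lit 5) (nat_lit 59) (nat_lit 5) (nat_lit 57) (nat_lit 4) (nat_lit 527) (nat_lit 501) (nat_lit 172)))) (XT.nd (nat_lit 60528) (nat_lit 0) (nat_lit 2356) (XT.nd (nat_lit 60450) (nat_lit 0) (nat_lit 2888) (XT.lf (nat_lit 0) (nat_lit 12032679710560) (nat_lit 76) (nat_lit 18524898454479) (nat_lit 152) (nat_lit 1372455025105) (nat_lit 55) (nat_lit 5) (nat_lit 56) (nat_lit 5) (nat_lit 57) (nat_lit 4) (nat_lit 528) (nat_lit 501) (nat_lit 171)) (XT.lf (nat_lit 0) (nat_lit 5139669165974) (nat_lit 532) (nat_lit 34284783277) (nat_lit 532) (nat_lit 34284783277) (nat_lit 93) (nat_lit 3) (nat_lit 100) (nat_lit 3) (nat_lit 100) (nat_lit 5) (nat_lit 502) (nat_lit 502) (nat_lit 196))) (XT.nd (nat_lit 78) (nat_lit 532) (nat_lit 0) (XT.lf (nat_lit 76) (nat_lit 5388395425322) (nat_lit 0) (nat_lit 5431707480042) (nat_lit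 532) (nat_lit 2666375082) (nat_lit 94) (nat_lit 5) (nat_lit 93) (nat_lit 3) (nat_lit 100) (nat_lit 5) (nat_lit 503) (nat_lit 502) (nat_lit 195)) (XT.lf (nat_lit 76) (nat_lit 22027298218) (nat_lit 0) (nat_lit 115858533426) (nat_lit 608) (nat_lit 11123208054270) (nat_lit 87) (nat_lit 5) (nat_lit 86) (nat_lit 5) (nat_lit 94) (nat_lit 5) (nat_lit 504) (nat_lit 502) (nat_lit 194))))) (XT.nd (nat_lit 312) (nat_lit 608) (nat_lit 0) (XT.nd (nat_lit 156) (nat_lit 0) (nat_lit 76) (XT.nd (nat_lit 78) (nat_lit 0) (nat_lit 0) (XT.lf (nat_lit 0) (nat_lit 577270532522) (nat_lit 532) (nat_lit 5637815642619) (nat_lit 608) (nat_lit 5496374154468) (nat_lit 87) (nat_lit 5) (nat_lit 94) (nat_lit 5) (nat_lit 95) (nat_lit 5) (nat_lit 505) (nat_lit 502) (nat_lit 193)) (XT.lf (nat_lit 76) (nat_lit 430038324108) (nat_lit 0) (nat_lit 635119429904) (nat_lit 608) (nat_lit 11131630195225) (nat_lit 88) (nat_lit 5) (nat_lit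 87) (nat_lit 5) (nat_lit 95) (nat_lit 5) (nat_lit 506) (nat_lit 502) (nat_lit 192))) (XT.nd (nat_lit 78) (nat_lit 0) (nat_lit 0) (XT.lf (nat_lit 0) (nat_lit 1879887228319) (nat_lit 532) (nat_lit 5538325173923) (nat_lit 608) (nat_lit 5279704474186) (nat_lit 88) (nat_lit 5) (nat_lit 95) (nat_lit 5) (nat_lit 96) (nat_lit 5) (nat_lit 507) (nat_lit 502) (nat_lit 191)) (XT.lf (nat_lit 76) (nat_lit 1233585571091) (nat_lit 0) (nat_lit 1572373860655) (nat_lit 608) (nat_lit 10429483536353) (nat_lit 89) (nat_lit 5) (nat_lit 88) (nat_lit 5) (nat_lit 96) (nat_lit 5) (nat_lit 508) (nat_lit 502) (nat_lit 190)))) (XT.nd (nat_lit 156) (nat_lit 228) (nat_lit 0) (XT.nd (nat_lit 78) (nat_lit 532) (nat_lit 0) (XT.lf (nat_lit 0) (nat_lit 4075502554434) (nat_lit 532) (nat_lit 5059595819439) (nat_lit 76) (nat_lit 4659321961791) (nat_lit 89) (nat_lit 5) (nat_lit 96) (nat_lit 5) (nat_lit 90) (nat_lit 5) (nat_lit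 509) (nat_lit 502) (nat_lit 189)) (XT.lf (nat_lit 0) (nat_lit 2523438414269) (nat_lit 532) (nat_lit 3024700346679) (nat_lit 608) (nat_lit 8841854760967) (nat_lit 82) (nat_lit 5) (nat_lit 89) (nat_lit 5) (nat_lit 90) (nat_lit 5) (nat_lit 510) (nat_lit 502) (nat_lit 188))) (XT.nd (nat_lit 78) (nat_lit 228) (nat_lit 0) (XT.lf (nat_lit 0) (nat_lit 7366484904027) (nat_lit 608) (nat_lit 4110847137709) (nat_lit 76) (nat_lit 3537648598127) (nat_lit 82) (nat_lit 5) (nat_lit 90) (nat_lit 5) (nat_lit 83) (nat_lit 5) (nat_lit 511) (nat_lit 502) (nat_lit 187)) (XT.lf (nat_lit 0) (nat_lit 4407220861249) (nat_lit 228) (nat_lit 5107635290342) (nat_lit 304) (nat_lit 6160345982610) (nat_lit 79) (nat_lit 5) (nat_lit 82) (nat_lit 5) (nat_lit 83) (nat_lit 5) (nat_lit 512) (nat_lit 502) (nat_lit 186))))))))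
noncomputable def xc250 : XT := (XT.nd (nat_lit 62634) (nat_lit 0) (nat_lit 0) (XT.nd (nat_lit 1092) (nat_lit 152) (nat_lit 0) (XT.nd (nat_lit 546) (nat_lit 684) (nat_lit 0) (XT.nd (nat_lit 234) (nat_lit 608) (nat_lit 0) (XT.nd (nat_lit 78) (nat_lit 304) (nat_lit 0) (XT.lf (nat_lit 0) (nat_lit 11993022286582) (nat_lit 304) (nat_lit 2584255042956) (nat_lit 76) (nat_lit 1798330003540) (nat_lit 79) (nat_lit 5) (nat_lit 83) (nat_lit 5) (nat_lit 80) (nat_lit 5) (nat_lit 513) (nat_lit 502) (nat_lit 185)) (XT.nd (nat_lit 78) (nat_lit 76) (nat_lit 0) (XT.lf (nat_lit 0) (nat_lit 7012286399331) (nat_lit 228) (nat_lit 7958466821258) (nat_lit 304) (nat_lit 2137186806620) (nat_lit 76) (nat_lit 5) (nat_lit 79) (nat_lit 5) (nat_lit 80) (nat_lit 5) (nat_lit 514) (nat_lit 502) (nat_lit 184)) (XT.lf (nat_lit 0) (nat_lit 345937593374) (nat_lit 304) (nat_lit 378444570515) (nat_lit 76) (nat_lit 17168123890876)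 (nat_lit 75) (nat_lit 5) (nat_lit 79) (nat_lit 5) (nat_lit 76) (nat_lit 5) (nat_lit 515) (nat_lit 502) (nat_lit 183)))) (XT.nd (nat_lit 156) (nat_lit 152) (nat_lit 0) (XT.nd (nat_lit 78) (nat_lit 228) (nat_lit 0) (XT.lf (nat_lit 0) (nat_lit 3345482155346) (nat_lit 304) (nat_lit 8303150010748) (nat_lit 76) (nat_lit 7052105586072) (nat_lit 72) (nat_lit 5) (nat_lit 76) (nat_lit 5) (nat_lit 73) (nat_lit 5) (nat_lit 516) (nat_lit 502) (nat_lit 182)) (XT.lf (nat_lit 0) (nat_lit 2595161525190) (nat_lit 228) (nat_lit 4081673682726) (nat_lit 304) (nat_lit 12889445183391) (nat_lit 69) (nat_lit 5) (nat_lit 72) (nat_lit 5) (nat_lit 73) (nat_lit 5) (nat_lit 517) (nat_lit 502) (nat_lit 181))) (XT.nd (nat_lit 78) (nat_lit 152) (nat_lit 0) (XT.lf (nat_lit 0) (nat_lit 10605996063395) (nat_lit 304) (nat_lit 5749635855408) (nat_lit 76) (nat_lit 4118930558081) (nat_lit 69) (nat_lit 5) (nat_lit 73) (nat_lit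 5) (nat_lit 70) (nat_lit 5) (nat_lit 518) (nat_lit 502) (nat_lit 180)) (XT.lf (nat_lit 0) (nat_lit 6593375651280) (nat_lit 152) (nat_lit 8520702477245) (nat_lit 228) (nat_lit 6320261933485) (nat_lit 67) (nat_lit 5) (nat_lit 69) (nat_lit 5) (nat_lit 70) (nat_lit 5) (nat_lit 519) (nat_lit 502) (nat_lit 179))))) (XT.nd (nat_lit 234) (nat_lit 304) (nat_lit 0) (XT.nd (nat_lit 78) (nat_lit 380) (nat_lit 0) (XT.lf (nat_lit 0) (nat_lit 20142676806496) (nat_lit 228) (nat_lit 2210173285220) (nat_lit 76) (nat_lit 105260158419) (nat_lit 67) (nat_lit 5) (nat_lit 70) (nat_lit 5) (nat_lit 68) (nat_lit 5) (nat_lit 520) (nat_lit 502) (nat_lit 178)) (XT.nd (nat_lit 78) (nat_lit 152) (nat_lit 0) (XT.lf (nat_lit 0) (nat_lit 2427472069462) (nat_lit 228) (nat_lit 11784777867451) (nat_lit 76) (nat_lit 9306207041610) (nat_lit 64) (nat_lit 5) (nat_lit 67) (nat_lit 5) (nat_lit 65) (nat_lit 5) (nat_lit 521) (nat_lit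 502) (nat_lit 177)) (XT.lf (nat_lit 0) (nat_lit 2313981139381) (nat_lit 152) (nat_lit 5228386305362) (nat_lit 228) (nat_lit 17107040632709) (nat_lit 62) (nat_lit 5) (nat_lit 64) (nat_lit 5) (nat_lit 65) (nat_lit 5) (nat_lit 522) (nat_lit 502) (nat_lit 176)))) (XT.nd (nat_lit 156) (nat_lit 152) (nat_lit 0) (XT.nd (nat_lit 78) (nat_lit 152) (nat_lit 0) (XT.lf (nat_lit 0) (nat_lit 13504644717496) (nat_lit 228) (nat_lit 7750179857288) (nat_lit 76) (nat_lit 4580955468117) (nat_lit 62) (nat_lit 5) (nat_lit 65) (nat_lit 5) (nat_lit 63) (nat_lit 5) (nat_lit 523) (nat_lit 502) (nat_lit 175)) (XT.lf (nat_lit 0) (nat_lit 8280298831177) (nat_lit 152) (nat_lit 11998548968601) (nat_lit 228) (nat_lit 6811418475589) (nat_lit 60) (nat_lit 5) (nat_lit 62) (nat_lit 5) (nat_lit 63) (nat_lit 5) (nat_lit 524) (nat_lit 502) (nat_lit 174))) (XT.nd (nat_lit 78) (nat_lit 152) (nat_lit 0) (XT.lf (nat_lit 0) (nat_lit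 26033975410424) (nat_lit 152) (nat_lit 1772915369997) (nat_lit 228) (nat_lit 621268333869) (nat_lit 60) (nat_lit 5) (nat_lit 62) (nat_lit 5) (nat_lit 63) (nat_lit 5) (nat_lit 525) (nat_lit 502) (nat_lit 173)) (XT.lf (nat_lit 0) (nat_lit 6382013625016) (nat_lit 152) (nat_lit 14078543566420) (nat_lit 76) (nat_lit 9351157233642) (nat_lit 58) (nat_lit 5) (nat_lit 60) (nat_lit 5) (nat_lit 59) (nat_lit 5) (nat_lit 526) (nat_lit 502) (nat_lit 172)))))) (XT.nd (nat_lit 60996) (nat_lit 0) (nat_lit 1748) (XT.nd (nat_lit 60684) (nat_lit 0) (nat_lit 2280) (XT.nd (nat_lit 78) (nat_lit 0) (nat_lit 0) (XT.lf (nat_lit 0) (nat_lit 4297234041500) (nat_lit 152) (nat_lit 9831319321032) (nat_lit 228) (nat_lit 17158785063109) (nat_lit 56) (nat_lit 5) (nat_lit 58) (nat_lit 5) (nat_lit 59) (nat_lit 5) (nat_lit 527) (nat_lit 502) (nat_lit 171)) (XT.nd (nat_lit 60528) (nat_lit 0) (nat_lit 2812) (XT.lf (nat_lit 0)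 (nat_lit 22929387486223) (nat_lit 228) (nat_lit 7956123531270) (nat_lit 76) (nat_lit 1960735632182) (nat_lit 56) (nat_lit 5) (nat_lit 59) (nat_lit 5) (nat_lit 57) (nat_lit 4) (nat_lit 528) (nat_lit 502) (nat_lit 170)) (XT.lf (nat_lit 0) (nat_lit 5550842699807) (nat_lit 532) (nat_lit 37027565639) (nat_lit 532) (nat_lit 37027565639) (nat_lit 93) (nat_lit 3) (nat_lit 100) (nat_lit 3) (nat_lit 100) (nat_lit 5) (nat_lit 503) (nat_lit 503) (nat_lit 194)))) (XT.nd (nat_lit 156) (nat_lit 0) (nat_lit 76) (XT.nd (nat_lit 78) (nat_lit 532) (nat_lit 0) (XT.lf (nat_lit 76) (nat_lit 5819467059933) (nat_lit 0) (nat_lit 5866244078904) (nat_lit 532) (nat_lit 2879683962) (nat_lit 94) (nat_lit 5) (nat_lit 93) (nat_lit 3) (nat_lit 100) (nat_lit 5) (nat_lit 504) (nat_lit 503) (nat_lit 193)) (XT.lf (nat_lit 76) (nat_lit 23789482701) (nat_lit 0) (nat_lit 125127216481) (nat_lit 608) (nat_lit 12013064697524) (nat_lit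 87) (nat_lit 5) (nat_lit 86) (nat_lit 5) (nat_lit 94) (nat_lit 5) (nat_lit 505) (nat_lit 503) (nat_lit 192))) (XT.nd (nat_lit 78) (nat_lit 0) (nat_lit 0) (XT.lf (nat_lit 0) (nat_lit 623452176048) (nat_lit 532) (nat_lit 6088840893366) (nat_lit 608) (nat_lit 5936084086491) (nat_lit 87) (nat_lit 5) (nat_lit 94) (nat_lit 5) (nat_lit 95) (nat_lit 5) (nat_lit 506) (nat_lit 503) (nat_lit 191)) (XT.lf (nat_lit 76) (nat_lit 464441390683) (nat_lit 0) (nat_lit 685928984521) (nat_lit 608) (nat_lit 12022160609903) (nat_lit 88) (nat_lit 5) (nat_lit 87) (nat_lit 5) (nat_lit 95) (nat_lit 5) (nat_lit 507) (nat_lit 503) (nat_lit 190))))) (XT.nd (nat_lit 234) (nat_lit 684) (nat_lit 0) (XT.nd (nat_lit 78) (nat_lit 0) (nat_lit 0) (XT.lf (nat_lit 0) (nat_lit 2030278207385) (nat_lit 532) (nat_lit 5981391187170) (nat_lit 608) (nat_lit 5702080831923) (nat_lit 88) (nat_lit 5) (nat_lit 95) (nat_lit 5) (nat_lit 96)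 (nat_lit 5) (nat_lit 508) (nat_lit 503) (nat_lit 189)) (XT.nd (nat_lit 78) (nat_lit 0) (nat_lit 76) (XT.lf (nat_lit 76) (nat_lit 1332272417428) (nat_lit 0) (nat_lit 1698163769614) (nat_lit 608) (nat_lit 11263842218443) (nat_lit 89) (nat_lit 5) (nat_lit 88) (nat_lit 5) (nat_lit 96) (nat_lit 5) (nat_lit 509) (nat_lit 503) (nat_lit 188)) (XT.lf (nat_lit 0) (nat_lit 4401542759488) (nat_lit 532) (nat_lit 5464363484333) (nat_lit 76) (nat_lit 5032067718641) (nat_lit 89) (nat_lit 5) (nat_lit 96) (nat_lit 5) (nat_lit 90) (nat_lit 5) (nat_lit 510) (nat_lit 503) (nat_lit 187)))) (XT.nd (nat_lit 156) (nat_lit 228) (nat_lit 0) (XT.nd (nat_lit 78) (nat_lit 0) (nat_lit 0) (XT.lf (nat_lit 0) (nat_lit 2725313488055) (nat_lit 532) (nat_lit 3266676374432) (nat_lit 608) (nat_lit 9549203141129) (nat_lit 82) (nat_lit 5) (nat_lit 89) (nat_lit 5) (nat_lit 90) (nat_lit 5) (nat_lit 511) (nat_lit 503) (nat_lit 186))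 (XT.lf (nat_lit 0) (nat_lit 7955803696962) (nat_lit 608) (nat_lit 4439714908080) (nat_lit 76) (nat_lit 3820660485961) (nat_lit 82) (nat_lit 5) (nat_lit 90) (nat_lit 5) (nat_lit 83) (nat_lit 5) (nat_lit 512) (nat_lit 503) (nat_lit 185))) (XT.nd (nat_lit 78) (nat_lit 0) (nat_lit 0) (XT.lf (nat_lit 0) (nat_lit 4759798530778) (nat_lit 228) (nat_lit 5516246113523) (nat_lit 304) (nat_lit 6653173660590) (nat_lit 79) (nat_lit 5) (nat_lit 82) (nat_lit 5) (nat_lit 83) (nat_lit 5) (nat_lit 513) (nat_lit 503) (nat_lit 184)) (XT.lf (nat_lit 0) (nat_lit 12952464070049) (nat_lit 304) (nat_lit 2790995445768) (nat_lit 76) (nat_lit 1942196403865) (nat_lit 79) (nat_lit 5) (nat_lit 83) (nat_lit 5) (nat_lit 80) (nat_lit 5) (nat_lit 514) (nat_lit 503) (nat_lit 183))))))) (XT.nd (nat_lit 61620) (nat_lit 0) (nat_lit 1216) (XT.nd (nat_lit 546) (nat_lit 836) (nat_lit 0) (XT.nd (nat_lit 234) (nat_lit 380) (nat_lit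 0) (XT.nd (nat_lit 78) (nat_lit 304) (nat_lit 0) (XT.lf (nat_lit 0) (nat_lit 7573269311886) (nat_lit 228) (nat_lit 8595144166864) (nat_lit 304) (nat_lit 2308161750594) (nat_lit 76) (nat_lit 5) (nat_lit 79) (nat_lit 5) (nat_lit 80) (nat_lit 5) (nat_lit 515) (nat_lit 503) (nat_lit 182)) (XT.nd (nat_lit 78) (nat_lit 228) (nat_lit 0) (XT.lf (nat_lit 0) (nat_lit 373612601333) (nat_lit 304) (nat_lit 408720135567) (nat_lit 76) (nat_lit 18541573802207) (nat_lit 75) (nat_lit 5) (nat_lit 79) (nat_lit 5) (nat_lit 76) (nat_lit 5) (nat_lit 516) (nat_lit 503) (nat_lit 181)) (XT.lf (nat_lit 0) (nat_lit 3613120728243) (nat_lit 304) (nat_lit 8967402010998) (nat_lit 76) (nat_lit 7616274033060) (nat_lit 72) (nat_lit 5) (nat_lit 76) (nat_lit 5) (nat_lit 73) (nat_lit 5) (nat_lit 517) (nat_lit 503) (nat_lit 180)))) (XT.nd (nat_lit 156) (nat_lit 152) (nat_lit 0) (XT.nd (nat_lit 78) (nat_lit 0) (nat_lit 0) (XT.lf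 (nat_lit 0) (nat_lit 2802774447800) (nat_lit 228) (nat_lit 4408207577199) (nat_lit 304) (nat_lit 13920600797577) (nat_lit 69) (nat_lit 5) (nat_lit 72) (nat_lit 5) (nat_lit 73) (nat_lit 5) (nat_lit 518) (nat_lit 503) (nat_lit 179)) (XT.lf (nat_lit 0) (nat_lit 11454475748886) (nat_lit 304) (nat_lit 6209606723260) (nat_lit 76) (nat_lit 4448445002855) (nat_lit 69) (nat_lit 5) (nat_lit 73) (nat_lit 5) (nat_lit 70) (nat_lit 5) (nat_lit 519) (nat_lit 503) (nat_lit 178))) (XT.nd (nat_lit 78) (nat_lit 0) (nat_lit 0) (XT.lf (nat_lit 0) (nat_lit 7120845703948) (nat_lit 152) (nat_lit 9202358675260) (nat_lit 228) (nat_lit 6825882887730) (nat_lit 67) (nat_lit 5) (nat_lit 69) (nat_lit 5) (nat_lit 70) (nat_lit 5) (nat_lit 520) (nat_lit 503) (nat_lit 177)) (XT.lf (nat_lit 0) (nat_lit 21754090951391) (nat_lit 228) (nat_lit 2386987147488) (nat_lit 76) (nat_lit 113680971237) (nat_lit 67) (nat_lit 5) (nat_lit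 70) (nat_lit 5) (nat_lit 68) (nat_lit 5) (nat_lit 521) (nat_lit 503) (nat_lit 176))))) (XT.nd (nat_lit 234) (nat_lit 456) (nat_lit 0) (XT.nd (nat_lit 78) (nat_lit 152) (nat_lit 0) (XT.lf (nat_lit 0) (nat_lit 2621669835389) (nat_lit 228) (nat_lit 12727560096292) (nat_lit 76) (nat_lit 10050703605095) (nat_lit 64) (nat_lit 5) (nat_lit 67) (nat_lit 5) (nat_lit 65) (nat_lit 5) (nat_lit 522) (nat_lit 503) (nat_lit 175)) (XT.nd (nat_lit 78) (nat_lit 0) (nat_lit 0) (XT.lf (nat_lit 0) (nat_lit 2499099631073) (nat_lit 152) (nat_lit 5646657209605) (nat_lit 228) (nat_lit 18475603882942) (nat_lit 62) (nat_lit 5) (nat_lit 64) (nat_lit 5) (nat_lit 65) (nat_lit 5) (nat_lit 523) (nat_lit 503) (nat_lit 174)) (XT.lf (nat_lit 0) (nat_lit 14585016295229) (nat_lit 228) (nat_lit 8370194245347) (nat_lit 76) (nat_lit 4947431905730) (nat_lit 62) (nat_lit 5) (nat_lit 65) (nat_lit 5) (nat_lit 63) (nat_lit 5) (nat_lit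 524) (nat_lit 503) (nat_lit 173)))) (XT.nd (nat_lit 156) (nat_lit 304) (nat_lit 0) (XT.nd (nat_lit 78) (nat_lit 0) (nat_lit 0) (XT.lf (nat_lit 0) (nat_lit 8942722738182) (nat_lit 152) (nat_lit 12958432885900) (nat_lit 228) (nat_lit 7356331953289) (nat_lit 60) (nat_lit 5) (nat_lit 62) (nat_lit 5) (nat_lit 63) (nat_lit 5) (nat_lit 525) (nat_lit 503) (nat_lit 172)) (XT.lf (nat_lit 0) (nat_lit 28116693443730) (nat_lit 152) (nat_lit 1914748599421) (nat_lit 228) (nat_lit 670969800258) (nat_lit 60) (nat_lit 5) (nat_lit 62) (nat_lit 5) (nat_lit 63) (nat_lit 5) (nat_lit 526) (nat_lit 503) (nat_lit 171))) (XT.nd (nat_lit 78) (nat_lit 152) (nat_lit 0) (XT.lf (nat_lit 0) (nat_lit 6892574715316) (nat_lit 152) (nat_lit 15204827051239) (nat_lit 76) (nat_lit 10099249812507) (nat_lit 58) (nat_lit 5) (nat_lit 60) (nat_lit 5) (nat_lit 59) (nat_lit 5) (nat_lit 527) (nat_lit 503) (nat_lit 170)) (XT.lf (nat_lit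 0) (nat_lit 4641012765303) (nat_lit 152) (nat_lit 10617824866520) (nat_lit 228) (nat_lit 18531487867847) (nat_lit 56) (nat_lit 5) (nat_lit 58) (nat_lit 5) (nat_lit 59) (nat_lit 5) (nat_lit 528) (nat_lit 503) (nat_lit 169)))))) (XT.nd (nat_lit 546) (nat_lit 1064) (nat_lit 0) (XT.nd (nat_lit 234) (nat_lit 0) (nat_lit 76) (XT.nd (nat_lit 78) (nat_lit 532) (nat_lit 0) (XT.lf (nat_lit 0) (nat_lit 5994910116268) (nat_lit 532) (nat_lit 39989770633) (nat_lit 532) (nat_lit 39989770633) (nat_lit 93) (nat_lit 3) (nat_lit 100) (nat_lit 3) (nat_lit 100) (nat_lit 5) (nat_lit 504) (nat_lit 504) (nat_lit 192)) (XT.nd (nat_lit 78) (nat_lit 532) (nat_lit 0) (XT.lf (nat_lit 76) (nat_lit 6285024425230) (nat_lit 0) (nat_lit 6335543605609) (nat_lit 532) (nat_lit 3110057713) (nat_lit 94) (nat_lit 5) (nat_lit 93) (nat_lit 3) (nat_lit 100) (nat_lit 5) (nat_lit 505) (nat_lit 504) (nat_lit 191)) (XT.lf (nat_lit 76)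 (nat_lit 25692641854) (nat_lit 0) (nat_lit 135137394126) (nat_lit 608) (nat_lit 12974109872394) (nat_lit 87) (nat_lit 5) (nat_lit 86) (nat_lit 5) (nat_lit 94) (nat_lit 5) (nat_lit 506) (nat_lit 504) (nat_lit 190)))) (XT.nd (nat_lit 156) (nat_lit 0) (nat_lit 76) (XT.nd (nat_lit 78) (nat_lit 0) (nat_lit 0) (XT.lf (nat_lit 0) (nat_lit 673328350923) (nat_lit 532) (nat_lit 6575948164268) (nat_lit 608) (nat_lit 6410970813123) (nat_lit 87) (nat_lit 5) (nat_lit 94) (nat_lit 5) (nat_lit 95) (nat_lit 5) (nat_lit 507) (nat_lit 504) (nat_lit 189)) (XT.lf (nat_lit 76) (nat_lit 501596702491) (nat_lit 0) (nat_lit 740803303476) (nat_lit 608) (nat_lit 12983933457889) (nat_lit 88) (nat_lit 5) (nat_lit 87) (nat_lit 5) (nat_lit 95) (nat_lit 5) (nat_lit 508) (nat_lit 504) (nat_lit 188))) (XT.nd (nat_lit 78) (nat_lit 0) (nat_lit 0) (XT.lf (nat_lit 0) (nat_lit 2192700464663) (nat_lit 532) (nat_lit 6459902481571)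 (nat_lit 608) (nat_lit 6158247298307) (nat_lit 88) (nat_lit 5) (nat_lit 95) (nat_lit 5) (nat_lit 96) (nat_lit 5) (nat_lit 509) (nat_lit 504) (nat_lit 187)) (XT.lf (nat_lit 76) (nat_lit 1438854211380) (nat_lit 0) (nat_lit 1834016871275) (nat_lit 608) (nat_lit 12164949595218) (nat_lit 89) (nat_lit 5) (nat_lit 88) (nat_lit 5) (nat_lit 96) (nat_lit 5) (nat_lit 510) (nat_lit 504) (nat_lit 186))))) (XT.nd (nat_lit 312) (nat_lit 532) (nat_lit 0) (XT.nd (nat_lit 156) (nat_lit 228) (nat_lit 0) (XT.nd (nat_lit 78) (nat_lit 532) (nat_lit 0) (XT.lf (nat_lit 0) (nat_lit 4753666180846) (nat_lit 532) (nat_lit 5901512562514) (nat_lit 76) (nat_lit 5434633136051) (nat_lit 89) (nat_lit 5) (nat_lit 96) (nat_lit 5) (nat_lit 90) (nat_lit 5) (nat_lit 511) (nat_lit 504) (nat_lit 185)) (XT.lf (nat_lit 0) (nat_lit 2943338567652) (nat_lit 532) (nat_lit 3528010484402) (nat_lit 608) (nat_lit 10313139391805) (nat_lit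 82) (nat_lit 5) (nat_lit 89) (nat_lit 5) (nat_lit 90) (nat_lit 5) (nat_lit 512) (nat_lit 504) (nat_lit 184))) (XT.nd (nat_lit 78) (nat_lit 228) (nat_lit 0) (XT.lf (nat_lit 0) (nat_lit 8592267993244) (nat_lit 608) (nat_lit 4794892100172) (nat_lit 76) (nat_lit 4126313324824) (nat_lit 82) (nat_lit 5) (nat_lit 90) (nat_lit 5) (nat_lit 83) (nat_lit 5) (nat_lit 513) (nat_lit 504) (nat_lit 183)) (XT.lf (nat_lit 0) (nat_lit 5140582413780) (nat_lit 228) (nat_lit 5957545802565) (nat_lit 304) (nat_lit 7185427552897) (nat_lit 79) (nat_lit 5) (nat_lit 82) (nat_lit 5) (nat_lit 83) (nat_lit 5) (nat_lit 514) (nat_lit 504) (nat_lit 182)))) (XT.nd (nat_lit 156) (nat_lit 304) (nat_lit 0) (XT.nd (nat_lit 78) (nat_lit 228) (nat_lit 0) (XT.lf (nat_lit 0) (nat_lit 13988661196117) (nat_lit 304) (nat_lit 3014275080893) (nat_lit 76) (nat_lit 2097572116209) (nat_lit 79) (nat_lit 5) (nat_lit 83) (nat_lit 5) (nat_lit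 80) (nat_lit 5) (nat_lit 515) (nat_lit 504) (nat_lit 181)) (XT.lf (nat_lit 0) (nat_lit 8179130857360) (nat_lit 228) (nat_lit 9282755700133) (nat_lit 304) (nat_lit 2492814690164) (nat_lit 76) (nat_lit 5) (nat_lit 79) (nat_lit 5) (nat_lit 80) (nat_lit 5) (nat_lit 516) (nat_lit 504) (nat_lit 180))) (XT.nd (nat_lit 78) (nat_lit 228) (nat_lit 0) (XT.lf (nat_lit 0) (nat_lit 403501609860) (nat_lit 304) (nat_lit 441417745906) (nat_lit 76) (nat_lit 20024899706436) (nat_lit 75) (nat_lit 5) (nat_lit 79) (nat_lit 5) (nat_lit 76) (nat_lit 5) (nat_lit 517) (nat_lit 504) (nat_lit 179)) (XT.lf (nat_lit 0) (nat_lit 3902170386905) (nat_lit 304) (nat_lit 9684794171355) (nat_lit 76) (nat_lit 8225575955793) (nat_lit 72) (nat_lit 5) (nat_lit 76) (nat_lit 5) (nat_lit 73) (nat_lit 5) (nat_lit 518) (nat_lit 504) (nat_lit 178))))))))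
noncomputable def xc251 : XT := (XT.nd (nat_lit 62790) (nat_lit 0) (nat_lit 152) (XT.nd (nat_lit 61698) (nat_lit 0) (nat_lit 684) (XT.nd (nat_lit 546) (nat_lit 304) (nat_lit 0) (XT.nd (nat_lit 234) (nat_lit 380) (nat_lit 0) (XT.nd (nat_lit 78) (nat_lit 152) (nat_lit 0) (XT.lf (nat_lit 0) (nat_lit 3026996404134) (nat_lit 228) (nat_lit 4760864183250) (nat_lit 304) (nat_lit 15034248860967) (nat_lit 69) (nat_lit 5) (nat_lit 72) (nat_lit 5) (nat_lit 73) (nat_lit 5) (nat_lit 519) (nat_lit 504) (nat_lit 177)) (XT.nd (nat_lit 78) (nat_lit 152) (nat_lit 0) (XT.lf (nat_lit 0) (nat_lit 12370833809156) (nat_lit 304) (nat_lit 6706375260623) (nat_lit 76) (nat_lit 4804320603193) (nat_lit 69) (nat_lit 5) (nat_lit 73) (nat_lit 5) (nat_lit 70) (nat_lit 5) (nat_lit 520) (nat_lit 504) (nat_lit 176)) (XT.lf (nat_lit 0) (nat_lit 7690513360749) (nat_lit 152) (nat_lit 9938547369141) (nat_lit 228) (nat_lit 7371953518377)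 (nat_lit 67) (nat_lit 5) (nat_lit 69) (nat_lit 5) (nat_lit 70) (nat_lit 5) (nat_lit 521) (nat_lit 504) (nat_lit 175)))) (XT.nd (nat_lit 156) (nat_lit 152) (nat_lit 0) (XT.nd (nat_lit 78) (nat_lit 228) (nat_lit 0) (XT.lf (nat_lit 0) (nat_lit 23494418227824) (nat_lit 228) (nat_lit 2577946118816) (nat_lit 76) (nat_lit 122775449060) (nat_lit 67) (nat_lit 5) (nat_lit 70) (nat_lit 5) (nat_lit 68) (nat_lit 5) (nat_lit 522) (nat_lit 504) (nat_lit 174)) (XT.lf (nat_lit 0) (nat_lit 2831403422537) (nat_lit 228) (nat_lit 13745764903519) (nat_lit 76) (nat_lit 10854759893636) (nat_lit 64) (nat_lit 5) (nat_lit 67) (nat_lit 5) (nat_lit 65) (nat_lit 5) (nat_lit 523) (nat_lit 504) (nat_lit 173))) (XT.nd (nat_lit 78) (nat_lit 0) (nat_lit 0) (XT.lf (nat_lit 0) (nat_lit 2699027602023) (nat_lit 152) (nat_lit 6098389786215) (nat_lit 228) (nat_lit 19953652193248) (nat_lit 62) (nat_lit 5) (nat_lit 64) (nat_lit 5)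 (nat_lit 65) (nat_lit 5) (nat_lit 524) (nat_lit 504) (nat_lit 172)) (XT.lf (nat_lit 0) (nat_lit 15751817599134) (nat_lit 228) (nat_lit 9039809784525) (nat_lit 76) (nat_lit 5343226458329) (nat_lit 62) (nat_lit 5) (nat_lit 65) (nat_lit 5) (nat_lit 63) (nat_lit 5) (nat_lit 525) (nat_lit 504) (nat_lit 171))))) (XT.nd (nat_lit 60840) (nat_lit 0) (nat_lit 2128) (XT.nd (nat_lit 78) (nat_lit 152) (nat_lit 0) (XT.lf (nat_lit 0) (nat_lit 9658140557674) (nat_lit 152) (nat_lit 13995107516610) (nat_lit 228) (nat_lit 7944838509255) (nat_lit 60) (nat_lit 5) (nat_lit 62) (nat_lit 5) (nat_lit 63) (nat_lit 5) (nat_lit 526) (nat_lit 504) (nat_lit 170)) (XT.nd (nat_lit 78) (nat_lit 152) (nat_lit 0) (XT.lf (nat_lit 0) (nat_lit 30366028919634) (nat_lit 152) (nat_lit 2067928487225) (nat_lit 228) (nat_lit 724647384003) (nat_lit 60) (nat_lit 5) (nat_lit 62) (nat_lit 5) (nat_lit 63) (nat_lit 5) (nat_lit 527) (nat_lit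 504) (nat_lit 169)) (XT.lf (nat_lit 0) (nat_lit 7443980692797) (nat_lit 152) (nat_lit 16421213214913) (nat_lit 76) (nat_lit 10907189797656) (nat_lit 58) (nat_lit 5) (nat_lit 60) (nat_lit 5) (nat_lit 59) (nat_lit 5) (nat_lit 528) (nat_lit 504) (nat_lit 168)))) (XT.nd (nat_lit 156) (nat_lit 532) (nat_lit 0) (XT.nd (nat_lit 78) (nat_lit 0) (nat_lit 0) (XT.lf (nat_lit 0) (nat_lit 6474502925978) (nat_lit 532) (nat_lit 43188952063) (nat_lit 532) (nat_lit 43188952063) (nat_lit 93) (nat_lit 3) (nat_lit 100) (nat_lit 3) (nat_lit 100) (nat_lit 5) (nat_lit 505) (nat_lit 505) (nat_lit 190)) (XT.lf (nat_lit 76) (nat_lit 6787826379678) (nat_lit 0) (nat_lit 6842387094394) (nat_lit 532) (nat_lit 3358861501) (nat_lit 94) (nat_lit 5) (nat_lit 93) (nat_lit 3) (nat_lit 100) (nat_lit 5) (nat_lit 506) (nat_lit 505) (nat_lit 189))) (XT.nd (nat_lit 78) (nat_lit 0) (nat_lit 76) (XT.lf (nat_lit 76) (nat_lit 27748053662)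 (nat_lit 0) (nat_lit 145948385936) (nat_lit 608) (nat_lit 14012038661387) (nat_lit 87) (nat_lit 5) (nat_lit 86) (nat_lit 5) (nat_lit 94) (nat_lit 5) (nat_lit 507) (nat_lit 505) (nat_lit 188)) (XT.lf (nat_lit 0) (nat_lit 727194619675) (nat_lit 532) (nat_lit 7102024016922) (nat_lit 608) (nat_lit 6923848477927) (nat_lit 87) (nat_lit 5) (nat_lit 94) (nat_lit 5) (nat_lit 95) (nat_lit 5) (nat_lit 508) (nat_lit 505) (nat_lit 187)))))) (XT.nd (nat_lit 546) (nat_lit 912) (nat_lit 0) (XT.nd (nat_lit 234) (nat_lit 608) (nat_lit 0) (XT.nd (nat_lit 78) (nat_lit 0) (nat_lit 76) (XT.lf (nat_lit 76) (nat_lit 541724439164) (nat_lit 0) (nat_lit 800067567919) (nat_lit 608) (nat_lit 14022648133830) (nat_lit 88) (nat_lit 5) (nat_lit 87) (nat_lit 5) (nat_lit 95) (nat_lit 5) (nat_lit 509) (nat_lit 505) (nat_lit 186)) (XT.nd (nat_lit 78) (nat_lit 0) (nat_lit 0) (XT.lf (nat_lit 0) (nat_lit 2368116502424) (nat_lit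 532) (nat_lit 6976694679606) (nat_lit 608) (nat_lit 6650907082027) (nat_lit 88) (nat_lit 5) (nat_lit 95) (nat_lit 5) (nat_lit 96) (nat_lit 5) (nat_lit 510) (nat_lit 505) (nat_lit 185)) (XT.lf (nat_lit 76) (nat_lit 1553962548768) (nat_lit 0) (nat_lit 1980738221056) (nat_lit 608) (nat_lit 13138145562234) (nat_lit 89) (nat_lit 5) (nat_lit 88) (nat_lit 5) (nat_lit 96) (nat_lit 5) (nat_lit 511) (nat_lit 505) (nat_lit 184)))) (XT.nd (nat_lit 156) (nat_lit 228) (nat_lit 0) (XT.nd (nat_lit 78) (nat_lit 532) (nat_lit 0) (XT.lf (nat_lit 0) (nat_lit 5133959475828) (nat_lit 532) (nat_lit 6373633567029) (nat_lit 76) (nat_lit 5869403786866) (nat_lit 89) (nat_lit 5) (nat_lit 96) (nat_lit 5) (nat_lit 90) (nat_lit 5) (nat_lit 512) (nat_lit 505) (nat_lit 183)) (XT.lf (nat_lit 0) (nat_lit 3178805653537) (nat_lit 532) (nat_lit 3810251323168) (nat_lit 608) (nat_lit 11138190542624) (nat_lit 82) (nat_lit 5) (nat_lit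 89) (nat_lit 5) (nat_lit 90) (nat_lit 5) (nat_lit 513) (nat_lit 505) (nat_lit 182))) (XT.nd (nat_lit 78) (nat_lit 228) (nat_lit 0) (XT.lf (nat_lit 0) (nat_lit 9279649433154) (nat_lit 608) (nat_lit 5178483467711) (nat_lit 76) (nat_lit 4456418390798) (nat_lit 82) (nat_lit 5) (nat_lit 90) (nat_lit 5) (nat_lit 83) (nat_lit 5) (nat_lit 514) (nat_lit 505) (nat_lit 181)) (XT.lf (nat_lit 0) (nat_lit 5551829007345) (nat_lit 228) (nat_lit 6434149466736) (nat_lit 304) (nat_lit 7760261756667) (nat_lit 79) (nat_lit 5) (nat_lit 82) (nat_lit 5) (nat_lit 83) (nat_lit 5) (nat_lit 515) (nat_lit 505) (nat_lit 180))))) (XT.nd (nat_lit 234) (nat_lit 608) (nat_lit 0) (XT.nd (nat_lit 78) (nat_lit 304) (nat_lit 0) (XT.lf (nat_lit 0) (nat_lit 15107754092204) (nat_lit 304) (nat_lit 3255417086905) (nat_lit 76) (nat_lit 2265377885536) (nat_lit 79) (nat_lit 5) (nat_lit 83) (nat_lit 5) (nat_lit 80) (nat_lit 5) (nat_lit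 516) (nat_lit 505) (nat_lit 179)) (XT.nd (nat_lit 78) (nat_lit 76) (nat_lit 0) (XT.lf (nat_lit 0) (nat_lit 8833461326396) (nat_lit 228) (nat_lit 10025376156074) (nat_lit 304) (nat_lit 2692239864968) (nat_lit 76) (nat_lit 5) (nat_lit 79) (nat_lit 5) (nat_lit 80) (nat_lit 5) (nat_lit 517) (nat_lit 505) (nat_lit 178)) (XT.lf (nat_lit 0) (nat_lit 435781739008) (nat_lit 304) (nat_lit 476731165145) (nat_lit 76) (nat_lit 21626891682996) (nat_lit 75) (nat_lit 5) (nat_lit 79) (nat_lit 5) (nat_lit 76) (nat_lit 5) (nat_lit 518) (nat_lit 505) (nat_lit 177)))) (XT.nd (nat_lit 156) (nat_lit 152) (nat_lit 0) (XT.nd (nat_lit 78) (nat_lit 228) (nat_lit 0) (XT.lf (nat_lit 0) (nat_lit 4214344018203) (nat_lit 304) (nat_lit 10459577704615) (nat_lit 76) (nat_lit 8883622032332) (nat_lit 72) (nat_lit 5) (nat_lit 76) (nat_lit 5) (nat_lit 73) (nat_lit 5) (nat_lit 519) (nat_lit 505) (nat_lit 176)) (XT.lf (nat_lit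 0) (nat_lit 3269156116902) (nat_lit 228) (nat_lit 5141733317803) (nat_lit 304) (nat_lit 16236988769488) (nat_lit 69) (nat_lit 5) (nat_lit 72) (nat_lit 5) (nat_lit 73) (nat_lit 5) (nat_lit 520) (nat_lit 505) (nat_lit 175))) (XT.nd (nat_lit 78) (nat_lit 152) (nat_lit 0) (XT.lf (nat_lit 0) (nat_lit 13360500514197) (nat_lit 304) (nat_lit 7242885281046) (nat_lit 76) (nat_lit 5188666251543) (nat_lit 69) (nat_lit 5) (nat_lit 73) (nat_lit 5) (nat_lit 70) (nat_lit 5) (nat_lit 521) (nat_lit 505) (nat_lit 174)) (XT.lf (nat_lit 0) (nat_lit 8305754430025) (nat_lit 152) (nat_lit 10733631158551) (nat_lit 228) (nat_lit 7961709799528) (nat_lit 67) (nat_lit 5) (nat_lit 69) (nat_lit 5) (nat_lit 70) (nat_lit 5) (nat_lit 522) (nat_lit 505) (nat_lit 173))))))) (XT.nd (nat_lit 61776) (nat_lit 0) (nat_lit 0) (XT.nd (nat_lit 61230) (nat_lit 0) (nat_lit 1976) (XT.nd (nat_lit 234) (nat_lit 152) (nat_lit 0) (XT.nd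 (nat_lit 78) (nat_lit 380) (nat_lit 0) (XT.lf (nat_lit 0) (nat_lit 25373971686326) (nat_lit 228) (nat_lit 2784181807917) (nat_lit 76) (nat_lit 132597485090) (nat_lit 67) (nat_lit 5) (nat_lit 70) (nat_lit 5) (nat_lit 68) (nat_lit 5) (nat_lit 523) (nat_lit 505) (nat_lit 172)) (XT.nd (nat_lit 78) (nat_lit 152) (nat_lit 0) (XT.lf (nat_lit 0) (nat_lit 3057915696612) (nat_lit 228) (nat_lit 14845426095392) (nat_lit 76) (nat_lit 11723140685242) (nat_lit 64) (nat_lit 5) (nat_lit 67) (nat_lit 5) (nat_lit 65) (nat_lit 5) (nat_lit 524) (nat_lit 505) (nat_lit 171)) (XT.lf (nat_lit 0) (nat_lit 2914949810583) (nat_lit 152) (nat_lit 6586260968975) (nat_lit 228) (nat_lit 21549944368426) (nat_lit 62) (nat_lit 5) (nat_lit 64) (nat_lit 5) (nat_lit 65) (nat_lit 5) (nat_lit 525) (nat_lit 505) (nat_lit 170)))) (XT.nd (nat_lit 156) (nat_lit 0) (nat_lit 0) (XT.nd (nat_lit 78) (nat_lit 152) (nat_lit 0) (XT.lf (nat_lit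 0) (nat_lit 17011963007309) (nat_lit 228) (nat_lit 9762994566903) (nat_lit 76) (nat_lit 5770684575115) (nat_lit 62) (nat_lit 5) (nat_lit 65) (nat_lit 5) (nat_lit 63) (nat_lit 5) (nat_lit 526) (nat_lit 505) (nat_lit 169)) (XT.lf (nat_lit 0) (nat_lit 10430791802663) (nat_lit 152) (nat_lit 15114716117799) (nat_lit 228) (nat_lit 8580425589741) (nat_lit 60) (nat_lit 5) (nat_lit 62) (nat_lit 5) (nat_lit 63) (nat_lit 5) (nat_lit 527) (nat_lit 505) (nat_lit 168))) (XT.nd (nat_lit 60762) (nat_lit 0) (nat_lit 2508) (XT.lf (nat_lit 0) (nat_lit 32795311233552) (nat_lit 152) (nat_lit 2233362766074) (nat_lit 228) (nat_lit 782619174487) (nat_lit 60) (nat_lit 5) (nat_lit 62) (nat_lit 5) (nat_lit 63) (nat_lit 5) (nat_lit 528) (nat_lit 505) (nat_lit 167)) (XT.lf (nat_lit 0) (nat_lit 6992463160407) (nat_lit 532) (nat_lit 46644068039) (nat_lit 532) (nat_lit 46644068039) (nat_lit 93) (nat_lit 3) (nat_lit 100)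 (nat_lit 3) (nat_lit 100) (nat_lit 5) (nat_lit 506) (nat_lit 506) (nat_lit 188))))) (XT.nd (nat_lit 234) (nat_lit 0) (nat_lit 76) (XT.nd (nat_lit 78) (nat_lit 532) (nat_lit 0) (XT.lf (nat_lit 76) (nat_lit 7330852490421) (nat_lit 0) (nat_lit 7389778062235) (nat_lit 532) (nat_lit 3627569711) (nat_lit 94) (nat_lit 5) (nat_lit 93) (nat_lit 3) (nat_lit 100) (nat_lit 5) (nat_lit 507) (nat_lit 506) (nat_lit 187)) (XT.nd (nat_lit 78) (nat_lit 0) (nat_lit 76) (XT.lf (nat_lit 76) (nat_lit 29967898349) (nat_lit 0) (nat_lit 157624257052) (nat_lit 608) (nat_lit 15133001753613) (nat_lit 87) (nat_lit 5) (nat_lit 86) (nat_lit 5) (nat_lit 94) (nat_lit 5) (nat_lit 508) (nat_lit 506) (nat_lit 186)) (XT.lf (nat_lit 0) (nat_lit 785370189831) (nat_lit 532) (nat_lit 7670185937859) (nat_lit 608) (nat_lit 7477756355950) (nat_lit 87) (nat_lit 5) (nat_lit 94) (nat_lit 5) (nat_lit 95) (nat_lit 5) (nat_lit 509) (nat_lit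 506) (nat_lit 185)))) (XT.nd (nat_lit 156) (nat_lit 0) (nat_lit 76) (XT.nd (nat_lit 78) (nat_lit 0) (nat_lit 76) (XT.lf (nat_lit 76) (nat_lit 585062394704) (nat_lit 0) (nat_lit 864072973495) (nat_lit 608) (nat_lit 15144459983943) (nat_lit 88) (nat_lit 5) (nat_lit 87) (nat_lit 5) (nat_lit 95) (nat_lit 5) (nat_lit 510) (nat_lit 506) (nat_lit 184)) (XT.lf (nat_lit 0) (nat_lit 2557565823123) (nat_lit 532) (nat_lit 7534830253555) (nat_lit 608) (nat_lit 7182979648464) (nat_lit 88) (nat_lit 5) (nat_lit 95) (nat_lit 5) (nat_lit 96) (nat_lit 5) (nat_lit 511) (nat_lit 506) (nat_lit 183))) (XT.nd (nat_lit 78) (nat_lit 0) (nat_lit 76) (XT.lf (nat_lit 76) (nat_lit 1678279553080) (nat_lit 0) (nat_lit 2139197278808) (nat_lit 608) (nat_lit 14189197206697) (nat_lit 89) (nat_lit 5) (nat_lit 88) (nat_lit 5) (nat_lit 96) (nat_lit 5) (nat_lit 512) (nat_lit 506) (nat_lit 182)) (XT.lf (nat_lit 0) (nat_lit 5544676234334)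 (nat_lit 532) (nat_lit 6883524251975) (nat_lit 76) (nat_lit 6338956089756) (nat_lit 89) (nat_lit 5) (nat_lit 96) (nat_lit 5) (nat_lit 90) (nat_lit 5) (nat_lit 513) (nat_lit 506) (nat_lit 181)))))) (XT.nd (nat_lit 546) (nat_lit 912) (nat_lit 0) (XT.nd (nat_lit 234) (nat_lit 532) (nat_lit 0) (XT.nd (nat_lit 78) (nat_lit 228) (nat_lit 0) (XT.lf (nat_lit 0) (nat_lit 3433110106226) (nat_lit 532) (nat_lit 4115071429033) (nat_lit 608) (nat_lit 12029245785583) (nat_lit 82) (nat_lit 5) (nat_lit 89) (nat_lit 5) (nat_lit 90) (nat_lit 5) (nat_lit 514) (nat_lit 506) (nat_lit 180)) (XT.nd (nat_lit 78) (nat_lit 228) (nat_lit 0) (XT.lf (nat_lit 0) (nat_lit 10022021388193) (nat_lit 608) (nat_lit 5592762144722) (nat_lit 76) (nat_lit 4812931862051) (nat_lit 82) (nat_lit 5) (nat_lit 90) (nat_lit 5) (nat_lit 83) (nat_lit 5) (nat_lit 515) (nat_lit 506) (nat_lit 179)) (XT.lf (nat_lit 0) (nat_lit 5995975328330)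 (nat_lit 228) (nat_lit 6948881424045) (nat_lit 304) (nat_lit 8381082696803) (nat_lit 79) (nat_lit 5) (nat_lit 82) (nat_lit 5) (nat_lit 83) (nat_lit 5) (nat_lit 516) (nat_lit 506) (nat_lit 178)))) (XT.nd (nat_lit 156) (nat_lit 304) (nat_lit 0) (XT.nd (nat_lit 78) (nat_lit 228) (nat_lit 0) (XT.lf (nat_lit 0) (nat_lit 16316374419921) (nat_lit 304) (nat_lit 3515850453464) (nat_lit 76) (nat_lit 2446608116405) (nat_lit 79) (nat_lit 5) (nat_lit 83) (nat_lit 5) (nat_lit 80) (nat_lit 5) (nat_lit 517) (nat_lit 506) (nat_lit 177)) (XT.lf (nat_lit 0) (nat_lit 9540138232892) (nat_lit 228) (nat_lit 10827406248501) (nat_lit 304) (nat_lit 2907619053815) (nat_lit 76) (nat_lit 5) (nat_lit 79) (nat_lit 5) (nat_lit 80) (nat_lit 5) (nat_lit 518) (nat_lit 506) (nat_lit 176))) (XT.nd (nat_lit 78) (nat_lit 228) (nat_lit 0) (XT.lf (nat_lit 0) (nat_lit 470644278437) (nat_lit 304) (nat_lit 514869657985) (nat_lit 76)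 (nat_lit 23357043017675) (nat_lit 75) (nat_lit 5) (nat_lit 79) (nat_lit 5) (nat_lit 76) (nat_lit 5) (nat_lit 519) (nat_lit 506) (nat_lit 175)) (XT.lf (nat_lit 0) (nat_lit 4551491539955) (nat_lit 304) (nat_lit 11296343920601) (nat_lit 76) (nat_lit 9594311794983) (nat_lit 72) (nat_lit 5) (nat_lit 76) (nat_lit 5) (nat_lit 73) (nat_lit 5) (nat_lit 520) (nat_lit 506) (nat_lit 174))))) (XT.nd (nat_lit 312) (nat_lit 532) (nat_lit 0) (XT.nd (nat_lit 156) (nat_lit 152) (nat_lit 0) (XT.nd (nat_lit 78) (nat_lit 0) (nat_lit 0) (XT.lf (nat_lit 0) (nat_lit 3530688606628) (nat_lit 228) (nat_lit 5553071983136) (nat_lit 304) (nat_lit 17535947870742) (nat_lit 69) (nat_lit 5) (nat_lit 72) (nat_lit 5) (nat_lit 73) (nat_lit 5) (nat_lit 521) (nat_lit 506) (nat_lit 173)) (XT.lf (nat_lit 0) (nat_lit 14429340555597) (nat_lit 304) (nat_lit 7822316103165) (nat_lit 76) (nat_lit 5603759551747) (nat_lit 69) (nat_lit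 5) (nat_lit 73) (nat_lit 5) (nat_lit 70) (nat_lit 5) (nat_lit 522) (nat_lit 506) (nat_lit 172))) (XT.nd (nat_lit 78) (nat_lit 0) (nat_lit 0) (XT.lf (nat_lit 0) (nat_lit 8970214784783) (nat_lit 152) (nat_lit 11592321651132) (nat_lit 228) (nat_lit 8598646583217) (nat_lit 67) (nat_lit 5) (nat_lit 69) (nat_lit 5) (nat_lit 70) (nat_lit 5) (nat_lit 523) (nat_lit 506) (nat_lit 171)) (XT.lf (nat_lit 0) (nat_lit 27403889421469) (nat_lit 228) (nat_lit 3006916352204) (nat_lit 76) (nat_lit 143205283988) (nat_lit 67) (nat_lit 5) (nat_lit 70) (nat_lit 5) (nat_lit 68) (nat_lit 5) (nat_lit 524) (nat_lit 506) (nat_lit 170)))) (XT.nd (nat_lit 156) (nat_lit 152) (nat_lit 0) (XT.nd (nat_lit 78) (nat_lit 152) (nat_lit 0) (XT.lf (nat_lit 0) (nat_lit 3302548952575) (nat_lit 228) (nat_lit 16033060182673) (nat_lit 76) (nat_lit 12660991940160) (nat_lit 64) (nat_lit 5) (nat_lit 67) (nat_lit 5) (nat_lit 65) (nat_lit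 5) (nat_lit 525) (nat_lit 506) (nat_lit 169)) (XT.lf (nat_lit 0) (nat_lit 3148145795771) (nat_lit 152) (nat_lit 7113161846376) (nat_lit 228) (nat_lit 23273939917658) (nat_lit 62) (nat_lit 5) (nat_lit 64) (nat_lit 5) (nat_lit 65) (nat_lit 5) (nat_lit 526) (nat_lit 506) (nat_lit 168))) (XT.nd (nat_lit 78) (nat_lit 152) (nat_lit 0) (XT.lf (nat_lit 0) (nat_lit 18372920048104) (nat_lit 228) (nat_lit 10544034131925) (nat_lit 76) (nat_lit 6232339341227) (nat_lit 62) (nat_lit 5) (nat_lit 65) (nat_lit 5) (nat_lit 63) (nat_lit 5) (nat_lit 527) (nat_lit 506) (nat_lit 167)) (XT.lf (nat_lit 0) (nat_lit 11265255147197) (nat_lit 152) (nat_lit 16323893407105) (nat_lit 228) (nat_lit 9266859636702) (nat_lit 60) (nat_lit 5) (nat_lit 62) (nat_lit 5) (nat_lit 63) (nat_lit 5) (nat_lit 528) (nat_lit 506) (nat_lit 166))))))))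
noncomputable def xc252 : XT := (XT.nd (nat_lit 63024) (nat_lit 0) (nat_lit 0) (XT.nd (nat_lit 1092) (nat_lit 988) (nat_lit 0) (XT.nd (nat_lit 546) (nat_lit 836) (nat_lit 0) (XT.nd (nat_lit 234) (nat_lit 0) (nat_lit 76) (XT.nd (nat_lit 78) (nat_lit 532) (nat_lit 0) (XT.lf (nat_lit 0) (nat_lit 7551860213540) (nat_lit 532) (nat_lit 50375593319) (nat_lit 532) (nat_lit 50375593319) (nat_lit 93) (nat_lit 3) (nat_lit 100) (nat_lit 3) (nat_lit 100) (nat_lit 5) (nat_lit 507) (nat_lit 507) (nat_lit 186)) (XT.nd (nat_lit 78) (nat_lit 532) (nat_lit 0) (XT.lf (nat_lit 76) (nat_lit 7917320689971) (nat_lit 0) (nat_lit 7980960307461) (nat_lit 532) (nat_lit 3917774680) (nat_lit 94) (nat_lit 5) (nat_lit 93) (nat_lit 3) (nat_lit 100) (nat_lit 5) (nat_lit 508) (nat_lit 507) (nat_lit 185)) (XT.lf (nat_lit 76) (nat_lit 32365330554) (nat_lit 0) (nat_lit 170234197822) (nat_lit 608) (nat_lit 16343641893315) (nat_lit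 87) (nat_lit 5) (nat_lit 86) (nat_lit 5) (nat_lit 94) (nat_lit 5) (nat_lit 509) (nat_lit 507) (nat_lit 184)))) (XT.nd (nat_lit 156) (nat_lit 0) (nat_lit 76) (XT.nd (nat_lit 78) (nat_lit 0) (nat_lit 0) (XT.lf (nat_lit 0) (nat_lit 848199805517) (nat_lit 532) (nat_lit 8283800812530) (nat_lit 608) (nat_lit 8075976864245) (nat_lit 87) (nat_lit 5) (nat_lit 94) (nat_lit 5) (nat_lit 95) (nat_lit 5) (nat_lit 510) (nat_lit 507) (nat_lit 183)) (XT.lf (nat_lit 76) (nat_lit 631867386629) (nat_lit 0) (nat_lit 933198811496) (nat_lit 608) (nat_lit 16356016782151) (nat_lit 88) (nat_lit 5) (nat_lit 87) (nat_lit 5) (nat_lit 95) (nat_lit 5) (nat_lit 511) (nat_lit 507) (nat_lit 182))) (XT.nd (nat_lit 78) (nat_lit 0) (nat_lit 0) (XT.lf (nat_lit 0) (nat_lit 2762171089406) (nat_lit 532) (nat_lit 8137616673478) (nat_lit 608) (nat_lit 7757618020234) (nat_lit 88) (nat_lit 5) (nat_lit 95) (nat_lit 5) (nat_lit 96) (nat_lit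 5) (nat_lit 512) (nat_lit 507) (nat_lit 181)) (XT.lf (nat_lit 76) (nat_lit 1812541917678) (nat_lit 0) (nat_lit 2310333061170) (nat_lit 608) (nat_lit 15324332982791) (nat_lit 89) (nat_lit 5) (nat_lit 88) (nat_lit 5) (nat_lit 96) (nat_lit 5) (nat_lit 513) (nat_lit 507) (nat_lit 180))))) (XT.nd (nat_lit 234) (nat_lit 532) (nat_lit 0) (XT.nd (nat_lit 78) (nat_lit 532) (nat_lit 0) (XT.lf (nat_lit 0) (nat_lit 5988250333459) (nat_lit 532) (nat_lit 7434206191776) (nat_lit 76) (nat_lit 6846072576886) (nat_lit 89) (nat_lit 5) (nat_lit 96) (nat_lit 5) (nat_lit 90) (nat_lit 5) (nat_lit 514) (nat_lit 507) (nat_lit 179)) (XT.nd (nat_lit 78) (nat_lit 0) (nat_lit 0) (XT.lf (nat_lit 0) (nat_lit 3707758915072) (nat_lit 532) (nat_lit 4444277143366) (nat_lit 608) (nat_lit 12991585448043) (nat_lit 82) (nat_lit 5) (nat_lit 89) (nat_lit 5) (nat_lit 90) (nat_lit 5) (nat_lit 515) (nat_lit 507) (nat_lit 178)) (XT.lf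 (nat_lit 0) (nat_lit 10823783099580) (nat_lit 608) (nat_lit 6040183115950) (nat_lit 76) (nat_lit 5197966411006) (nat_lit 82) (nat_lit 5) (nat_lit 90) (nat_lit 5) (nat_lit 83) (nat_lit 5) (nat_lit 516) (nat_lit 507) (nat_lit 177)))) (XT.nd (nat_lit 156) (nat_lit 304) (nat_lit 0) (XT.nd (nat_lit 78) (nat_lit 0) (nat_lit 0) (XT.lf (nat_lit 0) (nat_lit 6475653354936) (nat_lit 228) (nat_lit 7504791937944) (nat_lit 304) (nat_lit 9051569312208) (nat_lit 79) (nat_lit 5) (nat_lit 82) (nat_lit 5) (nat_lit 83) (nat_lit 5) (nat_lit 517) (nat_lit 507) (nat_lit 176)) (XT.lf (nat_lit 0) (nat_lit 17621684373806) (nat_lit 304) (nat_lit 3797118489404) (nat_lit 76) (nat_lit 2642336765739) (nat_lit 79) (nat_lit 5) (nat_lit 83) (nat_lit 5) (nat_lit 80) (nat_lit 5) (nat_lit 518) (nat_lit 507) (nat_lit 175))) (XT.nd (nat_lit 78) (nat_lit 76) (nat_lit 0) (XT.lf (nat_lit 0) (nat_lit 10303349291852) (nat_lit 228)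 (nat_lit 11693598748331) (nat_lit 304) (nat_lit 3140228577819) (nat_lit 76) (nat_lit 5) (nat_lit 79) (nat_lit 5) (nat_lit 80) (nat_lit 5) (nat_lit 519) (nat_lit 507) (nat_lit 174)) (XT.lf (nat_lit 0) (nat_lit 508295820977) (nat_lit 304) (nat_lit 556059230306) (nat_lit 76) (nat_lit 25225606459122) (nat_lit 75) (nat_lit 5) (nat_lit 79) (nat_lit 5) (nat_lit 76) (nat_lit 5) (nat_lit 520) (nat_lit 507) (nat_lit 173)))))) (XT.nd (nat_lit 546) (nat_lit 0) (nat_lit 0) (XT.nd (nat_lit 234) (nat_lit 532) (nat_lit 0) (XT.nd (nat_lit 78) (nat_lit 228) (nat_lit 0) (XT.lf (nat_lit 0) (nat_lit 4915610863406) (nat_lit 304) (nat_lit 12200051433919) (nat_lit 76) (nat_lit 10361856738637) (nat_lit 72) (nat_lit 5) (nat_lit 76) (nat_lit 5) (nat_lit 73) (nat_lit 5) (nat_lit 521) (nat_lit 507) (nat_lit 172)) (XT.nd (nat_lit 78) (nat_lit 0) (nat_lit 0) (XT.lf (nat_lit 0) (nat_lit 3813143695479) (nat_lit 228) (nat_lit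 5997317741709) (nat_lit 304) (nat_lit 18938823700139) (nat_lit 69) (nat_lit 5) (nat_lit 72) (nat_lit 5) (nat_lit 73) (nat_lit 5) (nat_lit 522) (nat_lit 507) (nat_lit 171)) (XT.lf (nat_lit 0) (nat_lit 15583687800271) (nat_lit 304) (nat_lit 8448101391104) (nat_lit 76) (nat_lit 6052060315955) (nat_lit 69) (nat_lit 5) (nat_lit 73) (nat_lit 5) (nat_lit 70) (nat_lit 5) (nat_lit 523) (nat_lit 507) (nat_lit 170)))) (XT.nd (nat_lit 156) (nat_lit 380) (nat_lit 0) (XT.nd (nat_lit 78) (nat_lit 0) (nat_lit 0) (XT.lf (nat_lit 0) (nat_lit 9687831967871) (nat_lit 152) (nat_lit 12519707383134) (nat_lit 228) (nat_lit 9286538309640) (nat_lit 67) (nat_lit 5) (nat_lit 69) (nat_lit 5) (nat_lit 70) (nat_lit 5) (nat_lit 524) (nat_lit 507) (nat_lit 169)) (XT.lf (nat_lit 0) (nat_lit 29596200575389) (nat_lit 228) (nat_lit 3247469660083) (nat_lit 76) (nat_lit 154661706786) (nat_lit 67) (nat_lit 5) (nat_lit 70) (nat_lit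 5) (nat_lit 68) (nat_lit 5) (nat_lit 525) (nat_lit 507) (nat_lit 168))) (XT.nd (nat_lit 78) (nat_lit 152) (nat_lit 0) (XT.lf (nat_lit 0) (nat_lit 3566752868981) (nat_lit 228) (nat_lit 17315704996987) (nat_lit 76) (nat_lit 13673871295457) (nat_lit 64) (nat_lit 5) (nat_lit 67) (nat_lit 5) (nat_lit 65) (nat_lit 5) (nat_lit 526) (nat_lit 507) (nat_lit 167)) (XT.lf (nat_lit 0) (nat_lit 3399997459725) (nat_lit 152) (nat_lit 7682214793986) (nat_lit 228) (nat_lit 25135855110863) (nat_lit 62) (nat_lit 5) (nat_lit 64) (nat_lit 5) (nat_lit 65) (nat_lit 5) (nat_lit 527) (nat_lit 507) (nat_lit 166))))) (XT.nd (nat_lit 61074) (nat_lit 0) (nat_lit 1824) (XT.nd (nat_lit 60918) (nat_lit 0) (nat_lit 2356) (XT.lf (nat_lit 0) (nat_lit 19842753652133) (nat_lit 228) (nat_lit 11387556862197) (nat_lit 76) (nat_lit 6730926488614) (nat_lit 62) (nat_lit 5) (nat_lit 65) (nat_lit 5) (nat_lit 63) (nat_lit 5) (nat_lit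 528) (nat_lit 507) (nat_lit 165)) (XT.nd (nat_lit 78) (nat_lit 0) (nat_lit 0) (XT.lf (nat_lit 0) (nat_lit 8156009030881) (nat_lit 532) (nat_lit 54405640646) (nat_lit 532) (nat_lit 54405640646) (nat_lit 93) (nat_lit 3) (nat_lit 100) (nat_lit 3) (nat_lit 100) (nat_lit 5) (nat_lit 508) (nat_lit 508) (nat_lit 184)) (XT.lf (nat_lit 76) (nat_lit 8550706345440) (nat_lit 0) (nat_lit 8619437132270) (nat_lit 532) (nat_lit 4231196132) (nat_lit 94) (nat_lit 5) (nat_lit 93) (nat_lit 3) (nat_lit 100) (nat_lit 5) (nat_lit 509) (nat_lit 508) (nat_lit 183)))) (XT.nd (nat_lit 156) (nat_lit 0) (nat_lit 76) (XT.nd (nat_lit 78) (nat_lit 0) (nat_lit 76) (XT.lf (nat_lit 76) (nat_lit 34954557288) (nat_lit 0) (nat_lit 183852933824) (nat_lit 608) (nat_lit 17651133244277) (nat_lit 87) (nat_lit 5) (nat_lit 86) (nat_lit 5) (nat_lit 94) (nat_lit 5) (nat_lit 510) (nat_lit 508) (nat_lit 182)) (XT.lf (nat_lit 0) (nat_lit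 916055790386) (nat_lit 532) (nat_lit 8946504877226) (nat_lit 608) (nat_lit 8722055013229) (nat_lit 87) (nat_lit 5) (nat_lit 94) (nat_lit 5) (nat_lit 95) (nat_lit 5) (nat_lit 511) (nat_lit 508) (nat_lit 181))) (XT.nd (nat_lit 78) (nat_lit 0) (nat_lit 76) (XT.lf (nat_lit 76) (nat_lit 682416777859) (nat_lit 0) (nat_lit 1007854716519) (nat_lit 608) (nat_lit 17664498124288) (nat_lit 88) (nat_lit 5) (nat_lit 87) (nat_lit 5) (nat_lit 95) (nat_lit 5) (nat_lit 512) (nat_lit 508) (nat_lit 180)) (XT.lf (nat_lit 0) (nat_lit 2983144776929) (nat_lit 532) (nat_lit 8788626007048) (nat_lit 608) (nat_lit 8378227461761) (nat_lit 88) (nat_lit 5) (nat_lit 95) (nat_lit 5) (nat_lit 96) (nat_lit 5) (nat_lit 513) (nat_lit 508) (nat_lit 179))))))) (XT.nd (nat_lit 1092) (nat_lit 152) (nat_lit 0) (XT.nd (nat_lit 546) (nat_lit 912) (nat_lit 0) (XT.nd (nat_lit 234) (nat_lit 456) (nat_lit 0) (XT.nd (nat_lit 78) (nat_lit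 456) (nat_lit 0) (XT.lf (nat_lit 76) (nat_lit 1957545271393) (nat_lit 0) (nat_lit 2495159706113) (nat_lit 608) (nat_lit 16550279621036) (nat_lit 89) (nat_lit 5) (nat_lit 88) (nat_lit 5) (nat_lit 96) (nat_lit 5) (nat_lit 514) (nat_lit 508) (nat_lit 178)) (XT.nd (nat_lit 78) (nat_lit 532) (nat_lit 0) (XT.lf (nat_lit 0) (nat_lit 6467310360459) (nat_lit 532) (nat_lit 8028942686812) (nat_lit 76) (nat_lit 7393758382993) (nat_lit 89) (nat_lit 5) (nat_lit 96) (nat_lit 5) (nat_lit 90) (nat_lit 5) (nat_lit 515) (nat_lit 508) (nat_lit 177)) (XT.lf (nat_lit 0) (nat_lit 4004379628576) (nat_lit 532) (nat_lit 4799819314844) (nat_lit 608) (nat_lit 14030912283555) (nat_lit 82) (nat_lit 5) (nat_lit 89) (nat_lit 5) (nat_lit 90) (nat_lit 5) (nat_lit 516) (nat_lit 508) (nat_lit 176)))) (XT.nd (nat_lit 156) (nat_lit 228) (nat_lit 0) (XT.nd (nat_lit 78) (nat_lit 228) (nat_lit 0) (XT.lf (nat_lit 0) (nat_lit 11689685747830)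 (nat_lit 608) (nat_lit 6523397764927) (nat_lit 76) (nat_lit 5613803723879) (nat_lit 82) (nat_lit 5) (nat_lit 90) (nat_lit 5) (nat_lit 83) (nat_lit 5) (nat_lit 517) (nat_lit 508) (nat_lit 175)) (XT.lf (nat_lit 0) (nat_lit 6993705623623) (nat_lit 228) (nat_lit 8105175292958) (nat_lit 304) (nat_lit 9775694856893) (nat_lit 79) (nat_lit 5) (nat_lit 82) (nat_lit 5) (nat_lit 83) (nat_lit 5) (nat_lit 518) (nat_lit 508) (nat_lit 174))) (XT.nd (nat_lit 78) (nat_lit 228) (nat_lit 0) (XT.lf (nat_lit 0) (nat_lit 19031419123961) (nat_lit 304) (nat_lit 4100887968266) (nat_lit 76) (nat_lit 2853723707018) (nat_lit 79) (nat_lit 5) (nat_lit 83) (nat_lit 5) (nat_lit 80) (nat_lit 5) (nat_lit 519) (nat_lit 508) (nat_lit 173)) (XT.lf (nat_lit 0) (nat_lit 11127617235483) (nat_lit 228) (nat_lit 12629086648153) (nat_lit 304) (nat_lit 3391446863787) (nat_lit 76) (nat_lit 5) (nat_lit 79) (nat_lit 5) (nat_lit 80) (nat_lit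 5) (nat_lit 520) (nat_lit 508) (nat_lit 172))))) (XT.nd (nat_lit 234) (nat_lit 380) (nat_lit 0) (XT.nd (nat_lit 78) (nat_lit 456) (nat_lit 0) (XT.lf (nat_lit 0) (nat_lit 548959486882) (nat_lit 304) (nat_lit 600543968457) (nat_lit 76) (nat_lit 27243654975880) (nat_lit 75) (nat_lit 5) (nat_lit 79) (nat_lit 5) (nat_lit 76) (nat_lit 5) (nat_lit 521) (nat_lit 508) (nat_lit 171)) (XT.nd (nat_lit 78) (nat_lit 228) (nat_lit 0) (XT.lf (nat_lit 0) (nat_lit 5308859732696) (nat_lit 304) (nat_lit 13176055548350) (nat_lit 76) (nat_lit 11190805277776) (nat_lit 72) (nat_lit 5) (nat_lit 76) (nat_lit 5) (nat_lit 73) (nat_lit 5) (nat_lit 522) (nat_lit 508) (nat_lit 170)) (XT.lf (nat_lit 0) (nat_lit 4118195191393) (nat_lit 228) (nat_lit 6477103160978) (nat_lit 304) (nat_lit 20453929595925) (nat_lit 69) (nat_lit 5) (nat_lit 72) (nat_lit 5) (nat_lit 73) (nat_lit 5) (nat_lit 523) (nat_lit 508) (nat_lit 169))))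 (XT.nd (nat_lit 156) (nat_lit 228) (nat_lit 0) (XT.nd (nat_lit 78) (nat_lit 152) (nat_lit 0) (XT.lf (nat_lit 0) (nat_lit 16830382824487) (nat_lit 304) (nat_lit 9123949502124) (nat_lit 76) (nat_lit 6536225141291) (nat_lit 69) (nat_lit 5) (nat_lit 73) (nat_lit 5) (nat_lit 70) (nat_lit 5) (nat_lit 524) (nat_lit 508) (nat_lit 168)) (XT.lf (nat_lit 0) (nat_lit 10462858525563) (nat_lit 152) (nat_lit 13521283973709) (nat_lit 228) (nat_lit 10029461374210) (nat_lit 67) (nat_lit 5) (nat_lit 69) (nat_lit 5) (nat_lit 70) (nat_lit 5) (nat_lit 525) (nat_lit 508) (nat_lit 167))) (XT.nd (nat_lit 78) (nat_lit 228) (nat_lit 0) (XT.lf (nat_lit 0) (nat_lit 31963896621594) (nat_lit 228) (nat_lit 3507267232635) (nat_lit 76) (nat_lit 167034643396) (nat_lit 67) (nat_lit 5) (nat_lit 70) (nat_lit 5) (nat_lit 68) (nat_lit 5) (nat_lit 526) (nat_lit 508) (nat_lit 166)) (XT.lf (nat_lit 0) (nat_lit 3852093098670) (nat_lit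 228) (nat_lit 18700961396488) (nat_lit 76) (nat_lit 14767780999165) (nat_lit 64) (nat_lit 5) (nat_lit 67) (nat_lit 5) (nat_lit 65) (nat_lit 5) (nat_lit 527) (nat_lit 508) (nat_lit 165)))))) (XT.nd (nat_lit 61464) (nat_lit 0) (nat_lit 988) (XT.nd (nat_lit 61152) (nat_lit 0) (nat_lit 1824) (XT.nd (nat_lit 60996) (nat_lit 0) (nat_lit 2356) (XT.lf (nat_lit 0) (nat_lit 3671997256754) (nat_lit 152) (nat_lit 8296791977419) (nat_lit 228) (nat_lit 27146723519554) (nat_lit 62) (nat_lit 5) (nat_lit 64) (nat_lit 5) (nat_lit 65) (nat_lit 5) (nat_lit 528) (nat_lit 508) (nat_lit 164)) (XT.nd (nat_lit 78) (nat_lit 0) (nat_lit 0) (XT.lf (nat_lit 0) (nat_lit 8808489753572) (nat_lit 532) (nat_lit 58758091779) (nat_lit 532) (nat_lit 58758091779) (nat_lit 93) (nat_lit 3) (nat_lit 100) (nat_lit 3) (nat_lit 100) (nat_lit 5) (nat_lit 509) (nat_lit 509) (nat_lit 182)) (XT.lf (nat_lit 76) (nat_lit 9234762853307)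 (nat_lit 0) (nat_lit 9308992103034) (nat_lit 532) (nat_lit 4569691375) (nat_lit 94) (nat_lit 5) (nat_lit 93) (nat_lit 3) (nat_lit 100) (nat_lit 5) (nat_lit 510) (nat_lit 509) (nat_lit 181)))) (XT.nd (nat_lit 156) (nat_lit 0) (nat_lit 76) (XT.nd (nat_lit 78) (nat_lit 0) (nat_lit 76) (XT.lf (nat_lit 76) (nat_lit 37750922120) (nat_lit 0) (nat_lit 198561168681) (nat_lit 608) (nat_lit 19063223903387) (nat_lit 87) (nat_lit 5) (nat_lit 86) (nat_lit 5) (nat_lit 94) (nat_lit 5) (nat_lit 511) (nat_lit 509) (nat_lit 180)) (XT.lf (nat_lit 0) (nat_lit 989340253983) (nat_lit 532) (nat_lit 9662225267141) (nat_lit 608) (nat_lit 9419819414155) (nat_lit 87) (nat_lit 5) (nat_lit 94) (nat_lit 5) (nat_lit 95) (nat_lit 5) (nat_lit 512) (nat_lit 509) (nat_lit 179))) (XT.nd (nat_lit 78) (nat_lit 0) (nat_lit 76) (XT.lf (nat_lit 76) (nat_lit 737010120344) (nat_lit 0) (nat_lit 1088483093930) (nat_lit 608) (nat_lit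 19077657973857) (nat_lit 88) (nat_lit 5) (nat_lit 87) (nat_lit 5) (nat_lit 95) (nat_lit 5) (nat_lit 513) (nat_lit 509) (nat_lit 178)) (XT.lf (nat_lit 0) (nat_lit 3221796359402) (nat_lit 532) (nat_lit 9491716087347) (nat_lit 608) (nat_lit 9048485658624) (nat_lit 88) (nat_lit 5) (nat_lit 95) (nat_lit 5) (nat_lit 96) (nat_lit 5) (nat_lit 514) (nat_lit 509) (nat_lit 177))))) (XT.nd (nat_lit 312) (nat_lit 532) (nat_lit 0) (XT.nd (nat_lit 156) (nat_lit 456) (nat_lit 0) (XT.nd (nat_lit 78) (nat_lit 0) (nat_lit 76) (XT.lf (nat_lit 76) (nat_lit 2114148893363) (nat_lit 0) (nat_lit 2694772482645) (nat_lit 608) (nat_lit 17874301990394) (nat_lit 89) (nat_lit 5) (nat_lit 88) (nat_lit 5) (nat_lit 96) (nat_lit 5) (nat_lit 515) (nat_lit 509) (nat_lit 176)) (XT.lf (nat_lit 0) (nat_lit 6984695189573) (nat_lit 532) (nat_lit 8671258101495) (nat_lit 76) (nat_lit 7985259053596) (nat_lit 89) (nat_lit 5) (nat_lit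 96) (nat_lit 5) (nat_lit 90) (nat_lit 5) (nat_lit 516) (nat_lit 509) (nat_lit 175))) (XT.nd (nat_lit 78) (nat_lit 0) (nat_lit 0) (XT.lf (nat_lit 0) (nat_lit 4324729999118) (nat_lit 532) (nat_lit 5183804860039) (nat_lit 608) (nat_lit 15153385265955) (nat_lit 82) (nat_lit 5) (nat_lit 89) (nat_lit 5) (nat_lit 90) (nat_lit 5) (nat_lit 517) (nat_lit 509) (nat_lit 174)) (XT.lf (nat_lit 0) (nat_lit 12624860607900) (nat_lit 608) (nat_lit 7045269585865) (nat_lit 76) (nat_lit 6062908021783) (nat_lit 82) (nat_lit 5) (nat_lit 90) (nat_lit 5) (nat_lit 83) (nat_lit 5) (nat_lit 518) (nat_lit 509) (nat_lit 173)))) (XT.nd (nat_lit 156) (nat_lit 304) (nat_lit 0) (XT.nd (nat_lit 78) (nat_lit 0) (nat_lit 0) (XT.lf (nat_lit 0) (nat_lit 7553202073763) (nat_lit 228) (nat_lit 8753589316376) (nat_lit 304) (nat_lit 10557750445194) (nat_lit 79) (nat_lit 5) (nat_lit 82) (nat_lit 5) (nat_lit 83) (nat_lit 5) (nat_lit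 519) (nat_lit 509) (nat_lit 172)) (XT.lf (nat_lit 0) (nat_lit 20553932654093) (nat_lit 304) (nat_lit 4428959005479) (nat_lit 76) (nat_lit 3082021603596) (nat_lit 79) (nat_lit 5) (nat_lit 83) (nat_lit 5) (nat_lit 80) (nat_lit 5) (nat_lit 520) (nat_lit 509) (nat_lit 171))) (XT.nd (nat_lit 78) (nat_lit 76) (nat_lit 0) (XT.lf (nat_lit 0) (nat_lit 12017826614563) (nat_lit 228) (nat_lit 13639413579968) (nat_lit 304) (nat_lit 3662762612669) (nat_lit 76) (nat_lit 5) (nat_lit 79) (nat_lit 5) (nat_lit 80) (nat_lit 5) (nat_lit 521) (nat_lit 509) (nat_lit 170)) (XT.lf (nat_lit 0) (nat_lit 592876246027) (nat_lit 304) (nat_lit 648587485699) (nat_lit 76) (nat_lit 29423147373975) (nat_lit 75) (nat_lit 5) (nat_lit 79) (nat_lit 5) (nat_lit 76) (nat_lit 5) (nat_lit 522) (nat_lit 509) (nat_lit 169))))))))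
noncomputable def xc253 : XT := (XT.nd (nat_lit 124254) (nat_lit 0) (nat_lit 228) (XT.nd (nat_lit 62088) (nat_lit 0) (nat_lit 228) (XT.nd (nat_lit 61542) (nat_lit 0) (nat_lit 1672) (XT.nd (nat_lit 234) (nat_lit 380) (nat_lit 0) (XT.nd (nat_lit 78) (nat_lit 228) (nat_lit 0) (XT.lf (nat_lit 0) (nat_lit 5733568511498) (nat_lit 304) (nat_lit 14230139991976) (nat_lit 76) (nat_lit 12086069700038) (nat_lit 72) (nat_lit 5) (nat_lit 76) (nat_lit 5) (nat_lit 73) (nat_lit 5) (nat_lit 523) (nat_lit 509) (nat_lit 168)) (XT.nd (nat_lit 78) (nat_lit 0) (nat_lit 0) (XT.lf (nat_lit 0) (nat_lit 4447650806941) (nat_lit 228) (nat_lit 6995271413799) (nat_lit 304) (nat_lit 22090243963407) (nat_lit 69) (nat_lit 5) (nat_lit 72) (nat_lit 5) (nat_lit 73) (nat_lit 5) (nat_lit 524) (nat_lit 509) (nat_lit 167)) (XT.lf (nat_lit 0) (nat_lit 18176813450612) (nat_lit 304) (nat_lit 9853865462063) (nat_lit 76) (nat_lit 7059123152645)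 (nat_lit 69) (nat_lit 5) (nat_lit 73) (nat_lit 5) (nat_lit 70) (nat_lit 5) (nat_lit 525) (nat_lit 509) (nat_lit 166)))) (XT.nd (nat_lit 156) (nat_lit 228) (nat_lit 0) (XT.nd (nat_lit 78) (nat_lit 0) (nat_lit 0) (XT.lf (nat_lit 0) (nat_lit 11299887207833) (nat_lit 152) (nat_lit 14602986691541) (nat_lit 228) (nat_lit 10831818283974) (nat_lit 67) (nat_lit 5) (nat_lit 69) (nat_lit 5) (nat_lit 70) (nat_lit 5) (nat_lit 526) (nat_lit 509) (nat_lit 165)) (XT.lf (nat_lit 0) (nat_lit 34521008351471) (nat_lit 228) (nat_lit 3787848611027) (nat_lit 76) (nat_lit 180397414924) (nat_lit 67) (nat_lit 5) (nat_lit 70) (nat_lit 5) (nat_lit 68) (nat_lit 5) (nat_lit 527) (nat_lit 509) (nat_lit 164))) (XT.nd (nat_lit 61074) (nat_lit 0) (nat_lit 2204) (XT.lf (nat_lit 0) (nat_lit 4160260546711) (nat_lit 228) (nat_lit 20197038307987) (nat_lit 76) (nat_lit 15949203479161) (nat_lit 64) (nat_lit 5) (nat_lit 67) (nat_lit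 5) (nat_lit 65) (nat_lit 5) (nat_lit 528) (nat_lit 509) (nat_lit 163)) (XT.lf (nat_lit 0) (nat_lit 9513168934047) (nat_lit 532) (nat_lit 63458739019) (nat_lit 532) (nat_lit 63458739019) (nat_lit 93) (nat_lit 3) (nat_lit 100) (nat_lit 3) (nat_lit 100) (nat_lit 5) (nat_lit 510) (nat_lit 510) (nat_lit 180))))) (XT.nd (nat_lit 234) (nat_lit 0) (nat_lit 76) (XT.nd (nat_lit 78) (nat_lit 532) (nat_lit 0) (XT.lf (nat_lit 76) (nat_lit 9973543881771) (nat_lit 0) (nat_lit 10053711471433) (nat_lit 532) (nat_lit 4935266301) (nat_lit 94) (nat_lit 5) (nat_lit 93) (nat_lit 3) (nat_lit 100) (nat_lit 5) (nat_lit 511) (nat_lit 510) (nat_lit 179)) (XT.nd (nat_lit 78) (nat_lit 0) (nat_lit 76) (XT.lf (nat_lit 76) (nat_lit 40770996103) (nat_lit 0) (nat_lit 214446062305) (nat_lit 608) (nat_lit 20588281815288) (nat_lit 87) (nat_lit 5) (nat_lit 86) (nat_lit 5) (nat_lit 94) (nat_lit 5) (nat_lit 512) (nat_lit 510)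 (nat_lit 178)) (XT.lf (nat_lit 0) (nat_lit 1068487474616) (nat_lit 532) (nat_lit 10435203288286) (nat_lit 608) (nat_lit 10173404967173) (nat_lit 87) (nat_lit 5) (nat_lit 94) (nat_lit 5) (nat_lit 95) (nat_lit 5) (nat_lit 513) (nat_lit 510) (nat_lit 177)))) (XT.nd (nat_lit 156) (nat_lit 0) (nat_lit 76) (XT.nd (nat_lit 78) (nat_lit 0) (nat_lit 76) (XT.lf (nat_lit 76) (nat_lit 795970930191) (nat_lit 0) (nat_lit 1175561741521) (nat_lit 608) (nat_lit 20603870611446) (nat_lit 88) (nat_lit 5) (nat_lit 87) (nat_lit 5) (nat_lit 95) (nat_lit 5) (nat_lit 514) (nat_lit 510) (nat_lit 176)) (XT.lf (nat_lit 0) (nat_lit 3479540068426) (nat_lit 532) (nat_lit 10251053374107) (nat_lit 608) (nat_lit 9772364511246) (nat_lit 88) (nat_lit 5) (nat_lit 95) (nat_lit 5) (nat_lit 96) (nat_lit 5) (nat_lit 515) (nat_lit 510) (nat_lit 175))) (XT.nd (nat_lit 78) (nat_lit 0) (nat_lit 76) (XT.lf (nat_lit 76) (nat_lit 2283280805053)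 (nat_lit 0) (nat_lit 2910354281293) (nat_lit 608) (nat_lit 19304246149347) (nat_lit 89) (nat_lit 5) (nat_lit 88) (nat_lit 5) (nat_lit 96) (nat_lit 5) (nat_lit 516) (nat_lit 510) (nat_lit 174)) (XT.lf (nat_lit 0) (nat_lit 7543470804977) (nat_lit 532) (nat_lit 9364958749390) (nat_lit 76) (nat_lit 8624079777851) (nat_lit 89) (nat_lit 5) (nat_lit 96) (nat_lit 5) (nat_lit 90) (nat_lit 5) (nat_lit 517) (nat_lit 510) (nat_lit 173)))))) (XT.nd (nat_lit 546) (nat_lit 380) (nat_lit 0) (XT.nd (nat_lit 234) (nat_lit 532) (nat_lit 0) (XT.nd (nat_lit 78) (nat_lit 228) (nat_lit 0) (XT.lf (nat_lit 0) (nat_lit 4670708399266) (nat_lit 532) (nat_lit 5598509248848) (nat_lit 608) (nat_lit 16365656086988) (nat_lit 82) (nat_lit 5) (nat_lit 89) (nat_lit 5) (nat_lit 90) (nat_lit 5) (nat_lit 518) (nat_lit 510) (nat_lit 172)) (XT.nd (nat_lit 78) (nat_lit 228) (nat_lit 0) (XT.lf (nat_lit 0) (nat_lit 13634849456741)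 (nat_lit 608) (nat_lit 7608891152514) (nat_lit 76) (nat_lit 6547940663521) (nat_lit 82) (nat_lit 5) (nat_lit 90) (nat_lit 5) (nat_lit 83) (nat_lit 5) (nat_lit 519) (nat_lit 510) (nat_lit 171)) (XT.lf (nat_lit 0) (nat_lit 8157458239878) (nat_lit 228) (nat_lit 9453876461670) (nat_lit 304) (nat_lit 11402370480595) (nat_lit 79) (nat_lit 5) (nat_lit 82) (nat_lit 5) (nat_lit 83) (nat_lit 5) (nat_lit 520) (nat_lit 510) (nat_lit 170)))) (XT.nd (nat_lit 156) (nat_lit 304) (nat_lit 0) (XT.nd (nat_lit 78) (nat_lit 228) (nat_lit 0) (XT.lf (nat_lit 0) (nat_lit 22198247266605) (nat_lit 304) (nat_lit 4783275725705) (nat_lit 76) (nat_lit 3328583331897) (nat_lit 79) (nat_lit 5) (nat_lit 83) (nat_lit 5) (nat_lit 80) (nat_lit 5) (nat_lit 521) (nat_lit 510) (nat_lit 169)) (XT.lf (nat_lit 0) (nat_lit 12979252743936) (nat_lit 228) (nat_lit 14730566666334) (nat_lit 304) (nat_lit 3955783621493) (nat_lit 76) (nat_lit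 5) (nat_lit 79) (nat_lit 5) (nat_lit 80) (nat_lit 5) (nat_lit 522) (nat_lit 510) (nat_lit 168))) (XT.nd (nat_lit 78) (nat_lit 228) (nat_lit 0) (XT.lf (nat_lit 0) (nat_lit 640306345876) (nat_lit 304) (nat_lit 700474484354) (nat_lit 76) (nat_lit 31776999163914) (nat_lit 75) (nat_lit 5) (nat_lit 79) (nat_lit 5) (nat_lit 76) (nat_lit 5) (nat_lit 523) (nat_lit 510) (nat_lit 167)) (XT.lf (nat_lit 0) (nat_lit 6192253992578) (nat_lit 304) (nat_lit 15368551191127) (nat_lit 76) (nat_lit 13052955276076) (nat_lit 72) (nat_lit 5) (nat_lit 76) (nat_lit 5) (nat_lit 73) (nat_lit 5) (nat_lit 524) (nat_lit 510) (nat_lit 166))))) (XT.nd (nat_lit 234) (nat_lit 0) (nat_lit 0) (XT.nd (nat_lit 78) (nat_lit 152) (nat_lit 0) (XT.lf (nat_lit 0) (nat_lit 4803462871699) (nat_lit 228) (nat_lit 7554893126853) (nat_lit 304) (nat_lit 23857463480314) (nat_lit 69) (nat_lit 5) (nat_lit 72) (nat_lit 5) (nat_lit 73) (nat_lit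 5) (nat_lit 525) (nat_lit 510) (nat_lit 165)) (XT.nd (nat_lit 78) (nat_lit 152) (nat_lit 0) (XT.lf (nat_lit 0) (nat_lit 19630958526804) (nat_lit 304) (nat_lit 10642174698830) (nat_lit 76) (nat_lit 7623853004900) (nat_lit 69) (nat_lit 5) (nat_lit 73) (nat_lit 5) (nat_lit 70) (nat_lit 5) (nat_lit 526) (nat_lit 510) (nat_lit 164)) (XT.lf (nat_lit 0) (nat_lit 12203878184652) (nat_lit 152) (nat_lit 15771225626808) (nat_lit 228) (nat_lit 11698363746545) (nat_lit 67) (nat_lit 5) (nat_lit 69) (nat_lit 5) (nat_lit 70) (nat_lit 5) (nat_lit 527) (nat_lit 510) (nat_lit 163)))) (XT.nd (nat_lit 61230) (nat_lit 0) (nat_lit 1444) (XT.nd (nat_lit 61152) (nat_lit 0) (nat_lit 1976) (XT.lf (nat_lit 0) (nat_lit 37282689019717) (nat_lit 228) (nat_lit 4090876499722) (nat_lit 76) (nat_lit 194829208168) (nat_lit 67) (nat_lit 5) (nat_lit 70) (nat_lit 5) (nat_lit 68) (nat_lit 5) (nat_lit 528) (nat_lit 510) (nat_lit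 162)) (XT.lf (nat_lit 0) (nat_lit 10274222448933) (nat_lit 532) (nat_lit 68535438053) (nat_lit 532) (nat_lit 68535438053) (nat_lit 93) (nat_lit 3) (nat_lit 100) (nat_lit 3) (nat_lit 100) (nat_lit 5) (nat_lit 511) (nat_lit 511) (nat_lit 178))) (XT.nd (nat_lit 78) (nat_lit 532) (nat_lit 0) (XT.lf (nat_lit 76) (nat_lit 10771427392484) (nat_lit 0) (nat_lit 10858008389281) (nat_lit 532) (nat_lit 5330087277) (nat_lit 94) (nat_lit 5) (nat_lit 93) (nat_lit 3) (nat_lit 100) (nat_lit 5) (nat_lit 512) (nat_lit 511) (nat_lit 177)) (XT.lf (nat_lit 76) (nat_lit 44032675974) (nat_lit 0) (nat_lit 231601747401) (nat_lit 608) (nat_lit 22235344360194) (nat_lit 87) (nat_lit 5) (nat_lit 86) (nat_lit 5) (nat_lit 94) (nat_lit 5) (nat_lit 513) (nat_lit 511) (nat_lit 176))))))) (XT.nd (nat_lit 1092) (nat_lit 152) (nat_lit 0) (XT.nd (nat_lit 546) (nat_lit 988) (nat_lit 0) (XT.nd (nat_lit 234) (nat_lit 380) (nat_lit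 0) (XT.nd (nat_lit 78) (nat_lit 0) (nat_lit 0) (XT.lf (nat_lit 0) (nat_lit 1153966472855) (nat_lit 532) (nat_lit 11270019551156) (nat_lit 608) (nat_lit 10987277364449) (nat_lit 87) (nat_lit 5) (nat_lit 94) (nat_lit 5) (nat_lit 95) (nat_lit 5) (nat_lit 514) (nat_lit 511) (nat_lit 175)) (XT.nd (nat_lit 78) (nat_lit 0) (nat_lit 76) (XT.lf (nat_lit 76) (nat_lit 859648604795) (nat_lit 0) (nat_lit 1269606680909) (nat_lit 608) (nat_lit 22252180260087) (nat_lit 88) (nat_lit 5) (nat_lit 87) (nat_lit 5) (nat_lit 95) (nat_lit 5) (nat_lit 515) (nat_lit 511) (nat_lit 174)) (XT.lf (nat_lit 0) (nat_lit 3757903274134) (nat_lit 532) (nat_lit 11071137643841) (nat_lit 608) (nat_lit 10554153672088) (nat_lit 88) (nat_lit 5) (nat_lit 95) (nat_lit 5) (nat_lit 96) (nat_lit 5) (nat_lit 516) (nat_lit 511) (nat_lit 173)))) (XT.nd (nat_lit 156) (nat_lit 456) (nat_lit 0) (XT.nd (nat_lit 78) (nat_lit 0) (nat_lit 76)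 (XT.lf (nat_lit 76) (nat_lit 2465943269647) (nat_lit 0) (nat_lit 3143182623828) (nat_lit 608) (nat_lit 20848585841056) (nat_lit 89) (nat_lit 5) (nat_lit 88) (nat_lit 5) (nat_lit 96) (nat_lit 5) (nat_lit 517) (nat_lit 511) (nat_lit 172)) (XT.lf (nat_lit 0) (nat_lit 8146948469579) (nat_lit 532) (nat_lit 10114155449148) (nat_lit 76) (nat_lit 9314006160052) (nat_lit 89) (nat_lit 5) (nat_lit 96) (nat_lit 5) (nat_lit 90) (nat_lit 5) (nat_lit 518) (nat_lit 511) (nat_lit 171))) (XT.nd (nat_lit 78) (nat_lit 0) (nat_lit 0) (XT.lf (nat_lit 0) (nat_lit 5044365071396) (nat_lit 532) (nat_lit 6046389988761) (nat_lit 608) (nat_lit 17674908573738) (nat_lit 82) (nat_lit 5) (nat_lit 89) (nat_lit 5) (nat_lit 90) (nat_lit 5) (nat_lit 519) (nat_lit 511) (nat_lit 170)) (XT.lf (nat_lit 0) (nat_lit 14725637413459) (nat_lit 608) (nat_lit 8217602444527) (nat_lit 76) (nat_lit 7071775916598) (nat_lit 82) (nat_lit 5)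 (nat_lit 90) (nat_lit 5) (nat_lit 83) (nat_lit 5) (nat_lit 520) (nat_lit 511) (nat_lit 169))))) (XT.nd (nat_lit 234) (nat_lit 532) (nat_lit 0) (XT.nd (nat_lit 78) (nat_lit 228) (nat_lit 0) (XT.lf (nat_lit 0) (nat_lit 8810054899252) (nat_lit 228) (nat_lit 10210186578590) (nat_lit 304) (nat_lit 12314560118859) (nat_lit 79) (nat_lit 5) (nat_lit 82) (nat_lit 5) (nat_lit 83) (nat_lit 5) (nat_lit 521) (nat_lit 511) (nat_lit 168)) (XT.nd (nat_lit 78) (nat_lit 228) (nat_lit 0) (XT.lf (nat_lit 0) (nat_lit 23974107048091) (nat_lit 304) (nat_lit 5165937783579) (nat_lit 76) (nat_lit 3594869998461) (nat_lit 79) (nat_lit 5) (nat_lit 83) (nat_lit 5) (nat_lit 80) (nat_lit 5) (nat_lit 522) (nat_lit 511) (nat_lit 167)) (XT.lf (nat_lit 0) (nat_lit 14017592963629) (nat_lit 228) (nat_lit 15909011999613) (nat_lit 304) (nat_lit 4272246311050) (nat_lit 76) (nat_lit 5) (nat_lit 79) (nat_lit 5) (nat_lit 80) (nat_lit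 5) (nat_lit 523) (nat_lit 511) (nat_lit 166)))) (XT.nd (nat_lit 156) (nat_lit 228) (nat_lit 0) (XT.nd (nat_lit 78) (nat_lit 228) (nat_lit 0) (XT.lf (nat_lit 0) (nat_lit 691530853689) (nat_lit 304) (nat_lit 756512442930) (nat_lit 76) (nat_lit 34319159097044) (nat_lit 75) (nat_lit 5) (nat_lit 79) (nat_lit 5) (nat_lit 76) (nat_lit 5) (nat_lit 524) (nat_lit 511) (nat_lit 165)) (XT.lf (nat_lit 0) (nat_lit 6687634312121) (nat_lit 304) (nat_lit 16598035286239) (nat_lit 76) (nat_lit 14097191698193) (nat_lit 72) (nat_lit 5) (nat_lit 76) (nat_lit 5) (nat_lit 73) (nat_lit 5) (nat_lit 525) (nat_lit 511) (nat_lit 164))) (XT.nd (nat_lit 78) (nat_lit 0) (nat_lit 0) (XT.lf (nat_lit 0) (nat_lit 5187739901608) (nat_lit 228) (nat_lit 8159284576959) (nat_lit 304) (nat_lit 25766060558598) (nat_lit 69) (nat_lit 5) (nat_lit 72) (nat_lit 5) (nat_lit 73) (nat_lit 5) (nat_lit 526) (nat_lit 511) (nat_lit 163)) (XT.lf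 (nat_lit 0) (nat_lit 21201435209071) (nat_lit 304) (nat_lit 11493548674567) (nat_lit 76) (nat_lit 8233761245330) (nat_lit 69) (nat_lit 5) (nat_lit 73) (nat_lit 5) (nat_lit 70) (nat_lit 5) (nat_lit 527) (nat_lit 511) (nat_lit 162)))))) (XT.nd (nat_lit 61698) (nat_lit 0) (nat_lit 608) (XT.nd (nat_lit 61386) (nat_lit 0) (nat_lit 1444) (XT.nd (nat_lit 61230) (nat_lit 0) (nat_lit 1976) (XT.lf (nat_lit 0) (nat_lit 13180188439590) (nat_lit 152) (nat_lit 17032923676905) (nat_lit 228) (nat_lit 12634232846142) (nat_lit 67) (nat_lit 5) (nat_lit 69) (nat_lit 5) (nat_lit 70) (nat_lit 5) (nat_lit 528) (nat_lit 511) (nat_lit 161)) (XT.nd (nat_lit 78) (nat_lit 0) (nat_lit 0) (XT.lf (nat_lit 0) (nat_lit 11096160244987) (nat_lit 532) (nat_lit 74018273022) (nat_lit 532) (nat_lit 74018273022) (nat_lit 93) (nat_lit 3) (nat_lit 100) (nat_lit 3) (nat_lit 100) (nat_lit 5) (nat_lit 512) (nat_lit 512) (nat_lit 176))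 (XT.lf (nat_lit 76) (nat_lit 11633141584029) (nat_lit 0) (nat_lit 11726649060538) (nat_lit 532) (nat_lit 5756493977) (nat_lit 94) (nat_lit 5) (nat_lit 93) (nat_lit 3) (nat_lit 100) (nat_lit 5) (nat_lit 513) (nat_lit 512) (nat_lit 175)))) (XT.nd (nat_lit 156) (nat_lit 0) (nat_lit 76) (XT.nd (nat_lit 78) (nat_lit 0) (nat_lit 76) (XT.lf (nat_lit 76) (nat_lit 47555290208) (nat_lit 0) (nat_lit 250129887288) (nat_lit 608) (nat_lit 24014171908738) (nat_lit 87) (nat_lit 5) (nat_lit 86) (nat_lit 5) (nat_lit 94) (nat_lit 5) (nat_lit 514) (nat_lit 512) (nat_lit 174)) (XT.lf (nat_lit 0) (nat_lit 1246283790915) (nat_lit 532) (nat_lit 12171621115083) (nat_lit 608) (nat_lit 11866259553521) (nat_lit 87) (nat_lit 5) (nat_lit 94) (nat_lit 5) (nat_lit 95) (nat_lit 5) (nat_lit 515) (nat_lit 512) (nat_lit 173))) (XT.nd (nat_lit 78) (nat_lit 0) (nat_lit 76) (XT.lf (nat_lit 76) (nat_lit 928420493340) (nat_lit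 0) (nat_lit 1371175215438) (nat_lit 608) (nat_lit 24032354680659) (nat_lit 88) (nat_lit 5) (nat_lit 87) (nat_lit 5) (nat_lit 95) (nat_lit 5) (nat_lit 516) (nat_lit 512) (nat_lit 172)) (XT.lf (nat_lit 0) (nat_lit 4058535536265) (nat_lit 532) (nat_lit 11956828655182) (nat_lit 608) (nat_lit 11398485965806) (nat_lit 88) (nat_lit 5) (nat_lit 95) (nat_lit 5) (nat_lit 96) (nat_lit 5) (nat_lit 517) (nat_lit 512) (nat_lit 171))))) (XT.nd (nat_lit 312) (nat_lit 532) (nat_lit 0) (XT.nd (nat_lit 156) (nat_lit 456) (nat_lit 0) (XT.nd (nat_lit 78) (nat_lit 0) (nat_lit 76) (XT.lf (nat_lit 76) (nat_lit 2663218731382) (nat_lit 0) (nat_lit 3394637233761) (nat_lit 608) (nat_lit 22516472708136) (nat_lit 89) (nat_lit 5) (nat_lit 88) (nat_lit 5) (nat_lit 96) (nat_lit 5) (nat_lit 518) (nat_lit 512) (nat_lit 170)) (XT.lf (nat_lit 0) (nat_lit 8798704347320) (nat_lit 532) (nat_lit 10923287884915) (nat_lit 76) (nat_lit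 10059126652832) (nat_lit 89) (nat_lit 5) (nat_lit 96) (nat_lit 5) (nat_lit 90) (nat_lit 5) (nat_lit 519) (nat_lit 512) (nat_lit 169))) (XT.nd (nat_lit 78) (nat_lit 0) (nat_lit 0) (XT.lf (nat_lit 0) (nat_lit 5447914277268) (nat_lit 532) (nat_lit 6530101187867) (nat_lit 608) (nat_lit 19088901259459) (nat_lit 82) (nat_lit 5) (nat_lit 89) (nat_lit 5) (nat_lit 90) (nat_lit 5) (nat_lit 520) (nat_lit 512) (nat_lit 168)) (XT.lf (nat_lit 0) (nat_lit 15903688406689) (nat_lit 608) (nat_lit 8875010639928) (nat_lit 76) (nat_lit 7637517989921) (nat_lit 82) (nat_lit 5) (nat_lit 90) (nat_lit 5) (nat_lit 83) (nat_lit 5) (nat_lit 521) (nat_lit 512) (nat_lit 167)))) (XT.nd (nat_lit 156) (nat_lit 304) (nat_lit 0) (XT.nd (nat_lit 78) (nat_lit 0) (nat_lit 0) (XT.lf (nat_lit 0) (nat_lit 9514859291349) (nat_lit 228) (nat_lit 11027001504865) (nat_lit 304) (nat_lit 13299724928211) (nat_lit 79) (nat_lit 5) (nat_lit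 82) (nat_lit 5) (nat_lit 83) (nat_lit 5) (nat_lit 522) (nat_lit 512) (nat_lit 166)) (XT.lf (nat_lit 0) (nat_lit 25892035612073) (nat_lit 304) (nat_lit 5579212806109) (nat_lit 76) (nat_lit 3882459598348) (nat_lit 79) (nat_lit 5) (nat_lit 83) (nat_lit 5) (nat_lit 80) (nat_lit 5) (nat_lit 523) (nat_lit 512) (nat_lit 165))) (XT.nd (nat_lit 78) (nat_lit 76) (nat_lit 0) (XT.lf (nat_lit 0) (nat_lit 15139000400871) (nat_lit 228) (nat_lit 17181732959559) (nat_lit 304) (nat_lit 4614026015795) (nat_lit 76) (nat_lit 5) (nat_lit 79) (nat_lit 5) (nat_lit 80) (nat_lit 5) (nat_lit 524) (nat_lit 512) (nat_lit 164)) (XT.lf (nat_lit 0) (nat_lit 746853322106) (nat_lit 304) (nat_lit 817033438217) (nat_lit 76) (nat_lit 37064691824823) (nat_lit 75) (nat_lit 5) (nat_lit 79) (nat_lit 5) (nat_lit 76) (nat_lit 5) (nat_lit 525) (nat_lit 512) (nat_lit 163))))))))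
noncomputable def xc254 : XT := (XT.nd (nat_lit 124722) (nat_lit 0) (nat_lit 228) (XT.nd (nat_lit 62322) (nat_lit 0) (nat_lit 0) (XT.nd (nat_lit 61776) (nat_lit 0) (nat_lit 760) (XT.nd (nat_lit 61464) (nat_lit 0) (nat_lit 1292) (XT.nd (nat_lit 78) (nat_lit 228) (nat_lit 0) (XT.lf (nat_lit 0) (nat_lit 7222645057208) (nat_lit 304) (nat_lit 17925878108986) (nat_lit 76) (nat_lit 15224967034074) (nat_lit 72) (nat_lit 5) (nat_lit 76) (nat_lit 5) (nat_lit 73) (nat_lit 5) (nat_lit 526) (nat_lit 512) (nat_lit 162)) (XT.nd (nat_lit 78) (nat_lit 0) (nat_lit 0) (XT.lf (nat_lit 0) (nat_lit 5602759093885) (nat_lit 228) (nat_lit 8812027343080) (nat_lit 304) (nat_lit 27827345403164) (nat_lit 69) (nat_lit 5) (nat_lit 72) (nat_lit 5) (nat_lit 73) (nat_lit 5) (nat_lit 527) (nat_lit 512) (nat_lit 161)) (XT.lf (nat_lit 0) (nat_lit 22897550025901) (nat_lit 304) (nat_lit 12413032568388) (nat_lit 76) (nat_lit 8892462144988)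 (nat_lit 69) (nat_lit 5) (nat_lit 73) (nat_lit 5) (nat_lit 70) (nat_lit 5) (nat_lit 528) (nat_lit 512) (nat_lit 160)))) (XT.nd (nat_lit 156) (nat_lit 532) (nat_lit 0) (XT.nd (nat_lit 78) (nat_lit 0) (nat_lit 0) (XT.lf (nat_lit 0) (nat_lit 11983853064705) (nat_lit 532) (nat_lit 79939734799) (nat_lit 532) (nat_lit 79939734799) (nat_lit 93) (nat_lit 3) (nat_lit 100) (nat_lit 3) (nat_lit 100) (nat_lit 5) (nat_lit 513) (nat_lit 513) (nat_lit 174)) (XT.lf (nat_lit 76) (nat_lit 12563792910877) (nat_lit 0) (nat_lit 12664780985480) (nat_lit 532) (nat_lit 6217013253) (nat_lit 94) (nat_lit 5) (nat_lit 93) (nat_lit 3) (nat_lit 100) (nat_lit 5) (nat_lit 514) (nat_lit 513) (nat_lit 173))) (XT.nd (nat_lit 78) (nat_lit 0) (nat_lit 76) (XT.lf (nat_lit 76) (nat_lit 51359713559) (nat_lit 0) (nat_lit 270140278353) (nat_lit 608) (nat_lit 25935305661204) (nat_lit 87) (nat_lit 5) (nat_lit 86) (nat_lit 5) (nat_lit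 94) (nat_lit 5) (nat_lit 515) (nat_lit 513) (nat_lit 172)) (XT.lf (nat_lit 0) (nat_lit 1345986494386) (nat_lit 532) (nat_lit 13145350804148) (nat_lit 608) (nat_lit 12815560317731) (nat_lit 87) (nat_lit 5) (nat_lit 94) (nat_lit 5) (nat_lit 95) (nat_lit 5) (nat_lit 516) (nat_lit 513) (nat_lit 171))))) (XT.nd (nat_lit 234) (nat_lit 608) (nat_lit 0) (XT.nd (nat_lit 78) (nat_lit 0) (nat_lit 76) (XT.lf (nat_lit 76) (nat_lit 1002694132945) (nat_lit 0) (nat_lit 1480869232722) (nat_lit 608) (nat_lit 25954943054910) (nat_lit 88) (nat_lit 5) (nat_lit 87) (nat_lit 5) (nat_lit 95) (nat_lit 5) (nat_lit 517) (nat_lit 513) (nat_lit 170)) (XT.nd (nat_lit 78) (nat_lit 0) (nat_lit 0) (XT.lf (nat_lit 0) (nat_lit 4383218379339) (nat_lit 532) (nat_lit 12913374947453) (nat_lit 608) (nat_lit 12310364843027) (nat_lit 88) (nat_lit 5) (nat_lit 95) (nat_lit 5) (nat_lit 96) (nat_lit 5) (nat_lit 518) (nat_lit 513) (nat_lit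 169)) (XT.lf (nat_lit 76) (nat_lit 2876276230032) (nat_lit 0) (nat_lit 3666208212485) (nat_lit 608) (nat_lit 24317790524611) (nat_lit 89) (nat_lit 5) (nat_lit 88) (nat_lit 5) (nat_lit 96) (nat_lit 5) (nat_lit 519) (nat_lit 513) (nat_lit 168)))) (XT.nd (nat_lit 156) (nat_lit 228) (nat_lit 0) (XT.nd (nat_lit 78) (nat_lit 532) (nat_lit 0) (XT.lf (nat_lit 0) (nat_lit 9502600695256) (nat_lit 532) (nat_lit 11797150915566) (nat_lit 76) (nat_lit 10863856785039) (nat_lit 89) (nat_lit 5) (nat_lit 96) (nat_lit 5) (nat_lit 90) (nat_lit 5) (nat_lit 520) (nat_lit 513) (nat_lit 167)) (XT.lf (nat_lit 0) (nat_lit 5883747419588) (nat_lit 532) (nat_lit 7052509282901) (nat_lit 608) (nat_lit 20616013360062) (nat_lit 82) (nat_lit 5) (nat_lit 89) (nat_lit 5) (nat_lit 90) (nat_lit 5) (nat_lit 521) (nat_lit 513) (nat_lit 166))) (XT.nd (nat_lit 78) (nat_lit 228) (nat_lit 0) (XT.lf (nat_lit 0) (nat_lit 17175983479356)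 (nat_lit 608) (nat_lit 9585011490984) (nat_lit 76) (nat_lit 8248519429111) (nat_lit 82) (nat_lit 5) (nat_lit 90) (nat_lit 5) (nat_lit 83) (nat_lit 5) (nat_lit 522) (nat_lit 513) (nat_lit 165)) (XT.lf (nat_lit 0) (nat_lit 10276048034792) (nat_lit 228) (nat_lit 11909161625245) (nat_lit 304) (nat_lit 14363702922333) (nat_lit 79) (nat_lit 5) (nat_lit 82) (nat_lit 5) (nat_lit 83) (nat_lit 5) (nat_lit 523) (nat_lit 513) (nat_lit 164)))))) (XT.nd (nat_lit 61854) (nat_lit 0) (nat_lit 988) (XT.nd (nat_lit 234) (nat_lit 456) (nat_lit 0) (XT.nd (nat_lit 78) (nat_lit 304) (nat_lit 0) (XT.lf (nat_lit 0) (nat_lit 27963398461155) (nat_lit 304) (nat_lit 6025549830464) (nat_lit 76) (nat_lit 4193056366224) (nat_lit 79) (nat_lit 5) (nat_lit 83) (nat_lit 5) (nat_lit 80) (nat_lit 5) (nat_lit 524) (nat_lit 513) (nat_lit 163)) (XT.nd (nat_lit 78) (nat_lit 76) (nat_lit 0) (XT.lf (nat_lit 0) (nat_lit 16350120433072)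 (nat_lit 228) (nat_lit 18556271596303) (nat_lit 304) (nat_lit 4983148096939) (nat_lit 76) (nat_lit 5) (nat_lit 79) (nat_lit 5) (nat_lit 80) (nat_lit 5) (nat_lit 525) (nat_lit 513) (nat_lit 162)) (XT.lf (nat_lit 0) (nat_lit 806601587980) (nat_lit 304) (nat_lit 882396113148) (nat_lit 76) (nat_lit 40029867170822) (nat_lit 75) (nat_lit 5) (nat_lit 79) (nat_lit 5) (nat_lit 76) (nat_lit 5) (nat_lit 526) (nat_lit 513) (nat_lit 161)))) (XT.nd (nat_lit 61464) (nat_lit 0) (nat_lit 1824) (XT.nd (nat_lit 78) (nat_lit 228) (nat_lit 0) (XT.lf (nat_lit 0) (nat_lit 7800456661886) (nat_lit 304) (nat_lit 19359948357574) (nat_lit 76) (nat_lit 16442964396822) (nat_lit 72) (nat_lit 5) (nat_lit 76) (nat_lit 5) (nat_lit 73) (nat_lit 5) (nat_lit 527) (nat_lit 513) (nat_lit 160)) (XT.lf (nat_lit 0) (nat_lit 6050979821524) (nat_lit 228) (nat_lit 9516989530495) (nat_lit 304) (nat_lit 30053533035313) (nat_lit 69) (nat_lit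 5) (nat_lit 72) (nat_lit 5) (nat_lit 73) (nat_lit 5) (nat_lit 528) (nat_lit 513) (nat_lit 159))) (XT.nd (nat_lit 78) (nat_lit 0) (nat_lit 0) (XT.lf (nat_lit 0) (nat_lit 12942561309983) (nat_lit 532) (nat_lit 86334913528) (nat_lit 532) (nat_lit 86334913528) (nat_lit 93) (nat_lit 3) (nat_lit 100) (nat_lit 3) (nat_lit 100) (nat_lit 5) (nat_lit 514) (nat_lit 514) (nat_lit 172)) (XT.lf (nat_lit 76) (nat_lit 13568896343855) (nat_lit 0) (nat_lit 13677963464403) (nat_lit 532) (nat_lit 6714374106) (nat_lit 94) (nat_lit 5) (nat_lit 93) (nat_lit 3) (nat_lit 100) (nat_lit 5) (nat_lit 515) (nat_lit 514) (nat_lit 171))))) (XT.nd (nat_lit 234) (nat_lit 304) (nat_lit 0) (XT.nd (nat_lit 78) (nat_lit 0) (nat_lit 76) (XT.lf (nat_lit 76) (nat_lit 55468490758) (nat_lit 0) (nat_lit 291751500691) (nat_lit 608) (nat_lit 28010130113900) (nat_lit 87) (nat_lit 5) (nat_lit 86) (nat_lit 5) (nat_lit 94) (nat_lit 5) (nat_lit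 516) (nat_lit 514) (nat_lit 170)) (XT.nd (nat_lit 78) (nat_lit 0) (nat_lit 0) (XT.lf (nat_lit 0) (nat_lit 1453665414107) (nat_lit 532) (nat_lit 14196978868358) (nat_lit 608) (nat_lit 13840805143087) (nat_lit 87) (nat_lit 5) (nat_lit 94) (nat_lit 5) (nat_lit 95) (nat_lit 5) (nat_lit 517) (nat_lit 514) (nat_lit 169)) (XT.lf (nat_lit 76) (nat_lit 1082909663700) (nat_lit 0) (nat_lit 1599338771381) (nat_lit 608) (nat_lit 28031338499130) (nat_lit 88) (nat_lit 5) (nat_lit 87) (nat_lit 5) (nat_lit 95) (nat_lit 5) (nat_lit 518) (nat_lit 514) (nat_lit 168)))) (XT.nd (nat_lit 156) (nat_lit 456) (nat_lit 0) (XT.nd (nat_lit 78) (nat_lit 0) (nat_lit 0) (XT.lf (nat_lit 0) (nat_lit 4733875849833) (nat_lit 532) (nat_lit 13946444943126) (nat_lit 608) (nat_lit 13295194030434) (nat_lit 88) (nat_lit 5) (nat_lit 95) (nat_lit 5) (nat_lit 96) (nat_lit 5) (nat_lit 519) (nat_lit 514) (nat_lit 167)) (XT.lf (nat_lit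 76) (nat_lit 3106378328554) (nat_lit 0) (nat_lit 3959504869503) (nat_lit 608) (nat_lit 26263213766430) (nat_lit 89) (nat_lit 5) (nat_lit 88) (nat_lit 5) (nat_lit 96) (nat_lit 5) (nat_lit 520) (nat_lit 514) (nat_lit 166))) (XT.nd (nat_lit 78) (nat_lit 532) (nat_lit 0) (XT.lf (nat_lit 0) (nat_lit 10262808751005) (nat_lit 532) (nat_lit 12740922988690) (nat_lit 76) (nat_lit 11732965327825) (nat_lit 89) (nat_lit 5) (nat_lit 96) (nat_lit 5) (nat_lit 90) (nat_lit 5) (nat_lit 521) (nat_lit 514) (nat_lit 165)) (XT.lf (nat_lit 0) (nat_lit 6354447213274) (nat_lit 532) (nat_lit 7616710025536) (nat_lit 608) (nat_lit 22265294428735) (nat_lit 82) (nat_lit 5) (nat_lit 89) (nat_lit 5) (nat_lit 90) (nat_lit 5) (nat_lit 522) (nat_lit 514) (nat_lit 164))))))) (XT.nd (nat_lit 62478) (nat_lit 0) (nat_lit 304) (XT.nd (nat_lit 61932) (nat_lit 0) (nat_lit 1064) (XT.nd (nat_lit 234) (nat_lit 532) (nat_lit 0) (XT.nd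 (nat_lit 78) (nat_lit 228) (nat_lit 0) (XT.lf (nat_lit 0) (nat_lit 18550062157817) (nat_lit 608) (nat_lit 10351812410143) (nat_lit 76) (nat_lit 8908400983437) (nat_lit 82) (nat_lit 5) (nat_lit 90) (nat_lit 5) (nat_lit 83) (nat_lit 5) (nat_lit 523) (nat_lit 514) (nat_lit 163)) (XT.nd (nat_lit 78) (nat_lit 0) (nat_lit 0) (XT.lf (nat_lit 0) (nat_lit 11098131877692) (nat_lit 228) (nat_lit 12861894555256) (nat_lit 304) (nat_lit 15512799156003) (nat_lit 79) (nat_lit 5) (nat_lit 82) (nat_lit 5) (nat_lit 83) (nat_lit 5) (nat_lit 524) (nat_lit 514) (nat_lit 162)) (XT.lf (nat_lit 0) (nat_lit 30200470338147) (nat_lit 304) (nat_lit 6507593816786) (nat_lit 76) (nat_lit 4528500875530) (nat_lit 79) (nat_lit 5) (nat_lit 83) (nat_lit 5) (nat_lit 80) (nat_lit 5) (nat_lit 525) (nat_lit 514) (nat_lit 161)))) (XT.nd (nat_lit 156) (nat_lit 228) (nat_lit 0) (XT.nd (nat_lit 78) (nat_lit 76) (nat_lit 0) (XT.lf (nat_lit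 0) (nat_lit 17658130067830) (nat_lit 228) (nat_lit 20040773323990) (nat_lit 304) (nat_lit 5381799944592) (nat_lit 76) (nat_lit 5) (nat_lit 79) (nat_lit 5) (nat_lit 80) (nat_lit 5) (nat_lit 526) (nat_lit 514) (nat_lit 160)) (XT.lf (nat_lit 0) (nat_lit 871129715108) (nat_lit 304) (nat_lit 952987802091) (nat_lit 76) (nat_lit 43232256544500) (nat_lit 75) (nat_lit 5) (nat_lit 79) (nat_lit 5) (nat_lit 76) (nat_lit 5) (nat_lit 527) (nat_lit 514) (nat_lit 159))) (XT.nd (nat_lit 61464) (nat_lit 0) (nat_lit 1596) (XT.lf (nat_lit 0) (nat_lit 8424493194923) (nat_lit 304) (nat_lit 20908744226067) (nat_lit 76) (nat_lit 17758401548586) (nat_lit 72) (nat_lit 5) (nat_lit 76) (nat_lit 5) (nat_lit 73) (nat_lit 5) (nat_lit 528) (nat_lit 514) (nat_lit 158)) (XT.lf (nat_lit 0) (nat_lit 13977966214870) (nat_lit 532) (nat_lit 93241706563) (nat_lit 532) (nat_lit 93241706563) (nat_lit 93) (nat_lit 3) (nat_lit 100)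 (nat_lit 3) (nat_lit 100) (nat_lit 5) (nat_lit 515) (nat_lit 515) (nat_lit 170))))) (XT.nd (nat_lit 234) (nat_lit 0) (nat_lit 76) (XT.nd (nat_lit 78) (nat_lit 532) (nat_lit 0) (XT.lf (nat_lit 76) (nat_lit 14654408051456) (nat_lit 0) (nat_lit 14772200541627) (nat_lit 532) (nat_lit 7251523857) (nat_lit 94) (nat_lit 5) (nat_lit 93) (nat_lit 3) (nat_lit 100) (nat_lit 5) (nat_lit 516) (nat_lit 515) (nat_lit 169)) (XT.nd (nat_lit 78) (nat_lit 0) (nat_lit 76) (XT.lf (nat_lit 76) (nat_lit 59905970118) (nat_lit 0) (nat_lit 315091620807) (nat_lit 608) (nat_lit 30250940522841) (nat_lit 87) (nat_lit 5) (nat_lit 86) (nat_lit 5) (nat_lit 94) (nat_lit 5) (nat_lit 517) (nat_lit 515) (nat_lit 168)) (XT.lf (nat_lit 0) (nat_lit 1569958647381) (nat_lit 532) (nat_lit 15332737177722) (nat_lit 608) (nat_lit 14948069554482) (nat_lit 87) (nat_lit 5) (nat_lit 94) (nat_lit 5) (nat_lit 95) (nat_lit 5) (nat_lit 518)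 (nat_lit 515) (nat_lit 167)))) (XT.nd (nat_lit 156) (nat_lit 0) (nat_lit 76) (XT.nd (nat_lit 78) (nat_lit 0) (nat_lit 76) (XT.lf (nat_lit 76) (nat_lit 1169542436898) (nat_lit 0) (nat_lit 1727285873126) (nat_lit 608) (nat_lit 30273845578912) (nat_lit 88) (nat_lit 5) (nat_lit 87) (nat_lit 5) (nat_lit 95) (nat_lit 5) (nat_lit 519) (nat_lit 515) (nat_lit 166)) (XT.lf (nat_lit 0) (nat_lit 5112585917946) (nat_lit 532) (nat_lit 15062160538471) (nat_lit 608) (nat_lit 14358809552837) (nat_lit 88) (nat_lit 5) (nat_lit 95) (nat_lit 5) (nat_lit 96) (nat_lit 5) (nat_lit 520) (nat_lit 515) (nat_lit 165))) (XT.nd (nat_lit 78) (nat_lit 0) (nat_lit 76) (XT.lf (nat_lit 76) (nat_lit 3354888594941) (nat_lit 0) (nat_lit 4276265259080) (nat_lit 608) (nat_lit 28364270867615) (nat_lit 89) (nat_lit 5) (nat_lit 88) (nat_lit 5) (nat_lit 96) (nat_lit 5) (nat_lit 521) (nat_lit 515) (nat_lit 164)) (XT.lf (nat_lit 0)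 (nat_lit 11083833451196) (nat_lit 532) (nat_lit 13760196827681) (nat_lit 76) (nat_lit 12671602554036) (nat_lit 89) (nat_lit 5) (nat_lit 96) (nat_lit 5) (nat_lit 90) (nat_lit 5) (nat_lit 522) (nat_lit 515) (nat_lit 163)))))) (XT.nd (nat_lit 62088) (nat_lit 0) (nat_lit 456) (XT.nd (nat_lit 234) (nat_lit 228) (nat_lit 0) (XT.nd (nat_lit 78) (nat_lit 228) (nat_lit 0) (XT.lf (nat_lit 0) (nat_lit 6862802990437) (nat_lit 532) (nat_lit 8226046827582) (nat_lit 608) (nat_lit 24046517982921) (nat_lit 82) (nat_lit 5) (nat_lit 89) (nat_lit 5) (nat_lit 90) (nat_lit 5) (nat_lit 523) (nat_lit 515) (nat_lit 162)) (XT.nd (nat_lit 78) (nat_lit 228) (nat_lit 0) (XT.lf (nat_lit 0) (nat_lit 20034067130539) (nat_lit 608) (nat_lit 11179957402853) (nat_lit 76) (nat_lit 9621073062110) (nat_lit 82) (nat_lit 5) (nat_lit 90) (nat_lit 5) (nat_lit 83) (nat_lit 5) (nat_lit 524) (nat_lit 515) (nat_lit 161)) (XT.lf (nat_lit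 0) (nat_lit 11985982428007) (nat_lit 228) (nat_lit 13890846119668) (nat_lit 304) (nat_lit 16753823088384) (nat_lit 79) (nat_lit 5) (nat_lit 82) (nat_lit 5) (nat_lit 83) (nat_lit 5) (nat_lit 525) (nat_lit 515) (nat_lit 160)))) (XT.nd (nat_lit 61698) (nat_lit 0) (nat_lit 1292) (XT.nd (nat_lit 78) (nat_lit 228) (nat_lit 0) (XT.lf (nat_lit 0) (nat_lit 32616507965284) (nat_lit 304) (nat_lit 7028201322030) (nat_lit 76) (nat_lit 4890780945579) (nat_lit 79) (nat_lit 5) (nat_lit 83) (nat_lit 5) (nat_lit 80) (nat_lit 5) (nat_lit 526) (nat_lit 515) (nat_lit 159)) (XT.lf (nat_lit 0) (nat_lit 19070780473352) (nat_lit 228) (nat_lit 21644035189895) (nat_lit 304) (nat_lit 5812343940072) (nat_lit 76) (nat_lit 5) (nat_lit 79) (nat_lit 5) (nat_lit 80) (nat_lit 5) (nat_lit 527) (nat_lit 515) (nat_lit 158))) (XT.nd (nat_lit 78) (nat_lit 0) (nat_lit 0) (XT.lf (nat_lit 0) (nat_lit 15096203512135) (nat_lit 532)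 (nat_lit 100701043047) (nat_lit 532) (nat_lit 100701043047) (nat_lit 93) (nat_lit 3) (nat_lit 100) (nat_lit 3) (nat_lit 100) (nat_lit 5) (nat_lit 516) (nat_lit 516) (nat_lit 168)) (XT.lf (nat_lit 76) (nat_lit 15826760695651) (nat_lit 0) (nat_lit 15953976585019) (nat_lit 532) (nat_lit 7831645613) (nat_lit 94) (nat_lit 5) (nat_lit 93) (nat_lit 3) (nat_lit 100) (nat_lit 5) (nat_lit 517) (nat_lit 516) (nat_lit 167))))) (XT.nd (nat_lit 312) (nat_lit 304) (nat_lit 0) (XT.nd (nat_lit 156) (nat_lit 0) (nat_lit 76) (XT.nd (nat_lit 78) (nat_lit 0) (nat_lit 76) (XT.lf (nat_lit 76) (nat_lit 64698447812) (nat_lit 0) (nat_lit 340298950523) (nat_lit 608) (nat_lit 32671015764521) (nat_lit 87) (nat_lit 5) (nat_lit 86) (nat_lit 5) (nat_lit 94) (nat_lit 5) (nat_lit 518) (nat_lit 516) (nat_lit 166)) (XT.lf (nat_lit 0) (nat_lit 1695555339296) (nat_lit 532) (nat_lit 16559356151850) (nat_lit 608) (nat_lit 16143915118795)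 (nat_lit 87) (nat_lit 5) (nat_lit 94) (nat_lit 5) (nat_lit 95) (nat_lit 5) (nat_lit 519) (nat_lit 516) (nat_lit 165))) (XT.nd (nat_lit 78) (nat_lit 0) (nat_lit 76) (XT.lf (nat_lit 76) (nat_lit 1263105831937) (nat_lit 0) (nat_lit 1865468743007) (nat_lit 608) (nat_lit 32695753225098) (nat_lit 88) (nat_lit 5) (nat_lit 87) (nat_lit 5) (nat_lit 95) (nat_lit 5) (nat_lit 520) (nat_lit 516) (nat_lit 164)) (XT.lf (nat_lit 0) (nat_lit 5521592791490) (nat_lit 532) (nat_lit 16267133381459) (nat_lit 608) (nat_lit 15507514317037) (nat_lit 88) (nat_lit 5) (nat_lit 95) (nat_lit 5) (nat_lit 96) (nat_lit 5) (nat_lit 521) (nat_lit 516) (nat_lit 163)))) (XT.nd (nat_lit 156) (nat_lit 456) (nat_lit 0) (XT.nd (nat_lit 78) (nat_lit 0) (nat_lit 76) (XT.lf (nat_lit 76) (nat_lit 3623279682624) (nat_lit 0) (nat_lit 4618366479821) (nat_lit 608) (nat_lit 30633412536914) (nat_lit 89) (nat_lit 5) (nat_lit 88) (nat_lit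 5) (nat_lit 96) (nat_lit 5) (nat_lit 522) (nat_lit 516) (nat_lit 162)) (XT.lf (nat_lit 0) (nat_lit 11970540127386) (nat_lit 532) (nat_lit 14861012573806) (nat_lit 76) (nat_lit 13685330758346) (nat_lit 89) (nat_lit 5) (nat_lit 96) (nat_lit 5) (nat_lit 90) (nat_lit 5) (nat_lit 523) (nat_lit 516) (nat_lit 161))) (XT.nd (nat_lit 78) (nat_lit 0) (nat_lit 0) (XT.lf (nat_lit 0) (nat_lit 7411827229759) (nat_lit 532) (nat_lit 8884130573791) (nat_lit 608) (nat_lit 25970239421458) (nat_lit 82) (nat_lit 5) (nat_lit 89) (nat_lit 5) (nat_lit 90) (nat_lit 5) (nat_lit 524) (nat_lit 516) (nat_lit 160)) (XT.lf (nat_lit 0) (nat_lit 21636792501065) (nat_lit 608) (nat_lit 12074353994994) (nat_lit 76) (nat_lit 10390758907077) (nat_lit 82) (nat_lit 5) (nat_lit 90) (nat_lit 5) (nat_lit 83) (nat_lit 5) (nat_lit 525) (nat_lit 516) (nat_lit 159))))))))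
noncomputable def xc255 : XT := (XT.nd (nat_lit 187278) (nat_lit 0) (nat_lit 228) (XT.nd (nat_lit 124410) (nat_lit 0) (nat_lit 228) (XT.nd (nat_lit 62166) (nat_lit 0) (nat_lit 0) (XT.nd (nat_lit 61854) (nat_lit 0) (nat_lit 532) (XT.nd (nat_lit 78) (nat_lit 0) (nat_lit 0) (XT.lf (nat_lit 0) (nat_lit 12944861022332) (nat_lit 228) (nat_lit 15002113809236) (nat_lit 304) (nat_lit 18094128935370) (nat_lit 79) (nat_lit 5) (nat_lit 82) (nat_lit 5) (nat_lit 83) (nat_lit 5) (nat_lit 526) (nat_lit 516) (nat_lit 158)) (XT.nd (nat_lit 61698) (nat_lit 0) (nat_lit 1064) (XT.lf (nat_lit 0) (nat_lit 35225828602580) (nat_lit 304) (nat_lit 7590457427708) (nat_lit 76) (nat_lit 5282043421231) (nat_lit 79) (nat_lit 5) (nat_lit 83) (nat_lit 5) (nat_lit 80) (nat_lit 5) (nat_lit 527) (nat_lit 516) (nat_lit 157)) (XT.lf (nat_lit 0) (nat_lit 16303899793170) (nat_lit 532) (nat_lit 108757126456) (nat_lit 532) (nat_lit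 108757126456) (nat_lit 93) (nat_lit 3) (nat_lit 100) (nat_lit 3) (nat_lit 100) (nat_lit 5) (nat_lit 517) (nat_lit 517) (nat_lit 166)))) (XT.nd (nat_lit 156) (nat_lit 0) (nat_lit 76) (XT.nd (nat_lit 78) (nat_lit 532) (nat_lit 0) (XT.lf (nat_lit 76) (nat_lit 17092901551371) (nat_lit 0) (nat_lit 17230294711874) (nat_lit 532) (nat_lit 8458177132) (nat_lit 94) (nat_lit 5) (nat_lit 93) (nat_lit 3) (nat_lit 100) (nat_lit 5) (nat_lit 518) (nat_lit 517) (nat_lit 165)) (XT.lf (nat_lit 76) (nat_lit 69874323710) (nat_lit 0) (nat_lit 367522866609) (nat_lit 608) (nat_lit 35284697025557) (nat_lit 87) (nat_lit 5) (nat_lit 86) (nat_lit 5) (nat_lit 94) (nat_lit 5) (nat_lit 519) (nat_lit 517) (nat_lit 164))) (XT.nd (nat_lit 78) (nat_lit 0) (nat_lit 0) (XT.lf (nat_lit 0) (nat_lit 1831199766547) (nat_lit 532) (nat_lit 17884104643921) (nat_lit 608) (nat_lit 17435428328260) (nat_lit 87) (nat_lit 5) (nat_lit 94)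 (nat_lit 5) (nat_lit 95) (nat_lit 5) (nat_lit 520) (nat_lit 517) (nat_lit 163)) (XT.lf (nat_lit 76) (nat_lit 1364154298567) (nat_lit 0) (nat_lit 2014706242474) (nat_lit 608) (nat_lit 35311413482997) (nat_lit 88) (nat_lit 5) (nat_lit 87) (nat_lit 5) (nat_lit 95) (nat_lit 5) (nat_lit 521) (nat_lit 517) (nat_lit 162))))) (XT.nd (nat_lit 234) (nat_lit 684) (nat_lit 0) (XT.nd (nat_lit 78) (nat_lit 0) (nat_lit 0) (XT.lf (nat_lit 0) (nat_lit 5963320214902) (nat_lit 532) (nat_lit 17568504051898) (nat_lit 608) (nat_lit 16748115462378) (nat_lit 88) (nat_lit 5) (nat_lit 95) (nat_lit 5) (nat_lit 96) (nat_lit 5) (nat_lit 522) (nat_lit 517) (nat_lit 161)) (XT.nd (nat_lit 78) (nat_lit 0) (nat_lit 76) (XT.lf (nat_lit 76) (nat_lit 3913142057310) (nat_lit 0) (nat_lit 4987835798219) (nat_lit 608) (nat_lit 33084085539772) (nat_lit 89) (nat_lit 5) (nat_lit 88) (nat_lit 5) (nat_lit 96) (nat_lit 5) (nat_lit 523)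 (nat_lit 517) (nat_lit 160)) (XT.lf (nat_lit 0) (nat_lit 12928183337658) (nat_lit 532) (nat_lit 16049893579634) (nat_lit 76) (nat_lit 14780157219003) (nat_lit 89) (nat_lit 5) (nat_lit 96) (nat_lit 5) (nat_lit 90) (nat_lit 5) (nat_lit 524) (nat_lit 517) (nat_lit 159)))) (XT.nd (nat_lit 156) (nat_lit 228) (nat_lit 0) (XT.nd (nat_lit 78) (nat_lit 0) (nat_lit 0) (XT.lf (nat_lit 0) (nat_lit 8004773408215) (nat_lit 532) (nat_lit 9594861019696) (nat_lit 608) (nat_lit 28047858575092) (nat_lit 82) (nat_lit 5) (nat_lit 89) (nat_lit 5) (nat_lit 90) (nat_lit 5) (nat_lit 525) (nat_lit 517) (nat_lit 158)) (XT.lf (nat_lit 0) (nat_lit 23367735901222) (nat_lit 608) (nat_lit 13040302314518) (nat_lit 76) (nat_lit 11222019619641) (nat_lit 82) (nat_lit 5) (nat_lit 90) (nat_lit 5) (nat_lit 83) (nat_lit 5) (nat_lit 526) (nat_lit 517) (nat_lit 157))) (XT.nd (nat_lit 61776) (nat_lit 0) (nat_lit 1064) (XT.lf (nat_lit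 0) (nat_lit 13980449904192) (nat_lit 228) (nat_lit 16202282913969) (nat_lit 304) (nat_lit 19541659250127) (nat_lit 79) (nat_lit 5) (nat_lit 82) (nat_lit 5) (nat_lit 83) (nat_lit 5) (nat_lit 527) (nat_lit 517) (nat_lit 156)) (XT.lf (nat_lit 0) (nat_lit 17608211776679) (nat_lit 532) (nat_lit 117457696543) (nat_lit 532) (nat_lit 117457696543) (nat_lit 93) (nat_lit 3) (nat_lit 100) (nat_lit 3) (nat_lit 100) (nat_lit 5) (nat_lit 518) (nat_lit 518) (nat_lit 164)))))) (XT.nd (nat_lit 546) (nat_lit 304) (nat_lit 0) (XT.nd (nat_lit 234) (nat_lit 0) (nat_lit 76) (XT.nd (nat_lit 78) (nat_lit 532) (nat_lit 0) (XT.lf (nat_lit 76) (nat_lit 18460333675539) (nat_lit 0) (nat_lit 18608718288869) (nat_lit 532) (nat_lit 9134831190) (nat_lit 94) (nat_lit 5) (nat_lit 93) (nat_lit 3) (nat_lit 100) (nat_lit 5) (nat_lit 519) (nat_lit 518) (nat_lit 163)) (XT.nd (nat_lit 78) (nat_lit 0) (nat_lit 76) (XT.lf (nat_lit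 76) (nat_lit 75464269668) (nat_lit 0) (nat_lit 396924695975) (nat_lit 608) (nat_lit 38107472787493) (nat_lit 87) (nat_lit 5) (nat_lit 86) (nat_lit 5) (nat_lit 94) (nat_lit 5) (nat_lit 520) (nat_lit 518) (nat_lit 162)) (XT.lf (nat_lit 0) (nat_lit 1977695747963) (nat_lit 532) (nat_lit 19314833015369) (nat_lit 608) (nat_lit 18830262594488) (nat_lit 87) (nat_lit 5) (nat_lit 94) (nat_lit 5) (nat_lit 95) (nat_lit 5) (nat_lit 521) (nat_lit 518) (nat_lit 161)))) (XT.nd (nat_lit 156) (nat_lit 0) (nat_lit 76) (XT.nd (nat_lit 78) (nat_lit 0) (nat_lit 76) (XT.lf (nat_lit 76) (nat_lit 1473286642516) (nat_lit 0) (nat_lit 2175882741894) (nat_lit 608) (nat_lit 38136326561543) (nat_lit 88) (nat_lit 5) (nat_lit 87) (nat_lit 5) (nat_lit 95) (nat_lit 5) (nat_lit 522) (nat_lit 518) (nat_lit 160)) (XT.lf (nat_lit 0) (nat_lit 6440385832174) (nat_lit 532) (nat_lit 18973984375984) (nat_lit 608) (nat_lit 18087964699348)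 (nat_lit 88) (nat_lit 5) (nat_lit 95) (nat_lit 5) (nat_lit 96) (nat_lit 5) (nat_lit 523) (nat_lit 518) (nat_lit 159))) (XT.nd (nat_lit 78) (nat_lit 0) (nat_lit 76) (XT.lf (nat_lit 76) (nat_lit 4226193421959) (nat_lit 0) (nat_lit 5386862662087) (nat_lit 608) (nat_lit 35730812382873) (nat_lit 89) (nat_lit 5) (nat_lit 88) (nat_lit 5) (nat_lit 96) (nat_lit 5) (nat_lit 524) (nat_lit 518) (nat_lit 158)) (XT.lf (nat_lit 0) (nat_lit 13962438004740) (nat_lit 532) (nat_lit 17333885065939) (nat_lit 76) (nat_lit 15962569796514) (nat_lit 89) (nat_lit 5) (nat_lit 96) (nat_lit 5) (nat_lit 90) (nat_lit 5) (nat_lit 525) (nat_lit 518) (nat_lit 157))))) (XT.nd (nat_lit 62010) (nat_lit 0) (nat_lit 304) (XT.nd (nat_lit 78) (nat_lit 0) (nat_lit 0) (XT.lf (nat_lit 0) (nat_lit 8645155280936) (nat_lit 532) (nat_lit 10362449901274) (nat_lit 608) (nat_lit 30291687261028) (nat_lit 82) (nat_lit 5) (nat_lit 89) (nat_lit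 5) (nat_lit 90) (nat_lit 5) (nat_lit 526) (nat_lit 518) (nat_lit 156)) (XT.nd (nat_lit 61854) (nat_lit 0) (nat_lit 836) (XT.lf (nat_lit 0) (nat_lit 25237154773380) (nat_lit 608) (nat_lit 14083526499616) (nat_lit 76) (nat_lit 12119781189211) (nat_lit 82) (nat_lit 5) (nat_lit 90) (nat_lit 5) (nat_lit 83) (nat_lit 5) (nat_lit 527) (nat_lit 518) (nat_lit 155)) (XT.lf (nat_lit 0) (nat_lit 19016868718860) (nat_lit 532) (nat_lit 126854312241) (nat_lit 532) (nat_lit 126854312241) (nat_lit 93) (nat_lit 3) (nat_lit 100) (nat_lit 3) (nat_lit 100) (nat_lit 5) (nat_lit 519) (nat_lit 519) (nat_lit 162)))) (XT.nd (nat_lit 156) (nat_lit 0) (nat_lit 76) (XT.nd (nat_lit 78) (nat_lit 532) (nat_lit 0) (XT.lf (nat_lit 76) (nat_lit 19937160369632) (nat_lit 0) (nat_lit 20097415752018) (nat_lit 532) (nat_lit 9865617589) (nat_lit 94) (nat_lit 5) (nat_lit 93) (nat_lit 3) (nat_lit 100) (nat_lit 5) (nat_lit 520) (nat_lit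 519) (nat_lit 161)) (XT.lf (nat_lit 76) (nat_lit 81501411295) (nat_lit 0) (nat_lit 428678671686) (nat_lit 608) (nat_lit 41156070610400) (nat_lit 87) (nat_lit 5) (nat_lit 86) (nat_lit 5) (nat_lit 94) (nat_lit 5) (nat_lit 521) (nat_lit 519) (nat_lit 160))) (XT.nd (nat_lit 78) (nat_lit 0) (nat_lit 0) (XT.lf (nat_lit 0) (nat_lit 2135911407878) (nat_lit 532) (nat_lit 20860019656543) (nat_lit 608) (nat_lit 20336683602018) (nat_lit 87) (nat_lit 5) (nat_lit 94) (nat_lit 5) (nat_lit 95) (nat_lit 5) (nat_lit 522) (nat_lit 519) (nat_lit 159)) (XT.lf (nat_lit 76) (nat_lit 1591149573972) (nat_lit 0) (nat_lit 2349953361265) (nat_lit 608) (nat_lit 41187232686387) (nat_lit 88) (nat_lit 5) (nat_lit 87) (nat_lit 5) (nat_lit 95) (nat_lit 5) (nat_lit 523) (nat_lit 519) (nat_lit 158))))))) (XT.nd (nat_lit 124956) (nat_lit 0) (nat_lit 304) (XT.nd (nat_lit 62400) (nat_lit 0) (nat_lit 304) (XT.nd (nat_lit 234)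 (nat_lit 456) (nat_lit 0) (XT.nd (nat_lit 78) (nat_lit 0) (nat_lit 0) (XT.lf (nat_lit 0) (nat_lit 6955616698816) (nat_lit 532) (nat_lit 20491903126006) (nat_lit 608) (nat_lit 19535001875279) (nat_lit 88) (nat_lit 5) (nat_lit 95) (nat_lit 5) (nat_lit 96) (nat_lit 5) (nat_lit 524) (nat_lit 519) (nat_lit 157)) (XT.nd (nat_lit 78) (nat_lit 0) (nat_lit 76) (XT.lf (nat_lit 76) (nat_lit 4564288895772) (nat_lit 0) (nat_lit 5817811675064) (nat_lit 608) (nat_lit 38589277373433) (nat_lit 89) (nat_lit 5) (nat_lit 88) (nat_lit 5) (nat_lit 96) (nat_lit 5) (nat_lit 525) (nat_lit 519) (nat_lit 156)) (XT.lf (nat_lit 0) (nat_lit 15079433045179) (nat_lit 532) (nat_lit 18720595871158) (nat_lit 76) (nat_lit 17239575380227) (nat_lit 89) (nat_lit 5) (nat_lit 96) (nat_lit 5) (nat_lit 90) (nat_lit 5) (nat_lit 526) (nat_lit 519) (nat_lit 155)))) (XT.nd (nat_lit 62010) (nat_lit 0) (nat_lit 304) (XT.nd (nat_lit 61932)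 (nat_lit 0) (nat_lit 836) (XT.lf (nat_lit 0) (nat_lit 9336767703465) (nat_lit 532) (nat_lit 11191445893378) (nat_lit 608) (nat_lit 32715022241849) (nat_lit 82) (nat_lit 5) (nat_lit 89) (nat_lit 5) (nat_lit 90) (nat_lit 5) (nat_lit 527) (nat_lit 519) (nat_lit 154)) (XT.lf (nat_lit 0) (nat_lit 20538218216410) (nat_lit 532) (nat_lit 137002657198) (nat_lit 532) (nat_lit 137002657198) (nat_lit 93) (nat_lit 3) (nat_lit 100) (nat_lit 3) (nat_lit 100) (nat_lit 5) (nat_lit 520) (nat_lit 520) (nat_lit 160))) (XT.nd (nat_lit 78) (nat_lit 532) (nat_lit 0) (XT.lf (nat_lit 76) (nat_lit 21532133199245) (nat_lit 0) (nat_lit 21705209012213) (nat_lit 532) (nat_lit 10654866914) (nat_lit 94) (nat_lit 5) (nat_lit 93) (nat_lit 3) (nat_lit 100) (nat_lit 5) (nat_lit 521) (nat_lit 520) (nat_lit 159)) (XT.lf (nat_lit 76) (nat_lit 88021524244) (nat_lit 0) (nat_lit 462972965449) (nat_lit 608) (nat_lit 44448556259153)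 (nat_lit 87) (nat_lit 5) (nat_lit 86) (nat_lit 5) (nat_lit 94) (nat_lit 5) (nat_lit 522) (nat_lit 520) (nat_lit 158))))) (XT.nd (nat_lit 234) (nat_lit 76) (nat_lit 0) (XT.nd (nat_lit 78) (nat_lit 0) (nat_lit 0) (XT.lf (nat_lit 0) (nat_lit 2306784320576) (nat_lit 532) (nat_lit 22528821229018) (nat_lit 608) (nat_lit 21963618290155) (nat_lit 87) (nat_lit 5) (nat_lit 94) (nat_lit 5) (nat_lit 95) (nat_lit 5) (nat_lit 523) (nat_lit 520) (nat_lit 157)) (XT.nd (nat_lit 78) (nat_lit 0) (nat_lit 76) (XT.lf (nat_lit 76) (nat_lit 1718441539937) (nat_lit 0) (nat_lit 2537949630183) (nat_lit 608) (nat_lit 44482211301229) (nat_lit 88) (nat_lit 5) (nat_lit 87) (nat_lit 5) (nat_lit 95) (nat_lit 5) (nat_lit 524) (nat_lit 520) (nat_lit 156)) (XT.lf (nat_lit 0) (nat_lit 7512066034780) (nat_lit 532) (nat_lit 22131255376037) (nat_lit 608) (nat_lit 21097802025287) (nat_lit 88) (nat_lit 5) (nat_lit 95) (nat_lit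 5) (nat_lit 96) (nat_lit 5) (nat_lit 525) (nat_lit 520) (nat_lit 155)))) (XT.nd (nat_lit 62166) (nat_lit 152) (nat_lit 0) (XT.nd (nat_lit 62088) (nat_lit 0) (nat_lit 380) (XT.lf (nat_lit 76) (nat_lit 4929432007481) (nat_lit 0) (nat_lit 6283236609077) (nat_lit 608) (nat_lit 41676419563248) (nat_lit 89) (nat_lit 5) (nat_lit 88) (nat_lit 5) (nat_lit 96) (nat_lit 5) (nat_lit 526) (nat_lit 520) (nat_lit 154)) (XT.lf (nat_lit 0) (nat_lit 22181275673757) (nat_lit 532) (nat_lit 147962869755) (nat_lit 532) (nat_lit 147962869755) (nat_lit 93) (nat_lit 3) (nat_lit 100) (nat_lit 3) (nat_lit 100) (nat_lit 5) (nat_lit 521) (nat_lit 521) (nat_lit 158))) (XT.nd (nat_lit 78) (nat_lit 532) (nat_lit 0) (XT.lf (nat_lit 76) (nat_lit 23254703855222) (nat_lit 0) (nat_lit 23441625733219) (nat_lit 532) (nat_lit 11507256197) (nat_lit 94) (nat_lit 5) (nat_lit 93) (nat_lit 3) (nat_lit 100) (nat_lit 5) (nat_lit 522)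 (nat_lit 521) (nat_lit 157)) (XT.lf (nat_lit 76) (nat_lit 95063246223) (nat_lit 0) (nat_lit 500010802709) (nat_lit 608) (nat_lit 48004440759817) (nat_lit 87) (nat_lit 5) (nat_lit 86) (nat_lit 5) (nat_lit 94) (nat_lit 5) (nat_lit 523) (nat_lit 521) (nat_lit 156)))))) (XT.nd (nat_lit 124878) (nat_lit 0) (nat_lit 0) (XT.nd (nat_lit 62322) (nat_lit 76) (nat_lit 0) (XT.nd (nat_lit 78) (nat_lit 0) (nat_lit 0) (XT.lf (nat_lit 0) (nat_lit 2491327066280) (nat_lit 532) (nat_lit 24331126927298) (nat_lit 608) (nat_lit 23720707753346) (nat_lit 87) (nat_lit 5) (nat_lit 94) (nat_lit 5) (nat_lit 95) (nat_lit 5) (nat_lit 524) (nat_lit 521) (nat_lit 155)) (XT.nd (nat_lit 78) (nat_lit 0) (nat_lit 76) (XT.lf (nat_lit 76) (nat_lit 1855916863173) (nat_lit 0) (nat_lit 2740985600611) (nat_lit 608) (nat_lit 48040788205268) (nat_lit 88) (nat_lit 5) (nat_lit 87) (nat_lit 5) (nat_lit 95) (nat_lit 5) (nat_lit 525) (nat_lit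 521) (nat_lit 154)) (XT.lf (nat_lit 0) (nat_lit 8113031317613) (nat_lit 532) (nat_lit 23901755806079) (nat_lit 608) (nat_lit 22785626187298) (nat_lit 88) (nat_lit 5) (nat_lit 95) (nat_lit 5) (nat_lit 96) (nat_lit 5) (nat_lit 526) (nat_lit 521) (nat_lit 153)))) (XT.nd (nat_lit 156) (nat_lit 532) (nat_lit 0) (XT.nd (nat_lit 78) (nat_lit 0) (nat_lit 0) (XT.lf (nat_lit 0) (nat_lit 23955777727688) (nat_lit 532) (nat_lit 159799899320) (nat_lit 532) (nat_lit 159799899320) (nat_lit 93) (nat_lit 3) (nat_lit 100) (nat_lit 3) (nat_lit 100) (nat_lit 5) (nat_lit 522) (nat_lit 522) (nat_lit 156)) (XT.lf (nat_lit 76) (nat_lit 25115080163671) (nat_lit 0) (nat_lit 25316955791901) (nat_lit 532) (nat_lit 12427836632) (nat_lit 94) (nat_lit 5) (nat_lit 93) (nat_lit 3) (nat_lit 100) (nat_lit 5) (nat_lit 523) (nat_lit 522) (nat_lit 155))) (XT.nd (nat_lit 78) (nat_lit 0) (nat_lit 76) (XT.lf (nat_lit 76) (nat_lit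 102668305954) (nat_lit 0) (nat_lit 540011666946) (nat_lit 608) (nat_lit 51844796020544) (nat_lit 87) (nat_lit 5) (nat_lit 86) (nat_lit 5) (nat_lit 94) (nat_lit 5) (nat_lit 524) (nat_lit 522) (nat_lit 154)) (XT.lf (nat_lit 0) (nat_lit 2690633231632) (nat_lit 532) (nat_lit 26277617081446) (nat_lit 608) (nat_lit 25618364373596) (nat_lit 87) (nat_lit 5) (nat_lit 94) (nat_lit 5) (nat_lit 95) (nat_lit 5) (nat_lit 525) (nat_lit 522) (nat_lit 153))))) (XT.nd (nat_lit 62634) (nat_lit 0) (nat_lit 0) (XT.nd (nat_lit 156) (nat_lit 532) (nat_lit 0) (XT.nd (nat_lit 78) (nat_lit 0) (nat_lit 0) (XT.lf (nat_lit 0) (nat_lit 25872239945929) (nat_lit 532) (nat_lit 172583891252) (nat_lit 532) (nat_lit 172583891252) (nat_lit 93) (nat_lit 3) (nat_lit 100) (nat_lit 3) (nat_lit 100) (nat_lit 5) (nat_lit 523) (nat_lit 523) (nat_lit 154)) (XT.lf (nat_lit 76) (nat_lit 27124286576791) (nat_lit 0) (nat_lit 27342312255274)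 (nat_lit 532) (nat_lit 13422063511) (nat_lit 94) (nat_lit 5) (nat_lit 93) (nat_lit 3) (nat_lit 100) (nat_lit 5) (nat_lit 524) (nat_lit 523) (nat_lit 153))) (XT.nd (nat_lit 62400) (nat_lit 0) (nat_lit 532) (XT.lf (nat_lit 76) (nat_lit 110881770460) (nat_lit 0) (nat_lit 583212600318) (nat_lit 608) (nat_lit 55992379702138) (nat_lit 87) (nat_lit 5) (nat_lit 86) (nat_lit 5) (nat_lit 94) (nat_lit 5) (nat_lit 525) (nat_lit 523) (nat_lit 152)) (XT.lf (nat_lit 0) (nat_lit 27942019141625) (nat_lit 532) (nat_lit 186390602540) (nat_lit 532) (nat_lit 186390602540) (nat_lit 93) (nat_lit 3) (nat_lit 100) (nat_lit 3) (nat_lit 100) (nat_lit 5) (nat_lit 524) (nat_lit 524) (nat_lit 152)))) (XT.nd (nat_lit 62478) (nat_lit 0) (nat_lit 532) (XT.nd (nat_lit 78) (nat_lit 532) (nat_lit 0) (XT.lf (nat_lit 76) (nat_lit 29294229502959) (nat_lit 0) (nat_lit 29529697235714) (nat_lit 532) (nat_lit 14495828547) (nat_lit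 94) (nat_lit 5) (nat_lit 93) (nat_lit 3) (nat_lit 100) (nat_lit 5) (nat_lit 525) (nat_lit 524) (nat_lit 151)) (XT.lf (nat_lit 76) (nat_lit 119752312122) (nat_lit 0) (nat_lit 629869608359) (nat_lit 608) (nat_lit 60471770078266) (nat_lit 87) (nat_lit 5) (nat_lit 86) (nat_lit 5) (nat_lit 94) (nat_lit 5) (nat_lit 526) (nat_lit 524) (nat_lit 150))) (XT.nd (nat_lit 78) (nat_lit 0) (nat_lit 0) (XT.lf (nat_lit 0) (nat_lit 30177380672974) (nat_lit 532) (nat_lit 201301850733) (nat_lit 532) (nat_lit 201301850733) (nat_lit 93) (nat_lit 3) (nat_lit 100) (nat_lit 3) (nat_lit 100) (nat_lit 5) (nat_lit 525) (nat_lit 525) (nat_lit 150)) (XT.lf (nat_lit 76) (nat_lit 31637767863214) (nat_lit 0) (nat_lit 31892073014587) (nat_lit 532) (nat_lit 15655494793) (nat_lit 94) (nat_lit 5) (nat_lit 93) (nat_lit 3) (nat_lit 100) (nat_lit 5) (nat_lit 526) (nat_lit 525) (nat_lit 149))))))))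

set_option maxRecDepth 10000000 in
noncomputable def Tp : PT := (PT.nd (nat_lit 12760956) (PT.nd (nat_lit 12074244) (PT.nd (nat_lit 11012742) (PT.nd (nat_lit 10076118) pc0 pc1) (PT.nd (nat_lit 686790) pc2 pc3)) (PT.nd (nat_lit 436722) (PT.nd (nat_lit 249600) pc4 pc5) (PT.nd (nat_lit 125268) pc6 pc7))) (PT.nd (nat_lit 498264) (PT.nd (nat_lit 187512) (PT.nd (nat_lit 124176) pc8 pc9) (PT.nd (nat_lit 123864) pc10 pc11)) (PT.nd (nat_lit 440622) (PT.nd (nat_lit 248976) pc12 pc13) (PT.nd (nat_lit 250068) pc14 pc15))))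

set_option maxRecDepth 10000000 in
noncomputable def Tx : XT := (XT.nd (nat_lit 20472894) (nat_lit 0) (nat_lit 76) XT.nil (XT.nd (nat_lit 12369162) (nat_lit 0) (nat_lit 0) (XT.nd (nat_lit 5433012) (nat_lit 0) (nat_lit 0) (XT.nd (nat_lit 3746730) (nat_lit 0) (nat_lit 0) (XT.nd (nat_lit 2680236) (nat_lit 0) (nat_lit 0) (XT.nd (nat_lit 1871454) (nat_lit 0) (nat_lit 0) (XT.nd (nat_lit 1310166) (nat_lit 0) (nat_lit 0) (XT.nd (nat_lit 934986) (nat_lit 0) (nat_lit 0) (XT.nd (nat_lit 624234) (nat_lit 0) (nat_lit 0) (XT.nd (nat_lit 436800) (nat_lit 0) (nat_lit 0) xc0 xc1) (XT.nd (nat_lit 186030) (nat_lit 0) (nat_lit 0) xc2 xc3)) (XT.nd (nat_lit 188214) (nat_lit 0) (nat_lit 0) (XT.nd (nat_lit 64350) (nat_lit 0) (nat_lit 0) xc4 xc5) (XT.nd (nat_lit 123318) (nat_lit 0) (nat_lit 0) xc6 xc7))) (XT.nd (nat_lit 311376) (nat_lit 0) (nat_lit 0) (XT.nd (nat_lit 126750) (nat_lit 0) (nat_lit 0) (XT.nd (nat_lit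 63414) (nat_lit 0) (nat_lit 0) xc8 xc9) (XT.nd (nat_lit 121758) (nat_lit 0) (nat_lit 0) xc10 xc11)) (XT.nd (nat_lit 125268) (nat_lit 0) (nat_lit 0) (XT.nd (nat_lit 62712) (nat_lit 0) (nat_lit 0) xc12 xc13) (XT.nd (nat_lit 62400) (nat_lit 0) (nat_lit 0) xc14 xc15)))) (XT.nd (nat_lit 435864) (nat_lit 0) (nat_lit 0) (XT.nd (nat_lit 190164) (nat_lit 0) (nat_lit 0) (XT.nd (nat_lit 123942) (nat_lit 0) (nat_lit 0) (XT.nd (nat_lit 62010) (nat_lit 0) (nat_lit 0) xc16 xc17) (XT.nd (nat_lit 61776) (nat_lit 0) (nat_lit 0) xc18 xc19)) (XT.nd (nat_lit 123084) (nat_lit 0) (nat_lit 0) (XT.nd (nat_lit 61620) (nat_lit 0) (nat_lit 0) xc20 xc21) (XT.nd (nat_lit 61386) (nat_lit 0) (nat_lit 0) xc22 xc23))) (XT.nd (nat_lit 187122) (nat_lit 0) (nat_lit 0) (XT.nd (nat_lit 65442) (nat_lit 0) (nat_lit 0) (XT.nd (nat_lit 60996) (nat_lit 0) (nat_lit 0) xc24 xc25) (XT.nd (nat_lit 60918) (nat_lit 0) (nat_lit 0) xc26 xc27))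 (XT.nd (nat_lit 65052) (nat_lit 0) (nat_lit 0) (XT.nd (nat_lit 4446) (nat_lit 0) (nat_lit 0) xc28 xc29) (XT.nd (nat_lit 60450) (nat_lit 0) (nat_lit 0) xc30 xc31))))) (XT.nd (nat_lit 566202) (nat_lit 0) (nat_lit 0) (XT.nd (nat_lit 312312) (nat_lit 0) (nat_lit 0) (XT.nd (nat_lit 128934) (nat_lit 0) (nat_lit 0) (XT.nd (nat_lit 64506) (nat_lit 0) (nat_lit 0) (XT.nd (nat_lit 4368) (nat_lit 0) (nat_lit 0) xc32 xc33) (XT.nd (nat_lit 59982) (nat_lit 0) (nat_lit 0) xc34 xc35)) (XT.nd (nat_lit 64272) (nat_lit 0) (nat_lit 0) (XT.nd (nat_lit 59826) (nat_lit 0) (nat_lit 0) xc36 xc37) (XT.nd (nat_lit 59670) (nat_lit 0) (nat_lit 0) xc38 xc39))) (XT.nd (nat_lit 127218) (nat_lit 0) (nat_lit 0) (XT.nd (nat_lit 63648) (nat_lit 0) (nat_lit 0) (XT.nd (nat_lit 4368) (nat_lit 0) (nat_lit 0) xc40 xc41) (XT.nd (nat_lit 4446) (nat_lit 0) (nat_lit 0) xc42 xc43)) (XT.nd (nat_lit 63414) (nat_lit 0) (nat_lit 0) (XT.nd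 (nat_lit 58968) (nat_lit 0) (nat_lit 0) xc44 xc45) (XT.nd (nat_lit 58812) (nat_lit 0) (nat_lit 0) xc46 xc47)))) (XT.nd (nat_lit 251394) (nat_lit 0) (nat_lit 0) (XT.nd (nat_lit 125970) (nat_lit 0) (nat_lit 0) (XT.nd (nat_lit 63024) (nat_lit 0) (nat_lit 0) (XT.nd (nat_lit 58578) (nat_lit 0) (nat_lit 0) xc48 xc49) (XT.nd (nat_lit 58500) (nat_lit 0) (nat_lit 0) xc50 xc51)) (XT.nd (nat_lit 62790) (nat_lit 0) (nat_lit 0) (XT.nd (nat_lit 58344) (nat_lit 0) (nat_lit 0) xc52 xc53) (XT.nd (nat_lit 58188) (nat_lit 0) (nat_lit 0) xc54 xc55))) (XT.nd (nat_lit 124722) (nat_lit 0) (nat_lit 0) (XT.nd (nat_lit 62400) (nat_lit 0) (nat_lit 0) (XT.nd (nat_lit 57954) (nat_lit 0) (nat_lit 0) xc56 xc57) (XT.nd (nat_lit 57876) (nat_lit 0) (nat_lit 0) xc58 xc59)) (XT.nd (nat_lit 62166) (nat_lit 0) (nat_lit 0) (XT.nd (nat_lit 57720) (nat_lit 0) (nat_lit 0) xc60 xc61) (XT.nd (nat_lit 57564) (nat_lit 0) (nat_lit 0)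 xc62 xc63)))))) (XT.nd (nat_lit 870012) (nat_lit 0) (nat_lit 0) (XT.nd (nat_lit 438438) (nat_lit 0) (nat_lit 0) (XT.nd (nat_lit 246402) (nat_lit 0) (nat_lit 0) (XT.nd (nat_lit 123474) (nat_lit 0) (nat_lit 0) (XT.nd (nat_lit 61776) (nat_lit 0) (nat_lit 0) (XT.nd (nat_lit 57330) (nat_lit 0) (nat_lit 0) xc64 xc65) (XT.nd (nat_lit 57252) (nat_lit 0) (nat_lit 0) xc66 xc67)) (XT.nd (nat_lit 61542) (nat_lit 0) (nat_lit 0) (XT.nd (nat_lit 57096) (nat_lit 0) (nat_lit 228) xc68 xc69) (XT.nd (nat_lit 56940) (nat_lit 0) (nat_lit 532) xc70 xc71))) (XT.nd (nat_lit 122226) (nat_lit 0) (nat_lit 0) (XT.nd (nat_lit 61152) (nat_lit 0) (nat_lit 0) (XT.nd (nat_lit 4368) (nat_lit 0) (nat_lit 0) xc72 xc73) (XT.nd (nat_lit 4446) (nat_lit 0) (nat_lit 0) xc74 xc75)) (XT.nd (nat_lit 60918) (nat_lit 0) (nat_lit 0) (XT.nd (nat_lit 4446) (nat_lit 76) (nat_lit 0) xc76 xc77) (XT.nd (nat_lit 4446) (nat_lit 532) (nat_lit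 0) xc78 xc79)))) (XT.nd (nat_lit 242346) (nat_lit 0) (nat_lit 0) (XT.nd (nat_lit 121446) (nat_lit 0) (nat_lit 0) (XT.nd (nat_lit 60762) (nat_lit 0) (nat_lit 0) (XT.nd (nat_lit 56316) (nat_lit 0) (nat_lit 0) xc80 xc81) (XT.nd (nat_lit 56238) (nat_lit 0) (nat_lit 304) xc82 xc83)) (XT.nd (nat_lit 60528) (nat_lit 0) (nat_lit 0) (XT.nd (nat_lit 56082) (nat_lit 0) (nat_lit 1216) xc84 xc85) (XT.nd (nat_lit 4446) (nat_lit 0) (nat_lit 0) xc86 xc87))) (XT.nd (nat_lit 69030) (nat_lit 0) (nat_lit 0) (XT.nd (nat_lit 60138) (nat_lit 0) (nat_lit 0) (XT.nd (nat_lit 4368) (nat_lit 228) (nat_lit 0) xc88 xc89) (XT.nd (nat_lit 4446) (nat_lit 1368) (nat_lit 0) xc90 xc91)) (XT.nd (nat_lit 60060) (nat_lit 0) (nat_lit 0) (XT.nd (nat_lit 55614) (nat_lit 0) (nat_lit 304) xc92 xc93) (XT.nd (nat_lit 55692) (nat_lit 0) (nat_lit 1824) xc94 xc95))))) (XT.nd (nat_lit 380328) (nat_lit 0) (nat_lit 0) (XT.nd (nat_lit 189696)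 (nat_lit 0) (nat_lit 0) (XT.nd (nat_lit 120432) (nat_lit 0) (nat_lit 0) (XT.nd (nat_lit 60138) (nat_lit 0) (nat_lit 0) (XT.nd (nat_lit 4368) (nat_lit 0) (nat_lit 0) xc96 xc97) (XT.nd (nat_lit 4446) (nat_lit 456) (nat_lit 0) xc98 xc99)) (XT.nd (nat_lit 8892) (nat_lit 0) (nat_lit 0) (XT.nd (nat_lit 4446) (nat_lit 1900) (nat_lit 0) xc100 xc101) (XT.nd (nat_lit 55926) (nat_lit 0) (nat_lit 456) xc102 xc103))) (XT.nd (nat_lit 121056) (nat_lit 0) (nat_lit 0) (XT.nd (nat_lit 60450) (nat_lit 0) (nat_lit 0) (XT.nd (nat_lit 56004) (nat_lit 0) (nat_lit 1824) xc104 xc105) (XT.nd (nat_lit 4446) (nat_lit 0) (nat_lit 0) xc106 xc107)) (XT.nd (nat_lit 60684) (nat_lit 0) (nat_lit 0) (XT.nd (nat_lit 4446) (nat_lit 304) (nat_lit 0) xc108 xc109) (XT.nd (nat_lit 4446) (nat_lit 1368) (nat_lit 0) xc110 xc111)))) (XT.nd (nat_lit 243438) (nat_lit 0) (nat_lit 0) (XT.nd (nat_lit 121524) (nat_lit 0) (nat_lit 0) (XT.nd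 (nat_lit 60684) (nat_lit 0) (nat_lit 0) (XT.nd (nat_lit 56238) (nat_lit 0) (nat_lit 228) xc112 xc113) (XT.nd (nat_lit 56394) (nat_lit 0) (nat_lit 760) xc114 xc115)) (XT.nd (nat_lit 60918) (nat_lit 0) (nat_lit 0) (XT.nd (nat_lit 56472) (nat_lit 0) (nat_lit 1900) xc116 xc117) (XT.nd (nat_lit 4446) (nat_lit 0) (nat_lit 0) xc118 xc119))) (XT.nd (nat_lit 122304) (nat_lit 0) (nat_lit 0) (XT.nd (nat_lit 61074) (nat_lit 0) (nat_lit 0) (XT.nd (nat_lit 4368) (nat_lit 304) (nat_lit 0) xc120 xc121) (XT.nd (nat_lit 4446) (nat_lit 912) (nat_lit 0) xc122 xc123)) (XT.nd (nat_lit 8892) (nat_lit 0) (nat_lit 0) (XT.nd (nat_lit 4446) (nat_lit 1900) (nat_lit 0) xc124 xc125) (XT.nd (nat_lit 56862) (nat_lit 0) (nat_lit 228) xc126 xc127))))))) (XT.nd (nat_lit 2061930) (nat_lit 0) (nat_lit 304) (XT.nd (nat_lit 938496) (nat_lit 0) (nat_lit 0) (XT.nd (nat_lit 493428) (nat_lit 0) (nat_lit 0) (XT.nd (nat_lit 245934)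 (nat_lit 0) (nat_lit 0) (XT.nd (nat_lit 122772) (nat_lit 0) (nat_lit 0) (XT.nd (nat_lit 61308) (nat_lit 0) (nat_lit 0) (XT.nd (nat_lit 56862) (nat_lit 0) (nat_lit 532) xc128 xc129) (XT.nd (nat_lit 57018) (nat_lit 0) (nat_lit 1216) xc130 xc131)) (XT.nd (nat_lit 61542) (nat_lit 0) (nat_lit 0) (XT.nd (nat_lit 4446) (nat_lit 0) (nat_lit 0) xc132 xc133) (XT.nd (nat_lit 4446) (nat_lit 0) (nat_lit 0) xc134 xc135))) (XT.nd (nat_lit 123552) (nat_lit 0) (nat_lit 0) (XT.nd (nat_lit 61698) (nat_lit 0) (nat_lit 0) (XT.nd (nat_lit 4368) (nat_lit 228) (nat_lit 0) xc136 xc137) (XT.nd (nat_lit 4446) (nat_lit 304) (nat_lit 0) xc138 xc139)) (XT.nd (nat_lit 61932) (nat_lit 0) (nat_lit 0) (XT.nd (nat_lit 4446) (nat_lit 684) (nat_lit 0) xc140 xc141) (XT.nd (nat_lit 4446) (nat_lit 988) (nat_lit 0) xc142 xc143)))) (XT.nd (nat_lit 195312) (nat_lit 0) (nat_lit 0) (XT.nd (nat_lit 70902) (nat_lit 0) (nat_lit 0) (XT.nd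 (nat_lit 62010) (nat_lit 0) (nat_lit 0) (XT.nd (nat_lit 4368) (nat_lit 1444) (nat_lit 0) xc144 xc145) (XT.nd (nat_lit 4446) (nat_lit 1824) (nat_lit 0) xc146 xc147)) (XT.nd (nat_lit 62166) (nat_lit 0) (nat_lit 0) (XT.nd (nat_lit 57720) (nat_lit 0) (nat_lit 76) xc148 xc149) (XT.nd (nat_lit 57798) (nat_lit 0) (nat_lit 76) xc150 xc151))) (XT.nd (nat_lit 124644) (nat_lit 0) (nat_lit 0) (XT.nd (nat_lit 62244) (nat_lit 0) (nat_lit 0) (XT.nd (nat_lit 57798) (nat_lit 0) (nat_lit 76) xc152 xc153) (XT.nd (nat_lit 57954) (nat_lit 0) (nat_lit 76) xc154 xc155)) (XT.nd (nat_lit 62478) (nat_lit 0) (nat_lit 0) (XT.nd (nat_lit 58032) (nat_lit 0) (nat_lit 228) xc156 xc157) (XT.nd (nat_lit 58188) (nat_lit 0) (nat_lit 76) xc158 xc159))))) (XT.nd (nat_lit 558246) (nat_lit 0) (nat_lit 76) (XT.nd (nat_lit 305370) (nat_lit 0) (nat_lit 76) (XT.nd (nat_lit 125424) (nat_lit 0) (nat_lit 76) (XT.nd (nat_lit 62634) (nat_lit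 0) (nat_lit 76) (XT.nd (nat_lit 58188) (nat_lit 0) (nat_lit 76) xc160 xc161) (XT.nd (nat_lit 58344) (nat_lit 0) (nat_lit 0) xc162 xc163)) (XT.nd (nat_lit 116922) (nat_lit 0) (nat_lit 0) (XT.nd (nat_lit 58422) (nat_lit 0) (nat_lit 0) xc164 xc165) (XT.nd (nat_lit 4446) (nat_lit 1824) (nat_lit 0) xc166 xc167))) (XT.nd (nat_lit 126204) (nat_lit 0) (nat_lit 0) (XT.nd (nat_lit 63024) (nat_lit 0) (nat_lit 0) (XT.nd (nat_lit 4368) (nat_lit 1596) (nat_lit 0) xc168 xc169) (XT.nd (nat_lit 4446) (nat_lit 1140) (nat_lit 0) xc170 xc171)) (XT.nd (nat_lit 63258) (nat_lit 0) (nat_lit 0) (XT.nd (nat_lit 4446) (nat_lit 684) (nat_lit 0) xc172 xc173) (XT.nd (nat_lit 4446) (nat_lit 380) (nat_lit 0) xc174 xc175)))) (XT.nd (nat_lit 254358) (nat_lit 0) (nat_lit 152) (XT.nd (nat_lit 126984) (nat_lit 0) (nat_lit 152) (XT.nd (nat_lit 63414) (nat_lit 0) (nat_lit 0) (XT.nd (nat_lit 4368) (nat_lit 152) (nat_lit 0) xc176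 xc177) (XT.nd (nat_lit 59124) (nat_lit 0) (nat_lit 1368) xc178 xc179)) (XT.nd (nat_lit 63648) (nat_lit 0) (nat_lit 0) (XT.nd (nat_lit 59202) (nat_lit 0) (nat_lit 532) xc180 xc181) (XT.nd (nat_lit 59280) (nat_lit 0) (nat_lit 76) xc182 xc183))) (XT.nd (nat_lit 182676) (nat_lit 0) (nat_lit 0) (XT.nd (nat_lit 118716) (nat_lit 0) (nat_lit 0) (XT.nd (nat_lit 59280) (nat_lit 0) (nat_lit 0) xc184 xc185) (XT.nd (nat_lit 4446) (nat_lit 988) (nat_lit 0) xc186 xc187)) (XT.nd (nat_lit 64038) (nat_lit 0) (nat_lit 76) (XT.nd (nat_lit 4446) (nat_lit 228) (nat_lit 0) xc188 xc189) (XT.nd (nat_lit 59670) (nat_lit 0) (nat_lit 912) xc190 xc191)))))) (XT.nd (nat_lit 1434966) (nat_lit 0) (nat_lit 1064) (XT.nd (nat_lit 683592) (nat_lit 0) (nat_lit 380) (XT.nd (nat_lit 312780) (nat_lit 0) (nat_lit 152) (XT.nd (nat_lit 183846) (nat_lit 0) (nat_lit 0) (XT.nd (nat_lit 64116) (nat_lit 0) (nat_lit 0) (XT.nd (nat_lit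 59670) (nat_lit 0) (nat_lit 152) xc192 xc193) (XT.nd (nat_lit 59826) (nat_lit 0) (nat_lit 0) xc194 xc195)) (XT.nd (nat_lit 64428) (nat_lit 0) (nat_lit 152) (XT.nd (nat_lit 4446) (nat_lit 608) (nat_lit 0) xc196 xc197) (XT.nd (nat_lit 60060) (nat_lit 0) (nat_lit 760) xc198 xc199))) (XT.nd (nat_lit 185016) (nat_lit 0) (nat_lit 76) (XT.nd (nat_lit 120276) (nat_lit 0) (nat_lit 0) (XT.nd (nat_lit 60060) (nat_lit 0) (nat_lit 0) xc200 xc201) (XT.nd (nat_lit 4446) (nat_lit 1140) (nat_lit 0) xc202 xc203)) (XT.nd (nat_lit 64818) (nat_lit 0) (nat_lit 0) (XT.nd (nat_lit 60372) (nat_lit 0) (nat_lit 1064) xc204 xc205) (XT.nd (nat_lit 60450) (nat_lit 0) (nat_lit 0) xc206 xc207)))) (XT.nd (nat_lit 317226) (nat_lit 0) (nat_lit 228) (XT.nd (nat_lit 130104) (nat_lit 0) (nat_lit 0) (XT.nd (nat_lit 64974) (nat_lit 0) (nat_lit 0) (XT.nd (nat_lit 4368) (nat_lit 684) (nat_lit 0) xc208 xc209) (XT.nd (nat_lit 60684)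 (nat_lit 0) (nat_lit 304) xc210 xc211)) (XT.nd (nat_lit 121680) (nat_lit 0) (nat_lit 76) (XT.nd (nat_lit 60762) (nat_lit 0) (nat_lit 76) xc212 xc213) (XT.nd (nat_lit 60996) (nat_lit 0) (nat_lit 608) xc214 xc215))) (XT.nd (nat_lit 187980) (nat_lit 0) (nat_lit 152) (XT.nd (nat_lit 122226) (nat_lit 0) (nat_lit 76) (XT.nd (nat_lit 60996) (nat_lit 0) (nat_lit 76) xc216 xc217) (XT.nd (nat_lit 61308) (nat_lit 0) (nat_lit 152) xc218 xc219)) (XT.nd (nat_lit 122850) (nat_lit 0) (nat_lit 152) (XT.nd (nat_lit 61386) (nat_lit 0) (nat_lit 76) xc220 xc221) (XT.nd (nat_lit 61620) (nat_lit 0) (nat_lit 0) xc222 xc223))))) (XT.nd (nat_lit 1001754) (nat_lit 0) (nat_lit 1444) (XT.nd (nat_lit 439374) (nat_lit 0) (nat_lit 532) (XT.nd (nat_lit 190164) (nat_lit 0) (nat_lit 304) (XT.nd (nat_lit 123708) (nat_lit 0) (nat_lit 76) (XT.nd (nat_lit 61776) (nat_lit 0) (nat_lit 76) xc224 xc225) (XT.nd (nat_lit 4446) (nat_lit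 456) (nat_lit 0) xc226 xc227)) (XT.nd (nat_lit 124410) (nat_lit 0) (nat_lit 76) (XT.nd (nat_lit 62166) (nat_lit 0) (nat_lit 0) xc228 xc229) (XT.nd (nat_lit 62322) (nat_lit 0) (nat_lit 152) xc230 xc231))) (XT.nd (nat_lit 250848) (nat_lit 0) (nat_lit 456) (XT.nd (nat_lit 125190) (nat_lit 0) (nat_lit 228) (XT.nd (nat_lit 62478) (nat_lit 0) (nat_lit 152) xc232 xc233) (XT.nd (nat_lit 62790) (nat_lit 0) (nat_lit 76) xc234 xc235)) (XT.nd (nat_lit 184860) (nat_lit 0) (nat_lit 228) (XT.nd (nat_lit 121680) (nat_lit 0) (nat_lit 152) xc236 xc237) (XT.nd (nat_lit 63258) (nat_lit 0) (nat_lit 76) xc238 xc239)))) (XT.nd (nat_lit 749814) (nat_lit 0) (nat_lit 912) (XT.nd (nat_lit 373308) (nat_lit 0) (nat_lit 456) (XT.nd (nat_lit 186186) (nat_lit 0) (nat_lit 152) (XT.nd (nat_lit 63414) (nat_lit 0) (nat_lit 0) xc240 xc241) (XT.nd (nat_lit 63726) (nat_lit 0) (nat_lit 152) xc242 xc243)) (XT.nd (nat_lit 187902)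 (nat_lit 0) (nat_lit 228) (XT.nd (nat_lit 64038) (nat_lit 0) (nat_lit 76) xc244 xc245) (XT.nd (nat_lit 64272) (nat_lit 0) (nat_lit 0) xc246 xc247))) (XT.nd (nat_lit 561522) (nat_lit 0) (nat_lit 912) (XT.nd (nat_lit 249600) (nat_lit 0) (nat_lit 456) (XT.nd (nat_lit 124566) (nat_lit 0) (nat_lit 152) xc248 xc249) (XT.nd (nat_lit 125424) (nat_lit 0) (nat_lit 152) xc250 xc251)) (XT.nd (nat_lit 313872) (nat_lit 0) (nat_lit 532) (XT.nd (nat_lit 126204) (nat_lit 0) (nat_lit 152) xc252 xc253) (XT.nd (nat_lit 249912) (nat_lit 0) (nat_lit 760) xc254 xc255)))))))) XT.nil))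

set_option maxRecDepth 10000000 in
noncomputable def Te : XT := XT.nil

set_option maxRecDepth 10000000 in
noncomputable def Tz : ZL := (ZL.cons (nat_lit 76) (nat_lit 3) (nat_lit 294996543690112623804) (ZL.cons (nat_lit 152) (nat_lit 6) (nat_lit 568209160626385940182) (ZL.cons (nat_lit 228) (nat_lit 6) (nat_lit 548045984743680070456) (ZL.cons (nat_lit 304) (nat_lit 3) (nat_lit 273214467128705279869) (ZL.cons (nat_lit 380) (nat_lit 6) (nat_lit 526269754790357731152) (ZL.cons (nat_lit 456) (nat_lit 6) (nat_lit 507612160420978252476) (ZL.cons (nat_lit 532) (nat_lit 3) (nat_lit 253057445726105093499) (ZL.cons (nat_lit 608) (nat_lit 6) (nat_lit 487461958502048415508) (ZL.cons (nat_lit 684) (nat_lit 6) (nat_lit 470200420040908495074) (ZL.cons (nat_lit 760) (nat_lit 3) (nat_lit 234407029942320883888) (ZL.cons (nat_lit 836) (nat_lit 6) (nat_lit 451557958502877381006) (ZL.cons (nat_lit 912) (nat_lit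 6) (nat_lit 435591395978196651420) (ZL.cons (nat_lit 988) (nat_lit 3) (nat_lit 217153864583419285295) (ZL.cons (nat_lit 1064) (nat_lit 6) (nat_lit 418347508451541463466) (ZL.cons (nat_lit 1140) (nat_lit 6) (nat_lit 403582717271265780480) (ZL.cons (nat_lit 1216) (nat_lit 3) (nat_lit 201197068445189334301) (ZL.cons (nat_lit 1292) (nat_lit 6) (nat_lit 387636742796568042856) (ZL.cons (nat_lit 1368) (nat_lit 6) (nat_lit 373987874945849967708) (ZL.cons (nat_lit 1444) (nat_lit 3) (nat_lit 186443668778069839465) (ZL.cons (nat_lit 1520) (nat_lit 6) (nat_lit 359247097667074446546) (ZL.cons (nat_lit 1596) (nat_lit 6) (nat_lit 346635192078177885070) (ZL.cons (nat_lit 1672) (nat_lit 3) (nat_lit 172808087988297142175) (ZL.cons (nat_lit 1748) (nat_lit 6) (nat_lit 333014334042169598676) (ZL.cons (nat_lit 1824) (nat_lit 6) (nat_lit 321366894281966761752) (ZL.cons (nat_lit 1900) (nat_lit 3) (nat_lit 160211680427287269433)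 (ZL.cons (nat_lit 1976) (nat_lit 6) (nat_lit 308787659340947697878) (ZL.cons (nat_lit 2052) (nat_lit 6) (nat_lit 298038277196023138880) (ZL.cons (nat_lit 2128) (nat_lit 3) (nat_lit 148582317566811466250) (ZL.cons (nat_lit 2204) (nat_lit 6) (nat_lit 286428944479504615158) (ZL.cons (nat_lit 2280) (nat_lit 6) (nat_lit 276516968471012785456) (ZL.cons (nat_lit 2356) (nat_lit 3) (nat_lit 137854020317728519404) (ZL.cons (nat_lit 2432) (nat_lit 6) (nat_lit 265812034381841609378) (ZL.cons (nat_lit 2508) (nat_lit 6) (nat_lit 256682282718636902094) (ZL.cons (nat_lit 2584) (nat_lit 3) (nat_lit 127966637731746346119) (ZL.cons (nat_lit 2660) (nat_lit 6) (nat_lit 246822150922375818230) (ZL.cons (nat_lit 2736) (nat_lit 6) (nat_lit 238424668909358442916) (ZL.cons (nat_lit 2812) (nat_lit 3) (nat_lit 118865571836556902079) (ZL.cons (nat_lit 2888) (nat_lit 6) (nat_lit 229355388335299677578) (ZL.cons (nat_lit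 2964) (nat_lit 6) (nat_lit 221645250803227873292) (ZL.cons (nat_lit 3040) (nat_lit 3) (nat_lit 110501548903352529814) (ZL.cons (nat_lit 3116) (nat_lit 6) (nat_lit 213318302268590324664) (ZL.cons (nat_lit 3192) (nat_lit 6) (nat_lit 206255462191840718698) (ZL.cons (nat_lit 3268) (nat_lit 3) (nat_lit 102830438041974612283) (ZL.cons (nat_lit 3344) (nat_lit 6) (nat_lit 198627594908951144256) (ZL.cons (nat_lit 3420) (nat_lit 6) (nat_lit 192176780040336835856) (ZL.cons (nat_lit 3496) (nat_lit 3) (nat_lit 95813118673922355828) (ZL.cons (nat_lit 3572) (nat_lit 6) (nat_lit 185209899982233382782) (ZL.cons (nat_lit 3648) (nat_lit 6) (nat_lit 179340560072172794198) (ZL.cons (nat_lit 3724) (nat_lit 3) (nat_lit 89415399159932635897) (ZL.cons (nat_lit 3800) (nat_lit 6) (nat_lit 173983436344121846124) (ZL.cons (nat_lit 3876) (nat_lit 6) (nat_lit 173001672969307358530) (ZL.cons (nat_lit 3952) (nat_lit 6)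 (nat_lit 167687980965519299798) (ZL.cons (nat_lit 4028) (nat_lit 3) (nat_lit 83607989671506167304) (ZL.cons (nat_lit 4104) (nat_lit 6) (nat_lit 162858233763293462662) (ZL.cons (nat_lit 4180) (nat_lit 6) (nat_lit 161949193601428196370) (ZL.cons (nat_lit 4256) (nat_lit 6) (nat_lit 157170105162382593364) (ZL.cons (nat_lit 4332) (nat_lit 3) (nat_lit 78366533311512146131) (ZL.cons (nat_lit 4408) (nat_lit 6) (nat_lit 152850393501792292390) (ZL.cons (nat_lit 4484) (nat_lit 6) (nat_lit 152008689648213342118) (ZL.cons (nat_lit 4560) (nat_lit 6) (nat_lit 147748066368996466234) (ZL.cons (nat_lit 4636) (nat_lit 3) (nat_lit 73671700527387908532) (ZL.cons (nat_lit 4712) (nat_lit 6) (nat_lit 143925948647422749786) (ZL.cons (nat_lit 4788) (nat_lit 6) (nat_lit 143146593227442240276) (ZL.cons (nat_lit 4864) (nat_lit 6) (nat_lit 140519686896993978162) (ZL.cons (nat_lit 4940) (nat_lit 6) (nat_lit 139393396193902486856)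 (ZL.cons (nat_lit 5016) (nat_lit 3) (nat_lit 69509353044071313258) (ZL.cons (nat_lit 5092) (nat_lit 6) (nat_lit 136061568786550395298) (ZL.cons (nat_lit 5168) (nat_lit 6) (nat_lit 135339943397679553162) (ZL.cons (nat_lit 5244) (nat_lit 6) (nat_lit 133131366842972027286) (ZL.cons (nat_lit 5320) (nat_lit 6) (nat_lit 132088505080850276076) (ZL.cons (nat_lit 5396) (nat_lit 3) (nat_lit 65870784898869647140) (ZL.cons (nat_lit 5472) (nat_lit 6) (nat_lit 130585426203501733230) (ZL.cons (nat_lit 5548) (nat_lit 6) (nat_lit 129245123355036547696) (ZL.cons (nat_lit 5624) (nat_lit 6) (nat_lit 128576951698674656826) (ZL.cons (nat_lit 5700) (nat_lit 6) (nat_lit 128408659812498207684) (ZL.cons (nat_lit 5776) (nat_lit 6) (nat_lit 126792948550752064442) (ZL.cons (nat_lit 5852) (nat_lit 6) (nat_lit 125827335808046739248) (ZL.cons (nat_lit 5928) (nat_lit 3) (nat_lit 62753049717397915087) (ZL.cons (nat_lit 6004)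 (nat_lit 6) (nat_lit 124717449261749214560) (ZL.cons (nat_lit 6080) (nat_lit 6) (nat_lit 123476428105762931658) (ZL.cons (nat_lit 6156) (nat_lit 6) (nat_lit 122857750646168588260) (ZL.cons (nat_lit 6232) (nat_lit 6) (nat_lit 123006326232982055240) (ZL.cons (nat_lit 6308) (nat_lit 6) (nat_lit 121510297286920811494) (ZL.cons (nat_lit 6384) (nat_lit 6) (nat_lit 120616211414045510388) (ZL.cons (nat_lit 6460) (nat_lit 3) (nat_lit 60159385163851038032) (ZL.cons (nat_lit 6536) (nat_lit 6) (nat_lit 119634010884238370162) (ZL.cons (nat_lit 6612) (nat_lit 6) (nat_lit 119968263065199922384) (ZL.cons (nat_lit 6688) (nat_lit 6) (nat_lit 120638748180787984178) (ZL.cons (nat_lit 6764) (nat_lit 6) (nat_lit 121649439476131966276) (ZL.cons (nat_lit 6840) (nat_lit 6) (nat_lit 119917292205927240270) (ZL.cons (nat_lit 6916) (nat_lit 6) (nat_lit 118768198542976978320) (ZL.cons (nat_lit 6992) (nat_lit 6) (nat_lit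 118195349043352586288) (ZL.cons (nat_lit 7068) (nat_lit 3) (nat_lit 58559904887605864442) (ZL.cons (nat_lit 7144) (nat_lit 6) (nat_lit 117293363792249457920) (ZL.cons (nat_lit 7220) (nat_lit 6) (nat_lit 117815054311611757506) (ZL.cons (nat_lit 7296) (nat_lit 6) (nat_lit 118687972832672626450) (ZL.cons (nat_lit 7372) (nat_lit 6) (nat_lit 117302760845578882240) (ZL.cons (nat_lit 7448) (nat_lit 6) (nat_lit 116474903555879529364) (ZL.cons (nat_lit 7524) (nat_lit 3) (nat_lit 58099747571299285828) (ZL.cons (nat_lit 7600) (nat_lit 6) (nat_lit 115126097966333798438) (ZL.cons (nat_lit 7676) (nat_lit 6) (nat_lit 115487090321772274838) (ZL.cons (nat_lit 7752) (nat_lit 6) (nat_lit 116211214246607381574) (ZL.cons (nat_lit 7828) (nat_lit 6) (nat_lit 115147238632764546438) (ZL.cons (nat_lit 7904) (nat_lit 6) (nat_lit 114616822429408627886) (ZL.cons (nat_lit 7980) (nat_lit 3) (nat_lit 56726811265353388533)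 (ZL.cons (nat_lit 8056) (nat_lit 6) (nat_lit 113641060869107524430) (ZL.cons (nat_lit 8132) (nat_lit 6) (nat_lit 114204486630018807980) (ZL.cons (nat_lit 8208) (nat_lit 6) (nat_lit 113437952102519407168) (ZL.cons (nat_lit 8284) (nat_lit 3) (nat_lit 56591472156222223162) (ZL.cons (nat_lit 8360) (nat_lit 6) (nat_lit 112266026519823937382) (ZL.cons (nat_lit 8436) (nat_lit 6) (nat_lit 112655898263697491896) (ZL.cons (nat_lit 8512) (nat_lit 6) (nat_lit 112164772149479048792) (ZL.cons (nat_lit 8588) (nat_lit 3) (nat_lit 55676919461111027703) (ZL.cons (nat_lit 8664) (nat_lit 6) (nat_lit 111556272327694862556) (ZL.cons (nat_lit 8740) (nat_lit 3) (nat_lit 55660077001775690148) (ZL.cons (nat_lit 8816) (nat_lit 6) (nat_lit 110899092520167941424) (ZL.cons (nat_lit 8892) (nat_lit 1) (nat_lit 18446744073709551617) ZL.nil)))))))))))))))))))))))))))))))))))))))))))))))))))))))))))))))))))))))))))))))))))))))))))))))))))))))))))))))))))))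

noncomputable def vl : XL := ⟨(nat_lit 0), (nat_lit 76), (nat_lit 167545835), (nat_lit 152), (nat_lit 17591549), (nat_lit 152), (nat_lit 17591549), (nat_lit 1), (nat_lit 4), (nat_lit 2), (nat_lit 5), (nat_lit 2), (nat_lit 4), (nat_lit 0), (nat_lit 0), (nat_lit 0)⟩

noncomputable def cp0 : Nat := (nat_lit 3369777331620844922510951266003886796588509317015905352238270355701793122794564401675923421967164711493533711360932861784838459657168275054857787439652326248779684726749704581997245176241941253060687424351643179874409948730551299371544812143803300403895979095748073798907610996734657879272223952676595745538244438869921434112048364908186491625279188727725333519933121618068982904309129488099259555350418549211619921858958022629642650522324245832929430621871739501920590067401649688230339238467559325069701839087122931349577715373833835928941401772762209210837440499315582884515281699182507823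741106078260370289043961554930700093680698567140252229726709364042951839460243191286502755021434679635535359399110649573846643679843023588802225197788736943694672373976906793057233142648823241596085953146931954697547457975457452590600263592428628391651718542395675512868404091690840771420361670284028678055784295965483819491458617172863259258650653506997776696788133374050752958661595751388438669490384811257433145600396903881598261698138486351716812625886025094644719487609007837208735360663702182284600079622208936575181339621205533394137544813578212452761034197704196689832412584153363027583473484627827708227142992075984788344466768678363284308404415725190698389040836195188379679518450764252804437267805141573477877087022473855737681841864566410715797107899743327893936324626437538063369364614704984619796950751997303087610427043622593385297391362610406603272032703100680957915208706004304218682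4819654511518731176351102151388498601213633900138370731830413494568395947057959621815597892991443467006590492308755025567277869848490615711237789282882956419977551060777777607036231438700748952197930175119175525518452221837949127345839233048490479613085457883935254657980316450356835108118055403718243763868500116507263489769532697558397970107234356205670633531874833802864461554873384163496781462333688809960252046398267444043501201203706720482236641970104347117348258910037285624466307512544655742003061494668153046270467194813001147485253591388876242002584445779623243213030722476273214409814148478091068688571082046286696193442311318093924503104330409551515722954443595641462942633281166482326800562618328901337478650516892358483986602417061640544171389757567453410346084004515957715681216838440342057250130062842722340359545872097522785712657303614479355188761473752055933972285995706783669774134281025528810408449274213384584902943755007034758947109715077450916132303320835130515423858923758721750717431055084711633256617166774036397652281126050740146266488939665547763900267028795157069157161721733597789466670247438115863567527091467489366513921122275324162991899310254711465455917472257601961984)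

noncomputable def cp1 : Nat := (nat_lit 365235341497977675549127550184749451369324801020331779653569905616109400079384381637035963458208636858597215229948381133917324292088954051440394424335769721912228271070600769416195116087564626461184312758638226292184793564420066752812675148728570242416207704138777104532515684576224732411485905944873455243145728017206519418193822822366514012313140161232943297074693575384151789271014012671755558722348136150877659493182958749412492502572504679771501349854925200374055019263832209450097623026854838897685436103490061360631087915863184263286497743383660045109386271283555150505972642389629045073586379349250456949195478647666987311301361826267789757044663859787727909162920696690781366043942804183447169233600553027759978950178889915001357812810011898045113365307249731417377779865792202150142236320676806295946755422249099438525592113301762622559324008928662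478021481422255487034309718396285542127755224992777435416632094167922881458295938718166440752598272932531752650438509827169551161629956407393672906315278815727872323621213923131235490450141145211486261736792507630565329688074374517405344363268423256216292890185281088743287901183006749981872445198177355387937128777149595497879310517102503517814209419208790904225034183061384353608932701955862676912183169470268956989408249115449587776645166896780129559109166431501759952292280472905131276111862837057660208722636292826943394871742341889091081341959397691267064742757606473823739619517139385805463671929102275704226466193778389217800777857851059450718476521737291679599112044053013019338321510630765001974713805443437776567262001662256149629039089797736233218959530789499284881672353416178155574469277275164408931756222209837471600547534038605613378261717919064614384269279832489866713100181107957321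45122530990234016637650109326932504000773925645709933358743370168761124910751554541564730469033486917263719004809714653966243778633266001806517205944471394867973563319769916824930299910584425168229346203620453964986789782095186987275873750637532317954312888755754783780190575144538614492241499473669116658964599216813908525100660456864487545202416591292460139145249666402832405847661974615650193891989432580320385603689803676949285914195686999038335721276837430294640192286854397640612091265026701810314983114930307922934350119847574425342725801071164774431425417134796142579713082249830526427427641769720108571326772390085207848593387970599602505303264558553410368345016224800638011112634580784921337272154620154860030325163693554425984611900948142441128594641688112010329503571577912517795098296149760190741402183800362266327983360061233356608624613624528090059939851803985294507103585594059626377142761446312345522439750625343123226624)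

noncomputable def rc0 : Nat := (nat_lit 340698629779565179196735802524326143873026753648234457171326058950093727530752953677899213003979521690113933365541812667826084279892148738179030330638621296289798732263541718695325090587444066050225013336037242263078109682360687662354363007863937671913909977253778809929646572090175791615031505860415455237278777245108118043071722234358445021684907395730735197803793731373758200749197178098252807220793800797081480818339543233310715180504300027505996261821005271846731868259807500034427344173047056152117136539961377578408506100732516120836743919484124124654587899934009000088422343970300544912468338460418927991559741529010552537534182077909770822637487938238083422148894539068329317950076292726211962853422224564271340924235340786251841193705826556066782318456269295189215471552508278296664416556451928236142223658795431452910554488745808973764954943611780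533659836506732367289912178688759667459575238309255639358410282762036395463387082309282733701182984562650605821536888497371400249321836123750641104540080971203724664881761570791474615879157356999637889607595565414824934832063082060639394452333405030944036049347004596517949483646996561301431826311754779717913159338262095426589464486466102453134665009071753852741169045320897054823524925468180870232323235177135236853324848899507978643110336480934879800319669394552826006989399886390434200302827414004044189549991748105155523206421723657391028292147450983561862795052224450610817725658088247920627096480584783094279278132096246478139132284939871047477086949134922799745712009441482893877529409949750083709331995507941926597222517215600397758326361997801746394585528787403870284868500595738315869638103581035225290404352822716608757615340268325861064622783733668023627983179964551277285720116906493889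31036943770366008119314496995746897404505073254430526596122171259793478359596342377431276255239676503367245837893858549446771591394696012896094811722910219880425561228637362898250953745098580432233934816679505660553956052849159580247650361625540550867502734781817325491514278792906860348902735053353811204742405459849767034862031375233219240106710826440987548790175368434795623296520746665096306014105270838894486214209099059017041756515946138405290814253667173288984437168394838788432604341846563579940581807237519873470508894225284930719459242382507453871289902111974618550060462795981895594078331272554960714492428394412767121070662941311722187373501328265274844562801808808866267400240119638626791984636515723146312218836324358753452869385208034771767505972597322116584661085198077566907872090296425737112663735548788713316531396866254122519617239947596086950703120568007517621197982519977870718868878096805542123534408542419408650240)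

noncomputable def rc1 : Nat := (nat_lit 347540367877736341234227523622287829442745164328718170336480269511424394554050144753413972743904422253063226117012895518480512327081524598987671208032843215457535149773768786283702019707126678167637992166412696989770243562081490648677178992967384761535631696185522470712849032632880892158727857174241406983209263138606615926471643103014714969945674642462513290150816240511430660897879565408330134220847028082619994444345873996117468535494935273853118130320814704926937786137853863463392211001069196259012947209473233159120412130988681165990274250915430745605326756836272063198914839542890384692723293719623668792432397987640666307163934671267109950223970808284811369775051260421030870996868247194202926897820396613121117625292509920985218789778803570122897084765863034457455114098657286855777921304009882328877353327350773909724348323438116078765638847892833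700848763740900197828697812058677332985713659415254183352885428168317777613172066360460039263195994092654468669711953704266346600211018811045156913530404304998829987456104931219334046472496774008242954063516522576500565165311048610030098624267721713556797444422064110803310015766178325832689929552167165681820811200299214618279661203790062530665168099706642410708084827200356741846253949581391631750671090294835136518492030876407317954977828500126630701611626319302275641522895356498320912704862448796437093223030705407335136461553421539885374125022211703193504349779588368604777177206873699149978522082359003170820094343140788876352563090585229217305980354091745232743317002331244881428742628266857288158705257524129119690925849068247146630463756816623498782265193357593505169385002116257422428456459095093919333608360567629811746540962426469407585143846069531906195691652260690252677011185287491127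04394839401990176942893122899747565418915129882336836635010154766488298376476982816049085704561651069432121005514898411577798540574086891316478102742377222156222299101196296544625586570352821135015932015438173021652202459948846795490734753881847927534680486392517296029834742727017522018461277574582569239398206259705661683406197469805283521212620924359347118884189564719312285776674714459106559729880551796778656886131724139636708922316927149111250440344426907662109436739837663389875368421527976926523919416181393322572136502557834508992520164360766228876604463222561770546688577558895502556366589448621636889091111098021055744826348693744787582623063256468733262468802105358263617761068302817172667282421280541292866804787223385648138393501598416243321254070723317289249378361887838300083500628883798886913958396422407887348505485739153752414489756941672664055234977879802472758109213834305229047779875023593245016588364593740927467520)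

noncomputable def rc2 : Nat := (nat_lit 355659005773273142261259355660676073750471062643983549870049543669252719870628221991846480638826344530136511512772726815568353686075237676965209703738591970262954890514588101771050240141457321768637989428948609750811897648975453133040959691432948833271165172371136331849771820318322217252812525804540475438423878310279073468398329702588557644112958373845437140004776774230353210510339018352889541663542140711894116346505931834681637998661448794590001745743442381302688264325917741449621839777010402573954365917958457407598717983924354702246828257709980540791785710792411926650160762958366747953748570971535519222695106466763473963690881106949257660359707458857582857454182233447078100099446876118486212441794078337552707742489040418114906228579093393994521653102752963779000208732254477104771252894922219002167016095257636759146594481114546844952697974964877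912345560255405645348763852953659816586620152959902623643771360268486216474156065218036072828239430130495016690349545179248230201586358898212130051856675021136635178945361591932178121919777965425213160050714209272417304491077671214560160119131866209505874215717098856361127247916774165696776593696077501986918710201970237397968994742377460118446093272441738652946199409892481517312379867190725711015460403844992914194039345204454792296902438034390591998091700570669821006243472714736308708760446656890267260655669656355881158567675027860383890096568930333378305869434813112820766339617928811906889423554252848903388899486887270986977878776997303878907540283168548600448162705992712271486623293645336357474410670444081105485213053386627816269307717804011258430288877998856842757826233937510990243114724558830491915990600762309997278519186874540727358583533146898179341582418062201420170299756629283357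05076964741400428522206424604140611302464921662381978233868686199915686778741314163910949557721359434800084161284884936258994848297490881520398953739358506408997910209106592164941947719915563801750290465369473634864972490383342698970304427582065916066034428687514944658722653199262911434216069856475258934305206385164654725939993824423332368201952277725937268583664860155835948966757607625201564653396939591785429438935896248489890632083430838752681742282756182550361744516554539551347559894252921562411287760284277840287897412648514994934757894417640062834365562638251982610759489043831849712267174084323809601099096315506715425914769413966768591899376935897794304099671279983479941204824816628242794595937332688136767737036936682595568405420058396992981896258843682149335179712779657540968249008764874841933565450972218413393557454833234257953372216864965143802811588640776899596169841913707191734981533470462400996128041957279553028096)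

noncomputable def rc3 : Nat := (nat_lit 365235341497977675549127550184749451369324801020331779653569905616109400079384381637035963458208636858597215229948381133917324292088954051440394424335769721912228271070600769416195116087564626461184312758638226292184793564420066752812675148728570242416207704138777104532515684576224732411485905944873455243145728017206519418193822822366514012313140161232943297074693575384151789271014012671755558722348136150877659493182958749412492502572504679771501349854925200374055019263832209450097623026854838897685436103490061360631087915863184263286497743383660045109386271283555150505972642389629045073586379349250456949195478647666987311301361826267789757044663859787727909162920696690781366043942804183447169233600553027759978950178889915001357812810011898045113365307249731417377779865792202150142236320676806295946755422249099438525592113301762622559324008928662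478021481422255487034309718396285542127755224992777435416632094167922881458295938718166440752598272932531752650438509827169551161629956407393672906315278815727872323621213923131235490450141145211486261736792507630565329688074374517405344363268423256216292890185281088743287901183006749981872445198177355387937128777149595497879310517102503517814209419208790904225034183061384353608932701955862676912183169470268956989408249115449587776645166896780129559109166431501759952292280472905131276111862837057660208722636292826943394871742341889091081341959397691267064742757606473823739619517139385805463671929102275704226466193778389217800777857851059450718476521737291679599112044053013019338321510630765001974713805443437776567262001662256149629039089797736233218959530789499284881672353416178155574469277275164408931756222209837471600547534038605613378261717919064614384269279832489866713100181107957321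45122530990234016637650109326932504000773925645709933358743370168761124910751554541564730469033486917263719004809714653966243778633266001806517205944471394867973563319769916824930299910584425168229346203620453964986789782095186987275873750637532317954312888755754783780190575144538614492241499473669116658964599216813908525100660456864487545202416591292460139145249666402832405847661974615650193891989432580320385603689803676949285914195686999038335721276837430294640192286854397640612091265026701810314983114930307922934350119847574425342725801071164774431425417134796142579713082249830526427427641769720108571326772390085207848593387970599602505303264558553410368345016224800638011112634580784921337272154620154860030325163693554425984611900948142441128594641688112010329503571577912517795098296149760190741402183800362266327983360061233356608624613624528090059939851803985294507103585594059626377142761446312345522439750625343123226624)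

end Vale.Agent.Lib.P154.PChain.BB.S2
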